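import Vale.Agent.P348.G.A9_9

set_option maxRecDepth 1000000
set_option maxHeartbeats 0
set_option linter.all false

namespace Vale.Agent.P348.G9_9_1

noncomputable def sp0 : List Spec :=
  [Spec.mk (nat_lit 161) (nat_lit 5) [nat_lit 323, nat_lit 215] (nat_lit 0) [nat_lit 6721] true,
   Spec.mk (nat_lit 215) (nat_lit 3) [nat_lit 377, nat_lit 161, nat_lit 233] (nat_lit 0) [nat_lit 6775] true,
   Spec.mk (nat_lit 233) (nat_lit 3) [nat_lit 395, nat_lit 215, nat_lit 239] (nat_lit 0) [nat_lit 6793] true,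
   Spec.mk (nat_lit 239) (nat_lit 3) [nat_lit 401, nat_lit 233, nat_lit 241] (nat_lit 0) [nat_lit 6799] false,
   Spec.mk (nat_lit 241) (nat_lit 5) [nat_lit 403, nat_lit 239] (nat_lit 0) [nat_lit 6801] false,
   Spec.mk (nat_lit 323) (nat_lit 3) [nat_lit 809, nat_lit 161, nat_lit 377] (nat_lit 0) [nat_lit 6883] false,
   Spec.mk (nat_lit 377) (nat_lit 3) [nat_lit 863, nat_lit 215, nat_lit 539, nat_lit 323, nat_lit 431, nat_lit 395] (nat_lit 0) [nat_lit 6937] true,
   Spec.mk (nat_lit 395) (nat_lit 2) [nat_lit 881, nat_lit 233, nat_lit 557, nat_lit 449, nat_lit 377, nat_lit 401] (nat_lit 0) [nat_lit 6955] true,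
   Spec.mk (nat_lit 401) (nat_lit 2) [nat_lit 887, nat_lit 239, nat_lit 563, nat_lit 455, nat_lit 395, nat_lit 403] (nat_lit 0) [nat_lit 6961] true,
   Spec.mk (nat_lit 403) (nat_lit 4) [nat_lit 889, nat_lit 241, nat_lit 565, nat_lit 457, nat_lit 401] (nat_lit 0) [nat_lit 6963] true,
   Spec.mk (nat_lit 431) (nat_lit 1) [nat_lit 917, nat_lit 593, nat_lit 377, nat_lit 449] (nat_lit 0) [nat_lit 6991] true,
   Spec.mk (nat_lit 449) (nat_lit 2) [nat_lit 935, nat_lit 611, nat_lit 395, nat_lit 431, nat_lit 467, nat_lit 455] (nat_lit 0) [nat_lit 7009] true,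
   Spec.mk (nat_lit 455) (nat_lit 1) [nat_lit 941, nat_lit 617, nat_lit 401, nat_lit 473, nat_lit 449, nat_lit 457] (nat_lit 0) [nat_lit 7015] true,
   Spec.mk (nat_lit 457) (nat_lit 3) [nat_lit 943, nat_lit 619, nat_lit 403, nat_lit 475, nat_lit 455] (nat_lit 0) [nat_lit 7017] true,
   Spec.mk (nat_lit 467) (nat_lit 1) [nat_lit 953, nat_lit 629, nat_lit 449, nat_lit 473] (nat_lit 0) [nat_lit 7027] true,
   Spec.mk (nat_lit 473) (nat_lit 2) [nat_lit 959, nat_lit 635, nat_lit 455, nat_lit 467, nat_lit 479, nat_lit 475] (nat_lit 0) [nat_lit 7033] true,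
   Spec.mk (nat_lit 475) (nat_lit 3) [nat_lit 961, nat_lit 637, nat_lit 457, nat_lit 481, nat_lit 473] (nat_lit 0) [nat_lit 7035] false,
   Spec.mk (nat_lit 479) (nat_lit 1) [nat_lit 965, nat_lit 641, nat_lit 473, nat_lit 481] (nat_lit 0) [nat_lit 7039] true,
   Spec.mk (nat_lit 481) (nat_lit 4) [nat_lit 967, nat_lit 643, nat_lit 475, nat_lit 479, nat_lit 483] (nat_lit 0) [nat_lit 7041] false,
   Spec.mk (nat_lit 483) (nat_lit 5) [nat_lit 969, nat_lit 645, nat_lit 481] (nat_lit 0) [] false,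
   Spec.mk (nat_lit 539) (nat_lit 1) [nat_lit 1025, nat_lit 377, nat_lit 593, nat_lit 557] (nat_lit 0) [nat_lit 7099] false,
   Spec.mk (nat_lit 557) (nat_lit 0) [nat_lit 1043, nat_lit 395, nat_lit 611, nat_lit 539, nat_lit 563] (nat_lit 1) [nat_lit 7117] true,
   Spec.mk (nat_lit 563) (nat_lit 0) [nat_lit 1049, nat_lit 401, nat_lit 617, nat_lit 557, nat_lit 565] (nat_lit 1) [nat_lit 7123] true,
   Spec.mk (nat_lit 565) (nat_lit 1) [nat_lit 1051, nat_lit 403, nat_lit 619, nat_lit 563] (nat_lit 0) [nat_lit 7125] false,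
   Spec.mk (nat_lit 593) (nat_lit 1) [nat_lit 1079, nat_lit 431, nat_lit 539, nat_lit 611] (nat_lit 0) [nat_lit 7153] true,
   Spec.mk (nat_lit 611) (nat_lit 1) [nat_lit 1097, nat_lit 449, nat_lit 557, nat_lit 665, nat_lit 593, nat_lit 629, nat_lit 617] (nat_lit 0) [nat_lit 7171] true,
   Spec.mk (nat_lit 617) (nat_lit 0) [nat_lit 1103, nat_lit 455, nat_lit 563, nat_lit 671, nat_lit 635, nat_lit 611, nat_lit 619] (nat_lit 0) [nat_lit 7177] true,
   Spec.mk (nat_lit 619) (nat_lit 2) [nat_lit 1105, nat_lit 457, nat_lit 565, nat_lit 673, nat_lit 637, nat_lit 617] (nat_lit 0) [nat_lit 7179] false,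
   Spec.mk (nat_lit 629) (nat_lit 0) [nat_lit 1115, nat_lit 467, nat_lit 683, nat_lit 611, nat_lit 635] (nat_lit 1) [nat_lit 7189] true,
   Spec.mk (nat_lit 635) (nat_lit 0) [nat_lit 1121, nat_lit 473, nat_lit 689, nat_lit 617, nat_lit 629, nat_lit 641, nat_lit 637] (nat_lit 0) [nat_lit 7195] false,
   Spec.mk (nat_lit 637) (nat_lit 1) [nat_lit 1123, nat_lit 475, nat_lit 691, nat_lit 619, nat_lit 643, nat_lit 635] (nat_lit 0) [nat_lit 7197] false,
   Spec.mk (nat_lit 641) (nat_lit 0) [nat_lit 1127, nat_lit 479, nat_lit 695, nat_lit 635, nat_lit 643] (nat_lit 1) [nat_lit 7201] false,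
   Spec.mk (nat_lit 643) (nat_lit 2) [nat_lit 1129, nat_lit 481, nat_lit 697, nat_lit 637, nat_lit 641, nat_lit 645] (nat_lit 0) [nat_lit 7203] false,
   Spec.mk (nat_lit 645) (nat_lit 3) [nat_lit 1131, nat_lit 483, nat_lit 699, nat_lit 643] (nat_lit 0) [] false,
   Spec.mk (nat_lit 665) (nat_lit 1) [nat_lit 1151, nat_lit 611, nat_lit 683, nat_lit 671] (nat_lit 0) [nat_lit 7225] true,
   Spec.mk (nat_lit 671) (nat_lit 0) [nat_lit 1157, nat_lit 617, nat_lit 689, nat_lit 665, nat_lit 673] (nat_lit 1) [nat_lit 7231] false,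
   Spec.mk (nat_lit 673) (nat_lit 1) [nat_lit 1159, nat_lit 619, nat_lit 691, nat_lit 671] (nat_lit 0) [nat_lit 7233] false,
   Spec.mk (nat_lit 683) (nat_lit 1) [nat_lit 1169, nat_lit 629, nat_lit 665, nat_lit 689] (nat_lit 0) [nat_lit 7243] false,
   Spec.mk (nat_lit 689) (nat_lit 1) [nat_lit 1175, nat_lit 635, nat_lit 671, nat_lit 707, nat_lit 683, nat_lit 695, nat_lit 691] (nat_lit 0) [nat_lit 7249] false,
   Spec.mk (nat_lit 691) (nat_lit 2) [nat_lit 1177, nat_lit 637, nat_lit 673, nat_lit 709, nat_lit 697, nat_lit 689] (nat_lit 0) [nat_lit 7251] false,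
   Spec.mk (nat_lit 695) (nat_lit 0) [nat_lit 1181, nat_lit 641, nat_lit 713, nat_lit 689, nat_lit 697] (nat_lit 1) [nat_lit 7255] false,
   Spec.mk (nat_lit 697) (nat_lit 2) [nat_lit 1183, nat_lit 643, nat_lit 715, nat_lit 691, nat_lit 695, nat_lit 699] (nat_lit 0) [nat_lit 7257] false,
   Spec.mk (nat_lit 699) (nat_lit 3) [nat_lit 1185, nat_lit 645, nat_lit 717, nat_lit 697] (nat_lit 0) [] false,
   Spec.mk (nat_lit 707) (nat_lit 1) [nat_lit 1193, nat_lit 689, nat_lit 713, nat_lit 709] (nat_lit 0) [nat_lit 7267] false,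
   Spec.mk (nat_lit 709) (nat_lit 1) [nat_lit 1195, nat_lit 691, nat_lit 715, nat_lit 707] (nat_lit 0) [nat_lit 7269] false,
   Spec.mk (nat_lit 713) (nat_lit 1) [nat_lit 1199, nat_lit 695, nat_lit 707, nat_lit 715] (nat_lit 0) [nat_lit 7273] false,
   Spec.mk (nat_lit 715) (nat_lit 3) [nat_lit 1201, nat_lit 697, nat_lit 709, nat_lit 721, nat_lit 713, nat_lit 717] (nat_lit 0) [nat_lit 7275] false,
   Spec.mk (nat_lit 717) (nat_lit 3) [nat_lit 1203, nat_lit 699, nat_lit 723, nat_lit 715] (nat_lit 0) [] false,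
   Spec.mk (nat_lit 721) (nat_lit 3) [nat_lit 1207, nat_lit 715, nat_lit 723] (nat_lit 0) [nat_lit 7281] false,
   Spec.mk (nat_lit 723) (nat_lit 5) [nat_lit 1209, nat_lit 717, nat_lit 721] (nat_lit 0) [] false,
   Spec.mk (nat_lit 809) (nat_lit 3) [nat_lit 2267, nat_lit 323, nat_lit 863] (nat_lit 0) [nat_lit 7369] false,
   Spec.mk (nat_lit 863) (nat_lit 2) [nat_lit 2321, nat_lit 377, nat_lit 1025, nat_lit 809, nat_lit 917, nat_lit 881] (nat_lit 0) [nat_lit 7423] false,
   Spec.mk (nat_lit 881) (nat_lit 1) [nat_lit 2339, nat_lit 395, nat_lit 1043, nat_lit 935, nat_lit 863, nat_lit 887] (nat_lit 0) [nat_lit 7441] true,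
   Spec.mk (nat_lit 887) (nat_lit 1) [nat_lit 2345, nat_lit 401, nat_lit 1049, nat_lit 941, nat_lit 881, nat_lit 889] (nat_lit 0) [nat_lit 7447] true,
   Spec.mk (nat_lit 889) (nat_lit 3) [nat_lit 2347, nat_lit 403, nat_lit 1051, nat_lit 943, nat_lit 887] (nat_lit 0) [nat_lit 7449] false,
   Spec.mk (nat_lit 917) (nat_lit 0) [nat_lit 2375, nat_lit 431, nat_lit 1079, nat_lit 863, nat_lit 935] (nat_lit 1) [nat_lit 7477] false,
   Spec.mk (nat_lit 935) (nat_lit 0) [nat_lit 2393, nat_lit 449, nat_lit 1097, nat_lit 881, nat_lit 917, nat_lit 953, nat_lit 941] (nat_lit 0) [nat_lit 7495] true,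
   Spec.mk (nat_lit 941) (nat_lit 0) [nat_lit 2399, nat_lit 455, nat_lit 1103, nat_lit 887, nat_lit 959, nat_lit 935, nat_lit 943] (nat_lit 1) [nat_lit 7501] true,
   Spec.mk (nat_lit 943) (nat_lit 1) [nat_lit 2401, nat_lit 457, nat_lit 1105, nat_lit 889, nat_lit 961, nat_lit 941] (nat_lit 0) [nat_lit 7503] true,
   Spec.mk (nat_lit 953) (nat_lit 0) [nat_lit 2411, nat_lit 467, nat_lit 1115, nat_lit 935, nat_lit 959] (nat_lit 1) [nat_lit 7513] true]

noncomputable def sp1 : List Spec :=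
  [Spec.mk (nat_lit 959) (nat_lit 0) [nat_lit 2417, nat_lit 473, nat_lit 1121, nat_lit 941, nat_lit 953, nat_lit 965, nat_lit 961] (nat_lit 0) [nat_lit 7519] true,
   Spec.mk (nat_lit 961) (nat_lit 1) [nat_lit 2419, nat_lit 475, nat_lit 1123, nat_lit 943, nat_lit 967, nat_lit 959] (nat_lit 0) [nat_lit 7521] false,
   Spec.mk (nat_lit 965) (nat_lit 0) [nat_lit 2423, nat_lit 479, nat_lit 1127, nat_lit 959, nat_lit 967] (nat_lit 1) [nat_lit 7525] false,
   Spec.mk (nat_lit 967) (nat_lit 2) [nat_lit 2425, nat_lit 481, nat_lit 1129, nat_lit 961, nat_lit 965, nat_lit 969] (nat_lit 0) [nat_lit 7527] false,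
   Spec.mk (nat_lit 969) (nat_lit 3) [nat_lit 2427, nat_lit 483, nat_lit 1131, nat_lit 967] (nat_lit 0) [] false,
   Spec.mk (nat_lit 1025) (nat_lit 2) [nat_lit 2483, nat_lit 539, nat_lit 1511, nat_lit 863, nat_lit 1079, nat_lit 1043] (nat_lit 0) [nat_lit 7585] false,
   Spec.mk (nat_lit 1043) (nat_lit 0) [nat_lit 2501, nat_lit 557, nat_lit 1529, nat_lit 881, nat_lit 1097, nat_lit 1025, nat_lit 1049] (nat_lit 0) [nat_lit 7603] false,
   Spec.mk (nat_lit 1049) (nat_lit 0) [nat_lit 2507, nat_lit 563, nat_lit 1535, nat_lit 887, nat_lit 1103, nat_lit 1043, nat_lit 1051] (nat_lit 0) [nat_lit 7609] false,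
   Spec.mk (nat_lit 1051) (nat_lit 2) [nat_lit 2509, nat_lit 565, nat_lit 1537, nat_lit 889, nat_lit 1105, nat_lit 1049] (nat_lit 0) [nat_lit 7611] false,
   Spec.mk (nat_lit 1079) (nat_lit 1) [nat_lit 2537, nat_lit 593, nat_lit 1565, nat_lit 917, nat_lit 1241, nat_lit 1025, nat_lit 1097] (nat_lit 0) [nat_lit 7639] false,
   Spec.mk (nat_lit 1097) (nat_lit 1) [nat_lit 2555, nat_lit 611, nat_lit 1583, nat_lit 935, nat_lit 1259, nat_lit 1043, nat_lit 1151, nat_lit 1079, nat_lit 1115, nat_lit 1103] (nat_lit 0) [nat_lit 7657] true,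
   Spec.mk (nat_lit 1103) (nat_lit 0) [nat_lit 2561, nat_lit 617, nat_lit 1589, nat_lit 941, nat_lit 1265, nat_lit 1049, nat_lit 1157, nat_lit 1121, nat_lit 1097, nat_lit 1105] (nat_lit 0) [nat_lit 7663] true,
   Spec.mk (nat_lit 1105) (nat_lit 2) [nat_lit 2563, nat_lit 619, nat_lit 1591, nat_lit 943, nat_lit 1267, nat_lit 1051, nat_lit 1159, nat_lit 1123, nat_lit 1103] (nat_lit 0) [nat_lit 7665] true,
   Spec.mk (nat_lit 1115) (nat_lit 0) [nat_lit 2573, nat_lit 629, nat_lit 1601, nat_lit 953, nat_lit 1277, nat_lit 1169, nat_lit 1097, nat_lit 1121] (nat_lit 1) [nat_lit 7675] true,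
   Spec.mk (nat_lit 1121) (nat_lit 0) [nat_lit 2579, nat_lit 635, nat_lit 1607, nat_lit 959, nat_lit 1283, nat_lit 1175, nat_lit 1103, nat_lit 1115, nat_lit 1127, nat_lit 1123] (nat_lit 0) [nat_lit 7681] true,
   Spec.mk (nat_lit 1123) (nat_lit 1) [nat_lit 2581, nat_lit 637, nat_lit 1609, nat_lit 961, nat_lit 1285, nat_lit 1177, nat_lit 1105, nat_lit 1129, nat_lit 1121] (nat_lit 0) [nat_lit 7683] true,
   Spec.mk (nat_lit 1127) (nat_lit 0) [nat_lit 2585, nat_lit 641, nat_lit 1613, nat_lit 965, nat_lit 1289, nat_lit 1181, nat_lit 1121, nat_lit 1129] (nat_lit 1) [nat_lit 7687] true,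
   Spec.mk (nat_lit 1129) (nat_lit 2) [nat_lit 2587, nat_lit 643, nat_lit 1615, nat_lit 967, nat_lit 1291, nat_lit 1183, nat_lit 1123, nat_lit 1127, nat_lit 1131] (nat_lit 0) [nat_lit 7689] true,
   Spec.mk (nat_lit 1131) (nat_lit 3) [nat_lit 2589, nat_lit 645, nat_lit 1617, nat_lit 969, nat_lit 1293, nat_lit 1185, nat_lit 1129] (nat_lit 0) [] false,
   Spec.mk (nat_lit 1151) (nat_lit 0) [nat_lit 2609, nat_lit 665, nat_lit 1637, nat_lit 1313, nat_lit 1097, nat_lit 1169, nat_lit 1157] (nat_lit 0) [nat_lit 7711] true,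
   Spec.mk (nat_lit 1157) (nat_lit 0) [nat_lit 2615, nat_lit 671, nat_lit 1643, nat_lit 1319, nat_lit 1103, nat_lit 1175, nat_lit 1151, nat_lit 1159] (nat_lit 2) [nat_lit 7717] true,
   Spec.mk (nat_lit 1159) (nat_lit 0) [nat_lit 2617, nat_lit 673, nat_lit 1645, nat_lit 1321, nat_lit 1105, nat_lit 1177, nat_lit 1157] (nat_lit 0) [nat_lit 7719] true,
   Spec.mk (nat_lit 1169) (nat_lit 0) [nat_lit 2627, nat_lit 683, nat_lit 1655, nat_lit 1331, nat_lit 1115, nat_lit 1151, nat_lit 1175] (nat_lit 0) [nat_lit 7729] true,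
   Spec.mk (nat_lit 1175) (nat_lit 0) [nat_lit 2633, nat_lit 689, nat_lit 1661, nat_lit 1337, nat_lit 1121, nat_lit 1157, nat_lit 1193, nat_lit 1169, nat_lit 1181, nat_lit 1177] (nat_lit 0) [nat_lit 7735] true,
   Spec.mk (nat_lit 1177) (nat_lit 1) [nat_lit 2635, nat_lit 691, nat_lit 1663, nat_lit 1339, nat_lit 1123, nat_lit 1159, nat_lit 1195, nat_lit 1183, nat_lit 1175] (nat_lit 0) [nat_lit 7737] true,
   Spec.mk (nat_lit 1181) (nat_lit 0) [nat_lit 2639, nat_lit 695, nat_lit 1667, nat_lit 1343, nat_lit 1127, nat_lit 1199, nat_lit 1175, nat_lit 1183] (nat_lit 2) [nat_lit 7741] true,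
   Spec.mk (nat_lit 1183) (nat_lit 1) [nat_lit 2641, nat_lit 697, nat_lit 1669, nat_lit 1345, nat_lit 1129, nat_lit 1201, nat_lit 1177, nat_lit 1181, nat_lit 1185] (nat_lit 0) [nat_lit 7743] true,
   Spec.mk (nat_lit 1185) (nat_lit 2) [nat_lit 2643, nat_lit 699, nat_lit 1671, nat_lit 1347, nat_lit 1131, nat_lit 1203, nat_lit 1183] (nat_lit 0) [] false,
   Spec.mk (nat_lit 1193) (nat_lit 0) [nat_lit 2651, nat_lit 707, nat_lit 1679, nat_lit 1355, nat_lit 1175, nat_lit 1199, nat_lit 1195] (nat_lit 0) [nat_lit 7753] true,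
   Spec.mk (nat_lit 1195) (nat_lit 0) [nat_lit 2653, nat_lit 709, nat_lit 1681, nat_lit 1357, nat_lit 1177, nat_lit 1201, nat_lit 1193] (nat_lit 0) [nat_lit 7755] true,
   Spec.mk (nat_lit 1199) (nat_lit 0) [nat_lit 2657, nat_lit 713, nat_lit 1685, nat_lit 1361, nat_lit 1181, nat_lit 1193, nat_lit 1201] (nat_lit 0) [nat_lit 7759] false,
   Spec.mk (nat_lit 1201) (nat_lit 2) [nat_lit 2659, nat_lit 715, nat_lit 1687, nat_lit 1363, nat_lit 1183, nat_lit 1195, nat_lit 1207, nat_lit 1199, nat_lit 1203] (nat_lit 0) [nat_lit 7761] false,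
   Spec.mk (nat_lit 1203) (nat_lit 2) [nat_lit 2661, nat_lit 717, nat_lit 1689, nat_lit 1365, nat_lit 1185, nat_lit 1209, nat_lit 1201] (nat_lit 0) [] false,
   Spec.mk (nat_lit 1207) (nat_lit 2) [nat_lit 2665, nat_lit 721, nat_lit 1693, nat_lit 1369, nat_lit 1201, nat_lit 1209] (nat_lit 0) [nat_lit 7767] false,
   Spec.mk (nat_lit 1209) (nat_lit 4) [nat_lit 2667, nat_lit 723, nat_lit 1695, nat_lit 1371, nat_lit 1203, nat_lit 1207] (nat_lit 0) [] false,
   Spec.mk (nat_lit 1241) (nat_lit 1) [nat_lit 2699, nat_lit 1727, nat_lit 1079, nat_lit 1259] (nat_lit 0) [nat_lit 7801] false,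
   Spec.mk (nat_lit 1259) (nat_lit 0) [nat_lit 2717, nat_lit 1745, nat_lit 1097, nat_lit 1313, nat_lit 1241, nat_lit 1277, nat_lit 1265] (nat_lit 0) [nat_lit 7819] false,
   Spec.mk (nat_lit 1265) (nat_lit 0) [nat_lit 2723, nat_lit 1751, nat_lit 1103, nat_lit 1319, nat_lit 1283, nat_lit 1259, nat_lit 1267] (nat_lit 1) [nat_lit 7825] true,
   Spec.mk (nat_lit 1267) (nat_lit 1) [nat_lit 2725, nat_lit 1753, nat_lit 1105, nat_lit 1321, nat_lit 1285, nat_lit 1265] (nat_lit 0) [nat_lit 7827] true,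
   Spec.mk (nat_lit 1277) (nat_lit 0) [nat_lit 2735, nat_lit 1763, nat_lit 1115, nat_lit 1331, nat_lit 1259, nat_lit 1283] (nat_lit 3) [nat_lit 7837] true,
   Spec.mk (nat_lit 1283) (nat_lit 0) [nat_lit 2741, nat_lit 1769, nat_lit 1121, nat_lit 1337, nat_lit 1265, nat_lit 1277, nat_lit 1289, nat_lit 1285] (nat_lit 2) [nat_lit 7843] true,
   Spec.mk (nat_lit 1285) (nat_lit 0) [nat_lit 2743, nat_lit 1771, nat_lit 1123, nat_lit 1339, nat_lit 1267, nat_lit 1291, nat_lit 1283] (nat_lit 1) [nat_lit 7845] true,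
   Spec.mk (nat_lit 1289) (nat_lit 0) [nat_lit 2747, nat_lit 1775, nat_lit 1127, nat_lit 1343, nat_lit 1283, nat_lit 1291] (nat_lit 3) [nat_lit 7849] true,
   Spec.mk (nat_lit 1291) (nat_lit 0) [nat_lit 2749, nat_lit 1777, nat_lit 1129, nat_lit 1345, nat_lit 1285, nat_lit 1289, nat_lit 1293] (nat_lit 0) [nat_lit 7851] false,
   Spec.mk (nat_lit 1293) (nat_lit 1) [nat_lit 2751, nat_lit 1779, nat_lit 1131, nat_lit 1347, nat_lit 1291] (nat_lit 0) [] false,
   Spec.mk (nat_lit 1313) (nat_lit 1) [nat_lit 2771, nat_lit 1799, nat_lit 1151, nat_lit 1259, nat_lit 1331, nat_lit 1319] (nat_lit 0) [nat_lit 7873] true,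
   Spec.mk (nat_lit 1319) (nat_lit 0) [nat_lit 2777, nat_lit 1805, nat_lit 1157, nat_lit 1265, nat_lit 1337, nat_lit 1313, nat_lit 1321] (nat_lit 1) [nat_lit 7879] true,
   Spec.mk (nat_lit 1321) (nat_lit 1) [nat_lit 2779, nat_lit 1807, nat_lit 1159, nat_lit 1267, nat_lit 1339, nat_lit 1319] (nat_lit 0) [nat_lit 7881] true,
   Spec.mk (nat_lit 1331) (nat_lit 0) [nat_lit 2789, nat_lit 1817, nat_lit 1169, nat_lit 1277, nat_lit 1385, nat_lit 1313, nat_lit 1337] (nat_lit 0) [nat_lit 7891] true,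
   Spec.mk (nat_lit 1337) (nat_lit 0) [nat_lit 2795, nat_lit 1823, nat_lit 1175, nat_lit 1283, nat_lit 1391, nat_lit 1319, nat_lit 1355, nat_lit 1331, nat_lit 1343, nat_lit 1339] (nat_lit 0) [nat_lit 7897] true,
   Spec.mk (nat_lit 1339) (nat_lit 1) [nat_lit 2797, nat_lit 1825, nat_lit 1177, nat_lit 1285, nat_lit 1393, nat_lit 1321, nat_lit 1357, nat_lit 1345, nat_lit 1337] (nat_lit 0) [nat_lit 7899] true,
   Spec.mk (nat_lit 1343) (nat_lit 0) [nat_lit 2801, nat_lit 1829, nat_lit 1181, nat_lit 1289, nat_lit 1397, nat_lit 1361, nat_lit 1337, nat_lit 1345] (nat_lit 2) [nat_lit 7903] true,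
   Spec.mk (nat_lit 1345) (nat_lit 1) [nat_lit 2803, nat_lit 1831, nat_lit 1183, nat_lit 1291, nat_lit 1399, nat_lit 1363, nat_lit 1339, nat_lit 1343, nat_lit 1347] (nat_lit 0) [nat_lit 7905] false,
   Spec.mk (nat_lit 1347) (nat_lit 2) [nat_lit 2805, nat_lit 1833, nat_lit 1185, nat_lit 1293, nat_lit 1401, nat_lit 1365, nat_lit 1345] (nat_lit 0) [] false,
   Spec.mk (nat_lit 1355) (nat_lit 0) [nat_lit 2813, nat_lit 1841, nat_lit 1193, nat_lit 1409, nat_lit 1337, nat_lit 1361, nat_lit 1357] (nat_lit 1) [nat_lit 7915] true,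
   Spec.mk (nat_lit 1357) (nat_lit 0) [nat_lit 2815, nat_lit 1843, nat_lit 1195, nat_lit 1411, nat_lit 1339, nat_lit 1363, nat_lit 1355] (nat_lit 1) [nat_lit 7917] false,
   Spec.mk (nat_lit 1361) (nat_lit 0) [nat_lit 2819, nat_lit 1847, nat_lit 1199, nat_lit 1415, nat_lit 1343, nat_lit 1355, nat_lit 1363] (nat_lit 1) [nat_lit 7921] true,
   Spec.mk (nat_lit 1363) (nat_lit 1) [nat_lit 2821, nat_lit 1849, nat_lit 1201, nat_lit 1417, nat_lit 1345, nat_lit 1357, nat_lit 1369, nat_lit 1361, nat_lit 1365] (nat_lit 0) [nat_lit 7923] false,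
   Spec.mk (nat_lit 1365) (nat_lit 1) [nat_lit 2823, nat_lit 1851, nat_lit 1203, nat_lit 1419, nat_lit 1347, nat_lit 1371, nat_lit 1363] (nat_lit 0) [] false,
   Spec.mk (nat_lit 1369) (nat_lit 1) [nat_lit 2827, nat_lit 1855, nat_lit 1207, nat_lit 1423, nat_lit 1363, nat_lit 1371] (nat_lit 0) [nat_lit 7929] false]

noncomputable def sp2 : List Spec :=
  [Spec.mk (nat_lit 1371) (nat_lit 3) [nat_lit 2829, nat_lit 1857, nat_lit 1209, nat_lit 1425, nat_lit 1365, nat_lit 1369] (nat_lit 0) [] false,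
   Spec.mk (nat_lit 1385) (nat_lit 1) [nat_lit 2843, nat_lit 1871, nat_lit 1331, nat_lit 1391] (nat_lit 0) [nat_lit 7945] true,
   Spec.mk (nat_lit 1391) (nat_lit 0) [nat_lit 2849, nat_lit 1877, nat_lit 1337, nat_lit 1409, nat_lit 1385, nat_lit 1397, nat_lit 1393] (nat_lit 0) [nat_lit 7951] true,
   Spec.mk (nat_lit 1393) (nat_lit 1) [nat_lit 2851, nat_lit 1879, nat_lit 1339, nat_lit 1411, nat_lit 1399, nat_lit 1391] (nat_lit 0) [nat_lit 7953] false,
   Spec.mk (nat_lit 1397) (nat_lit 0) [nat_lit 2855, nat_lit 1883, nat_lit 1343, nat_lit 1415, nat_lit 1391, nat_lit 1399] (nat_lit 3) [nat_lit 7957] true,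
   Spec.mk (nat_lit 1399) (nat_lit 0) [nat_lit 2857, nat_lit 1885, nat_lit 1345, nat_lit 1417, nat_lit 1393, nat_lit 1397, nat_lit 1401] (nat_lit 0) [nat_lit 7959] false,
   Spec.mk (nat_lit 1401) (nat_lit 1) [nat_lit 2859, nat_lit 1887, nat_lit 1347, nat_lit 1419, nat_lit 1399] (nat_lit 0) [] false,
   Spec.mk (nat_lit 1409) (nat_lit 1) [nat_lit 2867, nat_lit 1895, nat_lit 1355, nat_lit 1391, nat_lit 1415, nat_lit 1411] (nat_lit 0) [nat_lit 7969] false,
   Spec.mk (nat_lit 1411) (nat_lit 1) [nat_lit 2869, nat_lit 1897, nat_lit 1357, nat_lit 1393, nat_lit 1417, nat_lit 1409] (nat_lit 0) [nat_lit 7971] false,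
   Spec.mk (nat_lit 1415) (nat_lit 0) [nat_lit 2873, nat_lit 1901, nat_lit 1361, nat_lit 1397, nat_lit 1433, nat_lit 1409, nat_lit 1417] (nat_lit 0) [nat_lit 7975] false,
   Spec.mk (nat_lit 1417) (nat_lit 2) [nat_lit 2875, nat_lit 1903, nat_lit 1363, nat_lit 1399, nat_lit 1435, nat_lit 1411, nat_lit 1423, nat_lit 1415, nat_lit 1419] (nat_lit 0) [nat_lit 7977] false,
   Spec.mk (nat_lit 1419) (nat_lit 2) [nat_lit 2877, nat_lit 1905, nat_lit 1365, nat_lit 1401, nat_lit 1437, nat_lit 1425, nat_lit 1417] (nat_lit 0) [] false,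
   Spec.mk (nat_lit 1423) (nat_lit 1) [nat_lit 2881, nat_lit 1909, nat_lit 1369, nat_lit 1441, nat_lit 1417, nat_lit 1425] (nat_lit 0) [nat_lit 7983] false,
   Spec.mk (nat_lit 1425) (nat_lit 3) [nat_lit 2883, nat_lit 1911, nat_lit 1371, nat_lit 1443, nat_lit 1419, nat_lit 1423] (nat_lit 0) [] false,
   Spec.mk (nat_lit 1433) (nat_lit 1) [nat_lit 2891, nat_lit 1919, nat_lit 1415, nat_lit 1435] (nat_lit 0) [nat_lit 7993] false,
   Spec.mk (nat_lit 1435) (nat_lit 2) [nat_lit 2893, nat_lit 1921, nat_lit 1417, nat_lit 1441, nat_lit 1433, nat_lit 1437] (nat_lit 0) [nat_lit 7995] false,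
   Spec.mk (nat_lit 1437) (nat_lit 1) [nat_lit 2895, nat_lit 1923, nat_lit 1419, nat_lit 1443, nat_lit 1435] (nat_lit 0) [] false,
   Spec.mk (nat_lit 1441) (nat_lit 3) [nat_lit 2899, nat_lit 1927, nat_lit 1423, nat_lit 1435, nat_lit 1443] (nat_lit 0) [nat_lit 8001] false,
   Spec.mk (nat_lit 1443) (nat_lit 4) [nat_lit 2901, nat_lit 1929, nat_lit 1425, nat_lit 1437, nat_lit 1449, nat_lit 1441] (nat_lit 0) [] false,
   Spec.mk (nat_lit 1449) (nat_lit 5) [nat_lit 2907, nat_lit 1935, nat_lit 1443] (nat_lit 0) [] false,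
   Spec.mk (nat_lit 1511) (nat_lit 1) [nat_lit 2969, nat_lit 1025, nat_lit 1565, nat_lit 1529] (nat_lit 0) [nat_lit 8071] false,
   Spec.mk (nat_lit 1529) (nat_lit 0) [nat_lit 2987, nat_lit 1043, nat_lit 1583, nat_lit 1511, nat_lit 1535] (nat_lit 1) [nat_lit 8089] false,
   Spec.mk (nat_lit 1535) (nat_lit 0) [nat_lit 2993, nat_lit 1049, nat_lit 1589, nat_lit 1529, nat_lit 1537] (nat_lit 1) [nat_lit 8095] false,
   Spec.mk (nat_lit 1537) (nat_lit 1) [nat_lit 2995, nat_lit 1051, nat_lit 1591, nat_lit 1535] (nat_lit 0) [nat_lit 8097] false,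
   Spec.mk (nat_lit 1565) (nat_lit 0) [nat_lit 3023, nat_lit 1079, nat_lit 1727, nat_lit 1511, nat_lit 1583] (nat_lit 1) [nat_lit 8125] false,
   Spec.mk (nat_lit 1583) (nat_lit 0) [nat_lit 3041, nat_lit 1097, nat_lit 1745, nat_lit 1529, nat_lit 1637, nat_lit 1565, nat_lit 1601, nat_lit 1589] (nat_lit 1) [nat_lit 8143] false,
   Spec.mk (nat_lit 1589) (nat_lit 0) [nat_lit 3047, nat_lit 1103, nat_lit 1751, nat_lit 1535, nat_lit 1643, nat_lit 1607, nat_lit 1583, nat_lit 1591] (nat_lit 2) [nat_lit 8149] true,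
   Spec.mk (nat_lit 1591) (nat_lit 0) [nat_lit 3049, nat_lit 1105, nat_lit 1753, nat_lit 1537, nat_lit 1645, nat_lit 1609, nat_lit 1589] (nat_lit 0) [nat_lit 8151] false,
   Spec.mk (nat_lit 1601) (nat_lit 0) [nat_lit 3059, nat_lit 1115, nat_lit 1763, nat_lit 1655, nat_lit 1583, nat_lit 1607] (nat_lit 3) [nat_lit 8161] true,
   Spec.mk (nat_lit 1607) (nat_lit 0) [nat_lit 3065, nat_lit 1121, nat_lit 1769, nat_lit 1661, nat_lit 1589, nat_lit 1601, nat_lit 1613, nat_lit 1609] (nat_lit 2) [nat_lit 8167] true,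
   Spec.mk (nat_lit 1609) (nat_lit 0) [nat_lit 3067, nat_lit 1123, nat_lit 1771, nat_lit 1663, nat_lit 1591, nat_lit 1615, nat_lit 1607] (nat_lit 1) [nat_lit 8169] false,
   Spec.mk (nat_lit 1613) (nat_lit 0) [nat_lit 3071, nat_lit 1127, nat_lit 1775, nat_lit 1667, nat_lit 1607, nat_lit 1615] (nat_lit 3) [nat_lit 8173] false,
   Spec.mk (nat_lit 1615) (nat_lit 0) [nat_lit 3073, nat_lit 1129, nat_lit 1777, nat_lit 1669, nat_lit 1609, nat_lit 1613, nat_lit 1617] (nat_lit 0) [nat_lit 8175] false,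
   Spec.mk (nat_lit 1617) (nat_lit 1) [nat_lit 3075, nat_lit 1131, nat_lit 1779, nat_lit 1671, nat_lit 1615] (nat_lit 0) [] false,
   Spec.mk (nat_lit 1637) (nat_lit 0) [nat_lit 3095, nat_lit 1151, nat_lit 1799, nat_lit 1583, nat_lit 1655, nat_lit 1643] (nat_lit 3) [nat_lit 8197] false,
   Spec.mk (nat_lit 1643) (nat_lit 0) [nat_lit 3101, nat_lit 1157, nat_lit 1805, nat_lit 1589, nat_lit 1661, nat_lit 1637, nat_lit 1645] (nat_lit 5) [nat_lit 8203] true,
   Spec.mk (nat_lit 1645) (nat_lit 0) [nat_lit 3103, nat_lit 1159, nat_lit 1807, nat_lit 1591, nat_lit 1663, nat_lit 1643] (nat_lit 3) [nat_lit 8205] false,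
   Spec.mk (nat_lit 1655) (nat_lit 0) [nat_lit 3113, nat_lit 1169, nat_lit 1817, nat_lit 1601, nat_lit 1637, nat_lit 1661] (nat_lit 3) [nat_lit 8215] true,
   Spec.mk (nat_lit 1661) (nat_lit 0) [nat_lit 3119, nat_lit 1175, nat_lit 1823, nat_lit 1607, nat_lit 1643, nat_lit 1679, nat_lit 1655, nat_lit 1667, nat_lit 1663] (nat_lit 3) [nat_lit 8221] true,
   Spec.mk (nat_lit 1663) (nat_lit 0) [nat_lit 3121, nat_lit 1177, nat_lit 1825, nat_lit 1609, nat_lit 1645, nat_lit 1681, nat_lit 1669, nat_lit 1661] (nat_lit 2) [nat_lit 8223] false,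
   Spec.mk (nat_lit 1667) (nat_lit 0) [nat_lit 3125, nat_lit 1181, nat_lit 1829, nat_lit 1613, nat_lit 1685, nat_lit 1661, nat_lit 1669] (nat_lit 5) [nat_lit 8227] true,
   Spec.mk (nat_lit 1669) (nat_lit 0) [nat_lit 3127, nat_lit 1183, nat_lit 1831, nat_lit 1615, nat_lit 1687, nat_lit 1663, nat_lit 1667, nat_lit 1671] (nat_lit 2) [nat_lit 8229] false,
   Spec.mk (nat_lit 1671) (nat_lit 0) [nat_lit 3129, nat_lit 1185, nat_lit 1833, nat_lit 1617, nat_lit 1689, nat_lit 1669] (nat_lit 1) [] false,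
   Spec.mk (nat_lit 1679) (nat_lit 0) [nat_lit 3137, nat_lit 1193, nat_lit 1841, nat_lit 1661, nat_lit 1685, nat_lit 1681] (nat_lit 3) [nat_lit 8239] true,
   Spec.mk (nat_lit 1681) (nat_lit 0) [nat_lit 3139, nat_lit 1195, nat_lit 1843, nat_lit 1663, nat_lit 1687, nat_lit 1679] (nat_lit 3) [nat_lit 8241] false,
   Spec.mk (nat_lit 1685) (nat_lit 0) [nat_lit 3143, nat_lit 1199, nat_lit 1847, nat_lit 1667, nat_lit 1679, nat_lit 1687] (nat_lit 3) [nat_lit 8245] false,
   Spec.mk (nat_lit 1687) (nat_lit 0) [nat_lit 3145, nat_lit 1201, nat_lit 1849, nat_lit 1669, nat_lit 1681, nat_lit 1693, nat_lit 1685, nat_lit 1689] (nat_lit 1) [nat_lit 8247] false,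
   Spec.mk (nat_lit 1689) (nat_lit 0) [nat_lit 3147, nat_lit 1203, nat_lit 1851, nat_lit 1671, nat_lit 1695, nat_lit 1687] (nat_lit 1) [] false,
   Spec.mk (nat_lit 1693) (nat_lit 0) [nat_lit 3151, nat_lit 1207, nat_lit 1855, nat_lit 1687, nat_lit 1695] (nat_lit 1) [nat_lit 8253] false,
   Spec.mk (nat_lit 1695) (nat_lit 1) [nat_lit 3153, nat_lit 1209, nat_lit 1857, nat_lit 1689, nat_lit 1693] (nat_lit 0) [] false,
   Spec.mk (nat_lit 1727) (nat_lit 1) [nat_lit 3185, nat_lit 1241, nat_lit 1565, nat_lit 1745] (nat_lit 0) [nat_lit 8287] false,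
   Spec.mk (nat_lit 1745) (nat_lit 0) [nat_lit 3203, nat_lit 1259, nat_lit 1583, nat_lit 1799, nat_lit 1727, nat_lit 1763, nat_lit 1751] (nat_lit 0) [nat_lit 8305] false,
   Spec.mk (nat_lit 1751) (nat_lit 0) [nat_lit 3209, nat_lit 1265, nat_lit 1589, nat_lit 1805, nat_lit 1769, nat_lit 1745, nat_lit 1753] (nat_lit 1) [nat_lit 8311] true,
   Spec.mk (nat_lit 1753) (nat_lit 1) [nat_lit 3211, nat_lit 1267, nat_lit 1591, nat_lit 1807, nat_lit 1771, nat_lit 1751] (nat_lit 0) [nat_lit 8313] false,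
   Spec.mk (nat_lit 1763) (nat_lit 0) [nat_lit 3221, nat_lit 1277, nat_lit 1601, nat_lit 1817, nat_lit 1745, nat_lit 1769] (nat_lit 3) [nat_lit 8323] false,
   Spec.mk (nat_lit 1769) (nat_lit 0) [nat_lit 3227, nat_lit 1283, nat_lit 1607, nat_lit 1823, nat_lit 1751, nat_lit 1763, nat_lit 1775, nat_lit 1771] (nat_lit 2) [nat_lit 8329] true,
   Spec.mk (nat_lit 1771) (nat_lit 0) [nat_lit 3229, nat_lit 1285, nat_lit 1609, nat_lit 1825, nat_lit 1753, nat_lit 1777, nat_lit 1769] (nat_lit 1) [nat_lit 8331] false,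
   Spec.mk (nat_lit 1775) (nat_lit 0) [nat_lit 3233, nat_lit 1289, nat_lit 1613, nat_lit 1829, nat_lit 1769, nat_lit 1777] (nat_lit 3) [nat_lit 8335] false,
   Spec.mk (nat_lit 1777) (nat_lit 0) [nat_lit 3235, nat_lit 1291, nat_lit 1615, nat_lit 1831, nat_lit 1771, nat_lit 1775, nat_lit 1779] (nat_lit 0) [nat_lit 8337] false,
   Spec.mk (nat_lit 1779) (nat_lit 1) [nat_lit 3237, nat_lit 1293, nat_lit 1617, nat_lit 1833, nat_lit 1777] (nat_lit 0) [] false]

noncomputable def sp3 : List Spec :=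
  [Spec.mk (nat_lit 1799) (nat_lit 0) [nat_lit 3257, nat_lit 1313, nat_lit 1637, nat_lit 1961, nat_lit 1745, nat_lit 1817, nat_lit 1805] (nat_lit 0) [nat_lit 8359] false,
   Spec.mk (nat_lit 1805) (nat_lit 0) [nat_lit 3263, nat_lit 1319, nat_lit 1643, nat_lit 1967, nat_lit 1751, nat_lit 1823, nat_lit 1799, nat_lit 1807] (nat_lit 2) [nat_lit 8365] true,
   Spec.mk (nat_lit 1807) (nat_lit 0) [nat_lit 3265, nat_lit 1321, nat_lit 1645, nat_lit 1969, nat_lit 1753, nat_lit 1825, nat_lit 1805] (nat_lit 0) [nat_lit 8367] false,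
   Spec.mk (nat_lit 1817) (nat_lit 0) [nat_lit 3275, nat_lit 1331, nat_lit 1655, nat_lit 1979, nat_lit 1763, nat_lit 1871, nat_lit 1799, nat_lit 1823] (nat_lit 1) [nat_lit 8377] true,
   Spec.mk (nat_lit 1823) (nat_lit 0) [nat_lit 3281, nat_lit 1337, nat_lit 1661, nat_lit 1985, nat_lit 1769, nat_lit 1877, nat_lit 1805, nat_lit 1841, nat_lit 1817, nat_lit 1829, nat_lit 1825] (nat_lit 1) [nat_lit 8383] true,
   Spec.mk (nat_lit 1825) (nat_lit 0) [nat_lit 3283, nat_lit 1339, nat_lit 1663, nat_lit 1987, nat_lit 1771, nat_lit 1879, nat_lit 1807, nat_lit 1843, nat_lit 1831, nat_lit 1823] (nat_lit 0) [nat_lit 8385] false,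
   Spec.mk (nat_lit 1829) (nat_lit 0) [nat_lit 3287, nat_lit 1343, nat_lit 1667, nat_lit 1991, nat_lit 1775, nat_lit 1883, nat_lit 1847, nat_lit 1823, nat_lit 1831] (nat_lit 3) [nat_lit 8389] false,
   Spec.mk (nat_lit 1831) (nat_lit 0) [nat_lit 3289, nat_lit 1345, nat_lit 1669, nat_lit 1993, nat_lit 1777, nat_lit 1885, nat_lit 1849, nat_lit 1825, nat_lit 1829, nat_lit 1833] (nat_lit 0) [nat_lit 8391] false,
   Spec.mk (nat_lit 1833) (nat_lit 1) [nat_lit 3291, nat_lit 1347, nat_lit 1671, nat_lit 1995, nat_lit 1779, nat_lit 1887, nat_lit 1851, nat_lit 1831] (nat_lit 0) [] false,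
   Spec.mk (nat_lit 1841) (nat_lit 0) [nat_lit 3299, nat_lit 1355, nat_lit 1679, nat_lit 2003, nat_lit 1895, nat_lit 1823, nat_lit 1847, nat_lit 1843] (nat_lit 2) [nat_lit 8401] false,
   Spec.mk (nat_lit 1843) (nat_lit 0) [nat_lit 3301, nat_lit 1357, nat_lit 1681, nat_lit 2005, nat_lit 1897, nat_lit 1825, nat_lit 1849, nat_lit 1841] (nat_lit 2) [nat_lit 8403] false,
   Spec.mk (nat_lit 1847) (nat_lit 0) [nat_lit 3305, nat_lit 1361, nat_lit 1685, nat_lit 2009, nat_lit 1901, nat_lit 1829, nat_lit 1841, nat_lit 1849] (nat_lit 2) [nat_lit 8407] false,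
   Spec.mk (nat_lit 1849) (nat_lit 0) [nat_lit 3307, nat_lit 1363, nat_lit 1687, nat_lit 2011, nat_lit 1903, nat_lit 1831, nat_lit 1843, nat_lit 1855, nat_lit 1847, nat_lit 1851] (nat_lit 0) [nat_lit 8409] false,
   Spec.mk (nat_lit 1851) (nat_lit 0) [nat_lit 3309, nat_lit 1365, nat_lit 1689, nat_lit 2013, nat_lit 1905, nat_lit 1833, nat_lit 1857, nat_lit 1849] (nat_lit 0) [] false,
   Spec.mk (nat_lit 1855) (nat_lit 0) [nat_lit 3313, nat_lit 1369, nat_lit 1693, nat_lit 2017, nat_lit 1909, nat_lit 1849, nat_lit 1857] (nat_lit 0) [nat_lit 8415] false,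
   Spec.mk (nat_lit 1857) (nat_lit 2) [nat_lit 3315, nat_lit 1371, nat_lit 1695, nat_lit 2019, nat_lit 1911, nat_lit 1851, nat_lit 1855] (nat_lit 0) [] false,
   Spec.mk (nat_lit 1871) (nat_lit 0) [nat_lit 3329, nat_lit 1385, nat_lit 2033, nat_lit 1817, nat_lit 1877] (nat_lit 1) [nat_lit 8431] true,
   Spec.mk (nat_lit 1877) (nat_lit 0) [nat_lit 3335, nat_lit 1391, nat_lit 2039, nat_lit 1823, nat_lit 1895, nat_lit 1871, nat_lit 1883, nat_lit 1879] (nat_lit 2) [nat_lit 8437] false,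
   Spec.mk (nat_lit 1879) (nat_lit 0) [nat_lit 3337, nat_lit 1393, nat_lit 2041, nat_lit 1825, nat_lit 1897, nat_lit 1885, nat_lit 1877] (nat_lit 1) [nat_lit 8439] false,
   Spec.mk (nat_lit 1883) (nat_lit 0) [nat_lit 3341, nat_lit 1397, nat_lit 2045, nat_lit 1829, nat_lit 1901, nat_lit 1877, nat_lit 1885] (nat_lit 5) [nat_lit 8443] false,
   Spec.mk (nat_lit 1885) (nat_lit 0) [nat_lit 3343, nat_lit 1399, nat_lit 2047, nat_lit 1831, nat_lit 1903, nat_lit 1879, nat_lit 1883, nat_lit 1887] (nat_lit 2) [nat_lit 8445] false,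
   Spec.mk (nat_lit 1887) (nat_lit 0) [nat_lit 3345, nat_lit 1401, nat_lit 2049, nat_lit 1833, nat_lit 1905, nat_lit 1885] (nat_lit 1) [] false,
   Spec.mk (nat_lit 1895) (nat_lit 0) [nat_lit 3353, nat_lit 1409, nat_lit 2057, nat_lit 1841, nat_lit 1877, nat_lit 1901, nat_lit 1897] (nat_lit 1) [nat_lit 8455] false,
   Spec.mk (nat_lit 1897) (nat_lit 0) [nat_lit 3355, nat_lit 1411, nat_lit 2059, nat_lit 1843, nat_lit 1879, nat_lit 1903, nat_lit 1895] (nat_lit 1) [nat_lit 8457] false,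
   Spec.mk (nat_lit 1901) (nat_lit 0) [nat_lit 3359, nat_lit 1415, nat_lit 2063, nat_lit 1847, nat_lit 1883, nat_lit 1919, nat_lit 1895, nat_lit 1903] (nat_lit 2) [nat_lit 8461] false,
   Spec.mk (nat_lit 1903) (nat_lit 0) [nat_lit 3361, nat_lit 1417, nat_lit 2065, nat_lit 1849, nat_lit 1885, nat_lit 1921, nat_lit 1897, nat_lit 1909, nat_lit 1901, nat_lit 1905] (nat_lit 0) [nat_lit 8463] false,
   Spec.mk (nat_lit 1905) (nat_lit 0) [nat_lit 3363, nat_lit 1419, nat_lit 2067, nat_lit 1851, nat_lit 1887, nat_lit 1923, nat_lit 1911, nat_lit 1903] (nat_lit 0) [] false,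
   Spec.mk (nat_lit 1909) (nat_lit 0) [nat_lit 3367, nat_lit 1423, nat_lit 2071, nat_lit 1855, nat_lit 1927, nat_lit 1903, nat_lit 1911] (nat_lit 1) [nat_lit 8469] false,
   Spec.mk (nat_lit 1911) (nat_lit 1) [nat_lit 3369, nat_lit 1425, nat_lit 2073, nat_lit 1857, nat_lit 1929, nat_lit 1905, nat_lit 1909] (nat_lit 0) [] false,
   Spec.mk (nat_lit 1919) (nat_lit 0) [nat_lit 3377, nat_lit 1433, nat_lit 2081, nat_lit 1901, nat_lit 1921] (nat_lit 1) [nat_lit 8479] false,
   Spec.mk (nat_lit 1921) (nat_lit 0) [nat_lit 3379, nat_lit 1435, nat_lit 2083, nat_lit 1903, nat_lit 1927, nat_lit 1919, nat_lit 1923] (nat_lit 0) [nat_lit 8481] false,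
   Spec.mk (nat_lit 1923) (nat_lit 0) [nat_lit 3381, nat_lit 1437, nat_lit 2085, nat_lit 1905, nat_lit 1929, nat_lit 1921] (nat_lit 1) [] false,
   Spec.mk (nat_lit 1927) (nat_lit 1) [nat_lit 3385, nat_lit 1441, nat_lit 2089, nat_lit 1909, nat_lit 1921, nat_lit 1929] (nat_lit 0) [nat_lit 8487] false,
   Spec.mk (nat_lit 1929) (nat_lit 2) [nat_lit 3387, nat_lit 1443, nat_lit 2091, nat_lit 1911, nat_lit 1923, nat_lit 1935, nat_lit 1927] (nat_lit 0) [] false,
   Spec.mk (nat_lit 1935) (nat_lit 3) [nat_lit 3393, nat_lit 1449, nat_lit 2097, nat_lit 1929] (nat_lit 0) [] false,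
   Spec.mk (nat_lit 1961) (nat_lit 1) [nat_lit 3419, nat_lit 1799, nat_lit 1979, nat_lit 1967] (nat_lit 0) [nat_lit 8521] false,
   Spec.mk (nat_lit 1967) (nat_lit 0) [nat_lit 3425, nat_lit 1805, nat_lit 1985, nat_lit 1961, nat_lit 1969] (nat_lit 1) [nat_lit 8527] false,
   Spec.mk (nat_lit 1969) (nat_lit 1) [nat_lit 3427, nat_lit 1807, nat_lit 1987, nat_lit 1967] (nat_lit 0) [nat_lit 8529] false,
   Spec.mk (nat_lit 1979) (nat_lit 0) [nat_lit 3437, nat_lit 1817, nat_lit 2033, nat_lit 1961, nat_lit 1985] (nat_lit 1) [nat_lit 8539] false,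
   Spec.mk (nat_lit 1985) (nat_lit 0) [nat_lit 3443, nat_lit 1823, nat_lit 2039, nat_lit 1967, nat_lit 2003, nat_lit 1979, nat_lit 1991, nat_lit 1987] (nat_lit 1) [nat_lit 8545] false,
   Spec.mk (nat_lit 1987) (nat_lit 0) [nat_lit 3445, nat_lit 1825, nat_lit 2041, nat_lit 1969, nat_lit 2005, nat_lit 1993, nat_lit 1985] (nat_lit 0) [nat_lit 8547] false,
   Spec.mk (nat_lit 1991) (nat_lit 0) [nat_lit 3449, nat_lit 1829, nat_lit 2045, nat_lit 2009, nat_lit 1985, nat_lit 1993] (nat_lit 3) [nat_lit 8551] false,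
   Spec.mk (nat_lit 1993) (nat_lit 0) [nat_lit 3451, nat_lit 1831, nat_lit 2047, nat_lit 2011, nat_lit 1987, nat_lit 1991, nat_lit 1995] (nat_lit 0) [nat_lit 8553] false,
   Spec.mk (nat_lit 1995) (nat_lit 1) [nat_lit 3453, nat_lit 1833, nat_lit 2049, nat_lit 2013, nat_lit 1993] (nat_lit 0) [] false,
   Spec.mk (nat_lit 2003) (nat_lit 0) [nat_lit 3461, nat_lit 1841, nat_lit 2057, nat_lit 1985, nat_lit 2009, nat_lit 2005] (nat_lit 3) [nat_lit 8563] false,
   Spec.mk (nat_lit 2005) (nat_lit 0) [nat_lit 3463, nat_lit 1843, nat_lit 2059, nat_lit 1987, nat_lit 2011, nat_lit 2003] (nat_lit 3) [nat_lit 8565] false,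
   Spec.mk (nat_lit 2009) (nat_lit 0) [nat_lit 3467, nat_lit 1847, nat_lit 2063, nat_lit 1991, nat_lit 2003, nat_lit 2011] (nat_lit 3) [nat_lit 8569] false,
   Spec.mk (nat_lit 2011) (nat_lit 0) [nat_lit 3469, nat_lit 1849, nat_lit 2065, nat_lit 1993, nat_lit 2005, nat_lit 2017, nat_lit 2009, nat_lit 2013] (nat_lit 1) [nat_lit 8571] false,
   Spec.mk (nat_lit 2013) (nat_lit 0) [nat_lit 3471, nat_lit 1851, nat_lit 2067, nat_lit 1995, nat_lit 2019, nat_lit 2011] (nat_lit 1) [] false,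
   Spec.mk (nat_lit 2017) (nat_lit 0) [nat_lit 3475, nat_lit 1855, nat_lit 2071, nat_lit 2011, nat_lit 2019] (nat_lit 1) [nat_lit 8577] false,
   Spec.mk (nat_lit 2019) (nat_lit 1) [nat_lit 3477, nat_lit 1857, nat_lit 2073, nat_lit 2013, nat_lit 2017] (nat_lit 0) [] false,
   Spec.mk (nat_lit 2033) (nat_lit 1) [nat_lit 3491, nat_lit 1871, nat_lit 1979, nat_lit 2039] (nat_lit 0) [nat_lit 8593] false,
   Spec.mk (nat_lit 2039) (nat_lit 0) [nat_lit 3497, nat_lit 1877, nat_lit 1985, nat_lit 2057, nat_lit 2033, nat_lit 2045, nat_lit 2041] (nat_lit 0) [nat_lit 8599] false,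
   Spec.mk (nat_lit 2041) (nat_lit 1) [nat_lit 3499, nat_lit 1879, nat_lit 1987, nat_lit 2059, nat_lit 2047, nat_lit 2039] (nat_lit 0) [nat_lit 8601] false,
   Spec.mk (nat_lit 2045) (nat_lit 0) [nat_lit 3503, nat_lit 1883, nat_lit 1991, nat_lit 2063, nat_lit 2039, nat_lit 2047] (nat_lit 3) [nat_lit 8605] false,
   Spec.mk (nat_lit 2047) (nat_lit 0) [nat_lit 3505, nat_lit 1885, nat_lit 1993, nat_lit 2065, nat_lit 2041, nat_lit 2045, nat_lit 2049] (nat_lit 0) [nat_lit 8607] false,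
   Spec.mk (nat_lit 2049) (nat_lit 1) [nat_lit 3507, nat_lit 1887, nat_lit 1995, nat_lit 2067, nat_lit 2047] (nat_lit 0) [] false,
   Spec.mk (nat_lit 2057) (nat_lit 0) [nat_lit 3515, nat_lit 1895, nat_lit 2003, nat_lit 2111, nat_lit 2039, nat_lit 2063, nat_lit 2059] (nat_lit 0) [nat_lit 8617] false,
   Spec.mk (nat_lit 2059) (nat_lit 0) [nat_lit 3517, nat_lit 1897, nat_lit 2005, nat_lit 2113, nat_lit 2041, nat_lit 2065, nat_lit 2057] (nat_lit 0) [nat_lit 8619] false,
   Spec.mk (nat_lit 2063) (nat_lit 0) [nat_lit 3521, nat_lit 1901, nat_lit 2009, nat_lit 2117, nat_lit 2045, nat_lit 2081, nat_lit 2057, nat_lit 2065] (nat_lit 1) [nat_lit 8623] false]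

noncomputable def sp4 : List Spec :=
  [Spec.mk (nat_lit 2065) (nat_lit 1) [nat_lit 3523, nat_lit 1903, nat_lit 2011, nat_lit 2119, nat_lit 2047, nat_lit 2083, nat_lit 2059, nat_lit 2071, nat_lit 2063, nat_lit 2067] (nat_lit 0) [nat_lit 8625] false,
   Spec.mk (nat_lit 2067) (nat_lit 1) [nat_lit 3525, nat_lit 1905, nat_lit 2013, nat_lit 2121, nat_lit 2049, nat_lit 2085, nat_lit 2073, nat_lit 2065] (nat_lit 0) [] false,
   Spec.mk (nat_lit 2071) (nat_lit 0) [nat_lit 3529, nat_lit 1909, nat_lit 2017, nat_lit 2125, nat_lit 2089, nat_lit 2065, nat_lit 2073] (nat_lit 0) [nat_lit 8631] false,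
   Spec.mk (nat_lit 2073) (nat_lit 2) [nat_lit 3531, nat_lit 1911, nat_lit 2019, nat_lit 2127, nat_lit 2091, nat_lit 2067, nat_lit 2071] (nat_lit 0) [] false,
   Spec.mk (nat_lit 2081) (nat_lit 0) [nat_lit 3539, nat_lit 1919, nat_lit 2135, nat_lit 2063, nat_lit 2083] (nat_lit 1) [nat_lit 8641] false,
   Spec.mk (nat_lit 2083) (nat_lit 0) [nat_lit 3541, nat_lit 1921, nat_lit 2137, nat_lit 2065, nat_lit 2089, nat_lit 2081, nat_lit 2085] (nat_lit 0) [nat_lit 8643] false,
   Spec.mk (nat_lit 2085) (nat_lit 0) [nat_lit 3543, nat_lit 1923, nat_lit 2139, nat_lit 2067, nat_lit 2091, nat_lit 2083] (nat_lit 1) [] false,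
   Spec.mk (nat_lit 2089) (nat_lit 1) [nat_lit 3547, nat_lit 1927, nat_lit 2143, nat_lit 2071, nat_lit 2083, nat_lit 2091] (nat_lit 0) [nat_lit 8649] false,
   Spec.mk (nat_lit 2091) (nat_lit 2) [nat_lit 3549, nat_lit 1929, nat_lit 2145, nat_lit 2073, nat_lit 2085, nat_lit 2097, nat_lit 2089] (nat_lit 0) [] false,
   Spec.mk (nat_lit 2097) (nat_lit 3) [nat_lit 3555, nat_lit 1935, nat_lit 2151, nat_lit 2091] (nat_lit 0) [] false,
   Spec.mk (nat_lit 2111) (nat_lit 1) [nat_lit 3569, nat_lit 2057, nat_lit 2117, nat_lit 2113] (nat_lit 0) [nat_lit 8671] false,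
   Spec.mk (nat_lit 2113) (nat_lit 1) [nat_lit 3571, nat_lit 2059, nat_lit 2119, nat_lit 2111] (nat_lit 0) [nat_lit 8673] false,
   Spec.mk (nat_lit 2117) (nat_lit 0) [nat_lit 3575, nat_lit 2063, nat_lit 2135, nat_lit 2111, nat_lit 2119] (nat_lit 1) [nat_lit 8677] false,
   Spec.mk (nat_lit 2119) (nat_lit 1) [nat_lit 3577, nat_lit 2065, nat_lit 2137, nat_lit 2113, nat_lit 2125, nat_lit 2117, nat_lit 2121] (nat_lit 0) [nat_lit 8679] false,
   Spec.mk (nat_lit 2121) (nat_lit 1) [nat_lit 3579, nat_lit 2067, nat_lit 2139, nat_lit 2127, nat_lit 2119] (nat_lit 0) [] false,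
   Spec.mk (nat_lit 2125) (nat_lit 0) [nat_lit 3583, nat_lit 2071, nat_lit 2143, nat_lit 2119, nat_lit 2127] (nat_lit 1) [nat_lit 8685] false,
   Spec.mk (nat_lit 2127) (nat_lit 1) [nat_lit 3585, nat_lit 2073, nat_lit 2145, nat_lit 2121, nat_lit 2125] (nat_lit 0) [] false,
   Spec.mk (nat_lit 2135) (nat_lit 1) [nat_lit 3593, nat_lit 2081, nat_lit 2117, nat_lit 2137] (nat_lit 0) [nat_lit 8695] false,
   Spec.mk (nat_lit 2137) (nat_lit 2) [nat_lit 3595, nat_lit 2083, nat_lit 2119, nat_lit 2143, nat_lit 2135, nat_lit 2139] (nat_lit 0) [nat_lit 8697] false,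
   Spec.mk (nat_lit 2139) (nat_lit 1) [nat_lit 3597, nat_lit 2085, nat_lit 2121, nat_lit 2145, nat_lit 2137] (nat_lit 0) [] false,
   Spec.mk (nat_lit 2143) (nat_lit 2) [nat_lit 3601, nat_lit 2089, nat_lit 2125, nat_lit 2161, nat_lit 2137, nat_lit 2145] (nat_lit 0) [nat_lit 8703] false,
   Spec.mk (nat_lit 2145) (nat_lit 3) [nat_lit 3603, nat_lit 2091, nat_lit 2127, nat_lit 2163, nat_lit 2139, nat_lit 2151, nat_lit 2143] (nat_lit 0) [] false,
   Spec.mk (nat_lit 2151) (nat_lit 3) [nat_lit 3609, nat_lit 2097, nat_lit 2169, nat_lit 2145] (nat_lit 0) [] false,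
   Spec.mk (nat_lit 2161) (nat_lit 3) [nat_lit 3619, nat_lit 2143, nat_lit 2163] (nat_lit 0) [nat_lit 8721] false,
   Spec.mk (nat_lit 2163) (nat_lit 3) [nat_lit 3621, nat_lit 2145, nat_lit 2169, nat_lit 2161] (nat_lit 0) [] false,
   Spec.mk (nat_lit 2169) (nat_lit 5) [nat_lit 3627, nat_lit 2151, nat_lit 2163] (nat_lit 0) [] false,
   Spec.mk (nat_lit 2267) (nat_lit 3) [nat_lit 6641, nat_lit 809, nat_lit 2321] (nat_lit 0) [nat_lit 8827] false,
   Spec.mk (nat_lit 2321) (nat_lit 2) [nat_lit 6695, nat_lit 863, nat_lit 2483, nat_lit 2267, nat_lit 2375, nat_lit 2339] (nat_lit 0) [nat_lit 8881] false,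
   Spec.mk (nat_lit 2339) (nat_lit 1) [nat_lit 6713, nat_lit 881, nat_lit 2501, nat_lit 2393, nat_lit 2321, nat_lit 2345] (nat_lit 0) [nat_lit 8899] false,
   Spec.mk (nat_lit 2345) (nat_lit 1) [nat_lit 6719, nat_lit 887, nat_lit 2507, nat_lit 2399, nat_lit 2339, nat_lit 2347] (nat_lit 0) [nat_lit 8905] false,
   Spec.mk (nat_lit 2347) (nat_lit 3) [nat_lit 6721, nat_lit 889, nat_lit 2509, nat_lit 2401, nat_lit 2345] (nat_lit 0) [nat_lit 8907] false,
   Spec.mk (nat_lit 2375) (nat_lit 0) [nat_lit 6749, nat_lit 917, nat_lit 2537, nat_lit 2321, nat_lit 2393] (nat_lit 1) [nat_lit 8935] false,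
   Spec.mk (nat_lit 2393) (nat_lit 0) [nat_lit 6767, nat_lit 935, nat_lit 2555, nat_lit 2339, nat_lit 2375, nat_lit 2411, nat_lit 2399] (nat_lit 0) [nat_lit 8953] false,
   Spec.mk (nat_lit 2399) (nat_lit 0) [nat_lit 6773, nat_lit 941, nat_lit 2561, nat_lit 2345, nat_lit 2417, nat_lit 2393, nat_lit 2401] (nat_lit 1) [nat_lit 8959] false,
   Spec.mk (nat_lit 2401) (nat_lit 1) [nat_lit 6775, nat_lit 943, nat_lit 2563, nat_lit 2347, nat_lit 2419, nat_lit 2399] (nat_lit 0) [nat_lit 8961] false,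
   Spec.mk (nat_lit 2411) (nat_lit 0) [nat_lit 6785, nat_lit 953, nat_lit 2573, nat_lit 2393, nat_lit 2417] (nat_lit 1) [nat_lit 8971] false,
   Spec.mk (nat_lit 2417) (nat_lit 0) [nat_lit 6791, nat_lit 959, nat_lit 2579, nat_lit 2399, nat_lit 2411, nat_lit 2423, nat_lit 2419] (nat_lit 0) [nat_lit 8977] false,
   Spec.mk (nat_lit 2419) (nat_lit 1) [nat_lit 6793, nat_lit 961, nat_lit 2581, nat_lit 2401, nat_lit 2425, nat_lit 2417] (nat_lit 0) [nat_lit 8979] false,
   Spec.mk (nat_lit 2423) (nat_lit 0) [nat_lit 6797, nat_lit 965, nat_lit 2585, nat_lit 2417, nat_lit 2425] (nat_lit 1) [nat_lit 8983] false,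
   Spec.mk (nat_lit 2425) (nat_lit 2) [nat_lit 6799, nat_lit 967, nat_lit 2587, nat_lit 2419, nat_lit 2423, nat_lit 2427] (nat_lit 0) [nat_lit 8985] false,
   Spec.mk (nat_lit 2427) (nat_lit 3) [nat_lit 6801, nat_lit 969, nat_lit 2589, nat_lit 2425] (nat_lit 0) [] false,
   Spec.mk (nat_lit 2483) (nat_lit 1) [nat_lit 6857, nat_lit 1025, nat_lit 2969, nat_lit 2321, nat_lit 2537, nat_lit 2501] (nat_lit 0) [nat_lit 9043] false,
   Spec.mk (nat_lit 2501) (nat_lit 0) [nat_lit 6875, nat_lit 1043, nat_lit 2987, nat_lit 2339, nat_lit 2555, nat_lit 2483, nat_lit 2507] (nat_lit 1) [nat_lit 9061] false,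
   Spec.mk (nat_lit 2507) (nat_lit 0) [nat_lit 6881, nat_lit 1049, nat_lit 2993, nat_lit 2345, nat_lit 2561, nat_lit 2501, nat_lit 2509] (nat_lit 1) [nat_lit 9067] false,
   Spec.mk (nat_lit 2509) (nat_lit 1) [nat_lit 6883, nat_lit 1051, nat_lit 2995, nat_lit 2347, nat_lit 2563, nat_lit 2507] (nat_lit 0) [nat_lit 9069] false,
   Spec.mk (nat_lit 2537) (nat_lit 0) [nat_lit 6911, nat_lit 1079, nat_lit 3023, nat_lit 2375, nat_lit 2699, nat_lit 2483, nat_lit 2555] (nat_lit 0) [nat_lit 9097] false,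
   Spec.mk (nat_lit 2555) (nat_lit 0) [nat_lit 6929, nat_lit 1097, nat_lit 3041, nat_lit 2393, nat_lit 2717, nat_lit 2501, nat_lit 2609, nat_lit 2537, nat_lit 2573, nat_lit 2561] (nat_lit 0) [nat_lit 9115] false,
   Spec.mk (nat_lit 2561) (nat_lit 0) [nat_lit 6935, nat_lit 1103, nat_lit 3047, nat_lit 2399, nat_lit 2723, nat_lit 2507, nat_lit 2615, nat_lit 2579, nat_lit 2555, nat_lit 2563] (nat_lit 1) [nat_lit 9121] true,
   Spec.mk (nat_lit 2563) (nat_lit 1) [nat_lit 6937, nat_lit 1105, nat_lit 3049, nat_lit 2401, nat_lit 2725, nat_lit 2509, nat_lit 2617, nat_lit 2581, nat_lit 2561] (nat_lit 0) [nat_lit 9123] false,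
   Spec.mk (nat_lit 2573) (nat_lit 0) [nat_lit 6947, nat_lit 1115, nat_lit 3059, nat_lit 2411, nat_lit 2735, nat_lit 2627, nat_lit 2555, nat_lit 2579] (nat_lit 2) [nat_lit 9133] false,
   Spec.mk (nat_lit 2579) (nat_lit 0) [nat_lit 6953, nat_lit 1121, nat_lit 3065, nat_lit 2417, nat_lit 2741, nat_lit 2633, nat_lit 2561, nat_lit 2573, nat_lit 2585, nat_lit 2581] (nat_lit 1) [nat_lit 9139] true,
   Spec.mk (nat_lit 2581) (nat_lit 0) [nat_lit 6955, nat_lit 1123, nat_lit 3067, nat_lit 2419, nat_lit 2743, nat_lit 2635, nat_lit 2563, nat_lit 2587, nat_lit 2579] (nat_lit 0) [nat_lit 9141] true,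
   Spec.mk (nat_lit 2585) (nat_lit 0) [nat_lit 6959, nat_lit 1127, nat_lit 3071, nat_lit 2423, nat_lit 2747, nat_lit 2639, nat_lit 2579, nat_lit 2587] (nat_lit 2) [nat_lit 9145] false,
   Spec.mk (nat_lit 2587) (nat_lit 1) [nat_lit 6961, nat_lit 1129, nat_lit 3073, nat_lit 2425, nat_lit 2749, nat_lit 2641, nat_lit 2581, nat_lit 2585, nat_lit 2589] (nat_lit 0) [nat_lit 9147] false,
   Spec.mk (nat_lit 2589) (nat_lit 2) [nat_lit 6963, nat_lit 1131, nat_lit 3075, nat_lit 2427, nat_lit 2751, nat_lit 2643, nat_lit 2587] (nat_lit 0) [] false,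
   Spec.mk (nat_lit 2609) (nat_lit 0) [nat_lit 6983, nat_lit 1151, nat_lit 3095, nat_lit 2771, nat_lit 2555, nat_lit 2627, nat_lit 2615] (nat_lit 1) [nat_lit 9169] false,
   Spec.mk (nat_lit 2615) (nat_lit 0) [nat_lit 6989, nat_lit 1157, nat_lit 3101, nat_lit 2777, nat_lit 2561, nat_lit 2633, nat_lit 2609, nat_lit 2617] (nat_lit 3) [nat_lit 9175] true,
   Spec.mk (nat_lit 2617) (nat_lit 0) [nat_lit 6991, nat_lit 1159, nat_lit 3103, nat_lit 2779, nat_lit 2563, nat_lit 2635, nat_lit 2615] (nat_lit 1) [nat_lit 9177] false,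
   Spec.mk (nat_lit 2627) (nat_lit 0) [nat_lit 7001, nat_lit 1169, nat_lit 3113, nat_lit 2789, nat_lit 2573, nat_lit 2609, nat_lit 2633] (nat_lit 1) [nat_lit 9187] false,
   Spec.mk (nat_lit 2633) (nat_lit 0) [nat_lit 7007, nat_lit 1175, nat_lit 3119, nat_lit 2795, nat_lit 2579, nat_lit 2615, nat_lit 2651, nat_lit 2627, nat_lit 2639, nat_lit 2635] (nat_lit 1) [nat_lit 9193] true]

noncomputable def sp5 : List Spec :=
  [Spec.mk (nat_lit 2635) (nat_lit 0) [nat_lit 7009, nat_lit 1177, nat_lit 3121, nat_lit 2797, nat_lit 2581, nat_lit 2617, nat_lit 2653, nat_lit 2641, nat_lit 2633] (nat_lit 0) [nat_lit 9195] true,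
   Spec.mk (nat_lit 2639) (nat_lit 0) [nat_lit 7013, nat_lit 1181, nat_lit 3125, nat_lit 2801, nat_lit 2585, nat_lit 2657, nat_lit 2633, nat_lit 2641] (nat_lit 3) [nat_lit 9199] true,
   Spec.mk (nat_lit 2641) (nat_lit 0) [nat_lit 7015, nat_lit 1183, nat_lit 3127, nat_lit 2803, nat_lit 2587, nat_lit 2659, nat_lit 2635, nat_lit 2639, nat_lit 2643] (nat_lit 0) [nat_lit 9201] false,
   Spec.mk (nat_lit 2643) (nat_lit 1) [nat_lit 7017, nat_lit 1185, nat_lit 3129, nat_lit 2805, nat_lit 2589, nat_lit 2661, nat_lit 2641] (nat_lit 0) [] false,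
   Spec.mk (nat_lit 2651) (nat_lit 0) [nat_lit 7025, nat_lit 1193, nat_lit 3137, nat_lit 2813, nat_lit 2633, nat_lit 2657, nat_lit 2653] (nat_lit 1) [nat_lit 9211] false,
   Spec.mk (nat_lit 2653) (nat_lit 0) [nat_lit 7027, nat_lit 1195, nat_lit 3139, nat_lit 2815, nat_lit 2635, nat_lit 2659, nat_lit 2651] (nat_lit 1) [nat_lit 9213] false,
   Spec.mk (nat_lit 2657) (nat_lit 0) [nat_lit 7031, nat_lit 1199, nat_lit 3143, nat_lit 2819, nat_lit 2639, nat_lit 2651, nat_lit 2659] (nat_lit 1) [nat_lit 9217] false,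
   Spec.mk (nat_lit 2659) (nat_lit 1) [nat_lit 7033, nat_lit 1201, nat_lit 3145, nat_lit 2821, nat_lit 2641, nat_lit 2653, nat_lit 2665, nat_lit 2657, nat_lit 2661] (nat_lit 0) [nat_lit 9219] false,
   Spec.mk (nat_lit 2661) (nat_lit 1) [nat_lit 7035, nat_lit 1203, nat_lit 3147, nat_lit 2823, nat_lit 2643, nat_lit 2667, nat_lit 2659] (nat_lit 0) [] false,
   Spec.mk (nat_lit 2665) (nat_lit 1) [nat_lit 7039, nat_lit 1207, nat_lit 3151, nat_lit 2827, nat_lit 2659, nat_lit 2667] (nat_lit 0) [nat_lit 9225] false,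
   Spec.mk (nat_lit 2667) (nat_lit 3) [nat_lit 7041, nat_lit 1209, nat_lit 3153, nat_lit 2829, nat_lit 2661, nat_lit 2665] (nat_lit 0) [] false,
   Spec.mk (nat_lit 2699) (nat_lit 0) [nat_lit 7073, nat_lit 1241, nat_lit 3185, nat_lit 2537, nat_lit 2717] (nat_lit 1) [nat_lit 9259] false,
   Spec.mk (nat_lit 2717) (nat_lit 0) [nat_lit 7091, nat_lit 1259, nat_lit 3203, nat_lit 2555, nat_lit 2771, nat_lit 2699, nat_lit 2735, nat_lit 2723] (nat_lit 2) [nat_lit 9277] false,
   Spec.mk (nat_lit 2723) (nat_lit 0) [nat_lit 7097, nat_lit 1265, nat_lit 3209, nat_lit 2561, nat_lit 2777, nat_lit 2741, nat_lit 2717, nat_lit 2725] (nat_lit 3) [nat_lit 9283] false,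
   Spec.mk (nat_lit 2725) (nat_lit 0) [nat_lit 7099, nat_lit 1267, nat_lit 3211, nat_lit 2563, nat_lit 2779, nat_lit 2743, nat_lit 2723] (nat_lit 1) [nat_lit 9285] false,
   Spec.mk (nat_lit 2735) (nat_lit 0) [nat_lit 7109, nat_lit 1277, nat_lit 3221, nat_lit 2573, nat_lit 2789, nat_lit 2717, nat_lit 2741] (nat_lit 5) [nat_lit 9295] false,
   Spec.mk (nat_lit 2741) (nat_lit 0) [nat_lit 7115, nat_lit 1283, nat_lit 3227, nat_lit 2579, nat_lit 2795, nat_lit 2723, nat_lit 2735, nat_lit 2747, nat_lit 2743] (nat_lit 4) [nat_lit 9301] true,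
   Spec.mk (nat_lit 2743) (nat_lit 0) [nat_lit 7117, nat_lit 1285, nat_lit 3229, nat_lit 2581, nat_lit 2797, nat_lit 2725, nat_lit 2749, nat_lit 2741] (nat_lit 3) [nat_lit 9303] false,
   Spec.mk (nat_lit 2747) (nat_lit 0) [nat_lit 7121, nat_lit 1289, nat_lit 3233, nat_lit 2585, nat_lit 2801, nat_lit 2741, nat_lit 2749] (nat_lit 5) [nat_lit 9307] false,
   Spec.mk (nat_lit 2749) (nat_lit 0) [nat_lit 7123, nat_lit 1291, nat_lit 3235, nat_lit 2587, nat_lit 2803, nat_lit 2743, nat_lit 2747, nat_lit 2751] (nat_lit 2) [nat_lit 9309] false,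
   Spec.mk (nat_lit 2751) (nat_lit 0) [nat_lit 7125, nat_lit 1293, nat_lit 3237, nat_lit 2589, nat_lit 2805, nat_lit 2749] (nat_lit 1) [] false,
   Spec.mk (nat_lit 2771) (nat_lit 0) [nat_lit 7145, nat_lit 1313, nat_lit 3257, nat_lit 2609, nat_lit 2717, nat_lit 2789, nat_lit 2777] (nat_lit 1) [nat_lit 9331] false,
   Spec.mk (nat_lit 2777) (nat_lit 0) [nat_lit 7151, nat_lit 1319, nat_lit 3263, nat_lit 2615, nat_lit 2723, nat_lit 2795, nat_lit 2771, nat_lit 2779] (nat_lit 3) [nat_lit 9337] true,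
   Spec.mk (nat_lit 2779) (nat_lit 0) [nat_lit 7153, nat_lit 1321, nat_lit 3265, nat_lit 2617, nat_lit 2725, nat_lit 2797, nat_lit 2777] (nat_lit 1) [nat_lit 9339] false,
   Spec.mk (nat_lit 2789) (nat_lit 0) [nat_lit 7163, nat_lit 1331, nat_lit 3275, nat_lit 2627, nat_lit 2735, nat_lit 2843, nat_lit 2771, nat_lit 2795] (nat_lit 2) [nat_lit 9349] false,
   Spec.mk (nat_lit 2795) (nat_lit 0) [nat_lit 7169, nat_lit 1337, nat_lit 3281, nat_lit 2633, nat_lit 2741, nat_lit 2849, nat_lit 2777, nat_lit 2813, nat_lit 2789, nat_lit 2801, nat_lit 2797] (nat_lit 2) [nat_lit 9355] true,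
   Spec.mk (nat_lit 2797) (nat_lit 0) [nat_lit 7171, nat_lit 1339, nat_lit 3283, nat_lit 2635, nat_lit 2743, nat_lit 2851, nat_lit 2779, nat_lit 2815, nat_lit 2803, nat_lit 2795] (nat_lit 1) [nat_lit 9357] false,
   Spec.mk (nat_lit 2801) (nat_lit 0) [nat_lit 7175, nat_lit 1343, nat_lit 3287, nat_lit 2639, nat_lit 2747, nat_lit 2855, nat_lit 2819, nat_lit 2795, nat_lit 2803] (nat_lit 4) [nat_lit 9361] false,
   Spec.mk (nat_lit 2803) (nat_lit 0) [nat_lit 7177, nat_lit 1345, nat_lit 3289, nat_lit 2641, nat_lit 2749, nat_lit 2857, nat_lit 2821, nat_lit 2797, nat_lit 2801, nat_lit 2805] (nat_lit 1) [nat_lit 9363] false,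
   Spec.mk (nat_lit 2805) (nat_lit 0) [nat_lit 7179, nat_lit 1347, nat_lit 3291, nat_lit 2643, nat_lit 2751, nat_lit 2859, nat_lit 2823, nat_lit 2803] (nat_lit 0) [] false,
   Spec.mk (nat_lit 2813) (nat_lit 0) [nat_lit 7187, nat_lit 1355, nat_lit 3299, nat_lit 2651, nat_lit 2867, nat_lit 2795, nat_lit 2819, nat_lit 2815] (nat_lit 3) [nat_lit 9373] false,
   Spec.mk (nat_lit 2815) (nat_lit 0) [nat_lit 7189, nat_lit 1357, nat_lit 3301, nat_lit 2653, nat_lit 2869, nat_lit 2797, nat_lit 2821, nat_lit 2813] (nat_lit 3) [nat_lit 9375] false,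
   Spec.mk (nat_lit 2819) (nat_lit 0) [nat_lit 7193, nat_lit 1361, nat_lit 3305, nat_lit 2657, nat_lit 2873, nat_lit 2801, nat_lit 2813, nat_lit 2821] (nat_lit 3) [nat_lit 9379] false,
   Spec.mk (nat_lit 2821) (nat_lit 0) [nat_lit 7195, nat_lit 1363, nat_lit 3307, nat_lit 2659, nat_lit 2875, nat_lit 2803, nat_lit 2815, nat_lit 2827, nat_lit 2819, nat_lit 2823] (nat_lit 1) [nat_lit 9381] false,
   Spec.mk (nat_lit 2823) (nat_lit 0) [nat_lit 7197, nat_lit 1365, nat_lit 3309, nat_lit 2661, nat_lit 2877, nat_lit 2805, nat_lit 2829, nat_lit 2821] (nat_lit 1) [] false,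
   Spec.mk (nat_lit 2827) (nat_lit 0) [nat_lit 7201, nat_lit 1369, nat_lit 3313, nat_lit 2665, nat_lit 2881, nat_lit 2821, nat_lit 2829] (nat_lit 1) [nat_lit 9387] false,
   Spec.mk (nat_lit 2829) (nat_lit 1) [nat_lit 7203, nat_lit 1371, nat_lit 3315, nat_lit 2667, nat_lit 2883, nat_lit 2823, nat_lit 2827] (nat_lit 0) [] false,
   Spec.mk (nat_lit 2843) (nat_lit 0) [nat_lit 7217, nat_lit 1385, nat_lit 3329, nat_lit 2789, nat_lit 2849] (nat_lit 1) [nat_lit 9403] false,
   Spec.mk (nat_lit 2849) (nat_lit 0) [nat_lit 7223, nat_lit 1391, nat_lit 3335, nat_lit 2795, nat_lit 2867, nat_lit 2843, nat_lit 2855, nat_lit 2851] (nat_lit 2) [nat_lit 9409] false,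
   Spec.mk (nat_lit 2851) (nat_lit 0) [nat_lit 7225, nat_lit 1393, nat_lit 3337, nat_lit 2797, nat_lit 2869, nat_lit 2857, nat_lit 2849] (nat_lit 1) [nat_lit 9411] false,
   Spec.mk (nat_lit 2855) (nat_lit 0) [nat_lit 7229, nat_lit 1397, nat_lit 3341, nat_lit 2801, nat_lit 2873, nat_lit 2849, nat_lit 2857] (nat_lit 5) [nat_lit 9415] false,
   Spec.mk (nat_lit 2857) (nat_lit 0) [nat_lit 7231, nat_lit 1399, nat_lit 3343, nat_lit 2803, nat_lit 2875, nat_lit 2851, nat_lit 2855, nat_lit 2859] (nat_lit 2) [nat_lit 9417] false,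
   Spec.mk (nat_lit 2859) (nat_lit 0) [nat_lit 7233, nat_lit 1401, nat_lit 3345, nat_lit 2805, nat_lit 2877, nat_lit 2857] (nat_lit 1) [] false,
   Spec.mk (nat_lit 2867) (nat_lit 0) [nat_lit 7241, nat_lit 1409, nat_lit 3353, nat_lit 2813, nat_lit 2849, nat_lit 2873, nat_lit 2869] (nat_lit 1) [nat_lit 9427] false,
   Spec.mk (nat_lit 2869) (nat_lit 0) [nat_lit 7243, nat_lit 1411, nat_lit 3355, nat_lit 2815, nat_lit 2851, nat_lit 2875, nat_lit 2867] (nat_lit 1) [nat_lit 9429] false,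
   Spec.mk (nat_lit 2873) (nat_lit 0) [nat_lit 7247, nat_lit 1415, nat_lit 3359, nat_lit 2819, nat_lit 2855, nat_lit 2891, nat_lit 2867, nat_lit 2875] (nat_lit 2) [nat_lit 9433] false,
   Spec.mk (nat_lit 2875) (nat_lit 0) [nat_lit 7249, nat_lit 1417, nat_lit 3361, nat_lit 2821, nat_lit 2857, nat_lit 2893, nat_lit 2869, nat_lit 2881, nat_lit 2873, nat_lit 2877] (nat_lit 0) [nat_lit 9435] false,
   Spec.mk (nat_lit 2877) (nat_lit 0) [nat_lit 7251, nat_lit 1419, nat_lit 3363, nat_lit 2823, nat_lit 2859, nat_lit 2895, nat_lit 2883, nat_lit 2875] (nat_lit 0) [] false,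
   Spec.mk (nat_lit 2881) (nat_lit 0) [nat_lit 7255, nat_lit 1423, nat_lit 3367, nat_lit 2827, nat_lit 2899, nat_lit 2875, nat_lit 2883] (nat_lit 1) [nat_lit 9441] false,
   Spec.mk (nat_lit 2883) (nat_lit 1) [nat_lit 7257, nat_lit 1425, nat_lit 3369, nat_lit 2829, nat_lit 2901, nat_lit 2877, nat_lit 2881] (nat_lit 0) [] false,
   Spec.mk (nat_lit 2891) (nat_lit 0) [nat_lit 7265, nat_lit 1433, nat_lit 3377, nat_lit 2873, nat_lit 2893] (nat_lit 1) [nat_lit 9451] false,
   Spec.mk (nat_lit 2893) (nat_lit 0) [nat_lit 7267, nat_lit 1435, nat_lit 3379, nat_lit 2875, nat_lit 2899, nat_lit 2891, nat_lit 2895] (nat_lit 0) [nat_lit 9453] false,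
   Spec.mk (nat_lit 2895) (nat_lit 0) [nat_lit 7269, nat_lit 1437, nat_lit 3381, nat_lit 2877, nat_lit 2901, nat_lit 2893] (nat_lit 1) [] false,
   Spec.mk (nat_lit 2899) (nat_lit 1) [nat_lit 7273, nat_lit 1441, nat_lit 3385, nat_lit 2881, nat_lit 2893, nat_lit 2901] (nat_lit 0) [nat_lit 9459] false,
   Spec.mk (nat_lit 2901) (nat_lit 2) [nat_lit 7275, nat_lit 1443, nat_lit 3387, nat_lit 2883, nat_lit 2895, nat_lit 2907, nat_lit 2899] (nat_lit 0) [] false,
   Spec.mk (nat_lit 2907) (nat_lit 3) [nat_lit 7281, nat_lit 1449, nat_lit 3393, nat_lit 2901] (nat_lit 0) [] false,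
   Spec.mk (nat_lit 2969) (nat_lit 2) [nat_lit 7343, nat_lit 1511, nat_lit 4427, nat_lit 2483, nat_lit 3023, nat_lit 2987] (nat_lit 0) [nat_lit 9529] false,
   Spec.mk (nat_lit 2987) (nat_lit 0) [nat_lit 7361, nat_lit 1529, nat_lit 4445, nat_lit 2501, nat_lit 3041, nat_lit 2969, nat_lit 2993] (nat_lit 0) [nat_lit 9547] false,
   Spec.mk (nat_lit 2993) (nat_lit 0) [nat_lit 7367, nat_lit 1535, nat_lit 4451, nat_lit 2507, nat_lit 3047, nat_lit 2987, nat_lit 2995] (nat_lit 0) [nat_lit 9553] false,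
   Spec.mk (nat_lit 2995) (nat_lit 2) [nat_lit 7369, nat_lit 1537, nat_lit 4453, nat_lit 2509, nat_lit 3049, nat_lit 2993] (nat_lit 0) [nat_lit 9555] false]

noncomputable def sp6 : List Spec :=
  [Spec.mk (nat_lit 3023) (nat_lit 0) [nat_lit 7397, nat_lit 1565, nat_lit 4481, nat_lit 2537, nat_lit 3185, nat_lit 2969, nat_lit 3041] (nat_lit 0) [nat_lit 9583] false,
   Spec.mk (nat_lit 3041) (nat_lit 0) [nat_lit 7415, nat_lit 1583, nat_lit 4499, nat_lit 2555, nat_lit 3203, nat_lit 2987, nat_lit 3095, nat_lit 3023, nat_lit 3059, nat_lit 3047] (nat_lit 0) [nat_lit 9601] false,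
   Spec.mk (nat_lit 3047) (nat_lit 0) [nat_lit 7421, nat_lit 1589, nat_lit 4505, nat_lit 2561, nat_lit 3209, nat_lit 2993, nat_lit 3101, nat_lit 3065, nat_lit 3041, nat_lit 3049] (nat_lit 1) [nat_lit 9607] false,
   Spec.mk (nat_lit 3049) (nat_lit 1) [nat_lit 7423, nat_lit 1591, nat_lit 4507, nat_lit 2563, nat_lit 3211, nat_lit 2995, nat_lit 3103, nat_lit 3067, nat_lit 3047] (nat_lit 0) [nat_lit 9609] false,
   Spec.mk (nat_lit 3059) (nat_lit 0) [nat_lit 7433, nat_lit 1601, nat_lit 4517, nat_lit 2573, nat_lit 3221, nat_lit 3113, nat_lit 3041, nat_lit 3065] (nat_lit 2) [nat_lit 9619] false,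
   Spec.mk (nat_lit 3065) (nat_lit 0) [nat_lit 7439, nat_lit 1607, nat_lit 4523, nat_lit 2579, nat_lit 3227, nat_lit 3119, nat_lit 3047, nat_lit 3059, nat_lit 3071, nat_lit 3067] (nat_lit 1) [nat_lit 9625] true,
   Spec.mk (nat_lit 3067) (nat_lit 0) [nat_lit 7441, nat_lit 1609, nat_lit 4525, nat_lit 2581, nat_lit 3229, nat_lit 3121, nat_lit 3049, nat_lit 3073, nat_lit 3065] (nat_lit 0) [nat_lit 9627] false,
   Spec.mk (nat_lit 3071) (nat_lit 0) [nat_lit 7445, nat_lit 1613, nat_lit 4529, nat_lit 2585, nat_lit 3233, nat_lit 3125, nat_lit 3065, nat_lit 3073] (nat_lit 2) [nat_lit 9631] false,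
   Spec.mk (nat_lit 3073) (nat_lit 1) [nat_lit 7447, nat_lit 1615, nat_lit 4531, nat_lit 2587, nat_lit 3235, nat_lit 3127, nat_lit 3067, nat_lit 3071, nat_lit 3075] (nat_lit 0) [nat_lit 9633] false,
   Spec.mk (nat_lit 3075) (nat_lit 2) [nat_lit 7449, nat_lit 1617, nat_lit 4533, nat_lit 2589, nat_lit 3237, nat_lit 3129, nat_lit 3073] (nat_lit 0) [] false,
   Spec.mk (nat_lit 3095) (nat_lit 0) [nat_lit 7469, nat_lit 1637, nat_lit 4553, nat_lit 2609, nat_lit 3257, nat_lit 3041, nat_lit 3113, nat_lit 3101] (nat_lit 2) [nat_lit 9655] false,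
   Spec.mk (nat_lit 3101) (nat_lit 0) [nat_lit 7475, nat_lit 1643, nat_lit 4559, nat_lit 2615, nat_lit 3263, nat_lit 3047, nat_lit 3119, nat_lit 3095, nat_lit 3103] (nat_lit 4) [nat_lit 9661] false,
   Spec.mk (nat_lit 3103) (nat_lit 0) [nat_lit 7477, nat_lit 1645, nat_lit 4561, nat_lit 2617, nat_lit 3265, nat_lit 3049, nat_lit 3121, nat_lit 3101] (nat_lit 2) [nat_lit 9663] false,
   Spec.mk (nat_lit 3113) (nat_lit 0) [nat_lit 7487, nat_lit 1655, nat_lit 4571, nat_lit 2627, nat_lit 3275, nat_lit 3059, nat_lit 3095, nat_lit 3119] (nat_lit 2) [nat_lit 9673] false,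
   Spec.mk (nat_lit 3119) (nat_lit 0) [nat_lit 7493, nat_lit 1661, nat_lit 4577, nat_lit 2633, nat_lit 3281, nat_lit 3065, nat_lit 3101, nat_lit 3137, nat_lit 3113, nat_lit 3125, nat_lit 3121] (nat_lit 2) [nat_lit 9679] true,
   Spec.mk (nat_lit 3121) (nat_lit 0) [nat_lit 7495, nat_lit 1663, nat_lit 4579, nat_lit 2635, nat_lit 3283, nat_lit 3067, nat_lit 3103, nat_lit 3139, nat_lit 3127, nat_lit 3119] (nat_lit 1) [nat_lit 9681] false,
   Spec.mk (nat_lit 3125) (nat_lit 0) [nat_lit 7499, nat_lit 1667, nat_lit 4583, nat_lit 2639, nat_lit 3287, nat_lit 3071, nat_lit 3143, nat_lit 3119, nat_lit 3127] (nat_lit 4) [nat_lit 9685] false,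
   Spec.mk (nat_lit 3127) (nat_lit 0) [nat_lit 7501, nat_lit 1669, nat_lit 4585, nat_lit 2641, nat_lit 3289, nat_lit 3073, nat_lit 3145, nat_lit 3121, nat_lit 3125, nat_lit 3129] (nat_lit 1) [nat_lit 9687] false,
   Spec.mk (nat_lit 3129) (nat_lit 0) [nat_lit 7503, nat_lit 1671, nat_lit 4587, nat_lit 2643, nat_lit 3291, nat_lit 3075, nat_lit 3147, nat_lit 3127] (nat_lit 0) [] false,
   Spec.mk (nat_lit 3137) (nat_lit 0) [nat_lit 7511, nat_lit 1679, nat_lit 4595, nat_lit 2651, nat_lit 3299, nat_lit 3119, nat_lit 3143, nat_lit 3139] (nat_lit 2) [nat_lit 9697] false,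
   Spec.mk (nat_lit 3139) (nat_lit 0) [nat_lit 7513, nat_lit 1681, nat_lit 4597, nat_lit 2653, nat_lit 3301, nat_lit 3121, nat_lit 3145, nat_lit 3137] (nat_lit 2) [nat_lit 9699] false,
   Spec.mk (nat_lit 3143) (nat_lit 0) [nat_lit 7517, nat_lit 1685, nat_lit 4601, nat_lit 2657, nat_lit 3305, nat_lit 3125, nat_lit 3137, nat_lit 3145] (nat_lit 2) [nat_lit 9703] false,
   Spec.mk (nat_lit 3145) (nat_lit 0) [nat_lit 7519, nat_lit 1687, nat_lit 4603, nat_lit 2659, nat_lit 3307, nat_lit 3127, nat_lit 3139, nat_lit 3151, nat_lit 3143, nat_lit 3147] (nat_lit 0) [nat_lit 9705] false,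
   Spec.mk (nat_lit 3147) (nat_lit 0) [nat_lit 7521, nat_lit 1689, nat_lit 4605, nat_lit 2661, nat_lit 3309, nat_lit 3129, nat_lit 3153, nat_lit 3145] (nat_lit 0) [] false,
   Spec.mk (nat_lit 3151) (nat_lit 0) [nat_lit 7525, nat_lit 1693, nat_lit 4609, nat_lit 2665, nat_lit 3313, nat_lit 3145, nat_lit 3153] (nat_lit 0) [nat_lit 9711] false,
   Spec.mk (nat_lit 3153) (nat_lit 2) [nat_lit 7527, nat_lit 1695, nat_lit 4611, nat_lit 2667, nat_lit 3315, nat_lit 3147, nat_lit 3151] (nat_lit 0) [] false,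
   Spec.mk (nat_lit 3185) (nat_lit 1) [nat_lit 7559, nat_lit 1727, nat_lit 4643, nat_lit 2699, nat_lit 3671, nat_lit 3023, nat_lit 3203] (nat_lit 0) [nat_lit 9745] false,
   Spec.mk (nat_lit 3203) (nat_lit 0) [nat_lit 7577, nat_lit 1745, nat_lit 4661, nat_lit 2717, nat_lit 3689, nat_lit 3041, nat_lit 3257, nat_lit 3185, nat_lit 3221, nat_lit 3209] (nat_lit 0) [nat_lit 9763] false,
   Spec.mk (nat_lit 3209) (nat_lit 0) [nat_lit 7583, nat_lit 1751, nat_lit 4667, nat_lit 2723, nat_lit 3695, nat_lit 3047, nat_lit 3263, nat_lit 3227, nat_lit 3203, nat_lit 3211] (nat_lit 1) [nat_lit 9769] false,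
   Spec.mk (nat_lit 3211) (nat_lit 1) [nat_lit 7585, nat_lit 1753, nat_lit 4669, nat_lit 2725, nat_lit 3697, nat_lit 3049, nat_lit 3265, nat_lit 3229, nat_lit 3209] (nat_lit 0) [nat_lit 9771] false,
   Spec.mk (nat_lit 3221) (nat_lit 0) [nat_lit 7595, nat_lit 1763, nat_lit 4679, nat_lit 2735, nat_lit 3707, nat_lit 3059, nat_lit 3275, nat_lit 3203, nat_lit 3227] (nat_lit 3) [nat_lit 9781] false,
   Spec.mk (nat_lit 3227) (nat_lit 0) [nat_lit 7601, nat_lit 1769, nat_lit 4685, nat_lit 2741, nat_lit 3713, nat_lit 3065, nat_lit 3281, nat_lit 3209, nat_lit 3221, nat_lit 3233, nat_lit 3229] (nat_lit 2) [nat_lit 9787] false,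
   Spec.mk (nat_lit 3229) (nat_lit 0) [nat_lit 7603, nat_lit 1771, nat_lit 4687, nat_lit 2743, nat_lit 3715, nat_lit 3067, nat_lit 3283, nat_lit 3211, nat_lit 3235, nat_lit 3227] (nat_lit 1) [nat_lit 9789] false,
   Spec.mk (nat_lit 3233) (nat_lit 0) [nat_lit 7607, nat_lit 1775, nat_lit 4691, nat_lit 2747, nat_lit 3719, nat_lit 3071, nat_lit 3287, nat_lit 3227, nat_lit 3235] (nat_lit 3) [nat_lit 9793] false,
   Spec.mk (nat_lit 3235) (nat_lit 0) [nat_lit 7609, nat_lit 1777, nat_lit 4693, nat_lit 2749, nat_lit 3721, nat_lit 3073, nat_lit 3289, nat_lit 3229, nat_lit 3233, nat_lit 3237] (nat_lit 0) [nat_lit 9795] false,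
   Spec.mk (nat_lit 3237) (nat_lit 1) [nat_lit 7611, nat_lit 1779, nat_lit 4695, nat_lit 2751, nat_lit 3723, nat_lit 3075, nat_lit 3291, nat_lit 3235] (nat_lit 0) [] false,
   Spec.mk (nat_lit 3257) (nat_lit 0) [nat_lit 7631, nat_lit 1799, nat_lit 4715, nat_lit 2771, nat_lit 3743, nat_lit 3095, nat_lit 3419, nat_lit 3203, nat_lit 3275, nat_lit 3263] (nat_lit 0) [nat_lit 9817] false,
   Spec.mk (nat_lit 3263) (nat_lit 0) [nat_lit 7637, nat_lit 1805, nat_lit 4721, nat_lit 2777, nat_lit 3749, nat_lit 3101, nat_lit 3425, nat_lit 3209, nat_lit 3281, nat_lit 3257, nat_lit 3265] (nat_lit 2) [nat_lit 9823] false,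
   Spec.mk (nat_lit 3265) (nat_lit 0) [nat_lit 7639, nat_lit 1807, nat_lit 4723, nat_lit 2779, nat_lit 3751, nat_lit 3103, nat_lit 3427, nat_lit 3211, nat_lit 3283, nat_lit 3263] (nat_lit 0) [nat_lit 9825] false,
   Spec.mk (nat_lit 3275) (nat_lit 0) [nat_lit 7649, nat_lit 1817, nat_lit 4733, nat_lit 2789, nat_lit 3761, nat_lit 3113, nat_lit 3437, nat_lit 3221, nat_lit 3329, nat_lit 3257, nat_lit 3281] (nat_lit 1) [nat_lit 9835] false,
   Spec.mk (nat_lit 3281) (nat_lit 0) [nat_lit 7655, nat_lit 1823, nat_lit 4739, nat_lit 2795, nat_lit 3767, nat_lit 3119, nat_lit 3443, nat_lit 3227, nat_lit 3335, nat_lit 3263, nat_lit 3299, nat_lit 3275, nat_lit 3287, nat_lit 3283] (nat_lit 1) [nat_lit 9841] true,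
   Spec.mk (nat_lit 3283) (nat_lit 0) [nat_lit 7657, nat_lit 1825, nat_lit 4741, nat_lit 2797, nat_lit 3769, nat_lit 3121, nat_lit 3445, nat_lit 3229, nat_lit 3337, nat_lit 3265, nat_lit 3301, nat_lit 3289, nat_lit 3281] (nat_lit 0) [nat_lit 9843] true,
   Spec.mk (nat_lit 3287) (nat_lit 0) [nat_lit 7661, nat_lit 1829, nat_lit 4745, nat_lit 2801, nat_lit 3773, nat_lit 3125, nat_lit 3449, nat_lit 3233, nat_lit 3341, nat_lit 3305, nat_lit 3281, nat_lit 3289] (nat_lit 3) [nat_lit 9847] true,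
   Spec.mk (nat_lit 3289) (nat_lit 0) [nat_lit 7663, nat_lit 1831, nat_lit 4747, nat_lit 2803, nat_lit 3775, nat_lit 3127, nat_lit 3451, nat_lit 3235, nat_lit 3343, nat_lit 3307, nat_lit 3283, nat_lit 3287, nat_lit 3291] (nat_lit 0) [nat_lit 9849] true,
   Spec.mk (nat_lit 3291) (nat_lit 1) [nat_lit 7665, nat_lit 1833, nat_lit 4749, nat_lit 2805, nat_lit 3777, nat_lit 3129, nat_lit 3453, nat_lit 3237, nat_lit 3345, nat_lit 3309, nat_lit 3289] (nat_lit 0) [] false,
   Spec.mk (nat_lit 3299) (nat_lit 0) [nat_lit 7673, nat_lit 1841, nat_lit 4757, nat_lit 2813, nat_lit 3785, nat_lit 3137, nat_lit 3461, nat_lit 3353, nat_lit 3281, nat_lit 3305, nat_lit 3301] (nat_lit 2) [nat_lit 9859] true,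
   Spec.mk (nat_lit 3301) (nat_lit 0) [nat_lit 7675, nat_lit 1843, nat_lit 4759, nat_lit 2815, nat_lit 3787, nat_lit 3139, nat_lit 3463, nat_lit 3355, nat_lit 3283, nat_lit 3307, nat_lit 3299] (nat_lit 2) [nat_lit 9861] true,
   Spec.mk (nat_lit 3305) (nat_lit 0) [nat_lit 7679, nat_lit 1847, nat_lit 4763, nat_lit 2819, nat_lit 3791, nat_lit 3143, nat_lit 3467, nat_lit 3359, nat_lit 3287, nat_lit 3299, nat_lit 3307] (nat_lit 2) [nat_lit 9865] false,
   Spec.mk (nat_lit 3307) (nat_lit 0) [nat_lit 7681, nat_lit 1849, nat_lit 4765, nat_lit 2821, nat_lit 3793, nat_lit 3145, nat_lit 3469, nat_lit 3361, nat_lit 3289, nat_lit 3301, nat_lit 3313, nat_lit 3305, nat_lit 3309] (nat_lit 0) [nat_lit 9867] true,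
   Spec.mk (nat_lit 3309) (nat_lit 0) [nat_lit 7683, nat_lit 1851, nat_lit 4767, nat_lit 2823, nat_lit 3795, nat_lit 3147, nat_lit 3471, nat_lit 3363, nat_lit 3291, nat_lit 3315, nat_lit 3307] (nat_lit 0) [] false,
   Spec.mk (nat_lit 3313) (nat_lit 0) [nat_lit 7687, nat_lit 1855, nat_lit 4771, nat_lit 2827, nat_lit 3799, nat_lit 3151, nat_lit 3475, nat_lit 3367, nat_lit 3307, nat_lit 3315] (nat_lit 0) [nat_lit 9873] false,
   Spec.mk (nat_lit 3315) (nat_lit 2) [nat_lit 7689, nat_lit 1857, nat_lit 4773, nat_lit 2829, nat_lit 3801, nat_lit 3153, nat_lit 3477, nat_lit 3369, nat_lit 3309, nat_lit 3313] (nat_lit 0) [] false,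
   Spec.mk (nat_lit 3329) (nat_lit 0) [nat_lit 7703, nat_lit 1871, nat_lit 4787, nat_lit 2843, nat_lit 3815, nat_lit 3491, nat_lit 3275, nat_lit 3335] (nat_lit 1) [nat_lit 9889] false,
   Spec.mk (nat_lit 3335) (nat_lit 0) [nat_lit 7709, nat_lit 1877, nat_lit 4793, nat_lit 2849, nat_lit 3821, nat_lit 3497, nat_lit 3281, nat_lit 3353, nat_lit 3329, nat_lit 3341, nat_lit 3337] (nat_lit 2) [nat_lit 9895] true,
   Spec.mk (nat_lit 3337) (nat_lit 0) [nat_lit 7711, nat_lit 1879, nat_lit 4795, nat_lit 2851, nat_lit 3823, nat_lit 3499, nat_lit 3283, nat_lit 3355, nat_lit 3343, nat_lit 3335] (nat_lit 1) [nat_lit 9897] true,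
   Spec.mk (nat_lit 3341) (nat_lit 0) [nat_lit 7715, nat_lit 1883, nat_lit 4799, nat_lit 2855, nat_lit 3827, nat_lit 3503, nat_lit 3287, nat_lit 3359, nat_lit 3335, nat_lit 3343] (nat_lit 5) [nat_lit 9901] true,
   Spec.mk (nat_lit 3343) (nat_lit 0) [nat_lit 7717, nat_lit 1885, nat_lit 4801, nat_lit 2857, nat_lit 3829, nat_lit 3505, nat_lit 3289, nat_lit 3361, nat_lit 3337, nat_lit 3341, nat_lit 3345] (nat_lit 2) [nat_lit 9903] true,
   Spec.mk (nat_lit 3345) (nat_lit 0) [nat_lit 7719, nat_lit 1887, nat_lit 4803, nat_lit 2859, nat_lit 3831, nat_lit 3507, nat_lit 3291, nat_lit 3363, nat_lit 3343] (nat_lit 1) [] false,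
   Spec.mk (nat_lit 3353) (nat_lit 0) [nat_lit 7727, nat_lit 1895, nat_lit 4811, nat_lit 2867, nat_lit 3839, nat_lit 3515, nat_lit 3299, nat_lit 3335, nat_lit 3359, nat_lit 3355] (nat_lit 1) [nat_lit 9913] false,
   Spec.mk (nat_lit 3355) (nat_lit 0) [nat_lit 7729, nat_lit 1897, nat_lit 4813, nat_lit 2869, nat_lit 3841, nat_lit 3517, nat_lit 3301, nat_lit 3337, nat_lit 3361, nat_lit 3353] (nat_lit 1) [nat_lit 9915] true]

noncomputable def sp7 : List Spec :=
  [Spec.mk (nat_lit 3359) (nat_lit 0) [nat_lit 7733, nat_lit 1901, nat_lit 4817, nat_lit 2873, nat_lit 3845, nat_lit 3521, nat_lit 3305, nat_lit 3341, nat_lit 3377, nat_lit 3353, nat_lit 3361] (nat_lit 2) [nat_lit 9919] false,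
   Spec.mk (nat_lit 3361) (nat_lit 0) [nat_lit 7735, nat_lit 1903, nat_lit 4819, nat_lit 2875, nat_lit 3847, nat_lit 3523, nat_lit 3307, nat_lit 3343, nat_lit 3379, nat_lit 3355, nat_lit 3367, nat_lit 3359, nat_lit 3363] (nat_lit 0) [nat_lit 9921] false,
   Spec.mk (nat_lit 3363) (nat_lit 0) [nat_lit 7737, nat_lit 1905, nat_lit 4821, nat_lit 2877, nat_lit 3849, nat_lit 3525, nat_lit 3309, nat_lit 3345, nat_lit 3381, nat_lit 3369, nat_lit 3361] (nat_lit 0) [] false,
   Spec.mk (nat_lit 3367) (nat_lit 0) [nat_lit 7741, nat_lit 1909, nat_lit 4825, nat_lit 2881, nat_lit 3853, nat_lit 3529, nat_lit 3313, nat_lit 3385, nat_lit 3361, nat_lit 3369] (nat_lit 1) [nat_lit 9927] false,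
   Spec.mk (nat_lit 3369) (nat_lit 1) [nat_lit 7743, nat_lit 1911, nat_lit 4827, nat_lit 2883, nat_lit 3855, nat_lit 3531, nat_lit 3315, nat_lit 3387, nat_lit 3363, nat_lit 3367] (nat_lit 0) [] false,
   Spec.mk (nat_lit 3377) (nat_lit 0) [nat_lit 7751, nat_lit 1919, nat_lit 4835, nat_lit 2891, nat_lit 3863, nat_lit 3539, nat_lit 3359, nat_lit 3379] (nat_lit 1) [nat_lit 9937] false,
   Spec.mk (nat_lit 3379) (nat_lit 0) [nat_lit 7753, nat_lit 1921, nat_lit 4837, nat_lit 2893, nat_lit 3865, nat_lit 3541, nat_lit 3361, nat_lit 3385, nat_lit 3377, nat_lit 3381] (nat_lit 0) [nat_lit 9939] false,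
   Spec.mk (nat_lit 3381) (nat_lit 0) [nat_lit 7755, nat_lit 1923, nat_lit 4839, nat_lit 2895, nat_lit 3867, nat_lit 3543, nat_lit 3363, nat_lit 3387, nat_lit 3379] (nat_lit 1) [] false,
   Spec.mk (nat_lit 3385) (nat_lit 1) [nat_lit 7759, nat_lit 1927, nat_lit 4843, nat_lit 2899, nat_lit 3871, nat_lit 3547, nat_lit 3367, nat_lit 3379, nat_lit 3387] (nat_lit 0) [nat_lit 9945] false,
   Spec.mk (nat_lit 3387) (nat_lit 2) [nat_lit 7761, nat_lit 1929, nat_lit 4845, nat_lit 2901, nat_lit 3873, nat_lit 3549, nat_lit 3369, nat_lit 3381, nat_lit 3393, nat_lit 3385] (nat_lit 0) [] false,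
   Spec.mk (nat_lit 3393) (nat_lit 3) [nat_lit 7767, nat_lit 1935, nat_lit 4851, nat_lit 2907, nat_lit 3879, nat_lit 3555, nat_lit 3387] (nat_lit 0) [] false,
   Spec.mk (nat_lit 3419) (nat_lit 0) [nat_lit 7793, nat_lit 1961, nat_lit 4877, nat_lit 3905, nat_lit 3257, nat_lit 3437, nat_lit 3425] (nat_lit 0) [nat_lit 9979] false,
   Spec.mk (nat_lit 3425) (nat_lit 0) [nat_lit 7799, nat_lit 1967, nat_lit 4883, nat_lit 3911, nat_lit 3263, nat_lit 3443, nat_lit 3419, nat_lit 3427] (nat_lit 2) [nat_lit 9985] false,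
   Spec.mk (nat_lit 3427) (nat_lit 0) [nat_lit 7801, nat_lit 1969, nat_lit 4885, nat_lit 3913, nat_lit 3265, nat_lit 3445, nat_lit 3425] (nat_lit 0) [nat_lit 9987] false,
   Spec.mk (nat_lit 3437) (nat_lit 0) [nat_lit 7811, nat_lit 1979, nat_lit 4895, nat_lit 3923, nat_lit 3275, nat_lit 3491, nat_lit 3419, nat_lit 3443] (nat_lit 2) [nat_lit 9997] false,
   Spec.mk (nat_lit 3443) (nat_lit 0) [nat_lit 7817, nat_lit 1985, nat_lit 4901, nat_lit 3929, nat_lit 3281, nat_lit 3497, nat_lit 3425, nat_lit 3461, nat_lit 3437, nat_lit 3449, nat_lit 3445] (nat_lit 2) [nat_lit 10003] false,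
   Spec.mk (nat_lit 3445) (nat_lit 0) [nat_lit 7819, nat_lit 1987, nat_lit 4903, nat_lit 3931, nat_lit 3283, nat_lit 3499, nat_lit 3427, nat_lit 3463, nat_lit 3451, nat_lit 3443] (nat_lit 1) [nat_lit 10005] true,
   Spec.mk (nat_lit 3449) (nat_lit 0) [nat_lit 7823, nat_lit 1991, nat_lit 4907, nat_lit 3935, nat_lit 3287, nat_lit 3503, nat_lit 3467, nat_lit 3443, nat_lit 3451] (nat_lit 4) [nat_lit 10009] true,
   Spec.mk (nat_lit 3451) (nat_lit 0) [nat_lit 7825, nat_lit 1993, nat_lit 4909, nat_lit 3937, nat_lit 3289, nat_lit 3505, nat_lit 3469, nat_lit 3445, nat_lit 3449, nat_lit 3453] (nat_lit 1) [nat_lit 10011] true,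
   Spec.mk (nat_lit 3453) (nat_lit 0) [nat_lit 7827, nat_lit 1995, nat_lit 4911, nat_lit 3939, nat_lit 3291, nat_lit 3507, nat_lit 3471, nat_lit 3451] (nat_lit 0) [] false,
   Spec.mk (nat_lit 3461) (nat_lit 0) [nat_lit 7835, nat_lit 2003, nat_lit 4919, nat_lit 3947, nat_lit 3299, nat_lit 3515, nat_lit 3443, nat_lit 3467, nat_lit 3463] (nat_lit 4) [nat_lit 10021] false,
   Spec.mk (nat_lit 3463) (nat_lit 0) [nat_lit 7837, nat_lit 2005, nat_lit 4921, nat_lit 3949, nat_lit 3301, nat_lit 3517, nat_lit 3445, nat_lit 3469, nat_lit 3461] (nat_lit 4) [nat_lit 10023] true,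
   Spec.mk (nat_lit 3467) (nat_lit 0) [nat_lit 7841, nat_lit 2009, nat_lit 4925, nat_lit 3953, nat_lit 3305, nat_lit 3521, nat_lit 3449, nat_lit 3461, nat_lit 3469] (nat_lit 4) [nat_lit 10027] true,
   Spec.mk (nat_lit 3469) (nat_lit 0) [nat_lit 7843, nat_lit 2011, nat_lit 4927, nat_lit 3955, nat_lit 3307, nat_lit 3523, nat_lit 3451, nat_lit 3463, nat_lit 3475, nat_lit 3467, nat_lit 3471] (nat_lit 2) [nat_lit 10029] false,
   Spec.mk (nat_lit 3471) (nat_lit 0) [nat_lit 7845, nat_lit 2013, nat_lit 4929, nat_lit 3957, nat_lit 3309, nat_lit 3525, nat_lit 3453, nat_lit 3477, nat_lit 3469] (nat_lit 2) [] false,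
   Spec.mk (nat_lit 3475) (nat_lit 0) [nat_lit 7849, nat_lit 2017, nat_lit 4933, nat_lit 3961, nat_lit 3313, nat_lit 3529, nat_lit 3469, nat_lit 3477] (nat_lit 2) [nat_lit 10035] false,
   Spec.mk (nat_lit 3477) (nat_lit 0) [nat_lit 7851, nat_lit 2019, nat_lit 4935, nat_lit 3963, nat_lit 3315, nat_lit 3531, nat_lit 3471, nat_lit 3475] (nat_lit 0) [] false,
   Spec.mk (nat_lit 3491) (nat_lit 0) [nat_lit 7865, nat_lit 2033, nat_lit 4949, nat_lit 3977, nat_lit 3329, nat_lit 3437, nat_lit 3497] (nat_lit 0) [nat_lit 10051] false,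
   Spec.mk (nat_lit 3497) (nat_lit 0) [nat_lit 7871, nat_lit 2039, nat_lit 4955, nat_lit 3983, nat_lit 3335, nat_lit 3443, nat_lit 3515, nat_lit 3491, nat_lit 3503, nat_lit 3499] (nat_lit 1) [nat_lit 10057] false,
   Spec.mk (nat_lit 3499) (nat_lit 0) [nat_lit 7873, nat_lit 2041, nat_lit 4957, nat_lit 3985, nat_lit 3337, nat_lit 3445, nat_lit 3517, nat_lit 3505, nat_lit 3497] (nat_lit 0) [nat_lit 10059] true,
   Spec.mk (nat_lit 3503) (nat_lit 0) [nat_lit 7877, nat_lit 2045, nat_lit 4961, nat_lit 3989, nat_lit 3341, nat_lit 3449, nat_lit 3521, nat_lit 3497, nat_lit 3505] (nat_lit 4) [nat_lit 10063] false,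
   Spec.mk (nat_lit 3505) (nat_lit 0) [nat_lit 7879, nat_lit 2047, nat_lit 4963, nat_lit 3991, nat_lit 3343, nat_lit 3451, nat_lit 3523, nat_lit 3499, nat_lit 3503, nat_lit 3507] (nat_lit 1) [nat_lit 10065] false,
   Spec.mk (nat_lit 3507) (nat_lit 0) [nat_lit 7881, nat_lit 2049, nat_lit 4965, nat_lit 3993, nat_lit 3345, nat_lit 3453, nat_lit 3525, nat_lit 3505] (nat_lit 0) [] false,
   Spec.mk (nat_lit 3515) (nat_lit 0) [nat_lit 7889, nat_lit 2057, nat_lit 4973, nat_lit 4001, nat_lit 3353, nat_lit 3461, nat_lit 3569, nat_lit 3497, nat_lit 3521, nat_lit 3517] (nat_lit 1) [nat_lit 10075] false,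
   Spec.mk (nat_lit 3517) (nat_lit 0) [nat_lit 7891, nat_lit 2059, nat_lit 4975, nat_lit 4003, nat_lit 3355, nat_lit 3463, nat_lit 3571, nat_lit 3499, nat_lit 3523, nat_lit 3515] (nat_lit 1) [nat_lit 10077] false,
   Spec.mk (nat_lit 3521) (nat_lit 0) [nat_lit 7895, nat_lit 2063, nat_lit 4979, nat_lit 4007, nat_lit 3359, nat_lit 3467, nat_lit 3575, nat_lit 3503, nat_lit 3539, nat_lit 3515, nat_lit 3523] (nat_lit 2) [nat_lit 10081] false,
   Spec.mk (nat_lit 3523) (nat_lit 0) [nat_lit 7897, nat_lit 2065, nat_lit 4981, nat_lit 4009, nat_lit 3361, nat_lit 3469, nat_lit 3577, nat_lit 3505, nat_lit 3541, nat_lit 3517, nat_lit 3529, nat_lit 3521, nat_lit 3525] (nat_lit 0) [nat_lit 10083] false,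
   Spec.mk (nat_lit 3525) (nat_lit 0) [nat_lit 7899, nat_lit 2067, nat_lit 4983, nat_lit 4011, nat_lit 3363, nat_lit 3471, nat_lit 3579, nat_lit 3507, nat_lit 3543, nat_lit 3531, nat_lit 3523] (nat_lit 0) [] false,
   Spec.mk (nat_lit 3529) (nat_lit 0) [nat_lit 7903, nat_lit 2071, nat_lit 4987, nat_lit 4015, nat_lit 3367, nat_lit 3475, nat_lit 3583, nat_lit 3547, nat_lit 3523, nat_lit 3531] (nat_lit 1) [nat_lit 10089] false,
   Spec.mk (nat_lit 3531) (nat_lit 1) [nat_lit 7905, nat_lit 2073, nat_lit 4989, nat_lit 4017, nat_lit 3369, nat_lit 3477, nat_lit 3585, nat_lit 3549, nat_lit 3525, nat_lit 3529] (nat_lit 0) [] false,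
   Spec.mk (nat_lit 3539) (nat_lit 0) [nat_lit 7913, nat_lit 2081, nat_lit 4997, nat_lit 4025, nat_lit 3377, nat_lit 3593, nat_lit 3521, nat_lit 3541] (nat_lit 2) [nat_lit 10099] false,
   Spec.mk (nat_lit 3541) (nat_lit 0) [nat_lit 7915, nat_lit 2083, nat_lit 4999, nat_lit 4027, nat_lit 3379, nat_lit 3595, nat_lit 3523, nat_lit 3547, nat_lit 3539, nat_lit 3543] (nat_lit 1) [nat_lit 10101] false,
   Spec.mk (nat_lit 3543) (nat_lit 0) [nat_lit 7917, nat_lit 2085, nat_lit 5001, nat_lit 4029, nat_lit 3381, nat_lit 3597, nat_lit 3525, nat_lit 3549, nat_lit 3541] (nat_lit 2) [] false,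
   Spec.mk (nat_lit 3547) (nat_lit 0) [nat_lit 7921, nat_lit 2089, nat_lit 5005, nat_lit 4033, nat_lit 3385, nat_lit 3601, nat_lit 3529, nat_lit 3541, nat_lit 3549] (nat_lit 0) [nat_lit 10107] false,
   Spec.mk (nat_lit 3549) (nat_lit 1) [nat_lit 7923, nat_lit 2091, nat_lit 5007, nat_lit 4035, nat_lit 3387, nat_lit 3603, nat_lit 3531, nat_lit 3543, nat_lit 3555, nat_lit 3547] (nat_lit 0) [] false,
   Spec.mk (nat_lit 3555) (nat_lit 2) [nat_lit 7929, nat_lit 2097, nat_lit 5013, nat_lit 4041, nat_lit 3393, nat_lit 3609, nat_lit 3549] (nat_lit 0) [] false,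
   Spec.mk (nat_lit 3569) (nat_lit 0) [nat_lit 7943, nat_lit 2111, nat_lit 5027, nat_lit 4055, nat_lit 3515, nat_lit 3575, nat_lit 3571] (nat_lit 0) [nat_lit 10129] false,
   Spec.mk (nat_lit 3571) (nat_lit 0) [nat_lit 7945, nat_lit 2113, nat_lit 5029, nat_lit 4057, nat_lit 3517, nat_lit 3577, nat_lit 3569] (nat_lit 0) [nat_lit 10131] false,
   Spec.mk (nat_lit 3575) (nat_lit 0) [nat_lit 7949, nat_lit 2117, nat_lit 5033, nat_lit 4061, nat_lit 3521, nat_lit 3593, nat_lit 3569, nat_lit 3577] (nat_lit 2) [nat_lit 10135] false,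
   Spec.mk (nat_lit 3577) (nat_lit 0) [nat_lit 7951, nat_lit 2119, nat_lit 5035, nat_lit 4063, nat_lit 3523, nat_lit 3595, nat_lit 3571, nat_lit 3583, nat_lit 3575, nat_lit 3579] (nat_lit 0) [nat_lit 10137] false,
   Spec.mk (nat_lit 3579) (nat_lit 0) [nat_lit 7953, nat_lit 2121, nat_lit 5037, nat_lit 4065, nat_lit 3525, nat_lit 3597, nat_lit 3585, nat_lit 3577] (nat_lit 0) [] false,
   Spec.mk (nat_lit 3583) (nat_lit 0) [nat_lit 7957, nat_lit 2125, nat_lit 5041, nat_lit 4069, nat_lit 3529, nat_lit 3601, nat_lit 3577, nat_lit 3585] (nat_lit 2) [nat_lit 10143] false,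
   Spec.mk (nat_lit 3585) (nat_lit 0) [nat_lit 7959, nat_lit 2127, nat_lit 5043, nat_lit 4071, nat_lit 3531, nat_lit 3603, nat_lit 3579, nat_lit 3583] (nat_lit 0) [] false,
   Spec.mk (nat_lit 3593) (nat_lit 0) [nat_lit 7967, nat_lit 2135, nat_lit 5051, nat_lit 4079, nat_lit 3539, nat_lit 3575, nat_lit 3595] (nat_lit 0) [nat_lit 10153] false,
   Spec.mk (nat_lit 3595) (nat_lit 1) [nat_lit 7969, nat_lit 2137, nat_lit 5053, nat_lit 4081, nat_lit 3541, nat_lit 3577, nat_lit 3601, nat_lit 3593, nat_lit 3597] (nat_lit 0) [nat_lit 10155] false,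
   Spec.mk (nat_lit 3597) (nat_lit 0) [nat_lit 7971, nat_lit 2139, nat_lit 5055, nat_lit 4083, nat_lit 3543, nat_lit 3579, nat_lit 3603, nat_lit 3595] (nat_lit 0) [] false,
   Spec.mk (nat_lit 3601) (nat_lit 1) [nat_lit 7975, nat_lit 2143, nat_lit 5059, nat_lit 4087, nat_lit 3547, nat_lit 3583, nat_lit 3619, nat_lit 3595, nat_lit 3603] (nat_lit 0) [nat_lit 10161] false,
   Spec.mk (nat_lit 3603) (nat_lit 2) [nat_lit 7977, nat_lit 2145, nat_lit 5061, nat_lit 4089, nat_lit 3549, nat_lit 3585, nat_lit 3621, nat_lit 3597, nat_lit 3609, nat_lit 3601] (nat_lit 0) [] false,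
   Spec.mk (nat_lit 3609) (nat_lit 2) [nat_lit 7983, nat_lit 2151, nat_lit 5067, nat_lit 4095, nat_lit 3555, nat_lit 3627, nat_lit 3603] (nat_lit 0) [] false,
   Spec.mk (nat_lit 3619) (nat_lit 2) [nat_lit 7993, nat_lit 2161, nat_lit 5077, nat_lit 4105, nat_lit 3601, nat_lit 3621] (nat_lit 0) [nat_lit 10179] false]

noncomputable def sp8 : List Spec :=
  [Spec.mk (nat_lit 3621) (nat_lit 2) [nat_lit 7995, nat_lit 2163, nat_lit 5079, nat_lit 4107, nat_lit 3603, nat_lit 3627, nat_lit 3619] (nat_lit 0) [] false,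
   Spec.mk (nat_lit 3627) (nat_lit 4) [nat_lit 8001, nat_lit 2169, nat_lit 5085, nat_lit 4113, nat_lit 3609, nat_lit 3621] (nat_lit 0) [] false,
   Spec.mk (nat_lit 3671) (nat_lit 1) [nat_lit 8045, nat_lit 5129, nat_lit 3185, nat_lit 3689] (nat_lit 0) [nat_lit 10231] false,
   Spec.mk (nat_lit 3689) (nat_lit 0) [nat_lit 8063, nat_lit 5147, nat_lit 3203, nat_lit 3743, nat_lit 3671, nat_lit 3707, nat_lit 3695] (nat_lit 0) [nat_lit 10249] false,
   Spec.mk (nat_lit 3695) (nat_lit 0) [nat_lit 8069, nat_lit 5153, nat_lit 3209, nat_lit 3749, nat_lit 3713, nat_lit 3689, nat_lit 3697] (nat_lit 1) [nat_lit 10255] false,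
   Spec.mk (nat_lit 3697) (nat_lit 1) [nat_lit 8071, nat_lit 5155, nat_lit 3211, nat_lit 3751, nat_lit 3715, nat_lit 3695] (nat_lit 0) [nat_lit 10257] false,
   Spec.mk (nat_lit 3707) (nat_lit 0) [nat_lit 8081, nat_lit 5165, nat_lit 3221, nat_lit 3761, nat_lit 3689, nat_lit 3713] (nat_lit 3) [nat_lit 10267] false,
   Spec.mk (nat_lit 3713) (nat_lit 0) [nat_lit 8087, nat_lit 5171, nat_lit 3227, nat_lit 3767, nat_lit 3695, nat_lit 3707, nat_lit 3719, nat_lit 3715] (nat_lit 2) [nat_lit 10273] false,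
   Spec.mk (nat_lit 3715) (nat_lit 0) [nat_lit 8089, nat_lit 5173, nat_lit 3229, nat_lit 3769, nat_lit 3697, nat_lit 3721, nat_lit 3713] (nat_lit 1) [nat_lit 10275] false,
   Spec.mk (nat_lit 3719) (nat_lit 0) [nat_lit 8093, nat_lit 5177, nat_lit 3233, nat_lit 3773, nat_lit 3713, nat_lit 3721] (nat_lit 3) [nat_lit 10279] false,
   Spec.mk (nat_lit 3721) (nat_lit 0) [nat_lit 8095, nat_lit 5179, nat_lit 3235, nat_lit 3775, nat_lit 3715, nat_lit 3719, nat_lit 3723] (nat_lit 0) [nat_lit 10281] false,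
   Spec.mk (nat_lit 3723) (nat_lit 1) [nat_lit 8097, nat_lit 5181, nat_lit 3237, nat_lit 3777, nat_lit 3721] (nat_lit 0) [] false,
   Spec.mk (nat_lit 3743) (nat_lit 0) [nat_lit 8117, nat_lit 5201, nat_lit 3257, nat_lit 3905, nat_lit 3689, nat_lit 3761, nat_lit 3749] (nat_lit 1) [nat_lit 10303] false,
   Spec.mk (nat_lit 3749) (nat_lit 0) [nat_lit 8123, nat_lit 5207, nat_lit 3263, nat_lit 3911, nat_lit 3695, nat_lit 3767, nat_lit 3743, nat_lit 3751] (nat_lit 3) [nat_lit 10309] false,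
   Spec.mk (nat_lit 3751) (nat_lit 0) [nat_lit 8125, nat_lit 5209, nat_lit 3265, nat_lit 3913, nat_lit 3697, nat_lit 3769, nat_lit 3749] (nat_lit 1) [nat_lit 10311] false,
   Spec.mk (nat_lit 3761) (nat_lit 0) [nat_lit 8135, nat_lit 5219, nat_lit 3275, nat_lit 3923, nat_lit 3707, nat_lit 3815, nat_lit 3743, nat_lit 3767] (nat_lit 2) [nat_lit 10321] false,
   Spec.mk (nat_lit 3767) (nat_lit 0) [nat_lit 8141, nat_lit 5225, nat_lit 3281, nat_lit 3929, nat_lit 3713, nat_lit 3821, nat_lit 3749, nat_lit 3785, nat_lit 3761, nat_lit 3773, nat_lit 3769] (nat_lit 2) [nat_lit 10327] false,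
   Spec.mk (nat_lit 3769) (nat_lit 0) [nat_lit 8143, nat_lit 5227, nat_lit 3283, nat_lit 3931, nat_lit 3715, nat_lit 3823, nat_lit 3751, nat_lit 3787, nat_lit 3775, nat_lit 3767] (nat_lit 1) [nat_lit 10329] false,
   Spec.mk (nat_lit 3773) (nat_lit 0) [nat_lit 8147, nat_lit 5231, nat_lit 3287, nat_lit 3935, nat_lit 3719, nat_lit 3827, nat_lit 3791, nat_lit 3767, nat_lit 3775] (nat_lit 4) [nat_lit 10333] false,
   Spec.mk (nat_lit 3775) (nat_lit 0) [nat_lit 8149, nat_lit 5233, nat_lit 3289, nat_lit 3937, nat_lit 3721, nat_lit 3829, nat_lit 3793, nat_lit 3769, nat_lit 3773, nat_lit 3777] (nat_lit 1) [nat_lit 10335] false,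
   Spec.mk (nat_lit 3777) (nat_lit 0) [nat_lit 8151, nat_lit 5235, nat_lit 3291, nat_lit 3939, nat_lit 3723, nat_lit 3831, nat_lit 3795, nat_lit 3775] (nat_lit 0) [] false,
   Spec.mk (nat_lit 3785) (nat_lit 0) [nat_lit 8159, nat_lit 5243, nat_lit 3299, nat_lit 3947, nat_lit 3839, nat_lit 3767, nat_lit 3791, nat_lit 3787] (nat_lit 3) [nat_lit 10345] true,
   Spec.mk (nat_lit 3787) (nat_lit 0) [nat_lit 8161, nat_lit 5245, nat_lit 3301, nat_lit 3949, nat_lit 3841, nat_lit 3769, nat_lit 3793, nat_lit 3785] (nat_lit 3) [nat_lit 10347] true,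
   Spec.mk (nat_lit 3791) (nat_lit 0) [nat_lit 8165, nat_lit 5249, nat_lit 3305, nat_lit 3953, nat_lit 3845, nat_lit 3773, nat_lit 3785, nat_lit 3793] (nat_lit 3) [nat_lit 10351] false,
   Spec.mk (nat_lit 3793) (nat_lit 0) [nat_lit 8167, nat_lit 5251, nat_lit 3307, nat_lit 3955, nat_lit 3847, nat_lit 3775, nat_lit 3787, nat_lit 3799, nat_lit 3791, nat_lit 3795] (nat_lit 1) [nat_lit 10353] false,
   Spec.mk (nat_lit 3795) (nat_lit 0) [nat_lit 8169, nat_lit 5253, nat_lit 3309, nat_lit 3957, nat_lit 3849, nat_lit 3777, nat_lit 3801, nat_lit 3793] (nat_lit 1) [] false,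
   Spec.mk (nat_lit 3799) (nat_lit 0) [nat_lit 8173, nat_lit 5257, nat_lit 3313, nat_lit 3961, nat_lit 3853, nat_lit 3793, nat_lit 3801] (nat_lit 1) [nat_lit 10359] false,
   Spec.mk (nat_lit 3801) (nat_lit 1) [nat_lit 8175, nat_lit 5259, nat_lit 3315, nat_lit 3963, nat_lit 3855, nat_lit 3795, nat_lit 3799] (nat_lit 0) [] false,
   Spec.mk (nat_lit 3815) (nat_lit 0) [nat_lit 8189, nat_lit 5273, nat_lit 3329, nat_lit 3977, nat_lit 3761, nat_lit 3821] (nat_lit 3) [nat_lit 10375] false,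
   Spec.mk (nat_lit 3821) (nat_lit 0) [nat_lit 8195, nat_lit 5279, nat_lit 3335, nat_lit 3983, nat_lit 3767, nat_lit 3839, nat_lit 3815, nat_lit 3827, nat_lit 3823] (nat_lit 4) [nat_lit 10381] false,
   Spec.mk (nat_lit 3823) (nat_lit 0) [nat_lit 8197, nat_lit 5281, nat_lit 3337, nat_lit 3985, nat_lit 3769, nat_lit 3841, nat_lit 3829, nat_lit 3821] (nat_lit 3) [nat_lit 10383] true,
   Spec.mk (nat_lit 3827) (nat_lit 0) [nat_lit 8201, nat_lit 5285, nat_lit 3341, nat_lit 3989, nat_lit 3773, nat_lit 3845, nat_lit 3821, nat_lit 3829] (nat_lit 7) [nat_lit 10387] true,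
   Spec.mk (nat_lit 3829) (nat_lit 0) [nat_lit 8203, nat_lit 5287, nat_lit 3343, nat_lit 3991, nat_lit 3775, nat_lit 3847, nat_lit 3823, nat_lit 3827, nat_lit 3831] (nat_lit 4) [nat_lit 10389] false,
   Spec.mk (nat_lit 3831) (nat_lit 0) [nat_lit 8205, nat_lit 5289, nat_lit 3345, nat_lit 3993, nat_lit 3777, nat_lit 3849, nat_lit 3829] (nat_lit 3) [] false,
   Spec.mk (nat_lit 3839) (nat_lit 0) [nat_lit 8213, nat_lit 5297, nat_lit 3353, nat_lit 4001, nat_lit 3785, nat_lit 3821, nat_lit 3845, nat_lit 3841] (nat_lit 3) [nat_lit 10399] false,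
   Spec.mk (nat_lit 3841) (nat_lit 0) [nat_lit 8215, nat_lit 5299, nat_lit 3355, nat_lit 4003, nat_lit 3787, nat_lit 3823, nat_lit 3847, nat_lit 3839] (nat_lit 3) [nat_lit 10401] false,
   Spec.mk (nat_lit 3845) (nat_lit 0) [nat_lit 8219, nat_lit 5303, nat_lit 3359, nat_lit 4007, nat_lit 3791, nat_lit 3827, nat_lit 3863, nat_lit 3839, nat_lit 3847] (nat_lit 4) [nat_lit 10405] false,
   Spec.mk (nat_lit 3847) (nat_lit 0) [nat_lit 8221, nat_lit 5305, nat_lit 3361, nat_lit 4009, nat_lit 3793, nat_lit 3829, nat_lit 3865, nat_lit 3841, nat_lit 3853, nat_lit 3845, nat_lit 3849] (nat_lit 2) [nat_lit 10407] false,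
   Spec.mk (nat_lit 3849) (nat_lit 0) [nat_lit 8223, nat_lit 5307, nat_lit 3363, nat_lit 4011, nat_lit 3795, nat_lit 3831, nat_lit 3867, nat_lit 3855, nat_lit 3847] (nat_lit 2) [] false,
   Spec.mk (nat_lit 3853) (nat_lit 0) [nat_lit 8227, nat_lit 5311, nat_lit 3367, nat_lit 4015, nat_lit 3799, nat_lit 3871, nat_lit 3847, nat_lit 3855] (nat_lit 3) [nat_lit 10413] false,
   Spec.mk (nat_lit 3855) (nat_lit 0) [nat_lit 8229, nat_lit 5313, nat_lit 3369, nat_lit 4017, nat_lit 3801, nat_lit 3873, nat_lit 3849, nat_lit 3853] (nat_lit 1) [] false,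
   Spec.mk (nat_lit 3863) (nat_lit 0) [nat_lit 8237, nat_lit 5321, nat_lit 3377, nat_lit 4025, nat_lit 3845, nat_lit 3865] (nat_lit 3) [nat_lit 10423] false,
   Spec.mk (nat_lit 3865) (nat_lit 0) [nat_lit 8239, nat_lit 5323, nat_lit 3379, nat_lit 4027, nat_lit 3847, nat_lit 3871, nat_lit 3863, nat_lit 3867] (nat_lit 2) [nat_lit 10425] false,
   Spec.mk (nat_lit 3867) (nat_lit 0) [nat_lit 8241, nat_lit 5325, nat_lit 3381, nat_lit 4029, nat_lit 3849, nat_lit 3873, nat_lit 3865] (nat_lit 3) [] false,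
   Spec.mk (nat_lit 3871) (nat_lit 0) [nat_lit 8245, nat_lit 5329, nat_lit 3385, nat_lit 4033, nat_lit 3853, nat_lit 3865, nat_lit 3873] (nat_lit 1) [nat_lit 10431] false,
   Spec.mk (nat_lit 3873) (nat_lit 0) [nat_lit 8247, nat_lit 5331, nat_lit 3387, nat_lit 4035, nat_lit 3855, nat_lit 3867, nat_lit 3879, nat_lit 3871] (nat_lit 0) [] false,
   Spec.mk (nat_lit 3879) (nat_lit 1) [nat_lit 8253, nat_lit 5337, nat_lit 3393, nat_lit 4041, nat_lit 3873] (nat_lit 0) [] false,
   Spec.mk (nat_lit 3905) (nat_lit 1) [nat_lit 8279, nat_lit 5363, nat_lit 3419, nat_lit 3743, nat_lit 3923, nat_lit 3911] (nat_lit 0) [nat_lit 10465] false,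
   Spec.mk (nat_lit 3911) (nat_lit 0) [nat_lit 8285, nat_lit 5369, nat_lit 3425, nat_lit 3749, nat_lit 3929, nat_lit 3905, nat_lit 3913] (nat_lit 1) [nat_lit 10471] false,
   Spec.mk (nat_lit 3913) (nat_lit 1) [nat_lit 8287, nat_lit 5371, nat_lit 3427, nat_lit 3751, nat_lit 3931, nat_lit 3911] (nat_lit 0) [nat_lit 10473] false,
   Spec.mk (nat_lit 3923) (nat_lit 0) [nat_lit 8297, nat_lit 5381, nat_lit 3437, nat_lit 3761, nat_lit 3977, nat_lit 3905, nat_lit 3929] (nat_lit 1) [nat_lit 10483] false,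
   Spec.mk (nat_lit 3929) (nat_lit 0) [nat_lit 8303, nat_lit 5387, nat_lit 3443, nat_lit 3767, nat_lit 3983, nat_lit 3911, nat_lit 3947, nat_lit 3923, nat_lit 3935, nat_lit 3931] (nat_lit 1) [nat_lit 10489] false,
   Spec.mk (nat_lit 3931) (nat_lit 0) [nat_lit 8305, nat_lit 5389, nat_lit 3445, nat_lit 3769, nat_lit 3985, nat_lit 3913, nat_lit 3949, nat_lit 3937, nat_lit 3929] (nat_lit 0) [nat_lit 10491] false,
   Spec.mk (nat_lit 3935) (nat_lit 0) [nat_lit 8309, nat_lit 5393, nat_lit 3449, nat_lit 3773, nat_lit 3989, nat_lit 3953, nat_lit 3929, nat_lit 3937] (nat_lit 3) [nat_lit 10495] false,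
   Spec.mk (nat_lit 3937) (nat_lit 0) [nat_lit 8311, nat_lit 5395, nat_lit 3451, nat_lit 3775, nat_lit 3991, nat_lit 3955, nat_lit 3931, nat_lit 3935, nat_lit 3939] (nat_lit 0) [nat_lit 10497] false,
   Spec.mk (nat_lit 3939) (nat_lit 1) [nat_lit 8313, nat_lit 5397, nat_lit 3453, nat_lit 3777, nat_lit 3993, nat_lit 3957, nat_lit 3937] (nat_lit 0) [] false,
   Spec.mk (nat_lit 3947) (nat_lit 0) [nat_lit 8321, nat_lit 5405, nat_lit 3461, nat_lit 3785, nat_lit 4001, nat_lit 3929, nat_lit 3953, nat_lit 3949] (nat_lit 3) [nat_lit 10507] false,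
   Spec.mk (nat_lit 3949) (nat_lit 0) [nat_lit 8323, nat_lit 5407, nat_lit 3463, nat_lit 3787, nat_lit 4003, nat_lit 3931, nat_lit 3955, nat_lit 3947] (nat_lit 3) [nat_lit 10509] false,
   Spec.mk (nat_lit 3953) (nat_lit 0) [nat_lit 8327, nat_lit 5411, nat_lit 3467, nat_lit 3791, nat_lit 4007, nat_lit 3935, nat_lit 3947, nat_lit 3955] (nat_lit 3) [nat_lit 10513] false,
   Spec.mk (nat_lit 3955) (nat_lit 0) [nat_lit 8329, nat_lit 5413, nat_lit 3469, nat_lit 3793, nat_lit 4009, nat_lit 3937, nat_lit 3949, nat_lit 3961, nat_lit 3953, nat_lit 3957] (nat_lit 1) [nat_lit 10515] false]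

noncomputable def sp9 : List Spec :=
  [Spec.mk (nat_lit 3957) (nat_lit 0) [nat_lit 8331, nat_lit 5415, nat_lit 3471, nat_lit 3795, nat_lit 4011, nat_lit 3939, nat_lit 3963, nat_lit 3955] (nat_lit 1) [] false,
   Spec.mk (nat_lit 3961) (nat_lit 0) [nat_lit 8335, nat_lit 5419, nat_lit 3475, nat_lit 3799, nat_lit 4015, nat_lit 3955, nat_lit 3963] (nat_lit 1) [nat_lit 10521] false,
   Spec.mk (nat_lit 3963) (nat_lit 1) [nat_lit 8337, nat_lit 5421, nat_lit 3477, nat_lit 3801, nat_lit 4017, nat_lit 3957, nat_lit 3961] (nat_lit 0) [] false,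
   Spec.mk (nat_lit 3977) (nat_lit 0) [nat_lit 8351, nat_lit 5435, nat_lit 3491, nat_lit 3815, nat_lit 4139, nat_lit 3923, nat_lit 3983] (nat_lit 0) [nat_lit 10537] false,
   Spec.mk (nat_lit 3983) (nat_lit 0) [nat_lit 8357, nat_lit 5441, nat_lit 3497, nat_lit 3821, nat_lit 4145, nat_lit 3929, nat_lit 4001, nat_lit 3977, nat_lit 3989, nat_lit 3985] (nat_lit 1) [nat_lit 10543] false,
   Spec.mk (nat_lit 3985) (nat_lit 0) [nat_lit 8359, nat_lit 5443, nat_lit 3499, nat_lit 3823, nat_lit 4147, nat_lit 3931, nat_lit 4003, nat_lit 3991, nat_lit 3983] (nat_lit 0) [nat_lit 10545] false,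
   Spec.mk (nat_lit 3989) (nat_lit 0) [nat_lit 8363, nat_lit 5447, nat_lit 3503, nat_lit 3827, nat_lit 4151, nat_lit 3935, nat_lit 4007, nat_lit 3983, nat_lit 3991] (nat_lit 4) [nat_lit 10549] false,
   Spec.mk (nat_lit 3991) (nat_lit 0) [nat_lit 8365, nat_lit 5449, nat_lit 3505, nat_lit 3829, nat_lit 4153, nat_lit 3937, nat_lit 4009, nat_lit 3985, nat_lit 3989, nat_lit 3993] (nat_lit 1) [nat_lit 10551] false,
   Spec.mk (nat_lit 3993) (nat_lit 0) [nat_lit 8367, nat_lit 5451, nat_lit 3507, nat_lit 3831, nat_lit 4155, nat_lit 3939, nat_lit 4011, nat_lit 3991] (nat_lit 0) [] false,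
   Spec.mk (nat_lit 4001) (nat_lit 0) [nat_lit 8375, nat_lit 5459, nat_lit 3515, nat_lit 3839, nat_lit 4163, nat_lit 3947, nat_lit 4055, nat_lit 3983, nat_lit 4007, nat_lit 4003] (nat_lit 1) [nat_lit 10561] false,
   Spec.mk (nat_lit 4003) (nat_lit 0) [nat_lit 8377, nat_lit 5461, nat_lit 3517, nat_lit 3841, nat_lit 4165, nat_lit 3949, nat_lit 4057, nat_lit 3985, nat_lit 4009, nat_lit 4001] (nat_lit 1) [nat_lit 10563] false,
   Spec.mk (nat_lit 4007) (nat_lit 0) [nat_lit 8381, nat_lit 5465, nat_lit 3521, nat_lit 3845, nat_lit 4169, nat_lit 3953, nat_lit 4061, nat_lit 3989, nat_lit 4025, nat_lit 4001, nat_lit 4009] (nat_lit 2) [nat_lit 10567] false,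
   Spec.mk (nat_lit 4009) (nat_lit 0) [nat_lit 8383, nat_lit 5467, nat_lit 3523, nat_lit 3847, nat_lit 4171, nat_lit 3955, nat_lit 4063, nat_lit 3991, nat_lit 4027, nat_lit 4003, nat_lit 4015, nat_lit 4007, nat_lit 4011] (nat_lit 0) [nat_lit 10569] false,
   Spec.mk (nat_lit 4011) (nat_lit 0) [nat_lit 8385, nat_lit 5469, nat_lit 3525, nat_lit 3849, nat_lit 4173, nat_lit 3957, nat_lit 4065, nat_lit 3993, nat_lit 4029, nat_lit 4017, nat_lit 4009] (nat_lit 0) [] false,
   Spec.mk (nat_lit 4015) (nat_lit 0) [nat_lit 8389, nat_lit 5473, nat_lit 3529, nat_lit 3853, nat_lit 4177, nat_lit 3961, nat_lit 4069, nat_lit 4033, nat_lit 4009, nat_lit 4017] (nat_lit 1) [nat_lit 10575] false,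
   Spec.mk (nat_lit 4017) (nat_lit 1) [nat_lit 8391, nat_lit 5475, nat_lit 3531, nat_lit 3855, nat_lit 4179, nat_lit 3963, nat_lit 4071, nat_lit 4035, nat_lit 4011, nat_lit 4015] (nat_lit 0) [] false,
   Spec.mk (nat_lit 4025) (nat_lit 0) [nat_lit 8399, nat_lit 5483, nat_lit 3539, nat_lit 3863, nat_lit 4187, nat_lit 4079, nat_lit 4007, nat_lit 4027] (nat_lit 2) [nat_lit 10585] false,
   Spec.mk (nat_lit 4027) (nat_lit 0) [nat_lit 8401, nat_lit 5485, nat_lit 3541, nat_lit 3865, nat_lit 4189, nat_lit 4081, nat_lit 4009, nat_lit 4033, nat_lit 4025, nat_lit 4029] (nat_lit 1) [nat_lit 10587] false,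
   Spec.mk (nat_lit 4029) (nat_lit 0) [nat_lit 8403, nat_lit 5487, nat_lit 3543, nat_lit 3867, nat_lit 4191, nat_lit 4083, nat_lit 4011, nat_lit 4035, nat_lit 4027] (nat_lit 2) [] false,
   Spec.mk (nat_lit 4033) (nat_lit 0) [nat_lit 8407, nat_lit 5491, nat_lit 3547, nat_lit 3871, nat_lit 4195, nat_lit 4087, nat_lit 4015, nat_lit 4027, nat_lit 4035] (nat_lit 0) [nat_lit 10593] false,
   Spec.mk (nat_lit 4035) (nat_lit 1) [nat_lit 8409, nat_lit 5493, nat_lit 3549, nat_lit 3873, nat_lit 4197, nat_lit 4089, nat_lit 4017, nat_lit 4029, nat_lit 4041, nat_lit 4033] (nat_lit 0) [] false,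
   Spec.mk (nat_lit 4041) (nat_lit 2) [nat_lit 8415, nat_lit 5499, nat_lit 3555, nat_lit 3879, nat_lit 4203, nat_lit 4095, nat_lit 4035] (nat_lit 0) [] false,
   Spec.mk (nat_lit 4055) (nat_lit 0) [nat_lit 8429, nat_lit 5513, nat_lit 3569, nat_lit 4217, nat_lit 4001, nat_lit 4061, nat_lit 4057] (nat_lit 1) [nat_lit 10615] false,
   Spec.mk (nat_lit 4057) (nat_lit 0) [nat_lit 8431, nat_lit 5515, nat_lit 3571, nat_lit 4219, nat_lit 4003, nat_lit 4063, nat_lit 4055] (nat_lit 1) [nat_lit 10617] false,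
   Spec.mk (nat_lit 4061) (nat_lit 0) [nat_lit 8435, nat_lit 5519, nat_lit 3575, nat_lit 4223, nat_lit 4007, nat_lit 4079, nat_lit 4055, nat_lit 4063] (nat_lit 3) [nat_lit 10621] false,
   Spec.mk (nat_lit 4063) (nat_lit 0) [nat_lit 8437, nat_lit 5521, nat_lit 3577, nat_lit 4225, nat_lit 4009, nat_lit 4081, nat_lit 4057, nat_lit 4069, nat_lit 4061, nat_lit 4065] (nat_lit 1) [nat_lit 10623] false,
   Spec.mk (nat_lit 4065) (nat_lit 0) [nat_lit 8439, nat_lit 5523, nat_lit 3579, nat_lit 4227, nat_lit 4011, nat_lit 4083, nat_lit 4071, nat_lit 4063] (nat_lit 1) [] false,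
   Spec.mk (nat_lit 4069) (nat_lit 0) [nat_lit 8443, nat_lit 5527, nat_lit 3583, nat_lit 4231, nat_lit 4015, nat_lit 4087, nat_lit 4063, nat_lit 4071] (nat_lit 3) [nat_lit 10629] false,
   Spec.mk (nat_lit 4071) (nat_lit 0) [nat_lit 8445, nat_lit 5529, nat_lit 3585, nat_lit 4233, nat_lit 4017, nat_lit 4089, nat_lit 4065, nat_lit 4069] (nat_lit 1) [] false,
   Spec.mk (nat_lit 4079) (nat_lit 0) [nat_lit 8453, nat_lit 5537, nat_lit 3593, nat_lit 4241, nat_lit 4025, nat_lit 4061, nat_lit 4081] (nat_lit 1) [nat_lit 10639] false,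
   Spec.mk (nat_lit 4081) (nat_lit 0) [nat_lit 8455, nat_lit 5539, nat_lit 3595, nat_lit 4243, nat_lit 4027, nat_lit 4063, nat_lit 4087, nat_lit 4079, nat_lit 4083] (nat_lit 0) [nat_lit 10641] false,
   Spec.mk (nat_lit 4083) (nat_lit 0) [nat_lit 8457, nat_lit 5541, nat_lit 3597, nat_lit 4245, nat_lit 4029, nat_lit 4065, nat_lit 4089, nat_lit 4081] (nat_lit 1) [] false,
   Spec.mk (nat_lit 4087) (nat_lit 0) [nat_lit 8461, nat_lit 5545, nat_lit 3601, nat_lit 4249, nat_lit 4033, nat_lit 4069, nat_lit 4105, nat_lit 4081, nat_lit 4089] (nat_lit 0) [nat_lit 10647] false,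
   Spec.mk (nat_lit 4089) (nat_lit 1) [nat_lit 8463, nat_lit 5547, nat_lit 3603, nat_lit 4251, nat_lit 4035, nat_lit 4071, nat_lit 4107, nat_lit 4083, nat_lit 4095, nat_lit 4087] (nat_lit 0) [] false,
   Spec.mk (nat_lit 4095) (nat_lit 1) [nat_lit 8469, nat_lit 5553, nat_lit 3609, nat_lit 4257, nat_lit 4041, nat_lit 4113, nat_lit 4089] (nat_lit 0) [] false,
   Spec.mk (nat_lit 4105) (nat_lit 1) [nat_lit 8479, nat_lit 5563, nat_lit 3619, nat_lit 4267, nat_lit 4087, nat_lit 4107] (nat_lit 0) [nat_lit 10665] false,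
   Spec.mk (nat_lit 4107) (nat_lit 1) [nat_lit 8481, nat_lit 5565, nat_lit 3621, nat_lit 4269, nat_lit 4089, nat_lit 4113, nat_lit 4105] (nat_lit 0) [] false,
   Spec.mk (nat_lit 4113) (nat_lit 3) [nat_lit 8487, nat_lit 5571, nat_lit 3627, nat_lit 4275, nat_lit 4095, nat_lit 4107] (nat_lit 0) [] false,
   Spec.mk (nat_lit 4139) (nat_lit 1) [nat_lit 8513, nat_lit 5597, nat_lit 3977, nat_lit 4145] (nat_lit 0) [nat_lit 10699] false,
   Spec.mk (nat_lit 4145) (nat_lit 0) [nat_lit 8519, nat_lit 5603, nat_lit 3983, nat_lit 4163, nat_lit 4139, nat_lit 4151, nat_lit 4147] (nat_lit 0) [nat_lit 10705] false,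
   Spec.mk (nat_lit 4147) (nat_lit 1) [nat_lit 8521, nat_lit 5605, nat_lit 3985, nat_lit 4165, nat_lit 4153, nat_lit 4145] (nat_lit 0) [nat_lit 10707] false,
   Spec.mk (nat_lit 4151) (nat_lit 0) [nat_lit 8525, nat_lit 5609, nat_lit 3989, nat_lit 4169, nat_lit 4145, nat_lit 4153] (nat_lit 3) [nat_lit 10711] false,
   Spec.mk (nat_lit 4153) (nat_lit 0) [nat_lit 8527, nat_lit 5611, nat_lit 3991, nat_lit 4171, nat_lit 4147, nat_lit 4151, nat_lit 4155] (nat_lit 0) [nat_lit 10713] false,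
   Spec.mk (nat_lit 4155) (nat_lit 1) [nat_lit 8529, nat_lit 5613, nat_lit 3993, nat_lit 4173, nat_lit 4153] (nat_lit 0) [] false,
   Spec.mk (nat_lit 4163) (nat_lit 0) [nat_lit 8537, nat_lit 5621, nat_lit 4001, nat_lit 4217, nat_lit 4145, nat_lit 4169, nat_lit 4165] (nat_lit 1) [nat_lit 10723] false,
   Spec.mk (nat_lit 4165) (nat_lit 0) [nat_lit 8539, nat_lit 5623, nat_lit 4003, nat_lit 4219, nat_lit 4147, nat_lit 4171, nat_lit 4163] (nat_lit 1) [nat_lit 10725] false,
   Spec.mk (nat_lit 4169) (nat_lit 0) [nat_lit 8543, nat_lit 5627, nat_lit 4007, nat_lit 4223, nat_lit 4151, nat_lit 4187, nat_lit 4163, nat_lit 4171] (nat_lit 2) [nat_lit 10729] false,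
   Spec.mk (nat_lit 4171) (nat_lit 0) [nat_lit 8545, nat_lit 5629, nat_lit 4009, nat_lit 4225, nat_lit 4153, nat_lit 4189, nat_lit 4165, nat_lit 4177, nat_lit 4169, nat_lit 4173] (nat_lit 0) [nat_lit 10731] false,
   Spec.mk (nat_lit 4173) (nat_lit 0) [nat_lit 8547, nat_lit 5631, nat_lit 4011, nat_lit 4227, nat_lit 4155, nat_lit 4191, nat_lit 4179, nat_lit 4171] (nat_lit 0) [] false,
   Spec.mk (nat_lit 4177) (nat_lit 0) [nat_lit 8551, nat_lit 5635, nat_lit 4015, nat_lit 4231, nat_lit 4195, nat_lit 4171, nat_lit 4179] (nat_lit 1) [nat_lit 10737] false,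
   Spec.mk (nat_lit 4179) (nat_lit 1) [nat_lit 8553, nat_lit 5637, nat_lit 4017, nat_lit 4233, nat_lit 4197, nat_lit 4173, nat_lit 4177] (nat_lit 0) [] false,
   Spec.mk (nat_lit 4187) (nat_lit 0) [nat_lit 8561, nat_lit 5645, nat_lit 4025, nat_lit 4241, nat_lit 4169, nat_lit 4189] (nat_lit 3) [nat_lit 10747] false,
   Spec.mk (nat_lit 4189) (nat_lit 0) [nat_lit 8563, nat_lit 5647, nat_lit 4027, nat_lit 4243, nat_lit 4171, nat_lit 4195, nat_lit 4187, nat_lit 4191] (nat_lit 2) [nat_lit 10749] false,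
   Spec.mk (nat_lit 4191) (nat_lit 0) [nat_lit 8565, nat_lit 5649, nat_lit 4029, nat_lit 4245, nat_lit 4173, nat_lit 4197, nat_lit 4189] (nat_lit 3) [] false,
   Spec.mk (nat_lit 4195) (nat_lit 0) [nat_lit 8569, nat_lit 5653, nat_lit 4033, nat_lit 4249, nat_lit 4177, nat_lit 4189, nat_lit 4197] (nat_lit 1) [nat_lit 10755] false,
   Spec.mk (nat_lit 4197) (nat_lit 0) [nat_lit 8571, nat_lit 5655, nat_lit 4035, nat_lit 4251, nat_lit 4179, nat_lit 4191, nat_lit 4203, nat_lit 4195] (nat_lit 0) [] false,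
   Spec.mk (nat_lit 4203) (nat_lit 1) [nat_lit 8577, nat_lit 5661, nat_lit 4041, nat_lit 4257, nat_lit 4197] (nat_lit 0) [] false,
   Spec.mk (nat_lit 4217) (nat_lit 1) [nat_lit 8591, nat_lit 5675, nat_lit 4055, nat_lit 4163, nat_lit 4223, nat_lit 4219] (nat_lit 0) [nat_lit 10777] false,
   Spec.mk (nat_lit 4219) (nat_lit 1) [nat_lit 8593, nat_lit 5677, nat_lit 4057, nat_lit 4165, nat_lit 4225, nat_lit 4217] (nat_lit 0) [nat_lit 10779] false,
   Spec.mk (nat_lit 4223) (nat_lit 0) [nat_lit 8597, nat_lit 5681, nat_lit 4061, nat_lit 4169, nat_lit 4241, nat_lit 4217, nat_lit 4225] (nat_lit 1) [nat_lit 10783] false]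

noncomputable def sp10 : List Spec :=
  [Spec.mk (nat_lit 4225) (nat_lit 1) [nat_lit 8599, nat_lit 5683, nat_lit 4063, nat_lit 4171, nat_lit 4243, nat_lit 4219, nat_lit 4231, nat_lit 4223, nat_lit 4227] (nat_lit 0) [nat_lit 10785] false,
   Spec.mk (nat_lit 4227) (nat_lit 1) [nat_lit 8601, nat_lit 5685, nat_lit 4065, nat_lit 4173, nat_lit 4245, nat_lit 4233, nat_lit 4225] (nat_lit 0) [] false,
   Spec.mk (nat_lit 4231) (nat_lit 0) [nat_lit 8605, nat_lit 5689, nat_lit 4069, nat_lit 4177, nat_lit 4249, nat_lit 4225, nat_lit 4233] (nat_lit 1) [nat_lit 10791] false,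
   Spec.mk (nat_lit 4233) (nat_lit 1) [nat_lit 8607, nat_lit 5691, nat_lit 4071, nat_lit 4179, nat_lit 4251, nat_lit 4227, nat_lit 4231] (nat_lit 0) [] false,
   Spec.mk (nat_lit 4241) (nat_lit 0) [nat_lit 8615, nat_lit 5699, nat_lit 4079, nat_lit 4187, nat_lit 4295, nat_lit 4223, nat_lit 4243] (nat_lit 0) [nat_lit 10801] false,
   Spec.mk (nat_lit 4243) (nat_lit 1) [nat_lit 8617, nat_lit 5701, nat_lit 4081, nat_lit 4189, nat_lit 4297, nat_lit 4225, nat_lit 4249, nat_lit 4241, nat_lit 4245] (nat_lit 0) [nat_lit 10803] false,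
   Spec.mk (nat_lit 4245) (nat_lit 0) [nat_lit 8619, nat_lit 5703, nat_lit 4083, nat_lit 4191, nat_lit 4299, nat_lit 4227, nat_lit 4251, nat_lit 4243] (nat_lit 0) [] false,
   Spec.mk (nat_lit 4249) (nat_lit 1) [nat_lit 8623, nat_lit 5707, nat_lit 4087, nat_lit 4195, nat_lit 4303, nat_lit 4231, nat_lit 4267, nat_lit 4243, nat_lit 4251] (nat_lit 0) [nat_lit 10809] false,
   Spec.mk (nat_lit 4251) (nat_lit 2) [nat_lit 8625, nat_lit 5709, nat_lit 4089, nat_lit 4197, nat_lit 4305, nat_lit 4233, nat_lit 4269, nat_lit 4245, nat_lit 4257, nat_lit 4249] (nat_lit 0) [] false,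
   Spec.mk (nat_lit 4257) (nat_lit 2) [nat_lit 8631, nat_lit 5715, nat_lit 4095, nat_lit 4203, nat_lit 4311, nat_lit 4275, nat_lit 4251] (nat_lit 0) [] false,
   Spec.mk (nat_lit 4267) (nat_lit 1) [nat_lit 8641, nat_lit 5725, nat_lit 4105, nat_lit 4321, nat_lit 4249, nat_lit 4269] (nat_lit 0) [nat_lit 10827] false,
   Spec.mk (nat_lit 4269) (nat_lit 1) [nat_lit 8643, nat_lit 5727, nat_lit 4107, nat_lit 4323, nat_lit 4251, nat_lit 4275, nat_lit 4267] (nat_lit 0) [] false,
   Spec.mk (nat_lit 4275) (nat_lit 3) [nat_lit 8649, nat_lit 5733, nat_lit 4113, nat_lit 4329, nat_lit 4257, nat_lit 4269] (nat_lit 0) [] false,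
   Spec.mk (nat_lit 4295) (nat_lit 1) [nat_lit 8669, nat_lit 5753, nat_lit 4241, nat_lit 4297] (nat_lit 0) [nat_lit 10855] false,
   Spec.mk (nat_lit 4297) (nat_lit 2) [nat_lit 8671, nat_lit 5755, nat_lit 4243, nat_lit 4303, nat_lit 4295, nat_lit 4299] (nat_lit 0) [nat_lit 10857] false,
   Spec.mk (nat_lit 4299) (nat_lit 1) [nat_lit 8673, nat_lit 5757, nat_lit 4245, nat_lit 4305, nat_lit 4297] (nat_lit 0) [] false,
   Spec.mk (nat_lit 4303) (nat_lit 1) [nat_lit 8677, nat_lit 5761, nat_lit 4249, nat_lit 4321, nat_lit 4297, nat_lit 4305] (nat_lit 0) [nat_lit 10863] false,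
   Spec.mk (nat_lit 4305) (nat_lit 2) [nat_lit 8679, nat_lit 5763, nat_lit 4251, nat_lit 4323, nat_lit 4299, nat_lit 4311, nat_lit 4303] (nat_lit 0) [] false,
   Spec.mk (nat_lit 4311) (nat_lit 1) [nat_lit 8685, nat_lit 5769, nat_lit 4257, nat_lit 4329, nat_lit 4305] (nat_lit 0) [] false,
   Spec.mk (nat_lit 4321) (nat_lit 3) [nat_lit 8695, nat_lit 5779, nat_lit 4267, nat_lit 4303, nat_lit 4323] (nat_lit 0) [nat_lit 10881] false,
   Spec.mk (nat_lit 4323) (nat_lit 3) [nat_lit 8697, nat_lit 5781, nat_lit 4269, nat_lit 4305, nat_lit 4329, nat_lit 4321] (nat_lit 0) [] false,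
   Spec.mk (nat_lit 4329) (nat_lit 4) [nat_lit 8703, nat_lit 5787, nat_lit 4275, nat_lit 4311, nat_lit 4347, nat_lit 4323] (nat_lit 0) [] false,
   Spec.mk (nat_lit 4347) (nat_lit 5) [nat_lit 8721, nat_lit 5805, nat_lit 4329] (nat_lit 0) [] false,
   Spec.mk (nat_lit 4427) (nat_lit 1) [nat_lit 8801, nat_lit 2969, nat_lit 4481, nat_lit 4445] (nat_lit 0) [nat_lit 10987] false,
   Spec.mk (nat_lit 4445) (nat_lit 0) [nat_lit 8819, nat_lit 2987, nat_lit 4499, nat_lit 4427, nat_lit 4451] (nat_lit 1) [nat_lit 11005] false,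
   Spec.mk (nat_lit 4451) (nat_lit 0) [nat_lit 8825, nat_lit 2993, nat_lit 4505, nat_lit 4445, nat_lit 4453] (nat_lit 1) [nat_lit 11011] false,
   Spec.mk (nat_lit 4453) (nat_lit 1) [nat_lit 8827, nat_lit 2995, nat_lit 4507, nat_lit 4451] (nat_lit 0) [nat_lit 11013] false,
   Spec.mk (nat_lit 4481) (nat_lit 0) [nat_lit 8855, nat_lit 3023, nat_lit 4643, nat_lit 4427, nat_lit 4499] (nat_lit 1) [nat_lit 11041] false,
   Spec.mk (nat_lit 4499) (nat_lit 0) [nat_lit 8873, nat_lit 3041, nat_lit 4661, nat_lit 4445, nat_lit 4553, nat_lit 4481, nat_lit 4517, nat_lit 4505] (nat_lit 1) [nat_lit 11059] false,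
   Spec.mk (nat_lit 4505) (nat_lit 0) [nat_lit 8879, nat_lit 3047, nat_lit 4667, nat_lit 4451, nat_lit 4559, nat_lit 4523, nat_lit 4499, nat_lit 4507] (nat_lit 2) [nat_lit 11065] false,
   Spec.mk (nat_lit 4507) (nat_lit 0) [nat_lit 8881, nat_lit 3049, nat_lit 4669, nat_lit 4453, nat_lit 4561, nat_lit 4525, nat_lit 4505] (nat_lit 0) [nat_lit 11067] false,
   Spec.mk (nat_lit 4517) (nat_lit 0) [nat_lit 8891, nat_lit 3059, nat_lit 4679, nat_lit 4571, nat_lit 4499, nat_lit 4523] (nat_lit 3) [nat_lit 11077] false,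
   Spec.mk (nat_lit 4523) (nat_lit 0) [nat_lit 8897, nat_lit 3065, nat_lit 4685, nat_lit 4577, nat_lit 4505, nat_lit 4517, nat_lit 4529, nat_lit 4525] (nat_lit 2) [nat_lit 11083] false,
   Spec.mk (nat_lit 4525) (nat_lit 0) [nat_lit 8899, nat_lit 3067, nat_lit 4687, nat_lit 4579, nat_lit 4507, nat_lit 4531, nat_lit 4523] (nat_lit 1) [nat_lit 11085] false,
   Spec.mk (nat_lit 4529) (nat_lit 0) [nat_lit 8903, nat_lit 3071, nat_lit 4691, nat_lit 4583, nat_lit 4523, nat_lit 4531] (nat_lit 3) [nat_lit 11089] false,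
   Spec.mk (nat_lit 4531) (nat_lit 0) [nat_lit 8905, nat_lit 3073, nat_lit 4693, nat_lit 4585, nat_lit 4525, nat_lit 4529, nat_lit 4533] (nat_lit 0) [nat_lit 11091] false,
   Spec.mk (nat_lit 4533) (nat_lit 1) [nat_lit 8907, nat_lit 3075, nat_lit 4695, nat_lit 4587, nat_lit 4531] (nat_lit 0) [] false,
   Spec.mk (nat_lit 4553) (nat_lit 0) [nat_lit 8927, nat_lit 3095, nat_lit 4715, nat_lit 4499, nat_lit 4571, nat_lit 4559] (nat_lit 3) [nat_lit 11113] false,
   Spec.mk (nat_lit 4559) (nat_lit 0) [nat_lit 8933, nat_lit 3101, nat_lit 4721, nat_lit 4505, nat_lit 4577, nat_lit 4553, nat_lit 4561] (nat_lit 5) [nat_lit 11119] false,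
   Spec.mk (nat_lit 4561) (nat_lit 0) [nat_lit 8935, nat_lit 3103, nat_lit 4723, nat_lit 4507, nat_lit 4579, nat_lit 4559] (nat_lit 3) [nat_lit 11121] false,
   Spec.mk (nat_lit 4571) (nat_lit 0) [nat_lit 8945, nat_lit 3113, nat_lit 4733, nat_lit 4517, nat_lit 4553, nat_lit 4577] (nat_lit 3) [nat_lit 11131] false,
   Spec.mk (nat_lit 4577) (nat_lit 0) [nat_lit 8951, nat_lit 3119, nat_lit 4739, nat_lit 4523, nat_lit 4559, nat_lit 4595, nat_lit 4571, nat_lit 4583, nat_lit 4579] (nat_lit 3) [nat_lit 11137] false,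
   Spec.mk (nat_lit 4579) (nat_lit 0) [nat_lit 8953, nat_lit 3121, nat_lit 4741, nat_lit 4525, nat_lit 4561, nat_lit 4597, nat_lit 4585, nat_lit 4577] (nat_lit 2) [nat_lit 11139] false,
   Spec.mk (nat_lit 4583) (nat_lit 0) [nat_lit 8957, nat_lit 3125, nat_lit 4745, nat_lit 4529, nat_lit 4601, nat_lit 4577, nat_lit 4585] (nat_lit 5) [nat_lit 11143] false,
   Spec.mk (nat_lit 4585) (nat_lit 0) [nat_lit 8959, nat_lit 3127, nat_lit 4747, nat_lit 4531, nat_lit 4603, nat_lit 4579, nat_lit 4583, nat_lit 4587] (nat_lit 2) [nat_lit 11145] false,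
   Spec.mk (nat_lit 4587) (nat_lit 0) [nat_lit 8961, nat_lit 3129, nat_lit 4749, nat_lit 4533, nat_lit 4605, nat_lit 4585] (nat_lit 1) [] false,
   Spec.mk (nat_lit 4595) (nat_lit 0) [nat_lit 8969, nat_lit 3137, nat_lit 4757, nat_lit 4577, nat_lit 4601, nat_lit 4597] (nat_lit 3) [nat_lit 11155] false,
   Spec.mk (nat_lit 4597) (nat_lit 0) [nat_lit 8971, nat_lit 3139, nat_lit 4759, nat_lit 4579, nat_lit 4603, nat_lit 4595] (nat_lit 3) [nat_lit 11157] false,
   Spec.mk (nat_lit 4601) (nat_lit 0) [nat_lit 8975, nat_lit 3143, nat_lit 4763, nat_lit 4583, nat_lit 4595, nat_lit 4603] (nat_lit 3) [nat_lit 11161] false,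
   Spec.mk (nat_lit 4603) (nat_lit 0) [nat_lit 8977, nat_lit 3145, nat_lit 4765, nat_lit 4585, nat_lit 4597, nat_lit 4609, nat_lit 4601, nat_lit 4605] (nat_lit 1) [nat_lit 11163] false,
   Spec.mk (nat_lit 4605) (nat_lit 0) [nat_lit 8979, nat_lit 3147, nat_lit 4767, nat_lit 4587, nat_lit 4611, nat_lit 4603] (nat_lit 1) [] false,
   Spec.mk (nat_lit 4609) (nat_lit 0) [nat_lit 8983, nat_lit 3151, nat_lit 4771, nat_lit 4603, nat_lit 4611] (nat_lit 1) [nat_lit 11169] false,
   Spec.mk (nat_lit 4611) (nat_lit 1) [nat_lit 8985, nat_lit 3153, nat_lit 4773, nat_lit 4605, nat_lit 4609] (nat_lit 0) [] false,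
   Spec.mk (nat_lit 4643) (nat_lit 0) [nat_lit 9017, nat_lit 3185, nat_lit 5129, nat_lit 4481, nat_lit 4661] (nat_lit 1) [nat_lit 11203] false,
   Spec.mk (nat_lit 4661) (nat_lit 0) [nat_lit 9035, nat_lit 3203, nat_lit 5147, nat_lit 4499, nat_lit 4715, nat_lit 4643, nat_lit 4679, nat_lit 4667] (nat_lit 2) [nat_lit 11221] false,
   Spec.mk (nat_lit 4667) (nat_lit 0) [nat_lit 9041, nat_lit 3209, nat_lit 5153, nat_lit 4505, nat_lit 4721, nat_lit 4685, nat_lit 4661, nat_lit 4669] (nat_lit 3) [nat_lit 11227] false,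
   Spec.mk (nat_lit 4669) (nat_lit 0) [nat_lit 9043, nat_lit 3211, nat_lit 5155, nat_lit 4507, nat_lit 4723, nat_lit 4687, nat_lit 4667] (nat_lit 1) [nat_lit 11229] false,
   Spec.mk (nat_lit 4679) (nat_lit 0) [nat_lit 9053, nat_lit 3221, nat_lit 5165, nat_lit 4517, nat_lit 4733, nat_lit 4661, nat_lit 4685] (nat_lit 5) [nat_lit 11239] false,
   Spec.mk (nat_lit 4685) (nat_lit 0) [nat_lit 9059, nat_lit 3227, nat_lit 5171, nat_lit 4523, nat_lit 4739, nat_lit 4667, nat_lit 4679, nat_lit 4691, nat_lit 4687] (nat_lit 4) [nat_lit 11245] false,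
   Spec.mk (nat_lit 4687) (nat_lit 0) [nat_lit 9061, nat_lit 3229, nat_lit 5173, nat_lit 4525, nat_lit 4741, nat_lit 4669, nat_lit 4693, nat_lit 4685] (nat_lit 3) [nat_lit 11247] false]

noncomputable def sp11 : List Spec :=
  [Spec.mk (nat_lit 4691) (nat_lit 0) [nat_lit 9065, nat_lit 3233, nat_lit 5177, nat_lit 4529, nat_lit 4745, nat_lit 4685, nat_lit 4693] (nat_lit 5) [nat_lit 11251] false,
   Spec.mk (nat_lit 4693) (nat_lit 0) [nat_lit 9067, nat_lit 3235, nat_lit 5179, nat_lit 4531, nat_lit 4747, nat_lit 4687, nat_lit 4691, nat_lit 4695] (nat_lit 2) [nat_lit 11253] false,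
   Spec.mk (nat_lit 4695) (nat_lit 0) [nat_lit 9069, nat_lit 3237, nat_lit 5181, nat_lit 4533, nat_lit 4749, nat_lit 4693] (nat_lit 1) [] false,
   Spec.mk (nat_lit 4715) (nat_lit 0) [nat_lit 9089, nat_lit 3257, nat_lit 5201, nat_lit 4553, nat_lit 4877, nat_lit 4661, nat_lit 4733, nat_lit 4721] (nat_lit 2) [nat_lit 11275] false,
   Spec.mk (nat_lit 4721) (nat_lit 0) [nat_lit 9095, nat_lit 3263, nat_lit 5207, nat_lit 4559, nat_lit 4883, nat_lit 4667, nat_lit 4739, nat_lit 4715, nat_lit 4723] (nat_lit 4) [nat_lit 11281] false,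
   Spec.mk (nat_lit 4723) (nat_lit 0) [nat_lit 9097, nat_lit 3265, nat_lit 5209, nat_lit 4561, nat_lit 4885, nat_lit 4669, nat_lit 4741, nat_lit 4721] (nat_lit 2) [nat_lit 11283] false,
   Spec.mk (nat_lit 4733) (nat_lit 0) [nat_lit 9107, nat_lit 3275, nat_lit 5219, nat_lit 4571, nat_lit 4895, nat_lit 4679, nat_lit 4787, nat_lit 4715, nat_lit 4739] (nat_lit 3) [nat_lit 11293] false,
   Spec.mk (nat_lit 4739) (nat_lit 0) [nat_lit 9113, nat_lit 3281, nat_lit 5225, nat_lit 4577, nat_lit 4901, nat_lit 4685, nat_lit 4793, nat_lit 4721, nat_lit 4757, nat_lit 4733, nat_lit 4745, nat_lit 4741] (nat_lit 3) [nat_lit 11299] false,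
   Spec.mk (nat_lit 4741) (nat_lit 0) [nat_lit 9115, nat_lit 3283, nat_lit 5227, nat_lit 4579, nat_lit 4903, nat_lit 4687, nat_lit 4795, nat_lit 4723, nat_lit 4759, nat_lit 4747, nat_lit 4739] (nat_lit 2) [nat_lit 11301] false,
   Spec.mk (nat_lit 4745) (nat_lit 0) [nat_lit 9119, nat_lit 3287, nat_lit 5231, nat_lit 4583, nat_lit 4907, nat_lit 4691, nat_lit 4799, nat_lit 4763, nat_lit 4739, nat_lit 4747] (nat_lit 5) [nat_lit 11305] false,
   Spec.mk (nat_lit 4747) (nat_lit 0) [nat_lit 9121, nat_lit 3289, nat_lit 5233, nat_lit 4585, nat_lit 4909, nat_lit 4693, nat_lit 4801, nat_lit 4765, nat_lit 4741, nat_lit 4745, nat_lit 4749] (nat_lit 2) [nat_lit 11307] false,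
   Spec.mk (nat_lit 4749) (nat_lit 0) [nat_lit 9123, nat_lit 3291, nat_lit 5235, nat_lit 4587, nat_lit 4911, nat_lit 4695, nat_lit 4803, nat_lit 4767, nat_lit 4747] (nat_lit 1) [] false,
   Spec.mk (nat_lit 4757) (nat_lit 0) [nat_lit 9131, nat_lit 3299, nat_lit 5243, nat_lit 4595, nat_lit 4919, nat_lit 4811, nat_lit 4739, nat_lit 4763, nat_lit 4759] (nat_lit 4) [nat_lit 11317] false,
   Spec.mk (nat_lit 4759) (nat_lit 0) [nat_lit 9133, nat_lit 3301, nat_lit 5245, nat_lit 4597, nat_lit 4921, nat_lit 4813, nat_lit 4741, nat_lit 4765, nat_lit 4757] (nat_lit 4) [nat_lit 11319] false,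
   Spec.mk (nat_lit 4763) (nat_lit 0) [nat_lit 9137, nat_lit 3305, nat_lit 5249, nat_lit 4601, nat_lit 4925, nat_lit 4817, nat_lit 4745, nat_lit 4757, nat_lit 4765] (nat_lit 4) [nat_lit 11323] false,
   Spec.mk (nat_lit 4765) (nat_lit 0) [nat_lit 9139, nat_lit 3307, nat_lit 5251, nat_lit 4603, nat_lit 4927, nat_lit 4819, nat_lit 4747, nat_lit 4759, nat_lit 4771, nat_lit 4763, nat_lit 4767] (nat_lit 2) [nat_lit 11325] false,
   Spec.mk (nat_lit 4767) (nat_lit 0) [nat_lit 9141, nat_lit 3309, nat_lit 5253, nat_lit 4605, nat_lit 4929, nat_lit 4821, nat_lit 4749, nat_lit 4773, nat_lit 4765] (nat_lit 2) [] false,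
   Spec.mk (nat_lit 4771) (nat_lit 0) [nat_lit 9145, nat_lit 3313, nat_lit 5257, nat_lit 4609, nat_lit 4933, nat_lit 4825, nat_lit 4765, nat_lit 4773] (nat_lit 2) [nat_lit 11331] false,
   Spec.mk (nat_lit 4773) (nat_lit 0) [nat_lit 9147, nat_lit 3315, nat_lit 5259, nat_lit 4611, nat_lit 4935, nat_lit 4827, nat_lit 4767, nat_lit 4771] (nat_lit 0) [] false,
   Spec.mk (nat_lit 4787) (nat_lit 0) [nat_lit 9161, nat_lit 3329, nat_lit 5273, nat_lit 4949, nat_lit 4733, nat_lit 4793] (nat_lit 3) [nat_lit 11347] false,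
   Spec.mk (nat_lit 4793) (nat_lit 0) [nat_lit 9167, nat_lit 3335, nat_lit 5279, nat_lit 4955, nat_lit 4739, nat_lit 4811, nat_lit 4787, nat_lit 4799, nat_lit 4795] (nat_lit 4) [nat_lit 11353] false,
   Spec.mk (nat_lit 4795) (nat_lit 0) [nat_lit 9169, nat_lit 3337, nat_lit 5281, nat_lit 4957, nat_lit 4741, nat_lit 4813, nat_lit 4801, nat_lit 4793] (nat_lit 3) [nat_lit 11355] false,
   Spec.mk (nat_lit 4799) (nat_lit 0) [nat_lit 9173, nat_lit 3341, nat_lit 5285, nat_lit 4961, nat_lit 4745, nat_lit 4817, nat_lit 4793, nat_lit 4801] (nat_lit 7) [nat_lit 11359] false,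
   Spec.mk (nat_lit 4801) (nat_lit 0) [nat_lit 9175, nat_lit 3343, nat_lit 5287, nat_lit 4963, nat_lit 4747, nat_lit 4819, nat_lit 4795, nat_lit 4799, nat_lit 4803] (nat_lit 4) [nat_lit 11361] false,
   Spec.mk (nat_lit 4803) (nat_lit 0) [nat_lit 9177, nat_lit 3345, nat_lit 5289, nat_lit 4965, nat_lit 4749, nat_lit 4821, nat_lit 4801] (nat_lit 3) [] false,
   Spec.mk (nat_lit 4811) (nat_lit 0) [nat_lit 9185, nat_lit 3353, nat_lit 5297, nat_lit 4973, nat_lit 4757, nat_lit 4793, nat_lit 4817, nat_lit 4813] (nat_lit 3) [nat_lit 11371] false,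
   Spec.mk (nat_lit 4813) (nat_lit 0) [nat_lit 9187, nat_lit 3355, nat_lit 5299, nat_lit 4975, nat_lit 4759, nat_lit 4795, nat_lit 4819, nat_lit 4811] (nat_lit 3) [nat_lit 11373] false,
   Spec.mk (nat_lit 4817) (nat_lit 0) [nat_lit 9191, nat_lit 3359, nat_lit 5303, nat_lit 4979, nat_lit 4763, nat_lit 4799, nat_lit 4835, nat_lit 4811, nat_lit 4819] (nat_lit 4) [nat_lit 11377] false,
   Spec.mk (nat_lit 4819) (nat_lit 0) [nat_lit 9193, nat_lit 3361, nat_lit 5305, nat_lit 4981, nat_lit 4765, nat_lit 4801, nat_lit 4837, nat_lit 4813, nat_lit 4825, nat_lit 4817, nat_lit 4821] (nat_lit 2) [nat_lit 11379] false,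
   Spec.mk (nat_lit 4821) (nat_lit 0) [nat_lit 9195, nat_lit 3363, nat_lit 5307, nat_lit 4983, nat_lit 4767, nat_lit 4803, nat_lit 4839, nat_lit 4827, nat_lit 4819] (nat_lit 2) [] false,
   Spec.mk (nat_lit 4825) (nat_lit 0) [nat_lit 9199, nat_lit 3367, nat_lit 5311, nat_lit 4987, nat_lit 4771, nat_lit 4843, nat_lit 4819, nat_lit 4827] (nat_lit 3) [nat_lit 11385] false,
   Spec.mk (nat_lit 4827) (nat_lit 0) [nat_lit 9201, nat_lit 3369, nat_lit 5313, nat_lit 4989, nat_lit 4773, nat_lit 4845, nat_lit 4821, nat_lit 4825] (nat_lit 1) [] false,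
   Spec.mk (nat_lit 4835) (nat_lit 0) [nat_lit 9209, nat_lit 3377, nat_lit 5321, nat_lit 4997, nat_lit 4817, nat_lit 4837] (nat_lit 3) [nat_lit 11395] false,
   Spec.mk (nat_lit 4837) (nat_lit 0) [nat_lit 9211, nat_lit 3379, nat_lit 5323, nat_lit 4999, nat_lit 4819, nat_lit 4843, nat_lit 4835, nat_lit 4839] (nat_lit 2) [nat_lit 11397] false,
   Spec.mk (nat_lit 4839) (nat_lit 0) [nat_lit 9213, nat_lit 3381, nat_lit 5325, nat_lit 5001, nat_lit 4821, nat_lit 4845, nat_lit 4837] (nat_lit 3) [] false,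
   Spec.mk (nat_lit 4843) (nat_lit 0) [nat_lit 9217, nat_lit 3385, nat_lit 5329, nat_lit 5005, nat_lit 4825, nat_lit 4837, nat_lit 4845] (nat_lit 1) [nat_lit 11403] false,
   Spec.mk (nat_lit 4845) (nat_lit 0) [nat_lit 9219, nat_lit 3387, nat_lit 5331, nat_lit 5007, nat_lit 4827, nat_lit 4839, nat_lit 4851, nat_lit 4843] (nat_lit 0) [] false,
   Spec.mk (nat_lit 4851) (nat_lit 1) [nat_lit 9225, nat_lit 3393, nat_lit 5337, nat_lit 5013, nat_lit 4845] (nat_lit 0) [] false,
   Spec.mk (nat_lit 4877) (nat_lit 0) [nat_lit 9251, nat_lit 3419, nat_lit 5363, nat_lit 4715, nat_lit 4895, nat_lit 4883] (nat_lit 3) [nat_lit 11437] false,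
   Spec.mk (nat_lit 4883) (nat_lit 0) [nat_lit 9257, nat_lit 3425, nat_lit 5369, nat_lit 4721, nat_lit 4901, nat_lit 4877, nat_lit 4885] (nat_lit 5) [nat_lit 11443] false,
   Spec.mk (nat_lit 4885) (nat_lit 0) [nat_lit 9259, nat_lit 3427, nat_lit 5371, nat_lit 4723, nat_lit 4903, nat_lit 4883] (nat_lit 3) [nat_lit 11445] false,
   Spec.mk (nat_lit 4895) (nat_lit 0) [nat_lit 9269, nat_lit 3437, nat_lit 5381, nat_lit 4733, nat_lit 4949, nat_lit 4877, nat_lit 4901] (nat_lit 5) [nat_lit 11455] false,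
   Spec.mk (nat_lit 4901) (nat_lit 0) [nat_lit 9275, nat_lit 3443, nat_lit 5387, nat_lit 4739, nat_lit 4955, nat_lit 4883, nat_lit 4919, nat_lit 4895, nat_lit 4907, nat_lit 4903] (nat_lit 5) [nat_lit 11461] false,
   Spec.mk (nat_lit 4903) (nat_lit 0) [nat_lit 9277, nat_lit 3445, nat_lit 5389, nat_lit 4741, nat_lit 4957, nat_lit 4885, nat_lit 4921, nat_lit 4909, nat_lit 4901] (nat_lit 4) [nat_lit 11463] false,
   Spec.mk (nat_lit 4907) (nat_lit 0) [nat_lit 9281, nat_lit 3449, nat_lit 5393, nat_lit 4745, nat_lit 4961, nat_lit 4925, nat_lit 4901, nat_lit 4909] (nat_lit 7) [nat_lit 11467] false,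
   Spec.mk (nat_lit 4909) (nat_lit 0) [nat_lit 9283, nat_lit 3451, nat_lit 5395, nat_lit 4747, nat_lit 4963, nat_lit 4927, nat_lit 4903, nat_lit 4907, nat_lit 4911] (nat_lit 4) [nat_lit 11469] false,
   Spec.mk (nat_lit 4911) (nat_lit 0) [nat_lit 9285, nat_lit 3453, nat_lit 5397, nat_lit 4749, nat_lit 4965, nat_lit 4929, nat_lit 4909] (nat_lit 3) [] false,
   Spec.mk (nat_lit 4919) (nat_lit 0) [nat_lit 9293, nat_lit 3461, nat_lit 5405, nat_lit 4757, nat_lit 4973, nat_lit 4901, nat_lit 4925, nat_lit 4921] (nat_lit 7) [nat_lit 11479] false,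
   Spec.mk (nat_lit 4921) (nat_lit 0) [nat_lit 9295, nat_lit 3463, nat_lit 5407, nat_lit 4759, nat_lit 4975, nat_lit 4903, nat_lit 4927, nat_lit 4919] (nat_lit 7) [nat_lit 11481] false,
   Spec.mk (nat_lit 4925) (nat_lit 0) [nat_lit 9299, nat_lit 3467, nat_lit 5411, nat_lit 4763, nat_lit 4979, nat_lit 4907, nat_lit 4919, nat_lit 4927] (nat_lit 7) [nat_lit 11485] false,
   Spec.mk (nat_lit 4927) (nat_lit 0) [nat_lit 9301, nat_lit 3469, nat_lit 5413, nat_lit 4765, nat_lit 4981, nat_lit 4909, nat_lit 4921, nat_lit 4933, nat_lit 4925, nat_lit 4929] (nat_lit 5) [nat_lit 11487] false,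
   Spec.mk (nat_lit 4929) (nat_lit 0) [nat_lit 9303, nat_lit 3471, nat_lit 5415, nat_lit 4767, nat_lit 4983, nat_lit 4911, nat_lit 4935, nat_lit 4927] (nat_lit 5) [] false,
   Spec.mk (nat_lit 4933) (nat_lit 0) [nat_lit 9307, nat_lit 3475, nat_lit 5419, nat_lit 4771, nat_lit 4987, nat_lit 4927, nat_lit 4935] (nat_lit 5) [nat_lit 11493] false,
   Spec.mk (nat_lit 4935) (nat_lit 0) [nat_lit 9309, nat_lit 3477, nat_lit 5421, nat_lit 4773, nat_lit 4989, nat_lit 4929, nat_lit 4933] (nat_lit 3) [] false,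
   Spec.mk (nat_lit 4949) (nat_lit 0) [nat_lit 9323, nat_lit 3491, nat_lit 5435, nat_lit 4787, nat_lit 4895, nat_lit 4955] (nat_lit 3) [nat_lit 11509] false,
   Spec.mk (nat_lit 4955) (nat_lit 0) [nat_lit 9329, nat_lit 3497, nat_lit 5441, nat_lit 4793, nat_lit 4901, nat_lit 4973, nat_lit 4949, nat_lit 4961, nat_lit 4957] (nat_lit 4) [nat_lit 11515] false,
   Spec.mk (nat_lit 4957) (nat_lit 0) [nat_lit 9331, nat_lit 3499, nat_lit 5443, nat_lit 4795, nat_lit 4903, nat_lit 4975, nat_lit 4963, nat_lit 4955] (nat_lit 3) [nat_lit 11517] false,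
   Spec.mk (nat_lit 4961) (nat_lit 0) [nat_lit 9335, nat_lit 3503, nat_lit 5447, nat_lit 4799, nat_lit 4907, nat_lit 4979, nat_lit 4955, nat_lit 4963] (nat_lit 7) [nat_lit 11521] false,
   Spec.mk (nat_lit 4963) (nat_lit 0) [nat_lit 9337, nat_lit 3505, nat_lit 5449, nat_lit 4801, nat_lit 4909, nat_lit 4981, nat_lit 4957, nat_lit 4961, nat_lit 4965] (nat_lit 4) [nat_lit 11523] false,
   Spec.mk (nat_lit 4965) (nat_lit 0) [nat_lit 9339, nat_lit 3507, nat_lit 5451, nat_lit 4803, nat_lit 4911, nat_lit 4983, nat_lit 4963] (nat_lit 3) [] false]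

noncomputable def sp12 : List Spec :=
  [Spec.mk (nat_lit 4973) (nat_lit 0) [nat_lit 9347, nat_lit 3515, nat_lit 5459, nat_lit 4811, nat_lit 4919, nat_lit 5027, nat_lit 4955, nat_lit 4979, nat_lit 4975] (nat_lit 4) [nat_lit 11533] false,
   Spec.mk (nat_lit 4975) (nat_lit 0) [nat_lit 9349, nat_lit 3517, nat_lit 5461, nat_lit 4813, nat_lit 4921, nat_lit 5029, nat_lit 4957, nat_lit 4981, nat_lit 4973] (nat_lit 4) [nat_lit 11535] false,
   Spec.mk (nat_lit 4979) (nat_lit 0) [nat_lit 9353, nat_lit 3521, nat_lit 5465, nat_lit 4817, nat_lit 4925, nat_lit 5033, nat_lit 4961, nat_lit 4997, nat_lit 4973, nat_lit 4981] (nat_lit 5) [nat_lit 11539] false,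
   Spec.mk (nat_lit 4981) (nat_lit 0) [nat_lit 9355, nat_lit 3523, nat_lit 5467, nat_lit 4819, nat_lit 4927, nat_lit 5035, nat_lit 4963, nat_lit 4999, nat_lit 4975, nat_lit 4987, nat_lit 4979, nat_lit 4983] (nat_lit 3) [nat_lit 11541] false,
   Spec.mk (nat_lit 4983) (nat_lit 0) [nat_lit 9357, nat_lit 3525, nat_lit 5469, nat_lit 4821, nat_lit 4929, nat_lit 5037, nat_lit 4965, nat_lit 5001, nat_lit 4989, nat_lit 4981] (nat_lit 3) [] false,
   Spec.mk (nat_lit 4987) (nat_lit 0) [nat_lit 9361, nat_lit 3529, nat_lit 5473, nat_lit 4825, nat_lit 4933, nat_lit 5041, nat_lit 5005, nat_lit 4981, nat_lit 4989] (nat_lit 4) [nat_lit 11547] false,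
   Spec.mk (nat_lit 4989) (nat_lit 0) [nat_lit 9363, nat_lit 3531, nat_lit 5475, nat_lit 4827, nat_lit 4935, nat_lit 5043, nat_lit 5007, nat_lit 4983, nat_lit 4987] (nat_lit 2) [] false,
   Spec.mk (nat_lit 4997) (nat_lit 0) [nat_lit 9371, nat_lit 3539, nat_lit 5483, nat_lit 4835, nat_lit 5051, nat_lit 4979, nat_lit 4999] (nat_lit 5) [nat_lit 11557] false,
   Spec.mk (nat_lit 4999) (nat_lit 0) [nat_lit 9373, nat_lit 3541, nat_lit 5485, nat_lit 4837, nat_lit 5053, nat_lit 4981, nat_lit 5005, nat_lit 4997, nat_lit 5001] (nat_lit 4) [nat_lit 11559] false,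
   Spec.mk (nat_lit 5001) (nat_lit 0) [nat_lit 9375, nat_lit 3543, nat_lit 5487, nat_lit 4839, nat_lit 5055, nat_lit 4983, nat_lit 5007, nat_lit 4999] (nat_lit 5) [] false,
   Spec.mk (nat_lit 5005) (nat_lit 0) [nat_lit 9379, nat_lit 3547, nat_lit 5491, nat_lit 4843, nat_lit 5059, nat_lit 4987, nat_lit 4999, nat_lit 5007] (nat_lit 3) [nat_lit 11565] false,
   Spec.mk (nat_lit 5007) (nat_lit 0) [nat_lit 9381, nat_lit 3549, nat_lit 5493, nat_lit 4845, nat_lit 5061, nat_lit 4989, nat_lit 5001, nat_lit 5013, nat_lit 5005] (nat_lit 2) [] false,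
   Spec.mk (nat_lit 5013) (nat_lit 0) [nat_lit 9387, nat_lit 3555, nat_lit 5499, nat_lit 4851, nat_lit 5067, nat_lit 5007] (nat_lit 1) [] false,
   Spec.mk (nat_lit 5027) (nat_lit 0) [nat_lit 9401, nat_lit 3569, nat_lit 5513, nat_lit 4973, nat_lit 5033, nat_lit 5029] (nat_lit 3) [nat_lit 11587] false,
   Spec.mk (nat_lit 5029) (nat_lit 0) [nat_lit 9403, nat_lit 3571, nat_lit 5515, nat_lit 4975, nat_lit 5035, nat_lit 5027] (nat_lit 3) [nat_lit 11589] false,
   Spec.mk (nat_lit 5033) (nat_lit 0) [nat_lit 9407, nat_lit 3575, nat_lit 5519, nat_lit 4979, nat_lit 5051, nat_lit 5027, nat_lit 5035] (nat_lit 5) [nat_lit 11593] false,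
   Spec.mk (nat_lit 5035) (nat_lit 0) [nat_lit 9409, nat_lit 3577, nat_lit 5521, nat_lit 4981, nat_lit 5053, nat_lit 5029, nat_lit 5041, nat_lit 5033, nat_lit 5037] (nat_lit 3) [nat_lit 11595] false,
   Spec.mk (nat_lit 5037) (nat_lit 0) [nat_lit 9411, nat_lit 3579, nat_lit 5523, nat_lit 4983, nat_lit 5055, nat_lit 5043, nat_lit 5035] (nat_lit 3) [] false,
   Spec.mk (nat_lit 5041) (nat_lit 0) [nat_lit 9415, nat_lit 3583, nat_lit 5527, nat_lit 4987, nat_lit 5059, nat_lit 5035, nat_lit 5043] (nat_lit 5) [nat_lit 11601] false,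
   Spec.mk (nat_lit 5043) (nat_lit 0) [nat_lit 9417, nat_lit 3585, nat_lit 5529, nat_lit 4989, nat_lit 5061, nat_lit 5037, nat_lit 5041] (nat_lit 3) [] false,
   Spec.mk (nat_lit 5051) (nat_lit 0) [nat_lit 9425, nat_lit 3593, nat_lit 5537, nat_lit 4997, nat_lit 5033, nat_lit 5053] (nat_lit 3) [nat_lit 11611] false,
   Spec.mk (nat_lit 5053) (nat_lit 0) [nat_lit 9427, nat_lit 3595, nat_lit 5539, nat_lit 4999, nat_lit 5035, nat_lit 5059, nat_lit 5051, nat_lit 5055] (nat_lit 2) [nat_lit 11613] false,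
   Spec.mk (nat_lit 5055) (nat_lit 0) [nat_lit 9429, nat_lit 3597, nat_lit 5541, nat_lit 5001, nat_lit 5037, nat_lit 5061, nat_lit 5053] (nat_lit 3) [] false,
   Spec.mk (nat_lit 5059) (nat_lit 0) [nat_lit 9433, nat_lit 3601, nat_lit 5545, nat_lit 5005, nat_lit 5041, nat_lit 5077, nat_lit 5053, nat_lit 5061] (nat_lit 2) [nat_lit 11619] false,
   Spec.mk (nat_lit 5061) (nat_lit 0) [nat_lit 9435, nat_lit 3603, nat_lit 5547, nat_lit 5007, nat_lit 5043, nat_lit 5079, nat_lit 5055, nat_lit 5067, nat_lit 5059] (nat_lit 1) [] false,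
   Spec.mk (nat_lit 5067) (nat_lit 0) [nat_lit 9441, nat_lit 3609, nat_lit 5553, nat_lit 5013, nat_lit 5085, nat_lit 5061] (nat_lit 1) [] false,
   Spec.mk (nat_lit 5077) (nat_lit 0) [nat_lit 9451, nat_lit 3619, nat_lit 5563, nat_lit 5059, nat_lit 5079] (nat_lit 1) [nat_lit 11637] false,
   Spec.mk (nat_lit 5079) (nat_lit 0) [nat_lit 9453, nat_lit 3621, nat_lit 5565, nat_lit 5061, nat_lit 5085, nat_lit 5077] (nat_lit 1) [] false,
   Spec.mk (nat_lit 5085) (nat_lit 1) [nat_lit 9459, nat_lit 3627, nat_lit 5571, nat_lit 5067, nat_lit 5079] (nat_lit 0) [] false,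
   Spec.mk (nat_lit 5129) (nat_lit 1) [nat_lit 9503, nat_lit 3671, nat_lit 4643, nat_lit 5147] (nat_lit 0) [nat_lit 11689] false,
   Spec.mk (nat_lit 5147) (nat_lit 0) [nat_lit 9521, nat_lit 3689, nat_lit 4661, nat_lit 5201, nat_lit 5129, nat_lit 5165, nat_lit 5153] (nat_lit 0) [nat_lit 11707] false,
   Spec.mk (nat_lit 5153) (nat_lit 0) [nat_lit 9527, nat_lit 3695, nat_lit 4667, nat_lit 5207, nat_lit 5171, nat_lit 5147, nat_lit 5155] (nat_lit 1) [nat_lit 11713] false,
   Spec.mk (nat_lit 5155) (nat_lit 1) [nat_lit 9529, nat_lit 3697, nat_lit 4669, nat_lit 5209, nat_lit 5173, nat_lit 5153] (nat_lit 0) [nat_lit 11715] false,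
   Spec.mk (nat_lit 5165) (nat_lit 0) [nat_lit 9539, nat_lit 3707, nat_lit 4679, nat_lit 5219, nat_lit 5147, nat_lit 5171] (nat_lit 3) [nat_lit 11725] false,
   Spec.mk (nat_lit 5171) (nat_lit 0) [nat_lit 9545, nat_lit 3713, nat_lit 4685, nat_lit 5225, nat_lit 5153, nat_lit 5165, nat_lit 5177, nat_lit 5173] (nat_lit 2) [nat_lit 11731] false,
   Spec.mk (nat_lit 5173) (nat_lit 0) [nat_lit 9547, nat_lit 3715, nat_lit 4687, nat_lit 5227, nat_lit 5155, nat_lit 5179, nat_lit 5171] (nat_lit 1) [nat_lit 11733] false,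
   Spec.mk (nat_lit 5177) (nat_lit 0) [nat_lit 9551, nat_lit 3719, nat_lit 4691, nat_lit 5231, nat_lit 5171, nat_lit 5179] (nat_lit 3) [nat_lit 11737] false,
   Spec.mk (nat_lit 5179) (nat_lit 0) [nat_lit 9553, nat_lit 3721, nat_lit 4693, nat_lit 5233, nat_lit 5173, nat_lit 5177, nat_lit 5181] (nat_lit 0) [nat_lit 11739] false,
   Spec.mk (nat_lit 5181) (nat_lit 1) [nat_lit 9555, nat_lit 3723, nat_lit 4695, nat_lit 5235, nat_lit 5179] (nat_lit 0) [] false,
   Spec.mk (nat_lit 5201) (nat_lit 0) [nat_lit 9575, nat_lit 3743, nat_lit 4715, nat_lit 5363, nat_lit 5147, nat_lit 5219, nat_lit 5207] (nat_lit 1) [nat_lit 11761] false,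
   Spec.mk (nat_lit 5207) (nat_lit 0) [nat_lit 9581, nat_lit 3749, nat_lit 4721, nat_lit 5369, nat_lit 5153, nat_lit 5225, nat_lit 5201, nat_lit 5209] (nat_lit 3) [nat_lit 11767] false,
   Spec.mk (nat_lit 5209) (nat_lit 0) [nat_lit 9583, nat_lit 3751, nat_lit 4723, nat_lit 5371, nat_lit 5155, nat_lit 5227, nat_lit 5207] (nat_lit 1) [nat_lit 11769] false,
   Spec.mk (nat_lit 5219) (nat_lit 0) [nat_lit 9593, nat_lit 3761, nat_lit 4733, nat_lit 5381, nat_lit 5165, nat_lit 5273, nat_lit 5201, nat_lit 5225] (nat_lit 2) [nat_lit 11779] false,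
   Spec.mk (nat_lit 5225) (nat_lit 0) [nat_lit 9599, nat_lit 3767, nat_lit 4739, nat_lit 5387, nat_lit 5171, nat_lit 5279, nat_lit 5207, nat_lit 5243, nat_lit 5219, nat_lit 5231, nat_lit 5227] (nat_lit 2) [nat_lit 11785] false,
   Spec.mk (nat_lit 5227) (nat_lit 0) [nat_lit 9601, nat_lit 3769, nat_lit 4741, nat_lit 5389, nat_lit 5173, nat_lit 5281, nat_lit 5209, nat_lit 5245, nat_lit 5233, nat_lit 5225] (nat_lit 1) [nat_lit 11787] false,
   Spec.mk (nat_lit 5231) (nat_lit 0) [nat_lit 9605, nat_lit 3773, nat_lit 4745, nat_lit 5393, nat_lit 5177, nat_lit 5285, nat_lit 5249, nat_lit 5225, nat_lit 5233] (nat_lit 4) [nat_lit 11791] false,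
   Spec.mk (nat_lit 5233) (nat_lit 0) [nat_lit 9607, nat_lit 3775, nat_lit 4747, nat_lit 5395, nat_lit 5179, nat_lit 5287, nat_lit 5251, nat_lit 5227, nat_lit 5231, nat_lit 5235] (nat_lit 1) [nat_lit 11793] false,
   Spec.mk (nat_lit 5235) (nat_lit 0) [nat_lit 9609, nat_lit 3777, nat_lit 4749, nat_lit 5397, nat_lit 5181, nat_lit 5289, nat_lit 5253, nat_lit 5233] (nat_lit 0) [] false,
   Spec.mk (nat_lit 5243) (nat_lit 0) [nat_lit 9617, nat_lit 3785, nat_lit 4757, nat_lit 5405, nat_lit 5297, nat_lit 5225, nat_lit 5249, nat_lit 5245] (nat_lit 3) [nat_lit 11803] false,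
   Spec.mk (nat_lit 5245) (nat_lit 0) [nat_lit 9619, nat_lit 3787, nat_lit 4759, nat_lit 5407, nat_lit 5299, nat_lit 5227, nat_lit 5251, nat_lit 5243] (nat_lit 3) [nat_lit 11805] false,
   Spec.mk (nat_lit 5249) (nat_lit 0) [nat_lit 9623, nat_lit 3791, nat_lit 4763, nat_lit 5411, nat_lit 5303, nat_lit 5231, nat_lit 5243, nat_lit 5251] (nat_lit 3) [nat_lit 11809] false,
   Spec.mk (nat_lit 5251) (nat_lit 0) [nat_lit 9625, nat_lit 3793, nat_lit 4765, nat_lit 5413, nat_lit 5305, nat_lit 5233, nat_lit 5245, nat_lit 5257, nat_lit 5249, nat_lit 5253] (nat_lit 1) [nat_lit 11811] false,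
   Spec.mk (nat_lit 5253) (nat_lit 0) [nat_lit 9627, nat_lit 3795, nat_lit 4767, nat_lit 5415, nat_lit 5307, nat_lit 5235, nat_lit 5259, nat_lit 5251] (nat_lit 1) [] false,
   Spec.mk (nat_lit 5257) (nat_lit 0) [nat_lit 9631, nat_lit 3799, nat_lit 4771, nat_lit 5419, nat_lit 5311, nat_lit 5251, nat_lit 5259] (nat_lit 1) [nat_lit 11817] false,
   Spec.mk (nat_lit 5259) (nat_lit 1) [nat_lit 9633, nat_lit 3801, nat_lit 4773, nat_lit 5421, nat_lit 5313, nat_lit 5253, nat_lit 5257] (nat_lit 0) [] false,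
   Spec.mk (nat_lit 5273) (nat_lit 0) [nat_lit 9647, nat_lit 3815, nat_lit 4787, nat_lit 5435, nat_lit 5219, nat_lit 5279] (nat_lit 3) [nat_lit 11833] false,
   Spec.mk (nat_lit 5279) (nat_lit 0) [nat_lit 9653, nat_lit 3821, nat_lit 4793, nat_lit 5441, nat_lit 5225, nat_lit 5297, nat_lit 5273, nat_lit 5285, nat_lit 5281] (nat_lit 4) [nat_lit 11839] false,
   Spec.mk (nat_lit 5281) (nat_lit 0) [nat_lit 9655, nat_lit 3823, nat_lit 4795, nat_lit 5443, nat_lit 5227, nat_lit 5299, nat_lit 5287, nat_lit 5279] (nat_lit 3) [nat_lit 11841] false,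
   Spec.mk (nat_lit 5285) (nat_lit 0) [nat_lit 9659, nat_lit 3827, nat_lit 4799, nat_lit 5447, nat_lit 5231, nat_lit 5303, nat_lit 5279, nat_lit 5287] (nat_lit 7) [nat_lit 11845] false,
   Spec.mk (nat_lit 5287) (nat_lit 0) [nat_lit 9661, nat_lit 3829, nat_lit 4801, nat_lit 5449, nat_lit 5233, nat_lit 5305, nat_lit 5281, nat_lit 5285, nat_lit 5289] (nat_lit 4) [nat_lit 11847] false]

noncomputable def sp13 : List Spec :=
  [Spec.mk (nat_lit 5289) (nat_lit 0) [nat_lit 9663, nat_lit 3831, nat_lit 4803, nat_lit 5451, nat_lit 5235, nat_lit 5307, nat_lit 5287] (nat_lit 3) [] false,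
   Spec.mk (nat_lit 5297) (nat_lit 0) [nat_lit 9671, nat_lit 3839, nat_lit 4811, nat_lit 5459, nat_lit 5243, nat_lit 5279, nat_lit 5303, nat_lit 5299] (nat_lit 3) [nat_lit 11857] false,
   Spec.mk (nat_lit 5299) (nat_lit 0) [nat_lit 9673, nat_lit 3841, nat_lit 4813, nat_lit 5461, nat_lit 5245, nat_lit 5281, nat_lit 5305, nat_lit 5297] (nat_lit 3) [nat_lit 11859] false,
   Spec.mk (nat_lit 5303) (nat_lit 0) [nat_lit 9677, nat_lit 3845, nat_lit 4817, nat_lit 5465, nat_lit 5249, nat_lit 5285, nat_lit 5321, nat_lit 5297, nat_lit 5305] (nat_lit 4) [nat_lit 11863] false,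
   Spec.mk (nat_lit 5305) (nat_lit 0) [nat_lit 9679, nat_lit 3847, nat_lit 4819, nat_lit 5467, nat_lit 5251, nat_lit 5287, nat_lit 5323, nat_lit 5299, nat_lit 5311, nat_lit 5303, nat_lit 5307] (nat_lit 2) [nat_lit 11865] false,
   Spec.mk (nat_lit 5307) (nat_lit 0) [nat_lit 9681, nat_lit 3849, nat_lit 4821, nat_lit 5469, nat_lit 5253, nat_lit 5289, nat_lit 5325, nat_lit 5313, nat_lit 5305] (nat_lit 2) [] false,
   Spec.mk (nat_lit 5311) (nat_lit 0) [nat_lit 9685, nat_lit 3853, nat_lit 4825, nat_lit 5473, nat_lit 5257, nat_lit 5329, nat_lit 5305, nat_lit 5313] (nat_lit 3) [nat_lit 11871] false,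
   Spec.mk (nat_lit 5313) (nat_lit 0) [nat_lit 9687, nat_lit 3855, nat_lit 4827, nat_lit 5475, nat_lit 5259, nat_lit 5331, nat_lit 5307, nat_lit 5311] (nat_lit 1) [] false,
   Spec.mk (nat_lit 5321) (nat_lit 0) [nat_lit 9695, nat_lit 3863, nat_lit 4835, nat_lit 5483, nat_lit 5303, nat_lit 5323] (nat_lit 3) [nat_lit 11881] false,
   Spec.mk (nat_lit 5323) (nat_lit 0) [nat_lit 9697, nat_lit 3865, nat_lit 4837, nat_lit 5485, nat_lit 5305, nat_lit 5329, nat_lit 5321, nat_lit 5325] (nat_lit 2) [nat_lit 11883] false,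
   Spec.mk (nat_lit 5325) (nat_lit 0) [nat_lit 9699, nat_lit 3867, nat_lit 4839, nat_lit 5487, nat_lit 5307, nat_lit 5331, nat_lit 5323] (nat_lit 3) [] false,
   Spec.mk (nat_lit 5329) (nat_lit 0) [nat_lit 9703, nat_lit 3871, nat_lit 4843, nat_lit 5491, nat_lit 5311, nat_lit 5323, nat_lit 5331] (nat_lit 1) [nat_lit 11889] false,
   Spec.mk (nat_lit 5331) (nat_lit 0) [nat_lit 9705, nat_lit 3873, nat_lit 4845, nat_lit 5493, nat_lit 5313, nat_lit 5325, nat_lit 5337, nat_lit 5329] (nat_lit 0) [] false,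
   Spec.mk (nat_lit 5337) (nat_lit 1) [nat_lit 9711, nat_lit 3879, nat_lit 4851, nat_lit 5499, nat_lit 5331] (nat_lit 0) [] false,
   Spec.mk (nat_lit 5363) (nat_lit 0) [nat_lit 9737, nat_lit 3905, nat_lit 4877, nat_lit 5849, nat_lit 5201, nat_lit 5381, nat_lit 5369] (nat_lit 0) [nat_lit 11923] false,
   Spec.mk (nat_lit 5369) (nat_lit 0) [nat_lit 9743, nat_lit 3911, nat_lit 4883, nat_lit 5855, nat_lit 5207, nat_lit 5387, nat_lit 5363, nat_lit 5371] (nat_lit 2) [nat_lit 11929] false,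
   Spec.mk (nat_lit 5371) (nat_lit 0) [nat_lit 9745, nat_lit 3913, nat_lit 4885, nat_lit 5857, nat_lit 5209, nat_lit 5389, nat_lit 5369] (nat_lit 0) [nat_lit 11931] false,
   Spec.mk (nat_lit 5381) (nat_lit 0) [nat_lit 9755, nat_lit 3923, nat_lit 4895, nat_lit 5867, nat_lit 5219, nat_lit 5435, nat_lit 5363, nat_lit 5387] (nat_lit 2) [nat_lit 11941] false,
   Spec.mk (nat_lit 5387) (nat_lit 0) [nat_lit 9761, nat_lit 3929, nat_lit 4901, nat_lit 5873, nat_lit 5225, nat_lit 5441, nat_lit 5369, nat_lit 5405, nat_lit 5381, nat_lit 5393, nat_lit 5389] (nat_lit 2) [nat_lit 11947] false,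
   Spec.mk (nat_lit 5389) (nat_lit 0) [nat_lit 9763, nat_lit 3931, nat_lit 4903, nat_lit 5875, nat_lit 5227, nat_lit 5443, nat_lit 5371, nat_lit 5407, nat_lit 5395, nat_lit 5387] (nat_lit 1) [nat_lit 11949] false,
   Spec.mk (nat_lit 5393) (nat_lit 0) [nat_lit 9767, nat_lit 3935, nat_lit 4907, nat_lit 5879, nat_lit 5231, nat_lit 5447, nat_lit 5411, nat_lit 5387, nat_lit 5395] (nat_lit 4) [nat_lit 11953] false,
   Spec.mk (nat_lit 5395) (nat_lit 0) [nat_lit 9769, nat_lit 3937, nat_lit 4909, nat_lit 5881, nat_lit 5233, nat_lit 5449, nat_lit 5413, nat_lit 5389, nat_lit 5393, nat_lit 5397] (nat_lit 1) [nat_lit 11955] false,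
   Spec.mk (nat_lit 5397) (nat_lit 0) [nat_lit 9771, nat_lit 3939, nat_lit 4911, nat_lit 5883, nat_lit 5235, nat_lit 5451, nat_lit 5415, nat_lit 5395] (nat_lit 0) [] false,
   Spec.mk (nat_lit 5405) (nat_lit 0) [nat_lit 9779, nat_lit 3947, nat_lit 4919, nat_lit 5891, nat_lit 5243, nat_lit 5459, nat_lit 5387, nat_lit 5411, nat_lit 5407] (nat_lit 4) [nat_lit 11965] false,
   Spec.mk (nat_lit 5407) (nat_lit 0) [nat_lit 9781, nat_lit 3949, nat_lit 4921, nat_lit 5893, nat_lit 5245, nat_lit 5461, nat_lit 5389, nat_lit 5413, nat_lit 5405] (nat_lit 4) [nat_lit 11967] false,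
   Spec.mk (nat_lit 5411) (nat_lit 0) [nat_lit 9785, nat_lit 3953, nat_lit 4925, nat_lit 5897, nat_lit 5249, nat_lit 5465, nat_lit 5393, nat_lit 5405, nat_lit 5413] (nat_lit 4) [nat_lit 11971] false,
   Spec.mk (nat_lit 5413) (nat_lit 0) [nat_lit 9787, nat_lit 3955, nat_lit 4927, nat_lit 5899, nat_lit 5251, nat_lit 5467, nat_lit 5395, nat_lit 5407, nat_lit 5419, nat_lit 5411, nat_lit 5415] (nat_lit 2) [nat_lit 11973] false,
   Spec.mk (nat_lit 5415) (nat_lit 0) [nat_lit 9789, nat_lit 3957, nat_lit 4929, nat_lit 5901, nat_lit 5253, nat_lit 5469, nat_lit 5397, nat_lit 5421, nat_lit 5413] (nat_lit 2) [] false,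
   Spec.mk (nat_lit 5419) (nat_lit 0) [nat_lit 9793, nat_lit 3961, nat_lit 4933, nat_lit 5905, nat_lit 5257, nat_lit 5473, nat_lit 5413, nat_lit 5421] (nat_lit 2) [nat_lit 11979] false,
   Spec.mk (nat_lit 5421) (nat_lit 0) [nat_lit 9795, nat_lit 3963, nat_lit 4935, nat_lit 5907, nat_lit 5259, nat_lit 5475, nat_lit 5415, nat_lit 5419] (nat_lit 0) [] false,
   Spec.mk (nat_lit 5435) (nat_lit 0) [nat_lit 9809, nat_lit 3977, nat_lit 4949, nat_lit 5921, nat_lit 5273, nat_lit 5597, nat_lit 5381, nat_lit 5441] (nat_lit 1) [nat_lit 11995] false,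
   Spec.mk (nat_lit 5441) (nat_lit 0) [nat_lit 9815, nat_lit 3983, nat_lit 4955, nat_lit 5927, nat_lit 5279, nat_lit 5603, nat_lit 5387, nat_lit 5459, nat_lit 5435, nat_lit 5447, nat_lit 5443] (nat_lit 2) [nat_lit 12001] false,
   Spec.mk (nat_lit 5443) (nat_lit 0) [nat_lit 9817, nat_lit 3985, nat_lit 4957, nat_lit 5929, nat_lit 5281, nat_lit 5605, nat_lit 5389, nat_lit 5461, nat_lit 5449, nat_lit 5441] (nat_lit 1) [nat_lit 12003] false,
   Spec.mk (nat_lit 5447) (nat_lit 0) [nat_lit 9821, nat_lit 3989, nat_lit 4961, nat_lit 5933, nat_lit 5285, nat_lit 5609, nat_lit 5393, nat_lit 5465, nat_lit 5441, nat_lit 5449] (nat_lit 5) [nat_lit 12007] false,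
   Spec.mk (nat_lit 5449) (nat_lit 0) [nat_lit 9823, nat_lit 3991, nat_lit 4963, nat_lit 5935, nat_lit 5287, nat_lit 5611, nat_lit 5395, nat_lit 5467, nat_lit 5443, nat_lit 5447, nat_lit 5451] (nat_lit 2) [nat_lit 12009] false,
   Spec.mk (nat_lit 5451) (nat_lit 0) [nat_lit 9825, nat_lit 3993, nat_lit 4965, nat_lit 5937, nat_lit 5289, nat_lit 5613, nat_lit 5397, nat_lit 5469, nat_lit 5449] (nat_lit 1) [] false,
   Spec.mk (nat_lit 5459) (nat_lit 0) [nat_lit 9833, nat_lit 4001, nat_lit 4973, nat_lit 5945, nat_lit 5297, nat_lit 5621, nat_lit 5405, nat_lit 5513, nat_lit 5441, nat_lit 5465, nat_lit 5461] (nat_lit 2) [nat_lit 12019] false,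
   Spec.mk (nat_lit 5461) (nat_lit 0) [nat_lit 9835, nat_lit 4003, nat_lit 4975, nat_lit 5947, nat_lit 5299, nat_lit 5623, nat_lit 5407, nat_lit 5515, nat_lit 5443, nat_lit 5467, nat_lit 5459] (nat_lit 2) [nat_lit 12021] false,
   Spec.mk (nat_lit 5465) (nat_lit 0) [nat_lit 9839, nat_lit 4007, nat_lit 4979, nat_lit 5951, nat_lit 5303, nat_lit 5627, nat_lit 5411, nat_lit 5519, nat_lit 5447, nat_lit 5483, nat_lit 5459, nat_lit 5467] (nat_lit 3) [nat_lit 12025] false,
   Spec.mk (nat_lit 5467) (nat_lit 0) [nat_lit 9841, nat_lit 4009, nat_lit 4981, nat_lit 5953, nat_lit 5305, nat_lit 5629, nat_lit 5413, nat_lit 5521, nat_lit 5449, nat_lit 5485, nat_lit 5461, nat_lit 5473, nat_lit 5465, nat_lit 5469] (nat_lit 1) [nat_lit 12027] false,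
   Spec.mk (nat_lit 5469) (nat_lit 0) [nat_lit 9843, nat_lit 4011, nat_lit 4983, nat_lit 5955, nat_lit 5307, nat_lit 5631, nat_lit 5415, nat_lit 5523, nat_lit 5451, nat_lit 5487, nat_lit 5475, nat_lit 5467] (nat_lit 1) [] false,
   Spec.mk (nat_lit 5473) (nat_lit 0) [nat_lit 9847, nat_lit 4015, nat_lit 4987, nat_lit 5959, nat_lit 5311, nat_lit 5635, nat_lit 5419, nat_lit 5527, nat_lit 5491, nat_lit 5467, nat_lit 5475] (nat_lit 2) [nat_lit 12033] false,
   Spec.mk (nat_lit 5475) (nat_lit 0) [nat_lit 9849, nat_lit 4017, nat_lit 4989, nat_lit 5961, nat_lit 5313, nat_lit 5637, nat_lit 5421, nat_lit 5529, nat_lit 5493, nat_lit 5469, nat_lit 5473] (nat_lit 0) [] false,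
   Spec.mk (nat_lit 5483) (nat_lit 0) [nat_lit 9857, nat_lit 4025, nat_lit 4997, nat_lit 5969, nat_lit 5321, nat_lit 5645, nat_lit 5537, nat_lit 5465, nat_lit 5485] (nat_lit 3) [nat_lit 12043] false,
   Spec.mk (nat_lit 5485) (nat_lit 0) [nat_lit 9859, nat_lit 4027, nat_lit 4999, nat_lit 5971, nat_lit 5323, nat_lit 5647, nat_lit 5539, nat_lit 5467, nat_lit 5491, nat_lit 5483, nat_lit 5487] (nat_lit 2) [nat_lit 12045] false,
   Spec.mk (nat_lit 5487) (nat_lit 0) [nat_lit 9861, nat_lit 4029, nat_lit 5001, nat_lit 5973, nat_lit 5325, nat_lit 5649, nat_lit 5541, nat_lit 5469, nat_lit 5493, nat_lit 5485] (nat_lit 3) [] false,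
   Spec.mk (nat_lit 5491) (nat_lit 0) [nat_lit 9865, nat_lit 4033, nat_lit 5005, nat_lit 5977, nat_lit 5329, nat_lit 5653, nat_lit 5545, nat_lit 5473, nat_lit 5485, nat_lit 5493] (nat_lit 1) [nat_lit 12051] false,
   Spec.mk (nat_lit 5493) (nat_lit 0) [nat_lit 9867, nat_lit 4035, nat_lit 5007, nat_lit 5979, nat_lit 5331, nat_lit 5655, nat_lit 5547, nat_lit 5475, nat_lit 5487, nat_lit 5499, nat_lit 5491] (nat_lit 0) [] false,
   Spec.mk (nat_lit 5499) (nat_lit 1) [nat_lit 9873, nat_lit 4041, nat_lit 5013, nat_lit 5985, nat_lit 5337, nat_lit 5661, nat_lit 5553, nat_lit 5493] (nat_lit 0) [] false,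
   Spec.mk (nat_lit 5513) (nat_lit 0) [nat_lit 9887, nat_lit 4055, nat_lit 5027, nat_lit 5999, nat_lit 5675, nat_lit 5459, nat_lit 5519, nat_lit 5515] (nat_lit 2) [nat_lit 12073] false,
   Spec.mk (nat_lit 5515) (nat_lit 0) [nat_lit 9889, nat_lit 4057, nat_lit 5029, nat_lit 6001, nat_lit 5677, nat_lit 5461, nat_lit 5521, nat_lit 5513] (nat_lit 2) [nat_lit 12075] false,
   Spec.mk (nat_lit 5519) (nat_lit 0) [nat_lit 9893, nat_lit 4061, nat_lit 5033, nat_lit 6005, nat_lit 5681, nat_lit 5465, nat_lit 5537, nat_lit 5513, nat_lit 5521] (nat_lit 4) [nat_lit 12079] false,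
   Spec.mk (nat_lit 5521) (nat_lit 0) [nat_lit 9895, nat_lit 4063, nat_lit 5035, nat_lit 6007, nat_lit 5683, nat_lit 5467, nat_lit 5539, nat_lit 5515, nat_lit 5527, nat_lit 5519, nat_lit 5523] (nat_lit 2) [nat_lit 12081] false,
   Spec.mk (nat_lit 5523) (nat_lit 0) [nat_lit 9897, nat_lit 4065, nat_lit 5037, nat_lit 6009, nat_lit 5685, nat_lit 5469, nat_lit 5541, nat_lit 5529, nat_lit 5521] (nat_lit 2) [] false,
   Spec.mk (nat_lit 5527) (nat_lit 0) [nat_lit 9901, nat_lit 4069, nat_lit 5041, nat_lit 6013, nat_lit 5689, nat_lit 5473, nat_lit 5545, nat_lit 5521, nat_lit 5529] (nat_lit 4) [nat_lit 12087] false,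
   Spec.mk (nat_lit 5529) (nat_lit 0) [nat_lit 9903, nat_lit 4071, nat_lit 5043, nat_lit 6015, nat_lit 5691, nat_lit 5475, nat_lit 5547, nat_lit 5523, nat_lit 5527] (nat_lit 2) [] false,
   Spec.mk (nat_lit 5537) (nat_lit 0) [nat_lit 9911, nat_lit 4079, nat_lit 5051, nat_lit 6023, nat_lit 5699, nat_lit 5483, nat_lit 5519, nat_lit 5539] (nat_lit 2) [nat_lit 12097] false,
   Spec.mk (nat_lit 5539) (nat_lit 0) [nat_lit 9913, nat_lit 4081, nat_lit 5053, nat_lit 6025, nat_lit 5701, nat_lit 5485, nat_lit 5521, nat_lit 5545, nat_lit 5537, nat_lit 5541] (nat_lit 1) [nat_lit 12099] false,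
   Spec.mk (nat_lit 5541) (nat_lit 0) [nat_lit 9915, nat_lit 4083, nat_lit 5055, nat_lit 6027, nat_lit 5703, nat_lit 5487, nat_lit 5523, nat_lit 5547, nat_lit 5539] (nat_lit 2) [] false,
   Spec.mk (nat_lit 5545) (nat_lit 0) [nat_lit 9919, nat_lit 4087, nat_lit 5059, nat_lit 6031, nat_lit 5707, nat_lit 5491, nat_lit 5527, nat_lit 5563, nat_lit 5539, nat_lit 5547] (nat_lit 1) [nat_lit 12105] false]

noncomputable def sp14 : List Spec :=
  [Spec.mk (nat_lit 5547) (nat_lit 0) [nat_lit 9921, nat_lit 4089, nat_lit 5061, nat_lit 6033, nat_lit 5709, nat_lit 5493, nat_lit 5529, nat_lit 5565, nat_lit 5541, nat_lit 5553, nat_lit 5545] (nat_lit 0) [] false,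
   Spec.mk (nat_lit 5553) (nat_lit 0) [nat_lit 9927, nat_lit 4095, nat_lit 5067, nat_lit 6039, nat_lit 5715, nat_lit 5499, nat_lit 5571, nat_lit 5547] (nat_lit 0) [] false,
   Spec.mk (nat_lit 5563) (nat_lit 0) [nat_lit 9937, nat_lit 4105, nat_lit 5077, nat_lit 6049, nat_lit 5725, nat_lit 5545, nat_lit 5565] (nat_lit 0) [nat_lit 12123] false,
   Spec.mk (nat_lit 5565) (nat_lit 0) [nat_lit 9939, nat_lit 4107, nat_lit 5079, nat_lit 6051, nat_lit 5727, nat_lit 5547, nat_lit 5571, nat_lit 5563] (nat_lit 0) [] false,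
   Spec.mk (nat_lit 5571) (nat_lit 2) [nat_lit 9945, nat_lit 4113, nat_lit 5085, nat_lit 6057, nat_lit 5733, nat_lit 5553, nat_lit 5565] (nat_lit 0) [] false,
   Spec.mk (nat_lit 5597) (nat_lit 0) [nat_lit 9971, nat_lit 4139, nat_lit 6083, nat_lit 5435, nat_lit 5603] (nat_lit 1) [nat_lit 12157] false,
   Spec.mk (nat_lit 5603) (nat_lit 0) [nat_lit 9977, nat_lit 4145, nat_lit 6089, nat_lit 5441, nat_lit 5621, nat_lit 5597, nat_lit 5609, nat_lit 5605] (nat_lit 2) [nat_lit 12163] false,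
   Spec.mk (nat_lit 5605) (nat_lit 0) [nat_lit 9979, nat_lit 4147, nat_lit 6091, nat_lit 5443, nat_lit 5623, nat_lit 5611, nat_lit 5603] (nat_lit 1) [nat_lit 12165] false,
   Spec.mk (nat_lit 5609) (nat_lit 0) [nat_lit 9983, nat_lit 4151, nat_lit 6095, nat_lit 5447, nat_lit 5627, nat_lit 5603, nat_lit 5611] (nat_lit 5) [nat_lit 12169] false,
   Spec.mk (nat_lit 5611) (nat_lit 0) [nat_lit 9985, nat_lit 4153, nat_lit 6097, nat_lit 5449, nat_lit 5629, nat_lit 5605, nat_lit 5609, nat_lit 5613] (nat_lit 2) [nat_lit 12171] false,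
   Spec.mk (nat_lit 5613) (nat_lit 0) [nat_lit 9987, nat_lit 4155, nat_lit 6099, nat_lit 5451, nat_lit 5631, nat_lit 5611] (nat_lit 1) [] false,
   Spec.mk (nat_lit 5621) (nat_lit 0) [nat_lit 9995, nat_lit 4163, nat_lit 6107, nat_lit 5459, nat_lit 5675, nat_lit 5603, nat_lit 5627, nat_lit 5623] (nat_lit 3) [nat_lit 12181] false,
   Spec.mk (nat_lit 5623) (nat_lit 0) [nat_lit 9997, nat_lit 4165, nat_lit 6109, nat_lit 5461, nat_lit 5677, nat_lit 5605, nat_lit 5629, nat_lit 5621] (nat_lit 3) [nat_lit 12183] false,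
   Spec.mk (nat_lit 5627) (nat_lit 0) [nat_lit 10001, nat_lit 4169, nat_lit 6113, nat_lit 5465, nat_lit 5681, nat_lit 5609, nat_lit 5645, nat_lit 5621, nat_lit 5629] (nat_lit 4) [nat_lit 12187] false,
   Spec.mk (nat_lit 5629) (nat_lit 0) [nat_lit 10003, nat_lit 4171, nat_lit 6115, nat_lit 5467, nat_lit 5683, nat_lit 5611, nat_lit 5647, nat_lit 5623, nat_lit 5635, nat_lit 5627, nat_lit 5631] (nat_lit 2) [nat_lit 12189] false,
   Spec.mk (nat_lit 5631) (nat_lit 0) [nat_lit 10005, nat_lit 4173, nat_lit 6117, nat_lit 5469, nat_lit 5685, nat_lit 5613, nat_lit 5649, nat_lit 5637, nat_lit 5629] (nat_lit 2) [] false,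
   Spec.mk (nat_lit 5635) (nat_lit 0) [nat_lit 10009, nat_lit 4177, nat_lit 6121, nat_lit 5473, nat_lit 5689, nat_lit 5653, nat_lit 5629, nat_lit 5637] (nat_lit 3) [nat_lit 12195] false,
   Spec.mk (nat_lit 5637) (nat_lit 0) [nat_lit 10011, nat_lit 4179, nat_lit 6123, nat_lit 5475, nat_lit 5691, nat_lit 5655, nat_lit 5631, nat_lit 5635] (nat_lit 1) [] false,
   Spec.mk (nat_lit 5645) (nat_lit 0) [nat_lit 10019, nat_lit 4187, nat_lit 6131, nat_lit 5483, nat_lit 5699, nat_lit 5627, nat_lit 5647] (nat_lit 5) [nat_lit 12205] false,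
   Spec.mk (nat_lit 5647) (nat_lit 0) [nat_lit 10021, nat_lit 4189, nat_lit 6133, nat_lit 5485, nat_lit 5701, nat_lit 5629, nat_lit 5653, nat_lit 5645, nat_lit 5649] (nat_lit 4) [nat_lit 12207] false,
   Spec.mk (nat_lit 5649) (nat_lit 0) [nat_lit 10023, nat_lit 4191, nat_lit 6135, nat_lit 5487, nat_lit 5703, nat_lit 5631, nat_lit 5655, nat_lit 5647] (nat_lit 5) [] false,
   Spec.mk (nat_lit 5653) (nat_lit 0) [nat_lit 10027, nat_lit 4195, nat_lit 6139, nat_lit 5491, nat_lit 5707, nat_lit 5635, nat_lit 5647, nat_lit 5655] (nat_lit 3) [nat_lit 12213] false,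
   Spec.mk (nat_lit 5655) (nat_lit 0) [nat_lit 10029, nat_lit 4197, nat_lit 6141, nat_lit 5493, nat_lit 5709, nat_lit 5637, nat_lit 5649, nat_lit 5661, nat_lit 5653] (nat_lit 2) [] false,
   Spec.mk (nat_lit 5661) (nat_lit 0) [nat_lit 10035, nat_lit 4203, nat_lit 6147, nat_lit 5499, nat_lit 5715, nat_lit 5655] (nat_lit 1) [] false,
   Spec.mk (nat_lit 5675) (nat_lit 0) [nat_lit 10049, nat_lit 4217, nat_lit 6161, nat_lit 5513, nat_lit 5621, nat_lit 5681, nat_lit 5677] (nat_lit 1) [nat_lit 12235] false,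
   Spec.mk (nat_lit 5677) (nat_lit 0) [nat_lit 10051, nat_lit 4219, nat_lit 6163, nat_lit 5515, nat_lit 5623, nat_lit 5683, nat_lit 5675] (nat_lit 1) [nat_lit 12237] false,
   Spec.mk (nat_lit 5681) (nat_lit 0) [nat_lit 10055, nat_lit 4223, nat_lit 6167, nat_lit 5519, nat_lit 5627, nat_lit 5699, nat_lit 5675, nat_lit 5683] (nat_lit 3) [nat_lit 12241] false,
   Spec.mk (nat_lit 5683) (nat_lit 0) [nat_lit 10057, nat_lit 4225, nat_lit 6169, nat_lit 5521, nat_lit 5629, nat_lit 5701, nat_lit 5677, nat_lit 5689, nat_lit 5681, nat_lit 5685] (nat_lit 1) [nat_lit 12243] false,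
   Spec.mk (nat_lit 5685) (nat_lit 0) [nat_lit 10059, nat_lit 4227, nat_lit 6171, nat_lit 5523, nat_lit 5631, nat_lit 5703, nat_lit 5691, nat_lit 5683] (nat_lit 1) [] false,
   Spec.mk (nat_lit 5689) (nat_lit 0) [nat_lit 10063, nat_lit 4231, nat_lit 6175, nat_lit 5527, nat_lit 5635, nat_lit 5707, nat_lit 5683, nat_lit 5691] (nat_lit 3) [nat_lit 12249] false,
   Spec.mk (nat_lit 5691) (nat_lit 0) [nat_lit 10065, nat_lit 4233, nat_lit 6177, nat_lit 5529, nat_lit 5637, nat_lit 5709, nat_lit 5685, nat_lit 5689] (nat_lit 1) [] false,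
   Spec.mk (nat_lit 5699) (nat_lit 0) [nat_lit 10073, nat_lit 4241, nat_lit 6185, nat_lit 5537, nat_lit 5645, nat_lit 5753, nat_lit 5681, nat_lit 5701] (nat_lit 2) [nat_lit 12259] false,
   Spec.mk (nat_lit 5701) (nat_lit 0) [nat_lit 10075, nat_lit 4243, nat_lit 6187, nat_lit 5539, nat_lit 5647, nat_lit 5755, nat_lit 5683, nat_lit 5707, nat_lit 5699, nat_lit 5703] (nat_lit 1) [nat_lit 12261] false,
   Spec.mk (nat_lit 5703) (nat_lit 0) [nat_lit 10077, nat_lit 4245, nat_lit 6189, nat_lit 5541, nat_lit 5649, nat_lit 5757, nat_lit 5685, nat_lit 5709, nat_lit 5701] (nat_lit 2) [] false,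
   Spec.mk (nat_lit 5707) (nat_lit 0) [nat_lit 10081, nat_lit 4249, nat_lit 6193, nat_lit 5545, nat_lit 5653, nat_lit 5761, nat_lit 5689, nat_lit 5725, nat_lit 5701, nat_lit 5709] (nat_lit 1) [nat_lit 12267] false,
   Spec.mk (nat_lit 5709) (nat_lit 0) [nat_lit 10083, nat_lit 4251, nat_lit 6195, nat_lit 5547, nat_lit 5655, nat_lit 5763, nat_lit 5691, nat_lit 5727, nat_lit 5703, nat_lit 5715, nat_lit 5707] (nat_lit 0) [] false,
   Spec.mk (nat_lit 5715) (nat_lit 0) [nat_lit 10089, nat_lit 4257, nat_lit 6201, nat_lit 5553, nat_lit 5661, nat_lit 5769, nat_lit 5733, nat_lit 5709] (nat_lit 0) [] false,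
   Spec.mk (nat_lit 5725) (nat_lit 0) [nat_lit 10099, nat_lit 4267, nat_lit 6211, nat_lit 5563, nat_lit 5779, nat_lit 5707, nat_lit 5727] (nat_lit 1) [nat_lit 12285] false,
   Spec.mk (nat_lit 5727) (nat_lit 0) [nat_lit 10101, nat_lit 4269, nat_lit 6213, nat_lit 5565, nat_lit 5781, nat_lit 5709, nat_lit 5733, nat_lit 5725] (nat_lit 1) [] false,
   Spec.mk (nat_lit 5733) (nat_lit 1) [nat_lit 10107, nat_lit 4275, nat_lit 6219, nat_lit 5571, nat_lit 5787, nat_lit 5715, nat_lit 5727] (nat_lit 0) [] false,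
   Spec.mk (nat_lit 5753) (nat_lit 0) [nat_lit 10127, nat_lit 4295, nat_lit 6239, nat_lit 5699, nat_lit 5755] (nat_lit 1) [nat_lit 12313] false,
   Spec.mk (nat_lit 5755) (nat_lit 0) [nat_lit 10129, nat_lit 4297, nat_lit 6241, nat_lit 5701, nat_lit 5761, nat_lit 5753, nat_lit 5757] (nat_lit 0) [nat_lit 12315] false,
   Spec.mk (nat_lit 5757) (nat_lit 0) [nat_lit 10131, nat_lit 4299, nat_lit 6243, nat_lit 5703, nat_lit 5763, nat_lit 5755] (nat_lit 1) [] false,
   Spec.mk (nat_lit 5761) (nat_lit 0) [nat_lit 10135, nat_lit 4303, nat_lit 6247, nat_lit 5707, nat_lit 5779, nat_lit 5755, nat_lit 5763] (nat_lit 1) [nat_lit 12321] false,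
   Spec.mk (nat_lit 5763) (nat_lit 0) [nat_lit 10137, nat_lit 4305, nat_lit 6249, nat_lit 5709, nat_lit 5781, nat_lit 5757, nat_lit 5769, nat_lit 5761] (nat_lit 0) [] false,
   Spec.mk (nat_lit 5769) (nat_lit 0) [nat_lit 10143, nat_lit 4311, nat_lit 6255, nat_lit 5715, nat_lit 5787, nat_lit 5763] (nat_lit 1) [] false,
   Spec.mk (nat_lit 5779) (nat_lit 1) [nat_lit 10153, nat_lit 4321, nat_lit 6265, nat_lit 5725, nat_lit 5761, nat_lit 5781] (nat_lit 0) [nat_lit 12339] false,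
   Spec.mk (nat_lit 5781) (nat_lit 1) [nat_lit 10155, nat_lit 4323, nat_lit 6267, nat_lit 5727, nat_lit 5763, nat_lit 5787, nat_lit 5779] (nat_lit 0) [] false,
   Spec.mk (nat_lit 5787) (nat_lit 2) [nat_lit 10161, nat_lit 4329, nat_lit 6273, nat_lit 5733, nat_lit 5769, nat_lit 5805, nat_lit 5781] (nat_lit 0) [] false,
   Spec.mk (nat_lit 5805) (nat_lit 3) [nat_lit 10179, nat_lit 4347, nat_lit 6291, nat_lit 5787] (nat_lit 0) [] false,
   Spec.mk (nat_lit 5849) (nat_lit 1) [nat_lit 10223, nat_lit 5363, nat_lit 5867, nat_lit 5855] (nat_lit 0) [nat_lit 12409] false,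
   Spec.mk (nat_lit 5855) (nat_lit 0) [nat_lit 10229, nat_lit 5369, nat_lit 5873, nat_lit 5849, nat_lit 5857] (nat_lit 1) [nat_lit 12415] false,
   Spec.mk (nat_lit 5857) (nat_lit 1) [nat_lit 10231, nat_lit 5371, nat_lit 5875, nat_lit 5855] (nat_lit 0) [nat_lit 12417] false,
   Spec.mk (nat_lit 5867) (nat_lit 0) [nat_lit 10241, nat_lit 5381, nat_lit 5921, nat_lit 5849, nat_lit 5873] (nat_lit 1) [nat_lit 12427] false,
   Spec.mk (nat_lit 5873) (nat_lit 0) [nat_lit 10247, nat_lit 5387, nat_lit 5927, nat_lit 5855, nat_lit 5891, nat_lit 5867, nat_lit 5879, nat_lit 5875] (nat_lit 1) [nat_lit 12433] false,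
   Spec.mk (nat_lit 5875) (nat_lit 0) [nat_lit 10249, nat_lit 5389, nat_lit 5929, nat_lit 5857, nat_lit 5893, nat_lit 5881, nat_lit 5873] (nat_lit 0) [nat_lit 12435] false,
   Spec.mk (nat_lit 5879) (nat_lit 0) [nat_lit 10253, nat_lit 5393, nat_lit 5933, nat_lit 5897, nat_lit 5873, nat_lit 5881] (nat_lit 3) [nat_lit 12439] false,
   Spec.mk (nat_lit 5881) (nat_lit 0) [nat_lit 10255, nat_lit 5395, nat_lit 5935, nat_lit 5899, nat_lit 5875, nat_lit 5879, nat_lit 5883] (nat_lit 0) [nat_lit 12441] false,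
   Spec.mk (nat_lit 5883) (nat_lit 1) [nat_lit 10257, nat_lit 5397, nat_lit 5937, nat_lit 5901, nat_lit 5881] (nat_lit 0) [] false,
   Spec.mk (nat_lit 5891) (nat_lit 0) [nat_lit 10265, nat_lit 5405, nat_lit 5945, nat_lit 5873, nat_lit 5897, nat_lit 5893] (nat_lit 3) [nat_lit 12451] false]

noncomputable def sp15 : List Spec :=
  [Spec.mk (nat_lit 5893) (nat_lit 0) [nat_lit 10267, nat_lit 5407, nat_lit 5947, nat_lit 5875, nat_lit 5899, nat_lit 5891] (nat_lit 3) [nat_lit 12453] false,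
   Spec.mk (nat_lit 5897) (nat_lit 0) [nat_lit 10271, nat_lit 5411, nat_lit 5951, nat_lit 5879, nat_lit 5891, nat_lit 5899] (nat_lit 3) [nat_lit 12457] false,
   Spec.mk (nat_lit 5899) (nat_lit 0) [nat_lit 10273, nat_lit 5413, nat_lit 5953, nat_lit 5881, nat_lit 5893, nat_lit 5905, nat_lit 5897, nat_lit 5901] (nat_lit 1) [nat_lit 12459] false,
   Spec.mk (nat_lit 5901) (nat_lit 0) [nat_lit 10275, nat_lit 5415, nat_lit 5955, nat_lit 5883, nat_lit 5907, nat_lit 5899] (nat_lit 1) [] false,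
   Spec.mk (nat_lit 5905) (nat_lit 0) [nat_lit 10279, nat_lit 5419, nat_lit 5959, nat_lit 5899, nat_lit 5907] (nat_lit 1) [nat_lit 12465] false,
   Spec.mk (nat_lit 5907) (nat_lit 1) [nat_lit 10281, nat_lit 5421, nat_lit 5961, nat_lit 5901, nat_lit 5905] (nat_lit 0) [] false,
   Spec.mk (nat_lit 5921) (nat_lit 0) [nat_lit 10295, nat_lit 5435, nat_lit 6083, nat_lit 5867, nat_lit 5927] (nat_lit 1) [nat_lit 12481] false,
   Spec.mk (nat_lit 5927) (nat_lit 0) [nat_lit 10301, nat_lit 5441, nat_lit 6089, nat_lit 5873, nat_lit 5945, nat_lit 5921, nat_lit 5933, nat_lit 5929] (nat_lit 2) [nat_lit 12487] false,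
   Spec.mk (nat_lit 5929) (nat_lit 0) [nat_lit 10303, nat_lit 5443, nat_lit 6091, nat_lit 5875, nat_lit 5947, nat_lit 5935, nat_lit 5927] (nat_lit 1) [nat_lit 12489] false,
   Spec.mk (nat_lit 5933) (nat_lit 0) [nat_lit 10307, nat_lit 5447, nat_lit 6095, nat_lit 5879, nat_lit 5951, nat_lit 5927, nat_lit 5935] (nat_lit 5) [nat_lit 12493] false,
   Spec.mk (nat_lit 5935) (nat_lit 0) [nat_lit 10309, nat_lit 5449, nat_lit 6097, nat_lit 5881, nat_lit 5953, nat_lit 5929, nat_lit 5933, nat_lit 5937] (nat_lit 2) [nat_lit 12495] false,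
   Spec.mk (nat_lit 5937) (nat_lit 0) [nat_lit 10311, nat_lit 5451, nat_lit 6099, nat_lit 5883, nat_lit 5955, nat_lit 5935] (nat_lit 1) [] false,
   Spec.mk (nat_lit 5945) (nat_lit 0) [nat_lit 10319, nat_lit 5459, nat_lit 6107, nat_lit 5891, nat_lit 5999, nat_lit 5927, nat_lit 5951, nat_lit 5947] (nat_lit 2) [nat_lit 12505] false,
   Spec.mk (nat_lit 5947) (nat_lit 0) [nat_lit 10321, nat_lit 5461, nat_lit 6109, nat_lit 5893, nat_lit 6001, nat_lit 5929, nat_lit 5953, nat_lit 5945] (nat_lit 2) [nat_lit 12507] false,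
   Spec.mk (nat_lit 5951) (nat_lit 0) [nat_lit 10325, nat_lit 5465, nat_lit 6113, nat_lit 5897, nat_lit 6005, nat_lit 5933, nat_lit 5969, nat_lit 5945, nat_lit 5953] (nat_lit 3) [nat_lit 12511] false,
   Spec.mk (nat_lit 5953) (nat_lit 0) [nat_lit 10327, nat_lit 5467, nat_lit 6115, nat_lit 5899, nat_lit 6007, nat_lit 5935, nat_lit 5971, nat_lit 5947, nat_lit 5959, nat_lit 5951, nat_lit 5955] (nat_lit 1) [nat_lit 12513] false,
   Spec.mk (nat_lit 5955) (nat_lit 0) [nat_lit 10329, nat_lit 5469, nat_lit 6117, nat_lit 5901, nat_lit 6009, nat_lit 5937, nat_lit 5973, nat_lit 5961, nat_lit 5953] (nat_lit 1) [] false,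
   Spec.mk (nat_lit 5959) (nat_lit 0) [nat_lit 10333, nat_lit 5473, nat_lit 6121, nat_lit 5905, nat_lit 6013, nat_lit 5977, nat_lit 5953, nat_lit 5961] (nat_lit 2) [nat_lit 12519] false,
   Spec.mk (nat_lit 5961) (nat_lit 0) [nat_lit 10335, nat_lit 5475, nat_lit 6123, nat_lit 5907, nat_lit 6015, nat_lit 5979, nat_lit 5955, nat_lit 5959] (nat_lit 0) [] false,
   Spec.mk (nat_lit 5969) (nat_lit 0) [nat_lit 10343, nat_lit 5483, nat_lit 6131, nat_lit 6023, nat_lit 5951, nat_lit 5971] (nat_lit 3) [nat_lit 12529] false,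
   Spec.mk (nat_lit 5971) (nat_lit 0) [nat_lit 10345, nat_lit 5485, nat_lit 6133, nat_lit 6025, nat_lit 5953, nat_lit 5977, nat_lit 5969, nat_lit 5973] (nat_lit 2) [nat_lit 12531] false,
   Spec.mk (nat_lit 5973) (nat_lit 0) [nat_lit 10347, nat_lit 5487, nat_lit 6135, nat_lit 6027, nat_lit 5955, nat_lit 5979, nat_lit 5971] (nat_lit 3) [] false,
   Spec.mk (nat_lit 5977) (nat_lit 0) [nat_lit 10351, nat_lit 5491, nat_lit 6139, nat_lit 6031, nat_lit 5959, nat_lit 5971, nat_lit 5979] (nat_lit 1) [nat_lit 12537] false,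
   Spec.mk (nat_lit 5979) (nat_lit 0) [nat_lit 10353, nat_lit 5493, nat_lit 6141, nat_lit 6033, nat_lit 5961, nat_lit 5973, nat_lit 5985, nat_lit 5977] (nat_lit 0) [] false,
   Spec.mk (nat_lit 5985) (nat_lit 1) [nat_lit 10359, nat_lit 5499, nat_lit 6147, nat_lit 6039, nat_lit 5979] (nat_lit 0) [] false,
   Spec.mk (nat_lit 5999) (nat_lit 0) [nat_lit 10373, nat_lit 5513, nat_lit 6161, nat_lit 5945, nat_lit 6005, nat_lit 6001] (nat_lit 3) [nat_lit 12559] false,
   Spec.mk (nat_lit 6001) (nat_lit 0) [nat_lit 10375, nat_lit 5515, nat_lit 6163, nat_lit 5947, nat_lit 6007, nat_lit 5999] (nat_lit 3) [nat_lit 12561] false,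
   Spec.mk (nat_lit 6005) (nat_lit 0) [nat_lit 10379, nat_lit 5519, nat_lit 6167, nat_lit 5951, nat_lit 6023, nat_lit 5999, nat_lit 6007] (nat_lit 5) [nat_lit 12565] false,
   Spec.mk (nat_lit 6007) (nat_lit 0) [nat_lit 10381, nat_lit 5521, nat_lit 6169, nat_lit 5953, nat_lit 6025, nat_lit 6001, nat_lit 6013, nat_lit 6005, nat_lit 6009] (nat_lit 3) [nat_lit 12567] false,
   Spec.mk (nat_lit 6009) (nat_lit 0) [nat_lit 10383, nat_lit 5523, nat_lit 6171, nat_lit 5955, nat_lit 6027, nat_lit 6015, nat_lit 6007] (nat_lit 3) [] false,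
   Spec.mk (nat_lit 6013) (nat_lit 0) [nat_lit 10387, nat_lit 5527, nat_lit 6175, nat_lit 5959, nat_lit 6031, nat_lit 6007, nat_lit 6015] (nat_lit 5) [nat_lit 12573] false,
   Spec.mk (nat_lit 6015) (nat_lit 0) [nat_lit 10389, nat_lit 5529, nat_lit 6177, nat_lit 5961, nat_lit 6033, nat_lit 6009, nat_lit 6013] (nat_lit 3) [] false,
   Spec.mk (nat_lit 6023) (nat_lit 0) [nat_lit 10397, nat_lit 5537, nat_lit 6185, nat_lit 5969, nat_lit 6005, nat_lit 6025] (nat_lit 3) [nat_lit 12583] false,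
   Spec.mk (nat_lit 6025) (nat_lit 0) [nat_lit 10399, nat_lit 5539, nat_lit 6187, nat_lit 5971, nat_lit 6007, nat_lit 6031, nat_lit 6023, nat_lit 6027] (nat_lit 2) [nat_lit 12585] false,
   Spec.mk (nat_lit 6027) (nat_lit 0) [nat_lit 10401, nat_lit 5541, nat_lit 6189, nat_lit 5973, nat_lit 6009, nat_lit 6033, nat_lit 6025] (nat_lit 3) [] false,
   Spec.mk (nat_lit 6031) (nat_lit 0) [nat_lit 10405, nat_lit 5545, nat_lit 6193, nat_lit 5977, nat_lit 6013, nat_lit 6049, nat_lit 6025, nat_lit 6033] (nat_lit 2) [nat_lit 12591] false,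
   Spec.mk (nat_lit 6033) (nat_lit 0) [nat_lit 10407, nat_lit 5547, nat_lit 6195, nat_lit 5979, nat_lit 6015, nat_lit 6051, nat_lit 6027, nat_lit 6039, nat_lit 6031] (nat_lit 1) [] false,
   Spec.mk (nat_lit 6039) (nat_lit 0) [nat_lit 10413, nat_lit 5553, nat_lit 6201, nat_lit 5985, nat_lit 6057, nat_lit 6033] (nat_lit 1) [] false,
   Spec.mk (nat_lit 6049) (nat_lit 0) [nat_lit 10423, nat_lit 5563, nat_lit 6211, nat_lit 6031, nat_lit 6051] (nat_lit 1) [nat_lit 12609] false,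
   Spec.mk (nat_lit 6051) (nat_lit 0) [nat_lit 10425, nat_lit 5565, nat_lit 6213, nat_lit 6033, nat_lit 6057, nat_lit 6049] (nat_lit 1) [] false,
   Spec.mk (nat_lit 6057) (nat_lit 1) [nat_lit 10431, nat_lit 5571, nat_lit 6219, nat_lit 6039, nat_lit 6051] (nat_lit 0) [] false,
   Spec.mk (nat_lit 6083) (nat_lit 1) [nat_lit 10457, nat_lit 5597, nat_lit 5921, nat_lit 6089] (nat_lit 0) [nat_lit 12643] false,
   Spec.mk (nat_lit 6089) (nat_lit 0) [nat_lit 10463, nat_lit 5603, nat_lit 5927, nat_lit 6107, nat_lit 6083, nat_lit 6095, nat_lit 6091] (nat_lit 0) [nat_lit 12649] false,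
   Spec.mk (nat_lit 6091) (nat_lit 1) [nat_lit 10465, nat_lit 5605, nat_lit 5929, nat_lit 6109, nat_lit 6097, nat_lit 6089] (nat_lit 0) [nat_lit 12651] false,
   Spec.mk (nat_lit 6095) (nat_lit 0) [nat_lit 10469, nat_lit 5609, nat_lit 5933, nat_lit 6113, nat_lit 6089, nat_lit 6097] (nat_lit 3) [nat_lit 12655] false,
   Spec.mk (nat_lit 6097) (nat_lit 0) [nat_lit 10471, nat_lit 5611, nat_lit 5935, nat_lit 6115, nat_lit 6091, nat_lit 6095, nat_lit 6099] (nat_lit 0) [nat_lit 12657] false,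
   Spec.mk (nat_lit 6099) (nat_lit 1) [nat_lit 10473, nat_lit 5613, nat_lit 5937, nat_lit 6117, nat_lit 6097] (nat_lit 0) [] false,
   Spec.mk (nat_lit 6107) (nat_lit 0) [nat_lit 10481, nat_lit 5621, nat_lit 5945, nat_lit 6161, nat_lit 6089, nat_lit 6113, nat_lit 6109] (nat_lit 1) [nat_lit 12667] false,
   Spec.mk (nat_lit 6109) (nat_lit 0) [nat_lit 10483, nat_lit 5623, nat_lit 5947, nat_lit 6163, nat_lit 6091, nat_lit 6115, nat_lit 6107] (nat_lit 1) [nat_lit 12669] false,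
   Spec.mk (nat_lit 6113) (nat_lit 0) [nat_lit 10487, nat_lit 5627, nat_lit 5951, nat_lit 6167, nat_lit 6095, nat_lit 6131, nat_lit 6107, nat_lit 6115] (nat_lit 2) [nat_lit 12673] false,
   Spec.mk (nat_lit 6115) (nat_lit 0) [nat_lit 10489, nat_lit 5629, nat_lit 5953, nat_lit 6169, nat_lit 6097, nat_lit 6133, nat_lit 6109, nat_lit 6121, nat_lit 6113, nat_lit 6117] (nat_lit 0) [nat_lit 12675] false,
   Spec.mk (nat_lit 6117) (nat_lit 0) [nat_lit 10491, nat_lit 5631, nat_lit 5955, nat_lit 6171, nat_lit 6099, nat_lit 6135, nat_lit 6123, nat_lit 6115] (nat_lit 0) [] false,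
   Spec.mk (nat_lit 6121) (nat_lit 0) [nat_lit 10495, nat_lit 5635, nat_lit 5959, nat_lit 6175, nat_lit 6139, nat_lit 6115, nat_lit 6123] (nat_lit 1) [nat_lit 12681] false,
   Spec.mk (nat_lit 6123) (nat_lit 1) [nat_lit 10497, nat_lit 5637, nat_lit 5961, nat_lit 6177, nat_lit 6141, nat_lit 6117, nat_lit 6121] (nat_lit 0) [] false,
   Spec.mk (nat_lit 6131) (nat_lit 0) [nat_lit 10505, nat_lit 5645, nat_lit 5969, nat_lit 6185, nat_lit 6113, nat_lit 6133] (nat_lit 3) [nat_lit 12691] false,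
   Spec.mk (nat_lit 6133) (nat_lit 0) [nat_lit 10507, nat_lit 5647, nat_lit 5971, nat_lit 6187, nat_lit 6115, nat_lit 6139, nat_lit 6131, nat_lit 6135] (nat_lit 2) [nat_lit 12693] false,
   Spec.mk (nat_lit 6135) (nat_lit 0) [nat_lit 10509, nat_lit 5649, nat_lit 5973, nat_lit 6189, nat_lit 6117, nat_lit 6141, nat_lit 6133] (nat_lit 3) [] false,
   Spec.mk (nat_lit 6139) (nat_lit 0) [nat_lit 10513, nat_lit 5653, nat_lit 5977, nat_lit 6193, nat_lit 6121, nat_lit 6133, nat_lit 6141] (nat_lit 1) [nat_lit 12699] false,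
   Spec.mk (nat_lit 6141) (nat_lit 0) [nat_lit 10515, nat_lit 5655, nat_lit 5979, nat_lit 6195, nat_lit 6123, nat_lit 6135, nat_lit 6147, nat_lit 6139] (nat_lit 0) [] false,
   Spec.mk (nat_lit 6147) (nat_lit 1) [nat_lit 10521, nat_lit 5661, nat_lit 5985, nat_lit 6201, nat_lit 6141] (nat_lit 0) [] false]

noncomputable def sp16 : List Spec :=
  [Spec.mk (nat_lit 6161) (nat_lit 0) [nat_lit 10535, nat_lit 5675, nat_lit 5999, nat_lit 6323, nat_lit 6107, nat_lit 6167, nat_lit 6163] (nat_lit 0) [nat_lit 12721] false,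
   Spec.mk (nat_lit 6163) (nat_lit 0) [nat_lit 10537, nat_lit 5677, nat_lit 6001, nat_lit 6325, nat_lit 6109, nat_lit 6169, nat_lit 6161] (nat_lit 0) [nat_lit 12723] false,
   Spec.mk (nat_lit 6167) (nat_lit 0) [nat_lit 10541, nat_lit 5681, nat_lit 6005, nat_lit 6329, nat_lit 6113, nat_lit 6185, nat_lit 6161, nat_lit 6169] (nat_lit 2) [nat_lit 12727] false,
   Spec.mk (nat_lit 6169) (nat_lit 0) [nat_lit 10543, nat_lit 5683, nat_lit 6007, nat_lit 6331, nat_lit 6115, nat_lit 6187, nat_lit 6163, nat_lit 6175, nat_lit 6167, nat_lit 6171] (nat_lit 0) [nat_lit 12729] false,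
   Spec.mk (nat_lit 6171) (nat_lit 0) [nat_lit 10545, nat_lit 5685, nat_lit 6009, nat_lit 6333, nat_lit 6117, nat_lit 6189, nat_lit 6177, nat_lit 6169] (nat_lit 0) [] false,
   Spec.mk (nat_lit 6175) (nat_lit 0) [nat_lit 10549, nat_lit 5689, nat_lit 6013, nat_lit 6337, nat_lit 6121, nat_lit 6193, nat_lit 6169, nat_lit 6177] (nat_lit 2) [nat_lit 12735] false,
   Spec.mk (nat_lit 6177) (nat_lit 0) [nat_lit 10551, nat_lit 5691, nat_lit 6015, nat_lit 6339, nat_lit 6123, nat_lit 6195, nat_lit 6171, nat_lit 6175] (nat_lit 0) [] false,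
   Spec.mk (nat_lit 6185) (nat_lit 0) [nat_lit 10559, nat_lit 5699, nat_lit 6023, nat_lit 6347, nat_lit 6131, nat_lit 6239, nat_lit 6167, nat_lit 6187] (nat_lit 1) [nat_lit 12745] false,
   Spec.mk (nat_lit 6187) (nat_lit 0) [nat_lit 10561, nat_lit 5701, nat_lit 6025, nat_lit 6349, nat_lit 6133, nat_lit 6241, nat_lit 6169, nat_lit 6193, nat_lit 6185, nat_lit 6189] (nat_lit 0) [nat_lit 12747] false,
   Spec.mk (nat_lit 6189) (nat_lit 0) [nat_lit 10563, nat_lit 5703, nat_lit 6027, nat_lit 6351, nat_lit 6135, nat_lit 6243, nat_lit 6171, nat_lit 6195, nat_lit 6187] (nat_lit 1) [] false,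
   Spec.mk (nat_lit 6193) (nat_lit 0) [nat_lit 10567, nat_lit 5707, nat_lit 6031, nat_lit 6355, nat_lit 6139, nat_lit 6247, nat_lit 6175, nat_lit 6211, nat_lit 6187, nat_lit 6195] (nat_lit 0) [nat_lit 12753] false,
   Spec.mk (nat_lit 6195) (nat_lit 1) [nat_lit 10569, nat_lit 5709, nat_lit 6033, nat_lit 6357, nat_lit 6141, nat_lit 6249, nat_lit 6177, nat_lit 6213, nat_lit 6189, nat_lit 6201, nat_lit 6193] (nat_lit 0) [] false,
   Spec.mk (nat_lit 6201) (nat_lit 1) [nat_lit 10575, nat_lit 5715, nat_lit 6039, nat_lit 6363, nat_lit 6147, nat_lit 6255, nat_lit 6219, nat_lit 6195] (nat_lit 0) [] false,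
   Spec.mk (nat_lit 6211) (nat_lit 0) [nat_lit 10585, nat_lit 5725, nat_lit 6049, nat_lit 6373, nat_lit 6265, nat_lit 6193, nat_lit 6213] (nat_lit 0) [nat_lit 12771] false,
   Spec.mk (nat_lit 6213) (nat_lit 0) [nat_lit 10587, nat_lit 5727, nat_lit 6051, nat_lit 6375, nat_lit 6267, nat_lit 6195, nat_lit 6219, nat_lit 6211] (nat_lit 0) [] false,
   Spec.mk (nat_lit 6219) (nat_lit 2) [nat_lit 10593, nat_lit 5733, nat_lit 6057, nat_lit 6381, nat_lit 6273, nat_lit 6201, nat_lit 6213] (nat_lit 0) [] false,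
   Spec.mk (nat_lit 6239) (nat_lit 0) [nat_lit 10613, nat_lit 5753, nat_lit 6401, nat_lit 6185, nat_lit 6241] (nat_lit 1) [nat_lit 12799] false,
   Spec.mk (nat_lit 6241) (nat_lit 0) [nat_lit 10615, nat_lit 5755, nat_lit 6403, nat_lit 6187, nat_lit 6247, nat_lit 6239, nat_lit 6243] (nat_lit 0) [nat_lit 12801] false,
   Spec.mk (nat_lit 6243) (nat_lit 0) [nat_lit 10617, nat_lit 5757, nat_lit 6405, nat_lit 6189, nat_lit 6249, nat_lit 6241] (nat_lit 1) [] false,
   Spec.mk (nat_lit 6247) (nat_lit 0) [nat_lit 10621, nat_lit 5761, nat_lit 6409, nat_lit 6193, nat_lit 6265, nat_lit 6241, nat_lit 6249] (nat_lit 1) [nat_lit 12807] false,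
   Spec.mk (nat_lit 6249) (nat_lit 0) [nat_lit 10623, nat_lit 5763, nat_lit 6411, nat_lit 6195, nat_lit 6267, nat_lit 6243, nat_lit 6255, nat_lit 6247] (nat_lit 0) [] false,
   Spec.mk (nat_lit 6255) (nat_lit 0) [nat_lit 10629, nat_lit 5769, nat_lit 6417, nat_lit 6201, nat_lit 6273, nat_lit 6249] (nat_lit 1) [] false,
   Spec.mk (nat_lit 6265) (nat_lit 1) [nat_lit 10639, nat_lit 5779, nat_lit 6427, nat_lit 6211, nat_lit 6247, nat_lit 6267] (nat_lit 0) [nat_lit 12825] false,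
   Spec.mk (nat_lit 6267) (nat_lit 1) [nat_lit 10641, nat_lit 5781, nat_lit 6429, nat_lit 6213, nat_lit 6249, nat_lit 6273, nat_lit 6265] (nat_lit 0) [] false,
   Spec.mk (nat_lit 6273) (nat_lit 2) [nat_lit 10647, nat_lit 5787, nat_lit 6435, nat_lit 6219, nat_lit 6255, nat_lit 6291, nat_lit 6267] (nat_lit 0) [] false,
   Spec.mk (nat_lit 6291) (nat_lit 3) [nat_lit 10665, nat_lit 5805, nat_lit 6453, nat_lit 6273] (nat_lit 0) [] false,
   Spec.mk (nat_lit 6323) (nat_lit 1) [nat_lit 10697, nat_lit 6161, nat_lit 6329, nat_lit 6325] (nat_lit 0) [nat_lit 12883] false,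
   Spec.mk (nat_lit 6325) (nat_lit 1) [nat_lit 10699, nat_lit 6163, nat_lit 6331, nat_lit 6323] (nat_lit 0) [nat_lit 12885] false,
   Spec.mk (nat_lit 6329) (nat_lit 0) [nat_lit 10703, nat_lit 6167, nat_lit 6347, nat_lit 6323, nat_lit 6331] (nat_lit 1) [nat_lit 12889] false,
   Spec.mk (nat_lit 6331) (nat_lit 1) [nat_lit 10705, nat_lit 6169, nat_lit 6349, nat_lit 6325, nat_lit 6337, nat_lit 6329, nat_lit 6333] (nat_lit 0) [nat_lit 12891] false,
   Spec.mk (nat_lit 6333) (nat_lit 1) [nat_lit 10707, nat_lit 6171, nat_lit 6351, nat_lit 6339, nat_lit 6331] (nat_lit 0) [] false,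
   Spec.mk (nat_lit 6337) (nat_lit 0) [nat_lit 10711, nat_lit 6175, nat_lit 6355, nat_lit 6331, nat_lit 6339] (nat_lit 1) [nat_lit 12897] false,
   Spec.mk (nat_lit 6339) (nat_lit 1) [nat_lit 10713, nat_lit 6177, nat_lit 6357, nat_lit 6333, nat_lit 6337] (nat_lit 0) [] false,
   Spec.mk (nat_lit 6347) (nat_lit 0) [nat_lit 10721, nat_lit 6185, nat_lit 6401, nat_lit 6329, nat_lit 6349] (nat_lit 1) [nat_lit 12907] false,
   Spec.mk (nat_lit 6349) (nat_lit 0) [nat_lit 10723, nat_lit 6187, nat_lit 6403, nat_lit 6331, nat_lit 6355, nat_lit 6347, nat_lit 6351] (nat_lit 0) [nat_lit 12909] false,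
   Spec.mk (nat_lit 6351) (nat_lit 0) [nat_lit 10725, nat_lit 6189, nat_lit 6405, nat_lit 6333, nat_lit 6357, nat_lit 6349] (nat_lit 1) [] false,
   Spec.mk (nat_lit 6355) (nat_lit 0) [nat_lit 10729, nat_lit 6193, nat_lit 6409, nat_lit 6337, nat_lit 6373, nat_lit 6349, nat_lit 6357] (nat_lit 0) [nat_lit 12915] false,
   Spec.mk (nat_lit 6357) (nat_lit 1) [nat_lit 10731, nat_lit 6195, nat_lit 6411, nat_lit 6339, nat_lit 6375, nat_lit 6351, nat_lit 6363, nat_lit 6355] (nat_lit 0) [] false,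
   Spec.mk (nat_lit 6363) (nat_lit 1) [nat_lit 10737, nat_lit 6201, nat_lit 6417, nat_lit 6381, nat_lit 6357] (nat_lit 0) [] false,
   Spec.mk (nat_lit 6373) (nat_lit 0) [nat_lit 10747, nat_lit 6211, nat_lit 6427, nat_lit 6355, nat_lit 6375] (nat_lit 1) [nat_lit 12933] false,
   Spec.mk (nat_lit 6375) (nat_lit 0) [nat_lit 10749, nat_lit 6213, nat_lit 6429, nat_lit 6357, nat_lit 6381, nat_lit 6373] (nat_lit 1) [] false,
   Spec.mk (nat_lit 6381) (nat_lit 1) [nat_lit 10755, nat_lit 6219, nat_lit 6435, nat_lit 6363, nat_lit 6375] (nat_lit 0) [] false,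
   Spec.mk (nat_lit 6401) (nat_lit 1) [nat_lit 10775, nat_lit 6239, nat_lit 6347, nat_lit 6403] (nat_lit 0) [nat_lit 12961] false,
   Spec.mk (nat_lit 6403) (nat_lit 2) [nat_lit 10777, nat_lit 6241, nat_lit 6349, nat_lit 6409, nat_lit 6401, nat_lit 6405] (nat_lit 0) [nat_lit 12963] false,
   Spec.mk (nat_lit 6405) (nat_lit 1) [nat_lit 10779, nat_lit 6243, nat_lit 6351, nat_lit 6411, nat_lit 6403] (nat_lit 0) [] false,
   Spec.mk (nat_lit 6409) (nat_lit 1) [nat_lit 10783, nat_lit 6247, nat_lit 6355, nat_lit 6427, nat_lit 6403, nat_lit 6411] (nat_lit 0) [nat_lit 12969] false,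
   Spec.mk (nat_lit 6411) (nat_lit 2) [nat_lit 10785, nat_lit 6249, nat_lit 6357, nat_lit 6429, nat_lit 6405, nat_lit 6417, nat_lit 6409] (nat_lit 0) [] false,
   Spec.mk (nat_lit 6417) (nat_lit 1) [nat_lit 10791, nat_lit 6255, nat_lit 6363, nat_lit 6435, nat_lit 6411] (nat_lit 0) [] false,
   Spec.mk (nat_lit 6427) (nat_lit 2) [nat_lit 10801, nat_lit 6265, nat_lit 6373, nat_lit 6481, nat_lit 6409, nat_lit 6429] (nat_lit 0) [nat_lit 12987] false,
   Spec.mk (nat_lit 6429) (nat_lit 2) [nat_lit 10803, nat_lit 6267, nat_lit 6375, nat_lit 6483, nat_lit 6411, nat_lit 6435, nat_lit 6427] (nat_lit 0) [] false,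
   Spec.mk (nat_lit 6435) (nat_lit 3) [nat_lit 10809, nat_lit 6273, nat_lit 6381, nat_lit 6489, nat_lit 6417, nat_lit 6453, nat_lit 6429] (nat_lit 0) [] false,
   Spec.mk (nat_lit 6453) (nat_lit 3) [nat_lit 10827, nat_lit 6291, nat_lit 6507, nat_lit 6435] (nat_lit 0) [] false,
   Spec.mk (nat_lit 6481) (nat_lit 3) [nat_lit 10855, nat_lit 6427, nat_lit 6483] (nat_lit 0) [nat_lit 13041] false,
   Spec.mk (nat_lit 6483) (nat_lit 3) [nat_lit 10857, nat_lit 6429, nat_lit 6489, nat_lit 6481] (nat_lit 0) [] false,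
   Spec.mk (nat_lit 6489) (nat_lit 3) [nat_lit 10863, nat_lit 6435, nat_lit 6507, nat_lit 6483] (nat_lit 0) [] false,
   Spec.mk (nat_lit 6507) (nat_lit 5) [nat_lit 10881, nat_lit 6453, nat_lit 6489] (nat_lit 0) [] false,
   Spec.mk (nat_lit 6641) (nat_lit 5) [nat_lit 2267, nat_lit 6695] (nat_lit 0) [nat_lit 13201] false,
   Spec.mk (nat_lit 6695) (nat_lit 4) [nat_lit 2321, nat_lit 6857, nat_lit 6641, nat_lit 6749, nat_lit 6713] (nat_lit 0) [nat_lit 13255] false,
   Spec.mk (nat_lit 6713) (nat_lit 3) [nat_lit 2339, nat_lit 6875, nat_lit 6767, nat_lit 6695, nat_lit 6719] (nat_lit 0) [nat_lit 13273] false,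
   Spec.mk (nat_lit 6719) (nat_lit 3) [nat_lit 2345, nat_lit 6881, nat_lit 6773, nat_lit 6713, nat_lit 6721] (nat_lit 0) [nat_lit 13279] false]

noncomputable def sp17 : List Spec :=
  [Spec.mk (nat_lit 6721) (nat_lit 4) [nat_lit 2347, nat_lit 6883, nat_lit 6775, nat_lit 6719] (nat_lit 0) [nat_lit 13281, nat_lit 161] false,
   Spec.mk (nat_lit 6749) (nat_lit 1) [nat_lit 2375, nat_lit 6911, nat_lit 6695, nat_lit 6767] (nat_lit 0) [nat_lit 13309] false,
   Spec.mk (nat_lit 6767) (nat_lit 2) [nat_lit 2393, nat_lit 6929, nat_lit 6713, nat_lit 6749, nat_lit 6785, nat_lit 6773] (nat_lit 0) [nat_lit 13327] false,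
   Spec.mk (nat_lit 6773) (nat_lit 1) [nat_lit 2399, nat_lit 6935, nat_lit 6719, nat_lit 6791, nat_lit 6767, nat_lit 6775] (nat_lit 0) [nat_lit 13333] false,
   Spec.mk (nat_lit 6775) (nat_lit 2) [nat_lit 2401, nat_lit 6937, nat_lit 6721, nat_lit 6793, nat_lit 6773] (nat_lit 0) [nat_lit 13335, nat_lit 215] false,
   Spec.mk (nat_lit 6785) (nat_lit 1) [nat_lit 2411, nat_lit 6947, nat_lit 6767, nat_lit 6791] (nat_lit 0) [nat_lit 13345] false,
   Spec.mk (nat_lit 6791) (nat_lit 2) [nat_lit 2417, nat_lit 6953, nat_lit 6773, nat_lit 6785, nat_lit 6797, nat_lit 6793] (nat_lit 0) [nat_lit 13351] false,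
   Spec.mk (nat_lit 6793) (nat_lit 2) [nat_lit 2419, nat_lit 6955, nat_lit 6775, nat_lit 6799, nat_lit 6791] (nat_lit 0) [nat_lit 13353, nat_lit 233] false,
   Spec.mk (nat_lit 6797) (nat_lit 1) [nat_lit 2423, nat_lit 6959, nat_lit 6791, nat_lit 6799] (nat_lit 0) [nat_lit 13357] false,
   Spec.mk (nat_lit 6799) (nat_lit 3) [nat_lit 2425, nat_lit 6961, nat_lit 6793, nat_lit 6797, nat_lit 6801] (nat_lit 0) [nat_lit 13359, nat_lit 239] false,
   Spec.mk (nat_lit 6801) (nat_lit 3) [nat_lit 2427, nat_lit 6963, nat_lit 6799] (nat_lit 0) [nat_lit 241] false,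
   Spec.mk (nat_lit 6857) (nat_lit 3) [nat_lit 2483, nat_lit 7343, nat_lit 6695, nat_lit 6911, nat_lit 6875] (nat_lit 0) [nat_lit 13417] false,
   Spec.mk (nat_lit 6875) (nat_lit 1) [nat_lit 2501, nat_lit 7361, nat_lit 6713, nat_lit 6929, nat_lit 6857, nat_lit 6881] (nat_lit 0) [nat_lit 13435] false,
   Spec.mk (nat_lit 6881) (nat_lit 1) [nat_lit 2507, nat_lit 7367, nat_lit 6719, nat_lit 6935, nat_lit 6875, nat_lit 6883] (nat_lit 0) [nat_lit 13441] false,
   Spec.mk (nat_lit 6883) (nat_lit 2) [nat_lit 2509, nat_lit 7369, nat_lit 6721, nat_lit 6937, nat_lit 6881] (nat_lit 0) [nat_lit 13443, nat_lit 323] false,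
   Spec.mk (nat_lit 6911) (nat_lit 2) [nat_lit 2537, nat_lit 7397, nat_lit 6749, nat_lit 7073, nat_lit 6857, nat_lit 6929] (nat_lit 0) [nat_lit 13471] false,
   Spec.mk (nat_lit 6929) (nat_lit 2) [nat_lit 2555, nat_lit 7415, nat_lit 6767, nat_lit 7091, nat_lit 6875, nat_lit 6983, nat_lit 6911, nat_lit 6947, nat_lit 6935] (nat_lit 0) [nat_lit 13489] false,
   Spec.mk (nat_lit 6935) (nat_lit 1) [nat_lit 2561, nat_lit 7421, nat_lit 6773, nat_lit 7097, nat_lit 6881, nat_lit 6989, nat_lit 6953, nat_lit 6929, nat_lit 6937] (nat_lit 0) [nat_lit 13495] false,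
   Spec.mk (nat_lit 6937) (nat_lit 2) [nat_lit 2563, nat_lit 7423, nat_lit 6775, nat_lit 7099, nat_lit 6883, nat_lit 6991, nat_lit 6955, nat_lit 6935] (nat_lit 0) [nat_lit 13497, nat_lit 377] false,
   Spec.mk (nat_lit 6947) (nat_lit 0) [nat_lit 2573, nat_lit 7433, nat_lit 6785, nat_lit 7109, nat_lit 7001, nat_lit 6929, nat_lit 6953] (nat_lit 0) [nat_lit 13507] false,
   Spec.mk (nat_lit 6953) (nat_lit 1) [nat_lit 2579, nat_lit 7439, nat_lit 6791, nat_lit 7115, nat_lit 7007, nat_lit 6935, nat_lit 6947, nat_lit 6959, nat_lit 6955] (nat_lit 0) [nat_lit 13513] false,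
   Spec.mk (nat_lit 6955) (nat_lit 1) [nat_lit 2581, nat_lit 7441, nat_lit 6793, nat_lit 7117, nat_lit 7009, nat_lit 6937, nat_lit 6961, nat_lit 6953] (nat_lit 0) [nat_lit 13515, nat_lit 395] false,
   Spec.mk (nat_lit 6959) (nat_lit 0) [nat_lit 2585, nat_lit 7445, nat_lit 6797, nat_lit 7121, nat_lit 7013, nat_lit 6953, nat_lit 6961] (nat_lit 0) [nat_lit 13519] false,
   Spec.mk (nat_lit 6961) (nat_lit 2) [nat_lit 2587, nat_lit 7447, nat_lit 6799, nat_lit 7123, nat_lit 7015, nat_lit 6955, nat_lit 6959, nat_lit 6963] (nat_lit 0) [nat_lit 13521, nat_lit 401] false,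
   Spec.mk (nat_lit 6963) (nat_lit 2) [nat_lit 2589, nat_lit 7449, nat_lit 6801, nat_lit 7125, nat_lit 7017, nat_lit 6961] (nat_lit 0) [nat_lit 403] false,
   Spec.mk (nat_lit 6983) (nat_lit 1) [nat_lit 2609, nat_lit 7469, nat_lit 7145, nat_lit 6929, nat_lit 7001, nat_lit 6989] (nat_lit 0) [nat_lit 13543] false,
   Spec.mk (nat_lit 6989) (nat_lit 0) [nat_lit 2615, nat_lit 7475, nat_lit 7151, nat_lit 6935, nat_lit 7007, nat_lit 6983, nat_lit 6991] (nat_lit 1) [nat_lit 13549] false,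
   Spec.mk (nat_lit 6991) (nat_lit 0) [nat_lit 2617, nat_lit 7477, nat_lit 7153, nat_lit 6937, nat_lit 7009, nat_lit 6989] (nat_lit 0) [nat_lit 13551, nat_lit 431] false,
   Spec.mk (nat_lit 7001) (nat_lit 1) [nat_lit 2627, nat_lit 7487, nat_lit 7163, nat_lit 6947, nat_lit 6983, nat_lit 7007] (nat_lit 0) [nat_lit 13561] false,
   Spec.mk (nat_lit 7007) (nat_lit 1) [nat_lit 2633, nat_lit 7493, nat_lit 7169, nat_lit 6953, nat_lit 6989, nat_lit 7025, nat_lit 7001, nat_lit 7013, nat_lit 7009] (nat_lit 0) [nat_lit 13567] false,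
   Spec.mk (nat_lit 7009) (nat_lit 1) [nat_lit 2635, nat_lit 7495, nat_lit 7171, nat_lit 6955, nat_lit 6991, nat_lit 7027, nat_lit 7015, nat_lit 7007] (nat_lit 0) [nat_lit 13569, nat_lit 449] false,
   Spec.mk (nat_lit 7013) (nat_lit 0) [nat_lit 2639, nat_lit 7499, nat_lit 7175, nat_lit 6959, nat_lit 7031, nat_lit 7007, nat_lit 7015] (nat_lit 1) [nat_lit 13573] false,
   Spec.mk (nat_lit 7015) (nat_lit 1) [nat_lit 2641, nat_lit 7501, nat_lit 7177, nat_lit 6961, nat_lit 7033, nat_lit 7009, nat_lit 7013, nat_lit 7017] (nat_lit 0) [nat_lit 13575, nat_lit 455] false,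
   Spec.mk (nat_lit 7017) (nat_lit 1) [nat_lit 2643, nat_lit 7503, nat_lit 7179, nat_lit 6963, nat_lit 7035, nat_lit 7015] (nat_lit 0) [nat_lit 457] false,
   Spec.mk (nat_lit 7025) (nat_lit 1) [nat_lit 2651, nat_lit 7511, nat_lit 7187, nat_lit 7007, nat_lit 7031, nat_lit 7027] (nat_lit 0) [nat_lit 13585] false,
   Spec.mk (nat_lit 7027) (nat_lit 0) [nat_lit 2653, nat_lit 7513, nat_lit 7189, nat_lit 7009, nat_lit 7033, nat_lit 7025] (nat_lit 0) [nat_lit 13587, nat_lit 467] false,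
   Spec.mk (nat_lit 7031) (nat_lit 1) [nat_lit 2657, nat_lit 7517, nat_lit 7193, nat_lit 7013, nat_lit 7025, nat_lit 7033] (nat_lit 0) [nat_lit 13591] false,
   Spec.mk (nat_lit 7033) (nat_lit 2) [nat_lit 2659, nat_lit 7519, nat_lit 7195, nat_lit 7015, nat_lit 7027, nat_lit 7039, nat_lit 7031, nat_lit 7035] (nat_lit 0) [nat_lit 13593, nat_lit 473] false,
   Spec.mk (nat_lit 7035) (nat_lit 1) [nat_lit 2661, nat_lit 7521, nat_lit 7197, nat_lit 7017, nat_lit 7041, nat_lit 7033] (nat_lit 0) [nat_lit 475] false,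
   Spec.mk (nat_lit 7039) (nat_lit 2) [nat_lit 2665, nat_lit 7525, nat_lit 7201, nat_lit 7033, nat_lit 7041] (nat_lit 0) [nat_lit 13599, nat_lit 479] false,
   Spec.mk (nat_lit 7041) (nat_lit 3) [nat_lit 2667, nat_lit 7527, nat_lit 7203, nat_lit 7035, nat_lit 7039] (nat_lit 0) [nat_lit 481] false,
   Spec.mk (nat_lit 7073) (nat_lit 1) [nat_lit 2699, nat_lit 7559, nat_lit 6911, nat_lit 7091] (nat_lit 0) [nat_lit 13633] false,
   Spec.mk (nat_lit 7091) (nat_lit 0) [nat_lit 2717, nat_lit 7577, nat_lit 6929, nat_lit 7145, nat_lit 7073, nat_lit 7109, nat_lit 7097] (nat_lit 0) [nat_lit 13651] false,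
   Spec.mk (nat_lit 7097) (nat_lit 0) [nat_lit 2723, nat_lit 7583, nat_lit 6935, nat_lit 7151, nat_lit 7115, nat_lit 7091, nat_lit 7099] (nat_lit 1) [nat_lit 13657] false,
   Spec.mk (nat_lit 7099) (nat_lit 0) [nat_lit 2725, nat_lit 7585, nat_lit 6937, nat_lit 7153, nat_lit 7117, nat_lit 7097] (nat_lit 0) [nat_lit 13659, nat_lit 539] false,
   Spec.mk (nat_lit 7109) (nat_lit 0) [nat_lit 2735, nat_lit 7595, nat_lit 6947, nat_lit 7163, nat_lit 7091, nat_lit 7115] (nat_lit 3) [nat_lit 13669] false,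
   Spec.mk (nat_lit 7115) (nat_lit 0) [nat_lit 2741, nat_lit 7601, nat_lit 6953, nat_lit 7169, nat_lit 7097, nat_lit 7109, nat_lit 7121, nat_lit 7117] (nat_lit 2) [nat_lit 13675] false,
   Spec.mk (nat_lit 7117) (nat_lit 0) [nat_lit 2743, nat_lit 7603, nat_lit 6955, nat_lit 7171, nat_lit 7099, nat_lit 7123, nat_lit 7115] (nat_lit 2) [nat_lit 13677, nat_lit 557] false,
   Spec.mk (nat_lit 7121) (nat_lit 0) [nat_lit 2747, nat_lit 7607, nat_lit 6959, nat_lit 7175, nat_lit 7115, nat_lit 7123] (nat_lit 3) [nat_lit 13681] false,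
   Spec.mk (nat_lit 7123) (nat_lit 0) [nat_lit 2749, nat_lit 7609, nat_lit 6961, nat_lit 7177, nat_lit 7117, nat_lit 7121, nat_lit 7125] (nat_lit 1) [nat_lit 13683, nat_lit 563] false,
   Spec.mk (nat_lit 7125) (nat_lit 0) [nat_lit 2751, nat_lit 7611, nat_lit 6963, nat_lit 7179, nat_lit 7123] (nat_lit 1) [nat_lit 565] false,
   Spec.mk (nat_lit 7145) (nat_lit 1) [nat_lit 2771, nat_lit 7631, nat_lit 6983, nat_lit 7091, nat_lit 7163, nat_lit 7151] (nat_lit 0) [nat_lit 13705] false,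
   Spec.mk (nat_lit 7151) (nat_lit 0) [nat_lit 2777, nat_lit 7637, nat_lit 6989, nat_lit 7097, nat_lit 7169, nat_lit 7145, nat_lit 7153] (nat_lit 1) [nat_lit 13711] false,
   Spec.mk (nat_lit 7153) (nat_lit 0) [nat_lit 2779, nat_lit 7639, nat_lit 6991, nat_lit 7099, nat_lit 7171, nat_lit 7151] (nat_lit 0) [nat_lit 13713, nat_lit 593] false,
   Spec.mk (nat_lit 7163) (nat_lit 0) [nat_lit 2789, nat_lit 7649, nat_lit 7001, nat_lit 7109, nat_lit 7217, nat_lit 7145, nat_lit 7169] (nat_lit 0) [nat_lit 13723] false,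
   Spec.mk (nat_lit 7169) (nat_lit 0) [nat_lit 2795, nat_lit 7655, nat_lit 7007, nat_lit 7115, nat_lit 7223, nat_lit 7151, nat_lit 7187, nat_lit 7163, nat_lit 7175, nat_lit 7171] (nat_lit 0) [nat_lit 13729] false,
   Spec.mk (nat_lit 7171) (nat_lit 0) [nat_lit 2797, nat_lit 7657, nat_lit 7009, nat_lit 7117, nat_lit 7225, nat_lit 7153, nat_lit 7189, nat_lit 7177, nat_lit 7169] (nat_lit 0) [nat_lit 13731, nat_lit 611] false,
   Spec.mk (nat_lit 7175) (nat_lit 0) [nat_lit 2801, nat_lit 7661, nat_lit 7013, nat_lit 7121, nat_lit 7229, nat_lit 7193, nat_lit 7169, nat_lit 7177] (nat_lit 2) [nat_lit 13735] false,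
   Spec.mk (nat_lit 7177) (nat_lit 0) [nat_lit 2803, nat_lit 7663, nat_lit 7015, nat_lit 7123, nat_lit 7231, nat_lit 7195, nat_lit 7171, nat_lit 7175, nat_lit 7179] (nat_lit 0) [nat_lit 13737, nat_lit 617] false,
   Spec.mk (nat_lit 7179) (nat_lit 0) [nat_lit 2805, nat_lit 7665, nat_lit 7017, nat_lit 7125, nat_lit 7233, nat_lit 7197, nat_lit 7177] (nat_lit 0) [nat_lit 619] false]

noncomputable def sp18 : List Spec :=
  [Spec.mk (nat_lit 7187) (nat_lit 0) [nat_lit 2813, nat_lit 7673, nat_lit 7025, nat_lit 7241, nat_lit 7169, nat_lit 7193, nat_lit 7189] (nat_lit 1) [nat_lit 13747] false,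
   Spec.mk (nat_lit 7189) (nat_lit 0) [nat_lit 2815, nat_lit 7675, nat_lit 7027, nat_lit 7243, nat_lit 7171, nat_lit 7195, nat_lit 7187] (nat_lit 2) [nat_lit 13749, nat_lit 629] false,
   Spec.mk (nat_lit 7193) (nat_lit 0) [nat_lit 2819, nat_lit 7679, nat_lit 7031, nat_lit 7247, nat_lit 7175, nat_lit 7187, nat_lit 7195] (nat_lit 1) [nat_lit 13753] false,
   Spec.mk (nat_lit 7195) (nat_lit 0) [nat_lit 2821, nat_lit 7681, nat_lit 7033, nat_lit 7249, nat_lit 7177, nat_lit 7189, nat_lit 7201, nat_lit 7193, nat_lit 7197] (nat_lit 0) [nat_lit 13755, nat_lit 635] false,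
   Spec.mk (nat_lit 7197) (nat_lit 0) [nat_lit 2823, nat_lit 7683, nat_lit 7035, nat_lit 7251, nat_lit 7179, nat_lit 7203, nat_lit 7195] (nat_lit 1) [nat_lit 637] false,
   Spec.mk (nat_lit 7201) (nat_lit 0) [nat_lit 2827, nat_lit 7687, nat_lit 7039, nat_lit 7255, nat_lit 7195, nat_lit 7203] (nat_lit 0) [nat_lit 13761, nat_lit 641] false,
   Spec.mk (nat_lit 7203) (nat_lit 1) [nat_lit 2829, nat_lit 7689, nat_lit 7041, nat_lit 7257, nat_lit 7197, nat_lit 7201] (nat_lit 0) [nat_lit 643] false,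
   Spec.mk (nat_lit 7217) (nat_lit 1) [nat_lit 2843, nat_lit 7703, nat_lit 7163, nat_lit 7223] (nat_lit 0) [nat_lit 13777] false,
   Spec.mk (nat_lit 7223) (nat_lit 0) [nat_lit 2849, nat_lit 7709, nat_lit 7169, nat_lit 7241, nat_lit 7217, nat_lit 7229, nat_lit 7225] (nat_lit 0) [nat_lit 13783] false,
   Spec.mk (nat_lit 7225) (nat_lit 0) [nat_lit 2851, nat_lit 7711, nat_lit 7171, nat_lit 7243, nat_lit 7231, nat_lit 7223] (nat_lit 0) [nat_lit 13785, nat_lit 665] false,
   Spec.mk (nat_lit 7229) (nat_lit 0) [nat_lit 2855, nat_lit 7715, nat_lit 7175, nat_lit 7247, nat_lit 7223, nat_lit 7231] (nat_lit 3) [nat_lit 13789] false,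
   Spec.mk (nat_lit 7231) (nat_lit 0) [nat_lit 2857, nat_lit 7717, nat_lit 7177, nat_lit 7249, nat_lit 7225, nat_lit 7229, nat_lit 7233] (nat_lit 1) [nat_lit 13791, nat_lit 671] false,
   Spec.mk (nat_lit 7233) (nat_lit 0) [nat_lit 2859, nat_lit 7719, nat_lit 7179, nat_lit 7251, nat_lit 7231] (nat_lit 1) [nat_lit 673] false,
   Spec.mk (nat_lit 7241) (nat_lit 1) [nat_lit 2867, nat_lit 7727, nat_lit 7187, nat_lit 7223, nat_lit 7247, nat_lit 7243] (nat_lit 0) [nat_lit 13801] false,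
   Spec.mk (nat_lit 7243) (nat_lit 0) [nat_lit 2869, nat_lit 7729, nat_lit 7189, nat_lit 7225, nat_lit 7249, nat_lit 7241] (nat_lit 0) [nat_lit 13803, nat_lit 683] false,
   Spec.mk (nat_lit 7247) (nat_lit 0) [nat_lit 2873, nat_lit 7733, nat_lit 7193, nat_lit 7229, nat_lit 7265, nat_lit 7241, nat_lit 7249] (nat_lit 0) [nat_lit 13807] false,
   Spec.mk (nat_lit 7249) (nat_lit 1) [nat_lit 2875, nat_lit 7735, nat_lit 7195, nat_lit 7231, nat_lit 7267, nat_lit 7243, nat_lit 7255, nat_lit 7247, nat_lit 7251] (nat_lit 0) [nat_lit 13809, nat_lit 689] false,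
   Spec.mk (nat_lit 7251) (nat_lit 0) [nat_lit 2877, nat_lit 7737, nat_lit 7197, nat_lit 7233, nat_lit 7269, nat_lit 7257, nat_lit 7249] (nat_lit 0) [nat_lit 691] false,
   Spec.mk (nat_lit 7255) (nat_lit 0) [nat_lit 2881, nat_lit 7741, nat_lit 7201, nat_lit 7273, nat_lit 7249, nat_lit 7257] (nat_lit 0) [nat_lit 13815, nat_lit 695] false,
   Spec.mk (nat_lit 7257) (nat_lit 1) [nat_lit 2883, nat_lit 7743, nat_lit 7203, nat_lit 7275, nat_lit 7251, nat_lit 7255] (nat_lit 0) [nat_lit 697] false,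
   Spec.mk (nat_lit 7265) (nat_lit 1) [nat_lit 2891, nat_lit 7751, nat_lit 7247, nat_lit 7267] (nat_lit 0) [nat_lit 13825] false,
   Spec.mk (nat_lit 7267) (nat_lit 1) [nat_lit 2893, nat_lit 7753, nat_lit 7249, nat_lit 7273, nat_lit 7265, nat_lit 7269] (nat_lit 0) [nat_lit 13827, nat_lit 707] false,
   Spec.mk (nat_lit 7269) (nat_lit 0) [nat_lit 2895, nat_lit 7755, nat_lit 7251, nat_lit 7275, nat_lit 7267] (nat_lit 1) [nat_lit 709] false,
   Spec.mk (nat_lit 7273) (nat_lit 2) [nat_lit 2899, nat_lit 7759, nat_lit 7255, nat_lit 7267, nat_lit 7275] (nat_lit 0) [nat_lit 13833, nat_lit 713] false,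
   Spec.mk (nat_lit 7275) (nat_lit 2) [nat_lit 2901, nat_lit 7761, nat_lit 7257, nat_lit 7269, nat_lit 7281, nat_lit 7273] (nat_lit 0) [nat_lit 715] false,
   Spec.mk (nat_lit 7281) (nat_lit 3) [nat_lit 2907, nat_lit 7767, nat_lit 7275] (nat_lit 0) [nat_lit 721] false,
   Spec.mk (nat_lit 7343) (nat_lit 3) [nat_lit 2969, nat_lit 8801, nat_lit 6857, nat_lit 7397, nat_lit 7361] (nat_lit 0) [nat_lit 13903] false,
   Spec.mk (nat_lit 7361) (nat_lit 1) [nat_lit 2987, nat_lit 8819, nat_lit 6875, nat_lit 7415, nat_lit 7343, nat_lit 7367] (nat_lit 0) [nat_lit 13921] false,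
   Spec.mk (nat_lit 7367) (nat_lit 1) [nat_lit 2993, nat_lit 8825, nat_lit 6881, nat_lit 7421, nat_lit 7361, nat_lit 7369] (nat_lit 0) [nat_lit 13927] false,
   Spec.mk (nat_lit 7369) (nat_lit 2) [nat_lit 2995, nat_lit 8827, nat_lit 6883, nat_lit 7423, nat_lit 7367] (nat_lit 0) [nat_lit 13929, nat_lit 809] false,
   Spec.mk (nat_lit 7397) (nat_lit 1) [nat_lit 3023, nat_lit 8855, nat_lit 6911, nat_lit 7559, nat_lit 7343, nat_lit 7415] (nat_lit 0) [nat_lit 13957] false,
   Spec.mk (nat_lit 7415) (nat_lit 1) [nat_lit 3041, nat_lit 8873, nat_lit 6929, nat_lit 7577, nat_lit 7361, nat_lit 7469, nat_lit 7397, nat_lit 7433, nat_lit 7421] (nat_lit 0) [nat_lit 13975] false,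
   Spec.mk (nat_lit 7421) (nat_lit 0) [nat_lit 3047, nat_lit 8879, nat_lit 6935, nat_lit 7583, nat_lit 7367, nat_lit 7475, nat_lit 7439, nat_lit 7415, nat_lit 7423] (nat_lit 0) [nat_lit 13981] false,
   Spec.mk (nat_lit 7423) (nat_lit 1) [nat_lit 3049, nat_lit 8881, nat_lit 6937, nat_lit 7585, nat_lit 7369, nat_lit 7477, nat_lit 7441, nat_lit 7421] (nat_lit 0) [nat_lit 13983, nat_lit 863] false,
   Spec.mk (nat_lit 7433) (nat_lit 0) [nat_lit 3059, nat_lit 8891, nat_lit 6947, nat_lit 7595, nat_lit 7487, nat_lit 7415, nat_lit 7439] (nat_lit 1) [nat_lit 13993] false,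
   Spec.mk (nat_lit 7439) (nat_lit 0) [nat_lit 3065, nat_lit 8897, nat_lit 6953, nat_lit 7601, nat_lit 7493, nat_lit 7421, nat_lit 7433, nat_lit 7445, nat_lit 7441] (nat_lit 0) [nat_lit 13999] false,
   Spec.mk (nat_lit 7441) (nat_lit 0) [nat_lit 3067, nat_lit 8899, nat_lit 6955, nat_lit 7603, nat_lit 7495, nat_lit 7423, nat_lit 7447, nat_lit 7439] (nat_lit 0) [nat_lit 14001, nat_lit 881] false,
   Spec.mk (nat_lit 7445) (nat_lit 0) [nat_lit 3071, nat_lit 8903, nat_lit 6959, nat_lit 7607, nat_lit 7499, nat_lit 7439, nat_lit 7447] (nat_lit 1) [nat_lit 14005] false,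
   Spec.mk (nat_lit 7447) (nat_lit 1) [nat_lit 3073, nat_lit 8905, nat_lit 6961, nat_lit 7609, nat_lit 7501, nat_lit 7441, nat_lit 7445, nat_lit 7449] (nat_lit 0) [nat_lit 14007, nat_lit 887] false,
   Spec.mk (nat_lit 7449) (nat_lit 1) [nat_lit 3075, nat_lit 8907, nat_lit 6963, nat_lit 7611, nat_lit 7503, nat_lit 7447] (nat_lit 0) [nat_lit 889] false,
   Spec.mk (nat_lit 7469) (nat_lit 0) [nat_lit 3095, nat_lit 8927, nat_lit 6983, nat_lit 7631, nat_lit 7415, nat_lit 7487, nat_lit 7475] (nat_lit 1) [nat_lit 14029] false,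
   Spec.mk (nat_lit 7475) (nat_lit 0) [nat_lit 3101, nat_lit 8933, nat_lit 6989, nat_lit 7637, nat_lit 7421, nat_lit 7493, nat_lit 7469, nat_lit 7477] (nat_lit 3) [nat_lit 14035] false,
   Spec.mk (nat_lit 7477) (nat_lit 0) [nat_lit 3103, nat_lit 8935, nat_lit 6991, nat_lit 7639, nat_lit 7423, nat_lit 7495, nat_lit 7475] (nat_lit 2) [nat_lit 14037, nat_lit 917] false,
   Spec.mk (nat_lit 7487) (nat_lit 0) [nat_lit 3113, nat_lit 8945, nat_lit 7001, nat_lit 7649, nat_lit 7433, nat_lit 7469, nat_lit 7493] (nat_lit 1) [nat_lit 14047] false,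
   Spec.mk (nat_lit 7493) (nat_lit 0) [nat_lit 3119, nat_lit 8951, nat_lit 7007, nat_lit 7655, nat_lit 7439, nat_lit 7475, nat_lit 7511, nat_lit 7487, nat_lit 7499, nat_lit 7495] (nat_lit 1) [nat_lit 14053] false,
   Spec.mk (nat_lit 7495) (nat_lit 0) [nat_lit 3121, nat_lit 8953, nat_lit 7009, nat_lit 7657, nat_lit 7441, nat_lit 7477, nat_lit 7513, nat_lit 7501, nat_lit 7493] (nat_lit 1) [nat_lit 14055, nat_lit 935] false,
   Spec.mk (nat_lit 7499) (nat_lit 0) [nat_lit 3125, nat_lit 8957, nat_lit 7013, nat_lit 7661, nat_lit 7445, nat_lit 7517, nat_lit 7493, nat_lit 7501] (nat_lit 3) [nat_lit 14059] false,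
   Spec.mk (nat_lit 7501) (nat_lit 0) [nat_lit 3127, nat_lit 8959, nat_lit 7015, nat_lit 7663, nat_lit 7447, nat_lit 7519, nat_lit 7495, nat_lit 7499, nat_lit 7503] (nat_lit 1) [nat_lit 14061, nat_lit 941] false,
   Spec.mk (nat_lit 7503) (nat_lit 0) [nat_lit 3129, nat_lit 8961, nat_lit 7017, nat_lit 7665, nat_lit 7449, nat_lit 7521, nat_lit 7501] (nat_lit 1) [nat_lit 943] false,
   Spec.mk (nat_lit 7511) (nat_lit 0) [nat_lit 3137, nat_lit 8969, nat_lit 7025, nat_lit 7673, nat_lit 7493, nat_lit 7517, nat_lit 7513] (nat_lit 1) [nat_lit 14071] false,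
   Spec.mk (nat_lit 7513) (nat_lit 0) [nat_lit 3139, nat_lit 8971, nat_lit 7027, nat_lit 7675, nat_lit 7495, nat_lit 7519, nat_lit 7511] (nat_lit 2) [nat_lit 14073, nat_lit 953] false,
   Spec.mk (nat_lit 7517) (nat_lit 0) [nat_lit 3143, nat_lit 8975, nat_lit 7031, nat_lit 7679, nat_lit 7499, nat_lit 7511, nat_lit 7519] (nat_lit 1) [nat_lit 14077] false,
   Spec.mk (nat_lit 7519) (nat_lit 0) [nat_lit 3145, nat_lit 8977, nat_lit 7033, nat_lit 7681, nat_lit 7501, nat_lit 7513, nat_lit 7525, nat_lit 7517, nat_lit 7521] (nat_lit 0) [nat_lit 14079, nat_lit 959] false,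
   Spec.mk (nat_lit 7521) (nat_lit 0) [nat_lit 3147, nat_lit 8979, nat_lit 7035, nat_lit 7683, nat_lit 7503, nat_lit 7527, nat_lit 7519] (nat_lit 1) [nat_lit 961] false,
   Spec.mk (nat_lit 7525) (nat_lit 0) [nat_lit 3151, nat_lit 8983, nat_lit 7039, nat_lit 7687, nat_lit 7519, nat_lit 7527] (nat_lit 0) [nat_lit 14085, nat_lit 965] false,
   Spec.mk (nat_lit 7527) (nat_lit 1) [nat_lit 3153, nat_lit 8985, nat_lit 7041, nat_lit 7689, nat_lit 7521, nat_lit 7525] (nat_lit 0) [nat_lit 967] false,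
   Spec.mk (nat_lit 7559) (nat_lit 2) [nat_lit 3185, nat_lit 9017, nat_lit 7073, nat_lit 8045, nat_lit 7397, nat_lit 7577] (nat_lit 0) [nat_lit 14119] false,
   Spec.mk (nat_lit 7577) (nat_lit 1) [nat_lit 3203, nat_lit 9035, nat_lit 7091, nat_lit 8063, nat_lit 7415, nat_lit 7631, nat_lit 7559, nat_lit 7595, nat_lit 7583] (nat_lit 0) [nat_lit 14137] false,
   Spec.mk (nat_lit 7583) (nat_lit 0) [nat_lit 3209, nat_lit 9041, nat_lit 7097, nat_lit 8069, nat_lit 7421, nat_lit 7637, nat_lit 7601, nat_lit 7577, nat_lit 7585] (nat_lit 0) [nat_lit 14143] false,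
   Spec.mk (nat_lit 7585) (nat_lit 1) [nat_lit 3211, nat_lit 9043, nat_lit 7099, nat_lit 8071, nat_lit 7423, nat_lit 7639, nat_lit 7603, nat_lit 7583] (nat_lit 0) [nat_lit 14145, nat_lit 1025] false]

noncomputable def sp19 : List Spec :=
  [Spec.mk (nat_lit 7595) (nat_lit 0) [nat_lit 3221, nat_lit 9053, nat_lit 7109, nat_lit 8081, nat_lit 7433, nat_lit 7649, nat_lit 7577, nat_lit 7601] (nat_lit 2) [nat_lit 14155] false,
   Spec.mk (nat_lit 7601) (nat_lit 0) [nat_lit 3227, nat_lit 9059, nat_lit 7115, nat_lit 8087, nat_lit 7439, nat_lit 7655, nat_lit 7583, nat_lit 7595, nat_lit 7607, nat_lit 7603] (nat_lit 1) [nat_lit 14161] false,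
   Spec.mk (nat_lit 7603) (nat_lit 0) [nat_lit 3229, nat_lit 9061, nat_lit 7117, nat_lit 8089, nat_lit 7441, nat_lit 7657, nat_lit 7585, nat_lit 7609, nat_lit 7601] (nat_lit 1) [nat_lit 14163, nat_lit 1043] false,
   Spec.mk (nat_lit 7607) (nat_lit 0) [nat_lit 3233, nat_lit 9065, nat_lit 7121, nat_lit 8093, nat_lit 7445, nat_lit 7661, nat_lit 7601, nat_lit 7609] (nat_lit 2) [nat_lit 14167] false,
   Spec.mk (nat_lit 7609) (nat_lit 0) [nat_lit 3235, nat_lit 9067, nat_lit 7123, nat_lit 8095, nat_lit 7447, nat_lit 7663, nat_lit 7603, nat_lit 7607, nat_lit 7611] (nat_lit 0) [nat_lit 14169, nat_lit 1049] false,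
   Spec.mk (nat_lit 7611) (nat_lit 0) [nat_lit 3237, nat_lit 9069, nat_lit 7125, nat_lit 8097, nat_lit 7449, nat_lit 7665, nat_lit 7609] (nat_lit 0) [nat_lit 1051] false,
   Spec.mk (nat_lit 7631) (nat_lit 1) [nat_lit 3257, nat_lit 9089, nat_lit 7145, nat_lit 8117, nat_lit 7469, nat_lit 7793, nat_lit 7577, nat_lit 7649, nat_lit 7637] (nat_lit 0) [nat_lit 14191] false,
   Spec.mk (nat_lit 7637) (nat_lit 0) [nat_lit 3263, nat_lit 9095, nat_lit 7151, nat_lit 8123, nat_lit 7475, nat_lit 7799, nat_lit 7583, nat_lit 7655, nat_lit 7631, nat_lit 7639] (nat_lit 1) [nat_lit 14197] false,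
   Spec.mk (nat_lit 7639) (nat_lit 0) [nat_lit 3265, nat_lit 9097, nat_lit 7153, nat_lit 8125, nat_lit 7477, nat_lit 7801, nat_lit 7585, nat_lit 7657, nat_lit 7637] (nat_lit 0) [nat_lit 14199, nat_lit 1079] false,
   Spec.mk (nat_lit 7649) (nat_lit 0) [nat_lit 3275, nat_lit 9107, nat_lit 7163, nat_lit 8135, nat_lit 7487, nat_lit 7811, nat_lit 7595, nat_lit 7703, nat_lit 7631, nat_lit 7655] (nat_lit 0) [nat_lit 14209] false,
   Spec.mk (nat_lit 7655) (nat_lit 0) [nat_lit 3281, nat_lit 9113, nat_lit 7169, nat_lit 8141, nat_lit 7493, nat_lit 7817, nat_lit 7601, nat_lit 7709, nat_lit 7637, nat_lit 7673, nat_lit 7649, nat_lit 7661, nat_lit 7657] (nat_lit 0) [nat_lit 14215] false,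
   Spec.mk (nat_lit 7657) (nat_lit 0) [nat_lit 3283, nat_lit 9115, nat_lit 7171, nat_lit 8143, nat_lit 7495, nat_lit 7819, nat_lit 7603, nat_lit 7711, nat_lit 7639, nat_lit 7675, nat_lit 7663, nat_lit 7655] (nat_lit 0) [nat_lit 14217, nat_lit 1097] false,
   Spec.mk (nat_lit 7661) (nat_lit 0) [nat_lit 3287, nat_lit 9119, nat_lit 7175, nat_lit 8147, nat_lit 7499, nat_lit 7823, nat_lit 7607, nat_lit 7715, nat_lit 7679, nat_lit 7655, nat_lit 7663] (nat_lit 2) [nat_lit 14221] false,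
   Spec.mk (nat_lit 7663) (nat_lit 0) [nat_lit 3289, nat_lit 9121, nat_lit 7177, nat_lit 8149, nat_lit 7501, nat_lit 7825, nat_lit 7609, nat_lit 7717, nat_lit 7681, nat_lit 7657, nat_lit 7661, nat_lit 7665] (nat_lit 0) [nat_lit 14223, nat_lit 1103] false,
   Spec.mk (nat_lit 7665) (nat_lit 0) [nat_lit 3291, nat_lit 9123, nat_lit 7179, nat_lit 8151, nat_lit 7503, nat_lit 7827, nat_lit 7611, nat_lit 7719, nat_lit 7683, nat_lit 7663] (nat_lit 0) [nat_lit 1105] false,
   Spec.mk (nat_lit 7673) (nat_lit 0) [nat_lit 3299, nat_lit 9131, nat_lit 7187, nat_lit 8159, nat_lit 7511, nat_lit 7835, nat_lit 7727, nat_lit 7655, nat_lit 7679, nat_lit 7675] (nat_lit 1) [nat_lit 14233] false,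
   Spec.mk (nat_lit 7675) (nat_lit 0) [nat_lit 3301, nat_lit 9133, nat_lit 7189, nat_lit 8161, nat_lit 7513, nat_lit 7837, nat_lit 7729, nat_lit 7657, nat_lit 7681, nat_lit 7673] (nat_lit 2) [nat_lit 14235, nat_lit 1115] false,
   Spec.mk (nat_lit 7679) (nat_lit 0) [nat_lit 3305, nat_lit 9137, nat_lit 7193, nat_lit 8165, nat_lit 7517, nat_lit 7841, nat_lit 7733, nat_lit 7661, nat_lit 7673, nat_lit 7681] (nat_lit 1) [nat_lit 14239] false,
   Spec.mk (nat_lit 7681) (nat_lit 0) [nat_lit 3307, nat_lit 9139, nat_lit 7195, nat_lit 8167, nat_lit 7519, nat_lit 7843, nat_lit 7735, nat_lit 7663, nat_lit 7675, nat_lit 7687, nat_lit 7679, nat_lit 7683] (nat_lit 0) [nat_lit 14241, nat_lit 1121] false,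
   Spec.mk (nat_lit 7683) (nat_lit 0) [nat_lit 3309, nat_lit 9141, nat_lit 7197, nat_lit 8169, nat_lit 7521, nat_lit 7845, nat_lit 7737, nat_lit 7665, nat_lit 7689, nat_lit 7681] (nat_lit 1) [nat_lit 1123] false,
   Spec.mk (nat_lit 7687) (nat_lit 0) [nat_lit 3313, nat_lit 9145, nat_lit 7201, nat_lit 8173, nat_lit 7525, nat_lit 7849, nat_lit 7741, nat_lit 7681, nat_lit 7689] (nat_lit 0) [nat_lit 14247, nat_lit 1127] false,
   Spec.mk (nat_lit 7689) (nat_lit 1) [nat_lit 3315, nat_lit 9147, nat_lit 7203, nat_lit 8175, nat_lit 7527, nat_lit 7851, nat_lit 7743, nat_lit 7683, nat_lit 7687] (nat_lit 0) [nat_lit 1129] false,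
   Spec.mk (nat_lit 7703) (nat_lit 0) [nat_lit 3329, nat_lit 9161, nat_lit 7217, nat_lit 8189, nat_lit 7865, nat_lit 7649, nat_lit 7709] (nat_lit 0) [nat_lit 14263] false,
   Spec.mk (nat_lit 7709) (nat_lit 0) [nat_lit 3335, nat_lit 9167, nat_lit 7223, nat_lit 8195, nat_lit 7871, nat_lit 7655, nat_lit 7727, nat_lit 7703, nat_lit 7715, nat_lit 7711] (nat_lit 1) [nat_lit 14269] false,
   Spec.mk (nat_lit 7711) (nat_lit 0) [nat_lit 3337, nat_lit 9169, nat_lit 7225, nat_lit 8197, nat_lit 7873, nat_lit 7657, nat_lit 7729, nat_lit 7717, nat_lit 7709] (nat_lit 1) [nat_lit 14271, nat_lit 1151] false,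
   Spec.mk (nat_lit 7715) (nat_lit 0) [nat_lit 3341, nat_lit 9173, nat_lit 7229, nat_lit 8201, nat_lit 7877, nat_lit 7661, nat_lit 7733, nat_lit 7709, nat_lit 7717] (nat_lit 4) [nat_lit 14275] false,
   Spec.mk (nat_lit 7717) (nat_lit 0) [nat_lit 3343, nat_lit 9175, nat_lit 7231, nat_lit 8203, nat_lit 7879, nat_lit 7663, nat_lit 7735, nat_lit 7711, nat_lit 7715, nat_lit 7719] (nat_lit 2) [nat_lit 14277, nat_lit 1157] false,
   Spec.mk (nat_lit 7719) (nat_lit 0) [nat_lit 3345, nat_lit 9177, nat_lit 7233, nat_lit 8205, nat_lit 7881, nat_lit 7665, nat_lit 7737, nat_lit 7717] (nat_lit 2) [nat_lit 1159] false,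
   Spec.mk (nat_lit 7727) (nat_lit 0) [nat_lit 3353, nat_lit 9185, nat_lit 7241, nat_lit 8213, nat_lit 7889, nat_lit 7673, nat_lit 7709, nat_lit 7733, nat_lit 7729] (nat_lit 0) [nat_lit 14287] false,
   Spec.mk (nat_lit 7729) (nat_lit 0) [nat_lit 3355, nat_lit 9187, nat_lit 7243, nat_lit 8215, nat_lit 7891, nat_lit 7675, nat_lit 7711, nat_lit 7735, nat_lit 7727] (nat_lit 1) [nat_lit 14289, nat_lit 1169] false,
   Spec.mk (nat_lit 7733) (nat_lit 0) [nat_lit 3359, nat_lit 9191, nat_lit 7247, nat_lit 8219, nat_lit 7895, nat_lit 7679, nat_lit 7715, nat_lit 7751, nat_lit 7727, nat_lit 7735] (nat_lit 1) [nat_lit 14293] false,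
   Spec.mk (nat_lit 7735) (nat_lit 0) [nat_lit 3361, nat_lit 9193, nat_lit 7249, nat_lit 8221, nat_lit 7897, nat_lit 7681, nat_lit 7717, nat_lit 7753, nat_lit 7729, nat_lit 7741, nat_lit 7733, nat_lit 7737] (nat_lit 0) [nat_lit 14295, nat_lit 1175] false,
   Spec.mk (nat_lit 7737) (nat_lit 0) [nat_lit 3363, nat_lit 9195, nat_lit 7251, nat_lit 8223, nat_lit 7899, nat_lit 7683, nat_lit 7719, nat_lit 7755, nat_lit 7743, nat_lit 7735] (nat_lit 1) [nat_lit 1177] false,
   Spec.mk (nat_lit 7741) (nat_lit 0) [nat_lit 3367, nat_lit 9199, nat_lit 7255, nat_lit 8227, nat_lit 7903, nat_lit 7687, nat_lit 7759, nat_lit 7735, nat_lit 7743] (nat_lit 1) [nat_lit 14301, nat_lit 1181] false,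
   Spec.mk (nat_lit 7743) (nat_lit 0) [nat_lit 3369, nat_lit 9201, nat_lit 7257, nat_lit 8229, nat_lit 7905, nat_lit 7689, nat_lit 7761, nat_lit 7737, nat_lit 7741] (nat_lit 0) [nat_lit 1183] false,
   Spec.mk (nat_lit 7751) (nat_lit 0) [nat_lit 3377, nat_lit 9209, nat_lit 7265, nat_lit 8237, nat_lit 7913, nat_lit 7733, nat_lit 7753] (nat_lit 0) [nat_lit 14311] false,
   Spec.mk (nat_lit 7753) (nat_lit 0) [nat_lit 3379, nat_lit 9211, nat_lit 7267, nat_lit 8239, nat_lit 7915, nat_lit 7735, nat_lit 7759, nat_lit 7751, nat_lit 7755] (nat_lit 0) [nat_lit 14313, nat_lit 1193] false,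
   Spec.mk (nat_lit 7755) (nat_lit 0) [nat_lit 3381, nat_lit 9213, nat_lit 7269, nat_lit 8241, nat_lit 7917, nat_lit 7737, nat_lit 7761, nat_lit 7753] (nat_lit 2) [nat_lit 1195] false,
   Spec.mk (nat_lit 7759) (nat_lit 1) [nat_lit 3385, nat_lit 9217, nat_lit 7273, nat_lit 8245, nat_lit 7921, nat_lit 7741, nat_lit 7753, nat_lit 7761] (nat_lit 0) [nat_lit 14319, nat_lit 1199] false,
   Spec.mk (nat_lit 7761) (nat_lit 1) [nat_lit 3387, nat_lit 9219, nat_lit 7275, nat_lit 8247, nat_lit 7923, nat_lit 7743, nat_lit 7755, nat_lit 7767, nat_lit 7759] (nat_lit 0) [nat_lit 1201] false,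
   Spec.mk (nat_lit 7767) (nat_lit 2) [nat_lit 3393, nat_lit 9225, nat_lit 7281, nat_lit 8253, nat_lit 7929, nat_lit 7761] (nat_lit 0) [nat_lit 1207] false,
   Spec.mk (nat_lit 7793) (nat_lit 1) [nat_lit 3419, nat_lit 9251, nat_lit 8279, nat_lit 7631, nat_lit 7811, nat_lit 7799] (nat_lit 0) [nat_lit 14353] false,
   Spec.mk (nat_lit 7799) (nat_lit 0) [nat_lit 3425, nat_lit 9257, nat_lit 8285, nat_lit 7637, nat_lit 7817, nat_lit 7793, nat_lit 7801] (nat_lit 1) [nat_lit 14359] false,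
   Spec.mk (nat_lit 7801) (nat_lit 0) [nat_lit 3427, nat_lit 9259, nat_lit 8287, nat_lit 7639, nat_lit 7819, nat_lit 7799] (nat_lit 0) [nat_lit 14361, nat_lit 1241] false,
   Spec.mk (nat_lit 7811) (nat_lit 0) [nat_lit 3437, nat_lit 9269, nat_lit 8297, nat_lit 7649, nat_lit 7865, nat_lit 7793, nat_lit 7817] (nat_lit 1) [nat_lit 14371] false,
   Spec.mk (nat_lit 7817) (nat_lit 0) [nat_lit 3443, nat_lit 9275, nat_lit 8303, nat_lit 7655, nat_lit 7871, nat_lit 7799, nat_lit 7835, nat_lit 7811, nat_lit 7823, nat_lit 7819] (nat_lit 1) [nat_lit 14377] false,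
   Spec.mk (nat_lit 7819) (nat_lit 0) [nat_lit 3445, nat_lit 9277, nat_lit 8305, nat_lit 7657, nat_lit 7873, nat_lit 7801, nat_lit 7837, nat_lit 7825, nat_lit 7817] (nat_lit 1) [nat_lit 14379, nat_lit 1259] false,
   Spec.mk (nat_lit 7823) (nat_lit 0) [nat_lit 3449, nat_lit 9281, nat_lit 8309, nat_lit 7661, nat_lit 7877, nat_lit 7841, nat_lit 7817, nat_lit 7825] (nat_lit 3) [nat_lit 14383] false,
   Spec.mk (nat_lit 7825) (nat_lit 0) [nat_lit 3451, nat_lit 9283, nat_lit 8311, nat_lit 7663, nat_lit 7879, nat_lit 7843, nat_lit 7819, nat_lit 7823, nat_lit 7827] (nat_lit 1) [nat_lit 14385, nat_lit 1265] false,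
   Spec.mk (nat_lit 7827) (nat_lit 0) [nat_lit 3453, nat_lit 9285, nat_lit 8313, nat_lit 7665, nat_lit 7881, nat_lit 7845, nat_lit 7825] (nat_lit 1) [nat_lit 1267] false,
   Spec.mk (nat_lit 7835) (nat_lit 0) [nat_lit 3461, nat_lit 9293, nat_lit 8321, nat_lit 7673, nat_lit 7889, nat_lit 7817, nat_lit 7841, nat_lit 7837] (nat_lit 3) [nat_lit 14395] false,
   Spec.mk (nat_lit 7837) (nat_lit 0) [nat_lit 3463, nat_lit 9295, nat_lit 8323, nat_lit 7675, nat_lit 7891, nat_lit 7819, nat_lit 7843, nat_lit 7835] (nat_lit 4) [nat_lit 14397, nat_lit 1277] false,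
   Spec.mk (nat_lit 7841) (nat_lit 0) [nat_lit 3467, nat_lit 9299, nat_lit 8327, nat_lit 7679, nat_lit 7895, nat_lit 7823, nat_lit 7835, nat_lit 7843] (nat_lit 3) [nat_lit 14401] false,
   Spec.mk (nat_lit 7843) (nat_lit 0) [nat_lit 3469, nat_lit 9301, nat_lit 8329, nat_lit 7681, nat_lit 7897, nat_lit 7825, nat_lit 7837, nat_lit 7849, nat_lit 7841, nat_lit 7845] (nat_lit 2) [nat_lit 14403, nat_lit 1283] false,
   Spec.mk (nat_lit 7845) (nat_lit 0) [nat_lit 3471, nat_lit 9303, nat_lit 8331, nat_lit 7683, nat_lit 7899, nat_lit 7827, nat_lit 7851, nat_lit 7843] (nat_lit 3) [nat_lit 1285] false,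
   Spec.mk (nat_lit 7849) (nat_lit 0) [nat_lit 3475, nat_lit 9307, nat_lit 8335, nat_lit 7687, nat_lit 7903, nat_lit 7843, nat_lit 7851] (nat_lit 2) [nat_lit 14409, nat_lit 1289] false,
   Spec.mk (nat_lit 7851) (nat_lit 0) [nat_lit 3477, nat_lit 9309, nat_lit 8337, nat_lit 7689, nat_lit 7905, nat_lit 7845, nat_lit 7849] (nat_lit 1) [nat_lit 1291] false,
   Spec.mk (nat_lit 7865) (nat_lit 1) [nat_lit 3491, nat_lit 9323, nat_lit 8351, nat_lit 7703, nat_lit 7811, nat_lit 7871] (nat_lit 0) [nat_lit 14425] false,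
   Spec.mk (nat_lit 7871) (nat_lit 0) [nat_lit 3497, nat_lit 9329, nat_lit 8357, nat_lit 7709, nat_lit 7817, nat_lit 7889, nat_lit 7865, nat_lit 7877, nat_lit 7873] (nat_lit 0) [nat_lit 14431] false,
   Spec.mk (nat_lit 7873) (nat_lit 0) [nat_lit 3499, nat_lit 9331, nat_lit 8359, nat_lit 7711, nat_lit 7819, nat_lit 7891, nat_lit 7879, nat_lit 7871] (nat_lit 0) [nat_lit 14433, nat_lit 1313] false]

noncomputable def sp20 : List Spec :=
  [Spec.mk (nat_lit 7877) (nat_lit 0) [nat_lit 3503, nat_lit 9335, nat_lit 8363, nat_lit 7715, nat_lit 7823, nat_lit 7895, nat_lit 7871, nat_lit 7879] (nat_lit 3) [nat_lit 14437] false,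
   Spec.mk (nat_lit 7879) (nat_lit 0) [nat_lit 3505, nat_lit 9337, nat_lit 8365, nat_lit 7717, nat_lit 7825, nat_lit 7897, nat_lit 7873, nat_lit 7877, nat_lit 7881] (nat_lit 1) [nat_lit 14439, nat_lit 1319] false,
   Spec.mk (nat_lit 7881) (nat_lit 0) [nat_lit 3507, nat_lit 9339, nat_lit 8367, nat_lit 7719, nat_lit 7827, nat_lit 7899, nat_lit 7879] (nat_lit 1) [nat_lit 1321] false,
   Spec.mk (nat_lit 7889) (nat_lit 0) [nat_lit 3515, nat_lit 9347, nat_lit 8375, nat_lit 7727, nat_lit 7835, nat_lit 7943, nat_lit 7871, nat_lit 7895, nat_lit 7891] (nat_lit 0) [nat_lit 14449] false,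
   Spec.mk (nat_lit 7891) (nat_lit 0) [nat_lit 3517, nat_lit 9349, nat_lit 8377, nat_lit 7729, nat_lit 7837, nat_lit 7945, nat_lit 7873, nat_lit 7897, nat_lit 7889] (nat_lit 1) [nat_lit 14451, nat_lit 1331] false,
   Spec.mk (nat_lit 7895) (nat_lit 0) [nat_lit 3521, nat_lit 9353, nat_lit 8381, nat_lit 7733, nat_lit 7841, nat_lit 7949, nat_lit 7877, nat_lit 7913, nat_lit 7889, nat_lit 7897] (nat_lit 1) [nat_lit 14455] false,
   Spec.mk (nat_lit 7897) (nat_lit 0) [nat_lit 3523, nat_lit 9355, nat_lit 8383, nat_lit 7735, nat_lit 7843, nat_lit 7951, nat_lit 7879, nat_lit 7915, nat_lit 7891, nat_lit 7903, nat_lit 7895, nat_lit 7899] (nat_lit 0) [nat_lit 14457, nat_lit 1337] false,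
   Spec.mk (nat_lit 7899) (nat_lit 0) [nat_lit 3525, nat_lit 9357, nat_lit 8385, nat_lit 7737, nat_lit 7845, nat_lit 7953, nat_lit 7881, nat_lit 7917, nat_lit 7905, nat_lit 7897] (nat_lit 1) [nat_lit 1339] false,
   Spec.mk (nat_lit 7903) (nat_lit 0) [nat_lit 3529, nat_lit 9361, nat_lit 8389, nat_lit 7741, nat_lit 7849, nat_lit 7957, nat_lit 7921, nat_lit 7897, nat_lit 7905] (nat_lit 1) [nat_lit 14463, nat_lit 1343] false,
   Spec.mk (nat_lit 7905) (nat_lit 0) [nat_lit 3531, nat_lit 9363, nat_lit 8391, nat_lit 7743, nat_lit 7851, nat_lit 7959, nat_lit 7923, nat_lit 7899, nat_lit 7903] (nat_lit 0) [nat_lit 1345] false,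
   Spec.mk (nat_lit 7913) (nat_lit 0) [nat_lit 3539, nat_lit 9371, nat_lit 8399, nat_lit 7751, nat_lit 7967, nat_lit 7895, nat_lit 7915] (nat_lit 1) [nat_lit 14473] false,
   Spec.mk (nat_lit 7915) (nat_lit 0) [nat_lit 3541, nat_lit 9373, nat_lit 8401, nat_lit 7753, nat_lit 7969, nat_lit 7897, nat_lit 7921, nat_lit 7913, nat_lit 7917] (nat_lit 1) [nat_lit 14475, nat_lit 1355] false,
   Spec.mk (nat_lit 7917) (nat_lit 0) [nat_lit 3543, nat_lit 9375, nat_lit 8403, nat_lit 7755, nat_lit 7971, nat_lit 7899, nat_lit 7923, nat_lit 7915] (nat_lit 3) [nat_lit 1357] false,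
   Spec.mk (nat_lit 7921) (nat_lit 0) [nat_lit 3547, nat_lit 9379, nat_lit 8407, nat_lit 7759, nat_lit 7975, nat_lit 7903, nat_lit 7915, nat_lit 7923] (nat_lit 0) [nat_lit 14481, nat_lit 1361] false,
   Spec.mk (nat_lit 7923) (nat_lit 0) [nat_lit 3549, nat_lit 9381, nat_lit 8409, nat_lit 7761, nat_lit 7977, nat_lit 7905, nat_lit 7917, nat_lit 7929, nat_lit 7921] (nat_lit 0) [nat_lit 1363] false,
   Spec.mk (nat_lit 7929) (nat_lit 1) [nat_lit 3555, nat_lit 9387, nat_lit 8415, nat_lit 7767, nat_lit 7983, nat_lit 7923] (nat_lit 0) [nat_lit 1369] false,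
   Spec.mk (nat_lit 7943) (nat_lit 1) [nat_lit 3569, nat_lit 9401, nat_lit 8429, nat_lit 7889, nat_lit 7949, nat_lit 7945] (nat_lit 0) [nat_lit 14503] false,
   Spec.mk (nat_lit 7945) (nat_lit 0) [nat_lit 3571, nat_lit 9403, nat_lit 8431, nat_lit 7891, nat_lit 7951, nat_lit 7943] (nat_lit 0) [nat_lit 14505, nat_lit 1385] false,
   Spec.mk (nat_lit 7949) (nat_lit 0) [nat_lit 3575, nat_lit 9407, nat_lit 8435, nat_lit 7895, nat_lit 7967, nat_lit 7943, nat_lit 7951] (nat_lit 1) [nat_lit 14509] false,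
   Spec.mk (nat_lit 7951) (nat_lit 0) [nat_lit 3577, nat_lit 9409, nat_lit 8437, nat_lit 7897, nat_lit 7969, nat_lit 7945, nat_lit 7957, nat_lit 7949, nat_lit 7953] (nat_lit 0) [nat_lit 14511, nat_lit 1391] false,
   Spec.mk (nat_lit 7953) (nat_lit 0) [nat_lit 3579, nat_lit 9411, nat_lit 8439, nat_lit 7899, nat_lit 7971, nat_lit 7959, nat_lit 7951] (nat_lit 1) [nat_lit 1393] false,
   Spec.mk (nat_lit 7957) (nat_lit 0) [nat_lit 3583, nat_lit 9415, nat_lit 8443, nat_lit 7903, nat_lit 7975, nat_lit 7951, nat_lit 7959] (nat_lit 2) [nat_lit 14517, nat_lit 1397] false,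
   Spec.mk (nat_lit 7959) (nat_lit 0) [nat_lit 3585, nat_lit 9417, nat_lit 8445, nat_lit 7905, nat_lit 7977, nat_lit 7953, nat_lit 7957] (nat_lit 1) [nat_lit 1399] false,
   Spec.mk (nat_lit 7967) (nat_lit 1) [nat_lit 3593, nat_lit 9425, nat_lit 8453, nat_lit 7913, nat_lit 7949, nat_lit 7969] (nat_lit 0) [nat_lit 14527] false,
   Spec.mk (nat_lit 7969) (nat_lit 1) [nat_lit 3595, nat_lit 9427, nat_lit 8455, nat_lit 7915, nat_lit 7951, nat_lit 7975, nat_lit 7967, nat_lit 7971] (nat_lit 0) [nat_lit 14529, nat_lit 1409] false,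
   Spec.mk (nat_lit 7971) (nat_lit 0) [nat_lit 3597, nat_lit 9429, nat_lit 8457, nat_lit 7917, nat_lit 7953, nat_lit 7977, nat_lit 7969] (nat_lit 1) [nat_lit 1411] false,
   Spec.mk (nat_lit 7975) (nat_lit 1) [nat_lit 3601, nat_lit 9433, nat_lit 8461, nat_lit 7921, nat_lit 7957, nat_lit 7993, nat_lit 7969, nat_lit 7977] (nat_lit 0) [nat_lit 14535, nat_lit 1415] false,
   Spec.mk (nat_lit 7977) (nat_lit 1) [nat_lit 3603, nat_lit 9435, nat_lit 8463, nat_lit 7923, nat_lit 7959, nat_lit 7995, nat_lit 7971, nat_lit 7983, nat_lit 7975] (nat_lit 0) [nat_lit 1417] false,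
   Spec.mk (nat_lit 7983) (nat_lit 1) [nat_lit 3609, nat_lit 9441, nat_lit 8469, nat_lit 7929, nat_lit 8001, nat_lit 7977] (nat_lit 0) [nat_lit 1423] false,
   Spec.mk (nat_lit 7993) (nat_lit 2) [nat_lit 3619, nat_lit 9451, nat_lit 8479, nat_lit 7975, nat_lit 7995] (nat_lit 0) [nat_lit 14553, nat_lit 1433] false,
   Spec.mk (nat_lit 7995) (nat_lit 1) [nat_lit 3621, nat_lit 9453, nat_lit 8481, nat_lit 7977, nat_lit 8001, nat_lit 7993] (nat_lit 0) [nat_lit 1435] false,
   Spec.mk (nat_lit 8001) (nat_lit 3) [nat_lit 3627, nat_lit 9459, nat_lit 8487, nat_lit 7983, nat_lit 7995] (nat_lit 0) [nat_lit 1441] false,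
   Spec.mk (nat_lit 8045) (nat_lit 1) [nat_lit 3671, nat_lit 9503, nat_lit 7559, nat_lit 8063] (nat_lit 0) [nat_lit 14605] false,
   Spec.mk (nat_lit 8063) (nat_lit 0) [nat_lit 3689, nat_lit 9521, nat_lit 7577, nat_lit 8117, nat_lit 8045, nat_lit 8081, nat_lit 8069] (nat_lit 0) [nat_lit 14623] false,
   Spec.mk (nat_lit 8069) (nat_lit 0) [nat_lit 3695, nat_lit 9527, nat_lit 7583, nat_lit 8123, nat_lit 8087, nat_lit 8063, nat_lit 8071] (nat_lit 1) [nat_lit 14629] false,
   Spec.mk (nat_lit 8071) (nat_lit 0) [nat_lit 3697, nat_lit 9529, nat_lit 7585, nat_lit 8125, nat_lit 8089, nat_lit 8069] (nat_lit 0) [nat_lit 14631, nat_lit 1511] false,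
   Spec.mk (nat_lit 8081) (nat_lit 0) [nat_lit 3707, nat_lit 9539, nat_lit 7595, nat_lit 8135, nat_lit 8063, nat_lit 8087] (nat_lit 3) [nat_lit 14641] false,
   Spec.mk (nat_lit 8087) (nat_lit 0) [nat_lit 3713, nat_lit 9545, nat_lit 7601, nat_lit 8141, nat_lit 8069, nat_lit 8081, nat_lit 8093, nat_lit 8089] (nat_lit 2) [nat_lit 14647] false,
   Spec.mk (nat_lit 8089) (nat_lit 0) [nat_lit 3715, nat_lit 9547, nat_lit 7603, nat_lit 8143, nat_lit 8071, nat_lit 8095, nat_lit 8087] (nat_lit 2) [nat_lit 14649, nat_lit 1529] false,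
   Spec.mk (nat_lit 8093) (nat_lit 0) [nat_lit 3719, nat_lit 9551, nat_lit 7607, nat_lit 8147, nat_lit 8087, nat_lit 8095] (nat_lit 3) [nat_lit 14653] false,
   Spec.mk (nat_lit 8095) (nat_lit 0) [nat_lit 3721, nat_lit 9553, nat_lit 7609, nat_lit 8149, nat_lit 8089, nat_lit 8093, nat_lit 8097] (nat_lit 1) [nat_lit 14655, nat_lit 1535] false,
   Spec.mk (nat_lit 8097) (nat_lit 0) [nat_lit 3723, nat_lit 9555, nat_lit 7611, nat_lit 8151, nat_lit 8095] (nat_lit 1) [nat_lit 1537] false,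
   Spec.mk (nat_lit 8117) (nat_lit 0) [nat_lit 3743, nat_lit 9575, nat_lit 7631, nat_lit 8279, nat_lit 8063, nat_lit 8135, nat_lit 8123] (nat_lit 1) [nat_lit 14677] false,
   Spec.mk (nat_lit 8123) (nat_lit 0) [nat_lit 3749, nat_lit 9581, nat_lit 7637, nat_lit 8285, nat_lit 8069, nat_lit 8141, nat_lit 8117, nat_lit 8125] (nat_lit 3) [nat_lit 14683] false,
   Spec.mk (nat_lit 8125) (nat_lit 0) [nat_lit 3751, nat_lit 9583, nat_lit 7639, nat_lit 8287, nat_lit 8071, nat_lit 8143, nat_lit 8123] (nat_lit 2) [nat_lit 14685, nat_lit 1565] false,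
   Spec.mk (nat_lit 8135) (nat_lit 0) [nat_lit 3761, nat_lit 9593, nat_lit 7649, nat_lit 8297, nat_lit 8081, nat_lit 8189, nat_lit 8117, nat_lit 8141] (nat_lit 2) [nat_lit 14695] false,
   Spec.mk (nat_lit 8141) (nat_lit 0) [nat_lit 3767, nat_lit 9599, nat_lit 7655, nat_lit 8303, nat_lit 8087, nat_lit 8195, nat_lit 8123, nat_lit 8159, nat_lit 8135, nat_lit 8147, nat_lit 8143] (nat_lit 2) [nat_lit 14701] false,
   Spec.mk (nat_lit 8143) (nat_lit 0) [nat_lit 3769, nat_lit 9601, nat_lit 7657, nat_lit 8305, nat_lit 8089, nat_lit 8197, nat_lit 8125, nat_lit 8161, nat_lit 8149, nat_lit 8141] (nat_lit 2) [nat_lit 14703, nat_lit 1583] false,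
   Spec.mk (nat_lit 8147) (nat_lit 0) [nat_lit 3773, nat_lit 9605, nat_lit 7661, nat_lit 8309, nat_lit 8093, nat_lit 8201, nat_lit 8165, nat_lit 8141, nat_lit 8149] (nat_lit 4) [nat_lit 14707] false,
   Spec.mk (nat_lit 8149) (nat_lit 0) [nat_lit 3775, nat_lit 9607, nat_lit 7663, nat_lit 8311, nat_lit 8095, nat_lit 8203, nat_lit 8167, nat_lit 8143, nat_lit 8147, nat_lit 8151] (nat_lit 2) [nat_lit 14709, nat_lit 1589] false,
   Spec.mk (nat_lit 8151) (nat_lit 0) [nat_lit 3777, nat_lit 9609, nat_lit 7665, nat_lit 8313, nat_lit 8097, nat_lit 8205, nat_lit 8169, nat_lit 8149] (nat_lit 2) [nat_lit 1591] false,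
   Spec.mk (nat_lit 8159) (nat_lit 0) [nat_lit 3785, nat_lit 9617, nat_lit 7673, nat_lit 8321, nat_lit 8213, nat_lit 8141, nat_lit 8165, nat_lit 8161] (nat_lit 3) [nat_lit 14719] false,
   Spec.mk (nat_lit 8161) (nat_lit 0) [nat_lit 3787, nat_lit 9619, nat_lit 7675, nat_lit 8323, nat_lit 8215, nat_lit 8143, nat_lit 8167, nat_lit 8159] (nat_lit 4) [nat_lit 14721, nat_lit 1601] false,
   Spec.mk (nat_lit 8165) (nat_lit 0) [nat_lit 3791, nat_lit 9623, nat_lit 7679, nat_lit 8327, nat_lit 8219, nat_lit 8147, nat_lit 8159, nat_lit 8167] (nat_lit 3) [nat_lit 14725] false,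
   Spec.mk (nat_lit 8167) (nat_lit 0) [nat_lit 3793, nat_lit 9625, nat_lit 7681, nat_lit 8329, nat_lit 8221, nat_lit 8149, nat_lit 8161, nat_lit 8173, nat_lit 8165, nat_lit 8169] (nat_lit 2) [nat_lit 14727, nat_lit 1607] false,
   Spec.mk (nat_lit 8169) (nat_lit 0) [nat_lit 3795, nat_lit 9627, nat_lit 7683, nat_lit 8331, nat_lit 8223, nat_lit 8151, nat_lit 8175, nat_lit 8167] (nat_lit 3) [nat_lit 1609] false,
   Spec.mk (nat_lit 8173) (nat_lit 0) [nat_lit 3799, nat_lit 9631, nat_lit 7687, nat_lit 8335, nat_lit 8227, nat_lit 8167, nat_lit 8175] (nat_lit 2) [nat_lit 14733, nat_lit 1613] false,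
   Spec.mk (nat_lit 8175) (nat_lit 0) [nat_lit 3801, nat_lit 9633, nat_lit 7689, nat_lit 8337, nat_lit 8229, nat_lit 8169, nat_lit 8173] (nat_lit 1) [nat_lit 1615] false,
   Spec.mk (nat_lit 8189) (nat_lit 0) [nat_lit 3815, nat_lit 9647, nat_lit 7703, nat_lit 8351, nat_lit 8135, nat_lit 8195] (nat_lit 3) [nat_lit 14749] false,
   Spec.mk (nat_lit 8195) (nat_lit 0) [nat_lit 3821, nat_lit 9653, nat_lit 7709, nat_lit 8357, nat_lit 8141, nat_lit 8213, nat_lit 8189, nat_lit 8201, nat_lit 8197] (nat_lit 4) [nat_lit 14755] false]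

noncomputable def sp21 : List Spec :=
  [Spec.mk (nat_lit 8197) (nat_lit 0) [nat_lit 3823, nat_lit 9655, nat_lit 7711, nat_lit 8359, nat_lit 8143, nat_lit 8215, nat_lit 8203, nat_lit 8195] (nat_lit 4) [nat_lit 14757, nat_lit 1637] false,
   Spec.mk (nat_lit 8201) (nat_lit 0) [nat_lit 3827, nat_lit 9659, nat_lit 7715, nat_lit 8363, nat_lit 8147, nat_lit 8219, nat_lit 8195, nat_lit 8203] (nat_lit 7) [nat_lit 14761] false,
   Spec.mk (nat_lit 8203) (nat_lit 0) [nat_lit 3829, nat_lit 9661, nat_lit 7717, nat_lit 8365, nat_lit 8149, nat_lit 8221, nat_lit 8197, nat_lit 8201, nat_lit 8205] (nat_lit 5) [nat_lit 14763, nat_lit 1643] false,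
   Spec.mk (nat_lit 8205) (nat_lit 0) [nat_lit 3831, nat_lit 9663, nat_lit 7719, nat_lit 8367, nat_lit 8151, nat_lit 8223, nat_lit 8203] (nat_lit 5) [nat_lit 1645] false,
   Spec.mk (nat_lit 8213) (nat_lit 0) [nat_lit 3839, nat_lit 9671, nat_lit 7727, nat_lit 8375, nat_lit 8159, nat_lit 8195, nat_lit 8219, nat_lit 8215] (nat_lit 3) [nat_lit 14773] false,
   Spec.mk (nat_lit 8215) (nat_lit 0) [nat_lit 3841, nat_lit 9673, nat_lit 7729, nat_lit 8377, nat_lit 8161, nat_lit 8197, nat_lit 8221, nat_lit 8213] (nat_lit 4) [nat_lit 14775, nat_lit 1655] false,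
   Spec.mk (nat_lit 8219) (nat_lit 0) [nat_lit 3845, nat_lit 9677, nat_lit 7733, nat_lit 8381, nat_lit 8165, nat_lit 8201, nat_lit 8237, nat_lit 8213, nat_lit 8221] (nat_lit 4) [nat_lit 14779] false,
   Spec.mk (nat_lit 8221) (nat_lit 0) [nat_lit 3847, nat_lit 9679, nat_lit 7735, nat_lit 8383, nat_lit 8167, nat_lit 8203, nat_lit 8239, nat_lit 8215, nat_lit 8227, nat_lit 8219, nat_lit 8223] (nat_lit 3) [nat_lit 14781, nat_lit 1661] false,
   Spec.mk (nat_lit 8223) (nat_lit 0) [nat_lit 3849, nat_lit 9681, nat_lit 7737, nat_lit 8385, nat_lit 8169, nat_lit 8205, nat_lit 8241, nat_lit 8229, nat_lit 8221] (nat_lit 4) [nat_lit 1663] false,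
   Spec.mk (nat_lit 8227) (nat_lit 0) [nat_lit 3853, nat_lit 9685, nat_lit 7741, nat_lit 8389, nat_lit 8173, nat_lit 8245, nat_lit 8221, nat_lit 8229] (nat_lit 4) [nat_lit 14787, nat_lit 1667] false,
   Spec.mk (nat_lit 8229) (nat_lit 0) [nat_lit 3855, nat_lit 9687, nat_lit 7743, nat_lit 8391, nat_lit 8175, nat_lit 8247, nat_lit 8223, nat_lit 8227] (nat_lit 3) [nat_lit 1669] false,
   Spec.mk (nat_lit 8237) (nat_lit 0) [nat_lit 3863, nat_lit 9695, nat_lit 7751, nat_lit 8399, nat_lit 8219, nat_lit 8239] (nat_lit 3) [nat_lit 14797] false,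
   Spec.mk (nat_lit 8239) (nat_lit 0) [nat_lit 3865, nat_lit 9697, nat_lit 7753, nat_lit 8401, nat_lit 8221, nat_lit 8245, nat_lit 8237, nat_lit 8241] (nat_lit 3) [nat_lit 14799, nat_lit 1679] false,
   Spec.mk (nat_lit 8241) (nat_lit 0) [nat_lit 3867, nat_lit 9699, nat_lit 7755, nat_lit 8403, nat_lit 8223, nat_lit 8247, nat_lit 8239] (nat_lit 5) [nat_lit 1681] false,
   Spec.mk (nat_lit 8245) (nat_lit 0) [nat_lit 3871, nat_lit 9703, nat_lit 7759, nat_lit 8407, nat_lit 8227, nat_lit 8239, nat_lit 8247] (nat_lit 2) [nat_lit 14805, nat_lit 1685] false,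
   Spec.mk (nat_lit 8247) (nat_lit 0) [nat_lit 3873, nat_lit 9705, nat_lit 7761, nat_lit 8409, nat_lit 8229, nat_lit 8241, nat_lit 8253, nat_lit 8245] (nat_lit 2) [nat_lit 1687] false,
   Spec.mk (nat_lit 8253) (nat_lit 0) [nat_lit 3879, nat_lit 9711, nat_lit 7767, nat_lit 8415, nat_lit 8247] (nat_lit 1) [nat_lit 1693] false,
   Spec.mk (nat_lit 8279) (nat_lit 1) [nat_lit 3905, nat_lit 9737, nat_lit 7793, nat_lit 8117, nat_lit 8297, nat_lit 8285] (nat_lit 0) [nat_lit 14839] false,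
   Spec.mk (nat_lit 8285) (nat_lit 0) [nat_lit 3911, nat_lit 9743, nat_lit 7799, nat_lit 8123, nat_lit 8303, nat_lit 8279, nat_lit 8287] (nat_lit 1) [nat_lit 14845] false,
   Spec.mk (nat_lit 8287) (nat_lit 0) [nat_lit 3913, nat_lit 9745, nat_lit 7801, nat_lit 8125, nat_lit 8305, nat_lit 8285] (nat_lit 0) [nat_lit 14847, nat_lit 1727] false,
   Spec.mk (nat_lit 8297) (nat_lit 0) [nat_lit 3923, nat_lit 9755, nat_lit 7811, nat_lit 8135, nat_lit 8351, nat_lit 8279, nat_lit 8303] (nat_lit 1) [nat_lit 14857] false,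
   Spec.mk (nat_lit 8303) (nat_lit 0) [nat_lit 3929, nat_lit 9761, nat_lit 7817, nat_lit 8141, nat_lit 8357, nat_lit 8285, nat_lit 8321, nat_lit 8297, nat_lit 8309, nat_lit 8305] (nat_lit 1) [nat_lit 14863] false,
   Spec.mk (nat_lit 8305) (nat_lit 0) [nat_lit 3931, nat_lit 9763, nat_lit 7819, nat_lit 8143, nat_lit 8359, nat_lit 8287, nat_lit 8323, nat_lit 8311, nat_lit 8303] (nat_lit 1) [nat_lit 14865, nat_lit 1745] false,
   Spec.mk (nat_lit 8309) (nat_lit 0) [nat_lit 3935, nat_lit 9767, nat_lit 7823, nat_lit 8147, nat_lit 8363, nat_lit 8327, nat_lit 8303, nat_lit 8311] (nat_lit 3) [nat_lit 14869] false,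
   Spec.mk (nat_lit 8311) (nat_lit 0) [nat_lit 3937, nat_lit 9769, nat_lit 7825, nat_lit 8149, nat_lit 8365, nat_lit 8329, nat_lit 8305, nat_lit 8309, nat_lit 8313] (nat_lit 1) [nat_lit 14871, nat_lit 1751] false,
   Spec.mk (nat_lit 8313) (nat_lit 0) [nat_lit 3939, nat_lit 9771, nat_lit 7827, nat_lit 8151, nat_lit 8367, nat_lit 8331, nat_lit 8311] (nat_lit 1) [nat_lit 1753] false,
   Spec.mk (nat_lit 8321) (nat_lit 0) [nat_lit 3947, nat_lit 9779, nat_lit 7835, nat_lit 8159, nat_lit 8375, nat_lit 8303, nat_lit 8327, nat_lit 8323] (nat_lit 3) [nat_lit 14881] false,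
   Spec.mk (nat_lit 8323) (nat_lit 0) [nat_lit 3949, nat_lit 9781, nat_lit 7837, nat_lit 8161, nat_lit 8377, nat_lit 8305, nat_lit 8329, nat_lit 8321] (nat_lit 4) [nat_lit 14883, nat_lit 1763] false,
   Spec.mk (nat_lit 8327) (nat_lit 0) [nat_lit 3953, nat_lit 9785, nat_lit 7841, nat_lit 8165, nat_lit 8381, nat_lit 8309, nat_lit 8321, nat_lit 8329] (nat_lit 3) [nat_lit 14887] false,
   Spec.mk (nat_lit 8329) (nat_lit 0) [nat_lit 3955, nat_lit 9787, nat_lit 7843, nat_lit 8167, nat_lit 8383, nat_lit 8311, nat_lit 8323, nat_lit 8335, nat_lit 8327, nat_lit 8331] (nat_lit 2) [nat_lit 14889, nat_lit 1769] false,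
   Spec.mk (nat_lit 8331) (nat_lit 0) [nat_lit 3957, nat_lit 9789, nat_lit 7845, nat_lit 8169, nat_lit 8385, nat_lit 8313, nat_lit 8337, nat_lit 8329] (nat_lit 3) [nat_lit 1771] false,
   Spec.mk (nat_lit 8335) (nat_lit 0) [nat_lit 3961, nat_lit 9793, nat_lit 7849, nat_lit 8173, nat_lit 8389, nat_lit 8329, nat_lit 8337] (nat_lit 2) [nat_lit 14895, nat_lit 1775] false,
   Spec.mk (nat_lit 8337) (nat_lit 0) [nat_lit 3963, nat_lit 9795, nat_lit 7851, nat_lit 8175, nat_lit 8391, nat_lit 8331, nat_lit 8335] (nat_lit 1) [nat_lit 1777] false,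
   Spec.mk (nat_lit 8351) (nat_lit 0) [nat_lit 3977, nat_lit 9809, nat_lit 7865, nat_lit 8189, nat_lit 8513, nat_lit 8297, nat_lit 8357] (nat_lit 0) [nat_lit 14911] false,
   Spec.mk (nat_lit 8357) (nat_lit 0) [nat_lit 3983, nat_lit 9815, nat_lit 7871, nat_lit 8195, nat_lit 8519, nat_lit 8303, nat_lit 8375, nat_lit 8351, nat_lit 8363, nat_lit 8359] (nat_lit 1) [nat_lit 14917] false,
   Spec.mk (nat_lit 8359) (nat_lit 0) [nat_lit 3985, nat_lit 9817, nat_lit 7873, nat_lit 8197, nat_lit 8521, nat_lit 8305, nat_lit 8377, nat_lit 8365, nat_lit 8357] (nat_lit 1) [nat_lit 14919, nat_lit 1799] false,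
   Spec.mk (nat_lit 8363) (nat_lit 0) [nat_lit 3989, nat_lit 9821, nat_lit 7877, nat_lit 8201, nat_lit 8525, nat_lit 8309, nat_lit 8381, nat_lit 8357, nat_lit 8365] (nat_lit 4) [nat_lit 14923] false,
   Spec.mk (nat_lit 8365) (nat_lit 0) [nat_lit 3991, nat_lit 9823, nat_lit 7879, nat_lit 8203, nat_lit 8527, nat_lit 8311, nat_lit 8383, nat_lit 8359, nat_lit 8363, nat_lit 8367] (nat_lit 2) [nat_lit 14925, nat_lit 1805] false,
   Spec.mk (nat_lit 8367) (nat_lit 0) [nat_lit 3993, nat_lit 9825, nat_lit 7881, nat_lit 8205, nat_lit 8529, nat_lit 8313, nat_lit 8385, nat_lit 8365] (nat_lit 2) [nat_lit 1807] false,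
   Spec.mk (nat_lit 8375) (nat_lit 0) [nat_lit 4001, nat_lit 9833, nat_lit 7889, nat_lit 8213, nat_lit 8537, nat_lit 8321, nat_lit 8429, nat_lit 8357, nat_lit 8381, nat_lit 8377] (nat_lit 1) [nat_lit 14935] false,
   Spec.mk (nat_lit 8377) (nat_lit 0) [nat_lit 4003, nat_lit 9835, nat_lit 7891, nat_lit 8215, nat_lit 8539, nat_lit 8323, nat_lit 8431, nat_lit 8359, nat_lit 8383, nat_lit 8375] (nat_lit 2) [nat_lit 14937, nat_lit 1817] false,
   Spec.mk (nat_lit 8381) (nat_lit 0) [nat_lit 4007, nat_lit 9839, nat_lit 7895, nat_lit 8219, nat_lit 8543, nat_lit 8327, nat_lit 8435, nat_lit 8363, nat_lit 8399, nat_lit 8375, nat_lit 8383] (nat_lit 2) [nat_lit 14941] false,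
   Spec.mk (nat_lit 8383) (nat_lit 0) [nat_lit 4009, nat_lit 9841, nat_lit 7897, nat_lit 8221, nat_lit 8545, nat_lit 8329, nat_lit 8437, nat_lit 8365, nat_lit 8401, nat_lit 8377, nat_lit 8389, nat_lit 8381, nat_lit 8385] (nat_lit 1) [nat_lit 14943, nat_lit 1823] false,
   Spec.mk (nat_lit 8385) (nat_lit 0) [nat_lit 4011, nat_lit 9843, nat_lit 7899, nat_lit 8223, nat_lit 8547, nat_lit 8331, nat_lit 8439, nat_lit 8367, nat_lit 8403, nat_lit 8391, nat_lit 8383] (nat_lit 2) [nat_lit 1825] false,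
   Spec.mk (nat_lit 8389) (nat_lit 0) [nat_lit 4015, nat_lit 9847, nat_lit 7903, nat_lit 8227, nat_lit 8551, nat_lit 8335, nat_lit 8443, nat_lit 8407, nat_lit 8383, nat_lit 8391] (nat_lit 2) [nat_lit 14949, nat_lit 1829] false,
   Spec.mk (nat_lit 8391) (nat_lit 0) [nat_lit 4017, nat_lit 9849, nat_lit 7905, nat_lit 8229, nat_lit 8553, nat_lit 8337, nat_lit 8445, nat_lit 8409, nat_lit 8385, nat_lit 8389] (nat_lit 1) [nat_lit 1831] false,
   Spec.mk (nat_lit 8399) (nat_lit 0) [nat_lit 4025, nat_lit 9857, nat_lit 7913, nat_lit 8237, nat_lit 8561, nat_lit 8453, nat_lit 8381, nat_lit 8401] (nat_lit 2) [nat_lit 14959] false,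
   Spec.mk (nat_lit 8401) (nat_lit 0) [nat_lit 4027, nat_lit 9859, nat_lit 7915, nat_lit 8239, nat_lit 8563, nat_lit 8455, nat_lit 8383, nat_lit 8407, nat_lit 8399, nat_lit 8403] (nat_lit 2) [nat_lit 14961, nat_lit 1841] false,
   Spec.mk (nat_lit 8403) (nat_lit 0) [nat_lit 4029, nat_lit 9861, nat_lit 7917, nat_lit 8241, nat_lit 8565, nat_lit 8457, nat_lit 8385, nat_lit 8409, nat_lit 8401] (nat_lit 4) [nat_lit 1843] false,
   Spec.mk (nat_lit 8407) (nat_lit 0) [nat_lit 4033, nat_lit 9865, nat_lit 7921, nat_lit 8245, nat_lit 8569, nat_lit 8461, nat_lit 8389, nat_lit 8401, nat_lit 8409] (nat_lit 1) [nat_lit 14967, nat_lit 1847] false,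
   Spec.mk (nat_lit 8409) (nat_lit 0) [nat_lit 4035, nat_lit 9867, nat_lit 7923, nat_lit 8247, nat_lit 8571, nat_lit 8463, nat_lit 8391, nat_lit 8403, nat_lit 8415, nat_lit 8407] (nat_lit 1) [nat_lit 1849] false,
   Spec.mk (nat_lit 8415) (nat_lit 0) [nat_lit 4041, nat_lit 9873, nat_lit 7929, nat_lit 8253, nat_lit 8577, nat_lit 8469, nat_lit 8409] (nat_lit 0) [nat_lit 1855] false,
   Spec.mk (nat_lit 8429) (nat_lit 0) [nat_lit 4055, nat_lit 9887, nat_lit 7943, nat_lit 8591, nat_lit 8375, nat_lit 8435, nat_lit 8431] (nat_lit 1) [nat_lit 14989] false,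
   Spec.mk (nat_lit 8431) (nat_lit 0) [nat_lit 4057, nat_lit 9889, nat_lit 7945, nat_lit 8593, nat_lit 8377, nat_lit 8437, nat_lit 8429] (nat_lit 2) [nat_lit 14991, nat_lit 1871] false,
   Spec.mk (nat_lit 8435) (nat_lit 0) [nat_lit 4061, nat_lit 9893, nat_lit 7949, nat_lit 8597, nat_lit 8381, nat_lit 8453, nat_lit 8429, nat_lit 8437] (nat_lit 3) [nat_lit 14995] false,
   Spec.mk (nat_lit 8437) (nat_lit 0) [nat_lit 4063, nat_lit 9895, nat_lit 7951, nat_lit 8599, nat_lit 8383, nat_lit 8455, nat_lit 8431, nat_lit 8443, nat_lit 8435, nat_lit 8439] (nat_lit 2) [nat_lit 14997, nat_lit 1877] false,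
   Spec.mk (nat_lit 8439) (nat_lit 0) [nat_lit 4065, nat_lit 9897, nat_lit 7953, nat_lit 8601, nat_lit 8385, nat_lit 8457, nat_lit 8445, nat_lit 8437] (nat_lit 3) [nat_lit 1879] false,
   Spec.mk (nat_lit 8443) (nat_lit 0) [nat_lit 4069, nat_lit 9901, nat_lit 7957, nat_lit 8605, nat_lit 8389, nat_lit 8461, nat_lit 8437, nat_lit 8445] (nat_lit 4) [nat_lit 15003, nat_lit 1883] false,
   Spec.mk (nat_lit 8445) (nat_lit 0) [nat_lit 4071, nat_lit 9903, nat_lit 7959, nat_lit 8607, nat_lit 8391, nat_lit 8463, nat_lit 8439, nat_lit 8443] (nat_lit 3) [nat_lit 1885] false,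
   Spec.mk (nat_lit 8453) (nat_lit 0) [nat_lit 4079, nat_lit 9911, nat_lit 7967, nat_lit 8615, nat_lit 8399, nat_lit 8435, nat_lit 8455] (nat_lit 1) [nat_lit 15013] false]

noncomputable def sp22 : List Spec :=
  [Spec.mk (nat_lit 8455) (nat_lit 0) [nat_lit 4081, nat_lit 9913, nat_lit 7969, nat_lit 8617, nat_lit 8401, nat_lit 8437, nat_lit 8461, nat_lit 8453, nat_lit 8457] (nat_lit 1) [nat_lit 15015, nat_lit 1895] false,
   Spec.mk (nat_lit 8457) (nat_lit 0) [nat_lit 4083, nat_lit 9915, nat_lit 7971, nat_lit 8619, nat_lit 8403, nat_lit 8439, nat_lit 8463, nat_lit 8455] (nat_lit 3) [nat_lit 1897] false,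
   Spec.mk (nat_lit 8461) (nat_lit 0) [nat_lit 4087, nat_lit 9919, nat_lit 7975, nat_lit 8623, nat_lit 8407, nat_lit 8443, nat_lit 8479, nat_lit 8455, nat_lit 8463] (nat_lit 1) [nat_lit 15021, nat_lit 1901] false,
   Spec.mk (nat_lit 8463) (nat_lit 0) [nat_lit 4089, nat_lit 9921, nat_lit 7977, nat_lit 8625, nat_lit 8409, nat_lit 8445, nat_lit 8481, nat_lit 8457, nat_lit 8469, nat_lit 8461] (nat_lit 1) [nat_lit 1903] false,
   Spec.mk (nat_lit 8469) (nat_lit 0) [nat_lit 4095, nat_lit 9927, nat_lit 7983, nat_lit 8631, nat_lit 8415, nat_lit 8487, nat_lit 8463] (nat_lit 1) [nat_lit 1909] false,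
   Spec.mk (nat_lit 8479) (nat_lit 0) [nat_lit 4105, nat_lit 9937, nat_lit 7993, nat_lit 8641, nat_lit 8461, nat_lit 8481] (nat_lit 0) [nat_lit 15039, nat_lit 1919] false,
   Spec.mk (nat_lit 8481) (nat_lit 0) [nat_lit 4107, nat_lit 9939, nat_lit 7995, nat_lit 8643, nat_lit 8463, nat_lit 8487, nat_lit 8479] (nat_lit 1) [nat_lit 1921] false,
   Spec.mk (nat_lit 8487) (nat_lit 1) [nat_lit 4113, nat_lit 9945, nat_lit 8001, nat_lit 8649, nat_lit 8469, nat_lit 8481] (nat_lit 0) [nat_lit 1927] false,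
   Spec.mk (nat_lit 8513) (nat_lit 1) [nat_lit 4139, nat_lit 9971, nat_lit 8351, nat_lit 8519] (nat_lit 0) [nat_lit 15073] false,
   Spec.mk (nat_lit 8519) (nat_lit 0) [nat_lit 4145, nat_lit 9977, nat_lit 8357, nat_lit 8537, nat_lit 8513, nat_lit 8525, nat_lit 8521] (nat_lit 0) [nat_lit 15079] false,
   Spec.mk (nat_lit 8521) (nat_lit 0) [nat_lit 4147, nat_lit 9979, nat_lit 8359, nat_lit 8539, nat_lit 8527, nat_lit 8519] (nat_lit 0) [nat_lit 15081, nat_lit 1961] false,
   Spec.mk (nat_lit 8525) (nat_lit 0) [nat_lit 4151, nat_lit 9983, nat_lit 8363, nat_lit 8543, nat_lit 8519, nat_lit 8527] (nat_lit 3) [nat_lit 15085] false,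
   Spec.mk (nat_lit 8527) (nat_lit 0) [nat_lit 4153, nat_lit 9985, nat_lit 8365, nat_lit 8545, nat_lit 8521, nat_lit 8525, nat_lit 8529] (nat_lit 1) [nat_lit 15087, nat_lit 1967] false,
   Spec.mk (nat_lit 8529) (nat_lit 0) [nat_lit 4155, nat_lit 9987, nat_lit 8367, nat_lit 8547, nat_lit 8527] (nat_lit 1) [nat_lit 1969] false,
   Spec.mk (nat_lit 8537) (nat_lit 0) [nat_lit 4163, nat_lit 9995, nat_lit 8375, nat_lit 8591, nat_lit 8519, nat_lit 8543, nat_lit 8539] (nat_lit 1) [nat_lit 15097] false,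
   Spec.mk (nat_lit 8539) (nat_lit 0) [nat_lit 4165, nat_lit 9997, nat_lit 8377, nat_lit 8593, nat_lit 8521, nat_lit 8545, nat_lit 8537] (nat_lit 2) [nat_lit 15099, nat_lit 1979] false,
   Spec.mk (nat_lit 8543) (nat_lit 0) [nat_lit 4169, nat_lit 10001, nat_lit 8381, nat_lit 8597, nat_lit 8525, nat_lit 8561, nat_lit 8537, nat_lit 8545] (nat_lit 2) [nat_lit 15103] false,
   Spec.mk (nat_lit 8545) (nat_lit 0) [nat_lit 4171, nat_lit 10003, nat_lit 8383, nat_lit 8599, nat_lit 8527, nat_lit 8563, nat_lit 8539, nat_lit 8551, nat_lit 8543, nat_lit 8547] (nat_lit 1) [nat_lit 15105, nat_lit 1985] false,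
   Spec.mk (nat_lit 8547) (nat_lit 0) [nat_lit 4173, nat_lit 10005, nat_lit 8385, nat_lit 8601, nat_lit 8529, nat_lit 8565, nat_lit 8553, nat_lit 8545] (nat_lit 2) [nat_lit 1987] false,
   Spec.mk (nat_lit 8551) (nat_lit 0) [nat_lit 4177, nat_lit 10009, nat_lit 8389, nat_lit 8605, nat_lit 8569, nat_lit 8545, nat_lit 8553] (nat_lit 2) [nat_lit 15111, nat_lit 1991] false,
   Spec.mk (nat_lit 8553) (nat_lit 0) [nat_lit 4179, nat_lit 10011, nat_lit 8391, nat_lit 8607, nat_lit 8571, nat_lit 8547, nat_lit 8551] (nat_lit 1) [nat_lit 1993] false,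
   Spec.mk (nat_lit 8561) (nat_lit 0) [nat_lit 4187, nat_lit 10019, nat_lit 8399, nat_lit 8615, nat_lit 8543, nat_lit 8563] (nat_lit 3) [nat_lit 15121] false,
   Spec.mk (nat_lit 8563) (nat_lit 0) [nat_lit 4189, nat_lit 10021, nat_lit 8401, nat_lit 8617, nat_lit 8545, nat_lit 8569, nat_lit 8561, nat_lit 8565] (nat_lit 3) [nat_lit 15123, nat_lit 2003] false,
   Spec.mk (nat_lit 8565) (nat_lit 0) [nat_lit 4191, nat_lit 10023, nat_lit 8403, nat_lit 8619, nat_lit 8547, nat_lit 8571, nat_lit 8563] (nat_lit 5) [nat_lit 2005] false,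
   Spec.mk (nat_lit 8569) (nat_lit 0) [nat_lit 4195, nat_lit 10027, nat_lit 8407, nat_lit 8623, nat_lit 8551, nat_lit 8563, nat_lit 8571] (nat_lit 2) [nat_lit 15129, nat_lit 2009] false,
   Spec.mk (nat_lit 8571) (nat_lit 0) [nat_lit 4197, nat_lit 10029, nat_lit 8409, nat_lit 8625, nat_lit 8553, nat_lit 8565, nat_lit 8577, nat_lit 8569] (nat_lit 2) [nat_lit 2011] false,
   Spec.mk (nat_lit 8577) (nat_lit 0) [nat_lit 4203, nat_lit 10035, nat_lit 8415, nat_lit 8631, nat_lit 8571] (nat_lit 1) [nat_lit 2017] false,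
   Spec.mk (nat_lit 8591) (nat_lit 1) [nat_lit 4217, nat_lit 10049, nat_lit 8429, nat_lit 8537, nat_lit 8597, nat_lit 8593] (nat_lit 0) [nat_lit 15151] false,
   Spec.mk (nat_lit 8593) (nat_lit 0) [nat_lit 4219, nat_lit 10051, nat_lit 8431, nat_lit 8539, nat_lit 8599, nat_lit 8591] (nat_lit 0) [nat_lit 15153, nat_lit 2033] false,
   Spec.mk (nat_lit 8597) (nat_lit 0) [nat_lit 4223, nat_lit 10055, nat_lit 8435, nat_lit 8543, nat_lit 8615, nat_lit 8591, nat_lit 8599] (nat_lit 1) [nat_lit 15157] false,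
   Spec.mk (nat_lit 8599) (nat_lit 0) [nat_lit 4225, nat_lit 10057, nat_lit 8437, nat_lit 8545, nat_lit 8617, nat_lit 8593, nat_lit 8605, nat_lit 8597, nat_lit 8601] (nat_lit 0) [nat_lit 15159, nat_lit 2039] false,
   Spec.mk (nat_lit 8601) (nat_lit 0) [nat_lit 4227, nat_lit 10059, nat_lit 8439, nat_lit 8547, nat_lit 8619, nat_lit 8607, nat_lit 8599] (nat_lit 1) [nat_lit 2041] false,
   Spec.mk (nat_lit 8605) (nat_lit 0) [nat_lit 4231, nat_lit 10063, nat_lit 8443, nat_lit 8551, nat_lit 8623, nat_lit 8599, nat_lit 8607] (nat_lit 2) [nat_lit 15165, nat_lit 2045] false,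
   Spec.mk (nat_lit 8607) (nat_lit 0) [nat_lit 4233, nat_lit 10065, nat_lit 8445, nat_lit 8553, nat_lit 8625, nat_lit 8601, nat_lit 8605] (nat_lit 1) [nat_lit 2047] false,
   Spec.mk (nat_lit 8615) (nat_lit 0) [nat_lit 4241, nat_lit 10073, nat_lit 8453, nat_lit 8561, nat_lit 8669, nat_lit 8597, nat_lit 8617] (nat_lit 0) [nat_lit 15175] false,
   Spec.mk (nat_lit 8617) (nat_lit 0) [nat_lit 4243, nat_lit 10075, nat_lit 8455, nat_lit 8563, nat_lit 8671, nat_lit 8599, nat_lit 8623, nat_lit 8615, nat_lit 8619] (nat_lit 0) [nat_lit 15177, nat_lit 2057] false,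
   Spec.mk (nat_lit 8619) (nat_lit 0) [nat_lit 4245, nat_lit 10077, nat_lit 8457, nat_lit 8565, nat_lit 8673, nat_lit 8601, nat_lit 8625, nat_lit 8617] (nat_lit 2) [nat_lit 2059] false,
   Spec.mk (nat_lit 8623) (nat_lit 0) [nat_lit 4249, nat_lit 10081, nat_lit 8461, nat_lit 8569, nat_lit 8677, nat_lit 8605, nat_lit 8641, nat_lit 8617, nat_lit 8625] (nat_lit 0) [nat_lit 15183, nat_lit 2063] false,
   Spec.mk (nat_lit 8625) (nat_lit 0) [nat_lit 4251, nat_lit 10083, nat_lit 8463, nat_lit 8571, nat_lit 8679, nat_lit 8607, nat_lit 8643, nat_lit 8619, nat_lit 8631, nat_lit 8623] (nat_lit 0) [nat_lit 2065] false,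
   Spec.mk (nat_lit 8631) (nat_lit 0) [nat_lit 4257, nat_lit 10089, nat_lit 8469, nat_lit 8577, nat_lit 8685, nat_lit 8649, nat_lit 8625] (nat_lit 0) [nat_lit 2071] false,
   Spec.mk (nat_lit 8641) (nat_lit 0) [nat_lit 4267, nat_lit 10099, nat_lit 8479, nat_lit 8695, nat_lit 8623, nat_lit 8643] (nat_lit 0) [nat_lit 15201, nat_lit 2081] false,
   Spec.mk (nat_lit 8643) (nat_lit 0) [nat_lit 4269, nat_lit 10101, nat_lit 8481, nat_lit 8697, nat_lit 8625, nat_lit 8649, nat_lit 8641] (nat_lit 1) [nat_lit 2083] false,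
   Spec.mk (nat_lit 8649) (nat_lit 1) [nat_lit 4275, nat_lit 10107, nat_lit 8487, nat_lit 8703, nat_lit 8631, nat_lit 8643] (nat_lit 0) [nat_lit 2089] false,
   Spec.mk (nat_lit 8669) (nat_lit 1) [nat_lit 4295, nat_lit 10127, nat_lit 8615, nat_lit 8671] (nat_lit 0) [nat_lit 15229] false,
   Spec.mk (nat_lit 8671) (nat_lit 1) [nat_lit 4297, nat_lit 10129, nat_lit 8617, nat_lit 8677, nat_lit 8669, nat_lit 8673] (nat_lit 0) [nat_lit 15231, nat_lit 2111] false,
   Spec.mk (nat_lit 8673) (nat_lit 0) [nat_lit 4299, nat_lit 10131, nat_lit 8619, nat_lit 8679, nat_lit 8671] (nat_lit 1) [nat_lit 2113] false,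
   Spec.mk (nat_lit 8677) (nat_lit 0) [nat_lit 4303, nat_lit 10135, nat_lit 8623, nat_lit 8695, nat_lit 8671, nat_lit 8679] (nat_lit 0) [nat_lit 15237, nat_lit 2117] false,
   Spec.mk (nat_lit 8679) (nat_lit 0) [nat_lit 4305, nat_lit 10137, nat_lit 8625, nat_lit 8697, nat_lit 8673, nat_lit 8685, nat_lit 8677] (nat_lit 0) [nat_lit 2119] false,
   Spec.mk (nat_lit 8685) (nat_lit 0) [nat_lit 4311, nat_lit 10143, nat_lit 8631, nat_lit 8703, nat_lit 8679] (nat_lit 1) [nat_lit 2125] false,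
   Spec.mk (nat_lit 8695) (nat_lit 2) [nat_lit 4321, nat_lit 10153, nat_lit 8641, nat_lit 8677, nat_lit 8697] (nat_lit 0) [nat_lit 15255, nat_lit 2135] false,
   Spec.mk (nat_lit 8697) (nat_lit 1) [nat_lit 4323, nat_lit 10155, nat_lit 8643, nat_lit 8679, nat_lit 8703, nat_lit 8695] (nat_lit 0) [nat_lit 2137] false,
   Spec.mk (nat_lit 8703) (nat_lit 2) [nat_lit 4329, nat_lit 10161, nat_lit 8649, nat_lit 8685, nat_lit 8721, nat_lit 8697] (nat_lit 0) [nat_lit 2143] false,
   Spec.mk (nat_lit 8721) (nat_lit 3) [nat_lit 4347, nat_lit 10179, nat_lit 8703] (nat_lit 0) [nat_lit 2161] false,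
   Spec.mk (nat_lit 8801) (nat_lit 4) [nat_lit 4427, nat_lit 13175, nat_lit 7343, nat_lit 8855, nat_lit 8819] (nat_lit 0) [nat_lit 15361] false,
   Spec.mk (nat_lit 8819) (nat_lit 2) [nat_lit 4445, nat_lit 13193, nat_lit 7361, nat_lit 8873, nat_lit 8801, nat_lit 8825] (nat_lit 0) [nat_lit 15379] false,
   Spec.mk (nat_lit 8825) (nat_lit 2) [nat_lit 4451, nat_lit 13199, nat_lit 7367, nat_lit 8879, nat_lit 8819, nat_lit 8827] (nat_lit 0) [nat_lit 15385] false,
   Spec.mk (nat_lit 8827) (nat_lit 3) [nat_lit 4453, nat_lit 13201, nat_lit 7369, nat_lit 8881, nat_lit 8825] (nat_lit 0) [nat_lit 15387, nat_lit 2267] false,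
   Spec.mk (nat_lit 8855) (nat_lit 2) [nat_lit 4481, nat_lit 13229, nat_lit 7397, nat_lit 9017, nat_lit 8801, nat_lit 8873] (nat_lit 0) [nat_lit 15415] false,
   Spec.mk (nat_lit 8873) (nat_lit 2) [nat_lit 4499, nat_lit 13247, nat_lit 7415, nat_lit 9035, nat_lit 8819, nat_lit 8927, nat_lit 8855, nat_lit 8891, nat_lit 8879] (nat_lit 0) [nat_lit 15433] false,
   Spec.mk (nat_lit 8879) (nat_lit 1) [nat_lit 4505, nat_lit 13253, nat_lit 7421, nat_lit 9041, nat_lit 8825, nat_lit 8933, nat_lit 8897, nat_lit 8873, nat_lit 8881] (nat_lit 0) [nat_lit 15439] false]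

noncomputable def sp23 : List Spec :=
  [Spec.mk (nat_lit 8881) (nat_lit 2) [nat_lit 4507, nat_lit 13255, nat_lit 7423, nat_lit 9043, nat_lit 8827, nat_lit 8935, nat_lit 8899, nat_lit 8879] (nat_lit 0) [nat_lit 15441, nat_lit 2321] false,
   Spec.mk (nat_lit 8891) (nat_lit 0) [nat_lit 4517, nat_lit 13265, nat_lit 7433, nat_lit 9053, nat_lit 8945, nat_lit 8873, nat_lit 8897] (nat_lit 0) [nat_lit 15451] false,
   Spec.mk (nat_lit 8897) (nat_lit 1) [nat_lit 4523, nat_lit 13271, nat_lit 7439, nat_lit 9059, nat_lit 8951, nat_lit 8879, nat_lit 8891, nat_lit 8903, nat_lit 8899] (nat_lit 0) [nat_lit 15457] false,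
   Spec.mk (nat_lit 8899) (nat_lit 1) [nat_lit 4525, nat_lit 13273, nat_lit 7441, nat_lit 9061, nat_lit 8953, nat_lit 8881, nat_lit 8905, nat_lit 8897] (nat_lit 0) [nat_lit 15459, nat_lit 2339] false,
   Spec.mk (nat_lit 8903) (nat_lit 0) [nat_lit 4529, nat_lit 13277, nat_lit 7445, nat_lit 9065, nat_lit 8957, nat_lit 8897, nat_lit 8905] (nat_lit 0) [nat_lit 15463] false,
   Spec.mk (nat_lit 8905) (nat_lit 2) [nat_lit 4531, nat_lit 13279, nat_lit 7447, nat_lit 9067, nat_lit 8959, nat_lit 8899, nat_lit 8903, nat_lit 8907] (nat_lit 0) [nat_lit 15465, nat_lit 2345] false,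
   Spec.mk (nat_lit 8907) (nat_lit 2) [nat_lit 4533, nat_lit 13281, nat_lit 7449, nat_lit 9069, nat_lit 8961, nat_lit 8905] (nat_lit 0) [nat_lit 2347] false,
   Spec.mk (nat_lit 8927) (nat_lit 0) [nat_lit 4553, nat_lit 13301, nat_lit 7469, nat_lit 9089, nat_lit 8873, nat_lit 8945, nat_lit 8933] (nat_lit 0) [nat_lit 15487] false,
   Spec.mk (nat_lit 8933) (nat_lit 0) [nat_lit 4559, nat_lit 13307, nat_lit 7475, nat_lit 9095, nat_lit 8879, nat_lit 8951, nat_lit 8927, nat_lit 8935] (nat_lit 2) [nat_lit 15493] false,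
   Spec.mk (nat_lit 8935) (nat_lit 0) [nat_lit 4561, nat_lit 13309, nat_lit 7477, nat_lit 9097, nat_lit 8881, nat_lit 8953, nat_lit 8933] (nat_lit 1) [nat_lit 15495, nat_lit 2375] false,
   Spec.mk (nat_lit 8945) (nat_lit 0) [nat_lit 4571, nat_lit 13319, nat_lit 7487, nat_lit 9107, nat_lit 8891, nat_lit 8927, nat_lit 8951] (nat_lit 0) [nat_lit 15505] false,
   Spec.mk (nat_lit 8951) (nat_lit 0) [nat_lit 4577, nat_lit 13325, nat_lit 7493, nat_lit 9113, nat_lit 8897, nat_lit 8933, nat_lit 8969, nat_lit 8945, nat_lit 8957, nat_lit 8953] (nat_lit 0) [nat_lit 15511] false,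
   Spec.mk (nat_lit 8953) (nat_lit 0) [nat_lit 4579, nat_lit 13327, nat_lit 7495, nat_lit 9115, nat_lit 8899, nat_lit 8935, nat_lit 8971, nat_lit 8959, nat_lit 8951] (nat_lit 0) [nat_lit 15513, nat_lit 2393] false,
   Spec.mk (nat_lit 8957) (nat_lit 0) [nat_lit 4583, nat_lit 13331, nat_lit 7499, nat_lit 9119, nat_lit 8903, nat_lit 8975, nat_lit 8951, nat_lit 8959] (nat_lit 2) [nat_lit 15517] false,
   Spec.mk (nat_lit 8959) (nat_lit 0) [nat_lit 4585, nat_lit 13333, nat_lit 7501, nat_lit 9121, nat_lit 8905, nat_lit 8977, nat_lit 8953, nat_lit 8957, nat_lit 8961] (nat_lit 0) [nat_lit 15519, nat_lit 2399] false,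
   Spec.mk (nat_lit 8961) (nat_lit 0) [nat_lit 4587, nat_lit 13335, nat_lit 7503, nat_lit 9123, nat_lit 8907, nat_lit 8979, nat_lit 8959] (nat_lit 0) [nat_lit 2401] false,
   Spec.mk (nat_lit 8969) (nat_lit 0) [nat_lit 4595, nat_lit 13343, nat_lit 7511, nat_lit 9131, nat_lit 8951, nat_lit 8975, nat_lit 8971] (nat_lit 0) [nat_lit 15529] false,
   Spec.mk (nat_lit 8971) (nat_lit 0) [nat_lit 4597, nat_lit 13345, nat_lit 7513, nat_lit 9133, nat_lit 8953, nat_lit 8977, nat_lit 8969] (nat_lit 1) [nat_lit 15531, nat_lit 2411] false,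
   Spec.mk (nat_lit 8975) (nat_lit 0) [nat_lit 4601, nat_lit 13349, nat_lit 7517, nat_lit 9137, nat_lit 8957, nat_lit 8969, nat_lit 8977] (nat_lit 0) [nat_lit 15535] false,
   Spec.mk (nat_lit 8977) (nat_lit 1) [nat_lit 4603, nat_lit 13351, nat_lit 7519, nat_lit 9139, nat_lit 8959, nat_lit 8971, nat_lit 8983, nat_lit 8975, nat_lit 8979] (nat_lit 0) [nat_lit 15537, nat_lit 2417] false,
   Spec.mk (nat_lit 8979) (nat_lit 0) [nat_lit 4605, nat_lit 13353, nat_lit 7521, nat_lit 9141, nat_lit 8961, nat_lit 8985, nat_lit 8977] (nat_lit 0) [nat_lit 2419] false,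
   Spec.mk (nat_lit 8983) (nat_lit 1) [nat_lit 4609, nat_lit 13357, nat_lit 7525, nat_lit 9145, nat_lit 8977, nat_lit 8985] (nat_lit 0) [nat_lit 15543, nat_lit 2423] false,
   Spec.mk (nat_lit 8985) (nat_lit 2) [nat_lit 4611, nat_lit 13359, nat_lit 7527, nat_lit 9147, nat_lit 8979, nat_lit 8983] (nat_lit 0) [nat_lit 2425] false,
   Spec.mk (nat_lit 9017) (nat_lit 2) [nat_lit 4643, nat_lit 13391, nat_lit 7559, nat_lit 9503, nat_lit 8855, nat_lit 9035] (nat_lit 0) [nat_lit 15577] false,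
   Spec.mk (nat_lit 9035) (nat_lit 1) [nat_lit 4661, nat_lit 13409, nat_lit 7577, nat_lit 9521, nat_lit 8873, nat_lit 9089, nat_lit 9017, nat_lit 9053, nat_lit 9041] (nat_lit 0) [nat_lit 15595] false,
   Spec.mk (nat_lit 9041) (nat_lit 0) [nat_lit 4667, nat_lit 13415, nat_lit 7583, nat_lit 9527, nat_lit 8879, nat_lit 9095, nat_lit 9059, nat_lit 9035, nat_lit 9043] (nat_lit 0) [nat_lit 15601] false,
   Spec.mk (nat_lit 9043) (nat_lit 1) [nat_lit 4669, nat_lit 13417, nat_lit 7585, nat_lit 9529, nat_lit 8881, nat_lit 9097, nat_lit 9061, nat_lit 9041] (nat_lit 0) [nat_lit 15603, nat_lit 2483] false,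
   Spec.mk (nat_lit 9053) (nat_lit 0) [nat_lit 4679, nat_lit 13427, nat_lit 7595, nat_lit 9539, nat_lit 8891, nat_lit 9107, nat_lit 9035, nat_lit 9059] (nat_lit 2) [nat_lit 15613] false,
   Spec.mk (nat_lit 9059) (nat_lit 0) [nat_lit 4685, nat_lit 13433, nat_lit 7601, nat_lit 9545, nat_lit 8897, nat_lit 9113, nat_lit 9041, nat_lit 9053, nat_lit 9065, nat_lit 9061] (nat_lit 1) [nat_lit 15619] false,
   Spec.mk (nat_lit 9061) (nat_lit 0) [nat_lit 4687, nat_lit 13435, nat_lit 7603, nat_lit 9547, nat_lit 8899, nat_lit 9115, nat_lit 9043, nat_lit 9067, nat_lit 9059] (nat_lit 1) [nat_lit 15621, nat_lit 2501] false,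
   Spec.mk (nat_lit 9065) (nat_lit 0) [nat_lit 4691, nat_lit 13439, nat_lit 7607, nat_lit 9551, nat_lit 8903, nat_lit 9119, nat_lit 9059, nat_lit 9067] (nat_lit 2) [nat_lit 15625] false,
   Spec.mk (nat_lit 9067) (nat_lit 0) [nat_lit 4693, nat_lit 13441, nat_lit 7609, nat_lit 9553, nat_lit 8905, nat_lit 9121, nat_lit 9061, nat_lit 9065, nat_lit 9069] (nat_lit 0) [nat_lit 15627, nat_lit 2507] false,
   Spec.mk (nat_lit 9069) (nat_lit 0) [nat_lit 4695, nat_lit 13443, nat_lit 7611, nat_lit 9555, nat_lit 8907, nat_lit 9123, nat_lit 9067] (nat_lit 0) [nat_lit 2509] false,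
   Spec.mk (nat_lit 9089) (nat_lit 1) [nat_lit 4715, nat_lit 13463, nat_lit 7631, nat_lit 9575, nat_lit 8927, nat_lit 9251, nat_lit 9035, nat_lit 9107, nat_lit 9095] (nat_lit 0) [nat_lit 15649] false,
   Spec.mk (nat_lit 9095) (nat_lit 0) [nat_lit 4721, nat_lit 13469, nat_lit 7637, nat_lit 9581, nat_lit 8933, nat_lit 9257, nat_lit 9041, nat_lit 9113, nat_lit 9089, nat_lit 9097] (nat_lit 1) [nat_lit 15655] false,
   Spec.mk (nat_lit 9097) (nat_lit 0) [nat_lit 4723, nat_lit 13471, nat_lit 7639, nat_lit 9583, nat_lit 8935, nat_lit 9259, nat_lit 9043, nat_lit 9115, nat_lit 9095] (nat_lit 0) [nat_lit 15657, nat_lit 2537] false,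
   Spec.mk (nat_lit 9107) (nat_lit 0) [nat_lit 4733, nat_lit 13481, nat_lit 7649, nat_lit 9593, nat_lit 8945, nat_lit 9269, nat_lit 9053, nat_lit 9161, nat_lit 9089, nat_lit 9113] (nat_lit 0) [nat_lit 15667] false,
   Spec.mk (nat_lit 9113) (nat_lit 0) [nat_lit 4739, nat_lit 13487, nat_lit 7655, nat_lit 9599, nat_lit 8951, nat_lit 9275, nat_lit 9059, nat_lit 9167, nat_lit 9095, nat_lit 9131, nat_lit 9107, nat_lit 9119, nat_lit 9115] (nat_lit 0) [nat_lit 15673] false,
   Spec.mk (nat_lit 9115) (nat_lit 0) [nat_lit 4741, nat_lit 13489, nat_lit 7657, nat_lit 9601, nat_lit 8953, nat_lit 9277, nat_lit 9061, nat_lit 9169, nat_lit 9097, nat_lit 9133, nat_lit 9121, nat_lit 9113] (nat_lit 0) [nat_lit 15675, nat_lit 2555] false,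
   Spec.mk (nat_lit 9119) (nat_lit 0) [nat_lit 4745, nat_lit 13493, nat_lit 7661, nat_lit 9605, nat_lit 8957, nat_lit 9281, nat_lit 9065, nat_lit 9173, nat_lit 9137, nat_lit 9113, nat_lit 9121] (nat_lit 2) [nat_lit 15679] false,
   Spec.mk (nat_lit 9121) (nat_lit 0) [nat_lit 4747, nat_lit 13495, nat_lit 7663, nat_lit 9607, nat_lit 8959, nat_lit 9283, nat_lit 9067, nat_lit 9175, nat_lit 9139, nat_lit 9115, nat_lit 9119, nat_lit 9123] (nat_lit 0) [nat_lit 15681, nat_lit 2561] false,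
   Spec.mk (nat_lit 9123) (nat_lit 0) [nat_lit 4749, nat_lit 13497, nat_lit 7665, nat_lit 9609, nat_lit 8961, nat_lit 9285, nat_lit 9069, nat_lit 9177, nat_lit 9141, nat_lit 9121] (nat_lit 0) [nat_lit 2563] false,
   Spec.mk (nat_lit 9131) (nat_lit 0) [nat_lit 4757, nat_lit 13505, nat_lit 7673, nat_lit 9617, nat_lit 8969, nat_lit 9293, nat_lit 9185, nat_lit 9113, nat_lit 9137, nat_lit 9133] (nat_lit 1) [nat_lit 15691] false,
   Spec.mk (nat_lit 9133) (nat_lit 0) [nat_lit 4759, nat_lit 13507, nat_lit 7675, nat_lit 9619, nat_lit 8971, nat_lit 9295, nat_lit 9187, nat_lit 9115, nat_lit 9139, nat_lit 9131] (nat_lit 2) [nat_lit 15693, nat_lit 2573] false,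
   Spec.mk (nat_lit 9137) (nat_lit 0) [nat_lit 4763, nat_lit 13511, nat_lit 7679, nat_lit 9623, nat_lit 8975, nat_lit 9299, nat_lit 9191, nat_lit 9119, nat_lit 9131, nat_lit 9139] (nat_lit 1) [nat_lit 15697] false,
   Spec.mk (nat_lit 9139) (nat_lit 0) [nat_lit 4765, nat_lit 13513, nat_lit 7681, nat_lit 9625, nat_lit 8977, nat_lit 9301, nat_lit 9193, nat_lit 9121, nat_lit 9133, nat_lit 9145, nat_lit 9137, nat_lit 9141] (nat_lit 0) [nat_lit 15699, nat_lit 2579] false,
   Spec.mk (nat_lit 9141) (nat_lit 0) [nat_lit 4767, nat_lit 13515, nat_lit 7683, nat_lit 9627, nat_lit 8979, nat_lit 9303, nat_lit 9195, nat_lit 9123, nat_lit 9147, nat_lit 9139] (nat_lit 1) [nat_lit 2581] false,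
   Spec.mk (nat_lit 9145) (nat_lit 0) [nat_lit 4771, nat_lit 13519, nat_lit 7687, nat_lit 9631, nat_lit 8983, nat_lit 9307, nat_lit 9199, nat_lit 9139, nat_lit 9147] (nat_lit 0) [nat_lit 15705, nat_lit 2585] false,
   Spec.mk (nat_lit 9147) (nat_lit 1) [nat_lit 4773, nat_lit 13521, nat_lit 7689, nat_lit 9633, nat_lit 8985, nat_lit 9309, nat_lit 9201, nat_lit 9141, nat_lit 9145] (nat_lit 0) [nat_lit 2587] false,
   Spec.mk (nat_lit 9161) (nat_lit 0) [nat_lit 4787, nat_lit 13535, nat_lit 7703, nat_lit 9647, nat_lit 9323, nat_lit 9107, nat_lit 9167] (nat_lit 0) [nat_lit 15721] false,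
   Spec.mk (nat_lit 9167) (nat_lit 0) [nat_lit 4793, nat_lit 13541, nat_lit 7709, nat_lit 9653, nat_lit 9329, nat_lit 9113, nat_lit 9185, nat_lit 9161, nat_lit 9173, nat_lit 9169] (nat_lit 1) [nat_lit 15727] false,
   Spec.mk (nat_lit 9169) (nat_lit 0) [nat_lit 4795, nat_lit 13543, nat_lit 7711, nat_lit 9655, nat_lit 9331, nat_lit 9115, nat_lit 9187, nat_lit 9175, nat_lit 9167] (nat_lit 1) [nat_lit 15729, nat_lit 2609] false,
   Spec.mk (nat_lit 9173) (nat_lit 0) [nat_lit 4799, nat_lit 13547, nat_lit 7715, nat_lit 9659, nat_lit 9335, nat_lit 9119, nat_lit 9191, nat_lit 9167, nat_lit 9175] (nat_lit 4) [nat_lit 15733] false,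
   Spec.mk (nat_lit 9175) (nat_lit 0) [nat_lit 4801, nat_lit 13549, nat_lit 7717, nat_lit 9661, nat_lit 9337, nat_lit 9121, nat_lit 9193, nat_lit 9169, nat_lit 9173, nat_lit 9177] (nat_lit 2) [nat_lit 15735, nat_lit 2615] false,
   Spec.mk (nat_lit 9177) (nat_lit 0) [nat_lit 4803, nat_lit 13551, nat_lit 7719, nat_lit 9663, nat_lit 9339, nat_lit 9123, nat_lit 9195, nat_lit 9175] (nat_lit 2) [nat_lit 2617] false,
   Spec.mk (nat_lit 9185) (nat_lit 0) [nat_lit 4811, nat_lit 13559, nat_lit 7727, nat_lit 9671, nat_lit 9347, nat_lit 9131, nat_lit 9167, nat_lit 9191, nat_lit 9187] (nat_lit 0) [nat_lit 15745] false,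
   Spec.mk (nat_lit 9187) (nat_lit 0) [nat_lit 4813, nat_lit 13561, nat_lit 7729, nat_lit 9673, nat_lit 9349, nat_lit 9133, nat_lit 9169, nat_lit 9193, nat_lit 9185] (nat_lit 1) [nat_lit 15747, nat_lit 2627] false,
   Spec.mk (nat_lit 9191) (nat_lit 0) [nat_lit 4817, nat_lit 13565, nat_lit 7733, nat_lit 9677, nat_lit 9353, nat_lit 9137, nat_lit 9173, nat_lit 9209, nat_lit 9185, nat_lit 9193] (nat_lit 1) [nat_lit 15751] false,
   Spec.mk (nat_lit 9193) (nat_lit 0) [nat_lit 4819, nat_lit 13567, nat_lit 7735, nat_lit 9679, nat_lit 9355, nat_lit 9139, nat_lit 9175, nat_lit 9211, nat_lit 9187, nat_lit 9199, nat_lit 9191, nat_lit 9195] (nat_lit 0) [nat_lit 15753, nat_lit 2633] false,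
   Spec.mk (nat_lit 9195) (nat_lit 0) [nat_lit 4821, nat_lit 13569, nat_lit 7737, nat_lit 9681, nat_lit 9357, nat_lit 9141, nat_lit 9177, nat_lit 9213, nat_lit 9201, nat_lit 9193] (nat_lit 1) [nat_lit 2635] false]

noncomputable def sp24 : List Spec :=
  [Spec.mk (nat_lit 9199) (nat_lit 0) [nat_lit 4825, nat_lit 13573, nat_lit 7741, nat_lit 9685, nat_lit 9361, nat_lit 9145, nat_lit 9217, nat_lit 9193, nat_lit 9201] (nat_lit 1) [nat_lit 15759, nat_lit 2639] false,
   Spec.mk (nat_lit 9201) (nat_lit 0) [nat_lit 4827, nat_lit 13575, nat_lit 7743, nat_lit 9687, nat_lit 9363, nat_lit 9147, nat_lit 9219, nat_lit 9195, nat_lit 9199] (nat_lit 0) [nat_lit 2641] false,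
   Spec.mk (nat_lit 9209) (nat_lit 0) [nat_lit 4835, nat_lit 13583, nat_lit 7751, nat_lit 9695, nat_lit 9371, nat_lit 9191, nat_lit 9211] (nat_lit 0) [nat_lit 15769] false,
   Spec.mk (nat_lit 9211) (nat_lit 0) [nat_lit 4837, nat_lit 13585, nat_lit 7753, nat_lit 9697, nat_lit 9373, nat_lit 9193, nat_lit 9217, nat_lit 9209, nat_lit 9213] (nat_lit 0) [nat_lit 15771, nat_lit 2651] false,
   Spec.mk (nat_lit 9213) (nat_lit 0) [nat_lit 4839, nat_lit 13587, nat_lit 7755, nat_lit 9699, nat_lit 9375, nat_lit 9195, nat_lit 9219, nat_lit 9211] (nat_lit 2) [nat_lit 2653] false,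
   Spec.mk (nat_lit 9217) (nat_lit 1) [nat_lit 4843, nat_lit 13591, nat_lit 7759, nat_lit 9703, nat_lit 9379, nat_lit 9199, nat_lit 9211, nat_lit 9219] (nat_lit 0) [nat_lit 15777, nat_lit 2657] false,
   Spec.mk (nat_lit 9219) (nat_lit 1) [nat_lit 4845, nat_lit 13593, nat_lit 7761, nat_lit 9705, nat_lit 9381, nat_lit 9201, nat_lit 9213, nat_lit 9225, nat_lit 9217] (nat_lit 0) [nat_lit 2659] false,
   Spec.mk (nat_lit 9225) (nat_lit 2) [nat_lit 4851, nat_lit 13599, nat_lit 7767, nat_lit 9711, nat_lit 9387, nat_lit 9219] (nat_lit 0) [nat_lit 2665] false,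
   Spec.mk (nat_lit 9251) (nat_lit 0) [nat_lit 4877, nat_lit 13625, nat_lit 7793, nat_lit 9737, nat_lit 9089, nat_lit 9269, nat_lit 9257] (nat_lit 0) [nat_lit 15811] false,
   Spec.mk (nat_lit 9257) (nat_lit 0) [nat_lit 4883, nat_lit 13631, nat_lit 7799, nat_lit 9743, nat_lit 9095, nat_lit 9275, nat_lit 9251, nat_lit 9259] (nat_lit 2) [nat_lit 15817] false,
   Spec.mk (nat_lit 9259) (nat_lit 0) [nat_lit 4885, nat_lit 13633, nat_lit 7801, nat_lit 9745, nat_lit 9097, nat_lit 9277, nat_lit 9257] (nat_lit 1) [nat_lit 15819, nat_lit 2699] false,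
   Spec.mk (nat_lit 9269) (nat_lit 0) [nat_lit 4895, nat_lit 13643, nat_lit 7811, nat_lit 9755, nat_lit 9107, nat_lit 9323, nat_lit 9251, nat_lit 9275] (nat_lit 2) [nat_lit 15829] false,
   Spec.mk (nat_lit 9275) (nat_lit 0) [nat_lit 4901, nat_lit 13649, nat_lit 7817, nat_lit 9761, nat_lit 9113, nat_lit 9329, nat_lit 9257, nat_lit 9293, nat_lit 9269, nat_lit 9281, nat_lit 9277] (nat_lit 2) [nat_lit 15835] false,
   Spec.mk (nat_lit 9277) (nat_lit 0) [nat_lit 4903, nat_lit 13651, nat_lit 7819, nat_lit 9763, nat_lit 9115, nat_lit 9331, nat_lit 9259, nat_lit 9295, nat_lit 9283, nat_lit 9275] (nat_lit 2) [nat_lit 15837, nat_lit 2717] false,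
   Spec.mk (nat_lit 9281) (nat_lit 0) [nat_lit 4907, nat_lit 13655, nat_lit 7823, nat_lit 9767, nat_lit 9119, nat_lit 9335, nat_lit 9299, nat_lit 9275, nat_lit 9283] (nat_lit 4) [nat_lit 15841] false,
   Spec.mk (nat_lit 9283) (nat_lit 0) [nat_lit 4909, nat_lit 13657, nat_lit 7825, nat_lit 9769, nat_lit 9121, nat_lit 9337, nat_lit 9301, nat_lit 9277, nat_lit 9281, nat_lit 9285] (nat_lit 2) [nat_lit 15843, nat_lit 2723] false,
   Spec.mk (nat_lit 9285) (nat_lit 0) [nat_lit 4911, nat_lit 13659, nat_lit 7827, nat_lit 9771, nat_lit 9123, nat_lit 9339, nat_lit 9303, nat_lit 9283] (nat_lit 2) [nat_lit 2725] false,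
   Spec.mk (nat_lit 9293) (nat_lit 0) [nat_lit 4919, nat_lit 13667, nat_lit 7835, nat_lit 9779, nat_lit 9131, nat_lit 9347, nat_lit 9275, nat_lit 9299, nat_lit 9295] (nat_lit 4) [nat_lit 15853] false,
   Spec.mk (nat_lit 9295) (nat_lit 0) [nat_lit 4921, nat_lit 13669, nat_lit 7837, nat_lit 9781, nat_lit 9133, nat_lit 9349, nat_lit 9277, nat_lit 9301, nat_lit 9293] (nat_lit 5) [nat_lit 15855, nat_lit 2735] false,
   Spec.mk (nat_lit 9299) (nat_lit 0) [nat_lit 4925, nat_lit 13673, nat_lit 7841, nat_lit 9785, nat_lit 9137, nat_lit 9353, nat_lit 9281, nat_lit 9293, nat_lit 9301] (nat_lit 4) [nat_lit 15859] false,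
   Spec.mk (nat_lit 9301) (nat_lit 0) [nat_lit 4927, nat_lit 13675, nat_lit 7843, nat_lit 9787, nat_lit 9139, nat_lit 9355, nat_lit 9283, nat_lit 9295, nat_lit 9307, nat_lit 9299, nat_lit 9303] (nat_lit 3) [nat_lit 15861, nat_lit 2741] false,
   Spec.mk (nat_lit 9303) (nat_lit 0) [nat_lit 4929, nat_lit 13677, nat_lit 7845, nat_lit 9789, nat_lit 9141, nat_lit 9357, nat_lit 9285, nat_lit 9309, nat_lit 9301] (nat_lit 4) [nat_lit 2743] false,
   Spec.mk (nat_lit 9307) (nat_lit 0) [nat_lit 4933, nat_lit 13681, nat_lit 7849, nat_lit 9793, nat_lit 9145, nat_lit 9361, nat_lit 9301, nat_lit 9309] (nat_lit 3) [nat_lit 15867, nat_lit 2747] false,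
   Spec.mk (nat_lit 9309) (nat_lit 0) [nat_lit 4935, nat_lit 13683, nat_lit 7851, nat_lit 9795, nat_lit 9147, nat_lit 9363, nat_lit 9303, nat_lit 9307] (nat_lit 2) [nat_lit 2749] false,
   Spec.mk (nat_lit 9323) (nat_lit 0) [nat_lit 4949, nat_lit 13697, nat_lit 7865, nat_lit 9809, nat_lit 9161, nat_lit 9269, nat_lit 9329] (nat_lit 0) [nat_lit 15883] false,
   Spec.mk (nat_lit 9329) (nat_lit 0) [nat_lit 4955, nat_lit 13703, nat_lit 7871, nat_lit 9815, nat_lit 9167, nat_lit 9275, nat_lit 9347, nat_lit 9323, nat_lit 9335, nat_lit 9331] (nat_lit 1) [nat_lit 15889] false,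
   Spec.mk (nat_lit 9331) (nat_lit 0) [nat_lit 4957, nat_lit 13705, nat_lit 7873, nat_lit 9817, nat_lit 9169, nat_lit 9277, nat_lit 9349, nat_lit 9337, nat_lit 9329] (nat_lit 1) [nat_lit 15891, nat_lit 2771] false,
   Spec.mk (nat_lit 9335) (nat_lit 0) [nat_lit 4961, nat_lit 13709, nat_lit 7877, nat_lit 9821, nat_lit 9173, nat_lit 9281, nat_lit 9353, nat_lit 9329, nat_lit 9337] (nat_lit 4) [nat_lit 15895] false,
   Spec.mk (nat_lit 9337) (nat_lit 0) [nat_lit 4963, nat_lit 13711, nat_lit 7879, nat_lit 9823, nat_lit 9175, nat_lit 9283, nat_lit 9355, nat_lit 9331, nat_lit 9335, nat_lit 9339] (nat_lit 2) [nat_lit 15897, nat_lit 2777] false,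
   Spec.mk (nat_lit 9339) (nat_lit 0) [nat_lit 4965, nat_lit 13713, nat_lit 7881, nat_lit 9825, nat_lit 9177, nat_lit 9285, nat_lit 9357, nat_lit 9337] (nat_lit 2) [nat_lit 2779] false,
   Spec.mk (nat_lit 9347) (nat_lit 0) [nat_lit 4973, nat_lit 13721, nat_lit 7889, nat_lit 9833, nat_lit 9185, nat_lit 9293, nat_lit 9401, nat_lit 9329, nat_lit 9353, nat_lit 9349] (nat_lit 1) [nat_lit 15907] false,
   Spec.mk (nat_lit 9349) (nat_lit 0) [nat_lit 4975, nat_lit 13723, nat_lit 7891, nat_lit 9835, nat_lit 9187, nat_lit 9295, nat_lit 9403, nat_lit 9331, nat_lit 9355, nat_lit 9347] (nat_lit 2) [nat_lit 15909, nat_lit 2789] false,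
   Spec.mk (nat_lit 9353) (nat_lit 0) [nat_lit 4979, nat_lit 13727, nat_lit 7895, nat_lit 9839, nat_lit 9191, nat_lit 9299, nat_lit 9407, nat_lit 9335, nat_lit 9371, nat_lit 9347, nat_lit 9355] (nat_lit 2) [nat_lit 15913] false,
   Spec.mk (nat_lit 9355) (nat_lit 0) [nat_lit 4981, nat_lit 13729, nat_lit 7897, nat_lit 9841, nat_lit 9193, nat_lit 9301, nat_lit 9409, nat_lit 9337, nat_lit 9373, nat_lit 9349, nat_lit 9361, nat_lit 9353, nat_lit 9357] (nat_lit 1) [nat_lit 15915, nat_lit 2795] false,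
   Spec.mk (nat_lit 9357) (nat_lit 0) [nat_lit 4983, nat_lit 13731, nat_lit 7899, nat_lit 9843, nat_lit 9195, nat_lit 9303, nat_lit 9411, nat_lit 9339, nat_lit 9375, nat_lit 9363, nat_lit 9355] (nat_lit 2) [nat_lit 2797] false,
   Spec.mk (nat_lit 9361) (nat_lit 0) [nat_lit 4987, nat_lit 13735, nat_lit 7903, nat_lit 9847, nat_lit 9199, nat_lit 9307, nat_lit 9415, nat_lit 9379, nat_lit 9355, nat_lit 9363] (nat_lit 2) [nat_lit 15921, nat_lit 2801] false,
   Spec.mk (nat_lit 9363) (nat_lit 0) [nat_lit 4989, nat_lit 13737, nat_lit 7905, nat_lit 9849, nat_lit 9201, nat_lit 9309, nat_lit 9417, nat_lit 9381, nat_lit 9357, nat_lit 9361] (nat_lit 1) [nat_lit 2803] false,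
   Spec.mk (nat_lit 9371) (nat_lit 0) [nat_lit 4997, nat_lit 13745, nat_lit 7913, nat_lit 9857, nat_lit 9209, nat_lit 9425, nat_lit 9353, nat_lit 9373] (nat_lit 2) [nat_lit 15931] false,
   Spec.mk (nat_lit 9373) (nat_lit 0) [nat_lit 4999, nat_lit 13747, nat_lit 7915, nat_lit 9859, nat_lit 9211, nat_lit 9427, nat_lit 9355, nat_lit 9379, nat_lit 9371, nat_lit 9375] (nat_lit 2) [nat_lit 15933, nat_lit 2813] false,
   Spec.mk (nat_lit 9375) (nat_lit 0) [nat_lit 5001, nat_lit 13749, nat_lit 7917, nat_lit 9861, nat_lit 9213, nat_lit 9429, nat_lit 9357, nat_lit 9381, nat_lit 9373] (nat_lit 4) [nat_lit 2815] false,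
   Spec.mk (nat_lit 9379) (nat_lit 0) [nat_lit 5005, nat_lit 13753, nat_lit 7921, nat_lit 9865, nat_lit 9217, nat_lit 9433, nat_lit 9361, nat_lit 9373, nat_lit 9381] (nat_lit 1) [nat_lit 15939, nat_lit 2819] false,
   Spec.mk (nat_lit 9381) (nat_lit 0) [nat_lit 5007, nat_lit 13755, nat_lit 7923, nat_lit 9867, nat_lit 9219, nat_lit 9435, nat_lit 9363, nat_lit 9375, nat_lit 9387, nat_lit 9379] (nat_lit 1) [nat_lit 2821] false,
   Spec.mk (nat_lit 9387) (nat_lit 0) [nat_lit 5013, nat_lit 13761, nat_lit 7929, nat_lit 9873, nat_lit 9225, nat_lit 9441, nat_lit 9381] (nat_lit 0) [nat_lit 2827] false,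
   Spec.mk (nat_lit 9401) (nat_lit 0) [nat_lit 5027, nat_lit 13775, nat_lit 7943, nat_lit 9887, nat_lit 9347, nat_lit 9407, nat_lit 9403] (nat_lit 0) [nat_lit 15961] false,
   Spec.mk (nat_lit 9403) (nat_lit 0) [nat_lit 5029, nat_lit 13777, nat_lit 7945, nat_lit 9889, nat_lit 9349, nat_lit 9409, nat_lit 9401] (nat_lit 1) [nat_lit 15963, nat_lit 2843] false,
   Spec.mk (nat_lit 9407) (nat_lit 0) [nat_lit 5033, nat_lit 13781, nat_lit 7949, nat_lit 9893, nat_lit 9353, nat_lit 9425, nat_lit 9401, nat_lit 9409] (nat_lit 2) [nat_lit 15967] false,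
   Spec.mk (nat_lit 9409) (nat_lit 0) [nat_lit 5035, nat_lit 13783, nat_lit 7951, nat_lit 9895, nat_lit 9355, nat_lit 9427, nat_lit 9403, nat_lit 9415, nat_lit 9407, nat_lit 9411] (nat_lit 1) [nat_lit 15969, nat_lit 2849] false,
   Spec.mk (nat_lit 9411) (nat_lit 0) [nat_lit 5037, nat_lit 13785, nat_lit 7953, nat_lit 9897, nat_lit 9357, nat_lit 9429, nat_lit 9417, nat_lit 9409] (nat_lit 2) [nat_lit 2851] false,
   Spec.mk (nat_lit 9415) (nat_lit 0) [nat_lit 5041, nat_lit 13789, nat_lit 7957, nat_lit 9901, nat_lit 9361, nat_lit 9433, nat_lit 9409, nat_lit 9417] (nat_lit 3) [nat_lit 15975, nat_lit 2855] false,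
   Spec.mk (nat_lit 9417) (nat_lit 0) [nat_lit 5043, nat_lit 13791, nat_lit 7959, nat_lit 9903, nat_lit 9363, nat_lit 9435, nat_lit 9411, nat_lit 9415] (nat_lit 2) [nat_lit 2857] false,
   Spec.mk (nat_lit 9425) (nat_lit 0) [nat_lit 5051, nat_lit 13799, nat_lit 7967, nat_lit 9911, nat_lit 9371, nat_lit 9407, nat_lit 9427] (nat_lit 0) [nat_lit 15985] false,
   Spec.mk (nat_lit 9427) (nat_lit 0) [nat_lit 5053, nat_lit 13801, nat_lit 7969, nat_lit 9913, nat_lit 9373, nat_lit 9409, nat_lit 9433, nat_lit 9425, nat_lit 9429] (nat_lit 0) [nat_lit 15987, nat_lit 2867] false,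
   Spec.mk (nat_lit 9429) (nat_lit 0) [nat_lit 5055, nat_lit 13803, nat_lit 7971, nat_lit 9915, nat_lit 9375, nat_lit 9411, nat_lit 9435, nat_lit 9427] (nat_lit 2) [nat_lit 2869] false,
   Spec.mk (nat_lit 9433) (nat_lit 0) [nat_lit 5059, nat_lit 13807, nat_lit 7975, nat_lit 9919, nat_lit 9379, nat_lit 9415, nat_lit 9451, nat_lit 9427, nat_lit 9435] (nat_lit 0) [nat_lit 15993, nat_lit 2873] false,
   Spec.mk (nat_lit 9435) (nat_lit 0) [nat_lit 5061, nat_lit 13809, nat_lit 7977, nat_lit 9921, nat_lit 9381, nat_lit 9417, nat_lit 9453, nat_lit 9429, nat_lit 9441, nat_lit 9433] (nat_lit 0) [nat_lit 2875] false,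
   Spec.mk (nat_lit 9441) (nat_lit 0) [nat_lit 5067, nat_lit 13815, nat_lit 7983, nat_lit 9927, nat_lit 9387, nat_lit 9459, nat_lit 9435] (nat_lit 0) [nat_lit 2881] false,
   Spec.mk (nat_lit 9451) (nat_lit 1) [nat_lit 5077, nat_lit 13825, nat_lit 7993, nat_lit 9937, nat_lit 9433, nat_lit 9453] (nat_lit 0) [nat_lit 16011, nat_lit 2891] false,
   Spec.mk (nat_lit 9453) (nat_lit 0) [nat_lit 5079, nat_lit 13827, nat_lit 7995, nat_lit 9939, nat_lit 9435, nat_lit 9459, nat_lit 9451] (nat_lit 0) [nat_lit 2893] false,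
   Spec.mk (nat_lit 9459) (nat_lit 2) [nat_lit 5085, nat_lit 13833, nat_lit 8001, nat_lit 9945, nat_lit 9441, nat_lit 9453] (nat_lit 0) [nat_lit 2899] false,
   Spec.mk (nat_lit 9503) (nat_lit 3) [nat_lit 5129, nat_lit 13877, nat_lit 8045, nat_lit 10961, nat_lit 9017, nat_lit 9521] (nat_lit 0) [nat_lit 16063] false]

noncomputable def sp25 : List Spec :=
  [Spec.mk (nat_lit 9521) (nat_lit 2) [nat_lit 5147, nat_lit 13895, nat_lit 8063, nat_lit 10979, nat_lit 9035, nat_lit 9575, nat_lit 9503, nat_lit 9539, nat_lit 9527] (nat_lit 0) [nat_lit 16081] false,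
   Spec.mk (nat_lit 9527) (nat_lit 1) [nat_lit 5153, nat_lit 13901, nat_lit 8069, nat_lit 10985, nat_lit 9041, nat_lit 9581, nat_lit 9545, nat_lit 9521, nat_lit 9529] (nat_lit 0) [nat_lit 16087] false,
   Spec.mk (nat_lit 9529) (nat_lit 2) [nat_lit 5155, nat_lit 13903, nat_lit 8071, nat_lit 10987, nat_lit 9043, nat_lit 9583, nat_lit 9547, nat_lit 9527] (nat_lit 0) [nat_lit 16089, nat_lit 2969] false,
   Spec.mk (nat_lit 9539) (nat_lit 0) [nat_lit 5165, nat_lit 13913, nat_lit 8081, nat_lit 10997, nat_lit 9053, nat_lit 9593, nat_lit 9521, nat_lit 9545] (nat_lit 1) [nat_lit 16099] false,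
   Spec.mk (nat_lit 9545) (nat_lit 0) [nat_lit 5171, nat_lit 13919, nat_lit 8087, nat_lit 11003, nat_lit 9059, nat_lit 9599, nat_lit 9527, nat_lit 9539, nat_lit 9551, nat_lit 9547] (nat_lit 0) [nat_lit 16105] false,
   Spec.mk (nat_lit 9547) (nat_lit 0) [nat_lit 5173, nat_lit 13921, nat_lit 8089, nat_lit 11005, nat_lit 9061, nat_lit 9601, nat_lit 9529, nat_lit 9553, nat_lit 9545] (nat_lit 0) [nat_lit 16107, nat_lit 2987] false,
   Spec.mk (nat_lit 9551) (nat_lit 0) [nat_lit 5177, nat_lit 13925, nat_lit 8093, nat_lit 11009, nat_lit 9065, nat_lit 9605, nat_lit 9545, nat_lit 9553] (nat_lit 1) [nat_lit 16111] false,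
   Spec.mk (nat_lit 9553) (nat_lit 1) [nat_lit 5179, nat_lit 13927, nat_lit 8095, nat_lit 11011, nat_lit 9067, nat_lit 9607, nat_lit 9547, nat_lit 9551, nat_lit 9555] (nat_lit 0) [nat_lit 16113, nat_lit 2993] false,
   Spec.mk (nat_lit 9555) (nat_lit 1) [nat_lit 5181, nat_lit 13929, nat_lit 8097, nat_lit 11013, nat_lit 9069, nat_lit 9609, nat_lit 9553] (nat_lit 0) [nat_lit 2995] false,
   Spec.mk (nat_lit 9575) (nat_lit 1) [nat_lit 5201, nat_lit 13949, nat_lit 8117, nat_lit 11033, nat_lit 9089, nat_lit 9737, nat_lit 9521, nat_lit 9593, nat_lit 9581] (nat_lit 0) [nat_lit 16135] false,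
   Spec.mk (nat_lit 9581) (nat_lit 0) [nat_lit 5207, nat_lit 13955, nat_lit 8123, nat_lit 11039, nat_lit 9095, nat_lit 9743, nat_lit 9527, nat_lit 9599, nat_lit 9575, nat_lit 9583] (nat_lit 1) [nat_lit 16141] false,
   Spec.mk (nat_lit 9583) (nat_lit 0) [nat_lit 5209, nat_lit 13957, nat_lit 8125, nat_lit 11041, nat_lit 9097, nat_lit 9745, nat_lit 9529, nat_lit 9601, nat_lit 9581] (nat_lit 0) [nat_lit 16143, nat_lit 3023] false,
   Spec.mk (nat_lit 9593) (nat_lit 0) [nat_lit 5219, nat_lit 13967, nat_lit 8135, nat_lit 11051, nat_lit 9107, nat_lit 9755, nat_lit 9539, nat_lit 9647, nat_lit 9575, nat_lit 9599] (nat_lit 0) [nat_lit 16153] false,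
   Spec.mk (nat_lit 9599) (nat_lit 0) [nat_lit 5225, nat_lit 13973, nat_lit 8141, nat_lit 11057, nat_lit 9113, nat_lit 9761, nat_lit 9545, nat_lit 9653, nat_lit 9581, nat_lit 9617, nat_lit 9593, nat_lit 9605, nat_lit 9601] (nat_lit 0) [nat_lit 16159] false,
   Spec.mk (nat_lit 9601) (nat_lit 0) [nat_lit 5227, nat_lit 13975, nat_lit 8143, nat_lit 11059, nat_lit 9115, nat_lit 9763, nat_lit 9547, nat_lit 9655, nat_lit 9583, nat_lit 9619, nat_lit 9607, nat_lit 9599] (nat_lit 0) [nat_lit 16161, nat_lit 3041] false,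
   Spec.mk (nat_lit 9605) (nat_lit 0) [nat_lit 5231, nat_lit 13979, nat_lit 8147, nat_lit 11063, nat_lit 9119, nat_lit 9767, nat_lit 9551, nat_lit 9659, nat_lit 9623, nat_lit 9599, nat_lit 9607] (nat_lit 2) [nat_lit 16165] false,
   Spec.mk (nat_lit 9607) (nat_lit 0) [nat_lit 5233, nat_lit 13981, nat_lit 8149, nat_lit 11065, nat_lit 9121, nat_lit 9769, nat_lit 9553, nat_lit 9661, nat_lit 9625, nat_lit 9601, nat_lit 9605, nat_lit 9609] (nat_lit 0) [nat_lit 16167, nat_lit 3047] false,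
   Spec.mk (nat_lit 9609) (nat_lit 0) [nat_lit 5235, nat_lit 13983, nat_lit 8151, nat_lit 11067, nat_lit 9123, nat_lit 9771, nat_lit 9555, nat_lit 9663, nat_lit 9627, nat_lit 9607] (nat_lit 0) [nat_lit 3049] false,
   Spec.mk (nat_lit 9617) (nat_lit 0) [nat_lit 5243, nat_lit 13991, nat_lit 8159, nat_lit 11075, nat_lit 9131, nat_lit 9779, nat_lit 9671, nat_lit 9599, nat_lit 9623, nat_lit 9619] (nat_lit 1) [nat_lit 16177] false,
   Spec.mk (nat_lit 9619) (nat_lit 0) [nat_lit 5245, nat_lit 13993, nat_lit 8161, nat_lit 11077, nat_lit 9133, nat_lit 9781, nat_lit 9673, nat_lit 9601, nat_lit 9625, nat_lit 9617] (nat_lit 2) [nat_lit 16179, nat_lit 3059] false,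
   Spec.mk (nat_lit 9623) (nat_lit 0) [nat_lit 5249, nat_lit 13997, nat_lit 8165, nat_lit 11081, nat_lit 9137, nat_lit 9785, nat_lit 9677, nat_lit 9605, nat_lit 9617, nat_lit 9625] (nat_lit 1) [nat_lit 16183] false,
   Spec.mk (nat_lit 9625) (nat_lit 0) [nat_lit 5251, nat_lit 13999, nat_lit 8167, nat_lit 11083, nat_lit 9139, nat_lit 9787, nat_lit 9679, nat_lit 9607, nat_lit 9619, nat_lit 9631, nat_lit 9623, nat_lit 9627] (nat_lit 0) [nat_lit 16185, nat_lit 3065] false,
   Spec.mk (nat_lit 9627) (nat_lit 0) [nat_lit 5253, nat_lit 14001, nat_lit 8169, nat_lit 11085, nat_lit 9141, nat_lit 9789, nat_lit 9681, nat_lit 9609, nat_lit 9633, nat_lit 9625] (nat_lit 1) [nat_lit 3067] false,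
   Spec.mk (nat_lit 9631) (nat_lit 0) [nat_lit 5257, nat_lit 14005, nat_lit 8173, nat_lit 11089, nat_lit 9145, nat_lit 9793, nat_lit 9685, nat_lit 9625, nat_lit 9633] (nat_lit 0) [nat_lit 16191, nat_lit 3071] false,
   Spec.mk (nat_lit 9633) (nat_lit 1) [nat_lit 5259, nat_lit 14007, nat_lit 8175, nat_lit 11091, nat_lit 9147, nat_lit 9795, nat_lit 9687, nat_lit 9627, nat_lit 9631] (nat_lit 0) [nat_lit 3073] false,
   Spec.mk (nat_lit 9647) (nat_lit 0) [nat_lit 5273, nat_lit 14021, nat_lit 8189, nat_lit 11105, nat_lit 9161, nat_lit 9809, nat_lit 9593, nat_lit 9653] (nat_lit 1) [nat_lit 16207] false,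
   Spec.mk (nat_lit 9653) (nat_lit 0) [nat_lit 5279, nat_lit 14027, nat_lit 8195, nat_lit 11111, nat_lit 9167, nat_lit 9815, nat_lit 9599, nat_lit 9671, nat_lit 9647, nat_lit 9659, nat_lit 9655] (nat_lit 2) [nat_lit 16213] false,
   Spec.mk (nat_lit 9655) (nat_lit 0) [nat_lit 5281, nat_lit 14029, nat_lit 8197, nat_lit 11113, nat_lit 9169, nat_lit 9817, nat_lit 9601, nat_lit 9673, nat_lit 9661, nat_lit 9653] (nat_lit 2) [nat_lit 16215, nat_lit 3095] false,
   Spec.mk (nat_lit 9659) (nat_lit 0) [nat_lit 5285, nat_lit 14033, nat_lit 8201, nat_lit 11117, nat_lit 9173, nat_lit 9821, nat_lit 9605, nat_lit 9677, nat_lit 9653, nat_lit 9661] (nat_lit 5) [nat_lit 16219] false,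
   Spec.mk (nat_lit 9661) (nat_lit 0) [nat_lit 5287, nat_lit 14035, nat_lit 8203, nat_lit 11119, nat_lit 9175, nat_lit 9823, nat_lit 9607, nat_lit 9679, nat_lit 9655, nat_lit 9659, nat_lit 9663] (nat_lit 3) [nat_lit 16221, nat_lit 3101] false,
   Spec.mk (nat_lit 9663) (nat_lit 0) [nat_lit 5289, nat_lit 14037, nat_lit 8205, nat_lit 11121, nat_lit 9177, nat_lit 9825, nat_lit 9609, nat_lit 9681, nat_lit 9661] (nat_lit 3) [nat_lit 3103] false,
   Spec.mk (nat_lit 9671) (nat_lit 0) [nat_lit 5297, nat_lit 14045, nat_lit 8213, nat_lit 11129, nat_lit 9185, nat_lit 9833, nat_lit 9617, nat_lit 9653, nat_lit 9677, nat_lit 9673] (nat_lit 1) [nat_lit 16231] false,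
   Spec.mk (nat_lit 9673) (nat_lit 0) [nat_lit 5299, nat_lit 14047, nat_lit 8215, nat_lit 11131, nat_lit 9187, nat_lit 9835, nat_lit 9619, nat_lit 9655, nat_lit 9679, nat_lit 9671] (nat_lit 2) [nat_lit 16233, nat_lit 3113] false,
   Spec.mk (nat_lit 9677) (nat_lit 0) [nat_lit 5303, nat_lit 14051, nat_lit 8219, nat_lit 11135, nat_lit 9191, nat_lit 9839, nat_lit 9623, nat_lit 9659, nat_lit 9695, nat_lit 9671, nat_lit 9679] (nat_lit 2) [nat_lit 16237] false,
   Spec.mk (nat_lit 9679) (nat_lit 0) [nat_lit 5305, nat_lit 14053, nat_lit 8221, nat_lit 11137, nat_lit 9193, nat_lit 9841, nat_lit 9625, nat_lit 9661, nat_lit 9697, nat_lit 9673, nat_lit 9685, nat_lit 9677, nat_lit 9681] (nat_lit 1) [nat_lit 16239, nat_lit 3119] false,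
   Spec.mk (nat_lit 9681) (nat_lit 0) [nat_lit 5307, nat_lit 14055, nat_lit 8223, nat_lit 11139, nat_lit 9195, nat_lit 9843, nat_lit 9627, nat_lit 9663, nat_lit 9699, nat_lit 9687, nat_lit 9679] (nat_lit 2) [nat_lit 3121] false,
   Spec.mk (nat_lit 9685) (nat_lit 0) [nat_lit 5311, nat_lit 14059, nat_lit 8227, nat_lit 11143, nat_lit 9199, nat_lit 9847, nat_lit 9631, nat_lit 9703, nat_lit 9679, nat_lit 9687] (nat_lit 2) [nat_lit 16245, nat_lit 3125] false,
   Spec.mk (nat_lit 9687) (nat_lit 0) [nat_lit 5313, nat_lit 14061, nat_lit 8229, nat_lit 11145, nat_lit 9201, nat_lit 9849, nat_lit 9633, nat_lit 9705, nat_lit 9681, nat_lit 9685] (nat_lit 1) [nat_lit 3127] false,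
   Spec.mk (nat_lit 9695) (nat_lit 0) [nat_lit 5321, nat_lit 14069, nat_lit 8237, nat_lit 11153, nat_lit 9209, nat_lit 9857, nat_lit 9677, nat_lit 9697] (nat_lit 1) [nat_lit 16255] false,
   Spec.mk (nat_lit 9697) (nat_lit 0) [nat_lit 5323, nat_lit 14071, nat_lit 8239, nat_lit 11155, nat_lit 9211, nat_lit 9859, nat_lit 9679, nat_lit 9703, nat_lit 9695, nat_lit 9699] (nat_lit 1) [nat_lit 16257, nat_lit 3137] false,
   Spec.mk (nat_lit 9699) (nat_lit 0) [nat_lit 5325, nat_lit 14073, nat_lit 8241, nat_lit 11157, nat_lit 9213, nat_lit 9861, nat_lit 9681, nat_lit 9705, nat_lit 9697] (nat_lit 3) [nat_lit 3139] false,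
   Spec.mk (nat_lit 9703) (nat_lit 0) [nat_lit 5329, nat_lit 14077, nat_lit 8245, nat_lit 11161, nat_lit 9217, nat_lit 9865, nat_lit 9685, nat_lit 9697, nat_lit 9705] (nat_lit 0) [nat_lit 16263, nat_lit 3143] false,
   Spec.mk (nat_lit 9705) (nat_lit 0) [nat_lit 5331, nat_lit 14079, nat_lit 8247, nat_lit 11163, nat_lit 9219, nat_lit 9867, nat_lit 9687, nat_lit 9699, nat_lit 9711, nat_lit 9703] (nat_lit 0) [nat_lit 3145] false,
   Spec.mk (nat_lit 9711) (nat_lit 1) [nat_lit 5337, nat_lit 14085, nat_lit 8253, nat_lit 11169, nat_lit 9225, nat_lit 9873, nat_lit 9705] (nat_lit 0) [nat_lit 3151] false,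
   Spec.mk (nat_lit 9737) (nat_lit 2) [nat_lit 5363, nat_lit 14111, nat_lit 8279, nat_lit 11195, nat_lit 9251, nat_lit 10223, nat_lit 9575, nat_lit 9755, nat_lit 9743] (nat_lit 0) [nat_lit 16297] false,
   Spec.mk (nat_lit 9743) (nat_lit 0) [nat_lit 5369, nat_lit 14117, nat_lit 8285, nat_lit 11201, nat_lit 9257, nat_lit 10229, nat_lit 9581, nat_lit 9761, nat_lit 9737, nat_lit 9745] (nat_lit 0) [nat_lit 16303] false,
   Spec.mk (nat_lit 9745) (nat_lit 1) [nat_lit 5371, nat_lit 14119, nat_lit 8287, nat_lit 11203, nat_lit 9259, nat_lit 10231, nat_lit 9583, nat_lit 9763, nat_lit 9743] (nat_lit 0) [nat_lit 16305, nat_lit 3185] false,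
   Spec.mk (nat_lit 9755) (nat_lit 0) [nat_lit 5381, nat_lit 14129, nat_lit 8297, nat_lit 11213, nat_lit 9269, nat_lit 10241, nat_lit 9593, nat_lit 9809, nat_lit 9737, nat_lit 9761] (nat_lit 0) [nat_lit 16315] false,
   Spec.mk (nat_lit 9761) (nat_lit 0) [nat_lit 5387, nat_lit 14135, nat_lit 8303, nat_lit 11219, nat_lit 9275, nat_lit 10247, nat_lit 9599, nat_lit 9815, nat_lit 9743, nat_lit 9779, nat_lit 9755, nat_lit 9767, nat_lit 9763] (nat_lit 0) [nat_lit 16321] false,
   Spec.mk (nat_lit 9763) (nat_lit 0) [nat_lit 5389, nat_lit 14137, nat_lit 8305, nat_lit 11221, nat_lit 9277, nat_lit 10249, nat_lit 9601, nat_lit 9817, nat_lit 9745, nat_lit 9781, nat_lit 9769, nat_lit 9761] (nat_lit 0) [nat_lit 16323, nat_lit 3203] false,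
   Spec.mk (nat_lit 9767) (nat_lit 0) [nat_lit 5393, nat_lit 14141, nat_lit 8309, nat_lit 11225, nat_lit 9281, nat_lit 10253, nat_lit 9605, nat_lit 9821, nat_lit 9785, nat_lit 9761, nat_lit 9769] (nat_lit 2) [nat_lit 16327] false,
   Spec.mk (nat_lit 9769) (nat_lit 0) [nat_lit 5395, nat_lit 14143, nat_lit 8311, nat_lit 11227, nat_lit 9283, nat_lit 10255, nat_lit 9607, nat_lit 9823, nat_lit 9787, nat_lit 9763, nat_lit 9767, nat_lit 9771] (nat_lit 0) [nat_lit 16329, nat_lit 3209] false,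
   Spec.mk (nat_lit 9771) (nat_lit 0) [nat_lit 5397, nat_lit 14145, nat_lit 8313, nat_lit 11229, nat_lit 9285, nat_lit 10257, nat_lit 9609, nat_lit 9825, nat_lit 9789, nat_lit 9769] (nat_lit 0) [nat_lit 3211] false,
   Spec.mk (nat_lit 9779) (nat_lit 0) [nat_lit 5405, nat_lit 14153, nat_lit 8321, nat_lit 11237, nat_lit 9293, nat_lit 10265, nat_lit 9617, nat_lit 9833, nat_lit 9761, nat_lit 9785, nat_lit 9781] (nat_lit 2) [nat_lit 16339] false,
   Spec.mk (nat_lit 9781) (nat_lit 0) [nat_lit 5407, nat_lit 14155, nat_lit 8323, nat_lit 11239, nat_lit 9295, nat_lit 10267, nat_lit 9619, nat_lit 9835, nat_lit 9763, nat_lit 9787, nat_lit 9779] (nat_lit 3) [nat_lit 16341, nat_lit 3221] false,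
   Spec.mk (nat_lit 9785) (nat_lit 0) [nat_lit 5411, nat_lit 14159, nat_lit 8327, nat_lit 11243, nat_lit 9299, nat_lit 10271, nat_lit 9623, nat_lit 9839, nat_lit 9767, nat_lit 9779, nat_lit 9787] (nat_lit 2) [nat_lit 16345] false,
   Spec.mk (nat_lit 9787) (nat_lit 0) [nat_lit 5413, nat_lit 14161, nat_lit 8329, nat_lit 11245, nat_lit 9301, nat_lit 10273, nat_lit 9625, nat_lit 9841, nat_lit 9769, nat_lit 9781, nat_lit 9793, nat_lit 9785, nat_lit 9789] (nat_lit 1) [nat_lit 16347, nat_lit 3227] false,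
   Spec.mk (nat_lit 9789) (nat_lit 0) [nat_lit 5415, nat_lit 14163, nat_lit 8331, nat_lit 11247, nat_lit 9303, nat_lit 10275, nat_lit 9627, nat_lit 9843, nat_lit 9771, nat_lit 9795, nat_lit 9787] (nat_lit 2) [nat_lit 3229] false,
   Spec.mk (nat_lit 9793) (nat_lit 0) [nat_lit 5419, nat_lit 14167, nat_lit 8335, nat_lit 11251, nat_lit 9307, nat_lit 10279, nat_lit 9631, nat_lit 9847, nat_lit 9787, nat_lit 9795] (nat_lit 1) [nat_lit 16353, nat_lit 3233] false,
   Spec.mk (nat_lit 9795) (nat_lit 0) [nat_lit 5421, nat_lit 14169, nat_lit 8337, nat_lit 11253, nat_lit 9309, nat_lit 10281, nat_lit 9633, nat_lit 9849, nat_lit 9789, nat_lit 9793] (nat_lit 0) [nat_lit 3235] false]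

noncomputable def sp26 : List Spec :=
  [Spec.mk (nat_lit 9809) (nat_lit 1) [nat_lit 5435, nat_lit 14183, nat_lit 8351, nat_lit 11267, nat_lit 9323, nat_lit 10295, nat_lit 9647, nat_lit 9971, nat_lit 9755, nat_lit 9815] (nat_lit 0) [nat_lit 16369] false,
   Spec.mk (nat_lit 9815) (nat_lit 0) [nat_lit 5441, nat_lit 14189, nat_lit 8357, nat_lit 11273, nat_lit 9329, nat_lit 10301, nat_lit 9653, nat_lit 9977, nat_lit 9761, nat_lit 9833, nat_lit 9809, nat_lit 9821, nat_lit 9817] (nat_lit 0) [nat_lit 16375] false,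
   Spec.mk (nat_lit 9817) (nat_lit 0) [nat_lit 5443, nat_lit 14191, nat_lit 8359, nat_lit 11275, nat_lit 9331, nat_lit 10303, nat_lit 9655, nat_lit 9979, nat_lit 9763, nat_lit 9835, nat_lit 9823, nat_lit 9815] (nat_lit 0) [nat_lit 16377, nat_lit 3257] false,
   Spec.mk (nat_lit 9821) (nat_lit 0) [nat_lit 5447, nat_lit 14195, nat_lit 8363, nat_lit 11279, nat_lit 9335, nat_lit 10307, nat_lit 9659, nat_lit 9983, nat_lit 9767, nat_lit 9839, nat_lit 9815, nat_lit 9823] (nat_lit 3) [nat_lit 16381] false,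
   Spec.mk (nat_lit 9823) (nat_lit 0) [nat_lit 5449, nat_lit 14197, nat_lit 8365, nat_lit 11281, nat_lit 9337, nat_lit 10309, nat_lit 9661, nat_lit 9985, nat_lit 9769, nat_lit 9841, nat_lit 9817, nat_lit 9821, nat_lit 9825] (nat_lit 1) [nat_lit 16383, nat_lit 3263] false,
   Spec.mk (nat_lit 9825) (nat_lit 0) [nat_lit 5451, nat_lit 14199, nat_lit 8367, nat_lit 11283, nat_lit 9339, nat_lit 10311, nat_lit 9663, nat_lit 9987, nat_lit 9771, nat_lit 9843, nat_lit 9823] (nat_lit 1) [nat_lit 3265] false,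
   Spec.mk (nat_lit 9833) (nat_lit 0) [nat_lit 5459, nat_lit 14207, nat_lit 8375, nat_lit 11291, nat_lit 9347, nat_lit 10319, nat_lit 9671, nat_lit 9995, nat_lit 9779, nat_lit 9887, nat_lit 9815, nat_lit 9839, nat_lit 9835] (nat_lit 0) [nat_lit 16393] false,
   Spec.mk (nat_lit 9835) (nat_lit 0) [nat_lit 5461, nat_lit 14209, nat_lit 8377, nat_lit 11293, nat_lit 9349, nat_lit 10321, nat_lit 9673, nat_lit 9997, nat_lit 9781, nat_lit 9889, nat_lit 9817, nat_lit 9841, nat_lit 9833] (nat_lit 1) [nat_lit 16395, nat_lit 3275] false,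
   Spec.mk (nat_lit 9839) (nat_lit 0) [nat_lit 5465, nat_lit 14213, nat_lit 8381, nat_lit 11297, nat_lit 9353, nat_lit 10325, nat_lit 9677, nat_lit 10001, nat_lit 9785, nat_lit 9893, nat_lit 9821, nat_lit 9857, nat_lit 9833, nat_lit 9841] (nat_lit 1) [nat_lit 16399] false,
   Spec.mk (nat_lit 9841) (nat_lit 0) [nat_lit 5467, nat_lit 14215, nat_lit 8383, nat_lit 11299, nat_lit 9355, nat_lit 10327, nat_lit 9679, nat_lit 10003, nat_lit 9787, nat_lit 9895, nat_lit 9823, nat_lit 9859, nat_lit 9835, nat_lit 9847, nat_lit 9839, nat_lit 9843] (nat_lit 0) [nat_lit 16401, nat_lit 3281] true,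
   Spec.mk (nat_lit 9843) (nat_lit 0) [nat_lit 5469, nat_lit 14217, nat_lit 8385, nat_lit 11301, nat_lit 9357, nat_lit 10329, nat_lit 9681, nat_lit 10005, nat_lit 9789, nat_lit 9897, nat_lit 9825, nat_lit 9861, nat_lit 9849, nat_lit 9841] (nat_lit 1) [nat_lit 3283] false,
   Spec.mk (nat_lit 9847) (nat_lit 0) [nat_lit 5473, nat_lit 14221, nat_lit 8389, nat_lit 11305, nat_lit 9361, nat_lit 10333, nat_lit 9685, nat_lit 10009, nat_lit 9793, nat_lit 9901, nat_lit 9865, nat_lit 9841, nat_lit 9849] (nat_lit 1) [nat_lit 16407, nat_lit 3287] false,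
   Spec.mk (nat_lit 9849) (nat_lit 0) [nat_lit 5475, nat_lit 14223, nat_lit 8391, nat_lit 11307, nat_lit 9363, nat_lit 10335, nat_lit 9687, nat_lit 10011, nat_lit 9795, nat_lit 9903, nat_lit 9867, nat_lit 9843, nat_lit 9847] (nat_lit 0) [nat_lit 3289] false,
   Spec.mk (nat_lit 9857) (nat_lit 0) [nat_lit 5483, nat_lit 14231, nat_lit 8399, nat_lit 11315, nat_lit 9371, nat_lit 10343, nat_lit 9695, nat_lit 10019, nat_lit 9911, nat_lit 9839, nat_lit 9859] (nat_lit 1) [nat_lit 16417] false,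
   Spec.mk (nat_lit 9859) (nat_lit 0) [nat_lit 5485, nat_lit 14233, nat_lit 8401, nat_lit 11317, nat_lit 9373, nat_lit 10345, nat_lit 9697, nat_lit 10021, nat_lit 9913, nat_lit 9841, nat_lit 9865, nat_lit 9857, nat_lit 9861] (nat_lit 1) [nat_lit 16419, nat_lit 3299] false,
   Spec.mk (nat_lit 9861) (nat_lit 0) [nat_lit 5487, nat_lit 14235, nat_lit 8403, nat_lit 11319, nat_lit 9375, nat_lit 10347, nat_lit 9699, nat_lit 10023, nat_lit 9915, nat_lit 9843, nat_lit 9867, nat_lit 9859] (nat_lit 3) [nat_lit 3301] false,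
   Spec.mk (nat_lit 9865) (nat_lit 0) [nat_lit 5491, nat_lit 14239, nat_lit 8407, nat_lit 11323, nat_lit 9379, nat_lit 10351, nat_lit 9703, nat_lit 10027, nat_lit 9919, nat_lit 9847, nat_lit 9859, nat_lit 9867] (nat_lit 0) [nat_lit 16425, nat_lit 3305] false,
   Spec.mk (nat_lit 9867) (nat_lit 0) [nat_lit 5493, nat_lit 14241, nat_lit 8409, nat_lit 11325, nat_lit 9381, nat_lit 10353, nat_lit 9705, nat_lit 10029, nat_lit 9921, nat_lit 9849, nat_lit 9861, nat_lit 9873, nat_lit 9865] (nat_lit 0) [nat_lit 3307] false,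
   Spec.mk (nat_lit 9873) (nat_lit 1) [nat_lit 5499, nat_lit 14247, nat_lit 8415, nat_lit 11331, nat_lit 9387, nat_lit 10359, nat_lit 9711, nat_lit 10035, nat_lit 9927, nat_lit 9867] (nat_lit 0) [nat_lit 3313] false,
   Spec.mk (nat_lit 9887) (nat_lit 0) [nat_lit 5513, nat_lit 14261, nat_lit 8429, nat_lit 11345, nat_lit 9401, nat_lit 10373, nat_lit 10049, nat_lit 9833, nat_lit 9893, nat_lit 9889] (nat_lit 0) [nat_lit 16447] false,
   Spec.mk (nat_lit 9889) (nat_lit 0) [nat_lit 5515, nat_lit 14263, nat_lit 8431, nat_lit 11347, nat_lit 9403, nat_lit 10375, nat_lit 10051, nat_lit 9835, nat_lit 9895, nat_lit 9887] (nat_lit 1) [nat_lit 16449, nat_lit 3329] false,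
   Spec.mk (nat_lit 9893) (nat_lit 0) [nat_lit 5519, nat_lit 14267, nat_lit 8435, nat_lit 11351, nat_lit 9407, nat_lit 10379, nat_lit 10055, nat_lit 9839, nat_lit 9911, nat_lit 9887, nat_lit 9895] (nat_lit 2) [nat_lit 16453] false,
   Spec.mk (nat_lit 9895) (nat_lit 0) [nat_lit 5521, nat_lit 14269, nat_lit 8437, nat_lit 11353, nat_lit 9409, nat_lit 10381, nat_lit 10057, nat_lit 9841, nat_lit 9913, nat_lit 9889, nat_lit 9901, nat_lit 9893, nat_lit 9897] (nat_lit 1) [nat_lit 16455, nat_lit 3335] false,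
   Spec.mk (nat_lit 9897) (nat_lit 0) [nat_lit 5523, nat_lit 14271, nat_lit 8439, nat_lit 11355, nat_lit 9411, nat_lit 10383, nat_lit 10059, nat_lit 9843, nat_lit 9915, nat_lit 9903, nat_lit 9895] (nat_lit 2) [nat_lit 3337] false,
   Spec.mk (nat_lit 9901) (nat_lit 0) [nat_lit 5527, nat_lit 14275, nat_lit 8443, nat_lit 11359, nat_lit 9415, nat_lit 10387, nat_lit 10063, nat_lit 9847, nat_lit 9919, nat_lit 9895, nat_lit 9903] (nat_lit 3) [nat_lit 16461, nat_lit 3341] false,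
   Spec.mk (nat_lit 9903) (nat_lit 0) [nat_lit 5529, nat_lit 14277, nat_lit 8445, nat_lit 11361, nat_lit 9417, nat_lit 10389, nat_lit 10065, nat_lit 9849, nat_lit 9921, nat_lit 9897, nat_lit 9901] (nat_lit 2) [nat_lit 3343] false,
   Spec.mk (nat_lit 9911) (nat_lit 0) [nat_lit 5537, nat_lit 14285, nat_lit 8453, nat_lit 11369, nat_lit 9425, nat_lit 10397, nat_lit 10073, nat_lit 9857, nat_lit 9893, nat_lit 9913] (nat_lit 0) [nat_lit 16471] false,
   Spec.mk (nat_lit 9913) (nat_lit 0) [nat_lit 5539, nat_lit 14287, nat_lit 8455, nat_lit 11371, nat_lit 9427, nat_lit 10399, nat_lit 10075, nat_lit 9859, nat_lit 9895, nat_lit 9919, nat_lit 9911, nat_lit 9915] (nat_lit 0) [nat_lit 16473, nat_lit 3353] false,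
   Spec.mk (nat_lit 9915) (nat_lit 0) [nat_lit 5541, nat_lit 14289, nat_lit 8457, nat_lit 11373, nat_lit 9429, nat_lit 10401, nat_lit 10077, nat_lit 9861, nat_lit 9897, nat_lit 9921, nat_lit 9913] (nat_lit 2) [nat_lit 3355] false,
   Spec.mk (nat_lit 9919) (nat_lit 0) [nat_lit 5545, nat_lit 14293, nat_lit 8461, nat_lit 11377, nat_lit 9433, nat_lit 10405, nat_lit 10081, nat_lit 9865, nat_lit 9901, nat_lit 9937, nat_lit 9913, nat_lit 9921] (nat_lit 0) [nat_lit 16479, nat_lit 3359] false,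
   Spec.mk (nat_lit 9921) (nat_lit 0) [nat_lit 5547, nat_lit 14295, nat_lit 8463, nat_lit 11379, nat_lit 9435, nat_lit 10407, nat_lit 10083, nat_lit 9867, nat_lit 9903, nat_lit 9939, nat_lit 9915, nat_lit 9927, nat_lit 9919] (nat_lit 0) [nat_lit 3361] false,
   Spec.mk (nat_lit 9927) (nat_lit 0) [nat_lit 5553, nat_lit 14301, nat_lit 8469, nat_lit 11385, nat_lit 9441, nat_lit 10413, nat_lit 10089, nat_lit 9873, nat_lit 9945, nat_lit 9921] (nat_lit 0) [nat_lit 3367] false,
   Spec.mk (nat_lit 9937) (nat_lit 1) [nat_lit 5563, nat_lit 14311, nat_lit 8479, nat_lit 11395, nat_lit 9451, nat_lit 10423, nat_lit 10099, nat_lit 9919, nat_lit 9939] (nat_lit 0) [nat_lit 16497, nat_lit 3377] false,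
   Spec.mk (nat_lit 9939) (nat_lit 0) [nat_lit 5565, nat_lit 14313, nat_lit 8481, nat_lit 11397, nat_lit 9453, nat_lit 10425, nat_lit 10101, nat_lit 9921, nat_lit 9945, nat_lit 9937] (nat_lit 0) [nat_lit 3379] false,
   Spec.mk (nat_lit 9945) (nat_lit 2) [nat_lit 5571, nat_lit 14319, nat_lit 8487, nat_lit 11403, nat_lit 9459, nat_lit 10431, nat_lit 10107, nat_lit 9927, nat_lit 9939] (nat_lit 0) [nat_lit 3385] false,
   Spec.mk (nat_lit 9971) (nat_lit 1) [nat_lit 5597, nat_lit 14345, nat_lit 8513, nat_lit 11429, nat_lit 10457, nat_lit 9809, nat_lit 9977] (nat_lit 0) [nat_lit 16531] false,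
   Spec.mk (nat_lit 9977) (nat_lit 0) [nat_lit 5603, nat_lit 14351, nat_lit 8519, nat_lit 11435, nat_lit 10463, nat_lit 9815, nat_lit 9995, nat_lit 9971, nat_lit 9983, nat_lit 9979] (nat_lit 0) [nat_lit 16537] false,
   Spec.mk (nat_lit 9979) (nat_lit 0) [nat_lit 5605, nat_lit 14353, nat_lit 8521, nat_lit 11437, nat_lit 10465, nat_lit 9817, nat_lit 9997, nat_lit 9985, nat_lit 9977] (nat_lit 0) [nat_lit 16539, nat_lit 3419] false,
   Spec.mk (nat_lit 9983) (nat_lit 0) [nat_lit 5609, nat_lit 14357, nat_lit 8525, nat_lit 11441, nat_lit 10469, nat_lit 9821, nat_lit 10001, nat_lit 9977, nat_lit 9985] (nat_lit 3) [nat_lit 16543] false,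
   Spec.mk (nat_lit 9985) (nat_lit 0) [nat_lit 5611, nat_lit 14359, nat_lit 8527, nat_lit 11443, nat_lit 10471, nat_lit 9823, nat_lit 10003, nat_lit 9979, nat_lit 9983, nat_lit 9987] (nat_lit 1) [nat_lit 16545, nat_lit 3425] false,
   Spec.mk (nat_lit 9987) (nat_lit 0) [nat_lit 5613, nat_lit 14361, nat_lit 8529, nat_lit 11445, nat_lit 10473, nat_lit 9825, nat_lit 10005, nat_lit 9985] (nat_lit 1) [nat_lit 3427] false,
   Spec.mk (nat_lit 9995) (nat_lit 0) [nat_lit 5621, nat_lit 14369, nat_lit 8537, nat_lit 11453, nat_lit 10481, nat_lit 9833, nat_lit 10049, nat_lit 9977, nat_lit 10001, nat_lit 9997] (nat_lit 1) [nat_lit 16555] false,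
   Spec.mk (nat_lit 9997) (nat_lit 0) [nat_lit 5623, nat_lit 14371, nat_lit 8539, nat_lit 11455, nat_lit 10483, nat_lit 9835, nat_lit 10051, nat_lit 9979, nat_lit 10003, nat_lit 9995] (nat_lit 2) [nat_lit 16557, nat_lit 3437] false,
   Spec.mk (nat_lit 10001) (nat_lit 0) [nat_lit 5627, nat_lit 14375, nat_lit 8543, nat_lit 11459, nat_lit 10487, nat_lit 9839, nat_lit 10055, nat_lit 9983, nat_lit 10019, nat_lit 9995, nat_lit 10003] (nat_lit 2) [nat_lit 16561] false,
   Spec.mk (nat_lit 10003) (nat_lit 0) [nat_lit 5629, nat_lit 14377, nat_lit 8545, nat_lit 11461, nat_lit 10489, nat_lit 9841, nat_lit 10057, nat_lit 9985, nat_lit 10021, nat_lit 9997, nat_lit 10009, nat_lit 10001, nat_lit 10005] (nat_lit 1) [nat_lit 16563, nat_lit 3443] false,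
   Spec.mk (nat_lit 10005) (nat_lit 0) [nat_lit 5631, nat_lit 14379, nat_lit 8547, nat_lit 11463, nat_lit 10491, nat_lit 9843, nat_lit 10059, nat_lit 9987, nat_lit 10023, nat_lit 10011, nat_lit 10003] (nat_lit 2) [nat_lit 3445] false,
   Spec.mk (nat_lit 10009) (nat_lit 0) [nat_lit 5635, nat_lit 14383, nat_lit 8551, nat_lit 11467, nat_lit 10495, nat_lit 9847, nat_lit 10063, nat_lit 10027, nat_lit 10003, nat_lit 10011] (nat_lit 2) [nat_lit 16569, nat_lit 3449] false,
   Spec.mk (nat_lit 10011) (nat_lit 0) [nat_lit 5637, nat_lit 14385, nat_lit 8553, nat_lit 11469, nat_lit 10497, nat_lit 9849, nat_lit 10065, nat_lit 10029, nat_lit 10005, nat_lit 10009] (nat_lit 1) [nat_lit 3451] false,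
   Spec.mk (nat_lit 10019) (nat_lit 0) [nat_lit 5645, nat_lit 14393, nat_lit 8561, nat_lit 11477, nat_lit 10505, nat_lit 9857, nat_lit 10073, nat_lit 10001, nat_lit 10021] (nat_lit 3) [nat_lit 16579] false,
   Spec.mk (nat_lit 10021) (nat_lit 0) [nat_lit 5647, nat_lit 14395, nat_lit 8563, nat_lit 11479, nat_lit 10507, nat_lit 9859, nat_lit 10075, nat_lit 10003, nat_lit 10027, nat_lit 10019, nat_lit 10023] (nat_lit 3) [nat_lit 16581, nat_lit 3461] false,
   Spec.mk (nat_lit 10023) (nat_lit 0) [nat_lit 5649, nat_lit 14397, nat_lit 8565, nat_lit 11481, nat_lit 10509, nat_lit 9861, nat_lit 10077, nat_lit 10005, nat_lit 10029, nat_lit 10021] (nat_lit 5) [nat_lit 3463] false,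
   Spec.mk (nat_lit 10027) (nat_lit 0) [nat_lit 5653, nat_lit 14401, nat_lit 8569, nat_lit 11485, nat_lit 10513, nat_lit 9865, nat_lit 10081, nat_lit 10009, nat_lit 10021, nat_lit 10029] (nat_lit 2) [nat_lit 16587, nat_lit 3467] false,
   Spec.mk (nat_lit 10029) (nat_lit 0) [nat_lit 5655, nat_lit 14403, nat_lit 8571, nat_lit 11487, nat_lit 10515, nat_lit 9867, nat_lit 10083, nat_lit 10011, nat_lit 10023, nat_lit 10035, nat_lit 10027] (nat_lit 2) [nat_lit 3469] false,
   Spec.mk (nat_lit 10035) (nat_lit 0) [nat_lit 5661, nat_lit 14409, nat_lit 8577, nat_lit 11493, nat_lit 10521, nat_lit 9873, nat_lit 10089, nat_lit 10029] (nat_lit 1) [nat_lit 3475] false,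
   Spec.mk (nat_lit 10049) (nat_lit 1) [nat_lit 5675, nat_lit 14423, nat_lit 8591, nat_lit 11507, nat_lit 10535, nat_lit 9887, nat_lit 9995, nat_lit 10055, nat_lit 10051] (nat_lit 0) [nat_lit 16609] false,
   Spec.mk (nat_lit 10051) (nat_lit 0) [nat_lit 5677, nat_lit 14425, nat_lit 8593, nat_lit 11509, nat_lit 10537, nat_lit 9889, nat_lit 9997, nat_lit 10057, nat_lit 10049] (nat_lit 0) [nat_lit 16611, nat_lit 3491] false,
   Spec.mk (nat_lit 10055) (nat_lit 0) [nat_lit 5681, nat_lit 14429, nat_lit 8597, nat_lit 11513, nat_lit 10541, nat_lit 9893, nat_lit 10001, nat_lit 10073, nat_lit 10049, nat_lit 10057] (nat_lit 1) [nat_lit 16615] false,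
   Spec.mk (nat_lit 10057) (nat_lit 0) [nat_lit 5683, nat_lit 14431, nat_lit 8599, nat_lit 11515, nat_lit 10543, nat_lit 9895, nat_lit 10003, nat_lit 10075, nat_lit 10051, nat_lit 10063, nat_lit 10055, nat_lit 10059] (nat_lit 0) [nat_lit 16617, nat_lit 3497] false,
   Spec.mk (nat_lit 10059) (nat_lit 0) [nat_lit 5685, nat_lit 14433, nat_lit 8601, nat_lit 11517, nat_lit 10545, nat_lit 9897, nat_lit 10005, nat_lit 10077, nat_lit 10065, nat_lit 10057] (nat_lit 1) [nat_lit 3499] false,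
   Spec.mk (nat_lit 10063) (nat_lit 0) [nat_lit 5689, nat_lit 14437, nat_lit 8605, nat_lit 11521, nat_lit 10549, nat_lit 9901, nat_lit 10009, nat_lit 10081, nat_lit 10057, nat_lit 10065] (nat_lit 2) [nat_lit 16623, nat_lit 3503] false]

noncomputable def sp27 : List Spec :=
  [Spec.mk (nat_lit 10065) (nat_lit 0) [nat_lit 5691, nat_lit 14439, nat_lit 8607, nat_lit 11523, nat_lit 10551, nat_lit 9903, nat_lit 10011, nat_lit 10083, nat_lit 10059, nat_lit 10063] (nat_lit 1) [nat_lit 3505] false,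
   Spec.mk (nat_lit 10073) (nat_lit 0) [nat_lit 5699, nat_lit 14447, nat_lit 8615, nat_lit 11531, nat_lit 10559, nat_lit 9911, nat_lit 10019, nat_lit 10127, nat_lit 10055, nat_lit 10075] (nat_lit 0) [nat_lit 16633] false,
   Spec.mk (nat_lit 10075) (nat_lit 0) [nat_lit 5701, nat_lit 14449, nat_lit 8617, nat_lit 11533, nat_lit 10561, nat_lit 9913, nat_lit 10021, nat_lit 10129, nat_lit 10057, nat_lit 10081, nat_lit 10073, nat_lit 10077] (nat_lit 0) [nat_lit 16635, nat_lit 3515] false,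
   Spec.mk (nat_lit 10077) (nat_lit 0) [nat_lit 5703, nat_lit 14451, nat_lit 8619, nat_lit 11535, nat_lit 10563, nat_lit 9915, nat_lit 10023, nat_lit 10131, nat_lit 10059, nat_lit 10083, nat_lit 10075] (nat_lit 2) [nat_lit 3517] false,
   Spec.mk (nat_lit 10081) (nat_lit 0) [nat_lit 5707, nat_lit 14455, nat_lit 8623, nat_lit 11539, nat_lit 10567, nat_lit 9919, nat_lit 10027, nat_lit 10135, nat_lit 10063, nat_lit 10099, nat_lit 10075, nat_lit 10083] (nat_lit 0) [nat_lit 16641, nat_lit 3521] false,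
   Spec.mk (nat_lit 10083) (nat_lit 0) [nat_lit 5709, nat_lit 14457, nat_lit 8625, nat_lit 11541, nat_lit 10569, nat_lit 9921, nat_lit 10029, nat_lit 10137, nat_lit 10065, nat_lit 10101, nat_lit 10077, nat_lit 10089, nat_lit 10081] (nat_lit 0) [nat_lit 3523] false,
   Spec.mk (nat_lit 10089) (nat_lit 0) [nat_lit 5715, nat_lit 14463, nat_lit 8631, nat_lit 11547, nat_lit 10575, nat_lit 9927, nat_lit 10035, nat_lit 10143, nat_lit 10107, nat_lit 10083] (nat_lit 0) [nat_lit 3529] false,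
   Spec.mk (nat_lit 10099) (nat_lit 0) [nat_lit 5725, nat_lit 14473, nat_lit 8641, nat_lit 11557, nat_lit 10585, nat_lit 9937, nat_lit 10153, nat_lit 10081, nat_lit 10101] (nat_lit 0) [nat_lit 16659, nat_lit 3539] false,
   Spec.mk (nat_lit 10101) (nat_lit 0) [nat_lit 5727, nat_lit 14475, nat_lit 8643, nat_lit 11559, nat_lit 10587, nat_lit 9939, nat_lit 10155, nat_lit 10083, nat_lit 10107, nat_lit 10099] (nat_lit 1) [nat_lit 3541] false,
   Spec.mk (nat_lit 10107) (nat_lit 1) [nat_lit 5733, nat_lit 14481, nat_lit 8649, nat_lit 11565, nat_lit 10593, nat_lit 9945, nat_lit 10161, nat_lit 10089, nat_lit 10101] (nat_lit 0) [nat_lit 3547] false,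
   Spec.mk (nat_lit 10127) (nat_lit 1) [nat_lit 5753, nat_lit 14501, nat_lit 8669, nat_lit 11585, nat_lit 10613, nat_lit 10073, nat_lit 10129] (nat_lit 0) [nat_lit 16687] false,
   Spec.mk (nat_lit 10129) (nat_lit 1) [nat_lit 5755, nat_lit 14503, nat_lit 8671, nat_lit 11587, nat_lit 10615, nat_lit 10075, nat_lit 10135, nat_lit 10127, nat_lit 10131] (nat_lit 0) [nat_lit 16689, nat_lit 3569] false,
   Spec.mk (nat_lit 10131) (nat_lit 0) [nat_lit 5757, nat_lit 14505, nat_lit 8673, nat_lit 11589, nat_lit 10617, nat_lit 10077, nat_lit 10137, nat_lit 10129] (nat_lit 1) [nat_lit 3571] false,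
   Spec.mk (nat_lit 10135) (nat_lit 0) [nat_lit 5761, nat_lit 14509, nat_lit 8677, nat_lit 11593, nat_lit 10621, nat_lit 10081, nat_lit 10153, nat_lit 10129, nat_lit 10137] (nat_lit 0) [nat_lit 16695, nat_lit 3575] false,
   Spec.mk (nat_lit 10137) (nat_lit 0) [nat_lit 5763, nat_lit 14511, nat_lit 8679, nat_lit 11595, nat_lit 10623, nat_lit 10083, nat_lit 10155, nat_lit 10131, nat_lit 10143, nat_lit 10135] (nat_lit 0) [nat_lit 3577] false,
   Spec.mk (nat_lit 10143) (nat_lit 0) [nat_lit 5769, nat_lit 14517, nat_lit 8685, nat_lit 11601, nat_lit 10629, nat_lit 10089, nat_lit 10161, nat_lit 10137] (nat_lit 1) [nat_lit 3583] false,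
   Spec.mk (nat_lit 10153) (nat_lit 2) [nat_lit 5779, nat_lit 14527, nat_lit 8695, nat_lit 11611, nat_lit 10639, nat_lit 10099, nat_lit 10135, nat_lit 10155] (nat_lit 0) [nat_lit 16713, nat_lit 3593] false,
   Spec.mk (nat_lit 10155) (nat_lit 1) [nat_lit 5781, nat_lit 14529, nat_lit 8697, nat_lit 11613, nat_lit 10641, nat_lit 10101, nat_lit 10137, nat_lit 10161, nat_lit 10153] (nat_lit 0) [nat_lit 3595] false,
   Spec.mk (nat_lit 10161) (nat_lit 2) [nat_lit 5787, nat_lit 14535, nat_lit 8703, nat_lit 11619, nat_lit 10647, nat_lit 10107, nat_lit 10143, nat_lit 10179, nat_lit 10155] (nat_lit 0) [nat_lit 3601] false,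
   Spec.mk (nat_lit 10179) (nat_lit 3) [nat_lit 5805, nat_lit 14553, nat_lit 8721, nat_lit 11637, nat_lit 10665, nat_lit 10161] (nat_lit 0) [nat_lit 3619] false,
   Spec.mk (nat_lit 10223) (nat_lit 2) [nat_lit 5849, nat_lit 14597, nat_lit 11681, nat_lit 9737, nat_lit 10241, nat_lit 10229] (nat_lit 0) [nat_lit 16783] false,
   Spec.mk (nat_lit 10229) (nat_lit 0) [nat_lit 5855, nat_lit 14603, nat_lit 11687, nat_lit 9743, nat_lit 10247, nat_lit 10223, nat_lit 10231] (nat_lit 0) [nat_lit 16789] false,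
   Spec.mk (nat_lit 10231) (nat_lit 1) [nat_lit 5857, nat_lit 14605, nat_lit 11689, nat_lit 9745, nat_lit 10249, nat_lit 10229] (nat_lit 0) [nat_lit 16791, nat_lit 3671] false,
   Spec.mk (nat_lit 10241) (nat_lit 0) [nat_lit 5867, nat_lit 14615, nat_lit 11699, nat_lit 9755, nat_lit 10295, nat_lit 10223, nat_lit 10247] (nat_lit 0) [nat_lit 16801] false,
   Spec.mk (nat_lit 10247) (nat_lit 0) [nat_lit 5873, nat_lit 14621, nat_lit 11705, nat_lit 9761, nat_lit 10301, nat_lit 10229, nat_lit 10265, nat_lit 10241, nat_lit 10253, nat_lit 10249] (nat_lit 0) [nat_lit 16807] false,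
   Spec.mk (nat_lit 10249) (nat_lit 0) [nat_lit 5875, nat_lit 14623, nat_lit 11707, nat_lit 9763, nat_lit 10303, nat_lit 10231, nat_lit 10267, nat_lit 10255, nat_lit 10247] (nat_lit 0) [nat_lit 16809, nat_lit 3689] false,
   Spec.mk (nat_lit 10253) (nat_lit 0) [nat_lit 5879, nat_lit 14627, nat_lit 11711, nat_lit 9767, nat_lit 10307, nat_lit 10271, nat_lit 10247, nat_lit 10255] (nat_lit 2) [nat_lit 16813] false,
   Spec.mk (nat_lit 10255) (nat_lit 0) [nat_lit 5881, nat_lit 14629, nat_lit 11713, nat_lit 9769, nat_lit 10309, nat_lit 10273, nat_lit 10249, nat_lit 10253, nat_lit 10257] (nat_lit 0) [nat_lit 16815, nat_lit 3695] false,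
   Spec.mk (nat_lit 10257) (nat_lit 0) [nat_lit 5883, nat_lit 14631, nat_lit 11715, nat_lit 9771, nat_lit 10311, nat_lit 10275, nat_lit 10255] (nat_lit 0) [nat_lit 3697] false,
   Spec.mk (nat_lit 10265) (nat_lit 0) [nat_lit 5891, nat_lit 14639, nat_lit 11723, nat_lit 9779, nat_lit 10319, nat_lit 10247, nat_lit 10271, nat_lit 10267] (nat_lit 2) [nat_lit 16825] false,
   Spec.mk (nat_lit 10267) (nat_lit 0) [nat_lit 5893, nat_lit 14641, nat_lit 11725, nat_lit 9781, nat_lit 10321, nat_lit 10249, nat_lit 10273, nat_lit 10265] (nat_lit 3) [nat_lit 16827, nat_lit 3707] false,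
   Spec.mk (nat_lit 10271) (nat_lit 0) [nat_lit 5897, nat_lit 14645, nat_lit 11729, nat_lit 9785, nat_lit 10325, nat_lit 10253, nat_lit 10265, nat_lit 10273] (nat_lit 2) [nat_lit 16831] false,
   Spec.mk (nat_lit 10273) (nat_lit 0) [nat_lit 5899, nat_lit 14647, nat_lit 11731, nat_lit 9787, nat_lit 10327, nat_lit 10255, nat_lit 10267, nat_lit 10279, nat_lit 10271, nat_lit 10275] (nat_lit 1) [nat_lit 16833, nat_lit 3713] false,
   Spec.mk (nat_lit 10275) (nat_lit 0) [nat_lit 5901, nat_lit 14649, nat_lit 11733, nat_lit 9789, nat_lit 10329, nat_lit 10257, nat_lit 10281, nat_lit 10273] (nat_lit 2) [nat_lit 3715] false,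
   Spec.mk (nat_lit 10279) (nat_lit 0) [nat_lit 5905, nat_lit 14653, nat_lit 11737, nat_lit 9793, nat_lit 10333, nat_lit 10273, nat_lit 10281] (nat_lit 1) [nat_lit 16839, nat_lit 3719] false,
   Spec.mk (nat_lit 10281) (nat_lit 0) [nat_lit 5907, nat_lit 14655, nat_lit 11739, nat_lit 9795, nat_lit 10335, nat_lit 10275, nat_lit 10279] (nat_lit 0) [nat_lit 3721] false,
   Spec.mk (nat_lit 10295) (nat_lit 0) [nat_lit 5921, nat_lit 14669, nat_lit 11753, nat_lit 9809, nat_lit 10457, nat_lit 10241, nat_lit 10301] (nat_lit 0) [nat_lit 16855] false,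
   Spec.mk (nat_lit 10301) (nat_lit 0) [nat_lit 5927, nat_lit 14675, nat_lit 11759, nat_lit 9815, nat_lit 10463, nat_lit 10247, nat_lit 10319, nat_lit 10295, nat_lit 10307, nat_lit 10303] (nat_lit 1) [nat_lit 16861] false,
   Spec.mk (nat_lit 10303) (nat_lit 0) [nat_lit 5929, nat_lit 14677, nat_lit 11761, nat_lit 9817, nat_lit 10465, nat_lit 10249, nat_lit 10321, nat_lit 10309, nat_lit 10301] (nat_lit 1) [nat_lit 16863, nat_lit 3743] false,
   Spec.mk (nat_lit 10307) (nat_lit 0) [nat_lit 5933, nat_lit 14681, nat_lit 11765, nat_lit 9821, nat_lit 10469, nat_lit 10253, nat_lit 10325, nat_lit 10301, nat_lit 10309] (nat_lit 4) [nat_lit 16867] false,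
   Spec.mk (nat_lit 10309) (nat_lit 0) [nat_lit 5935, nat_lit 14683, nat_lit 11767, nat_lit 9823, nat_lit 10471, nat_lit 10255, nat_lit 10327, nat_lit 10303, nat_lit 10307, nat_lit 10311] (nat_lit 2) [nat_lit 16869, nat_lit 3749] false,
   Spec.mk (nat_lit 10311) (nat_lit 0) [nat_lit 5937, nat_lit 14685, nat_lit 11769, nat_lit 9825, nat_lit 10473, nat_lit 10257, nat_lit 10329, nat_lit 10309] (nat_lit 2) [nat_lit 3751] false,
   Spec.mk (nat_lit 10319) (nat_lit 0) [nat_lit 5945, nat_lit 14693, nat_lit 11777, nat_lit 9833, nat_lit 10481, nat_lit 10265, nat_lit 10373, nat_lit 10301, nat_lit 10325, nat_lit 10321] (nat_lit 1) [nat_lit 16879] false,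
   Spec.mk (nat_lit 10321) (nat_lit 0) [nat_lit 5947, nat_lit 14695, nat_lit 11779, nat_lit 9835, nat_lit 10483, nat_lit 10267, nat_lit 10375, nat_lit 10303, nat_lit 10327, nat_lit 10319] (nat_lit 2) [nat_lit 16881, nat_lit 3761] false,
   Spec.mk (nat_lit 10325) (nat_lit 0) [nat_lit 5951, nat_lit 14699, nat_lit 11783, nat_lit 9839, nat_lit 10487, nat_lit 10271, nat_lit 10379, nat_lit 10307, nat_lit 10343, nat_lit 10319, nat_lit 10327] (nat_lit 2) [nat_lit 16885] false,
   Spec.mk (nat_lit 10327) (nat_lit 0) [nat_lit 5953, nat_lit 14701, nat_lit 11785, nat_lit 9841, nat_lit 10489, nat_lit 10273, nat_lit 10381, nat_lit 10309, nat_lit 10345, nat_lit 10321, nat_lit 10333, nat_lit 10325, nat_lit 10329] (nat_lit 1) [nat_lit 16887, nat_lit 3767] false,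
   Spec.mk (nat_lit 10329) (nat_lit 0) [nat_lit 5955, nat_lit 14703, nat_lit 11787, nat_lit 9843, nat_lit 10491, nat_lit 10275, nat_lit 10383, nat_lit 10311, nat_lit 10347, nat_lit 10335, nat_lit 10327] (nat_lit 2) [nat_lit 3769] false,
   Spec.mk (nat_lit 10333) (nat_lit 0) [nat_lit 5959, nat_lit 14707, nat_lit 11791, nat_lit 9847, nat_lit 10495, nat_lit 10279, nat_lit 10387, nat_lit 10351, nat_lit 10327, nat_lit 10335] (nat_lit 2) [nat_lit 16893, nat_lit 3773] false,
   Spec.mk (nat_lit 10335) (nat_lit 0) [nat_lit 5961, nat_lit 14709, nat_lit 11793, nat_lit 9849, nat_lit 10497, nat_lit 10281, nat_lit 10389, nat_lit 10353, nat_lit 10329, nat_lit 10333] (nat_lit 1) [nat_lit 3775] false,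
   Spec.mk (nat_lit 10343) (nat_lit 0) [nat_lit 5969, nat_lit 14717, nat_lit 11801, nat_lit 9857, nat_lit 10505, nat_lit 10397, nat_lit 10325, nat_lit 10345] (nat_lit 2) [nat_lit 16903] false,
   Spec.mk (nat_lit 10345) (nat_lit 0) [nat_lit 5971, nat_lit 14719, nat_lit 11803, nat_lit 9859, nat_lit 10507, nat_lit 10399, nat_lit 10327, nat_lit 10351, nat_lit 10343, nat_lit 10347] (nat_lit 2) [nat_lit 16905, nat_lit 3785] false,
   Spec.mk (nat_lit 10347) (nat_lit 0) [nat_lit 5973, nat_lit 14721, nat_lit 11805, nat_lit 9861, nat_lit 10509, nat_lit 10401, nat_lit 10329, nat_lit 10353, nat_lit 10345] (nat_lit 4) [nat_lit 3787] false,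
   Spec.mk (nat_lit 10351) (nat_lit 0) [nat_lit 5977, nat_lit 14725, nat_lit 11809, nat_lit 9865, nat_lit 10513, nat_lit 10405, nat_lit 10333, nat_lit 10345, nat_lit 10353] (nat_lit 1) [nat_lit 16911, nat_lit 3791] false,
   Spec.mk (nat_lit 10353) (nat_lit 0) [nat_lit 5979, nat_lit 14727, nat_lit 11811, nat_lit 9867, nat_lit 10515, nat_lit 10407, nat_lit 10335, nat_lit 10347, nat_lit 10359, nat_lit 10351] (nat_lit 1) [nat_lit 3793] false,
   Spec.mk (nat_lit 10359) (nat_lit 0) [nat_lit 5985, nat_lit 14733, nat_lit 11817, nat_lit 9873, nat_lit 10521, nat_lit 10413, nat_lit 10353] (nat_lit 0) [nat_lit 3799] false,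
   Spec.mk (nat_lit 10373) (nat_lit 0) [nat_lit 5999, nat_lit 14747, nat_lit 11831, nat_lit 9887, nat_lit 10535, nat_lit 10319, nat_lit 10379, nat_lit 10375] (nat_lit 2) [nat_lit 16933] false,
   Spec.mk (nat_lit 10375) (nat_lit 0) [nat_lit 6001, nat_lit 14749, nat_lit 11833, nat_lit 9889, nat_lit 10537, nat_lit 10321, nat_lit 10381, nat_lit 10373] (nat_lit 3) [nat_lit 16935, nat_lit 3815] false,
   Spec.mk (nat_lit 10379) (nat_lit 0) [nat_lit 6005, nat_lit 14753, nat_lit 11837, nat_lit 9893, nat_lit 10541, nat_lit 10325, nat_lit 10397, nat_lit 10373, nat_lit 10381] (nat_lit 4) [nat_lit 16939] false,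
   Spec.mk (nat_lit 10381) (nat_lit 0) [nat_lit 6007, nat_lit 14755, nat_lit 11839, nat_lit 9895, nat_lit 10543, nat_lit 10327, nat_lit 10399, nat_lit 10375, nat_lit 10387, nat_lit 10379, nat_lit 10383] (nat_lit 3) [nat_lit 16941, nat_lit 3821] false,
   Spec.mk (nat_lit 10383) (nat_lit 0) [nat_lit 6009, nat_lit 14757, nat_lit 11841, nat_lit 9897, nat_lit 10545, nat_lit 10329, nat_lit 10401, nat_lit 10389, nat_lit 10381] (nat_lit 4) [nat_lit 3823] false]

noncomputable def sp28 : List Spec :=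
  [Spec.mk (nat_lit 10387) (nat_lit 0) [nat_lit 6013, nat_lit 14761, nat_lit 11845, nat_lit 9901, nat_lit 10549, nat_lit 10333, nat_lit 10405, nat_lit 10381, nat_lit 10389] (nat_lit 5) [nat_lit 16947, nat_lit 3827] false,
   Spec.mk (nat_lit 10389) (nat_lit 0) [nat_lit 6015, nat_lit 14763, nat_lit 11847, nat_lit 9903, nat_lit 10551, nat_lit 10335, nat_lit 10407, nat_lit 10383, nat_lit 10387] (nat_lit 4) [nat_lit 3829] false,
   Spec.mk (nat_lit 10397) (nat_lit 0) [nat_lit 6023, nat_lit 14771, nat_lit 11855, nat_lit 9911, nat_lit 10559, nat_lit 10343, nat_lit 10379, nat_lit 10399] (nat_lit 2) [nat_lit 16957] false,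
   Spec.mk (nat_lit 10399) (nat_lit 0) [nat_lit 6025, nat_lit 14773, nat_lit 11857, nat_lit 9913, nat_lit 10561, nat_lit 10345, nat_lit 10381, nat_lit 10405, nat_lit 10397, nat_lit 10401] (nat_lit 2) [nat_lit 16959, nat_lit 3839] false,
   Spec.mk (nat_lit 10401) (nat_lit 0) [nat_lit 6027, nat_lit 14775, nat_lit 11859, nat_lit 9915, nat_lit 10563, nat_lit 10347, nat_lit 10383, nat_lit 10407, nat_lit 10399] (nat_lit 4) [nat_lit 3841] false,
   Spec.mk (nat_lit 10405) (nat_lit 0) [nat_lit 6031, nat_lit 14779, nat_lit 11863, nat_lit 9919, nat_lit 10567, nat_lit 10351, nat_lit 10387, nat_lit 10423, nat_lit 10399, nat_lit 10407] (nat_lit 2) [nat_lit 16965, nat_lit 3845] false,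
   Spec.mk (nat_lit 10407) (nat_lit 0) [nat_lit 6033, nat_lit 14781, nat_lit 11865, nat_lit 9921, nat_lit 10569, nat_lit 10353, nat_lit 10389, nat_lit 10425, nat_lit 10401, nat_lit 10413, nat_lit 10405] (nat_lit 2) [nat_lit 3847] false,
   Spec.mk (nat_lit 10413) (nat_lit 0) [nat_lit 6039, nat_lit 14787, nat_lit 11871, nat_lit 9927, nat_lit 10575, nat_lit 10359, nat_lit 10431, nat_lit 10407] (nat_lit 2) [nat_lit 3853] false,
   Spec.mk (nat_lit 10423) (nat_lit 0) [nat_lit 6049, nat_lit 14797, nat_lit 11881, nat_lit 9937, nat_lit 10585, nat_lit 10405, nat_lit 10425] (nat_lit 1) [nat_lit 16983, nat_lit 3863] false,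
   Spec.mk (nat_lit 10425) (nat_lit 0) [nat_lit 6051, nat_lit 14799, nat_lit 11883, nat_lit 9939, nat_lit 10587, nat_lit 10407, nat_lit 10431, nat_lit 10423] (nat_lit 2) [nat_lit 3865] false,
   Spec.mk (nat_lit 10431) (nat_lit 0) [nat_lit 6057, nat_lit 14805, nat_lit 11889, nat_lit 9945, nat_lit 10593, nat_lit 10413, nat_lit 10425] (nat_lit 0) [nat_lit 3871] false,
   Spec.mk (nat_lit 10457) (nat_lit 2) [nat_lit 6083, nat_lit 14831, nat_lit 11915, nat_lit 9971, nat_lit 10295, nat_lit 10463] (nat_lit 0) [nat_lit 17017] false,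
   Spec.mk (nat_lit 10463) (nat_lit 1) [nat_lit 6089, nat_lit 14837, nat_lit 11921, nat_lit 9977, nat_lit 10301, nat_lit 10481, nat_lit 10457, nat_lit 10469, nat_lit 10465] (nat_lit 0) [nat_lit 17023] false,
   Spec.mk (nat_lit 10465) (nat_lit 1) [nat_lit 6091, nat_lit 14839, nat_lit 11923, nat_lit 9979, nat_lit 10303, nat_lit 10483, nat_lit 10471, nat_lit 10463] (nat_lit 0) [nat_lit 17025, nat_lit 3905] false,
   Spec.mk (nat_lit 10469) (nat_lit 0) [nat_lit 6095, nat_lit 14843, nat_lit 11927, nat_lit 9983, nat_lit 10307, nat_lit 10487, nat_lit 10463, nat_lit 10471] (nat_lit 2) [nat_lit 17029] false,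
   Spec.mk (nat_lit 10471) (nat_lit 0) [nat_lit 6097, nat_lit 14845, nat_lit 11929, nat_lit 9985, nat_lit 10309, nat_lit 10489, nat_lit 10465, nat_lit 10469, nat_lit 10473] (nat_lit 0) [nat_lit 17031, nat_lit 3911] false,
   Spec.mk (nat_lit 10473) (nat_lit 0) [nat_lit 6099, nat_lit 14847, nat_lit 11931, nat_lit 9987, nat_lit 10311, nat_lit 10491, nat_lit 10471] (nat_lit 0) [nat_lit 3913] false,
   Spec.mk (nat_lit 10481) (nat_lit 0) [nat_lit 6107, nat_lit 14855, nat_lit 11939, nat_lit 9995, nat_lit 10319, nat_lit 10535, nat_lit 10463, nat_lit 10487, nat_lit 10483] (nat_lit 0) [nat_lit 17041] false,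
   Spec.mk (nat_lit 10483) (nat_lit 0) [nat_lit 6109, nat_lit 14857, nat_lit 11941, nat_lit 9997, nat_lit 10321, nat_lit 10537, nat_lit 10465, nat_lit 10489, nat_lit 10481] (nat_lit 1) [nat_lit 17043, nat_lit 3923] false,
   Spec.mk (nat_lit 10487) (nat_lit 0) [nat_lit 6113, nat_lit 14861, nat_lit 11945, nat_lit 10001, nat_lit 10325, nat_lit 10541, nat_lit 10469, nat_lit 10505, nat_lit 10481, nat_lit 10489] (nat_lit 1) [nat_lit 17047] false,
   Spec.mk (nat_lit 10489) (nat_lit 0) [nat_lit 6115, nat_lit 14863, nat_lit 11947, nat_lit 10003, nat_lit 10327, nat_lit 10543, nat_lit 10471, nat_lit 10507, nat_lit 10483, nat_lit 10495, nat_lit 10487, nat_lit 10491] (nat_lit 0) [nat_lit 17049, nat_lit 3929] false,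
   Spec.mk (nat_lit 10491) (nat_lit 0) [nat_lit 6117, nat_lit 14865, nat_lit 11949, nat_lit 10005, nat_lit 10329, nat_lit 10545, nat_lit 10473, nat_lit 10509, nat_lit 10497, nat_lit 10489] (nat_lit 1) [nat_lit 3931] false,
   Spec.mk (nat_lit 10495) (nat_lit 0) [nat_lit 6121, nat_lit 14869, nat_lit 11953, nat_lit 10009, nat_lit 10333, nat_lit 10549, nat_lit 10513, nat_lit 10489, nat_lit 10497] (nat_lit 1) [nat_lit 17055, nat_lit 3935] false,
   Spec.mk (nat_lit 10497) (nat_lit 0) [nat_lit 6123, nat_lit 14871, nat_lit 11955, nat_lit 10011, nat_lit 10335, nat_lit 10551, nat_lit 10515, nat_lit 10491, nat_lit 10495] (nat_lit 0) [nat_lit 3937] false,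
   Spec.mk (nat_lit 10505) (nat_lit 0) [nat_lit 6131, nat_lit 14879, nat_lit 11963, nat_lit 10019, nat_lit 10343, nat_lit 10559, nat_lit 10487, nat_lit 10507] (nat_lit 2) [nat_lit 17065] false,
   Spec.mk (nat_lit 10507) (nat_lit 0) [nat_lit 6133, nat_lit 14881, nat_lit 11965, nat_lit 10021, nat_lit 10345, nat_lit 10561, nat_lit 10489, nat_lit 10513, nat_lit 10505, nat_lit 10509] (nat_lit 2) [nat_lit 17067, nat_lit 3947] false,
   Spec.mk (nat_lit 10509) (nat_lit 0) [nat_lit 6135, nat_lit 14883, nat_lit 11967, nat_lit 10023, nat_lit 10347, nat_lit 10563, nat_lit 10491, nat_lit 10515, nat_lit 10507] (nat_lit 4) [nat_lit 3949] false,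
   Spec.mk (nat_lit 10513) (nat_lit 0) [nat_lit 6139, nat_lit 14887, nat_lit 11971, nat_lit 10027, nat_lit 10351, nat_lit 10567, nat_lit 10495, nat_lit 10507, nat_lit 10515] (nat_lit 1) [nat_lit 17073, nat_lit 3953] false,
   Spec.mk (nat_lit 10515) (nat_lit 0) [nat_lit 6141, nat_lit 14889, nat_lit 11973, nat_lit 10029, nat_lit 10353, nat_lit 10569, nat_lit 10497, nat_lit 10509, nat_lit 10521, nat_lit 10513] (nat_lit 1) [nat_lit 3955] false,
   Spec.mk (nat_lit 10521) (nat_lit 0) [nat_lit 6147, nat_lit 14895, nat_lit 11979, nat_lit 10035, nat_lit 10359, nat_lit 10575, nat_lit 10515] (nat_lit 0) [nat_lit 3961] false,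
   Spec.mk (nat_lit 10535) (nat_lit 1) [nat_lit 6161, nat_lit 14909, nat_lit 11993, nat_lit 10049, nat_lit 10373, nat_lit 10697, nat_lit 10481, nat_lit 10541, nat_lit 10537] (nat_lit 0) [nat_lit 17095] false,
   Spec.mk (nat_lit 10537) (nat_lit 0) [nat_lit 6163, nat_lit 14911, nat_lit 11995, nat_lit 10051, nat_lit 10375, nat_lit 10699, nat_lit 10483, nat_lit 10543, nat_lit 10535] (nat_lit 0) [nat_lit 17097, nat_lit 3977] false,
   Spec.mk (nat_lit 10541) (nat_lit 0) [nat_lit 6167, nat_lit 14915, nat_lit 11999, nat_lit 10055, nat_lit 10379, nat_lit 10703, nat_lit 10487, nat_lit 10559, nat_lit 10535, nat_lit 10543] (nat_lit 1) [nat_lit 17101] false,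
   Spec.mk (nat_lit 10543) (nat_lit 0) [nat_lit 6169, nat_lit 14917, nat_lit 12001, nat_lit 10057, nat_lit 10381, nat_lit 10705, nat_lit 10489, nat_lit 10561, nat_lit 10537, nat_lit 10549, nat_lit 10541, nat_lit 10545] (nat_lit 0) [nat_lit 17103, nat_lit 3983] false,
   Spec.mk (nat_lit 10545) (nat_lit 0) [nat_lit 6171, nat_lit 14919, nat_lit 12003, nat_lit 10059, nat_lit 10383, nat_lit 10707, nat_lit 10491, nat_lit 10563, nat_lit 10551, nat_lit 10543] (nat_lit 1) [nat_lit 3985] false,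
   Spec.mk (nat_lit 10549) (nat_lit 0) [nat_lit 6175, nat_lit 14923, nat_lit 12007, nat_lit 10063, nat_lit 10387, nat_lit 10711, nat_lit 10495, nat_lit 10567, nat_lit 10543, nat_lit 10551] (nat_lit 2) [nat_lit 17109, nat_lit 3989] false,
   Spec.mk (nat_lit 10551) (nat_lit 0) [nat_lit 6177, nat_lit 14925, nat_lit 12009, nat_lit 10065, nat_lit 10389, nat_lit 10713, nat_lit 10497, nat_lit 10569, nat_lit 10545, nat_lit 10549] (nat_lit 1) [nat_lit 3991] false,
   Spec.mk (nat_lit 10559) (nat_lit 0) [nat_lit 6185, nat_lit 14933, nat_lit 12017, nat_lit 10073, nat_lit 10397, nat_lit 10721, nat_lit 10505, nat_lit 10613, nat_lit 10541, nat_lit 10561] (nat_lit 0) [nat_lit 17119] false,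
   Spec.mk (nat_lit 10561) (nat_lit 0) [nat_lit 6187, nat_lit 14935, nat_lit 12019, nat_lit 10075, nat_lit 10399, nat_lit 10723, nat_lit 10507, nat_lit 10615, nat_lit 10543, nat_lit 10567, nat_lit 10559, nat_lit 10563] (nat_lit 0) [nat_lit 17121, nat_lit 4001] false,
   Spec.mk (nat_lit 10563) (nat_lit 0) [nat_lit 6189, nat_lit 14937, nat_lit 12021, nat_lit 10077, nat_lit 10401, nat_lit 10725, nat_lit 10509, nat_lit 10617, nat_lit 10545, nat_lit 10569, nat_lit 10561] (nat_lit 2) [nat_lit 4003] false,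
   Spec.mk (nat_lit 10567) (nat_lit 0) [nat_lit 6193, nat_lit 14941, nat_lit 12025, nat_lit 10081, nat_lit 10405, nat_lit 10729, nat_lit 10513, nat_lit 10621, nat_lit 10549, nat_lit 10585, nat_lit 10561, nat_lit 10569] (nat_lit 0) [nat_lit 17127, nat_lit 4007] false,
   Spec.mk (nat_lit 10569) (nat_lit 0) [nat_lit 6195, nat_lit 14943, nat_lit 12027, nat_lit 10083, nat_lit 10407, nat_lit 10731, nat_lit 10515, nat_lit 10623, nat_lit 10551, nat_lit 10587, nat_lit 10563, nat_lit 10575, nat_lit 10567] (nat_lit 0) [nat_lit 4009] false,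
   Spec.mk (nat_lit 10575) (nat_lit 0) [nat_lit 6201, nat_lit 14949, nat_lit 12033, nat_lit 10089, nat_lit 10413, nat_lit 10737, nat_lit 10521, nat_lit 10629, nat_lit 10593, nat_lit 10569] (nat_lit 0) [nat_lit 4015] false,
   Spec.mk (nat_lit 10585) (nat_lit 0) [nat_lit 6211, nat_lit 14959, nat_lit 12043, nat_lit 10099, nat_lit 10423, nat_lit 10747, nat_lit 10639, nat_lit 10567, nat_lit 10587] (nat_lit 0) [nat_lit 17145, nat_lit 4025] false,
   Spec.mk (nat_lit 10587) (nat_lit 0) [nat_lit 6213, nat_lit 14961, nat_lit 12045, nat_lit 10101, nat_lit 10425, nat_lit 10749, nat_lit 10641, nat_lit 10569, nat_lit 10593, nat_lit 10585] (nat_lit 1) [nat_lit 4027] false,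
   Spec.mk (nat_lit 10593) (nat_lit 1) [nat_lit 6219, nat_lit 14967, nat_lit 12051, nat_lit 10107, nat_lit 10431, nat_lit 10755, nat_lit 10647, nat_lit 10575, nat_lit 10587] (nat_lit 0) [nat_lit 4033] false,
   Spec.mk (nat_lit 10613) (nat_lit 0) [nat_lit 6239, nat_lit 14987, nat_lit 12071, nat_lit 10127, nat_lit 10775, nat_lit 10559, nat_lit 10615] (nat_lit 0) [nat_lit 17173] false,
   Spec.mk (nat_lit 10615) (nat_lit 0) [nat_lit 6241, nat_lit 14989, nat_lit 12073, nat_lit 10129, nat_lit 10777, nat_lit 10561, nat_lit 10621, nat_lit 10613, nat_lit 10617] (nat_lit 0) [nat_lit 17175, nat_lit 4055] false,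
   Spec.mk (nat_lit 10617) (nat_lit 0) [nat_lit 6243, nat_lit 14991, nat_lit 12075, nat_lit 10131, nat_lit 10779, nat_lit 10563, nat_lit 10623, nat_lit 10615] (nat_lit 2) [nat_lit 4057] false,
   Spec.mk (nat_lit 10621) (nat_lit 0) [nat_lit 6247, nat_lit 14995, nat_lit 12079, nat_lit 10135, nat_lit 10783, nat_lit 10567, nat_lit 10639, nat_lit 10615, nat_lit 10623] (nat_lit 1) [nat_lit 17181, nat_lit 4061] false,
   Spec.mk (nat_lit 10623) (nat_lit 0) [nat_lit 6249, nat_lit 14997, nat_lit 12081, nat_lit 10137, nat_lit 10785, nat_lit 10569, nat_lit 10641, nat_lit 10617, nat_lit 10629, nat_lit 10621] (nat_lit 1) [nat_lit 4063] false,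
   Spec.mk (nat_lit 10629) (nat_lit 0) [nat_lit 6255, nat_lit 15003, nat_lit 12087, nat_lit 10143, nat_lit 10791, nat_lit 10575, nat_lit 10647, nat_lit 10623] (nat_lit 2) [nat_lit 4069] false,
   Spec.mk (nat_lit 10639) (nat_lit 1) [nat_lit 6265, nat_lit 15013, nat_lit 12097, nat_lit 10153, nat_lit 10801, nat_lit 10585, nat_lit 10621, nat_lit 10641] (nat_lit 0) [nat_lit 17199, nat_lit 4079] false,
   Spec.mk (nat_lit 10641) (nat_lit 0) [nat_lit 6267, nat_lit 15015, nat_lit 12099, nat_lit 10155, nat_lit 10803, nat_lit 10587, nat_lit 10623, nat_lit 10647, nat_lit 10639] (nat_lit 0) [nat_lit 4081] false,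
   Spec.mk (nat_lit 10647) (nat_lit 1) [nat_lit 6273, nat_lit 15021, nat_lit 12105, nat_lit 10161, nat_lit 10809, nat_lit 10593, nat_lit 10629, nat_lit 10665, nat_lit 10641] (nat_lit 0) [nat_lit 4087] false,
   Spec.mk (nat_lit 10665) (nat_lit 2) [nat_lit 6291, nat_lit 15039, nat_lit 12123, nat_lit 10179, nat_lit 10827, nat_lit 10647] (nat_lit 0) [nat_lit 4105] false,
   Spec.mk (nat_lit 10697) (nat_lit 2) [nat_lit 6323, nat_lit 15071, nat_lit 12155, nat_lit 10535, nat_lit 10703, nat_lit 10699] (nat_lit 0) [nat_lit 17257] false,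
   Spec.mk (nat_lit 10699) (nat_lit 1) [nat_lit 6325, nat_lit 15073, nat_lit 12157, nat_lit 10537, nat_lit 10705, nat_lit 10697] (nat_lit 0) [nat_lit 17259, nat_lit 4139] false,
   Spec.mk (nat_lit 10703) (nat_lit 0) [nat_lit 6329, nat_lit 15077, nat_lit 12161, nat_lit 10541, nat_lit 10721, nat_lit 10697, nat_lit 10705] (nat_lit 0) [nat_lit 17263] false,
   Spec.mk (nat_lit 10705) (nat_lit 1) [nat_lit 6331, nat_lit 15079, nat_lit 12163, nat_lit 10543, nat_lit 10723, nat_lit 10699, nat_lit 10711, nat_lit 10703, nat_lit 10707] (nat_lit 0) [nat_lit 17265, nat_lit 4145] false]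

noncomputable def sp29 : List Spec :=
  [Spec.mk (nat_lit 10707) (nat_lit 0) [nat_lit 6333, nat_lit 15081, nat_lit 12165, nat_lit 10545, nat_lit 10725, nat_lit 10713, nat_lit 10705] (nat_lit 0) [nat_lit 4147] false,
   Spec.mk (nat_lit 10711) (nat_lit 0) [nat_lit 6337, nat_lit 15085, nat_lit 12169, nat_lit 10549, nat_lit 10729, nat_lit 10705, nat_lit 10713] (nat_lit 1) [nat_lit 17271, nat_lit 4151] false,
   Spec.mk (nat_lit 10713) (nat_lit 0) [nat_lit 6339, nat_lit 15087, nat_lit 12171, nat_lit 10551, nat_lit 10731, nat_lit 10707, nat_lit 10711] (nat_lit 0) [nat_lit 4153] false,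
   Spec.mk (nat_lit 10721) (nat_lit 0) [nat_lit 6347, nat_lit 15095, nat_lit 12179, nat_lit 10559, nat_lit 10775, nat_lit 10703, nat_lit 10723] (nat_lit 0) [nat_lit 17281] false,
   Spec.mk (nat_lit 10723) (nat_lit 0) [nat_lit 6349, nat_lit 15097, nat_lit 12181, nat_lit 10561, nat_lit 10777, nat_lit 10705, nat_lit 10729, nat_lit 10721, nat_lit 10725] (nat_lit 0) [nat_lit 17283, nat_lit 4163] false,
   Spec.mk (nat_lit 10725) (nat_lit 0) [nat_lit 6351, nat_lit 15099, nat_lit 12183, nat_lit 10563, nat_lit 10779, nat_lit 10707, nat_lit 10731, nat_lit 10723] (nat_lit 2) [nat_lit 4165] false,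
   Spec.mk (nat_lit 10729) (nat_lit 0) [nat_lit 6355, nat_lit 15103, nat_lit 12187, nat_lit 10567, nat_lit 10783, nat_lit 10711, nat_lit 10747, nat_lit 10723, nat_lit 10731] (nat_lit 0) [nat_lit 17289, nat_lit 4169] false,
   Spec.mk (nat_lit 10731) (nat_lit 0) [nat_lit 6357, nat_lit 15105, nat_lit 12189, nat_lit 10569, nat_lit 10785, nat_lit 10713, nat_lit 10749, nat_lit 10725, nat_lit 10737, nat_lit 10729] (nat_lit 0) [nat_lit 4171] false,
   Spec.mk (nat_lit 10737) (nat_lit 0) [nat_lit 6363, nat_lit 15111, nat_lit 12195, nat_lit 10575, nat_lit 10791, nat_lit 10755, nat_lit 10731] (nat_lit 0) [nat_lit 4177] false,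
   Spec.mk (nat_lit 10747) (nat_lit 0) [nat_lit 6373, nat_lit 15121, nat_lit 12205, nat_lit 10585, nat_lit 10801, nat_lit 10729, nat_lit 10749] (nat_lit 1) [nat_lit 17307, nat_lit 4187] false,
   Spec.mk (nat_lit 10749) (nat_lit 0) [nat_lit 6375, nat_lit 15123, nat_lit 12207, nat_lit 10587, nat_lit 10803, nat_lit 10731, nat_lit 10755, nat_lit 10747] (nat_lit 2) [nat_lit 4189] false,
   Spec.mk (nat_lit 10755) (nat_lit 0) [nat_lit 6381, nat_lit 15129, nat_lit 12213, nat_lit 10593, nat_lit 10809, nat_lit 10737, nat_lit 10749] (nat_lit 0) [nat_lit 4195] false,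
   Spec.mk (nat_lit 10775) (nat_lit 2) [nat_lit 6401, nat_lit 15149, nat_lit 12233, nat_lit 10613, nat_lit 10721, nat_lit 10777] (nat_lit 0) [nat_lit 17335] false,
   Spec.mk (nat_lit 10777) (nat_lit 2) [nat_lit 6403, nat_lit 15151, nat_lit 12235, nat_lit 10615, nat_lit 10723, nat_lit 10783, nat_lit 10775, nat_lit 10779] (nat_lit 0) [nat_lit 17337, nat_lit 4217] false,
   Spec.mk (nat_lit 10779) (nat_lit 0) [nat_lit 6405, nat_lit 15153, nat_lit 12237, nat_lit 10617, nat_lit 10725, nat_lit 10785, nat_lit 10777] (nat_lit 0) [nat_lit 4219] false,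
   Spec.mk (nat_lit 10783) (nat_lit 1) [nat_lit 6409, nat_lit 15157, nat_lit 12241, nat_lit 10621, nat_lit 10729, nat_lit 10801, nat_lit 10777, nat_lit 10785] (nat_lit 0) [nat_lit 17343, nat_lit 4223] false,
   Spec.mk (nat_lit 10785) (nat_lit 1) [nat_lit 6411, nat_lit 15159, nat_lit 12243, nat_lit 10623, nat_lit 10731, nat_lit 10803, nat_lit 10779, nat_lit 10791, nat_lit 10783] (nat_lit 0) [nat_lit 4225] false,
   Spec.mk (nat_lit 10791) (nat_lit 0) [nat_lit 6417, nat_lit 15165, nat_lit 12249, nat_lit 10629, nat_lit 10737, nat_lit 10809, nat_lit 10785] (nat_lit 0) [nat_lit 4231] false,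
   Spec.mk (nat_lit 10801) (nat_lit 2) [nat_lit 6427, nat_lit 15175, nat_lit 12259, nat_lit 10639, nat_lit 10747, nat_lit 10855, nat_lit 10783, nat_lit 10803] (nat_lit 0) [nat_lit 17361, nat_lit 4241] false,
   Spec.mk (nat_lit 10803) (nat_lit 1) [nat_lit 6429, nat_lit 15177, nat_lit 12261, nat_lit 10641, nat_lit 10749, nat_lit 10857, nat_lit 10785, nat_lit 10809, nat_lit 10801] (nat_lit 0) [nat_lit 4243] false,
   Spec.mk (nat_lit 10809) (nat_lit 2) [nat_lit 6435, nat_lit 15183, nat_lit 12267, nat_lit 10647, nat_lit 10755, nat_lit 10863, nat_lit 10791, nat_lit 10827, nat_lit 10803] (nat_lit 0) [nat_lit 4249] false,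
   Spec.mk (nat_lit 10827) (nat_lit 2) [nat_lit 6453, nat_lit 15201, nat_lit 12285, nat_lit 10665, nat_lit 10881, nat_lit 10809] (nat_lit 0) [nat_lit 4267] false,
   Spec.mk (nat_lit 10855) (nat_lit 3) [nat_lit 6481, nat_lit 15229, nat_lit 12313, nat_lit 10801, nat_lit 10857] (nat_lit 0) [nat_lit 17415, nat_lit 4295] false,
   Spec.mk (nat_lit 10857) (nat_lit 2) [nat_lit 6483, nat_lit 15231, nat_lit 12315, nat_lit 10803, nat_lit 10863, nat_lit 10855] (nat_lit 0) [nat_lit 4297] false,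
   Spec.mk (nat_lit 10863) (nat_lit 2) [nat_lit 6489, nat_lit 15237, nat_lit 12321, nat_lit 10809, nat_lit 10881, nat_lit 10857] (nat_lit 0) [nat_lit 4303] false,
   Spec.mk (nat_lit 10881) (nat_lit 4) [nat_lit 6507, nat_lit 15255, nat_lit 12339, nat_lit 10827, nat_lit 10863] (nat_lit 0) [nat_lit 4321] false,
   Spec.mk (nat_lit 10961) (nat_lit 3) [nat_lit 15335, nat_lit 9503, nat_lit 10979] (nat_lit 0) [nat_lit 17521] false,
   Spec.mk (nat_lit 10979) (nat_lit 2) [nat_lit 15353, nat_lit 9521, nat_lit 11033, nat_lit 10961, nat_lit 10997, nat_lit 10985] (nat_lit 0) [nat_lit 17539] false,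
   Spec.mk (nat_lit 10985) (nat_lit 1) [nat_lit 15359, nat_lit 9527, nat_lit 11039, nat_lit 11003, nat_lit 10979, nat_lit 10987] (nat_lit 0) [nat_lit 17545] false,
   Spec.mk (nat_lit 10987) (nat_lit 2) [nat_lit 15361, nat_lit 9529, nat_lit 11041, nat_lit 11005, nat_lit 10985] (nat_lit 0) [nat_lit 17547, nat_lit 4427] false,
   Spec.mk (nat_lit 10997) (nat_lit 0) [nat_lit 15371, nat_lit 9539, nat_lit 11051, nat_lit 10979, nat_lit 11003] (nat_lit 1) [nat_lit 17557] false,
   Spec.mk (nat_lit 11003) (nat_lit 0) [nat_lit 15377, nat_lit 9545, nat_lit 11057, nat_lit 10985, nat_lit 10997, nat_lit 11009, nat_lit 11005] (nat_lit 0) [nat_lit 17563] false,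
   Spec.mk (nat_lit 11005) (nat_lit 0) [nat_lit 15379, nat_lit 9547, nat_lit 11059, nat_lit 10987, nat_lit 11011, nat_lit 11003] (nat_lit 0) [nat_lit 17565, nat_lit 4445] false,
   Spec.mk (nat_lit 11009) (nat_lit 0) [nat_lit 15383, nat_lit 9551, nat_lit 11063, nat_lit 11003, nat_lit 11011] (nat_lit 1) [nat_lit 17569] false,
   Spec.mk (nat_lit 11011) (nat_lit 1) [nat_lit 15385, nat_lit 9553, nat_lit 11065, nat_lit 11005, nat_lit 11009, nat_lit 11013] (nat_lit 0) [nat_lit 17571, nat_lit 4451] false,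
   Spec.mk (nat_lit 11013) (nat_lit 1) [nat_lit 15387, nat_lit 9555, nat_lit 11067, nat_lit 11011] (nat_lit 0) [nat_lit 4453] false,
   Spec.mk (nat_lit 11033) (nat_lit 1) [nat_lit 15407, nat_lit 9575, nat_lit 11195, nat_lit 10979, nat_lit 11051, nat_lit 11039] (nat_lit 0) [nat_lit 17593] false,
   Spec.mk (nat_lit 11039) (nat_lit 0) [nat_lit 15413, nat_lit 9581, nat_lit 11201, nat_lit 10985, nat_lit 11057, nat_lit 11033, nat_lit 11041] (nat_lit 1) [nat_lit 17599] false,
   Spec.mk (nat_lit 11041) (nat_lit 0) [nat_lit 15415, nat_lit 9583, nat_lit 11203, nat_lit 10987, nat_lit 11059, nat_lit 11039] (nat_lit 0) [nat_lit 17601, nat_lit 4481] false,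
   Spec.mk (nat_lit 11051) (nat_lit 0) [nat_lit 15425, nat_lit 9593, nat_lit 11213, nat_lit 10997, nat_lit 11105, nat_lit 11033, nat_lit 11057] (nat_lit 0) [nat_lit 17611] false,
   Spec.mk (nat_lit 11057) (nat_lit 0) [nat_lit 15431, nat_lit 9599, nat_lit 11219, nat_lit 11003, nat_lit 11111, nat_lit 11039, nat_lit 11075, nat_lit 11051, nat_lit 11063, nat_lit 11059] (nat_lit 0) [nat_lit 17617] false,
   Spec.mk (nat_lit 11059) (nat_lit 0) [nat_lit 15433, nat_lit 9601, nat_lit 11221, nat_lit 11005, nat_lit 11113, nat_lit 11041, nat_lit 11077, nat_lit 11065, nat_lit 11057] (nat_lit 0) [nat_lit 17619, nat_lit 4499] false,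
   Spec.mk (nat_lit 11063) (nat_lit 0) [nat_lit 15437, nat_lit 9605, nat_lit 11225, nat_lit 11009, nat_lit 11117, nat_lit 11081, nat_lit 11057, nat_lit 11065] (nat_lit 2) [nat_lit 17623] false,
   Spec.mk (nat_lit 11065) (nat_lit 0) [nat_lit 15439, nat_lit 9607, nat_lit 11227, nat_lit 11011, nat_lit 11119, nat_lit 11083, nat_lit 11059, nat_lit 11063, nat_lit 11067] (nat_lit 0) [nat_lit 17625, nat_lit 4505] false,
   Spec.mk (nat_lit 11067) (nat_lit 0) [nat_lit 15441, nat_lit 9609, nat_lit 11229, nat_lit 11013, nat_lit 11121, nat_lit 11085, nat_lit 11065] (nat_lit 0) [nat_lit 4507] false,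
   Spec.mk (nat_lit 11075) (nat_lit 0) [nat_lit 15449, nat_lit 9617, nat_lit 11237, nat_lit 11129, nat_lit 11057, nat_lit 11081, nat_lit 11077] (nat_lit 1) [nat_lit 17635] false,
   Spec.mk (nat_lit 11077) (nat_lit 0) [nat_lit 15451, nat_lit 9619, nat_lit 11239, nat_lit 11131, nat_lit 11059, nat_lit 11083, nat_lit 11075] (nat_lit 2) [nat_lit 17637, nat_lit 4517] false,
   Spec.mk (nat_lit 11081) (nat_lit 0) [nat_lit 15455, nat_lit 9623, nat_lit 11243, nat_lit 11135, nat_lit 11063, nat_lit 11075, nat_lit 11083] (nat_lit 1) [nat_lit 17641] false,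
   Spec.mk (nat_lit 11083) (nat_lit 0) [nat_lit 15457, nat_lit 9625, nat_lit 11245, nat_lit 11137, nat_lit 11065, nat_lit 11077, nat_lit 11089, nat_lit 11081, nat_lit 11085] (nat_lit 0) [nat_lit 17643, nat_lit 4523] false,
   Spec.mk (nat_lit 11085) (nat_lit 0) [nat_lit 15459, nat_lit 9627, nat_lit 11247, nat_lit 11139, nat_lit 11067, nat_lit 11091, nat_lit 11083] (nat_lit 1) [nat_lit 4525] false,
   Spec.mk (nat_lit 11089) (nat_lit 0) [nat_lit 15463, nat_lit 9631, nat_lit 11251, nat_lit 11143, nat_lit 11083, nat_lit 11091] (nat_lit 0) [nat_lit 17649, nat_lit 4529] false,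
   Spec.mk (nat_lit 11091) (nat_lit 1) [nat_lit 15465, nat_lit 9633, nat_lit 11253, nat_lit 11145, nat_lit 11085, nat_lit 11089] (nat_lit 0) [nat_lit 4531] false,
   Spec.mk (nat_lit 11105) (nat_lit 0) [nat_lit 15479, nat_lit 9647, nat_lit 11267, nat_lit 11051, nat_lit 11111] (nat_lit 1) [nat_lit 17665] false,
   Spec.mk (nat_lit 11111) (nat_lit 0) [nat_lit 15485, nat_lit 9653, nat_lit 11273, nat_lit 11057, nat_lit 11129, nat_lit 11105, nat_lit 11117, nat_lit 11113] (nat_lit 2) [nat_lit 17671] false,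
   Spec.mk (nat_lit 11113) (nat_lit 0) [nat_lit 15487, nat_lit 9655, nat_lit 11275, nat_lit 11059, nat_lit 11131, nat_lit 11119, nat_lit 11111] (nat_lit 2) [nat_lit 17673, nat_lit 4553] false,
   Spec.mk (nat_lit 11117) (nat_lit 0) [nat_lit 15491, nat_lit 9659, nat_lit 11279, nat_lit 11063, nat_lit 11135, nat_lit 11111, nat_lit 11119] (nat_lit 5) [nat_lit 17677] false,
   Spec.mk (nat_lit 11119) (nat_lit 0) [nat_lit 15493, nat_lit 9661, nat_lit 11281, nat_lit 11065, nat_lit 11137, nat_lit 11113, nat_lit 11117, nat_lit 11121] (nat_lit 3) [nat_lit 17679, nat_lit 4559] false,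
   Spec.mk (nat_lit 11121) (nat_lit 0) [nat_lit 15495, nat_lit 9663, nat_lit 11283, nat_lit 11067, nat_lit 11139, nat_lit 11119] (nat_lit 3) [nat_lit 4561] false,
   Spec.mk (nat_lit 11129) (nat_lit 0) [nat_lit 15503, nat_lit 9671, nat_lit 11291, nat_lit 11075, nat_lit 11111, nat_lit 11135, nat_lit 11131] (nat_lit 1) [nat_lit 17689] false,
   Spec.mk (nat_lit 11131) (nat_lit 0) [nat_lit 15505, nat_lit 9673, nat_lit 11293, nat_lit 11077, nat_lit 11113, nat_lit 11137, nat_lit 11129] (nat_lit 2) [nat_lit 17691, nat_lit 4571] false]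

noncomputable def sp30 : List Spec :=
  [Spec.mk (nat_lit 11135) (nat_lit 0) [nat_lit 15509, nat_lit 9677, nat_lit 11297, nat_lit 11081, nat_lit 11117, nat_lit 11153, nat_lit 11129, nat_lit 11137] (nat_lit 2) [nat_lit 17695] false,
   Spec.mk (nat_lit 11137) (nat_lit 0) [nat_lit 15511, nat_lit 9679, nat_lit 11299, nat_lit 11083, nat_lit 11119, nat_lit 11155, nat_lit 11131, nat_lit 11143, nat_lit 11135, nat_lit 11139] (nat_lit 1) [nat_lit 17697, nat_lit 4577] false,
   Spec.mk (nat_lit 11139) (nat_lit 0) [nat_lit 15513, nat_lit 9681, nat_lit 11301, nat_lit 11085, nat_lit 11121, nat_lit 11157, nat_lit 11145, nat_lit 11137] (nat_lit 2) [nat_lit 4579] false,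
   Spec.mk (nat_lit 11143) (nat_lit 0) [nat_lit 15517, nat_lit 9685, nat_lit 11305, nat_lit 11089, nat_lit 11161, nat_lit 11137, nat_lit 11145] (nat_lit 2) [nat_lit 17703, nat_lit 4583] false,
   Spec.mk (nat_lit 11145) (nat_lit 0) [nat_lit 15519, nat_lit 9687, nat_lit 11307, nat_lit 11091, nat_lit 11163, nat_lit 11139, nat_lit 11143] (nat_lit 1) [nat_lit 4585] false,
   Spec.mk (nat_lit 11153) (nat_lit 0) [nat_lit 15527, nat_lit 9695, nat_lit 11315, nat_lit 11135, nat_lit 11155] (nat_lit 1) [nat_lit 17713] false,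
   Spec.mk (nat_lit 11155) (nat_lit 0) [nat_lit 15529, nat_lit 9697, nat_lit 11317, nat_lit 11137, nat_lit 11161, nat_lit 11153, nat_lit 11157] (nat_lit 1) [nat_lit 17715, nat_lit 4595] false,
   Spec.mk (nat_lit 11157) (nat_lit 0) [nat_lit 15531, nat_lit 9699, nat_lit 11319, nat_lit 11139, nat_lit 11163, nat_lit 11155] (nat_lit 3) [nat_lit 4597] false,
   Spec.mk (nat_lit 11161) (nat_lit 0) [nat_lit 15535, nat_lit 9703, nat_lit 11323, nat_lit 11143, nat_lit 11155, nat_lit 11163] (nat_lit 0) [nat_lit 17721, nat_lit 4601] false,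
   Spec.mk (nat_lit 11163) (nat_lit 0) [nat_lit 15537, nat_lit 9705, nat_lit 11325, nat_lit 11145, nat_lit 11157, nat_lit 11169, nat_lit 11161] (nat_lit 0) [nat_lit 4603] false,
   Spec.mk (nat_lit 11169) (nat_lit 1) [nat_lit 15543, nat_lit 9711, nat_lit 11331, nat_lit 11163] (nat_lit 0) [nat_lit 4609] false,
   Spec.mk (nat_lit 11195) (nat_lit 1) [nat_lit 15569, nat_lit 9737, nat_lit 11681, nat_lit 11033, nat_lit 11213, nat_lit 11201] (nat_lit 0) [nat_lit 17755] false,
   Spec.mk (nat_lit 11201) (nat_lit 0) [nat_lit 15575, nat_lit 9743, nat_lit 11687, nat_lit 11039, nat_lit 11219, nat_lit 11195, nat_lit 11203] (nat_lit 1) [nat_lit 17761] false,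
   Spec.mk (nat_lit 11203) (nat_lit 0) [nat_lit 15577, nat_lit 9745, nat_lit 11689, nat_lit 11041, nat_lit 11221, nat_lit 11201] (nat_lit 0) [nat_lit 17763, nat_lit 4643] false,
   Spec.mk (nat_lit 11213) (nat_lit 0) [nat_lit 15587, nat_lit 9755, nat_lit 11699, nat_lit 11051, nat_lit 11267, nat_lit 11195, nat_lit 11219] (nat_lit 1) [nat_lit 17773] false,
   Spec.mk (nat_lit 11219) (nat_lit 0) [nat_lit 15593, nat_lit 9761, nat_lit 11705, nat_lit 11057, nat_lit 11273, nat_lit 11201, nat_lit 11237, nat_lit 11213, nat_lit 11225, nat_lit 11221] (nat_lit 1) [nat_lit 17779] false,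
   Spec.mk (nat_lit 11221) (nat_lit 0) [nat_lit 15595, nat_lit 9763, nat_lit 11707, nat_lit 11059, nat_lit 11275, nat_lit 11203, nat_lit 11239, nat_lit 11227, nat_lit 11219] (nat_lit 1) [nat_lit 17781, nat_lit 4661] false,
   Spec.mk (nat_lit 11225) (nat_lit 0) [nat_lit 15599, nat_lit 9767, nat_lit 11711, nat_lit 11063, nat_lit 11279, nat_lit 11243, nat_lit 11219, nat_lit 11227] (nat_lit 3) [nat_lit 17785] false,
   Spec.mk (nat_lit 11227) (nat_lit 0) [nat_lit 15601, nat_lit 9769, nat_lit 11713, nat_lit 11065, nat_lit 11281, nat_lit 11245, nat_lit 11221, nat_lit 11225, nat_lit 11229] (nat_lit 1) [nat_lit 17787, nat_lit 4667] false,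
   Spec.mk (nat_lit 11229) (nat_lit 0) [nat_lit 15603, nat_lit 9771, nat_lit 11715, nat_lit 11067, nat_lit 11283, nat_lit 11247, nat_lit 11227] (nat_lit 1) [nat_lit 4669] false,
   Spec.mk (nat_lit 11237) (nat_lit 0) [nat_lit 15611, nat_lit 9779, nat_lit 11723, nat_lit 11075, nat_lit 11291, nat_lit 11219, nat_lit 11243, nat_lit 11239] (nat_lit 3) [nat_lit 17797] false,
   Spec.mk (nat_lit 11239) (nat_lit 0) [nat_lit 15613, nat_lit 9781, nat_lit 11725, nat_lit 11077, nat_lit 11293, nat_lit 11221, nat_lit 11245, nat_lit 11237] (nat_lit 4) [nat_lit 17799, nat_lit 4679] false,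
   Spec.mk (nat_lit 11243) (nat_lit 0) [nat_lit 15617, nat_lit 9785, nat_lit 11729, nat_lit 11081, nat_lit 11297, nat_lit 11225, nat_lit 11237, nat_lit 11245] (nat_lit 3) [nat_lit 17803] false,
   Spec.mk (nat_lit 11245) (nat_lit 0) [nat_lit 15619, nat_lit 9787, nat_lit 11731, nat_lit 11083, nat_lit 11299, nat_lit 11227, nat_lit 11239, nat_lit 11251, nat_lit 11243, nat_lit 11247] (nat_lit 2) [nat_lit 17805, nat_lit 4685] false,
   Spec.mk (nat_lit 11247) (nat_lit 0) [nat_lit 15621, nat_lit 9789, nat_lit 11733, nat_lit 11085, nat_lit 11301, nat_lit 11229, nat_lit 11253, nat_lit 11245] (nat_lit 3) [nat_lit 4687] false,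
   Spec.mk (nat_lit 11251) (nat_lit 0) [nat_lit 15625, nat_lit 9793, nat_lit 11737, nat_lit 11089, nat_lit 11305, nat_lit 11245, nat_lit 11253] (nat_lit 2) [nat_lit 17811, nat_lit 4691] false,
   Spec.mk (nat_lit 11253) (nat_lit 0) [nat_lit 15627, nat_lit 9795, nat_lit 11739, nat_lit 11091, nat_lit 11307, nat_lit 11247, nat_lit 11251] (nat_lit 1) [nat_lit 4693] false,
   Spec.mk (nat_lit 11267) (nat_lit 0) [nat_lit 15641, nat_lit 9809, nat_lit 11753, nat_lit 11105, nat_lit 11429, nat_lit 11213, nat_lit 11273] (nat_lit 0) [nat_lit 17827] false,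
   Spec.mk (nat_lit 11273) (nat_lit 0) [nat_lit 15647, nat_lit 9815, nat_lit 11759, nat_lit 11111, nat_lit 11435, nat_lit 11219, nat_lit 11291, nat_lit 11267, nat_lit 11279, nat_lit 11275] (nat_lit 1) [nat_lit 17833] false,
   Spec.mk (nat_lit 11275) (nat_lit 0) [nat_lit 15649, nat_lit 9817, nat_lit 11761, nat_lit 11113, nat_lit 11437, nat_lit 11221, nat_lit 11293, nat_lit 11281, nat_lit 11273] (nat_lit 1) [nat_lit 17835, nat_lit 4715] false,
   Spec.mk (nat_lit 11279) (nat_lit 0) [nat_lit 15653, nat_lit 9821, nat_lit 11765, nat_lit 11117, nat_lit 11441, nat_lit 11225, nat_lit 11297, nat_lit 11273, nat_lit 11281] (nat_lit 4) [nat_lit 17839] false,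
   Spec.mk (nat_lit 11281) (nat_lit 0) [nat_lit 15655, nat_lit 9823, nat_lit 11767, nat_lit 11119, nat_lit 11443, nat_lit 11227, nat_lit 11299, nat_lit 11275, nat_lit 11279, nat_lit 11283] (nat_lit 2) [nat_lit 17841, nat_lit 4721] false,
   Spec.mk (nat_lit 11283) (nat_lit 0) [nat_lit 15657, nat_lit 9825, nat_lit 11769, nat_lit 11121, nat_lit 11445, nat_lit 11229, nat_lit 11301, nat_lit 11281] (nat_lit 2) [nat_lit 4723] false,
   Spec.mk (nat_lit 11291) (nat_lit 0) [nat_lit 15665, nat_lit 9833, nat_lit 11777, nat_lit 11129, nat_lit 11453, nat_lit 11237, nat_lit 11345, nat_lit 11273, nat_lit 11297, nat_lit 11293] (nat_lit 1) [nat_lit 17851] false,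
   Spec.mk (nat_lit 11293) (nat_lit 0) [nat_lit 15667, nat_lit 9835, nat_lit 11779, nat_lit 11131, nat_lit 11455, nat_lit 11239, nat_lit 11347, nat_lit 11275, nat_lit 11299, nat_lit 11291] (nat_lit 2) [nat_lit 17853, nat_lit 4733] false,
   Spec.mk (nat_lit 11297) (nat_lit 0) [nat_lit 15671, nat_lit 9839, nat_lit 11783, nat_lit 11135, nat_lit 11459, nat_lit 11243, nat_lit 11351, nat_lit 11279, nat_lit 11315, nat_lit 11291, nat_lit 11299] (nat_lit 2) [nat_lit 17857] false,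
   Spec.mk (nat_lit 11299) (nat_lit 0) [nat_lit 15673, nat_lit 9841, nat_lit 11785, nat_lit 11137, nat_lit 11461, nat_lit 11245, nat_lit 11353, nat_lit 11281, nat_lit 11317, nat_lit 11293, nat_lit 11305, nat_lit 11297, nat_lit 11301] (nat_lit 1) [nat_lit 17859, nat_lit 4739] false,
   Spec.mk (nat_lit 11301) (nat_lit 0) [nat_lit 15675, nat_lit 9843, nat_lit 11787, nat_lit 11139, nat_lit 11463, nat_lit 11247, nat_lit 11355, nat_lit 11283, nat_lit 11319, nat_lit 11307, nat_lit 11299] (nat_lit 2) [nat_lit 4741] false,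
   Spec.mk (nat_lit 11305) (nat_lit 0) [nat_lit 15679, nat_lit 9847, nat_lit 11791, nat_lit 11143, nat_lit 11467, nat_lit 11251, nat_lit 11359, nat_lit 11323, nat_lit 11299, nat_lit 11307] (nat_lit 2) [nat_lit 17865, nat_lit 4745] false,
   Spec.mk (nat_lit 11307) (nat_lit 0) [nat_lit 15681, nat_lit 9849, nat_lit 11793, nat_lit 11145, nat_lit 11469, nat_lit 11253, nat_lit 11361, nat_lit 11325, nat_lit 11301, nat_lit 11305] (nat_lit 1) [nat_lit 4747] false,
   Spec.mk (nat_lit 11315) (nat_lit 0) [nat_lit 15689, nat_lit 9857, nat_lit 11801, nat_lit 11153, nat_lit 11477, nat_lit 11369, nat_lit 11297, nat_lit 11317] (nat_lit 2) [nat_lit 17875] false,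
   Spec.mk (nat_lit 11317) (nat_lit 0) [nat_lit 15691, nat_lit 9859, nat_lit 11803, nat_lit 11155, nat_lit 11479, nat_lit 11371, nat_lit 11299, nat_lit 11323, nat_lit 11315, nat_lit 11319] (nat_lit 2) [nat_lit 17877, nat_lit 4757] false,
   Spec.mk (nat_lit 11319) (nat_lit 0) [nat_lit 15693, nat_lit 9861, nat_lit 11805, nat_lit 11157, nat_lit 11481, nat_lit 11373, nat_lit 11301, nat_lit 11325, nat_lit 11317] (nat_lit 4) [nat_lit 4759] false,
   Spec.mk (nat_lit 11323) (nat_lit 0) [nat_lit 15697, nat_lit 9865, nat_lit 11809, nat_lit 11161, nat_lit 11485, nat_lit 11377, nat_lit 11305, nat_lit 11317, nat_lit 11325] (nat_lit 1) [nat_lit 17883, nat_lit 4763] false,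
   Spec.mk (nat_lit 11325) (nat_lit 0) [nat_lit 15699, nat_lit 9867, nat_lit 11811, nat_lit 11163, nat_lit 11487, nat_lit 11379, nat_lit 11307, nat_lit 11319, nat_lit 11331, nat_lit 11323] (nat_lit 1) [nat_lit 4765] false,
   Spec.mk (nat_lit 11331) (nat_lit 0) [nat_lit 15705, nat_lit 9873, nat_lit 11817, nat_lit 11169, nat_lit 11493, nat_lit 11385, nat_lit 11325] (nat_lit 0) [nat_lit 4771] false,
   Spec.mk (nat_lit 11345) (nat_lit 0) [nat_lit 15719, nat_lit 9887, nat_lit 11831, nat_lit 11507, nat_lit 11291, nat_lit 11351, nat_lit 11347] (nat_lit 1) [nat_lit 17905] false,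
   Spec.mk (nat_lit 11347) (nat_lit 0) [nat_lit 15721, nat_lit 9889, nat_lit 11833, nat_lit 11509, nat_lit 11293, nat_lit 11353, nat_lit 11345] (nat_lit 2) [nat_lit 17907, nat_lit 4787] false,
   Spec.mk (nat_lit 11351) (nat_lit 0) [nat_lit 15725, nat_lit 9893, nat_lit 11837, nat_lit 11513, nat_lit 11297, nat_lit 11369, nat_lit 11345, nat_lit 11353] (nat_lit 3) [nat_lit 17911] false,
   Spec.mk (nat_lit 11353) (nat_lit 0) [nat_lit 15727, nat_lit 9895, nat_lit 11839, nat_lit 11515, nat_lit 11299, nat_lit 11371, nat_lit 11347, nat_lit 11359, nat_lit 11351, nat_lit 11355] (nat_lit 2) [nat_lit 17913, nat_lit 4793] false,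
   Spec.mk (nat_lit 11355) (nat_lit 0) [nat_lit 15729, nat_lit 9897, nat_lit 11841, nat_lit 11517, nat_lit 11301, nat_lit 11373, nat_lit 11361, nat_lit 11353] (nat_lit 3) [nat_lit 4795] false,
   Spec.mk (nat_lit 11359) (nat_lit 0) [nat_lit 15733, nat_lit 9901, nat_lit 11845, nat_lit 11521, nat_lit 11305, nat_lit 11377, nat_lit 11353, nat_lit 11361] (nat_lit 4) [nat_lit 17919, nat_lit 4799] false,
   Spec.mk (nat_lit 11361) (nat_lit 0) [nat_lit 15735, nat_lit 9903, nat_lit 11847, nat_lit 11523, nat_lit 11307, nat_lit 11379, nat_lit 11355, nat_lit 11359] (nat_lit 3) [nat_lit 4801] false,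
   Spec.mk (nat_lit 11369) (nat_lit 0) [nat_lit 15743, nat_lit 9911, nat_lit 11855, nat_lit 11531, nat_lit 11315, nat_lit 11351, nat_lit 11371] (nat_lit 1) [nat_lit 17929] false,
   Spec.mk (nat_lit 11371) (nat_lit 0) [nat_lit 15745, nat_lit 9913, nat_lit 11857, nat_lit 11533, nat_lit 11317, nat_lit 11353, nat_lit 11377, nat_lit 11369, nat_lit 11373] (nat_lit 1) [nat_lit 17931, nat_lit 4811] false,
   Spec.mk (nat_lit 11373) (nat_lit 0) [nat_lit 15747, nat_lit 9915, nat_lit 11859, nat_lit 11535, nat_lit 11319, nat_lit 11355, nat_lit 11379, nat_lit 11371] (nat_lit 3) [nat_lit 4813] false,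
   Spec.mk (nat_lit 11377) (nat_lit 0) [nat_lit 15751, nat_lit 9919, nat_lit 11863, nat_lit 11539, nat_lit 11323, nat_lit 11359, nat_lit 11395, nat_lit 11371, nat_lit 11379] (nat_lit 1) [nat_lit 17937, nat_lit 4817] false,
   Spec.mk (nat_lit 11379) (nat_lit 0) [nat_lit 15753, nat_lit 9921, nat_lit 11865, nat_lit 11541, nat_lit 11325, nat_lit 11361, nat_lit 11397, nat_lit 11373, nat_lit 11385, nat_lit 11377] (nat_lit 1) [nat_lit 4819] false,
   Spec.mk (nat_lit 11385) (nat_lit 0) [nat_lit 15759, nat_lit 9927, nat_lit 11871, nat_lit 11547, nat_lit 11331, nat_lit 11403, nat_lit 11379] (nat_lit 1) [nat_lit 4825] false,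
   Spec.mk (nat_lit 11395) (nat_lit 0) [nat_lit 15769, nat_lit 9937, nat_lit 11881, nat_lit 11557, nat_lit 11377, nat_lit 11397] (nat_lit 0) [nat_lit 17955, nat_lit 4835] false]

noncomputable def sp31 : List Spec :=
  [Spec.mk (nat_lit 11397) (nat_lit 0) [nat_lit 15771, nat_lit 9939, nat_lit 11883, nat_lit 11559, nat_lit 11379, nat_lit 11403, nat_lit 11395] (nat_lit 1) [nat_lit 4837] false,
   Spec.mk (nat_lit 11403) (nat_lit 1) [nat_lit 15777, nat_lit 9945, nat_lit 11889, nat_lit 11565, nat_lit 11385, nat_lit 11397] (nat_lit 0) [nat_lit 4843] false,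
   Spec.mk (nat_lit 11429) (nat_lit 0) [nat_lit 15803, nat_lit 9971, nat_lit 11915, nat_lit 11267, nat_lit 11435] (nat_lit 1) [nat_lit 17989] false,
   Spec.mk (nat_lit 11435) (nat_lit 0) [nat_lit 15809, nat_lit 9977, nat_lit 11921, nat_lit 11273, nat_lit 11453, nat_lit 11429, nat_lit 11441, nat_lit 11437] (nat_lit 2) [nat_lit 17995] false,
   Spec.mk (nat_lit 11437) (nat_lit 0) [nat_lit 15811, nat_lit 9979, nat_lit 11923, nat_lit 11275, nat_lit 11455, nat_lit 11443, nat_lit 11435] (nat_lit 2) [nat_lit 17997, nat_lit 4877] false,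
   Spec.mk (nat_lit 11441) (nat_lit 0) [nat_lit 15815, nat_lit 9983, nat_lit 11927, nat_lit 11279, nat_lit 11459, nat_lit 11435, nat_lit 11443] (nat_lit 5) [nat_lit 18001] false,
   Spec.mk (nat_lit 11443) (nat_lit 0) [nat_lit 15817, nat_lit 9985, nat_lit 11929, nat_lit 11281, nat_lit 11461, nat_lit 11437, nat_lit 11441, nat_lit 11445] (nat_lit 3) [nat_lit 18003, nat_lit 4883] false,
   Spec.mk (nat_lit 11445) (nat_lit 0) [nat_lit 15819, nat_lit 9987, nat_lit 11931, nat_lit 11283, nat_lit 11463, nat_lit 11443] (nat_lit 3) [nat_lit 4885] false,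
   Spec.mk (nat_lit 11453) (nat_lit 0) [nat_lit 15827, nat_lit 9995, nat_lit 11939, nat_lit 11291, nat_lit 11507, nat_lit 11435, nat_lit 11459, nat_lit 11455] (nat_lit 3) [nat_lit 18013] false,
   Spec.mk (nat_lit 11455) (nat_lit 0) [nat_lit 15829, nat_lit 9997, nat_lit 11941, nat_lit 11293, nat_lit 11509, nat_lit 11437, nat_lit 11461, nat_lit 11453] (nat_lit 4) [nat_lit 18015, nat_lit 4895] false,
   Spec.mk (nat_lit 11459) (nat_lit 0) [nat_lit 15833, nat_lit 10001, nat_lit 11945, nat_lit 11297, nat_lit 11513, nat_lit 11441, nat_lit 11477, nat_lit 11453, nat_lit 11461] (nat_lit 4) [nat_lit 18019] false,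
   Spec.mk (nat_lit 11461) (nat_lit 0) [nat_lit 15835, nat_lit 10003, nat_lit 11947, nat_lit 11299, nat_lit 11515, nat_lit 11443, nat_lit 11479, nat_lit 11455, nat_lit 11467, nat_lit 11459, nat_lit 11463] (nat_lit 3) [nat_lit 18021, nat_lit 4901] false,
   Spec.mk (nat_lit 11463) (nat_lit 0) [nat_lit 15837, nat_lit 10005, nat_lit 11949, nat_lit 11301, nat_lit 11517, nat_lit 11445, nat_lit 11481, nat_lit 11469, nat_lit 11461] (nat_lit 4) [nat_lit 4903] false,
   Spec.mk (nat_lit 11467) (nat_lit 0) [nat_lit 15841, nat_lit 10009, nat_lit 11953, nat_lit 11305, nat_lit 11521, nat_lit 11485, nat_lit 11461, nat_lit 11469] (nat_lit 4) [nat_lit 18027, nat_lit 4907] false,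
   Spec.mk (nat_lit 11469) (nat_lit 0) [nat_lit 15843, nat_lit 10011, nat_lit 11955, nat_lit 11307, nat_lit 11523, nat_lit 11487, nat_lit 11463, nat_lit 11467] (nat_lit 3) [nat_lit 4909] false,
   Spec.mk (nat_lit 11477) (nat_lit 0) [nat_lit 15851, nat_lit 10019, nat_lit 11963, nat_lit 11315, nat_lit 11531, nat_lit 11459, nat_lit 11479] (nat_lit 5) [nat_lit 18037] false,
   Spec.mk (nat_lit 11479) (nat_lit 0) [nat_lit 15853, nat_lit 10021, nat_lit 11965, nat_lit 11317, nat_lit 11533, nat_lit 11461, nat_lit 11485, nat_lit 11477, nat_lit 11481] (nat_lit 5) [nat_lit 18039, nat_lit 4919] false,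
   Spec.mk (nat_lit 11481) (nat_lit 0) [nat_lit 15855, nat_lit 10023, nat_lit 11967, nat_lit 11319, nat_lit 11535, nat_lit 11463, nat_lit 11487, nat_lit 11479] (nat_lit 7) [nat_lit 4921] false,
   Spec.mk (nat_lit 11485) (nat_lit 0) [nat_lit 15859, nat_lit 10027, nat_lit 11971, nat_lit 11323, nat_lit 11539, nat_lit 11467, nat_lit 11479, nat_lit 11487] (nat_lit 4) [nat_lit 18045, nat_lit 4925] false,
   Spec.mk (nat_lit 11487) (nat_lit 0) [nat_lit 15861, nat_lit 10029, nat_lit 11973, nat_lit 11325, nat_lit 11541, nat_lit 11469, nat_lit 11481, nat_lit 11493, nat_lit 11485] (nat_lit 4) [nat_lit 4927] false,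
   Spec.mk (nat_lit 11493) (nat_lit 0) [nat_lit 15867, nat_lit 10035, nat_lit 11979, nat_lit 11331, nat_lit 11547, nat_lit 11487] (nat_lit 3) [nat_lit 4933] false,
   Spec.mk (nat_lit 11507) (nat_lit 0) [nat_lit 15881, nat_lit 10049, nat_lit 11993, nat_lit 11345, nat_lit 11453, nat_lit 11513, nat_lit 11509] (nat_lit 1) [nat_lit 18067] false,
   Spec.mk (nat_lit 11509) (nat_lit 0) [nat_lit 15883, nat_lit 10051, nat_lit 11995, nat_lit 11347, nat_lit 11455, nat_lit 11515, nat_lit 11507] (nat_lit 2) [nat_lit 18069, nat_lit 4949] false,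
   Spec.mk (nat_lit 11513) (nat_lit 0) [nat_lit 15887, nat_lit 10055, nat_lit 11999, nat_lit 11351, nat_lit 11459, nat_lit 11531, nat_lit 11507, nat_lit 11515] (nat_lit 3) [nat_lit 18073] false,
   Spec.mk (nat_lit 11515) (nat_lit 0) [nat_lit 15889, nat_lit 10057, nat_lit 12001, nat_lit 11353, nat_lit 11461, nat_lit 11533, nat_lit 11509, nat_lit 11521, nat_lit 11513, nat_lit 11517] (nat_lit 2) [nat_lit 18075, nat_lit 4955] false,
   Spec.mk (nat_lit 11517) (nat_lit 0) [nat_lit 15891, nat_lit 10059, nat_lit 12003, nat_lit 11355, nat_lit 11463, nat_lit 11535, nat_lit 11523, nat_lit 11515] (nat_lit 3) [nat_lit 4957] false,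
   Spec.mk (nat_lit 11521) (nat_lit 0) [nat_lit 15895, nat_lit 10063, nat_lit 12007, nat_lit 11359, nat_lit 11467, nat_lit 11539, nat_lit 11515, nat_lit 11523] (nat_lit 4) [nat_lit 18081, nat_lit 4961] false,
   Spec.mk (nat_lit 11523) (nat_lit 0) [nat_lit 15897, nat_lit 10065, nat_lit 12009, nat_lit 11361, nat_lit 11469, nat_lit 11541, nat_lit 11517, nat_lit 11521] (nat_lit 3) [nat_lit 4963] false,
   Spec.mk (nat_lit 11531) (nat_lit 0) [nat_lit 15905, nat_lit 10073, nat_lit 12017, nat_lit 11369, nat_lit 11477, nat_lit 11585, nat_lit 11513, nat_lit 11533] (nat_lit 2) [nat_lit 18091] false,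
   Spec.mk (nat_lit 11533) (nat_lit 0) [nat_lit 15907, nat_lit 10075, nat_lit 12019, nat_lit 11371, nat_lit 11479, nat_lit 11587, nat_lit 11515, nat_lit 11539, nat_lit 11531, nat_lit 11535] (nat_lit 2) [nat_lit 18093, nat_lit 4973] false,
   Spec.mk (nat_lit 11535) (nat_lit 0) [nat_lit 15909, nat_lit 10077, nat_lit 12021, nat_lit 11373, nat_lit 11481, nat_lit 11589, nat_lit 11517, nat_lit 11541, nat_lit 11533] (nat_lit 4) [nat_lit 4975] false,
   Spec.mk (nat_lit 11539) (nat_lit 0) [nat_lit 15913, nat_lit 10081, nat_lit 12025, nat_lit 11377, nat_lit 11485, nat_lit 11593, nat_lit 11521, nat_lit 11557, nat_lit 11533, nat_lit 11541] (nat_lit 2) [nat_lit 18099, nat_lit 4979] false,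
   Spec.mk (nat_lit 11541) (nat_lit 0) [nat_lit 15915, nat_lit 10083, nat_lit 12027, nat_lit 11379, nat_lit 11487, nat_lit 11595, nat_lit 11523, nat_lit 11559, nat_lit 11535, nat_lit 11547, nat_lit 11539] (nat_lit 2) [nat_lit 4981] false,
   Spec.mk (nat_lit 11547) (nat_lit 0) [nat_lit 15921, nat_lit 10089, nat_lit 12033, nat_lit 11385, nat_lit 11493, nat_lit 11601, nat_lit 11565, nat_lit 11541] (nat_lit 2) [nat_lit 4987] false,
   Spec.mk (nat_lit 11557) (nat_lit 0) [nat_lit 15931, nat_lit 10099, nat_lit 12043, nat_lit 11395, nat_lit 11611, nat_lit 11539, nat_lit 11559] (nat_lit 2) [nat_lit 18117, nat_lit 4997] false,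
   Spec.mk (nat_lit 11559) (nat_lit 0) [nat_lit 15933, nat_lit 10101, nat_lit 12045, nat_lit 11397, nat_lit 11613, nat_lit 11541, nat_lit 11565, nat_lit 11557] (nat_lit 3) [nat_lit 4999] false,
   Spec.mk (nat_lit 11565) (nat_lit 0) [nat_lit 15939, nat_lit 10107, nat_lit 12051, nat_lit 11403, nat_lit 11619, nat_lit 11547, nat_lit 11559] (nat_lit 1) [nat_lit 5005] false,
   Spec.mk (nat_lit 11585) (nat_lit 0) [nat_lit 15959, nat_lit 10127, nat_lit 12071, nat_lit 11531, nat_lit 11587] (nat_lit 1) [nat_lit 18145] false,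
   Spec.mk (nat_lit 11587) (nat_lit 0) [nat_lit 15961, nat_lit 10129, nat_lit 12073, nat_lit 11533, nat_lit 11593, nat_lit 11585, nat_lit 11589] (nat_lit 1) [nat_lit 18147, nat_lit 5027] false,
   Spec.mk (nat_lit 11589) (nat_lit 0) [nat_lit 15963, nat_lit 10131, nat_lit 12075, nat_lit 11535, nat_lit 11595, nat_lit 11587] (nat_lit 3) [nat_lit 5029] false,
   Spec.mk (nat_lit 11593) (nat_lit 0) [nat_lit 15967, nat_lit 10135, nat_lit 12079, nat_lit 11539, nat_lit 11611, nat_lit 11587, nat_lit 11595] (nat_lit 2) [nat_lit 18153, nat_lit 5033] false,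
   Spec.mk (nat_lit 11595) (nat_lit 0) [nat_lit 15969, nat_lit 10137, nat_lit 12081, nat_lit 11541, nat_lit 11613, nat_lit 11589, nat_lit 11601, nat_lit 11593] (nat_lit 2) [nat_lit 5035] false,
   Spec.mk (nat_lit 11601) (nat_lit 0) [nat_lit 15975, nat_lit 10143, nat_lit 12087, nat_lit 11547, nat_lit 11619, nat_lit 11595] (nat_lit 3) [nat_lit 5041] false,
   Spec.mk (nat_lit 11611) (nat_lit 0) [nat_lit 15985, nat_lit 10153, nat_lit 12097, nat_lit 11557, nat_lit 11593, nat_lit 11613] (nat_lit 0) [nat_lit 18171, nat_lit 5051] false,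
   Spec.mk (nat_lit 11613) (nat_lit 0) [nat_lit 15987, nat_lit 10155, nat_lit 12099, nat_lit 11559, nat_lit 11595, nat_lit 11619, nat_lit 11611] (nat_lit 1) [nat_lit 5053] false,
   Spec.mk (nat_lit 11619) (nat_lit 0) [nat_lit 15993, nat_lit 10161, nat_lit 12105, nat_lit 11565, nat_lit 11601, nat_lit 11637, nat_lit 11613] (nat_lit 0) [nat_lit 5059] false,
   Spec.mk (nat_lit 11637) (nat_lit 1) [nat_lit 16011, nat_lit 10179, nat_lit 12123, nat_lit 11619] (nat_lit 0) [nat_lit 5077] false,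
   Spec.mk (nat_lit 11681) (nat_lit 3) [nat_lit 16055, nat_lit 10223, nat_lit 11195, nat_lit 11699, nat_lit 11687] (nat_lit 0) [nat_lit 18241] false,
   Spec.mk (nat_lit 11687) (nat_lit 1) [nat_lit 16061, nat_lit 10229, nat_lit 11201, nat_lit 11705, nat_lit 11681, nat_lit 11689] (nat_lit 0) [nat_lit 18247] false,
   Spec.mk (nat_lit 11689) (nat_lit 2) [nat_lit 16063, nat_lit 10231, nat_lit 11203, nat_lit 11707, nat_lit 11687] (nat_lit 0) [nat_lit 18249, nat_lit 5129] false,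
   Spec.mk (nat_lit 11699) (nat_lit 1) [nat_lit 16073, nat_lit 10241, nat_lit 11213, nat_lit 11753, nat_lit 11681, nat_lit 11705] (nat_lit 0) [nat_lit 18259] false,
   Spec.mk (nat_lit 11705) (nat_lit 1) [nat_lit 16079, nat_lit 10247, nat_lit 11219, nat_lit 11759, nat_lit 11687, nat_lit 11723, nat_lit 11699, nat_lit 11711, nat_lit 11707] (nat_lit 0) [nat_lit 18265] false,
   Spec.mk (nat_lit 11707) (nat_lit 1) [nat_lit 16081, nat_lit 10249, nat_lit 11221, nat_lit 11761, nat_lit 11689, nat_lit 11725, nat_lit 11713, nat_lit 11705] (nat_lit 0) [nat_lit 18267, nat_lit 5147] false,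
   Spec.mk (nat_lit 11711) (nat_lit 0) [nat_lit 16085, nat_lit 10253, nat_lit 11225, nat_lit 11765, nat_lit 11729, nat_lit 11705, nat_lit 11713] (nat_lit 1) [nat_lit 18271] false,
   Spec.mk (nat_lit 11713) (nat_lit 1) [nat_lit 16087, nat_lit 10255, nat_lit 11227, nat_lit 11767, nat_lit 11731, nat_lit 11707, nat_lit 11711, nat_lit 11715] (nat_lit 0) [nat_lit 18273, nat_lit 5153] false,
   Spec.mk (nat_lit 11715) (nat_lit 1) [nat_lit 16089, nat_lit 10257, nat_lit 11229, nat_lit 11769, nat_lit 11733, nat_lit 11713] (nat_lit 0) [nat_lit 5155] false,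
   Spec.mk (nat_lit 11723) (nat_lit 0) [nat_lit 16097, nat_lit 10265, nat_lit 11237, nat_lit 11777, nat_lit 11705, nat_lit 11729, nat_lit 11725] (nat_lit 1) [nat_lit 18283] false,
   Spec.mk (nat_lit 11725) (nat_lit 0) [nat_lit 16099, nat_lit 10267, nat_lit 11239, nat_lit 11779, nat_lit 11707, nat_lit 11731, nat_lit 11723] (nat_lit 2) [nat_lit 18285, nat_lit 5165] false,
   Spec.mk (nat_lit 11729) (nat_lit 0) [nat_lit 16103, nat_lit 10271, nat_lit 11243, nat_lit 11783, nat_lit 11711, nat_lit 11723, nat_lit 11731] (nat_lit 1) [nat_lit 18289] false,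
   Spec.mk (nat_lit 11731) (nat_lit 0) [nat_lit 16105, nat_lit 10273, nat_lit 11245, nat_lit 11785, nat_lit 11713, nat_lit 11725, nat_lit 11737, nat_lit 11729, nat_lit 11733] (nat_lit 0) [nat_lit 18291, nat_lit 5171] false]

noncomputable def sp32 : List Spec :=
  [Spec.mk (nat_lit 11733) (nat_lit 0) [nat_lit 16107, nat_lit 10275, nat_lit 11247, nat_lit 11787, nat_lit 11715, nat_lit 11739, nat_lit 11731] (nat_lit 1) [nat_lit 5173] false,
   Spec.mk (nat_lit 11737) (nat_lit 0) [nat_lit 16111, nat_lit 10279, nat_lit 11251, nat_lit 11791, nat_lit 11731, nat_lit 11739] (nat_lit 0) [nat_lit 18297, nat_lit 5177] false,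
   Spec.mk (nat_lit 11739) (nat_lit 1) [nat_lit 16113, nat_lit 10281, nat_lit 11253, nat_lit 11793, nat_lit 11733, nat_lit 11737] (nat_lit 0) [nat_lit 5179] false,
   Spec.mk (nat_lit 11753) (nat_lit 1) [nat_lit 16127, nat_lit 10295, nat_lit 11267, nat_lit 11915, nat_lit 11699, nat_lit 11759] (nat_lit 0) [nat_lit 18313] false,
   Spec.mk (nat_lit 11759) (nat_lit 0) [nat_lit 16133, nat_lit 10301, nat_lit 11273, nat_lit 11921, nat_lit 11705, nat_lit 11777, nat_lit 11753, nat_lit 11765, nat_lit 11761] (nat_lit 0) [nat_lit 18319] false,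
   Spec.mk (nat_lit 11761) (nat_lit 0) [nat_lit 16135, nat_lit 10303, nat_lit 11275, nat_lit 11923, nat_lit 11707, nat_lit 11779, nat_lit 11767, nat_lit 11759] (nat_lit 0) [nat_lit 18321, nat_lit 5201] false,
   Spec.mk (nat_lit 11765) (nat_lit 0) [nat_lit 16139, nat_lit 10307, nat_lit 11279, nat_lit 11927, nat_lit 11711, nat_lit 11783, nat_lit 11759, nat_lit 11767] (nat_lit 3) [nat_lit 18325] false,
   Spec.mk (nat_lit 11767) (nat_lit 0) [nat_lit 16141, nat_lit 10309, nat_lit 11281, nat_lit 11929, nat_lit 11713, nat_lit 11785, nat_lit 11761, nat_lit 11765, nat_lit 11769] (nat_lit 1) [nat_lit 18327, nat_lit 5207] false,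
   Spec.mk (nat_lit 11769) (nat_lit 0) [nat_lit 16143, nat_lit 10311, nat_lit 11283, nat_lit 11931, nat_lit 11715, nat_lit 11787, nat_lit 11767] (nat_lit 1) [nat_lit 5209] false,
   Spec.mk (nat_lit 11777) (nat_lit 0) [nat_lit 16151, nat_lit 10319, nat_lit 11291, nat_lit 11939, nat_lit 11723, nat_lit 11831, nat_lit 11759, nat_lit 11783, nat_lit 11779] (nat_lit 0) [nat_lit 18337] false,
   Spec.mk (nat_lit 11779) (nat_lit 0) [nat_lit 16153, nat_lit 10321, nat_lit 11293, nat_lit 11941, nat_lit 11725, nat_lit 11833, nat_lit 11761, nat_lit 11785, nat_lit 11777] (nat_lit 1) [nat_lit 18339, nat_lit 5219] false,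
   Spec.mk (nat_lit 11783) (nat_lit 0) [nat_lit 16157, nat_lit 10325, nat_lit 11297, nat_lit 11945, nat_lit 11729, nat_lit 11837, nat_lit 11765, nat_lit 11801, nat_lit 11777, nat_lit 11785] (nat_lit 1) [nat_lit 18343] false,
   Spec.mk (nat_lit 11785) (nat_lit 0) [nat_lit 16159, nat_lit 10327, nat_lit 11299, nat_lit 11947, nat_lit 11731, nat_lit 11839, nat_lit 11767, nat_lit 11803, nat_lit 11779, nat_lit 11791, nat_lit 11783, nat_lit 11787] (nat_lit 0) [nat_lit 18345, nat_lit 5225] false,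
   Spec.mk (nat_lit 11787) (nat_lit 0) [nat_lit 16161, nat_lit 10329, nat_lit 11301, nat_lit 11949, nat_lit 11733, nat_lit 11841, nat_lit 11769, nat_lit 11805, nat_lit 11793, nat_lit 11785] (nat_lit 1) [nat_lit 5227] false,
   Spec.mk (nat_lit 11791) (nat_lit 0) [nat_lit 16165, nat_lit 10333, nat_lit 11305, nat_lit 11953, nat_lit 11737, nat_lit 11845, nat_lit 11809, nat_lit 11785, nat_lit 11793] (nat_lit 1) [nat_lit 18351, nat_lit 5231] false,
   Spec.mk (nat_lit 11793) (nat_lit 0) [nat_lit 16167, nat_lit 10335, nat_lit 11307, nat_lit 11955, nat_lit 11739, nat_lit 11847, nat_lit 11811, nat_lit 11787, nat_lit 11791] (nat_lit 0) [nat_lit 5233] false,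
   Spec.mk (nat_lit 11801) (nat_lit 0) [nat_lit 16175, nat_lit 10343, nat_lit 11315, nat_lit 11963, nat_lit 11855, nat_lit 11783, nat_lit 11803] (nat_lit 1) [nat_lit 18361] false,
   Spec.mk (nat_lit 11803) (nat_lit 0) [nat_lit 16177, nat_lit 10345, nat_lit 11317, nat_lit 11965, nat_lit 11857, nat_lit 11785, nat_lit 11809, nat_lit 11801, nat_lit 11805] (nat_lit 1) [nat_lit 18363, nat_lit 5243] false,
   Spec.mk (nat_lit 11805) (nat_lit 0) [nat_lit 16179, nat_lit 10347, nat_lit 11319, nat_lit 11967, nat_lit 11859, nat_lit 11787, nat_lit 11811, nat_lit 11803] (nat_lit 3) [nat_lit 5245] false,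
   Spec.mk (nat_lit 11809) (nat_lit 0) [nat_lit 16183, nat_lit 10351, nat_lit 11323, nat_lit 11971, nat_lit 11863, nat_lit 11791, nat_lit 11803, nat_lit 11811] (nat_lit 0) [nat_lit 18369, nat_lit 5249] false,
   Spec.mk (nat_lit 11811) (nat_lit 0) [nat_lit 16185, nat_lit 10353, nat_lit 11325, nat_lit 11973, nat_lit 11865, nat_lit 11793, nat_lit 11805, nat_lit 11817, nat_lit 11809] (nat_lit 0) [nat_lit 5251] false,
   Spec.mk (nat_lit 11817) (nat_lit 1) [nat_lit 16191, nat_lit 10359, nat_lit 11331, nat_lit 11979, nat_lit 11871, nat_lit 11811] (nat_lit 0) [nat_lit 5257] false,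
   Spec.mk (nat_lit 11831) (nat_lit 0) [nat_lit 16205, nat_lit 10373, nat_lit 11345, nat_lit 11993, nat_lit 11777, nat_lit 11837, nat_lit 11833] (nat_lit 1) [nat_lit 18391] false,
   Spec.mk (nat_lit 11833) (nat_lit 0) [nat_lit 16207, nat_lit 10375, nat_lit 11347, nat_lit 11995, nat_lit 11779, nat_lit 11839, nat_lit 11831] (nat_lit 2) [nat_lit 18393, nat_lit 5273] false,
   Spec.mk (nat_lit 11837) (nat_lit 0) [nat_lit 16211, nat_lit 10379, nat_lit 11351, nat_lit 11999, nat_lit 11783, nat_lit 11855, nat_lit 11831, nat_lit 11839] (nat_lit 3) [nat_lit 18397] false,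
   Spec.mk (nat_lit 11839) (nat_lit 0) [nat_lit 16213, nat_lit 10381, nat_lit 11353, nat_lit 12001, nat_lit 11785, nat_lit 11857, nat_lit 11833, nat_lit 11845, nat_lit 11837, nat_lit 11841] (nat_lit 2) [nat_lit 18399, nat_lit 5279] false,
   Spec.mk (nat_lit 11841) (nat_lit 0) [nat_lit 16215, nat_lit 10383, nat_lit 11355, nat_lit 12003, nat_lit 11787, nat_lit 11859, nat_lit 11847, nat_lit 11839] (nat_lit 3) [nat_lit 5281] false,
   Spec.mk (nat_lit 11845) (nat_lit 0) [nat_lit 16219, nat_lit 10387, nat_lit 11359, nat_lit 12007, nat_lit 11791, nat_lit 11863, nat_lit 11839, nat_lit 11847] (nat_lit 4) [nat_lit 18405, nat_lit 5285] false,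
   Spec.mk (nat_lit 11847) (nat_lit 0) [nat_lit 16221, nat_lit 10389, nat_lit 11361, nat_lit 12009, nat_lit 11793, nat_lit 11865, nat_lit 11841, nat_lit 11845] (nat_lit 3) [nat_lit 5287] false,
   Spec.mk (nat_lit 11855) (nat_lit 0) [nat_lit 16229, nat_lit 10397, nat_lit 11369, nat_lit 12017, nat_lit 11801, nat_lit 11837, nat_lit 11857] (nat_lit 1) [nat_lit 18415] false,
   Spec.mk (nat_lit 11857) (nat_lit 0) [nat_lit 16231, nat_lit 10399, nat_lit 11371, nat_lit 12019, nat_lit 11803, nat_lit 11839, nat_lit 11863, nat_lit 11855, nat_lit 11859] (nat_lit 1) [nat_lit 18417, nat_lit 5297] false,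
   Spec.mk (nat_lit 11859) (nat_lit 0) [nat_lit 16233, nat_lit 10401, nat_lit 11373, nat_lit 12021, nat_lit 11805, nat_lit 11841, nat_lit 11865, nat_lit 11857] (nat_lit 3) [nat_lit 5299] false,
   Spec.mk (nat_lit 11863) (nat_lit 0) [nat_lit 16237, nat_lit 10405, nat_lit 11377, nat_lit 12025, nat_lit 11809, nat_lit 11845, nat_lit 11881, nat_lit 11857, nat_lit 11865] (nat_lit 1) [nat_lit 18423, nat_lit 5303] false,
   Spec.mk (nat_lit 11865) (nat_lit 0) [nat_lit 16239, nat_lit 10407, nat_lit 11379, nat_lit 12027, nat_lit 11811, nat_lit 11847, nat_lit 11883, nat_lit 11859, nat_lit 11871, nat_lit 11863] (nat_lit 1) [nat_lit 5305] false,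
   Spec.mk (nat_lit 11871) (nat_lit 0) [nat_lit 16245, nat_lit 10413, nat_lit 11385, nat_lit 12033, nat_lit 11817, nat_lit 11889, nat_lit 11865] (nat_lit 1) [nat_lit 5311] false,
   Spec.mk (nat_lit 11881) (nat_lit 0) [nat_lit 16255, nat_lit 10423, nat_lit 11395, nat_lit 12043, nat_lit 11863, nat_lit 11883] (nat_lit 0) [nat_lit 18441, nat_lit 5321] false,
   Spec.mk (nat_lit 11883) (nat_lit 0) [nat_lit 16257, nat_lit 10425, nat_lit 11397, nat_lit 12045, nat_lit 11865, nat_lit 11889, nat_lit 11881] (nat_lit 1) [nat_lit 5323] false,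
   Spec.mk (nat_lit 11889) (nat_lit 1) [nat_lit 16263, nat_lit 10431, nat_lit 11403, nat_lit 12051, nat_lit 11871, nat_lit 11883] (nat_lit 0) [nat_lit 5329] false,
   Spec.mk (nat_lit 11915) (nat_lit 2) [nat_lit 16289, nat_lit 10457, nat_lit 11429, nat_lit 12401, nat_lit 11753, nat_lit 11921] (nat_lit 0) [nat_lit 18475] false,
   Spec.mk (nat_lit 11921) (nat_lit 1) [nat_lit 16295, nat_lit 10463, nat_lit 11435, nat_lit 12407, nat_lit 11759, nat_lit 11939, nat_lit 11915, nat_lit 11927, nat_lit 11923] (nat_lit 0) [nat_lit 18481] false,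
   Spec.mk (nat_lit 11923) (nat_lit 1) [nat_lit 16297, nat_lit 10465, nat_lit 11437, nat_lit 12409, nat_lit 11761, nat_lit 11941, nat_lit 11929, nat_lit 11921] (nat_lit 0) [nat_lit 18483, nat_lit 5363] false,
   Spec.mk (nat_lit 11927) (nat_lit 0) [nat_lit 16301, nat_lit 10469, nat_lit 11441, nat_lit 12413, nat_lit 11765, nat_lit 11945, nat_lit 11921, nat_lit 11929] (nat_lit 2) [nat_lit 18487] false,
   Spec.mk (nat_lit 11929) (nat_lit 0) [nat_lit 16303, nat_lit 10471, nat_lit 11443, nat_lit 12415, nat_lit 11767, nat_lit 11947, nat_lit 11923, nat_lit 11927, nat_lit 11931] (nat_lit 0) [nat_lit 18489, nat_lit 5369] false,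
   Spec.mk (nat_lit 11931) (nat_lit 0) [nat_lit 16305, nat_lit 10473, nat_lit 11445, nat_lit 12417, nat_lit 11769, nat_lit 11949, nat_lit 11929] (nat_lit 0) [nat_lit 5371] false,
   Spec.mk (nat_lit 11939) (nat_lit 0) [nat_lit 16313, nat_lit 10481, nat_lit 11453, nat_lit 12425, nat_lit 11777, nat_lit 11993, nat_lit 11921, nat_lit 11945, nat_lit 11941] (nat_lit 0) [nat_lit 18499] false,
   Spec.mk (nat_lit 11941) (nat_lit 0) [nat_lit 16315, nat_lit 10483, nat_lit 11455, nat_lit 12427, nat_lit 11779, nat_lit 11995, nat_lit 11923, nat_lit 11947, nat_lit 11939] (nat_lit 1) [nat_lit 18501, nat_lit 5381] false,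
   Spec.mk (nat_lit 11945) (nat_lit 0) [nat_lit 16319, nat_lit 10487, nat_lit 11459, nat_lit 12431, nat_lit 11783, nat_lit 11999, nat_lit 11927, nat_lit 11963, nat_lit 11939, nat_lit 11947] (nat_lit 1) [nat_lit 18505] false,
   Spec.mk (nat_lit 11947) (nat_lit 0) [nat_lit 16321, nat_lit 10489, nat_lit 11461, nat_lit 12433, nat_lit 11785, nat_lit 12001, nat_lit 11929, nat_lit 11965, nat_lit 11941, nat_lit 11953, nat_lit 11945, nat_lit 11949] (nat_lit 0) [nat_lit 18507, nat_lit 5387] false,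
   Spec.mk (nat_lit 11949) (nat_lit 0) [nat_lit 16323, nat_lit 10491, nat_lit 11463, nat_lit 12435, nat_lit 11787, nat_lit 12003, nat_lit 11931, nat_lit 11967, nat_lit 11955, nat_lit 11947] (nat_lit 1) [nat_lit 5389] false,
   Spec.mk (nat_lit 11953) (nat_lit 0) [nat_lit 16327, nat_lit 10495, nat_lit 11467, nat_lit 12439, nat_lit 11791, nat_lit 12007, nat_lit 11971, nat_lit 11947, nat_lit 11955] (nat_lit 1) [nat_lit 18513, nat_lit 5393] false,
   Spec.mk (nat_lit 11955) (nat_lit 0) [nat_lit 16329, nat_lit 10497, nat_lit 11469, nat_lit 12441, nat_lit 11793, nat_lit 12009, nat_lit 11973, nat_lit 11949, nat_lit 11953] (nat_lit 0) [nat_lit 5395] false,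
   Spec.mk (nat_lit 11963) (nat_lit 0) [nat_lit 16337, nat_lit 10505, nat_lit 11477, nat_lit 12449, nat_lit 11801, nat_lit 12017, nat_lit 11945, nat_lit 11965] (nat_lit 2) [nat_lit 18523] false,
   Spec.mk (nat_lit 11965) (nat_lit 0) [nat_lit 16339, nat_lit 10507, nat_lit 11479, nat_lit 12451, nat_lit 11803, nat_lit 12019, nat_lit 11947, nat_lit 11971, nat_lit 11963, nat_lit 11967] (nat_lit 2) [nat_lit 18525, nat_lit 5405] false,
   Spec.mk (nat_lit 11967) (nat_lit 0) [nat_lit 16341, nat_lit 10509, nat_lit 11481, nat_lit 12453, nat_lit 11805, nat_lit 12021, nat_lit 11949, nat_lit 11973, nat_lit 11965] (nat_lit 4) [nat_lit 5407] false,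
   Spec.mk (nat_lit 11971) (nat_lit 0) [nat_lit 16345, nat_lit 10513, nat_lit 11485, nat_lit 12457, nat_lit 11809, nat_lit 12025, nat_lit 11953, nat_lit 11965, nat_lit 11973] (nat_lit 1) [nat_lit 18531, nat_lit 5411] false,
   Spec.mk (nat_lit 11973) (nat_lit 0) [nat_lit 16347, nat_lit 10515, nat_lit 11487, nat_lit 12459, nat_lit 11811, nat_lit 12027, nat_lit 11955, nat_lit 11967, nat_lit 11979, nat_lit 11971] (nat_lit 1) [nat_lit 5413] false,
   Spec.mk (nat_lit 11979) (nat_lit 0) [nat_lit 16353, nat_lit 10521, nat_lit 11493, nat_lit 12465, nat_lit 11817, nat_lit 12033, nat_lit 11973] (nat_lit 0) [nat_lit 5419] false,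
   Spec.mk (nat_lit 11993) (nat_lit 1) [nat_lit 16367, nat_lit 10535, nat_lit 11507, nat_lit 12479, nat_lit 11831, nat_lit 12155, nat_lit 11939, nat_lit 11999, nat_lit 11995] (nat_lit 0) [nat_lit 18553] false,
   Spec.mk (nat_lit 11995) (nat_lit 0) [nat_lit 16369, nat_lit 10537, nat_lit 11509, nat_lit 12481, nat_lit 11833, nat_lit 12157, nat_lit 11941, nat_lit 12001, nat_lit 11993] (nat_lit 0) [nat_lit 18555, nat_lit 5435] false,
   Spec.mk (nat_lit 11999) (nat_lit 0) [nat_lit 16373, nat_lit 10541, nat_lit 11513, nat_lit 12485, nat_lit 11837, nat_lit 12161, nat_lit 11945, nat_lit 12017, nat_lit 11993, nat_lit 12001] (nat_lit 1) [nat_lit 18559] false]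

noncomputable def sp33 : List Spec :=
  [Spec.mk (nat_lit 12001) (nat_lit 0) [nat_lit 16375, nat_lit 10543, nat_lit 11515, nat_lit 12487, nat_lit 11839, nat_lit 12163, nat_lit 11947, nat_lit 12019, nat_lit 11995, nat_lit 12007, nat_lit 11999, nat_lit 12003] (nat_lit 0) [nat_lit 18561, nat_lit 5441] false,
   Spec.mk (nat_lit 12003) (nat_lit 0) [nat_lit 16377, nat_lit 10545, nat_lit 11517, nat_lit 12489, nat_lit 11841, nat_lit 12165, nat_lit 11949, nat_lit 12021, nat_lit 12009, nat_lit 12001] (nat_lit 1) [nat_lit 5443] false,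
   Spec.mk (nat_lit 12007) (nat_lit 0) [nat_lit 16381, nat_lit 10549, nat_lit 11521, nat_lit 12493, nat_lit 11845, nat_lit 12169, nat_lit 11953, nat_lit 12025, nat_lit 12001, nat_lit 12009] (nat_lit 2) [nat_lit 18567, nat_lit 5447] false,
   Spec.mk (nat_lit 12009) (nat_lit 0) [nat_lit 16383, nat_lit 10551, nat_lit 11523, nat_lit 12495, nat_lit 11847, nat_lit 12171, nat_lit 11955, nat_lit 12027, nat_lit 12003, nat_lit 12007] (nat_lit 1) [nat_lit 5449] false,
   Spec.mk (nat_lit 12017) (nat_lit 0) [nat_lit 16391, nat_lit 10559, nat_lit 11531, nat_lit 12503, nat_lit 11855, nat_lit 12179, nat_lit 11963, nat_lit 12071, nat_lit 11999, nat_lit 12019] (nat_lit 0) [nat_lit 18577] false,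
   Spec.mk (nat_lit 12019) (nat_lit 0) [nat_lit 16393, nat_lit 10561, nat_lit 11533, nat_lit 12505, nat_lit 11857, nat_lit 12181, nat_lit 11965, nat_lit 12073, nat_lit 12001, nat_lit 12025, nat_lit 12017, nat_lit 12021] (nat_lit 0) [nat_lit 18579, nat_lit 5459] false,
   Spec.mk (nat_lit 12021) (nat_lit 0) [nat_lit 16395, nat_lit 10563, nat_lit 11535, nat_lit 12507, nat_lit 11859, nat_lit 12183, nat_lit 11967, nat_lit 12075, nat_lit 12003, nat_lit 12027, nat_lit 12019] (nat_lit 2) [nat_lit 5461] false,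
   Spec.mk (nat_lit 12025) (nat_lit 0) [nat_lit 16399, nat_lit 10567, nat_lit 11539, nat_lit 12511, nat_lit 11863, nat_lit 12187, nat_lit 11971, nat_lit 12079, nat_lit 12007, nat_lit 12043, nat_lit 12019, nat_lit 12027] (nat_lit 0) [nat_lit 18585, nat_lit 5465] false,
   Spec.mk (nat_lit 12027) (nat_lit 0) [nat_lit 16401, nat_lit 10569, nat_lit 11541, nat_lit 12513, nat_lit 11865, nat_lit 12189, nat_lit 11973, nat_lit 12081, nat_lit 12009, nat_lit 12045, nat_lit 12021, nat_lit 12033, nat_lit 12025] (nat_lit 0) [nat_lit 5467] false,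
   Spec.mk (nat_lit 12033) (nat_lit 0) [nat_lit 16407, nat_lit 10575, nat_lit 11547, nat_lit 12519, nat_lit 11871, nat_lit 12195, nat_lit 11979, nat_lit 12087, nat_lit 12051, nat_lit 12027] (nat_lit 0) [nat_lit 5473] false,
   Spec.mk (nat_lit 12043) (nat_lit 0) [nat_lit 16417, nat_lit 10585, nat_lit 11557, nat_lit 12529, nat_lit 11881, nat_lit 12205, nat_lit 12097, nat_lit 12025, nat_lit 12045] (nat_lit 0) [nat_lit 18603, nat_lit 5483] false,
   Spec.mk (nat_lit 12045) (nat_lit 0) [nat_lit 16419, nat_lit 10587, nat_lit 11559, nat_lit 12531, nat_lit 11883, nat_lit 12207, nat_lit 12099, nat_lit 12027, nat_lit 12051, nat_lit 12043] (nat_lit 1) [nat_lit 5485] false,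
   Spec.mk (nat_lit 12051) (nat_lit 1) [nat_lit 16425, nat_lit 10593, nat_lit 11565, nat_lit 12537, nat_lit 11889, nat_lit 12213, nat_lit 12105, nat_lit 12033, nat_lit 12045] (nat_lit 0) [nat_lit 5491] false,
   Spec.mk (nat_lit 12071) (nat_lit 0) [nat_lit 16445, nat_lit 10613, nat_lit 11585, nat_lit 12557, nat_lit 12233, nat_lit 12017, nat_lit 12073] (nat_lit 0) [nat_lit 18631] false,
   Spec.mk (nat_lit 12073) (nat_lit 0) [nat_lit 16447, nat_lit 10615, nat_lit 11587, nat_lit 12559, nat_lit 12235, nat_lit 12019, nat_lit 12079, nat_lit 12071, nat_lit 12075] (nat_lit 0) [nat_lit 18633, nat_lit 5513] false,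
   Spec.mk (nat_lit 12075) (nat_lit 0) [nat_lit 16449, nat_lit 10617, nat_lit 11589, nat_lit 12561, nat_lit 12237, nat_lit 12021, nat_lit 12081, nat_lit 12073] (nat_lit 2) [nat_lit 5515] false,
   Spec.mk (nat_lit 12079) (nat_lit 0) [nat_lit 16453, nat_lit 10621, nat_lit 11593, nat_lit 12565, nat_lit 12241, nat_lit 12025, nat_lit 12097, nat_lit 12073, nat_lit 12081] (nat_lit 1) [nat_lit 18639, nat_lit 5519] false,
   Spec.mk (nat_lit 12081) (nat_lit 0) [nat_lit 16455, nat_lit 10623, nat_lit 11595, nat_lit 12567, nat_lit 12243, nat_lit 12027, nat_lit 12099, nat_lit 12075, nat_lit 12087, nat_lit 12079] (nat_lit 1) [nat_lit 5521] false,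
   Spec.mk (nat_lit 12087) (nat_lit 0) [nat_lit 16461, nat_lit 10629, nat_lit 11601, nat_lit 12573, nat_lit 12249, nat_lit 12033, nat_lit 12105, nat_lit 12081] (nat_lit 2) [nat_lit 5527] false,
   Spec.mk (nat_lit 12097) (nat_lit 1) [nat_lit 16471, nat_lit 10639, nat_lit 11611, nat_lit 12583, nat_lit 12259, nat_lit 12043, nat_lit 12079, nat_lit 12099] (nat_lit 0) [nat_lit 18657, nat_lit 5537] false,
   Spec.mk (nat_lit 12099) (nat_lit 0) [nat_lit 16473, nat_lit 10641, nat_lit 11613, nat_lit 12585, nat_lit 12261, nat_lit 12045, nat_lit 12081, nat_lit 12105, nat_lit 12097] (nat_lit 0) [nat_lit 5539] false,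
   Spec.mk (nat_lit 12105) (nat_lit 1) [nat_lit 16479, nat_lit 10647, nat_lit 11619, nat_lit 12591, nat_lit 12267, nat_lit 12051, nat_lit 12087, nat_lit 12123, nat_lit 12099] (nat_lit 0) [nat_lit 5545] false,
   Spec.mk (nat_lit 12123) (nat_lit 2) [nat_lit 16497, nat_lit 10665, nat_lit 11637, nat_lit 12609, nat_lit 12285, nat_lit 12105] (nat_lit 0) [nat_lit 5563] false,
   Spec.mk (nat_lit 12155) (nat_lit 1) [nat_lit 16529, nat_lit 10697, nat_lit 12641, nat_lit 11993, nat_lit 12161, nat_lit 12157] (nat_lit 0) [nat_lit 18715] false,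
   Spec.mk (nat_lit 12157) (nat_lit 0) [nat_lit 16531, nat_lit 10699, nat_lit 12643, nat_lit 11995, nat_lit 12163, nat_lit 12155] (nat_lit 0) [nat_lit 18717, nat_lit 5597] false,
   Spec.mk (nat_lit 12161) (nat_lit 0) [nat_lit 16535, nat_lit 10703, nat_lit 12647, nat_lit 11999, nat_lit 12179, nat_lit 12155, nat_lit 12163] (nat_lit 1) [nat_lit 18721] false,
   Spec.mk (nat_lit 12163) (nat_lit 0) [nat_lit 16537, nat_lit 10705, nat_lit 12649, nat_lit 12001, nat_lit 12181, nat_lit 12157, nat_lit 12169, nat_lit 12161, nat_lit 12165] (nat_lit 0) [nat_lit 18723, nat_lit 5603] false,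
   Spec.mk (nat_lit 12165) (nat_lit 0) [nat_lit 16539, nat_lit 10707, nat_lit 12651, nat_lit 12003, nat_lit 12183, nat_lit 12171, nat_lit 12163] (nat_lit 1) [nat_lit 5605] false,
   Spec.mk (nat_lit 12169) (nat_lit 0) [nat_lit 16543, nat_lit 10711, nat_lit 12655, nat_lit 12007, nat_lit 12187, nat_lit 12163, nat_lit 12171] (nat_lit 2) [nat_lit 18729, nat_lit 5609] false,
   Spec.mk (nat_lit 12171) (nat_lit 0) [nat_lit 16545, nat_lit 10713, nat_lit 12657, nat_lit 12009, nat_lit 12189, nat_lit 12165, nat_lit 12169] (nat_lit 1) [nat_lit 5611] false,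
   Spec.mk (nat_lit 12179) (nat_lit 0) [nat_lit 16553, nat_lit 10721, nat_lit 12665, nat_lit 12017, nat_lit 12233, nat_lit 12161, nat_lit 12181] (nat_lit 1) [nat_lit 18739] false,
   Spec.mk (nat_lit 12181) (nat_lit 0) [nat_lit 16555, nat_lit 10723, nat_lit 12667, nat_lit 12019, nat_lit 12235, nat_lit 12163, nat_lit 12187, nat_lit 12179, nat_lit 12183] (nat_lit 1) [nat_lit 18741, nat_lit 5621] false,
   Spec.mk (nat_lit 12183) (nat_lit 0) [nat_lit 16557, nat_lit 10725, nat_lit 12669, nat_lit 12021, nat_lit 12237, nat_lit 12165, nat_lit 12189, nat_lit 12181] (nat_lit 3) [nat_lit 5623] false,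
   Spec.mk (nat_lit 12187) (nat_lit 0) [nat_lit 16561, nat_lit 10729, nat_lit 12673, nat_lit 12025, nat_lit 12241, nat_lit 12169, nat_lit 12205, nat_lit 12181, nat_lit 12189] (nat_lit 1) [nat_lit 18747, nat_lit 5627] false,
   Spec.mk (nat_lit 12189) (nat_lit 0) [nat_lit 16563, nat_lit 10731, nat_lit 12675, nat_lit 12027, nat_lit 12243, nat_lit 12171, nat_lit 12207, nat_lit 12183, nat_lit 12195, nat_lit 12187] (nat_lit 1) [nat_lit 5629] false,
   Spec.mk (nat_lit 12195) (nat_lit 0) [nat_lit 16569, nat_lit 10737, nat_lit 12681, nat_lit 12033, nat_lit 12249, nat_lit 12213, nat_lit 12189] (nat_lit 1) [nat_lit 5635] false,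
   Spec.mk (nat_lit 12205) (nat_lit 0) [nat_lit 16579, nat_lit 10747, nat_lit 12691, nat_lit 12043, nat_lit 12259, nat_lit 12187, nat_lit 12207] (nat_lit 2) [nat_lit 18765, nat_lit 5645] false,
   Spec.mk (nat_lit 12207) (nat_lit 0) [nat_lit 16581, nat_lit 10749, nat_lit 12693, nat_lit 12045, nat_lit 12261, nat_lit 12189, nat_lit 12213, nat_lit 12205] (nat_lit 3) [nat_lit 5647] false,
   Spec.mk (nat_lit 12213) (nat_lit 0) [nat_lit 16587, nat_lit 10755, nat_lit 12699, nat_lit 12051, nat_lit 12267, nat_lit 12195, nat_lit 12207] (nat_lit 1) [nat_lit 5653] false,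
   Spec.mk (nat_lit 12233) (nat_lit 1) [nat_lit 16607, nat_lit 10775, nat_lit 12719, nat_lit 12071, nat_lit 12179, nat_lit 12235] (nat_lit 0) [nat_lit 18793] false,
   Spec.mk (nat_lit 12235) (nat_lit 1) [nat_lit 16609, nat_lit 10777, nat_lit 12721, nat_lit 12073, nat_lit 12181, nat_lit 12241, nat_lit 12233, nat_lit 12237] (nat_lit 0) [nat_lit 18795, nat_lit 5675] false,
   Spec.mk (nat_lit 12237) (nat_lit 0) [nat_lit 16611, nat_lit 10779, nat_lit 12723, nat_lit 12075, nat_lit 12183, nat_lit 12243, nat_lit 12235] (nat_lit 1) [nat_lit 5677] false,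
   Spec.mk (nat_lit 12241) (nat_lit 0) [nat_lit 16615, nat_lit 10783, nat_lit 12727, nat_lit 12079, nat_lit 12187, nat_lit 12259, nat_lit 12235, nat_lit 12243] (nat_lit 0) [nat_lit 18801, nat_lit 5681] false,
   Spec.mk (nat_lit 12243) (nat_lit 0) [nat_lit 16617, nat_lit 10785, nat_lit 12729, nat_lit 12081, nat_lit 12189, nat_lit 12261, nat_lit 12237, nat_lit 12249, nat_lit 12241] (nat_lit 0) [nat_lit 5683] false,
   Spec.mk (nat_lit 12249) (nat_lit 0) [nat_lit 16623, nat_lit 10791, nat_lit 12735, nat_lit 12087, nat_lit 12195, nat_lit 12267, nat_lit 12243] (nat_lit 1) [nat_lit 5689] false,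
   Spec.mk (nat_lit 12259) (nat_lit 1) [nat_lit 16633, nat_lit 10801, nat_lit 12745, nat_lit 12097, nat_lit 12205, nat_lit 12313, nat_lit 12241, nat_lit 12261] (nat_lit 0) [nat_lit 18819, nat_lit 5699] false,
   Spec.mk (nat_lit 12261) (nat_lit 0) [nat_lit 16635, nat_lit 10803, nat_lit 12747, nat_lit 12099, nat_lit 12207, nat_lit 12315, nat_lit 12243, nat_lit 12267, nat_lit 12259] (nat_lit 0) [nat_lit 5701] false,
   Spec.mk (nat_lit 12267) (nat_lit 1) [nat_lit 16641, nat_lit 10809, nat_lit 12753, nat_lit 12105, nat_lit 12213, nat_lit 12321, nat_lit 12249, nat_lit 12285, nat_lit 12261] (nat_lit 0) [nat_lit 5707] false,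
   Spec.mk (nat_lit 12285) (nat_lit 1) [nat_lit 16659, nat_lit 10827, nat_lit 12771, nat_lit 12123, nat_lit 12339, nat_lit 12267] (nat_lit 0) [nat_lit 5725] false,
   Spec.mk (nat_lit 12313) (nat_lit 2) [nat_lit 16687, nat_lit 10855, nat_lit 12799, nat_lit 12259, nat_lit 12315] (nat_lit 0) [nat_lit 18873, nat_lit 5753] false,
   Spec.mk (nat_lit 12315) (nat_lit 1) [nat_lit 16689, nat_lit 10857, nat_lit 12801, nat_lit 12261, nat_lit 12321, nat_lit 12313] (nat_lit 0) [nat_lit 5755] false,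
   Spec.mk (nat_lit 12321) (nat_lit 1) [nat_lit 16695, nat_lit 10863, nat_lit 12807, nat_lit 12267, nat_lit 12339, nat_lit 12315] (nat_lit 0) [nat_lit 5761] false,
   Spec.mk (nat_lit 12339) (nat_lit 3) [nat_lit 16713, nat_lit 10881, nat_lit 12825, nat_lit 12285, nat_lit 12321] (nat_lit 0) [nat_lit 5779] false,
   Spec.mk (nat_lit 12401) (nat_lit 3) [nat_lit 16775, nat_lit 11915, nat_lit 12407] (nat_lit 0) [nat_lit 18961] false,
   Spec.mk (nat_lit 12407) (nat_lit 2) [nat_lit 16781, nat_lit 11921, nat_lit 12425, nat_lit 12401, nat_lit 12413, nat_lit 12409] (nat_lit 0) [nat_lit 18967] false,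
   Spec.mk (nat_lit 12409) (nat_lit 2) [nat_lit 16783, nat_lit 11923, nat_lit 12427, nat_lit 12415, nat_lit 12407] (nat_lit 0) [nat_lit 18969, nat_lit 5849] false,
   Spec.mk (nat_lit 12413) (nat_lit 0) [nat_lit 16787, nat_lit 11927, nat_lit 12431, nat_lit 12407, nat_lit 12415] (nat_lit 1) [nat_lit 18973] false,
   Spec.mk (nat_lit 12415) (nat_lit 1) [nat_lit 16789, nat_lit 11929, nat_lit 12433, nat_lit 12409, nat_lit 12413, nat_lit 12417] (nat_lit 0) [nat_lit 18975, nat_lit 5855] false,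
   Spec.mk (nat_lit 12417) (nat_lit 1) [nat_lit 16791, nat_lit 11931, nat_lit 12435, nat_lit 12415] (nat_lit 0) [nat_lit 5857] false,
   Spec.mk (nat_lit 12425) (nat_lit 1) [nat_lit 16799, nat_lit 11939, nat_lit 12479, nat_lit 12407, nat_lit 12431, nat_lit 12427] (nat_lit 0) [nat_lit 18985] false]

noncomputable def sp34 : List Spec :=
  [Spec.mk (nat_lit 12427) (nat_lit 0) [nat_lit 16801, nat_lit 11941, nat_lit 12481, nat_lit 12409, nat_lit 12433, nat_lit 12425] (nat_lit 0) [nat_lit 18987, nat_lit 5867] false,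
   Spec.mk (nat_lit 12431) (nat_lit 0) [nat_lit 16805, nat_lit 11945, nat_lit 12485, nat_lit 12413, nat_lit 12449, nat_lit 12425, nat_lit 12433] (nat_lit 0) [nat_lit 18991] false,
   Spec.mk (nat_lit 12433) (nat_lit 1) [nat_lit 16807, nat_lit 11947, nat_lit 12487, nat_lit 12415, nat_lit 12451, nat_lit 12427, nat_lit 12439, nat_lit 12431, nat_lit 12435] (nat_lit 0) [nat_lit 18993, nat_lit 5873] false,
   Spec.mk (nat_lit 12435) (nat_lit 0) [nat_lit 16809, nat_lit 11949, nat_lit 12489, nat_lit 12417, nat_lit 12453, nat_lit 12441, nat_lit 12433] (nat_lit 0) [nat_lit 5875] false,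
   Spec.mk (nat_lit 12439) (nat_lit 0) [nat_lit 16813, nat_lit 11953, nat_lit 12493, nat_lit 12457, nat_lit 12433, nat_lit 12441] (nat_lit 0) [nat_lit 18999, nat_lit 5879] false,
   Spec.mk (nat_lit 12441) (nat_lit 1) [nat_lit 16815, nat_lit 11955, nat_lit 12495, nat_lit 12459, nat_lit 12435, nat_lit 12439] (nat_lit 0) [nat_lit 5881] false,
   Spec.mk (nat_lit 12449) (nat_lit 0) [nat_lit 16823, nat_lit 11963, nat_lit 12503, nat_lit 12431, nat_lit 12451] (nat_lit 1) [nat_lit 19009] false,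
   Spec.mk (nat_lit 12451) (nat_lit 0) [nat_lit 16825, nat_lit 11965, nat_lit 12505, nat_lit 12433, nat_lit 12457, nat_lit 12449, nat_lit 12453] (nat_lit 1) [nat_lit 19011, nat_lit 5891] false,
   Spec.mk (nat_lit 12453) (nat_lit 0) [nat_lit 16827, nat_lit 11967, nat_lit 12507, nat_lit 12435, nat_lit 12459, nat_lit 12451] (nat_lit 3) [nat_lit 5893] false,
   Spec.mk (nat_lit 12457) (nat_lit 0) [nat_lit 16831, nat_lit 11971, nat_lit 12511, nat_lit 12439, nat_lit 12451, nat_lit 12459] (nat_lit 0) [nat_lit 19017, nat_lit 5897] false,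
   Spec.mk (nat_lit 12459) (nat_lit 0) [nat_lit 16833, nat_lit 11973, nat_lit 12513, nat_lit 12441, nat_lit 12453, nat_lit 12465, nat_lit 12457] (nat_lit 0) [nat_lit 5899] false,
   Spec.mk (nat_lit 12465) (nat_lit 1) [nat_lit 16839, nat_lit 11979, nat_lit 12519, nat_lit 12459] (nat_lit 0) [nat_lit 5905] false,
   Spec.mk (nat_lit 12479) (nat_lit 1) [nat_lit 16853, nat_lit 11993, nat_lit 12641, nat_lit 12425, nat_lit 12485, nat_lit 12481] (nat_lit 0) [nat_lit 19039] false,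
   Spec.mk (nat_lit 12481) (nat_lit 0) [nat_lit 16855, nat_lit 11995, nat_lit 12643, nat_lit 12427, nat_lit 12487, nat_lit 12479] (nat_lit 0) [nat_lit 19041, nat_lit 5921] false,
   Spec.mk (nat_lit 12485) (nat_lit 0) [nat_lit 16859, nat_lit 11999, nat_lit 12647, nat_lit 12431, nat_lit 12503, nat_lit 12479, nat_lit 12487] (nat_lit 1) [nat_lit 19045] false,
   Spec.mk (nat_lit 12487) (nat_lit 0) [nat_lit 16861, nat_lit 12001, nat_lit 12649, nat_lit 12433, nat_lit 12505, nat_lit 12481, nat_lit 12493, nat_lit 12485, nat_lit 12489] (nat_lit 0) [nat_lit 19047, nat_lit 5927] false,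
   Spec.mk (nat_lit 12489) (nat_lit 0) [nat_lit 16863, nat_lit 12003, nat_lit 12651, nat_lit 12435, nat_lit 12507, nat_lit 12495, nat_lit 12487] (nat_lit 1) [nat_lit 5929] false,
   Spec.mk (nat_lit 12493) (nat_lit 0) [nat_lit 16867, nat_lit 12007, nat_lit 12655, nat_lit 12439, nat_lit 12511, nat_lit 12487, nat_lit 12495] (nat_lit 2) [nat_lit 19053, nat_lit 5933] false,
   Spec.mk (nat_lit 12495) (nat_lit 0) [nat_lit 16869, nat_lit 12009, nat_lit 12657, nat_lit 12441, nat_lit 12513, nat_lit 12489, nat_lit 12493] (nat_lit 1) [nat_lit 5935] false,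
   Spec.mk (nat_lit 12503) (nat_lit 0) [nat_lit 16877, nat_lit 12017, nat_lit 12665, nat_lit 12449, nat_lit 12557, nat_lit 12485, nat_lit 12505] (nat_lit 0) [nat_lit 19063] false,
   Spec.mk (nat_lit 12505) (nat_lit 0) [nat_lit 16879, nat_lit 12019, nat_lit 12667, nat_lit 12451, nat_lit 12559, nat_lit 12487, nat_lit 12511, nat_lit 12503, nat_lit 12507] (nat_lit 0) [nat_lit 19065, nat_lit 5945] false,
   Spec.mk (nat_lit 12507) (nat_lit 0) [nat_lit 16881, nat_lit 12021, nat_lit 12669, nat_lit 12453, nat_lit 12561, nat_lit 12489, nat_lit 12513, nat_lit 12505] (nat_lit 2) [nat_lit 5947] false,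
   Spec.mk (nat_lit 12511) (nat_lit 0) [nat_lit 16885, nat_lit 12025, nat_lit 12673, nat_lit 12457, nat_lit 12565, nat_lit 12493, nat_lit 12529, nat_lit 12505, nat_lit 12513] (nat_lit 0) [nat_lit 19071, nat_lit 5951] false,
   Spec.mk (nat_lit 12513) (nat_lit 0) [nat_lit 16887, nat_lit 12027, nat_lit 12675, nat_lit 12459, nat_lit 12567, nat_lit 12495, nat_lit 12531, nat_lit 12507, nat_lit 12519, nat_lit 12511] (nat_lit 0) [nat_lit 5953] false,
   Spec.mk (nat_lit 12519) (nat_lit 0) [nat_lit 16893, nat_lit 12033, nat_lit 12681, nat_lit 12465, nat_lit 12573, nat_lit 12537, nat_lit 12513] (nat_lit 0) [nat_lit 5959] false,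
   Spec.mk (nat_lit 12529) (nat_lit 0) [nat_lit 16903, nat_lit 12043, nat_lit 12691, nat_lit 12583, nat_lit 12511, nat_lit 12531] (nat_lit 0) [nat_lit 19089, nat_lit 5969] false,
   Spec.mk (nat_lit 12531) (nat_lit 0) [nat_lit 16905, nat_lit 12045, nat_lit 12693, nat_lit 12585, nat_lit 12513, nat_lit 12537, nat_lit 12529] (nat_lit 1) [nat_lit 5971] false,
   Spec.mk (nat_lit 12537) (nat_lit 1) [nat_lit 16911, nat_lit 12051, nat_lit 12699, nat_lit 12591, nat_lit 12519, nat_lit 12531] (nat_lit 0) [nat_lit 5977] false,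
   Spec.mk (nat_lit 12557) (nat_lit 0) [nat_lit 16931, nat_lit 12071, nat_lit 12719, nat_lit 12503, nat_lit 12559] (nat_lit 1) [nat_lit 19117] false,
   Spec.mk (nat_lit 12559) (nat_lit 0) [nat_lit 16933, nat_lit 12073, nat_lit 12721, nat_lit 12505, nat_lit 12565, nat_lit 12557, nat_lit 12561] (nat_lit 1) [nat_lit 19119, nat_lit 5999] false,
   Spec.mk (nat_lit 12561) (nat_lit 0) [nat_lit 16935, nat_lit 12075, nat_lit 12723, nat_lit 12507, nat_lit 12567, nat_lit 12559] (nat_lit 3) [nat_lit 6001] false,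
   Spec.mk (nat_lit 12565) (nat_lit 0) [nat_lit 16939, nat_lit 12079, nat_lit 12727, nat_lit 12511, nat_lit 12583, nat_lit 12559, nat_lit 12567] (nat_lit 2) [nat_lit 19125, nat_lit 6005] false,
   Spec.mk (nat_lit 12567) (nat_lit 0) [nat_lit 16941, nat_lit 12081, nat_lit 12729, nat_lit 12513, nat_lit 12585, nat_lit 12561, nat_lit 12573, nat_lit 12565] (nat_lit 2) [nat_lit 6007] false,
   Spec.mk (nat_lit 12573) (nat_lit 0) [nat_lit 16947, nat_lit 12087, nat_lit 12735, nat_lit 12519, nat_lit 12591, nat_lit 12567] (nat_lit 3) [nat_lit 6013] false,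
   Spec.mk (nat_lit 12583) (nat_lit 0) [nat_lit 16957, nat_lit 12097, nat_lit 12745, nat_lit 12529, nat_lit 12565, nat_lit 12585] (nat_lit 0) [nat_lit 19143, nat_lit 6023] false,
   Spec.mk (nat_lit 12585) (nat_lit 0) [nat_lit 16959, nat_lit 12099, nat_lit 12747, nat_lit 12531, nat_lit 12567, nat_lit 12591, nat_lit 12583] (nat_lit 1) [nat_lit 6025] false,
   Spec.mk (nat_lit 12591) (nat_lit 0) [nat_lit 16965, nat_lit 12105, nat_lit 12753, nat_lit 12537, nat_lit 12573, nat_lit 12609, nat_lit 12585] (nat_lit 0) [nat_lit 6031] false,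
   Spec.mk (nat_lit 12609) (nat_lit 1) [nat_lit 16983, nat_lit 12123, nat_lit 12771, nat_lit 12591] (nat_lit 0) [nat_lit 6049] false,
   Spec.mk (nat_lit 12641) (nat_lit 3) [nat_lit 17015, nat_lit 12155, nat_lit 12479, nat_lit 12647, nat_lit 12643] (nat_lit 0) [nat_lit 19201] false,
   Spec.mk (nat_lit 12643) (nat_lit 2) [nat_lit 17017, nat_lit 12157, nat_lit 12481, nat_lit 12649, nat_lit 12641] (nat_lit 0) [nat_lit 19203, nat_lit 6083] false,
   Spec.mk (nat_lit 12647) (nat_lit 1) [nat_lit 17021, nat_lit 12161, nat_lit 12485, nat_lit 12665, nat_lit 12641, nat_lit 12649] (nat_lit 0) [nat_lit 19207] false,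
   Spec.mk (nat_lit 12649) (nat_lit 2) [nat_lit 17023, nat_lit 12163, nat_lit 12487, nat_lit 12667, nat_lit 12643, nat_lit 12655, nat_lit 12647, nat_lit 12651] (nat_lit 0) [nat_lit 19209, nat_lit 6089] false,
   Spec.mk (nat_lit 12651) (nat_lit 1) [nat_lit 17025, nat_lit 12165, nat_lit 12489, nat_lit 12669, nat_lit 12657, nat_lit 12649] (nat_lit 0) [nat_lit 6091] false,
   Spec.mk (nat_lit 12655) (nat_lit 0) [nat_lit 17029, nat_lit 12169, nat_lit 12493, nat_lit 12673, nat_lit 12649, nat_lit 12657] (nat_lit 0) [nat_lit 19215, nat_lit 6095] false,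
   Spec.mk (nat_lit 12657) (nat_lit 1) [nat_lit 17031, nat_lit 12171, nat_lit 12495, nat_lit 12675, nat_lit 12651, nat_lit 12655] (nat_lit 0) [nat_lit 6097] false,
   Spec.mk (nat_lit 12665) (nat_lit 1) [nat_lit 17039, nat_lit 12179, nat_lit 12503, nat_lit 12719, nat_lit 12647, nat_lit 12667] (nat_lit 0) [nat_lit 19225] false,
   Spec.mk (nat_lit 12667) (nat_lit 1) [nat_lit 17041, nat_lit 12181, nat_lit 12505, nat_lit 12721, nat_lit 12649, nat_lit 12673, nat_lit 12665, nat_lit 12669] (nat_lit 0) [nat_lit 19227, nat_lit 6107] false,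
   Spec.mk (nat_lit 12669) (nat_lit 0) [nat_lit 17043, nat_lit 12183, nat_lit 12507, nat_lit 12723, nat_lit 12651, nat_lit 12675, nat_lit 12667] (nat_lit 1) [nat_lit 6109] false,
   Spec.mk (nat_lit 12673) (nat_lit 1) [nat_lit 17047, nat_lit 12187, nat_lit 12511, nat_lit 12727, nat_lit 12655, nat_lit 12691, nat_lit 12667, nat_lit 12675] (nat_lit 0) [nat_lit 19233, nat_lit 6113] false,
   Spec.mk (nat_lit 12675) (nat_lit 1) [nat_lit 17049, nat_lit 12189, nat_lit 12513, nat_lit 12729, nat_lit 12657, nat_lit 12693, nat_lit 12669, nat_lit 12681, nat_lit 12673] (nat_lit 0) [nat_lit 6115] false,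
   Spec.mk (nat_lit 12681) (nat_lit 1) [nat_lit 17055, nat_lit 12195, nat_lit 12519, nat_lit 12735, nat_lit 12699, nat_lit 12675] (nat_lit 0) [nat_lit 6121] false,
   Spec.mk (nat_lit 12691) (nat_lit 0) [nat_lit 17065, nat_lit 12205, nat_lit 12529, nat_lit 12745, nat_lit 12673, nat_lit 12693] (nat_lit 0) [nat_lit 19251, nat_lit 6131] false,
   Spec.mk (nat_lit 12693) (nat_lit 0) [nat_lit 17067, nat_lit 12207, nat_lit 12531, nat_lit 12747, nat_lit 12675, nat_lit 12699, nat_lit 12691] (nat_lit 1) [nat_lit 6133] false,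
   Spec.mk (nat_lit 12699) (nat_lit 1) [nat_lit 17073, nat_lit 12213, nat_lit 12537, nat_lit 12753, nat_lit 12681, nat_lit 12693] (nat_lit 0) [nat_lit 6139] false,
   Spec.mk (nat_lit 12719) (nat_lit 2) [nat_lit 17093, nat_lit 12233, nat_lit 12557, nat_lit 12881, nat_lit 12665, nat_lit 12721] (nat_lit 0) [nat_lit 19279] false,
   Spec.mk (nat_lit 12721) (nat_lit 2) [nat_lit 17095, nat_lit 12235, nat_lit 12559, nat_lit 12883, nat_lit 12667, nat_lit 12727, nat_lit 12719, nat_lit 12723] (nat_lit 0) [nat_lit 19281, nat_lit 6161] false,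
   Spec.mk (nat_lit 12723) (nat_lit 0) [nat_lit 17097, nat_lit 12237, nat_lit 12561, nat_lit 12885, nat_lit 12669, nat_lit 12729, nat_lit 12721] (nat_lit 0) [nat_lit 6163] false,
   Spec.mk (nat_lit 12727) (nat_lit 1) [nat_lit 17101, nat_lit 12241, nat_lit 12565, nat_lit 12889, nat_lit 12673, nat_lit 12745, nat_lit 12721, nat_lit 12729] (nat_lit 0) [nat_lit 19287, nat_lit 6167] false,
   Spec.mk (nat_lit 12729) (nat_lit 1) [nat_lit 17103, nat_lit 12243, nat_lit 12567, nat_lit 12891, nat_lit 12675, nat_lit 12747, nat_lit 12723, nat_lit 12735, nat_lit 12727] (nat_lit 0) [nat_lit 6169] false,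
   Spec.mk (nat_lit 12735) (nat_lit 0) [nat_lit 17109, nat_lit 12249, nat_lit 12573, nat_lit 12897, nat_lit 12681, nat_lit 12753, nat_lit 12729] (nat_lit 0) [nat_lit 6175] false]

noncomputable def sp35 : List Spec :=
  [Spec.mk (nat_lit 12745) (nat_lit 2) [nat_lit 17119, nat_lit 12259, nat_lit 12583, nat_lit 12907, nat_lit 12691, nat_lit 12799, nat_lit 12727, nat_lit 12747] (nat_lit 0) [nat_lit 19305, nat_lit 6185] false,
   Spec.mk (nat_lit 12747) (nat_lit 1) [nat_lit 17121, nat_lit 12261, nat_lit 12585, nat_lit 12909, nat_lit 12693, nat_lit 12801, nat_lit 12729, nat_lit 12753, nat_lit 12745] (nat_lit 0) [nat_lit 6187] false,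
   Spec.mk (nat_lit 12753) (nat_lit 2) [nat_lit 17127, nat_lit 12267, nat_lit 12591, nat_lit 12915, nat_lit 12699, nat_lit 12807, nat_lit 12735, nat_lit 12771, nat_lit 12747] (nat_lit 0) [nat_lit 6193] false,
   Spec.mk (nat_lit 12771) (nat_lit 2) [nat_lit 17145, nat_lit 12285, nat_lit 12609, nat_lit 12933, nat_lit 12825, nat_lit 12753] (nat_lit 0) [nat_lit 6211] false,
   Spec.mk (nat_lit 12799) (nat_lit 2) [nat_lit 17173, nat_lit 12313, nat_lit 12961, nat_lit 12745, nat_lit 12801] (nat_lit 0) [nat_lit 19359, nat_lit 6239] false,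
   Spec.mk (nat_lit 12801) (nat_lit 1) [nat_lit 17175, nat_lit 12315, nat_lit 12963, nat_lit 12747, nat_lit 12807, nat_lit 12799] (nat_lit 0) [nat_lit 6241] false,
   Spec.mk (nat_lit 12807) (nat_lit 1) [nat_lit 17181, nat_lit 12321, nat_lit 12969, nat_lit 12753, nat_lit 12825, nat_lit 12801] (nat_lit 0) [nat_lit 6247] false,
   Spec.mk (nat_lit 12825) (nat_lit 3) [nat_lit 17199, nat_lit 12339, nat_lit 12987, nat_lit 12771, nat_lit 12807] (nat_lit 0) [nat_lit 6265] false,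
   Spec.mk (nat_lit 12881) (nat_lit 3) [nat_lit 17255, nat_lit 12719, nat_lit 12883] (nat_lit 0) [nat_lit 19441] false,
   Spec.mk (nat_lit 12883) (nat_lit 3) [nat_lit 17257, nat_lit 12721, nat_lit 12889, nat_lit 12881, nat_lit 12885] (nat_lit 0) [nat_lit 19443, nat_lit 6323] false,
   Spec.mk (nat_lit 12885) (nat_lit 1) [nat_lit 17259, nat_lit 12723, nat_lit 12891, nat_lit 12883] (nat_lit 0) [nat_lit 6325] false,
   Spec.mk (nat_lit 12889) (nat_lit 2) [nat_lit 17263, nat_lit 12727, nat_lit 12907, nat_lit 12883, nat_lit 12891] (nat_lit 0) [nat_lit 19449, nat_lit 6329] false,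
   Spec.mk (nat_lit 12891) (nat_lit 2) [nat_lit 17265, nat_lit 12729, nat_lit 12909, nat_lit 12885, nat_lit 12897, nat_lit 12889] (nat_lit 0) [nat_lit 6331] false,
   Spec.mk (nat_lit 12897) (nat_lit 1) [nat_lit 17271, nat_lit 12735, nat_lit 12915, nat_lit 12891] (nat_lit 0) [nat_lit 6337] false,
   Spec.mk (nat_lit 12907) (nat_lit 2) [nat_lit 17281, nat_lit 12745, nat_lit 12961, nat_lit 12889, nat_lit 12909] (nat_lit 0) [nat_lit 19467, nat_lit 6347] false,
   Spec.mk (nat_lit 12909) (nat_lit 1) [nat_lit 17283, nat_lit 12747, nat_lit 12963, nat_lit 12891, nat_lit 12915, nat_lit 12907] (nat_lit 0) [nat_lit 6349] false,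
   Spec.mk (nat_lit 12915) (nat_lit 2) [nat_lit 17289, nat_lit 12753, nat_lit 12969, nat_lit 12897, nat_lit 12933, nat_lit 12909] (nat_lit 0) [nat_lit 6355] false,
   Spec.mk (nat_lit 12933) (nat_lit 1) [nat_lit 17307, nat_lit 12771, nat_lit 12987, nat_lit 12915] (nat_lit 0) [nat_lit 6373] false,
   Spec.mk (nat_lit 12961) (nat_lit 4) [nat_lit 17335, nat_lit 12799, nat_lit 12907, nat_lit 12963] (nat_lit 0) [nat_lit 19521, nat_lit 6401] false,
   Spec.mk (nat_lit 12963) (nat_lit 3) [nat_lit 17337, nat_lit 12801, nat_lit 12909, nat_lit 12969, nat_lit 12961] (nat_lit 0) [nat_lit 6403] false,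
   Spec.mk (nat_lit 12969) (nat_lit 3) [nat_lit 17343, nat_lit 12807, nat_lit 12915, nat_lit 12987, nat_lit 12963] (nat_lit 0) [nat_lit 6409] false,
   Spec.mk (nat_lit 12987) (nat_lit 4) [nat_lit 17361, nat_lit 12825, nat_lit 12933, nat_lit 13041, nat_lit 12969] (nat_lit 0) [nat_lit 6427] false,
   Spec.mk (nat_lit 13041) (nat_lit 5) [nat_lit 17415, nat_lit 12987] (nat_lit 0) [nat_lit 6481] false,
   Spec.mk (nat_lit 13175) (nat_lit 5) [nat_lit 8801, nat_lit 13229, nat_lit 13193] (nat_lit 0) [] false,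
   Spec.mk (nat_lit 13193) (nat_lit 3) [nat_lit 8819, nat_lit 13247, nat_lit 13175, nat_lit 13199] (nat_lit 0) [] false,
   Spec.mk (nat_lit 13199) (nat_lit 3) [nat_lit 8825, nat_lit 13253, nat_lit 13193, nat_lit 13201] (nat_lit 0) [] false,
   Spec.mk (nat_lit 13201) (nat_lit 3) [nat_lit 8827, nat_lit 13255, nat_lit 13199] (nat_lit 0) [nat_lit 6641] false,
   Spec.mk (nat_lit 13229) (nat_lit 3) [nat_lit 8855, nat_lit 13391, nat_lit 13175, nat_lit 13247] (nat_lit 0) [] false,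
   Spec.mk (nat_lit 13247) (nat_lit 3) [nat_lit 8873, nat_lit 13409, nat_lit 13193, nat_lit 13301, nat_lit 13229, nat_lit 13265, nat_lit 13253] (nat_lit 0) [] false,
   Spec.mk (nat_lit 13253) (nat_lit 2) [nat_lit 8879, nat_lit 13415, nat_lit 13199, nat_lit 13307, nat_lit 13271, nat_lit 13247, nat_lit 13255] (nat_lit 0) [] false,
   Spec.mk (nat_lit 13255) (nat_lit 2) [nat_lit 8881, nat_lit 13417, nat_lit 13201, nat_lit 13309, nat_lit 13273, nat_lit 13253] (nat_lit 0) [nat_lit 6695] false,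
   Spec.mk (nat_lit 13265) (nat_lit 1) [nat_lit 8891, nat_lit 13427, nat_lit 13319, nat_lit 13247, nat_lit 13271] (nat_lit 0) [] false,
   Spec.mk (nat_lit 13271) (nat_lit 2) [nat_lit 8897, nat_lit 13433, nat_lit 13325, nat_lit 13253, nat_lit 13265, nat_lit 13277, nat_lit 13273] (nat_lit 0) [] false,
   Spec.mk (nat_lit 13273) (nat_lit 1) [nat_lit 8899, nat_lit 13435, nat_lit 13327, nat_lit 13255, nat_lit 13279, nat_lit 13271] (nat_lit 0) [nat_lit 6713] false,
   Spec.mk (nat_lit 13277) (nat_lit 1) [nat_lit 8903, nat_lit 13439, nat_lit 13331, nat_lit 13271, nat_lit 13279] (nat_lit 0) [] false,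
   Spec.mk (nat_lit 13279) (nat_lit 2) [nat_lit 8905, nat_lit 13441, nat_lit 13333, nat_lit 13273, nat_lit 13277, nat_lit 13281] (nat_lit 0) [nat_lit 6719] false,
   Spec.mk (nat_lit 13281) (nat_lit 1) [nat_lit 8907, nat_lit 13443, nat_lit 13335, nat_lit 13279] (nat_lit 0) [nat_lit 6721] false,
   Spec.mk (nat_lit 13301) (nat_lit 1) [nat_lit 8927, nat_lit 13463, nat_lit 13247, nat_lit 13319, nat_lit 13307] (nat_lit 0) [] false,
   Spec.mk (nat_lit 13307) (nat_lit 0) [nat_lit 8933, nat_lit 13469, nat_lit 13253, nat_lit 13325, nat_lit 13301, nat_lit 13309] (nat_lit 1) [] false,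
   Spec.mk (nat_lit 13309) (nat_lit 0) [nat_lit 8935, nat_lit 13471, nat_lit 13255, nat_lit 13327, nat_lit 13307] (nat_lit 1) [nat_lit 6749] false,
   Spec.mk (nat_lit 13319) (nat_lit 1) [nat_lit 8945, nat_lit 13481, nat_lit 13265, nat_lit 13301, nat_lit 13325] (nat_lit 0) [] false,
   Spec.mk (nat_lit 13325) (nat_lit 1) [nat_lit 8951, nat_lit 13487, nat_lit 13271, nat_lit 13307, nat_lit 13343, nat_lit 13319, nat_lit 13331, nat_lit 13327] (nat_lit 0) [] false,
   Spec.mk (nat_lit 13327) (nat_lit 0) [nat_lit 8953, nat_lit 13489, nat_lit 13273, nat_lit 13309, nat_lit 13345, nat_lit 13333, nat_lit 13325] (nat_lit 0) [nat_lit 6767] false,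
   Spec.mk (nat_lit 13331) (nat_lit 0) [nat_lit 8957, nat_lit 13493, nat_lit 13277, nat_lit 13349, nat_lit 13325, nat_lit 13333] (nat_lit 1) [] false,
   Spec.mk (nat_lit 13333) (nat_lit 0) [nat_lit 8959, nat_lit 13495, nat_lit 13279, nat_lit 13351, nat_lit 13327, nat_lit 13331, nat_lit 13335] (nat_lit 0) [nat_lit 6773] false,
   Spec.mk (nat_lit 13335) (nat_lit 0) [nat_lit 8961, nat_lit 13497, nat_lit 13281, nat_lit 13353, nat_lit 13333] (nat_lit 1) [nat_lit 6775] false,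
   Spec.mk (nat_lit 13343) (nat_lit 1) [nat_lit 8969, nat_lit 13505, nat_lit 13325, nat_lit 13349, nat_lit 13345] (nat_lit 0) [] false,
   Spec.mk (nat_lit 13345) (nat_lit 0) [nat_lit 8971, nat_lit 13507, nat_lit 13327, nat_lit 13351, nat_lit 13343] (nat_lit 1) [nat_lit 6785] false,
   Spec.mk (nat_lit 13349) (nat_lit 1) [nat_lit 8975, nat_lit 13511, nat_lit 13331, nat_lit 13343, nat_lit 13351] (nat_lit 0) [] false,
   Spec.mk (nat_lit 13351) (nat_lit 1) [nat_lit 8977, nat_lit 13513, nat_lit 13333, nat_lit 13345, nat_lit 13357, nat_lit 13349, nat_lit 13353] (nat_lit 0) [nat_lit 6791] false,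
   Spec.mk (nat_lit 13353) (nat_lit 0) [nat_lit 8979, nat_lit 13515, nat_lit 13335, nat_lit 13359, nat_lit 13351] (nat_lit 1) [nat_lit 6793] false,
   Spec.mk (nat_lit 13357) (nat_lit 1) [nat_lit 8983, nat_lit 13519, nat_lit 13351, nat_lit 13359] (nat_lit 0) [nat_lit 6797] false,
   Spec.mk (nat_lit 13359) (nat_lit 1) [nat_lit 8985, nat_lit 13521, nat_lit 13353, nat_lit 13357] (nat_lit 0) [nat_lit 6799] false,
   Spec.mk (nat_lit 13391) (nat_lit 3) [nat_lit 9017, nat_lit 13877, nat_lit 13229, nat_lit 13409] (nat_lit 0) [] false,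
   Spec.mk (nat_lit 13409) (nat_lit 2) [nat_lit 9035, nat_lit 13895, nat_lit 13247, nat_lit 13463, nat_lit 13391, nat_lit 13427, nat_lit 13415] (nat_lit 0) [] false,
   Spec.mk (nat_lit 13415) (nat_lit 1) [nat_lit 9041, nat_lit 13901, nat_lit 13253, nat_lit 13469, nat_lit 13433, nat_lit 13409, nat_lit 13417] (nat_lit 0) [] false,
   Spec.mk (nat_lit 13417) (nat_lit 1) [nat_lit 9043, nat_lit 13903, nat_lit 13255, nat_lit 13471, nat_lit 13435, nat_lit 13415] (nat_lit 0) [nat_lit 6857] false,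
   Spec.mk (nat_lit 13427) (nat_lit 0) [nat_lit 9053, nat_lit 13913, nat_lit 13265, nat_lit 13481, nat_lit 13409, nat_lit 13433] (nat_lit 1) [] false,
   Spec.mk (nat_lit 13433) (nat_lit 0) [nat_lit 9059, nat_lit 13919, nat_lit 13271, nat_lit 13487, nat_lit 13415, nat_lit 13427, nat_lit 13439, nat_lit 13435] (nat_lit 0) [] false,
   Spec.mk (nat_lit 13435) (nat_lit 0) [nat_lit 9061, nat_lit 13921, nat_lit 13273, nat_lit 13489, nat_lit 13417, nat_lit 13441, nat_lit 13433] (nat_lit 1) [nat_lit 6875] false]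

noncomputable def sp36 : List Spec :=
  [Spec.mk (nat_lit 13439) (nat_lit 0) [nat_lit 9065, nat_lit 13925, nat_lit 13277, nat_lit 13493, nat_lit 13433, nat_lit 13441] (nat_lit 1) [] false,
   Spec.mk (nat_lit 13441) (nat_lit 0) [nat_lit 9067, nat_lit 13927, nat_lit 13279, nat_lit 13495, nat_lit 13435, nat_lit 13439, nat_lit 13443] (nat_lit 0) [nat_lit 6881] false,
   Spec.mk (nat_lit 13443) (nat_lit 0) [nat_lit 9069, nat_lit 13929, nat_lit 13281, nat_lit 13497, nat_lit 13441] (nat_lit 1) [nat_lit 6883] false,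
   Spec.mk (nat_lit 13463) (nat_lit 2) [nat_lit 9089, nat_lit 13949, nat_lit 13301, nat_lit 13625, nat_lit 13409, nat_lit 13481, nat_lit 13469] (nat_lit 0) [] false,
   Spec.mk (nat_lit 13469) (nat_lit 0) [nat_lit 9095, nat_lit 13955, nat_lit 13307, nat_lit 13631, nat_lit 13415, nat_lit 13487, nat_lit 13463, nat_lit 13471] (nat_lit 0) [] false,
   Spec.mk (nat_lit 13471) (nat_lit 0) [nat_lit 9097, nat_lit 13957, nat_lit 13309, nat_lit 13633, nat_lit 13417, nat_lit 13489, nat_lit 13469] (nat_lit 0) [nat_lit 6911] false,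
   Spec.mk (nat_lit 13481) (nat_lit 1) [nat_lit 9107, nat_lit 13967, nat_lit 13319, nat_lit 13643, nat_lit 13427, nat_lit 13535, nat_lit 13463, nat_lit 13487] (nat_lit 0) [] false,
   Spec.mk (nat_lit 13487) (nat_lit 1) [nat_lit 9113, nat_lit 13973, nat_lit 13325, nat_lit 13649, nat_lit 13433, nat_lit 13541, nat_lit 13469, nat_lit 13505, nat_lit 13481, nat_lit 13493, nat_lit 13489] (nat_lit 0) [] false,
   Spec.mk (nat_lit 13489) (nat_lit 0) [nat_lit 9115, nat_lit 13975, nat_lit 13327, nat_lit 13651, nat_lit 13435, nat_lit 13543, nat_lit 13471, nat_lit 13507, nat_lit 13495, nat_lit 13487] (nat_lit 0) [nat_lit 6929] false,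
   Spec.mk (nat_lit 13493) (nat_lit 0) [nat_lit 9119, nat_lit 13979, nat_lit 13331, nat_lit 13655, nat_lit 13439, nat_lit 13547, nat_lit 13511, nat_lit 13487, nat_lit 13495] (nat_lit 1) [] false,
   Spec.mk (nat_lit 13495) (nat_lit 0) [nat_lit 9121, nat_lit 13981, nat_lit 13333, nat_lit 13657, nat_lit 13441, nat_lit 13549, nat_lit 13513, nat_lit 13489, nat_lit 13493, nat_lit 13497] (nat_lit 0) [nat_lit 6935] false,
   Spec.mk (nat_lit 13497) (nat_lit 0) [nat_lit 9123, nat_lit 13983, nat_lit 13335, nat_lit 13659, nat_lit 13443, nat_lit 13551, nat_lit 13515, nat_lit 13495] (nat_lit 1) [nat_lit 6937] false,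
   Spec.mk (nat_lit 13505) (nat_lit 0) [nat_lit 9131, nat_lit 13991, nat_lit 13343, nat_lit 13667, nat_lit 13559, nat_lit 13487, nat_lit 13511, nat_lit 13507] (nat_lit 0) [] false,
   Spec.mk (nat_lit 13507) (nat_lit 0) [nat_lit 9133, nat_lit 13993, nat_lit 13345, nat_lit 13669, nat_lit 13561, nat_lit 13489, nat_lit 13513, nat_lit 13505] (nat_lit 2) [nat_lit 6947] false,
   Spec.mk (nat_lit 13511) (nat_lit 0) [nat_lit 9137, nat_lit 13997, nat_lit 13349, nat_lit 13673, nat_lit 13565, nat_lit 13493, nat_lit 13505, nat_lit 13513] (nat_lit 0) [] false,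
   Spec.mk (nat_lit 13513) (nat_lit 0) [nat_lit 9139, nat_lit 13999, nat_lit 13351, nat_lit 13675, nat_lit 13567, nat_lit 13495, nat_lit 13507, nat_lit 13519, nat_lit 13511, nat_lit 13515] (nat_lit 0) [nat_lit 6953] false,
   Spec.mk (nat_lit 13515) (nat_lit 0) [nat_lit 9141, nat_lit 14001, nat_lit 13353, nat_lit 13677, nat_lit 13569, nat_lit 13497, nat_lit 13521, nat_lit 13513] (nat_lit 2) [nat_lit 6955] false,
   Spec.mk (nat_lit 13519) (nat_lit 0) [nat_lit 9145, nat_lit 14005, nat_lit 13357, nat_lit 13681, nat_lit 13573, nat_lit 13513, nat_lit 13521] (nat_lit 0) [nat_lit 6959] false,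
   Spec.mk (nat_lit 13521) (nat_lit 0) [nat_lit 9147, nat_lit 14007, nat_lit 13359, nat_lit 13683, nat_lit 13575, nat_lit 13515, nat_lit 13519] (nat_lit 0) [nat_lit 6961] false,
   Spec.mk (nat_lit 13535) (nat_lit 1) [nat_lit 9161, nat_lit 14021, nat_lit 13697, nat_lit 13481, nat_lit 13541] (nat_lit 0) [] false,
   Spec.mk (nat_lit 13541) (nat_lit 0) [nat_lit 9167, nat_lit 14027, nat_lit 13703, nat_lit 13487, nat_lit 13559, nat_lit 13535, nat_lit 13547, nat_lit 13543] (nat_lit 0) [] false,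
   Spec.mk (nat_lit 13543) (nat_lit 0) [nat_lit 9169, nat_lit 14029, nat_lit 13705, nat_lit 13489, nat_lit 13561, nat_lit 13549, nat_lit 13541] (nat_lit 1) [nat_lit 6983] false,
   Spec.mk (nat_lit 13547) (nat_lit 0) [nat_lit 9173, nat_lit 14033, nat_lit 13709, nat_lit 13493, nat_lit 13565, nat_lit 13541, nat_lit 13549] (nat_lit 3) [] false,
   Spec.mk (nat_lit 13549) (nat_lit 0) [nat_lit 9175, nat_lit 14035, nat_lit 13711, nat_lit 13495, nat_lit 13567, nat_lit 13543, nat_lit 13547, nat_lit 13551] (nat_lit 2) [nat_lit 6989] false,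
   Spec.mk (nat_lit 13551) (nat_lit 0) [nat_lit 9177, nat_lit 14037, nat_lit 13713, nat_lit 13497, nat_lit 13569, nat_lit 13549] (nat_lit 3) [nat_lit 6991] false,
   Spec.mk (nat_lit 13559) (nat_lit 1) [nat_lit 9185, nat_lit 14045, nat_lit 13721, nat_lit 13505, nat_lit 13541, nat_lit 13565, nat_lit 13561] (nat_lit 0) [] false,
   Spec.mk (nat_lit 13561) (nat_lit 0) [nat_lit 9187, nat_lit 14047, nat_lit 13723, nat_lit 13507, nat_lit 13543, nat_lit 13567, nat_lit 13559] (nat_lit 1) [nat_lit 7001] false,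
   Spec.mk (nat_lit 13565) (nat_lit 0) [nat_lit 9191, nat_lit 14051, nat_lit 13727, nat_lit 13511, nat_lit 13547, nat_lit 13583, nat_lit 13559, nat_lit 13567] (nat_lit 0) [] false,
   Spec.mk (nat_lit 13567) (nat_lit 0) [nat_lit 9193, nat_lit 14053, nat_lit 13729, nat_lit 13513, nat_lit 13549, nat_lit 13585, nat_lit 13561, nat_lit 13573, nat_lit 13565, nat_lit 13569] (nat_lit 0) [nat_lit 7007] false,
   Spec.mk (nat_lit 13569) (nat_lit 0) [nat_lit 9195, nat_lit 14055, nat_lit 13731, nat_lit 13515, nat_lit 13551, nat_lit 13587, nat_lit 13575, nat_lit 13567] (nat_lit 2) [nat_lit 7009] false,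
   Spec.mk (nat_lit 13573) (nat_lit 0) [nat_lit 9199, nat_lit 14059, nat_lit 13735, nat_lit 13519, nat_lit 13591, nat_lit 13567, nat_lit 13575] (nat_lit 1) [nat_lit 7013] false,
   Spec.mk (nat_lit 13575) (nat_lit 0) [nat_lit 9201, nat_lit 14061, nat_lit 13737, nat_lit 13521, nat_lit 13593, nat_lit 13569, nat_lit 13573] (nat_lit 1) [nat_lit 7015] false,
   Spec.mk (nat_lit 13583) (nat_lit 1) [nat_lit 9209, nat_lit 14069, nat_lit 13745, nat_lit 13565, nat_lit 13585] (nat_lit 0) [] false,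
   Spec.mk (nat_lit 13585) (nat_lit 0) [nat_lit 9211, nat_lit 14071, nat_lit 13747, nat_lit 13567, nat_lit 13591, nat_lit 13583, nat_lit 13587] (nat_lit 0) [nat_lit 7025] false,
   Spec.mk (nat_lit 13587) (nat_lit 0) [nat_lit 9213, nat_lit 14073, nat_lit 13749, nat_lit 13569, nat_lit 13593, nat_lit 13585] (nat_lit 3) [nat_lit 7027] false,
   Spec.mk (nat_lit 13591) (nat_lit 1) [nat_lit 9217, nat_lit 14077, nat_lit 13753, nat_lit 13573, nat_lit 13585, nat_lit 13593] (nat_lit 0) [nat_lit 7031] false,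
   Spec.mk (nat_lit 13593) (nat_lit 0) [nat_lit 9219, nat_lit 14079, nat_lit 13755, nat_lit 13575, nat_lit 13587, nat_lit 13599, nat_lit 13591] (nat_lit 0) [nat_lit 7033] false,
   Spec.mk (nat_lit 13599) (nat_lit 1) [nat_lit 9225, nat_lit 14085, nat_lit 13761, nat_lit 13593] (nat_lit 0) [nat_lit 7039] false,
   Spec.mk (nat_lit 13625) (nat_lit 1) [nat_lit 9251, nat_lit 14111, nat_lit 13463, nat_lit 13643, nat_lit 13631] (nat_lit 0) [] false,
   Spec.mk (nat_lit 13631) (nat_lit 0) [nat_lit 9257, nat_lit 14117, nat_lit 13469, nat_lit 13649, nat_lit 13625, nat_lit 13633] (nat_lit 1) [] false,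
   Spec.mk (nat_lit 13633) (nat_lit 0) [nat_lit 9259, nat_lit 14119, nat_lit 13471, nat_lit 13651, nat_lit 13631] (nat_lit 1) [nat_lit 7073] false,
   Spec.mk (nat_lit 13643) (nat_lit 0) [nat_lit 9269, nat_lit 14129, nat_lit 13481, nat_lit 13697, nat_lit 13625, nat_lit 13649] (nat_lit 1) [] false,
   Spec.mk (nat_lit 13649) (nat_lit 0) [nat_lit 9275, nat_lit 14135, nat_lit 13487, nat_lit 13703, nat_lit 13631, nat_lit 13667, nat_lit 13643, nat_lit 13655, nat_lit 13651] (nat_lit 1) [] false,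
   Spec.mk (nat_lit 13651) (nat_lit 0) [nat_lit 9277, nat_lit 14137, nat_lit 13489, nat_lit 13705, nat_lit 13633, nat_lit 13669, nat_lit 13657, nat_lit 13649] (nat_lit 2) [nat_lit 7091] false,
   Spec.mk (nat_lit 13655) (nat_lit 0) [nat_lit 9281, nat_lit 14141, nat_lit 13493, nat_lit 13709, nat_lit 13673, nat_lit 13649, nat_lit 13657] (nat_lit 3) [] false,
   Spec.mk (nat_lit 13657) (nat_lit 0) [nat_lit 9283, nat_lit 14143, nat_lit 13495, nat_lit 13711, nat_lit 13675, nat_lit 13651, nat_lit 13655, nat_lit 13659] (nat_lit 2) [nat_lit 7097] false,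
   Spec.mk (nat_lit 13659) (nat_lit 0) [nat_lit 9285, nat_lit 14145, nat_lit 13497, nat_lit 13713, nat_lit 13677, nat_lit 13657] (nat_lit 3) [nat_lit 7099] false,
   Spec.mk (nat_lit 13667) (nat_lit 0) [nat_lit 9293, nat_lit 14153, nat_lit 13505, nat_lit 13721, nat_lit 13649, nat_lit 13673, nat_lit 13669] (nat_lit 3) [] false,
   Spec.mk (nat_lit 13669) (nat_lit 0) [nat_lit 9295, nat_lit 14155, nat_lit 13507, nat_lit 13723, nat_lit 13651, nat_lit 13675, nat_lit 13667] (nat_lit 5) [nat_lit 7109] false,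
   Spec.mk (nat_lit 13673) (nat_lit 0) [nat_lit 9299, nat_lit 14159, nat_lit 13511, nat_lit 13727, nat_lit 13655, nat_lit 13667, nat_lit 13675] (nat_lit 3) [] false,
   Spec.mk (nat_lit 13675) (nat_lit 0) [nat_lit 9301, nat_lit 14161, nat_lit 13513, nat_lit 13729, nat_lit 13657, nat_lit 13669, nat_lit 13681, nat_lit 13673, nat_lit 13677] (nat_lit 3) [nat_lit 7115] false,
   Spec.mk (nat_lit 13677) (nat_lit 0) [nat_lit 9303, nat_lit 14163, nat_lit 13515, nat_lit 13731, nat_lit 13659, nat_lit 13683, nat_lit 13675] (nat_lit 5) [nat_lit 7117] false,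
   Spec.mk (nat_lit 13681) (nat_lit 0) [nat_lit 9307, nat_lit 14167, nat_lit 13519, nat_lit 13735, nat_lit 13675, nat_lit 13683] (nat_lit 3) [nat_lit 7121] false,
   Spec.mk (nat_lit 13683) (nat_lit 0) [nat_lit 9309, nat_lit 14169, nat_lit 13521, nat_lit 13737, nat_lit 13677, nat_lit 13681] (nat_lit 3) [nat_lit 7123] false,
   Spec.mk (nat_lit 13697) (nat_lit 1) [nat_lit 9323, nat_lit 14183, nat_lit 13535, nat_lit 13643, nat_lit 13703] (nat_lit 0) [] false,
   Spec.mk (nat_lit 13703) (nat_lit 0) [nat_lit 9329, nat_lit 14189, nat_lit 13541, nat_lit 13649, nat_lit 13721, nat_lit 13697, nat_lit 13709, nat_lit 13705] (nat_lit 0) [] false,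
   Spec.mk (nat_lit 13705) (nat_lit 0) [nat_lit 9331, nat_lit 14191, nat_lit 13543, nat_lit 13651, nat_lit 13723, nat_lit 13711, nat_lit 13703] (nat_lit 1) [nat_lit 7145] false,
   Spec.mk (nat_lit 13709) (nat_lit 0) [nat_lit 9335, nat_lit 14195, nat_lit 13547, nat_lit 13655, nat_lit 13727, nat_lit 13703, nat_lit 13711] (nat_lit 3) [] false,
   Spec.mk (nat_lit 13711) (nat_lit 0) [nat_lit 9337, nat_lit 14197, nat_lit 13549, nat_lit 13657, nat_lit 13729, nat_lit 13705, nat_lit 13709, nat_lit 13713] (nat_lit 2) [nat_lit 7151] false,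
   Spec.mk (nat_lit 13713) (nat_lit 0) [nat_lit 9339, nat_lit 14199, nat_lit 13551, nat_lit 13659, nat_lit 13731, nat_lit 13711] (nat_lit 3) [nat_lit 7153] false]

noncomputable def sp37 : List Spec :=
  [Spec.mk (nat_lit 13721) (nat_lit 0) [nat_lit 9347, nat_lit 14207, nat_lit 13559, nat_lit 13667, nat_lit 13775, nat_lit 13703, nat_lit 13727, nat_lit 13723] (nat_lit 0) [] false,
   Spec.mk (nat_lit 13723) (nat_lit 0) [nat_lit 9349, nat_lit 14209, nat_lit 13561, nat_lit 13669, nat_lit 13777, nat_lit 13705, nat_lit 13729, nat_lit 13721] (nat_lit 2) [nat_lit 7163] false,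
   Spec.mk (nat_lit 13727) (nat_lit 0) [nat_lit 9353, nat_lit 14213, nat_lit 13565, nat_lit 13673, nat_lit 13781, nat_lit 13709, nat_lit 13745, nat_lit 13721, nat_lit 13729] (nat_lit 1) [] false,
   Spec.mk (nat_lit 13729) (nat_lit 0) [nat_lit 9355, nat_lit 14215, nat_lit 13567, nat_lit 13675, nat_lit 13783, nat_lit 13711, nat_lit 13747, nat_lit 13723, nat_lit 13735, nat_lit 13727, nat_lit 13731] (nat_lit 1) [nat_lit 7169] false,
   Spec.mk (nat_lit 13731) (nat_lit 0) [nat_lit 9357, nat_lit 14217, nat_lit 13569, nat_lit 13677, nat_lit 13785, nat_lit 13713, nat_lit 13749, nat_lit 13737, nat_lit 13729] (nat_lit 3) [nat_lit 7171] false,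
   Spec.mk (nat_lit 13735) (nat_lit 0) [nat_lit 9361, nat_lit 14221, nat_lit 13573, nat_lit 13681, nat_lit 13789, nat_lit 13753, nat_lit 13729, nat_lit 13737] (nat_lit 2) [nat_lit 7175] false,
   Spec.mk (nat_lit 13737) (nat_lit 0) [nat_lit 9363, nat_lit 14223, nat_lit 13575, nat_lit 13683, nat_lit 13791, nat_lit 13755, nat_lit 13731, nat_lit 13735] (nat_lit 2) [nat_lit 7177] false,
   Spec.mk (nat_lit 13745) (nat_lit 0) [nat_lit 9371, nat_lit 14231, nat_lit 13583, nat_lit 13799, nat_lit 13727, nat_lit 13747] (nat_lit 1) [] false,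
   Spec.mk (nat_lit 13747) (nat_lit 0) [nat_lit 9373, nat_lit 14233, nat_lit 13585, nat_lit 13801, nat_lit 13729, nat_lit 13753, nat_lit 13745, nat_lit 13749] (nat_lit 2) [nat_lit 7187] false,
   Spec.mk (nat_lit 13749) (nat_lit 0) [nat_lit 9375, nat_lit 14235, nat_lit 13587, nat_lit 13803, nat_lit 13731, nat_lit 13755, nat_lit 13747] (nat_lit 5) [nat_lit 7189] false,
   Spec.mk (nat_lit 13753) (nat_lit 0) [nat_lit 9379, nat_lit 14239, nat_lit 13591, nat_lit 13807, nat_lit 13735, nat_lit 13747, nat_lit 13755] (nat_lit 1) [nat_lit 7193] false,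
   Spec.mk (nat_lit 13755) (nat_lit 0) [nat_lit 9381, nat_lit 14241, nat_lit 13593, nat_lit 13809, nat_lit 13737, nat_lit 13749, nat_lit 13761, nat_lit 13753] (nat_lit 2) [nat_lit 7195] false,
   Spec.mk (nat_lit 13761) (nat_lit 0) [nat_lit 9387, nat_lit 14247, nat_lit 13599, nat_lit 13815, nat_lit 13755] (nat_lit 1) [nat_lit 7201] false,
   Spec.mk (nat_lit 13775) (nat_lit 1) [nat_lit 9401, nat_lit 14261, nat_lit 13721, nat_lit 13781, nat_lit 13777] (nat_lit 0) [] false,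
   Spec.mk (nat_lit 13777) (nat_lit 0) [nat_lit 9403, nat_lit 14263, nat_lit 13723, nat_lit 13783, nat_lit 13775] (nat_lit 1) [nat_lit 7217] false,
   Spec.mk (nat_lit 13781) (nat_lit 0) [nat_lit 9407, nat_lit 14267, nat_lit 13727, nat_lit 13799, nat_lit 13775, nat_lit 13783] (nat_lit 1) [] false,
   Spec.mk (nat_lit 13783) (nat_lit 0) [nat_lit 9409, nat_lit 14269, nat_lit 13729, nat_lit 13801, nat_lit 13777, nat_lit 13789, nat_lit 13781, nat_lit 13785] (nat_lit 1) [nat_lit 7223] false,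
   Spec.mk (nat_lit 13785) (nat_lit 0) [nat_lit 9411, nat_lit 14271, nat_lit 13731, nat_lit 13803, nat_lit 13791, nat_lit 13783] (nat_lit 3) [nat_lit 7225] false,
   Spec.mk (nat_lit 13789) (nat_lit 0) [nat_lit 9415, nat_lit 14275, nat_lit 13735, nat_lit 13807, nat_lit 13783, nat_lit 13791] (nat_lit 3) [nat_lit 7229] false,
   Spec.mk (nat_lit 13791) (nat_lit 0) [nat_lit 9417, nat_lit 14277, nat_lit 13737, nat_lit 13809, nat_lit 13785, nat_lit 13789] (nat_lit 3) [nat_lit 7231] false,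
   Spec.mk (nat_lit 13799) (nat_lit 1) [nat_lit 9425, nat_lit 14285, nat_lit 13745, nat_lit 13781, nat_lit 13801] (nat_lit 0) [] false,
   Spec.mk (nat_lit 13801) (nat_lit 0) [nat_lit 9427, nat_lit 14287, nat_lit 13747, nat_lit 13783, nat_lit 13807, nat_lit 13799, nat_lit 13803] (nat_lit 0) [nat_lit 7241] false,
   Spec.mk (nat_lit 13803) (nat_lit 0) [nat_lit 9429, nat_lit 14289, nat_lit 13749, nat_lit 13785, nat_lit 13809, nat_lit 13801] (nat_lit 3) [nat_lit 7243] false,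
   Spec.mk (nat_lit 13807) (nat_lit 0) [nat_lit 9433, nat_lit 14293, nat_lit 13753, nat_lit 13789, nat_lit 13825, nat_lit 13801, nat_lit 13809] (nat_lit 0) [nat_lit 7247] false,
   Spec.mk (nat_lit 13809) (nat_lit 0) [nat_lit 9435, nat_lit 14295, nat_lit 13755, nat_lit 13791, nat_lit 13827, nat_lit 13803, nat_lit 13815, nat_lit 13807] (nat_lit 1) [nat_lit 7249] false,
   Spec.mk (nat_lit 13815) (nat_lit 0) [nat_lit 9441, nat_lit 14301, nat_lit 13761, nat_lit 13833, nat_lit 13809] (nat_lit 1) [nat_lit 7255] false,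
   Spec.mk (nat_lit 13825) (nat_lit 1) [nat_lit 9451, nat_lit 14311, nat_lit 13807, nat_lit 13827] (nat_lit 0) [nat_lit 7265] false,
   Spec.mk (nat_lit 13827) (nat_lit 0) [nat_lit 9453, nat_lit 14313, nat_lit 13809, nat_lit 13833, nat_lit 13825] (nat_lit 1) [nat_lit 7267] false,
   Spec.mk (nat_lit 13833) (nat_lit 1) [nat_lit 9459, nat_lit 14319, nat_lit 13815, nat_lit 13827] (nat_lit 0) [nat_lit 7273] false,
   Spec.mk (nat_lit 13877) (nat_lit 3) [nat_lit 9503, nat_lit 15335, nat_lit 13391, nat_lit 13895] (nat_lit 0) [] false,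
   Spec.mk (nat_lit 13895) (nat_lit 2) [nat_lit 9521, nat_lit 15353, nat_lit 13409, nat_lit 13949, nat_lit 13877, nat_lit 13913, nat_lit 13901] (nat_lit 0) [] false,
   Spec.mk (nat_lit 13901) (nat_lit 1) [nat_lit 9527, nat_lit 15359, nat_lit 13415, nat_lit 13955, nat_lit 13919, nat_lit 13895, nat_lit 13903] (nat_lit 0) [] false,
   Spec.mk (nat_lit 13903) (nat_lit 1) [nat_lit 9529, nat_lit 15361, nat_lit 13417, nat_lit 13957, nat_lit 13921, nat_lit 13901] (nat_lit 0) [nat_lit 7343] false,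
   Spec.mk (nat_lit 13913) (nat_lit 0) [nat_lit 9539, nat_lit 15371, nat_lit 13427, nat_lit 13967, nat_lit 13895, nat_lit 13919] (nat_lit 1) [] false,
   Spec.mk (nat_lit 13919) (nat_lit 0) [nat_lit 9545, nat_lit 15377, nat_lit 13433, nat_lit 13973, nat_lit 13901, nat_lit 13913, nat_lit 13925, nat_lit 13921] (nat_lit 0) [] false,
   Spec.mk (nat_lit 13921) (nat_lit 0) [nat_lit 9547, nat_lit 15379, nat_lit 13435, nat_lit 13975, nat_lit 13903, nat_lit 13927, nat_lit 13919] (nat_lit 1) [nat_lit 7361] false,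
   Spec.mk (nat_lit 13925) (nat_lit 0) [nat_lit 9551, nat_lit 15383, nat_lit 13439, nat_lit 13979, nat_lit 13919, nat_lit 13927] (nat_lit 1) [] false,
   Spec.mk (nat_lit 13927) (nat_lit 0) [nat_lit 9553, nat_lit 15385, nat_lit 13441, nat_lit 13981, nat_lit 13921, nat_lit 13925, nat_lit 13929] (nat_lit 0) [nat_lit 7367] false,
   Spec.mk (nat_lit 13929) (nat_lit 0) [nat_lit 9555, nat_lit 15387, nat_lit 13443, nat_lit 13983, nat_lit 13927] (nat_lit 1) [nat_lit 7369] false,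
   Spec.mk (nat_lit 13949) (nat_lit 1) [nat_lit 9575, nat_lit 15407, nat_lit 13463, nat_lit 14111, nat_lit 13895, nat_lit 13967, nat_lit 13955] (nat_lit 0) [] false,
   Spec.mk (nat_lit 13955) (nat_lit 0) [nat_lit 9581, nat_lit 15413, nat_lit 13469, nat_lit 14117, nat_lit 13901, nat_lit 13973, nat_lit 13949, nat_lit 13957] (nat_lit 1) [] false,
   Spec.mk (nat_lit 13957) (nat_lit 0) [nat_lit 9583, nat_lit 15415, nat_lit 13471, nat_lit 14119, nat_lit 13903, nat_lit 13975, nat_lit 13955] (nat_lit 1) [nat_lit 7397] false,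
   Spec.mk (nat_lit 13967) (nat_lit 0) [nat_lit 9593, nat_lit 15425, nat_lit 13481, nat_lit 14129, nat_lit 13913, nat_lit 14021, nat_lit 13949, nat_lit 13973] (nat_lit 0) [] false,
   Spec.mk (nat_lit 13973) (nat_lit 0) [nat_lit 9599, nat_lit 15431, nat_lit 13487, nat_lit 14135, nat_lit 13919, nat_lit 14027, nat_lit 13955, nat_lit 13991, nat_lit 13967, nat_lit 13979, nat_lit 13975] (nat_lit 0) [] false,
   Spec.mk (nat_lit 13975) (nat_lit 0) [nat_lit 9601, nat_lit 15433, nat_lit 13489, nat_lit 14137, nat_lit 13921, nat_lit 14029, nat_lit 13957, nat_lit 13993, nat_lit 13981, nat_lit 13973] (nat_lit 1) [nat_lit 7415] false,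
   Spec.mk (nat_lit 13979) (nat_lit 0) [nat_lit 9605, nat_lit 15437, nat_lit 13493, nat_lit 14141, nat_lit 13925, nat_lit 14033, nat_lit 13997, nat_lit 13973, nat_lit 13981] (nat_lit 2) [] false,
   Spec.mk (nat_lit 13981) (nat_lit 0) [nat_lit 9607, nat_lit 15439, nat_lit 13495, nat_lit 14143, nat_lit 13927, nat_lit 14035, nat_lit 13999, nat_lit 13975, nat_lit 13979, nat_lit 13983] (nat_lit 1) [nat_lit 7421] false,
   Spec.mk (nat_lit 13983) (nat_lit 0) [nat_lit 9609, nat_lit 15441, nat_lit 13497, nat_lit 14145, nat_lit 13929, nat_lit 14037, nat_lit 14001, nat_lit 13981] (nat_lit 2) [nat_lit 7423] false,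
   Spec.mk (nat_lit 13991) (nat_lit 0) [nat_lit 9617, nat_lit 15449, nat_lit 13505, nat_lit 14153, nat_lit 14045, nat_lit 13973, nat_lit 13997, nat_lit 13993] (nat_lit 1) [] false,
   Spec.mk (nat_lit 13993) (nat_lit 0) [nat_lit 9619, nat_lit 15451, nat_lit 13507, nat_lit 14155, nat_lit 14047, nat_lit 13975, nat_lit 13999, nat_lit 13991] (nat_lit 3) [nat_lit 7433] false,
   Spec.mk (nat_lit 13997) (nat_lit 0) [nat_lit 9623, nat_lit 15455, nat_lit 13511, nat_lit 14159, nat_lit 14051, nat_lit 13979, nat_lit 13991, nat_lit 13999] (nat_lit 1) [] false,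
   Spec.mk (nat_lit 13999) (nat_lit 0) [nat_lit 9625, nat_lit 15457, nat_lit 13513, nat_lit 14161, nat_lit 14053, nat_lit 13981, nat_lit 13993, nat_lit 14005, nat_lit 13997, nat_lit 14001] (nat_lit 1) [nat_lit 7439] false,
   Spec.mk (nat_lit 14001) (nat_lit 0) [nat_lit 9627, nat_lit 15459, nat_lit 13515, nat_lit 14163, nat_lit 14055, nat_lit 13983, nat_lit 14007, nat_lit 13999] (nat_lit 3) [nat_lit 7441] false,
   Spec.mk (nat_lit 14005) (nat_lit 0) [nat_lit 9631, nat_lit 15463, nat_lit 13519, nat_lit 14167, nat_lit 14059, nat_lit 13999, nat_lit 14007] (nat_lit 1) [nat_lit 7445] false,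
   Spec.mk (nat_lit 14007) (nat_lit 0) [nat_lit 9633, nat_lit 15465, nat_lit 13521, nat_lit 14169, nat_lit 14061, nat_lit 14001, nat_lit 14005] (nat_lit 1) [nat_lit 7447] false,
   Spec.mk (nat_lit 14021) (nat_lit 0) [nat_lit 9647, nat_lit 15479, nat_lit 13535, nat_lit 14183, nat_lit 13967, nat_lit 14027] (nat_lit 1) [] false,
   Spec.mk (nat_lit 14027) (nat_lit 0) [nat_lit 9653, nat_lit 15485, nat_lit 13541, nat_lit 14189, nat_lit 13973, nat_lit 14045, nat_lit 14021, nat_lit 14033, nat_lit 14029] (nat_lit 2) [] false,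
   Spec.mk (nat_lit 14029) (nat_lit 0) [nat_lit 9655, nat_lit 15487, nat_lit 13543, nat_lit 14191, nat_lit 13975, nat_lit 14047, nat_lit 14035, nat_lit 14027] (nat_lit 3) [nat_lit 7469] false,
   Spec.mk (nat_lit 14033) (nat_lit 0) [nat_lit 9659, nat_lit 15491, nat_lit 13547, nat_lit 14195, nat_lit 13979, nat_lit 14051, nat_lit 14027, nat_lit 14035] (nat_lit 5) [] false,
   Spec.mk (nat_lit 14035) (nat_lit 0) [nat_lit 9661, nat_lit 15493, nat_lit 13549, nat_lit 14197, nat_lit 13981, nat_lit 14053, nat_lit 14029, nat_lit 14033, nat_lit 14037] (nat_lit 4) [nat_lit 7475] false]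

noncomputable def sp38 : List Spec :=
  [Spec.mk (nat_lit 14037) (nat_lit 0) [nat_lit 9663, nat_lit 15495, nat_lit 13551, nat_lit 14199, nat_lit 13983, nat_lit 14055, nat_lit 14035] (nat_lit 5) [nat_lit 7477] false,
   Spec.mk (nat_lit 14045) (nat_lit 0) [nat_lit 9671, nat_lit 15503, nat_lit 13559, nat_lit 14207, nat_lit 13991, nat_lit 14027, nat_lit 14051, nat_lit 14047] (nat_lit 1) [] false,
   Spec.mk (nat_lit 14047) (nat_lit 0) [nat_lit 9673, nat_lit 15505, nat_lit 13561, nat_lit 14209, nat_lit 13993, nat_lit 14029, nat_lit 14053, nat_lit 14045] (nat_lit 3) [nat_lit 7487] false,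
   Spec.mk (nat_lit 14051) (nat_lit 0) [nat_lit 9677, nat_lit 15509, nat_lit 13565, nat_lit 14213, nat_lit 13997, nat_lit 14033, nat_lit 14069, nat_lit 14045, nat_lit 14053] (nat_lit 2) [] false,
   Spec.mk (nat_lit 14053) (nat_lit 0) [nat_lit 9679, nat_lit 15511, nat_lit 13567, nat_lit 14215, nat_lit 13999, nat_lit 14035, nat_lit 14071, nat_lit 14047, nat_lit 14059, nat_lit 14051, nat_lit 14055] (nat_lit 2) [nat_lit 7493] false,
   Spec.mk (nat_lit 14055) (nat_lit 0) [nat_lit 9681, nat_lit 15513, nat_lit 13569, nat_lit 14217, nat_lit 14001, nat_lit 14037, nat_lit 14073, nat_lit 14061, nat_lit 14053] (nat_lit 4) [nat_lit 7495] false,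
   Spec.mk (nat_lit 14059) (nat_lit 0) [nat_lit 9685, nat_lit 15517, nat_lit 13573, nat_lit 14221, nat_lit 14005, nat_lit 14077, nat_lit 14053, nat_lit 14061] (nat_lit 3) [nat_lit 7499] false,
   Spec.mk (nat_lit 14061) (nat_lit 0) [nat_lit 9687, nat_lit 15519, nat_lit 13575, nat_lit 14223, nat_lit 14007, nat_lit 14079, nat_lit 14055, nat_lit 14059] (nat_lit 3) [nat_lit 7501] false,
   Spec.mk (nat_lit 14069) (nat_lit 0) [nat_lit 9695, nat_lit 15527, nat_lit 13583, nat_lit 14231, nat_lit 14051, nat_lit 14071] (nat_lit 1) [] false,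
   Spec.mk (nat_lit 14071) (nat_lit 0) [nat_lit 9697, nat_lit 15529, nat_lit 13585, nat_lit 14233, nat_lit 14053, nat_lit 14077, nat_lit 14069, nat_lit 14073] (nat_lit 2) [nat_lit 7511] false,
   Spec.mk (nat_lit 14073) (nat_lit 0) [nat_lit 9699, nat_lit 15531, nat_lit 13587, nat_lit 14235, nat_lit 14055, nat_lit 14079, nat_lit 14071] (nat_lit 5) [nat_lit 7513] false,
   Spec.mk (nat_lit 14077) (nat_lit 0) [nat_lit 9703, nat_lit 15535, nat_lit 13591, nat_lit 14239, nat_lit 14059, nat_lit 14071, nat_lit 14079] (nat_lit 1) [nat_lit 7517] false,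
   Spec.mk (nat_lit 14079) (nat_lit 0) [nat_lit 9705, nat_lit 15537, nat_lit 13593, nat_lit 14241, nat_lit 14061, nat_lit 14073, nat_lit 14085, nat_lit 14077] (nat_lit 2) [nat_lit 7519] false,
   Spec.mk (nat_lit 14085) (nat_lit 0) [nat_lit 9711, nat_lit 15543, nat_lit 13599, nat_lit 14247, nat_lit 14079] (nat_lit 1) [nat_lit 7525] false,
   Spec.mk (nat_lit 14111) (nat_lit 2) [nat_lit 9737, nat_lit 15569, nat_lit 13625, nat_lit 14597, nat_lit 13949, nat_lit 14129, nat_lit 14117] (nat_lit 0) [] false,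
   Spec.mk (nat_lit 14117) (nat_lit 0) [nat_lit 9743, nat_lit 15575, nat_lit 13631, nat_lit 14603, nat_lit 13955, nat_lit 14135, nat_lit 14111, nat_lit 14119] (nat_lit 0) [] false,
   Spec.mk (nat_lit 14119) (nat_lit 0) [nat_lit 9745, nat_lit 15577, nat_lit 13633, nat_lit 14605, nat_lit 13957, nat_lit 14137, nat_lit 14117] (nat_lit 0) [nat_lit 7559] false,
   Spec.mk (nat_lit 14129) (nat_lit 0) [nat_lit 9755, nat_lit 15587, nat_lit 13643, nat_lit 14615, nat_lit 13967, nat_lit 14183, nat_lit 14111, nat_lit 14135] (nat_lit 0) [] false,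
   Spec.mk (nat_lit 14135) (nat_lit 0) [nat_lit 9761, nat_lit 15593, nat_lit 13649, nat_lit 14621, nat_lit 13973, nat_lit 14189, nat_lit 14117, nat_lit 14153, nat_lit 14129, nat_lit 14141, nat_lit 14137] (nat_lit 0) [] false,
   Spec.mk (nat_lit 14137) (nat_lit 0) [nat_lit 9763, nat_lit 15595, nat_lit 13651, nat_lit 14623, nat_lit 13975, nat_lit 14191, nat_lit 14119, nat_lit 14155, nat_lit 14143, nat_lit 14135] (nat_lit 1) [nat_lit 7577] false,
   Spec.mk (nat_lit 14141) (nat_lit 0) [nat_lit 9767, nat_lit 15599, nat_lit 13655, nat_lit 14627, nat_lit 13979, nat_lit 14195, nat_lit 14159, nat_lit 14135, nat_lit 14143] (nat_lit 2) [] false,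
   Spec.mk (nat_lit 14143) (nat_lit 0) [nat_lit 9769, nat_lit 15601, nat_lit 13657, nat_lit 14629, nat_lit 13981, nat_lit 14197, nat_lit 14161, nat_lit 14137, nat_lit 14141, nat_lit 14145] (nat_lit 1) [nat_lit 7583] false,
   Spec.mk (nat_lit 14145) (nat_lit 0) [nat_lit 9771, nat_lit 15603, nat_lit 13659, nat_lit 14631, nat_lit 13983, nat_lit 14199, nat_lit 14163, nat_lit 14143] (nat_lit 2) [nat_lit 7585] false,
   Spec.mk (nat_lit 14153) (nat_lit 0) [nat_lit 9779, nat_lit 15611, nat_lit 13667, nat_lit 14639, nat_lit 13991, nat_lit 14207, nat_lit 14135, nat_lit 14159, nat_lit 14155] (nat_lit 2) [] false,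
   Spec.mk (nat_lit 14155) (nat_lit 0) [nat_lit 9781, nat_lit 15613, nat_lit 13669, nat_lit 14641, nat_lit 13993, nat_lit 14209, nat_lit 14137, nat_lit 14161, nat_lit 14153] (nat_lit 4) [nat_lit 7595] false,
   Spec.mk (nat_lit 14159) (nat_lit 0) [nat_lit 9785, nat_lit 15617, nat_lit 13673, nat_lit 14645, nat_lit 13997, nat_lit 14213, nat_lit 14141, nat_lit 14153, nat_lit 14161] (nat_lit 2) [] false,
   Spec.mk (nat_lit 14161) (nat_lit 0) [nat_lit 9787, nat_lit 15619, nat_lit 13675, nat_lit 14647, nat_lit 13999, nat_lit 14215, nat_lit 14143, nat_lit 14155, nat_lit 14167, nat_lit 14159, nat_lit 14163] (nat_lit 2) [nat_lit 7601] false,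
   Spec.mk (nat_lit 14163) (nat_lit 0) [nat_lit 9789, nat_lit 15621, nat_lit 13677, nat_lit 14649, nat_lit 14001, nat_lit 14217, nat_lit 14145, nat_lit 14169, nat_lit 14161] (nat_lit 4) [nat_lit 7603] false,
   Spec.mk (nat_lit 14167) (nat_lit 0) [nat_lit 9793, nat_lit 15625, nat_lit 13681, nat_lit 14653, nat_lit 14005, nat_lit 14221, nat_lit 14161, nat_lit 14169] (nat_lit 2) [nat_lit 7607] false,
   Spec.mk (nat_lit 14169) (nat_lit 0) [nat_lit 9795, nat_lit 15627, nat_lit 13683, nat_lit 14655, nat_lit 14007, nat_lit 14223, nat_lit 14163, nat_lit 14167] (nat_lit 2) [nat_lit 7609] false,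
   Spec.mk (nat_lit 14183) (nat_lit 1) [nat_lit 9809, nat_lit 15641, nat_lit 13697, nat_lit 14669, nat_lit 14021, nat_lit 14345, nat_lit 14129, nat_lit 14189] (nat_lit 0) [] false,
   Spec.mk (nat_lit 14189) (nat_lit 0) [nat_lit 9815, nat_lit 15647, nat_lit 13703, nat_lit 14675, nat_lit 14027, nat_lit 14351, nat_lit 14135, nat_lit 14207, nat_lit 14183, nat_lit 14195, nat_lit 14191] (nat_lit 0) [] false,
   Spec.mk (nat_lit 14191) (nat_lit 0) [nat_lit 9817, nat_lit 15649, nat_lit 13705, nat_lit 14677, nat_lit 14029, nat_lit 14353, nat_lit 14137, nat_lit 14209, nat_lit 14197, nat_lit 14189] (nat_lit 1) [nat_lit 7631] false,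
   Spec.mk (nat_lit 14195) (nat_lit 0) [nat_lit 9821, nat_lit 15653, nat_lit 13709, nat_lit 14681, nat_lit 14033, nat_lit 14357, nat_lit 14141, nat_lit 14213, nat_lit 14189, nat_lit 14197] (nat_lit 3) [] false,
   Spec.mk (nat_lit 14197) (nat_lit 0) [nat_lit 9823, nat_lit 15655, nat_lit 13711, nat_lit 14683, nat_lit 14035, nat_lit 14359, nat_lit 14143, nat_lit 14215, nat_lit 14191, nat_lit 14195, nat_lit 14199] (nat_lit 2) [nat_lit 7637] false,
   Spec.mk (nat_lit 14199) (nat_lit 0) [nat_lit 9825, nat_lit 15657, nat_lit 13713, nat_lit 14685, nat_lit 14037, nat_lit 14361, nat_lit 14145, nat_lit 14217, nat_lit 14197] (nat_lit 3) [nat_lit 7639] false,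
   Spec.mk (nat_lit 14207) (nat_lit 0) [nat_lit 9833, nat_lit 15665, nat_lit 13721, nat_lit 14693, nat_lit 14045, nat_lit 14369, nat_lit 14153, nat_lit 14261, nat_lit 14189, nat_lit 14213, nat_lit 14209] (nat_lit 0) [] false,
   Spec.mk (nat_lit 14209) (nat_lit 0) [nat_lit 9835, nat_lit 15667, nat_lit 13723, nat_lit 14695, nat_lit 14047, nat_lit 14371, nat_lit 14155, nat_lit 14263, nat_lit 14191, nat_lit 14215, nat_lit 14207] (nat_lit 2) [nat_lit 7649] false,
   Spec.mk (nat_lit 14213) (nat_lit 0) [nat_lit 9839, nat_lit 15671, nat_lit 13727, nat_lit 14699, nat_lit 14051, nat_lit 14375, nat_lit 14159, nat_lit 14267, nat_lit 14195, nat_lit 14231, nat_lit 14207, nat_lit 14215] (nat_lit 1) [] false,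
   Spec.mk (nat_lit 14215) (nat_lit 0) [nat_lit 9841, nat_lit 15673, nat_lit 13729, nat_lit 14701, nat_lit 14053, nat_lit 14377, nat_lit 14161, nat_lit 14269, nat_lit 14197, nat_lit 14233, nat_lit 14209, nat_lit 14221, nat_lit 14213, nat_lit 14217] (nat_lit 1) [nat_lit 7655] false,
   Spec.mk (nat_lit 14217) (nat_lit 0) [nat_lit 9843, nat_lit 15675, nat_lit 13731, nat_lit 14703, nat_lit 14055, nat_lit 14379, nat_lit 14163, nat_lit 14271, nat_lit 14199, nat_lit 14235, nat_lit 14223, nat_lit 14215] (nat_lit 3) [nat_lit 7657] false,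
   Spec.mk (nat_lit 14221) (nat_lit 0) [nat_lit 9847, nat_lit 15679, nat_lit 13735, nat_lit 14707, nat_lit 14059, nat_lit 14383, nat_lit 14167, nat_lit 14275, nat_lit 14239, nat_lit 14215, nat_lit 14223] (nat_lit 2) [nat_lit 7661] false,
   Spec.mk (nat_lit 14223) (nat_lit 0) [nat_lit 9849, nat_lit 15681, nat_lit 13737, nat_lit 14709, nat_lit 14061, nat_lit 14385, nat_lit 14169, nat_lit 14277, nat_lit 14241, nat_lit 14217, nat_lit 14221] (nat_lit 2) [nat_lit 7663] false,
   Spec.mk (nat_lit 14231) (nat_lit 0) [nat_lit 9857, nat_lit 15689, nat_lit 13745, nat_lit 14717, nat_lit 14069, nat_lit 14393, nat_lit 14285, nat_lit 14213, nat_lit 14233] (nat_lit 1) [] false,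
   Spec.mk (nat_lit 14233) (nat_lit 0) [nat_lit 9859, nat_lit 15691, nat_lit 13747, nat_lit 14719, nat_lit 14071, nat_lit 14395, nat_lit 14287, nat_lit 14215, nat_lit 14239, nat_lit 14231, nat_lit 14235] (nat_lit 2) [nat_lit 7673] false,
   Spec.mk (nat_lit 14235) (nat_lit 0) [nat_lit 9861, nat_lit 15693, nat_lit 13749, nat_lit 14721, nat_lit 14073, nat_lit 14397, nat_lit 14289, nat_lit 14217, nat_lit 14241, nat_lit 14233] (nat_lit 5) [nat_lit 7675] false,
   Spec.mk (nat_lit 14239) (nat_lit 0) [nat_lit 9865, nat_lit 15697, nat_lit 13753, nat_lit 14725, nat_lit 14077, nat_lit 14401, nat_lit 14293, nat_lit 14221, nat_lit 14233, nat_lit 14241] (nat_lit 1) [nat_lit 7679] false,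
   Spec.mk (nat_lit 14241) (nat_lit 0) [nat_lit 9867, nat_lit 15699, nat_lit 13755, nat_lit 14727, nat_lit 14079, nat_lit 14403, nat_lit 14295, nat_lit 14223, nat_lit 14235, nat_lit 14247, nat_lit 14239] (nat_lit 2) [nat_lit 7681] false,
   Spec.mk (nat_lit 14247) (nat_lit 0) [nat_lit 9873, nat_lit 15705, nat_lit 13761, nat_lit 14733, nat_lit 14085, nat_lit 14409, nat_lit 14301, nat_lit 14241] (nat_lit 1) [nat_lit 7687] false,
   Spec.mk (nat_lit 14261) (nat_lit 0) [nat_lit 9887, nat_lit 15719, nat_lit 13775, nat_lit 14747, nat_lit 14423, nat_lit 14207, nat_lit 14267, nat_lit 14263] (nat_lit 0) [] false,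
   Spec.mk (nat_lit 14263) (nat_lit 0) [nat_lit 9889, nat_lit 15721, nat_lit 13777, nat_lit 14749, nat_lit 14425, nat_lit 14209, nat_lit 14269, nat_lit 14261] (nat_lit 2) [nat_lit 7703] false,
   Spec.mk (nat_lit 14267) (nat_lit 0) [nat_lit 9893, nat_lit 15725, nat_lit 13781, nat_lit 14753, nat_lit 14429, nat_lit 14213, nat_lit 14285, nat_lit 14261, nat_lit 14269] (nat_lit 2) [] false,
   Spec.mk (nat_lit 14269) (nat_lit 0) [nat_lit 9895, nat_lit 15727, nat_lit 13783, nat_lit 14755, nat_lit 14431, nat_lit 14215, nat_lit 14287, nat_lit 14263, nat_lit 14275, nat_lit 14267, nat_lit 14271] (nat_lit 2) [nat_lit 7709] false,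
   Spec.mk (nat_lit 14271) (nat_lit 0) [nat_lit 9897, nat_lit 15729, nat_lit 13785, nat_lit 14757, nat_lit 14433, nat_lit 14217, nat_lit 14289, nat_lit 14277, nat_lit 14269] (nat_lit 4) [nat_lit 7711] false,
   Spec.mk (nat_lit 14275) (nat_lit 0) [nat_lit 9901, nat_lit 15733, nat_lit 13789, nat_lit 14761, nat_lit 14437, nat_lit 14221, nat_lit 14293, nat_lit 14269, nat_lit 14277] (nat_lit 4) [nat_lit 7715] false,
   Spec.mk (nat_lit 14277) (nat_lit 0) [nat_lit 9903, nat_lit 15735, nat_lit 13791, nat_lit 14763, nat_lit 14439, nat_lit 14223, nat_lit 14295, nat_lit 14271, nat_lit 14275] (nat_lit 4) [nat_lit 7717] false,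
   Spec.mk (nat_lit 14285) (nat_lit 0) [nat_lit 9911, nat_lit 15743, nat_lit 13799, nat_lit 14771, nat_lit 14447, nat_lit 14231, nat_lit 14267, nat_lit 14287] (nat_lit 0) [] false,
   Spec.mk (nat_lit 14287) (nat_lit 0) [nat_lit 9913, nat_lit 15745, nat_lit 13801, nat_lit 14773, nat_lit 14449, nat_lit 14233, nat_lit 14269, nat_lit 14293, nat_lit 14285, nat_lit 14289] (nat_lit 1) [nat_lit 7727] false,
   Spec.mk (nat_lit 14289) (nat_lit 0) [nat_lit 9915, nat_lit 15747, nat_lit 13803, nat_lit 14775, nat_lit 14451, nat_lit 14235, nat_lit 14271, nat_lit 14295, nat_lit 14287] (nat_lit 4) [nat_lit 7729] false,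
   Spec.mk (nat_lit 14293) (nat_lit 0) [nat_lit 9919, nat_lit 15751, nat_lit 13807, nat_lit 14779, nat_lit 14455, nat_lit 14239, nat_lit 14275, nat_lit 14311, nat_lit 14287, nat_lit 14295] (nat_lit 1) [nat_lit 7733] false]

noncomputable def sp39 : List Spec :=
  [Spec.mk (nat_lit 14295) (nat_lit 0) [nat_lit 9921, nat_lit 15753, nat_lit 13809, nat_lit 14781, nat_lit 14457, nat_lit 14241, nat_lit 14277, nat_lit 14313, nat_lit 14289, nat_lit 14301, nat_lit 14293] (nat_lit 2) [nat_lit 7735] false,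
   Spec.mk (nat_lit 14301) (nat_lit 0) [nat_lit 9927, nat_lit 15759, nat_lit 13815, nat_lit 14787, nat_lit 14463, nat_lit 14247, nat_lit 14319, nat_lit 14295] (nat_lit 2) [nat_lit 7741] false,
   Spec.mk (nat_lit 14311) (nat_lit 0) [nat_lit 9937, nat_lit 15769, nat_lit 13825, nat_lit 14797, nat_lit 14473, nat_lit 14293, nat_lit 14313] (nat_lit 0) [nat_lit 7751] false,
   Spec.mk (nat_lit 14313) (nat_lit 0) [nat_lit 9939, nat_lit 15771, nat_lit 13827, nat_lit 14799, nat_lit 14475, nat_lit 14295, nat_lit 14319, nat_lit 14311] (nat_lit 2) [nat_lit 7753] false,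
   Spec.mk (nat_lit 14319) (nat_lit 0) [nat_lit 9945, nat_lit 15777, nat_lit 13833, nat_lit 14805, nat_lit 14481, nat_lit 14301, nat_lit 14313] (nat_lit 0) [nat_lit 7759] false,
   Spec.mk (nat_lit 14345) (nat_lit 1) [nat_lit 9971, nat_lit 15803, nat_lit 14831, nat_lit 14183, nat_lit 14351] (nat_lit 0) [] false,
   Spec.mk (nat_lit 14351) (nat_lit 0) [nat_lit 9977, nat_lit 15809, nat_lit 14837, nat_lit 14189, nat_lit 14369, nat_lit 14345, nat_lit 14357, nat_lit 14353] (nat_lit 0) [] false,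
   Spec.mk (nat_lit 14353) (nat_lit 0) [nat_lit 9979, nat_lit 15811, nat_lit 14839, nat_lit 14191, nat_lit 14371, nat_lit 14359, nat_lit 14351] (nat_lit 1) [nat_lit 7793] false,
   Spec.mk (nat_lit 14357) (nat_lit 0) [nat_lit 9983, nat_lit 15815, nat_lit 14843, nat_lit 14195, nat_lit 14375, nat_lit 14351, nat_lit 14359] (nat_lit 3) [] false,
   Spec.mk (nat_lit 14359) (nat_lit 0) [nat_lit 9985, nat_lit 15817, nat_lit 14845, nat_lit 14197, nat_lit 14377, nat_lit 14353, nat_lit 14357, nat_lit 14361] (nat_lit 2) [nat_lit 7799] false,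
   Spec.mk (nat_lit 14361) (nat_lit 0) [nat_lit 9987, nat_lit 15819, nat_lit 14847, nat_lit 14199, nat_lit 14379, nat_lit 14359] (nat_lit 3) [nat_lit 7801] false,
   Spec.mk (nat_lit 14369) (nat_lit 0) [nat_lit 9995, nat_lit 15827, nat_lit 14855, nat_lit 14207, nat_lit 14423, nat_lit 14351, nat_lit 14375, nat_lit 14371] (nat_lit 1) [] false,
   Spec.mk (nat_lit 14371) (nat_lit 0) [nat_lit 9997, nat_lit 15829, nat_lit 14857, nat_lit 14209, nat_lit 14425, nat_lit 14353, nat_lit 14377, nat_lit 14369] (nat_lit 3) [nat_lit 7811] false,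
   Spec.mk (nat_lit 14375) (nat_lit 0) [nat_lit 10001, nat_lit 15833, nat_lit 14861, nat_lit 14213, nat_lit 14429, nat_lit 14357, nat_lit 14393, nat_lit 14369, nat_lit 14377] (nat_lit 2) [] false,
   Spec.mk (nat_lit 14377) (nat_lit 0) [nat_lit 10003, nat_lit 15835, nat_lit 14863, nat_lit 14215, nat_lit 14431, nat_lit 14359, nat_lit 14395, nat_lit 14371, nat_lit 14383, nat_lit 14375, nat_lit 14379] (nat_lit 2) [nat_lit 7817] false,
   Spec.mk (nat_lit 14379) (nat_lit 0) [nat_lit 10005, nat_lit 15837, nat_lit 14865, nat_lit 14217, nat_lit 14433, nat_lit 14361, nat_lit 14397, nat_lit 14385, nat_lit 14377] (nat_lit 4) [nat_lit 7819] false,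
   Spec.mk (nat_lit 14383) (nat_lit 0) [nat_lit 10009, nat_lit 15841, nat_lit 14869, nat_lit 14221, nat_lit 14437, nat_lit 14401, nat_lit 14377, nat_lit 14385] (nat_lit 3) [nat_lit 7823] false,
   Spec.mk (nat_lit 14385) (nat_lit 0) [nat_lit 10011, nat_lit 15843, nat_lit 14871, nat_lit 14223, nat_lit 14439, nat_lit 14403, nat_lit 14379, nat_lit 14383] (nat_lit 3) [nat_lit 7825] false,
   Spec.mk (nat_lit 14393) (nat_lit 0) [nat_lit 10019, nat_lit 15851, nat_lit 14879, nat_lit 14231, nat_lit 14447, nat_lit 14375, nat_lit 14395] (nat_lit 3) [] false,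
   Spec.mk (nat_lit 14395) (nat_lit 0) [nat_lit 10021, nat_lit 15853, nat_lit 14881, nat_lit 14233, nat_lit 14449, nat_lit 14377, nat_lit 14401, nat_lit 14393, nat_lit 14397] (nat_lit 4) [nat_lit 7835] false,
   Spec.mk (nat_lit 14397) (nat_lit 0) [nat_lit 10023, nat_lit 15855, nat_lit 14883, nat_lit 14235, nat_lit 14451, nat_lit 14379, nat_lit 14403, nat_lit 14395] (nat_lit 7) [nat_lit 7837] false,
   Spec.mk (nat_lit 14401) (nat_lit 0) [nat_lit 10027, nat_lit 15859, nat_lit 14887, nat_lit 14239, nat_lit 14455, nat_lit 14383, nat_lit 14395, nat_lit 14403] (nat_lit 3) [nat_lit 7841] false,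
   Spec.mk (nat_lit 14403) (nat_lit 0) [nat_lit 10029, nat_lit 15861, nat_lit 14889, nat_lit 14241, nat_lit 14457, nat_lit 14385, nat_lit 14397, nat_lit 14409, nat_lit 14401] (nat_lit 4) [nat_lit 7843] false,
   Spec.mk (nat_lit 14409) (nat_lit 0) [nat_lit 10035, nat_lit 15867, nat_lit 14895, nat_lit 14247, nat_lit 14463, nat_lit 14403] (nat_lit 3) [nat_lit 7849] false,
   Spec.mk (nat_lit 14423) (nat_lit 1) [nat_lit 10049, nat_lit 15881, nat_lit 14909, nat_lit 14261, nat_lit 14369, nat_lit 14429, nat_lit 14425] (nat_lit 0) [] false,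
   Spec.mk (nat_lit 14425) (nat_lit 0) [nat_lit 10051, nat_lit 15883, nat_lit 14911, nat_lit 14263, nat_lit 14371, nat_lit 14431, nat_lit 14423] (nat_lit 1) [nat_lit 7865] false,
   Spec.mk (nat_lit 14429) (nat_lit 0) [nat_lit 10055, nat_lit 15887, nat_lit 14915, nat_lit 14267, nat_lit 14375, nat_lit 14447, nat_lit 14423, nat_lit 14431] (nat_lit 1) [] false,
   Spec.mk (nat_lit 14431) (nat_lit 0) [nat_lit 10057, nat_lit 15889, nat_lit 14917, nat_lit 14269, nat_lit 14377, nat_lit 14449, nat_lit 14425, nat_lit 14437, nat_lit 14429, nat_lit 14433] (nat_lit 1) [nat_lit 7871] false,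
   Spec.mk (nat_lit 14433) (nat_lit 0) [nat_lit 10059, nat_lit 15891, nat_lit 14919, nat_lit 14271, nat_lit 14379, nat_lit 14451, nat_lit 14439, nat_lit 14431] (nat_lit 3) [nat_lit 7873] false,
   Spec.mk (nat_lit 14437) (nat_lit 0) [nat_lit 10063, nat_lit 15895, nat_lit 14923, nat_lit 14275, nat_lit 14383, nat_lit 14455, nat_lit 14431, nat_lit 14439] (nat_lit 3) [nat_lit 7877] false,
   Spec.mk (nat_lit 14439) (nat_lit 0) [nat_lit 10065, nat_lit 15897, nat_lit 14925, nat_lit 14277, nat_lit 14385, nat_lit 14457, nat_lit 14433, nat_lit 14437] (nat_lit 3) [nat_lit 7879] false,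
   Spec.mk (nat_lit 14447) (nat_lit 0) [nat_lit 10073, nat_lit 15905, nat_lit 14933, nat_lit 14285, nat_lit 14393, nat_lit 14501, nat_lit 14429, nat_lit 14449] (nat_lit 0) [] false,
   Spec.mk (nat_lit 14449) (nat_lit 0) [nat_lit 10075, nat_lit 15907, nat_lit 14935, nat_lit 14287, nat_lit 14395, nat_lit 14503, nat_lit 14431, nat_lit 14455, nat_lit 14447, nat_lit 14451] (nat_lit 1) [nat_lit 7889] false,
   Spec.mk (nat_lit 14451) (nat_lit 0) [nat_lit 10077, nat_lit 15909, nat_lit 14937, nat_lit 14289, nat_lit 14397, nat_lit 14505, nat_lit 14433, nat_lit 14457, nat_lit 14449] (nat_lit 4) [nat_lit 7891] false,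
   Spec.mk (nat_lit 14455) (nat_lit 0) [nat_lit 10081, nat_lit 15913, nat_lit 14941, nat_lit 14293, nat_lit 14401, nat_lit 14509, nat_lit 14437, nat_lit 14473, nat_lit 14449, nat_lit 14457] (nat_lit 1) [nat_lit 7895] false,
   Spec.mk (nat_lit 14457) (nat_lit 0) [nat_lit 10083, nat_lit 15915, nat_lit 14943, nat_lit 14295, nat_lit 14403, nat_lit 14511, nat_lit 14439, nat_lit 14475, nat_lit 14451, nat_lit 14463, nat_lit 14455] (nat_lit 2) [nat_lit 7897] false,
   Spec.mk (nat_lit 14463) (nat_lit 0) [nat_lit 10089, nat_lit 15921, nat_lit 14949, nat_lit 14301, nat_lit 14409, nat_lit 14517, nat_lit 14481, nat_lit 14457] (nat_lit 2) [nat_lit 7903] false,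
   Spec.mk (nat_lit 14473) (nat_lit 0) [nat_lit 10099, nat_lit 15931, nat_lit 14959, nat_lit 14311, nat_lit 14527, nat_lit 14455, nat_lit 14475] (nat_lit 1) [nat_lit 7913] false,
   Spec.mk (nat_lit 14475) (nat_lit 0) [nat_lit 10101, nat_lit 15933, nat_lit 14961, nat_lit 14313, nat_lit 14529, nat_lit 14457, nat_lit 14481, nat_lit 14473] (nat_lit 3) [nat_lit 7915] false,
   Spec.mk (nat_lit 14481) (nat_lit 0) [nat_lit 10107, nat_lit 15939, nat_lit 14967, nat_lit 14319, nat_lit 14535, nat_lit 14463, nat_lit 14475] (nat_lit 1) [nat_lit 7921] false,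
   Spec.mk (nat_lit 14501) (nat_lit 1) [nat_lit 10127, nat_lit 15959, nat_lit 14987, nat_lit 14447, nat_lit 14503] (nat_lit 0) [] false,
   Spec.mk (nat_lit 14503) (nat_lit 0) [nat_lit 10129, nat_lit 15961, nat_lit 14989, nat_lit 14449, nat_lit 14509, nat_lit 14501, nat_lit 14505] (nat_lit 0) [nat_lit 7943] false,
   Spec.mk (nat_lit 14505) (nat_lit 0) [nat_lit 10131, nat_lit 15963, nat_lit 14991, nat_lit 14451, nat_lit 14511, nat_lit 14503] (nat_lit 3) [nat_lit 7945] false,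
   Spec.mk (nat_lit 14509) (nat_lit 0) [nat_lit 10135, nat_lit 15967, nat_lit 14995, nat_lit 14455, nat_lit 14527, nat_lit 14503, nat_lit 14511] (nat_lit 1) [nat_lit 7949] false,
   Spec.mk (nat_lit 14511) (nat_lit 0) [nat_lit 10137, nat_lit 15969, nat_lit 14997, nat_lit 14457, nat_lit 14529, nat_lit 14505, nat_lit 14517, nat_lit 14509] (nat_lit 2) [nat_lit 7951] false,
   Spec.mk (nat_lit 14517) (nat_lit 0) [nat_lit 10143, nat_lit 15975, nat_lit 15003, nat_lit 14463, nat_lit 14535, nat_lit 14511] (nat_lit 3) [nat_lit 7957] false,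
   Spec.mk (nat_lit 14527) (nat_lit 1) [nat_lit 10153, nat_lit 15985, nat_lit 15013, nat_lit 14473, nat_lit 14509, nat_lit 14529] (nat_lit 0) [nat_lit 7967] false,
   Spec.mk (nat_lit 14529) (nat_lit 0) [nat_lit 10155, nat_lit 15987, nat_lit 15015, nat_lit 14475, nat_lit 14511, nat_lit 14535, nat_lit 14527] (nat_lit 1) [nat_lit 7969] false,
   Spec.mk (nat_lit 14535) (nat_lit 0) [nat_lit 10161, nat_lit 15993, nat_lit 15021, nat_lit 14481, nat_lit 14517, nat_lit 14553, nat_lit 14529] (nat_lit 0) [nat_lit 7975] false,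
   Spec.mk (nat_lit 14553) (nat_lit 1) [nat_lit 10179, nat_lit 16011, nat_lit 15039, nat_lit 14535] (nat_lit 0) [nat_lit 7993] false,
   Spec.mk (nat_lit 14597) (nat_lit 1) [nat_lit 10223, nat_lit 16055, nat_lit 14111, nat_lit 14615, nat_lit 14603] (nat_lit 0) [] false,
   Spec.mk (nat_lit 14603) (nat_lit 0) [nat_lit 10229, nat_lit 16061, nat_lit 14117, nat_lit 14621, nat_lit 14597, nat_lit 14605] (nat_lit 1) [] false,
   Spec.mk (nat_lit 14605) (nat_lit 0) [nat_lit 10231, nat_lit 16063, nat_lit 14119, nat_lit 14623, nat_lit 14603] (nat_lit 1) [nat_lit 8045] false,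
   Spec.mk (nat_lit 14615) (nat_lit 0) [nat_lit 10241, nat_lit 16073, nat_lit 14129, nat_lit 14669, nat_lit 14597, nat_lit 14621] (nat_lit 1) [] false,
   Spec.mk (nat_lit 14621) (nat_lit 0) [nat_lit 10247, nat_lit 16079, nat_lit 14135, nat_lit 14675, nat_lit 14603, nat_lit 14639, nat_lit 14615, nat_lit 14627, nat_lit 14623] (nat_lit 1) [] false,
   Spec.mk (nat_lit 14623) (nat_lit 0) [nat_lit 10249, nat_lit 16081, nat_lit 14137, nat_lit 14677, nat_lit 14605, nat_lit 14641, nat_lit 14629, nat_lit 14621] (nat_lit 2) [nat_lit 8063] false,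
   Spec.mk (nat_lit 14627) (nat_lit 0) [nat_lit 10253, nat_lit 16085, nat_lit 14141, nat_lit 14681, nat_lit 14645, nat_lit 14621, nat_lit 14629] (nat_lit 3) [] false,
   Spec.mk (nat_lit 14629) (nat_lit 0) [nat_lit 10255, nat_lit 16087, nat_lit 14143, nat_lit 14683, nat_lit 14647, nat_lit 14623, nat_lit 14627, nat_lit 14631] (nat_lit 2) [nat_lit 8069] false,
   Spec.mk (nat_lit 14631) (nat_lit 0) [nat_lit 10257, nat_lit 16089, nat_lit 14145, nat_lit 14685, nat_lit 14649, nat_lit 14629] (nat_lit 3) [nat_lit 8071] false,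
   Spec.mk (nat_lit 14639) (nat_lit 0) [nat_lit 10265, nat_lit 16097, nat_lit 14153, nat_lit 14693, nat_lit 14621, nat_lit 14645, nat_lit 14641] (nat_lit 3) [] false]

noncomputable def sp40 : List Spec :=
  [Spec.mk (nat_lit 14641) (nat_lit 0) [nat_lit 10267, nat_lit 16099, nat_lit 14155, nat_lit 14695, nat_lit 14623, nat_lit 14647, nat_lit 14639] (nat_lit 5) [nat_lit 8081] false,
   Spec.mk (nat_lit 14645) (nat_lit 0) [nat_lit 10271, nat_lit 16103, nat_lit 14159, nat_lit 14699, nat_lit 14627, nat_lit 14639, nat_lit 14647] (nat_lit 3) [] false,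
   Spec.mk (nat_lit 14647) (nat_lit 0) [nat_lit 10273, nat_lit 16105, nat_lit 14161, nat_lit 14701, nat_lit 14629, nat_lit 14641, nat_lit 14653, nat_lit 14645, nat_lit 14649] (nat_lit 3) [nat_lit 8087] false,
   Spec.mk (nat_lit 14649) (nat_lit 0) [nat_lit 10275, nat_lit 16107, nat_lit 14163, nat_lit 14703, nat_lit 14631, nat_lit 14655, nat_lit 14647] (nat_lit 5) [nat_lit 8089] false,
   Spec.mk (nat_lit 14653) (nat_lit 0) [nat_lit 10279, nat_lit 16111, nat_lit 14167, nat_lit 14707, nat_lit 14647, nat_lit 14655] (nat_lit 3) [nat_lit 8093] false,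
   Spec.mk (nat_lit 14655) (nat_lit 0) [nat_lit 10281, nat_lit 16113, nat_lit 14169, nat_lit 14709, nat_lit 14649, nat_lit 14653] (nat_lit 3) [nat_lit 8095] false,
   Spec.mk (nat_lit 14669) (nat_lit 0) [nat_lit 10295, nat_lit 16127, nat_lit 14183, nat_lit 14831, nat_lit 14615, nat_lit 14675] (nat_lit 1) [] false,
   Spec.mk (nat_lit 14675) (nat_lit 0) [nat_lit 10301, nat_lit 16133, nat_lit 14189, nat_lit 14837, nat_lit 14621, nat_lit 14693, nat_lit 14669, nat_lit 14681, nat_lit 14677] (nat_lit 2) [] false,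
   Spec.mk (nat_lit 14677) (nat_lit 0) [nat_lit 10303, nat_lit 16135, nat_lit 14191, nat_lit 14839, nat_lit 14623, nat_lit 14695, nat_lit 14683, nat_lit 14675] (nat_lit 3) [nat_lit 8117] false,
   Spec.mk (nat_lit 14681) (nat_lit 0) [nat_lit 10307, nat_lit 16139, nat_lit 14195, nat_lit 14843, nat_lit 14627, nat_lit 14699, nat_lit 14675, nat_lit 14683] (nat_lit 5) [] false,
   Spec.mk (nat_lit 14683) (nat_lit 0) [nat_lit 10309, nat_lit 16141, nat_lit 14197, nat_lit 14845, nat_lit 14629, nat_lit 14701, nat_lit 14677, nat_lit 14681, nat_lit 14685] (nat_lit 4) [nat_lit 8123] false,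
   Spec.mk (nat_lit 14685) (nat_lit 0) [nat_lit 10311, nat_lit 16143, nat_lit 14199, nat_lit 14847, nat_lit 14631, nat_lit 14703, nat_lit 14683] (nat_lit 5) [nat_lit 8125] false,
   Spec.mk (nat_lit 14693) (nat_lit 0) [nat_lit 10319, nat_lit 16151, nat_lit 14207, nat_lit 14855, nat_lit 14639, nat_lit 14747, nat_lit 14675, nat_lit 14699, nat_lit 14695] (nat_lit 2) [] false,
   Spec.mk (nat_lit 14695) (nat_lit 0) [nat_lit 10321, nat_lit 16153, nat_lit 14209, nat_lit 14857, nat_lit 14641, nat_lit 14749, nat_lit 14677, nat_lit 14701, nat_lit 14693] (nat_lit 4) [nat_lit 8135] false,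
   Spec.mk (nat_lit 14699) (nat_lit 0) [nat_lit 10325, nat_lit 16157, nat_lit 14213, nat_lit 14861, nat_lit 14645, nat_lit 14753, nat_lit 14681, nat_lit 14717, nat_lit 14693, nat_lit 14701] (nat_lit 3) [] false,
   Spec.mk (nat_lit 14701) (nat_lit 0) [nat_lit 10327, nat_lit 16159, nat_lit 14215, nat_lit 14863, nat_lit 14647, nat_lit 14755, nat_lit 14683, nat_lit 14719, nat_lit 14695, nat_lit 14707, nat_lit 14699, nat_lit 14703] (nat_lit 3) [nat_lit 8141] false,
   Spec.mk (nat_lit 14703) (nat_lit 0) [nat_lit 10329, nat_lit 16161, nat_lit 14217, nat_lit 14865, nat_lit 14649, nat_lit 14757, nat_lit 14685, nat_lit 14721, nat_lit 14709, nat_lit 14701] (nat_lit 5) [nat_lit 8143] false,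
   Spec.mk (nat_lit 14707) (nat_lit 0) [nat_lit 10333, nat_lit 16165, nat_lit 14221, nat_lit 14869, nat_lit 14653, nat_lit 14761, nat_lit 14725, nat_lit 14701, nat_lit 14709] (nat_lit 4) [nat_lit 8147] false,
   Spec.mk (nat_lit 14709) (nat_lit 0) [nat_lit 10335, nat_lit 16167, nat_lit 14223, nat_lit 14871, nat_lit 14655, nat_lit 14763, nat_lit 14727, nat_lit 14703, nat_lit 14707] (nat_lit 4) [nat_lit 8149] false,
   Spec.mk (nat_lit 14717) (nat_lit 0) [nat_lit 10343, nat_lit 16175, nat_lit 14231, nat_lit 14879, nat_lit 14771, nat_lit 14699, nat_lit 14719] (nat_lit 3) [] false,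
   Spec.mk (nat_lit 14719) (nat_lit 0) [nat_lit 10345, nat_lit 16177, nat_lit 14233, nat_lit 14881, nat_lit 14773, nat_lit 14701, nat_lit 14725, nat_lit 14717, nat_lit 14721] (nat_lit 4) [nat_lit 8159] false,
   Spec.mk (nat_lit 14721) (nat_lit 0) [nat_lit 10347, nat_lit 16179, nat_lit 14235, nat_lit 14883, nat_lit 14775, nat_lit 14703, nat_lit 14727, nat_lit 14719] (nat_lit 7) [nat_lit 8161] false,
   Spec.mk (nat_lit 14725) (nat_lit 0) [nat_lit 10351, nat_lit 16183, nat_lit 14239, nat_lit 14887, nat_lit 14779, nat_lit 14707, nat_lit 14719, nat_lit 14727] (nat_lit 3) [nat_lit 8165] false,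
   Spec.mk (nat_lit 14727) (nat_lit 0) [nat_lit 10353, nat_lit 16185, nat_lit 14241, nat_lit 14889, nat_lit 14781, nat_lit 14709, nat_lit 14721, nat_lit 14733, nat_lit 14725] (nat_lit 4) [nat_lit 8167] false,
   Spec.mk (nat_lit 14733) (nat_lit 0) [nat_lit 10359, nat_lit 16191, nat_lit 14247, nat_lit 14895, nat_lit 14787, nat_lit 14727] (nat_lit 3) [nat_lit 8173] false,
   Spec.mk (nat_lit 14747) (nat_lit 0) [nat_lit 10373, nat_lit 16205, nat_lit 14261, nat_lit 14909, nat_lit 14693, nat_lit 14753, nat_lit 14749] (nat_lit 3) [] false,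
   Spec.mk (nat_lit 14749) (nat_lit 0) [nat_lit 10375, nat_lit 16207, nat_lit 14263, nat_lit 14911, nat_lit 14695, nat_lit 14755, nat_lit 14747] (nat_lit 5) [nat_lit 8189] false,
   Spec.mk (nat_lit 14753) (nat_lit 0) [nat_lit 10379, nat_lit 16211, nat_lit 14267, nat_lit 14915, nat_lit 14699, nat_lit 14771, nat_lit 14747, nat_lit 14755] (nat_lit 5) [] false,
   Spec.mk (nat_lit 14755) (nat_lit 0) [nat_lit 10381, nat_lit 16213, nat_lit 14269, nat_lit 14917, nat_lit 14701, nat_lit 14773, nat_lit 14749, nat_lit 14761, nat_lit 14753, nat_lit 14757] (nat_lit 5) [nat_lit 8195] false,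
   Spec.mk (nat_lit 14757) (nat_lit 0) [nat_lit 10383, nat_lit 16215, nat_lit 14271, nat_lit 14919, nat_lit 14703, nat_lit 14775, nat_lit 14763, nat_lit 14755] (nat_lit 7) [nat_lit 8197] false,
   Spec.mk (nat_lit 14761) (nat_lit 0) [nat_lit 10387, nat_lit 16219, nat_lit 14275, nat_lit 14923, nat_lit 14707, nat_lit 14779, nat_lit 14755, nat_lit 14763] (nat_lit 7) [nat_lit 8201] false,
   Spec.mk (nat_lit 14763) (nat_lit 0) [nat_lit 10389, nat_lit 16221, nat_lit 14277, nat_lit 14925, nat_lit 14709, nat_lit 14781, nat_lit 14757, nat_lit 14761] (nat_lit 7) [nat_lit 8203] false,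
   Spec.mk (nat_lit 14771) (nat_lit 0) [nat_lit 10397, nat_lit 16229, nat_lit 14285, nat_lit 14933, nat_lit 14717, nat_lit 14753, nat_lit 14773] (nat_lit 3) [] false,
   Spec.mk (nat_lit 14773) (nat_lit 0) [nat_lit 10399, nat_lit 16231, nat_lit 14287, nat_lit 14935, nat_lit 14719, nat_lit 14755, nat_lit 14779, nat_lit 14771, nat_lit 14775] (nat_lit 4) [nat_lit 8213] false,
   Spec.mk (nat_lit 14775) (nat_lit 0) [nat_lit 10401, nat_lit 16233, nat_lit 14289, nat_lit 14937, nat_lit 14721, nat_lit 14757, nat_lit 14781, nat_lit 14773] (nat_lit 7) [nat_lit 8215] false,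
   Spec.mk (nat_lit 14779) (nat_lit 0) [nat_lit 10405, nat_lit 16237, nat_lit 14293, nat_lit 14941, nat_lit 14725, nat_lit 14761, nat_lit 14797, nat_lit 14773, nat_lit 14781] (nat_lit 4) [nat_lit 8219] false,
   Spec.mk (nat_lit 14781) (nat_lit 0) [nat_lit 10407, nat_lit 16239, nat_lit 14295, nat_lit 14943, nat_lit 14727, nat_lit 14763, nat_lit 14799, nat_lit 14775, nat_lit 14787, nat_lit 14779] (nat_lit 5) [nat_lit 8221] false,
   Spec.mk (nat_lit 14787) (nat_lit 0) [nat_lit 10413, nat_lit 16245, nat_lit 14301, nat_lit 14949, nat_lit 14733, nat_lit 14805, nat_lit 14781] (nat_lit 5) [nat_lit 8227] false,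
   Spec.mk (nat_lit 14797) (nat_lit 0) [nat_lit 10423, nat_lit 16255, nat_lit 14311, nat_lit 14959, nat_lit 14779, nat_lit 14799] (nat_lit 3) [nat_lit 8237] false,
   Spec.mk (nat_lit 14799) (nat_lit 0) [nat_lit 10425, nat_lit 16257, nat_lit 14313, nat_lit 14961, nat_lit 14781, nat_lit 14805, nat_lit 14797] (nat_lit 5) [nat_lit 8239] false,
   Spec.mk (nat_lit 14805) (nat_lit 0) [nat_lit 10431, nat_lit 16263, nat_lit 14319, nat_lit 14967, nat_lit 14787, nat_lit 14799] (nat_lit 3) [nat_lit 8245] false,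
   Spec.mk (nat_lit 14831) (nat_lit 1) [nat_lit 10457, nat_lit 16289, nat_lit 14345, nat_lit 14669, nat_lit 14837] (nat_lit 0) [] false,
   Spec.mk (nat_lit 14837) (nat_lit 0) [nat_lit 10463, nat_lit 16295, nat_lit 14351, nat_lit 14675, nat_lit 14855, nat_lit 14831, nat_lit 14843, nat_lit 14839] (nat_lit 0) [] false,
   Spec.mk (nat_lit 14839) (nat_lit 0) [nat_lit 10465, nat_lit 16297, nat_lit 14353, nat_lit 14677, nat_lit 14857, nat_lit 14845, nat_lit 14837] (nat_lit 1) [nat_lit 8279] false,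
   Spec.mk (nat_lit 14843) (nat_lit 0) [nat_lit 10469, nat_lit 16301, nat_lit 14357, nat_lit 14681, nat_lit 14861, nat_lit 14837, nat_lit 14845] (nat_lit 3) [] false,
   Spec.mk (nat_lit 14845) (nat_lit 0) [nat_lit 10471, nat_lit 16303, nat_lit 14359, nat_lit 14683, nat_lit 14863, nat_lit 14839, nat_lit 14843, nat_lit 14847] (nat_lit 2) [nat_lit 8285] false,
   Spec.mk (nat_lit 14847) (nat_lit 0) [nat_lit 10473, nat_lit 16305, nat_lit 14361, nat_lit 14685, nat_lit 14865, nat_lit 14845] (nat_lit 3) [nat_lit 8287] false,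
   Spec.mk (nat_lit 14855) (nat_lit 0) [nat_lit 10481, nat_lit 16313, nat_lit 14369, nat_lit 14693, nat_lit 14909, nat_lit 14837, nat_lit 14861, nat_lit 14857] (nat_lit 1) [] false,
   Spec.mk (nat_lit 14857) (nat_lit 0) [nat_lit 10483, nat_lit 16315, nat_lit 14371, nat_lit 14695, nat_lit 14911, nat_lit 14839, nat_lit 14863, nat_lit 14855] (nat_lit 3) [nat_lit 8297] false,
   Spec.mk (nat_lit 14861) (nat_lit 0) [nat_lit 10487, nat_lit 16319, nat_lit 14375, nat_lit 14699, nat_lit 14915, nat_lit 14843, nat_lit 14879, nat_lit 14855, nat_lit 14863] (nat_lit 2) [] false,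
   Spec.mk (nat_lit 14863) (nat_lit 0) [nat_lit 10489, nat_lit 16321, nat_lit 14377, nat_lit 14701, nat_lit 14917, nat_lit 14845, nat_lit 14881, nat_lit 14857, nat_lit 14869, nat_lit 14861, nat_lit 14865] (nat_lit 2) [nat_lit 8303] false,
   Spec.mk (nat_lit 14865) (nat_lit 0) [nat_lit 10491, nat_lit 16323, nat_lit 14379, nat_lit 14703, nat_lit 14919, nat_lit 14847, nat_lit 14883, nat_lit 14871, nat_lit 14863] (nat_lit 4) [nat_lit 8305] false,
   Spec.mk (nat_lit 14869) (nat_lit 0) [nat_lit 10495, nat_lit 16327, nat_lit 14383, nat_lit 14707, nat_lit 14923, nat_lit 14887, nat_lit 14863, nat_lit 14871] (nat_lit 3) [nat_lit 8309] false,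
   Spec.mk (nat_lit 14871) (nat_lit 0) [nat_lit 10497, nat_lit 16329, nat_lit 14385, nat_lit 14709, nat_lit 14925, nat_lit 14889, nat_lit 14865, nat_lit 14869] (nat_lit 3) [nat_lit 8311] false,
   Spec.mk (nat_lit 14879) (nat_lit 0) [nat_lit 10505, nat_lit 16337, nat_lit 14393, nat_lit 14717, nat_lit 14933, nat_lit 14861, nat_lit 14881] (nat_lit 3) [] false,
   Spec.mk (nat_lit 14881) (nat_lit 0) [nat_lit 10507, nat_lit 16339, nat_lit 14395, nat_lit 14719, nat_lit 14935, nat_lit 14863, nat_lit 14887, nat_lit 14879, nat_lit 14883] (nat_lit 4) [nat_lit 8321] false,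
   Spec.mk (nat_lit 14883) (nat_lit 0) [nat_lit 10509, nat_lit 16341, nat_lit 14397, nat_lit 14721, nat_lit 14937, nat_lit 14865, nat_lit 14889, nat_lit 14881] (nat_lit 7) [nat_lit 8323] false,
   Spec.mk (nat_lit 14887) (nat_lit 0) [nat_lit 10513, nat_lit 16345, nat_lit 14401, nat_lit 14725, nat_lit 14941, nat_lit 14869, nat_lit 14881, nat_lit 14889] (nat_lit 3) [nat_lit 8327] false,
   Spec.mk (nat_lit 14889) (nat_lit 0) [nat_lit 10515, nat_lit 16347, nat_lit 14403, nat_lit 14727, nat_lit 14943, nat_lit 14871, nat_lit 14883, nat_lit 14895, nat_lit 14887] (nat_lit 4) [nat_lit 8329] false,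
   Spec.mk (nat_lit 14895) (nat_lit 0) [nat_lit 10521, nat_lit 16353, nat_lit 14409, nat_lit 14733, nat_lit 14949, nat_lit 14889] (nat_lit 3) [nat_lit 8335] false]

noncomputable def sp41 : List Spec :=
  [Spec.mk (nat_lit 14909) (nat_lit 0) [nat_lit 10535, nat_lit 16367, nat_lit 14423, nat_lit 14747, nat_lit 15071, nat_lit 14855, nat_lit 14915, nat_lit 14911] (nat_lit 0) [] false,
   Spec.mk (nat_lit 14911) (nat_lit 0) [nat_lit 10537, nat_lit 16369, nat_lit 14425, nat_lit 14749, nat_lit 15073, nat_lit 14857, nat_lit 14917, nat_lit 14909] (nat_lit 2) [nat_lit 8351] false,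
   Spec.mk (nat_lit 14915) (nat_lit 0) [nat_lit 10541, nat_lit 16373, nat_lit 14429, nat_lit 14753, nat_lit 15077, nat_lit 14861, nat_lit 14933, nat_lit 14909, nat_lit 14917] (nat_lit 2) [] false,
   Spec.mk (nat_lit 14917) (nat_lit 0) [nat_lit 10543, nat_lit 16375, nat_lit 14431, nat_lit 14755, nat_lit 15079, nat_lit 14863, nat_lit 14935, nat_lit 14911, nat_lit 14923, nat_lit 14915, nat_lit 14919] (nat_lit 2) [nat_lit 8357] false,
   Spec.mk (nat_lit 14919) (nat_lit 0) [nat_lit 10545, nat_lit 16377, nat_lit 14433, nat_lit 14757, nat_lit 15081, nat_lit 14865, nat_lit 14937, nat_lit 14925, nat_lit 14917] (nat_lit 4) [nat_lit 8359] false,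
   Spec.mk (nat_lit 14923) (nat_lit 0) [nat_lit 10549, nat_lit 16381, nat_lit 14437, nat_lit 14761, nat_lit 15085, nat_lit 14869, nat_lit 14941, nat_lit 14917, nat_lit 14925] (nat_lit 4) [nat_lit 8363] false,
   Spec.mk (nat_lit 14925) (nat_lit 0) [nat_lit 10551, nat_lit 16383, nat_lit 14439, nat_lit 14763, nat_lit 15087, nat_lit 14871, nat_lit 14943, nat_lit 14919, nat_lit 14923] (nat_lit 4) [nat_lit 8365] false,
   Spec.mk (nat_lit 14933) (nat_lit 0) [nat_lit 10559, nat_lit 16391, nat_lit 14447, nat_lit 14771, nat_lit 15095, nat_lit 14879, nat_lit 14987, nat_lit 14915, nat_lit 14935] (nat_lit 1) [] false,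
   Spec.mk (nat_lit 14935) (nat_lit 0) [nat_lit 10561, nat_lit 16393, nat_lit 14449, nat_lit 14773, nat_lit 15097, nat_lit 14881, nat_lit 14989, nat_lit 14917, nat_lit 14941, nat_lit 14933, nat_lit 14937] (nat_lit 2) [nat_lit 8375] false,
   Spec.mk (nat_lit 14937) (nat_lit 0) [nat_lit 10563, nat_lit 16395, nat_lit 14451, nat_lit 14775, nat_lit 15099, nat_lit 14883, nat_lit 14991, nat_lit 14919, nat_lit 14943, nat_lit 14935] (nat_lit 5) [nat_lit 8377] false,
   Spec.mk (nat_lit 14941) (nat_lit 0) [nat_lit 10567, nat_lit 16399, nat_lit 14455, nat_lit 14779, nat_lit 15103, nat_lit 14887, nat_lit 14995, nat_lit 14923, nat_lit 14959, nat_lit 14935, nat_lit 14943] (nat_lit 2) [nat_lit 8381] false,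
   Spec.mk (nat_lit 14943) (nat_lit 0) [nat_lit 10569, nat_lit 16401, nat_lit 14457, nat_lit 14781, nat_lit 15105, nat_lit 14889, nat_lit 14997, nat_lit 14925, nat_lit 14961, nat_lit 14937, nat_lit 14949, nat_lit 14941] (nat_lit 3) [nat_lit 8383] false,
   Spec.mk (nat_lit 14949) (nat_lit 0) [nat_lit 10575, nat_lit 16407, nat_lit 14463, nat_lit 14787, nat_lit 15111, nat_lit 14895, nat_lit 15003, nat_lit 14967, nat_lit 14943] (nat_lit 3) [nat_lit 8389] false,
   Spec.mk (nat_lit 14959) (nat_lit 0) [nat_lit 10585, nat_lit 16417, nat_lit 14473, nat_lit 14797, nat_lit 15121, nat_lit 15013, nat_lit 14941, nat_lit 14961] (nat_lit 2) [nat_lit 8399] false,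
   Spec.mk (nat_lit 14961) (nat_lit 0) [nat_lit 10587, nat_lit 16419, nat_lit 14475, nat_lit 14799, nat_lit 15123, nat_lit 15015, nat_lit 14943, nat_lit 14967, nat_lit 14959] (nat_lit 4) [nat_lit 8401] false,
   Spec.mk (nat_lit 14967) (nat_lit 0) [nat_lit 10593, nat_lit 16425, nat_lit 14481, nat_lit 14805, nat_lit 15129, nat_lit 15021, nat_lit 14949, nat_lit 14961] (nat_lit 2) [nat_lit 8407] false,
   Spec.mk (nat_lit 14987) (nat_lit 0) [nat_lit 10613, nat_lit 16445, nat_lit 14501, nat_lit 15149, nat_lit 14933, nat_lit 14989] (nat_lit 1) [] false,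
   Spec.mk (nat_lit 14989) (nat_lit 0) [nat_lit 10615, nat_lit 16447, nat_lit 14503, nat_lit 15151, nat_lit 14935, nat_lit 14995, nat_lit 14987, nat_lit 14991] (nat_lit 2) [nat_lit 8429] false,
   Spec.mk (nat_lit 14991) (nat_lit 0) [nat_lit 10617, nat_lit 16449, nat_lit 14505, nat_lit 15153, nat_lit 14937, nat_lit 14997, nat_lit 14989] (nat_lit 5) [nat_lit 8431] false,
   Spec.mk (nat_lit 14995) (nat_lit 0) [nat_lit 10621, nat_lit 16453, nat_lit 14509, nat_lit 15157, nat_lit 14941, nat_lit 15013, nat_lit 14989, nat_lit 14997] (nat_lit 3) [nat_lit 8435] false,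
   Spec.mk (nat_lit 14997) (nat_lit 0) [nat_lit 10623, nat_lit 16455, nat_lit 14511, nat_lit 15159, nat_lit 14943, nat_lit 15015, nat_lit 14991, nat_lit 15003, nat_lit 14995] (nat_lit 4) [nat_lit 8437] false,
   Spec.mk (nat_lit 15003) (nat_lit 0) [nat_lit 10629, nat_lit 16461, nat_lit 14517, nat_lit 15165, nat_lit 14949, nat_lit 15021, nat_lit 14997] (nat_lit 5) [nat_lit 8443] false,
   Spec.mk (nat_lit 15013) (nat_lit 0) [nat_lit 10639, nat_lit 16471, nat_lit 14527, nat_lit 15175, nat_lit 14959, nat_lit 14995, nat_lit 15015] (nat_lit 1) [nat_lit 8453] false,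
   Spec.mk (nat_lit 15015) (nat_lit 0) [nat_lit 10641, nat_lit 16473, nat_lit 14529, nat_lit 15177, nat_lit 14961, nat_lit 14997, nat_lit 15021, nat_lit 15013] (nat_lit 3) [nat_lit 8455] false,
   Spec.mk (nat_lit 15021) (nat_lit 0) [nat_lit 10647, nat_lit 16479, nat_lit 14535, nat_lit 15183, nat_lit 14967, nat_lit 15003, nat_lit 15039, nat_lit 15015] (nat_lit 2) [nat_lit 8461] false,
   Spec.mk (nat_lit 15039) (nat_lit 0) [nat_lit 10665, nat_lit 16497, nat_lit 14553, nat_lit 15201, nat_lit 15021] (nat_lit 1) [nat_lit 8479] false,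
   Spec.mk (nat_lit 15071) (nat_lit 1) [nat_lit 10697, nat_lit 16529, nat_lit 14909, nat_lit 15077, nat_lit 15073] (nat_lit 0) [] false,
   Spec.mk (nat_lit 15073) (nat_lit 0) [nat_lit 10699, nat_lit 16531, nat_lit 14911, nat_lit 15079, nat_lit 15071] (nat_lit 1) [nat_lit 8513] false,
   Spec.mk (nat_lit 15077) (nat_lit 0) [nat_lit 10703, nat_lit 16535, nat_lit 14915, nat_lit 15095, nat_lit 15071, nat_lit 15079] (nat_lit 1) [] false,
   Spec.mk (nat_lit 15079) (nat_lit 0) [nat_lit 10705, nat_lit 16537, nat_lit 14917, nat_lit 15097, nat_lit 15073, nat_lit 15085, nat_lit 15077, nat_lit 15081] (nat_lit 1) [nat_lit 8519] false,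
   Spec.mk (nat_lit 15081) (nat_lit 0) [nat_lit 10707, nat_lit 16539, nat_lit 14919, nat_lit 15099, nat_lit 15087, nat_lit 15079] (nat_lit 3) [nat_lit 8521] false,
   Spec.mk (nat_lit 15085) (nat_lit 0) [nat_lit 10711, nat_lit 16543, nat_lit 14923, nat_lit 15103, nat_lit 15079, nat_lit 15087] (nat_lit 3) [nat_lit 8525] false,
   Spec.mk (nat_lit 15087) (nat_lit 0) [nat_lit 10713, nat_lit 16545, nat_lit 14925, nat_lit 15105, nat_lit 15081, nat_lit 15085] (nat_lit 3) [nat_lit 8527] false,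
   Spec.mk (nat_lit 15095) (nat_lit 0) [nat_lit 10721, nat_lit 16553, nat_lit 14933, nat_lit 15149, nat_lit 15077, nat_lit 15097] (nat_lit 1) [] false,
   Spec.mk (nat_lit 15097) (nat_lit 0) [nat_lit 10723, nat_lit 16555, nat_lit 14935, nat_lit 15151, nat_lit 15079, nat_lit 15103, nat_lit 15095, nat_lit 15099] (nat_lit 2) [nat_lit 8537] false,
   Spec.mk (nat_lit 15099) (nat_lit 0) [nat_lit 10725, nat_lit 16557, nat_lit 14937, nat_lit 15153, nat_lit 15081, nat_lit 15105, nat_lit 15097] (nat_lit 5) [nat_lit 8539] false,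
   Spec.mk (nat_lit 15103) (nat_lit 0) [nat_lit 10729, nat_lit 16561, nat_lit 14941, nat_lit 15157, nat_lit 15085, nat_lit 15121, nat_lit 15097, nat_lit 15105] (nat_lit 2) [nat_lit 8543] false,
   Spec.mk (nat_lit 15105) (nat_lit 0) [nat_lit 10731, nat_lit 16563, nat_lit 14943, nat_lit 15159, nat_lit 15087, nat_lit 15123, nat_lit 15099, nat_lit 15111, nat_lit 15103] (nat_lit 3) [nat_lit 8545] false,
   Spec.mk (nat_lit 15111) (nat_lit 0) [nat_lit 10737, nat_lit 16569, nat_lit 14949, nat_lit 15165, nat_lit 15129, nat_lit 15105] (nat_lit 3) [nat_lit 8551] false,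
   Spec.mk (nat_lit 15121) (nat_lit 0) [nat_lit 10747, nat_lit 16579, nat_lit 14959, nat_lit 15175, nat_lit 15103, nat_lit 15123] (nat_lit 3) [nat_lit 8561] false,
   Spec.mk (nat_lit 15123) (nat_lit 0) [nat_lit 10749, nat_lit 16581, nat_lit 14961, nat_lit 15177, nat_lit 15105, nat_lit 15129, nat_lit 15121] (nat_lit 5) [nat_lit 8563] false,
   Spec.mk (nat_lit 15129) (nat_lit 0) [nat_lit 10755, nat_lit 16587, nat_lit 14967, nat_lit 15183, nat_lit 15111, nat_lit 15123] (nat_lit 3) [nat_lit 8569] false,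
   Spec.mk (nat_lit 15149) (nat_lit 1) [nat_lit 10775, nat_lit 16607, nat_lit 14987, nat_lit 15095, nat_lit 15151] (nat_lit 0) [] false,
   Spec.mk (nat_lit 15151) (nat_lit 0) [nat_lit 10777, nat_lit 16609, nat_lit 14989, nat_lit 15097, nat_lit 15157, nat_lit 15149, nat_lit 15153] (nat_lit 0) [nat_lit 8591] false,
   Spec.mk (nat_lit 15153) (nat_lit 0) [nat_lit 10779, nat_lit 16611, nat_lit 14991, nat_lit 15099, nat_lit 15159, nat_lit 15151] (nat_lit 3) [nat_lit 8593] false,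
   Spec.mk (nat_lit 15157) (nat_lit 0) [nat_lit 10783, nat_lit 16615, nat_lit 14995, nat_lit 15103, nat_lit 15175, nat_lit 15151, nat_lit 15159] (nat_lit 1) [nat_lit 8597] false,
   Spec.mk (nat_lit 15159) (nat_lit 0) [nat_lit 10785, nat_lit 16617, nat_lit 14997, nat_lit 15105, nat_lit 15177, nat_lit 15153, nat_lit 15165, nat_lit 15157] (nat_lit 2) [nat_lit 8599] false,
   Spec.mk (nat_lit 15165) (nat_lit 0) [nat_lit 10791, nat_lit 16623, nat_lit 15003, nat_lit 15111, nat_lit 15183, nat_lit 15159] (nat_lit 3) [nat_lit 8605] false,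
   Spec.mk (nat_lit 15175) (nat_lit 0) [nat_lit 10801, nat_lit 16633, nat_lit 15013, nat_lit 15121, nat_lit 15229, nat_lit 15157, nat_lit 15177] (nat_lit 0) [nat_lit 8615] false,
   Spec.mk (nat_lit 15177) (nat_lit 0) [nat_lit 10803, nat_lit 16635, nat_lit 15015, nat_lit 15123, nat_lit 15231, nat_lit 15159, nat_lit 15183, nat_lit 15175] (nat_lit 2) [nat_lit 8617] false,
   Spec.mk (nat_lit 15183) (nat_lit 0) [nat_lit 10809, nat_lit 16641, nat_lit 15021, nat_lit 15129, nat_lit 15237, nat_lit 15165, nat_lit 15201, nat_lit 15177] (nat_lit 1) [nat_lit 8623] false,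
   Spec.mk (nat_lit 15201) (nat_lit 0) [nat_lit 10827, nat_lit 16659, nat_lit 15039, nat_lit 15255, nat_lit 15183] (nat_lit 1) [nat_lit 8641] false,
   Spec.mk (nat_lit 15229) (nat_lit 1) [nat_lit 10855, nat_lit 16687, nat_lit 15175, nat_lit 15231] (nat_lit 0) [nat_lit 8669] false,
   Spec.mk (nat_lit 15231) (nat_lit 0) [nat_lit 10857, nat_lit 16689, nat_lit 15177, nat_lit 15237, nat_lit 15229] (nat_lit 1) [nat_lit 8671] false,
   Spec.mk (nat_lit 15237) (nat_lit 0) [nat_lit 10863, nat_lit 16695, nat_lit 15183, nat_lit 15255, nat_lit 15231] (nat_lit 1) [nat_lit 8677] false,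
   Spec.mk (nat_lit 15255) (nat_lit 1) [nat_lit 10881, nat_lit 16713, nat_lit 15201, nat_lit 15237] (nat_lit 0) [nat_lit 8695] false,
   Spec.mk (nat_lit 15335) (nat_lit 5) [nat_lit 10961, nat_lit 13877, nat_lit 15353] (nat_lit 0) [] false,
   Spec.mk (nat_lit 15353) (nat_lit 4) [nat_lit 10979, nat_lit 13895, nat_lit 15407, nat_lit 15335, nat_lit 15371, nat_lit 15359] (nat_lit 0) [] false,
   Spec.mk (nat_lit 15359) (nat_lit 3) [nat_lit 10985, nat_lit 13901, nat_lit 15413, nat_lit 15377, nat_lit 15353, nat_lit 15361] (nat_lit 0) [] false,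
   Spec.mk (nat_lit 15361) (nat_lit 3) [nat_lit 10987, nat_lit 13903, nat_lit 15415, nat_lit 15379, nat_lit 15359] (nat_lit 0) [nat_lit 8801] false]

noncomputable def sp42 : List Spec :=
  [Spec.mk (nat_lit 15371) (nat_lit 1) [nat_lit 10997, nat_lit 13913, nat_lit 15425, nat_lit 15353, nat_lit 15377] (nat_lit 0) [] false,
   Spec.mk (nat_lit 15377) (nat_lit 2) [nat_lit 11003, nat_lit 13919, nat_lit 15431, nat_lit 15359, nat_lit 15371, nat_lit 15383, nat_lit 15379] (nat_lit 0) [] false,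
   Spec.mk (nat_lit 15379) (nat_lit 1) [nat_lit 11005, nat_lit 13921, nat_lit 15433, nat_lit 15361, nat_lit 15385, nat_lit 15377] (nat_lit 0) [nat_lit 8819] false,
   Spec.mk (nat_lit 15383) (nat_lit 1) [nat_lit 11009, nat_lit 13925, nat_lit 15437, nat_lit 15377, nat_lit 15385] (nat_lit 0) [] false,
   Spec.mk (nat_lit 15385) (nat_lit 2) [nat_lit 11011, nat_lit 13927, nat_lit 15439, nat_lit 15379, nat_lit 15383, nat_lit 15387] (nat_lit 0) [nat_lit 8825] false,
   Spec.mk (nat_lit 15387) (nat_lit 1) [nat_lit 11013, nat_lit 13929, nat_lit 15441, nat_lit 15385] (nat_lit 0) [nat_lit 8827] false,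
   Spec.mk (nat_lit 15407) (nat_lit 3) [nat_lit 11033, nat_lit 13949, nat_lit 15569, nat_lit 15353, nat_lit 15425, nat_lit 15413] (nat_lit 0) [] false,
   Spec.mk (nat_lit 15413) (nat_lit 1) [nat_lit 11039, nat_lit 13955, nat_lit 15575, nat_lit 15359, nat_lit 15431, nat_lit 15407, nat_lit 15415] (nat_lit 0) [] false,
   Spec.mk (nat_lit 15415) (nat_lit 1) [nat_lit 11041, nat_lit 13957, nat_lit 15577, nat_lit 15361, nat_lit 15433, nat_lit 15413] (nat_lit 0) [nat_lit 8855] false,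
   Spec.mk (nat_lit 15425) (nat_lit 2) [nat_lit 11051, nat_lit 13967, nat_lit 15587, nat_lit 15371, nat_lit 15479, nat_lit 15407, nat_lit 15431] (nat_lit 0) [] false,
   Spec.mk (nat_lit 15431) (nat_lit 2) [nat_lit 11057, nat_lit 13973, nat_lit 15593, nat_lit 15377, nat_lit 15485, nat_lit 15413, nat_lit 15449, nat_lit 15425, nat_lit 15437, nat_lit 15433] (nat_lit 0) [] false,
   Spec.mk (nat_lit 15433) (nat_lit 1) [nat_lit 11059, nat_lit 13975, nat_lit 15595, nat_lit 15379, nat_lit 15487, nat_lit 15415, nat_lit 15451, nat_lit 15439, nat_lit 15431] (nat_lit 0) [nat_lit 8873] false,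
   Spec.mk (nat_lit 15437) (nat_lit 0) [nat_lit 11063, nat_lit 13979, nat_lit 15599, nat_lit 15383, nat_lit 15491, nat_lit 15455, nat_lit 15431, nat_lit 15439] (nat_lit 0) [] false,
   Spec.mk (nat_lit 15439) (nat_lit 1) [nat_lit 11065, nat_lit 13981, nat_lit 15601, nat_lit 15385, nat_lit 15493, nat_lit 15457, nat_lit 15433, nat_lit 15437, nat_lit 15441] (nat_lit 0) [nat_lit 8879] false,
   Spec.mk (nat_lit 15441) (nat_lit 0) [nat_lit 11067, nat_lit 13983, nat_lit 15603, nat_lit 15387, nat_lit 15495, nat_lit 15459, nat_lit 15439] (nat_lit 0) [nat_lit 8881] false,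
   Spec.mk (nat_lit 15449) (nat_lit 1) [nat_lit 11075, nat_lit 13991, nat_lit 15611, nat_lit 15503, nat_lit 15431, nat_lit 15455, nat_lit 15451] (nat_lit 0) [] false,
   Spec.mk (nat_lit 15451) (nat_lit 0) [nat_lit 11077, nat_lit 13993, nat_lit 15613, nat_lit 15505, nat_lit 15433, nat_lit 15457, nat_lit 15449] (nat_lit 1) [nat_lit 8891] false,
   Spec.mk (nat_lit 15455) (nat_lit 1) [nat_lit 11081, nat_lit 13997, nat_lit 15617, nat_lit 15509, nat_lit 15437, nat_lit 15449, nat_lit 15457] (nat_lit 0) [] false,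
   Spec.mk (nat_lit 15457) (nat_lit 1) [nat_lit 11083, nat_lit 13999, nat_lit 15619, nat_lit 15511, nat_lit 15439, nat_lit 15451, nat_lit 15463, nat_lit 15455, nat_lit 15459] (nat_lit 0) [nat_lit 8897] false,
   Spec.mk (nat_lit 15459) (nat_lit 0) [nat_lit 11085, nat_lit 14001, nat_lit 15621, nat_lit 15513, nat_lit 15441, nat_lit 15465, nat_lit 15457] (nat_lit 1) [nat_lit 8899] false,
   Spec.mk (nat_lit 15463) (nat_lit 1) [nat_lit 11089, nat_lit 14005, nat_lit 15625, nat_lit 15517, nat_lit 15457, nat_lit 15465] (nat_lit 0) [nat_lit 8903] false,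
   Spec.mk (nat_lit 15465) (nat_lit 1) [nat_lit 11091, nat_lit 14007, nat_lit 15627, nat_lit 15519, nat_lit 15459, nat_lit 15463] (nat_lit 0) [nat_lit 8905] false,
   Spec.mk (nat_lit 15479) (nat_lit 1) [nat_lit 11105, nat_lit 14021, nat_lit 15641, nat_lit 15425, nat_lit 15485] (nat_lit 0) [] false,
   Spec.mk (nat_lit 15485) (nat_lit 0) [nat_lit 11111, nat_lit 14027, nat_lit 15647, nat_lit 15431, nat_lit 15503, nat_lit 15479, nat_lit 15491, nat_lit 15487] (nat_lit 0) [] false,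
   Spec.mk (nat_lit 15487) (nat_lit 0) [nat_lit 11113, nat_lit 14029, nat_lit 15649, nat_lit 15433, nat_lit 15505, nat_lit 15493, nat_lit 15485] (nat_lit 1) [nat_lit 8927] false,
   Spec.mk (nat_lit 15491) (nat_lit 0) [nat_lit 11117, nat_lit 14033, nat_lit 15653, nat_lit 15437, nat_lit 15509, nat_lit 15485, nat_lit 15493] (nat_lit 3) [] false,
   Spec.mk (nat_lit 15493) (nat_lit 0) [nat_lit 11119, nat_lit 14035, nat_lit 15655, nat_lit 15439, nat_lit 15511, nat_lit 15487, nat_lit 15491, nat_lit 15495] (nat_lit 2) [nat_lit 8933] false,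
   Spec.mk (nat_lit 15495) (nat_lit 0) [nat_lit 11121, nat_lit 14037, nat_lit 15657, nat_lit 15441, nat_lit 15513, nat_lit 15493] (nat_lit 3) [nat_lit 8935] false,
   Spec.mk (nat_lit 15503) (nat_lit 1) [nat_lit 11129, nat_lit 14045, nat_lit 15665, nat_lit 15449, nat_lit 15485, nat_lit 15509, nat_lit 15505] (nat_lit 0) [] false,
   Spec.mk (nat_lit 15505) (nat_lit 0) [nat_lit 11131, nat_lit 14047, nat_lit 15667, nat_lit 15451, nat_lit 15487, nat_lit 15511, nat_lit 15503] (nat_lit 1) [nat_lit 8945] false,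
   Spec.mk (nat_lit 15509) (nat_lit 0) [nat_lit 11135, nat_lit 14051, nat_lit 15671, nat_lit 15455, nat_lit 15491, nat_lit 15527, nat_lit 15503, nat_lit 15511] (nat_lit 0) [] false,
   Spec.mk (nat_lit 15511) (nat_lit 0) [nat_lit 11137, nat_lit 14053, nat_lit 15673, nat_lit 15457, nat_lit 15493, nat_lit 15529, nat_lit 15505, nat_lit 15517, nat_lit 15509, nat_lit 15513] (nat_lit 0) [nat_lit 8951] false,
   Spec.mk (nat_lit 15513) (nat_lit 0) [nat_lit 11139, nat_lit 14055, nat_lit 15675, nat_lit 15459, nat_lit 15495, nat_lit 15531, nat_lit 15519, nat_lit 15511] (nat_lit 2) [nat_lit 8953] false,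
   Spec.mk (nat_lit 15517) (nat_lit 0) [nat_lit 11143, nat_lit 14059, nat_lit 15679, nat_lit 15463, nat_lit 15535, nat_lit 15511, nat_lit 15519] (nat_lit 1) [nat_lit 8957] false,
   Spec.mk (nat_lit 15519) (nat_lit 0) [nat_lit 11145, nat_lit 14061, nat_lit 15681, nat_lit 15465, nat_lit 15537, nat_lit 15513, nat_lit 15517] (nat_lit 1) [nat_lit 8959] false,
   Spec.mk (nat_lit 15527) (nat_lit 1) [nat_lit 11153, nat_lit 14069, nat_lit 15689, nat_lit 15509, nat_lit 15529] (nat_lit 0) [] false,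
   Spec.mk (nat_lit 15529) (nat_lit 0) [nat_lit 11155, nat_lit 14071, nat_lit 15691, nat_lit 15511, nat_lit 15535, nat_lit 15527, nat_lit 15531] (nat_lit 0) [nat_lit 8969] false,
   Spec.mk (nat_lit 15531) (nat_lit 0) [nat_lit 11157, nat_lit 14073, nat_lit 15693, nat_lit 15513, nat_lit 15537, nat_lit 15529] (nat_lit 3) [nat_lit 8971] false,
   Spec.mk (nat_lit 15535) (nat_lit 1) [nat_lit 11161, nat_lit 14077, nat_lit 15697, nat_lit 15517, nat_lit 15529, nat_lit 15537] (nat_lit 0) [nat_lit 8975] false,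
   Spec.mk (nat_lit 15537) (nat_lit 0) [nat_lit 11163, nat_lit 14079, nat_lit 15699, nat_lit 15519, nat_lit 15531, nat_lit 15543, nat_lit 15535] (nat_lit 0) [nat_lit 8977] false,
   Spec.mk (nat_lit 15543) (nat_lit 1) [nat_lit 11169, nat_lit 14085, nat_lit 15705, nat_lit 15537] (nat_lit 0) [nat_lit 8983] false,
   Spec.mk (nat_lit 15569) (nat_lit 3) [nat_lit 11195, nat_lit 14111, nat_lit 16055, nat_lit 15407, nat_lit 15587, nat_lit 15575] (nat_lit 0) [] false,
   Spec.mk (nat_lit 15575) (nat_lit 1) [nat_lit 11201, nat_lit 14117, nat_lit 16061, nat_lit 15413, nat_lit 15593, nat_lit 15569, nat_lit 15577] (nat_lit 0) [] false,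
   Spec.mk (nat_lit 15577) (nat_lit 1) [nat_lit 11203, nat_lit 14119, nat_lit 16063, nat_lit 15415, nat_lit 15595, nat_lit 15575] (nat_lit 0) [nat_lit 9017] false,
   Spec.mk (nat_lit 15587) (nat_lit 1) [nat_lit 11213, nat_lit 14129, nat_lit 16073, nat_lit 15425, nat_lit 15641, nat_lit 15569, nat_lit 15593] (nat_lit 0) [] false,
   Spec.mk (nat_lit 15593) (nat_lit 1) [nat_lit 11219, nat_lit 14135, nat_lit 16079, nat_lit 15431, nat_lit 15647, nat_lit 15575, nat_lit 15611, nat_lit 15587, nat_lit 15599, nat_lit 15595] (nat_lit 0) [] false,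
   Spec.mk (nat_lit 15595) (nat_lit 0) [nat_lit 11221, nat_lit 14137, nat_lit 16081, nat_lit 15433, nat_lit 15649, nat_lit 15577, nat_lit 15613, nat_lit 15601, nat_lit 15593] (nat_lit 0) [nat_lit 9035] false,
   Spec.mk (nat_lit 15599) (nat_lit 0) [nat_lit 11225, nat_lit 14141, nat_lit 16085, nat_lit 15437, nat_lit 15653, nat_lit 15617, nat_lit 15593, nat_lit 15601] (nat_lit 1) [] false,
   Spec.mk (nat_lit 15601) (nat_lit 0) [nat_lit 11227, nat_lit 14143, nat_lit 16087, nat_lit 15439, nat_lit 15655, nat_lit 15619, nat_lit 15595, nat_lit 15599, nat_lit 15603] (nat_lit 0) [nat_lit 9041] false,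
   Spec.mk (nat_lit 15603) (nat_lit 0) [nat_lit 11229, nat_lit 14145, nat_lit 16089, nat_lit 15441, nat_lit 15657, nat_lit 15621, nat_lit 15601] (nat_lit 1) [nat_lit 9043] false,
   Spec.mk (nat_lit 15611) (nat_lit 0) [nat_lit 11237, nat_lit 14153, nat_lit 16097, nat_lit 15449, nat_lit 15665, nat_lit 15593, nat_lit 15617, nat_lit 15613] (nat_lit 1) [] false,
   Spec.mk (nat_lit 15613) (nat_lit 0) [nat_lit 11239, nat_lit 14155, nat_lit 16099, nat_lit 15451, nat_lit 15667, nat_lit 15595, nat_lit 15619, nat_lit 15611] (nat_lit 3) [nat_lit 9053] false,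
   Spec.mk (nat_lit 15617) (nat_lit 0) [nat_lit 11243, nat_lit 14159, nat_lit 16103, nat_lit 15455, nat_lit 15671, nat_lit 15599, nat_lit 15611, nat_lit 15619] (nat_lit 1) [] false,
   Spec.mk (nat_lit 15619) (nat_lit 0) [nat_lit 11245, nat_lit 14161, nat_lit 16105, nat_lit 15457, nat_lit 15673, nat_lit 15601, nat_lit 15613, nat_lit 15625, nat_lit 15617, nat_lit 15621] (nat_lit 1) [nat_lit 9059] false,
   Spec.mk (nat_lit 15621) (nat_lit 0) [nat_lit 11247, nat_lit 14163, nat_lit 16107, nat_lit 15459, nat_lit 15675, nat_lit 15603, nat_lit 15627, nat_lit 15619] (nat_lit 3) [nat_lit 9061] false,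
   Spec.mk (nat_lit 15625) (nat_lit 0) [nat_lit 11251, nat_lit 14167, nat_lit 16111, nat_lit 15463, nat_lit 15679, nat_lit 15619, nat_lit 15627] (nat_lit 1) [nat_lit 9065] false,
   Spec.mk (nat_lit 15627) (nat_lit 0) [nat_lit 11253, nat_lit 14169, nat_lit 16113, nat_lit 15465, nat_lit 15681, nat_lit 15621, nat_lit 15625] (nat_lit 1) [nat_lit 9067] false,
   Spec.mk (nat_lit 15641) (nat_lit 2) [nat_lit 11267, nat_lit 14183, nat_lit 16127, nat_lit 15479, nat_lit 15803, nat_lit 15587, nat_lit 15647] (nat_lit 0) [] false,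
   Spec.mk (nat_lit 15647) (nat_lit 1) [nat_lit 11273, nat_lit 14189, nat_lit 16133, nat_lit 15485, nat_lit 15809, nat_lit 15593, nat_lit 15665, nat_lit 15641, nat_lit 15653, nat_lit 15649] (nat_lit 0) [] false,
   Spec.mk (nat_lit 15649) (nat_lit 0) [nat_lit 11275, nat_lit 14191, nat_lit 16135, nat_lit 15487, nat_lit 15811, nat_lit 15595, nat_lit 15667, nat_lit 15655, nat_lit 15647] (nat_lit 0) [nat_lit 9089] false]

noncomputable def sp43 : List Spec :=
  [Spec.mk (nat_lit 15653) (nat_lit 0) [nat_lit 11279, nat_lit 14195, nat_lit 16139, nat_lit 15491, nat_lit 15815, nat_lit 15599, nat_lit 15671, nat_lit 15647, nat_lit 15655] (nat_lit 2) [] false,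
   Spec.mk (nat_lit 15655) (nat_lit 0) [nat_lit 11281, nat_lit 14197, nat_lit 16141, nat_lit 15493, nat_lit 15817, nat_lit 15601, nat_lit 15673, nat_lit 15649, nat_lit 15653, nat_lit 15657] (nat_lit 1) [nat_lit 9095] false,
   Spec.mk (nat_lit 15657) (nat_lit 0) [nat_lit 11283, nat_lit 14199, nat_lit 16143, nat_lit 15495, nat_lit 15819, nat_lit 15603, nat_lit 15675, nat_lit 15655] (nat_lit 2) [nat_lit 9097] false,
   Spec.mk (nat_lit 15665) (nat_lit 1) [nat_lit 11291, nat_lit 14207, nat_lit 16151, nat_lit 15503, nat_lit 15827, nat_lit 15611, nat_lit 15719, nat_lit 15647, nat_lit 15671, nat_lit 15667] (nat_lit 0) [] false,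
   Spec.mk (nat_lit 15667) (nat_lit 0) [nat_lit 11293, nat_lit 14209, nat_lit 16153, nat_lit 15505, nat_lit 15829, nat_lit 15613, nat_lit 15721, nat_lit 15649, nat_lit 15673, nat_lit 15665] (nat_lit 1) [nat_lit 9107] false,
   Spec.mk (nat_lit 15671) (nat_lit 0) [nat_lit 11297, nat_lit 14213, nat_lit 16157, nat_lit 15509, nat_lit 15833, nat_lit 15617, nat_lit 15725, nat_lit 15653, nat_lit 15689, nat_lit 15665, nat_lit 15673] (nat_lit 0) [] false,
   Spec.mk (nat_lit 15673) (nat_lit 0) [nat_lit 11299, nat_lit 14215, nat_lit 16159, nat_lit 15511, nat_lit 15835, nat_lit 15619, nat_lit 15727, nat_lit 15655, nat_lit 15691, nat_lit 15667, nat_lit 15679, nat_lit 15671, nat_lit 15675] (nat_lit 0) [nat_lit 9113] false,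
   Spec.mk (nat_lit 15675) (nat_lit 0) [nat_lit 11301, nat_lit 14217, nat_lit 16161, nat_lit 15513, nat_lit 15837, nat_lit 15621, nat_lit 15729, nat_lit 15657, nat_lit 15693, nat_lit 15681, nat_lit 15673] (nat_lit 2) [nat_lit 9115] false,
   Spec.mk (nat_lit 15679) (nat_lit 0) [nat_lit 11305, nat_lit 14221, nat_lit 16165, nat_lit 15517, nat_lit 15841, nat_lit 15625, nat_lit 15733, nat_lit 15697, nat_lit 15673, nat_lit 15681] (nat_lit 1) [nat_lit 9119] false,
   Spec.mk (nat_lit 15681) (nat_lit 0) [nat_lit 11307, nat_lit 14223, nat_lit 16167, nat_lit 15519, nat_lit 15843, nat_lit 15627, nat_lit 15735, nat_lit 15699, nat_lit 15675, nat_lit 15679] (nat_lit 1) [nat_lit 9121] false,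
   Spec.mk (nat_lit 15689) (nat_lit 0) [nat_lit 11315, nat_lit 14231, nat_lit 16175, nat_lit 15527, nat_lit 15851, nat_lit 15743, nat_lit 15671, nat_lit 15691] (nat_lit 0) [] false,
   Spec.mk (nat_lit 15691) (nat_lit 0) [nat_lit 11317, nat_lit 14233, nat_lit 16177, nat_lit 15529, nat_lit 15853, nat_lit 15745, nat_lit 15673, nat_lit 15697, nat_lit 15689, nat_lit 15693] (nat_lit 1) [nat_lit 9131] false,
   Spec.mk (nat_lit 15693) (nat_lit 0) [nat_lit 11319, nat_lit 14235, nat_lit 16179, nat_lit 15531, nat_lit 15855, nat_lit 15747, nat_lit 15675, nat_lit 15699, nat_lit 15691] (nat_lit 4) [nat_lit 9133] false,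
   Spec.mk (nat_lit 15697) (nat_lit 0) [nat_lit 11323, nat_lit 14239, nat_lit 16183, nat_lit 15535, nat_lit 15859, nat_lit 15751, nat_lit 15679, nat_lit 15691, nat_lit 15699] (nat_lit 0) [nat_lit 9137] false,
   Spec.mk (nat_lit 15699) (nat_lit 0) [nat_lit 11325, nat_lit 14241, nat_lit 16185, nat_lit 15537, nat_lit 15861, nat_lit 15753, nat_lit 15681, nat_lit 15693, nat_lit 15705, nat_lit 15697] (nat_lit 1) [nat_lit 9139] false,
   Spec.mk (nat_lit 15705) (nat_lit 0) [nat_lit 11331, nat_lit 14247, nat_lit 16191, nat_lit 15543, nat_lit 15867, nat_lit 15759, nat_lit 15699] (nat_lit 0) [nat_lit 9145] false,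
   Spec.mk (nat_lit 15719) (nat_lit 1) [nat_lit 11345, nat_lit 14261, nat_lit 16205, nat_lit 15881, nat_lit 15665, nat_lit 15725, nat_lit 15721] (nat_lit 0) [] false,
   Spec.mk (nat_lit 15721) (nat_lit 0) [nat_lit 11347, nat_lit 14263, nat_lit 16207, nat_lit 15883, nat_lit 15667, nat_lit 15727, nat_lit 15719] (nat_lit 1) [nat_lit 9161] false,
   Spec.mk (nat_lit 15725) (nat_lit 0) [nat_lit 11351, nat_lit 14267, nat_lit 16211, nat_lit 15887, nat_lit 15671, nat_lit 15743, nat_lit 15719, nat_lit 15727] (nat_lit 1) [] false,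
   Spec.mk (nat_lit 15727) (nat_lit 0) [nat_lit 11353, nat_lit 14269, nat_lit 16213, nat_lit 15889, nat_lit 15673, nat_lit 15745, nat_lit 15721, nat_lit 15733, nat_lit 15725, nat_lit 15729] (nat_lit 1) [nat_lit 9167] false,
   Spec.mk (nat_lit 15729) (nat_lit 0) [nat_lit 11355, nat_lit 14271, nat_lit 16215, nat_lit 15891, nat_lit 15675, nat_lit 15747, nat_lit 15735, nat_lit 15727] (nat_lit 3) [nat_lit 9169] false,
   Spec.mk (nat_lit 15733) (nat_lit 0) [nat_lit 11359, nat_lit 14275, nat_lit 16219, nat_lit 15895, nat_lit 15679, nat_lit 15751, nat_lit 15727, nat_lit 15735] (nat_lit 3) [nat_lit 9173] false,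
   Spec.mk (nat_lit 15735) (nat_lit 0) [nat_lit 11361, nat_lit 14277, nat_lit 16221, nat_lit 15897, nat_lit 15681, nat_lit 15753, nat_lit 15729, nat_lit 15733] (nat_lit 3) [nat_lit 9175] false,
   Spec.mk (nat_lit 15743) (nat_lit 1) [nat_lit 11369, nat_lit 14285, nat_lit 16229, nat_lit 15905, nat_lit 15689, nat_lit 15725, nat_lit 15745] (nat_lit 0) [] false,
   Spec.mk (nat_lit 15745) (nat_lit 0) [nat_lit 11371, nat_lit 14287, nat_lit 16231, nat_lit 15907, nat_lit 15691, nat_lit 15727, nat_lit 15751, nat_lit 15743, nat_lit 15747] (nat_lit 0) [nat_lit 9185] false,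
   Spec.mk (nat_lit 15747) (nat_lit 0) [nat_lit 11373, nat_lit 14289, nat_lit 16233, nat_lit 15909, nat_lit 15693, nat_lit 15729, nat_lit 15753, nat_lit 15745] (nat_lit 3) [nat_lit 9187] false,
   Spec.mk (nat_lit 15751) (nat_lit 0) [nat_lit 11377, nat_lit 14293, nat_lit 16237, nat_lit 15913, nat_lit 15697, nat_lit 15733, nat_lit 15769, nat_lit 15745, nat_lit 15753] (nat_lit 0) [nat_lit 9191] false,
   Spec.mk (nat_lit 15753) (nat_lit 0) [nat_lit 11379, nat_lit 14295, nat_lit 16239, nat_lit 15915, nat_lit 15699, nat_lit 15735, nat_lit 15771, nat_lit 15747, nat_lit 15759, nat_lit 15751] (nat_lit 1) [nat_lit 9193] false,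
   Spec.mk (nat_lit 15759) (nat_lit 0) [nat_lit 11385, nat_lit 14301, nat_lit 16245, nat_lit 15921, nat_lit 15705, nat_lit 15777, nat_lit 15753] (nat_lit 1) [nat_lit 9199] false,
   Spec.mk (nat_lit 15769) (nat_lit 1) [nat_lit 11395, nat_lit 14311, nat_lit 16255, nat_lit 15931, nat_lit 15751, nat_lit 15771] (nat_lit 0) [nat_lit 9209] false,
   Spec.mk (nat_lit 15771) (nat_lit 0) [nat_lit 11397, nat_lit 14313, nat_lit 16257, nat_lit 15933, nat_lit 15753, nat_lit 15777, nat_lit 15769] (nat_lit 1) [nat_lit 9211] false,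
   Spec.mk (nat_lit 15777) (nat_lit 1) [nat_lit 11403, nat_lit 14319, nat_lit 16263, nat_lit 15939, nat_lit 15759, nat_lit 15771] (nat_lit 0) [nat_lit 9217] false,
   Spec.mk (nat_lit 15803) (nat_lit 1) [nat_lit 11429, nat_lit 14345, nat_lit 16289, nat_lit 15641, nat_lit 15809] (nat_lit 0) [] false,
   Spec.mk (nat_lit 15809) (nat_lit 0) [nat_lit 11435, nat_lit 14351, nat_lit 16295, nat_lit 15647, nat_lit 15827, nat_lit 15803, nat_lit 15815, nat_lit 15811] (nat_lit 0) [] false,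
   Spec.mk (nat_lit 15811) (nat_lit 0) [nat_lit 11437, nat_lit 14353, nat_lit 16297, nat_lit 15649, nat_lit 15829, nat_lit 15817, nat_lit 15809] (nat_lit 1) [nat_lit 9251] false,
   Spec.mk (nat_lit 15815) (nat_lit 0) [nat_lit 11441, nat_lit 14357, nat_lit 16301, nat_lit 15653, nat_lit 15833, nat_lit 15809, nat_lit 15817] (nat_lit 3) [] false,
   Spec.mk (nat_lit 15817) (nat_lit 0) [nat_lit 11443, nat_lit 14359, nat_lit 16303, nat_lit 15655, nat_lit 15835, nat_lit 15811, nat_lit 15815, nat_lit 15819] (nat_lit 2) [nat_lit 9257] false,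
   Spec.mk (nat_lit 15819) (nat_lit 0) [nat_lit 11445, nat_lit 14361, nat_lit 16305, nat_lit 15657, nat_lit 15837, nat_lit 15817] (nat_lit 3) [nat_lit 9259] false,
   Spec.mk (nat_lit 15827) (nat_lit 0) [nat_lit 11453, nat_lit 14369, nat_lit 16313, nat_lit 15665, nat_lit 15881, nat_lit 15809, nat_lit 15833, nat_lit 15829] (nat_lit 1) [] false,
   Spec.mk (nat_lit 15829) (nat_lit 0) [nat_lit 11455, nat_lit 14371, nat_lit 16315, nat_lit 15667, nat_lit 15883, nat_lit 15811, nat_lit 15835, nat_lit 15827] (nat_lit 3) [nat_lit 9269] false,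
   Spec.mk (nat_lit 15833) (nat_lit 0) [nat_lit 11459, nat_lit 14375, nat_lit 16319, nat_lit 15671, nat_lit 15887, nat_lit 15815, nat_lit 15851, nat_lit 15827, nat_lit 15835] (nat_lit 2) [] false,
   Spec.mk (nat_lit 15835) (nat_lit 0) [nat_lit 11461, nat_lit 14377, nat_lit 16321, nat_lit 15673, nat_lit 15889, nat_lit 15817, nat_lit 15853, nat_lit 15829, nat_lit 15841, nat_lit 15833, nat_lit 15837] (nat_lit 2) [nat_lit 9275] false,
   Spec.mk (nat_lit 15837) (nat_lit 0) [nat_lit 11463, nat_lit 14379, nat_lit 16323, nat_lit 15675, nat_lit 15891, nat_lit 15819, nat_lit 15855, nat_lit 15843, nat_lit 15835] (nat_lit 4) [nat_lit 9277] false,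
   Spec.mk (nat_lit 15841) (nat_lit 0) [nat_lit 11467, nat_lit 14383, nat_lit 16327, nat_lit 15679, nat_lit 15895, nat_lit 15859, nat_lit 15835, nat_lit 15843] (nat_lit 3) [nat_lit 9281] false,
   Spec.mk (nat_lit 15843) (nat_lit 0) [nat_lit 11469, nat_lit 14385, nat_lit 16329, nat_lit 15681, nat_lit 15897, nat_lit 15861, nat_lit 15837, nat_lit 15841] (nat_lit 3) [nat_lit 9283] false,
   Spec.mk (nat_lit 15851) (nat_lit 0) [nat_lit 11477, nat_lit 14393, nat_lit 16337, nat_lit 15689, nat_lit 15905, nat_lit 15833, nat_lit 15853] (nat_lit 3) [] false,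
   Spec.mk (nat_lit 15853) (nat_lit 0) [nat_lit 11479, nat_lit 14395, nat_lit 16339, nat_lit 15691, nat_lit 15907, nat_lit 15835, nat_lit 15859, nat_lit 15851, nat_lit 15855] (nat_lit 4) [nat_lit 9293] false,
   Spec.mk (nat_lit 15855) (nat_lit 0) [nat_lit 11481, nat_lit 14397, nat_lit 16341, nat_lit 15693, nat_lit 15909, nat_lit 15837, nat_lit 15861, nat_lit 15853] (nat_lit 7) [nat_lit 9295] false,
   Spec.mk (nat_lit 15859) (nat_lit 0) [nat_lit 11485, nat_lit 14401, nat_lit 16345, nat_lit 15697, nat_lit 15913, nat_lit 15841, nat_lit 15853, nat_lit 15861] (nat_lit 3) [nat_lit 9299] false,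
   Spec.mk (nat_lit 15861) (nat_lit 0) [nat_lit 11487, nat_lit 14403, nat_lit 16347, nat_lit 15699, nat_lit 15915, nat_lit 15843, nat_lit 15855, nat_lit 15867, nat_lit 15859] (nat_lit 4) [nat_lit 9301] false,
   Spec.mk (nat_lit 15867) (nat_lit 0) [nat_lit 11493, nat_lit 14409, nat_lit 16353, nat_lit 15705, nat_lit 15921, nat_lit 15861] (nat_lit 3) [nat_lit 9307] false,
   Spec.mk (nat_lit 15881) (nat_lit 1) [nat_lit 11507, nat_lit 14423, nat_lit 16367, nat_lit 15719, nat_lit 15827, nat_lit 15887, nat_lit 15883] (nat_lit 0) [] false,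
   Spec.mk (nat_lit 15883) (nat_lit 0) [nat_lit 11509, nat_lit 14425, nat_lit 16369, nat_lit 15721, nat_lit 15829, nat_lit 15889, nat_lit 15881] (nat_lit 1) [nat_lit 9323] false,
   Spec.mk (nat_lit 15887) (nat_lit 0) [nat_lit 11513, nat_lit 14429, nat_lit 16373, nat_lit 15725, nat_lit 15833, nat_lit 15905, nat_lit 15881, nat_lit 15889] (nat_lit 1) [] false,
   Spec.mk (nat_lit 15889) (nat_lit 0) [nat_lit 11515, nat_lit 14431, nat_lit 16375, nat_lit 15727, nat_lit 15835, nat_lit 15907, nat_lit 15883, nat_lit 15895, nat_lit 15887, nat_lit 15891] (nat_lit 1) [nat_lit 9329] false,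
   Spec.mk (nat_lit 15891) (nat_lit 0) [nat_lit 11517, nat_lit 14433, nat_lit 16377, nat_lit 15729, nat_lit 15837, nat_lit 15909, nat_lit 15897, nat_lit 15889] (nat_lit 3) [nat_lit 9331] false,
   Spec.mk (nat_lit 15895) (nat_lit 0) [nat_lit 11521, nat_lit 14437, nat_lit 16381, nat_lit 15733, nat_lit 15841, nat_lit 15913, nat_lit 15889, nat_lit 15897] (nat_lit 3) [nat_lit 9335] false,
   Spec.mk (nat_lit 15897) (nat_lit 0) [nat_lit 11523, nat_lit 14439, nat_lit 16383, nat_lit 15735, nat_lit 15843, nat_lit 15915, nat_lit 15891, nat_lit 15895] (nat_lit 3) [nat_lit 9337] false,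
   Spec.mk (nat_lit 15905) (nat_lit 0) [nat_lit 11531, nat_lit 14447, nat_lit 16391, nat_lit 15743, nat_lit 15851, nat_lit 15959, nat_lit 15887, nat_lit 15907] (nat_lit 0) [] false,
   Spec.mk (nat_lit 15907) (nat_lit 0) [nat_lit 11533, nat_lit 14449, nat_lit 16393, nat_lit 15745, nat_lit 15853, nat_lit 15961, nat_lit 15889, nat_lit 15913, nat_lit 15905, nat_lit 15909] (nat_lit 1) [nat_lit 9347] false]

noncomputable def sp44 : List Spec :=
  [Spec.mk (nat_lit 15909) (nat_lit 0) [nat_lit 11535, nat_lit 14451, nat_lit 16395, nat_lit 15747, nat_lit 15855, nat_lit 15963, nat_lit 15891, nat_lit 15915, nat_lit 15907] (nat_lit 4) [nat_lit 9349] false,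
   Spec.mk (nat_lit 15913) (nat_lit 0) [nat_lit 11539, nat_lit 14455, nat_lit 16399, nat_lit 15751, nat_lit 15859, nat_lit 15967, nat_lit 15895, nat_lit 15931, nat_lit 15907, nat_lit 15915] (nat_lit 1) [nat_lit 9353] false,
   Spec.mk (nat_lit 15915) (nat_lit 0) [nat_lit 11541, nat_lit 14457, nat_lit 16401, nat_lit 15753, nat_lit 15861, nat_lit 15969, nat_lit 15897, nat_lit 15933, nat_lit 15909, nat_lit 15921, nat_lit 15913] (nat_lit 2) [nat_lit 9355] false,
   Spec.mk (nat_lit 15921) (nat_lit 0) [nat_lit 11547, nat_lit 14463, nat_lit 16407, nat_lit 15759, nat_lit 15867, nat_lit 15975, nat_lit 15939, nat_lit 15915] (nat_lit 2) [nat_lit 9361] false,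
   Spec.mk (nat_lit 15931) (nat_lit 0) [nat_lit 11557, nat_lit 14473, nat_lit 16417, nat_lit 15769, nat_lit 15985, nat_lit 15913, nat_lit 15933] (nat_lit 1) [nat_lit 9371] false,
   Spec.mk (nat_lit 15933) (nat_lit 0) [nat_lit 11559, nat_lit 14475, nat_lit 16419, nat_lit 15771, nat_lit 15987, nat_lit 15915, nat_lit 15939, nat_lit 15931] (nat_lit 3) [nat_lit 9373] false,
   Spec.mk (nat_lit 15939) (nat_lit 0) [nat_lit 11565, nat_lit 14481, nat_lit 16425, nat_lit 15777, nat_lit 15993, nat_lit 15921, nat_lit 15933] (nat_lit 1) [nat_lit 9379] false,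
   Spec.mk (nat_lit 15959) (nat_lit 1) [nat_lit 11585, nat_lit 14501, nat_lit 16445, nat_lit 15905, nat_lit 15961] (nat_lit 0) [] false,
   Spec.mk (nat_lit 15961) (nat_lit 0) [nat_lit 11587, nat_lit 14503, nat_lit 16447, nat_lit 15907, nat_lit 15967, nat_lit 15959, nat_lit 15963] (nat_lit 0) [nat_lit 9401] false,
   Spec.mk (nat_lit 15963) (nat_lit 0) [nat_lit 11589, nat_lit 14505, nat_lit 16449, nat_lit 15909, nat_lit 15969, nat_lit 15961] (nat_lit 3) [nat_lit 9403] false,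
   Spec.mk (nat_lit 15967) (nat_lit 0) [nat_lit 11593, nat_lit 14509, nat_lit 16453, nat_lit 15913, nat_lit 15985, nat_lit 15961, nat_lit 15969] (nat_lit 1) [nat_lit 9407] false,
   Spec.mk (nat_lit 15969) (nat_lit 0) [nat_lit 11595, nat_lit 14511, nat_lit 16455, nat_lit 15915, nat_lit 15987, nat_lit 15963, nat_lit 15975, nat_lit 15967] (nat_lit 2) [nat_lit 9409] false,
   Spec.mk (nat_lit 15975) (nat_lit 0) [nat_lit 11601, nat_lit 14517, nat_lit 16461, nat_lit 15921, nat_lit 15993, nat_lit 15969] (nat_lit 3) [nat_lit 9415] false,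
   Spec.mk (nat_lit 15985) (nat_lit 1) [nat_lit 11611, nat_lit 14527, nat_lit 16471, nat_lit 15931, nat_lit 15967, nat_lit 15987] (nat_lit 0) [nat_lit 9425] false,
   Spec.mk (nat_lit 15987) (nat_lit 0) [nat_lit 11613, nat_lit 14529, nat_lit 16473, nat_lit 15933, nat_lit 15969, nat_lit 15993, nat_lit 15985] (nat_lit 1) [nat_lit 9427] false,
   Spec.mk (nat_lit 15993) (nat_lit 0) [nat_lit 11619, nat_lit 14535, nat_lit 16479, nat_lit 15939, nat_lit 15975, nat_lit 16011, nat_lit 15987] (nat_lit 0) [nat_lit 9433] false,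
   Spec.mk (nat_lit 16011) (nat_lit 1) [nat_lit 11637, nat_lit 14553, nat_lit 16497, nat_lit 15993] (nat_lit 0) [nat_lit 9451] false,
   Spec.mk (nat_lit 16055) (nat_lit 4) [nat_lit 11681, nat_lit 14597, nat_lit 17513, nat_lit 15569, nat_lit 16073, nat_lit 16061] (nat_lit 0) [] false,
   Spec.mk (nat_lit 16061) (nat_lit 2) [nat_lit 11687, nat_lit 14603, nat_lit 17519, nat_lit 15575, nat_lit 16079, nat_lit 16055, nat_lit 16063] (nat_lit 0) [] false,
   Spec.mk (nat_lit 16063) (nat_lit 2) [nat_lit 11689, nat_lit 14605, nat_lit 17521, nat_lit 15577, nat_lit 16081, nat_lit 16061] (nat_lit 0) [nat_lit 9503] false,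
   Spec.mk (nat_lit 16073) (nat_lit 2) [nat_lit 11699, nat_lit 14615, nat_lit 17531, nat_lit 15587, nat_lit 16127, nat_lit 16055, nat_lit 16079] (nat_lit 0) [] false,
   Spec.mk (nat_lit 16079) (nat_lit 2) [nat_lit 11705, nat_lit 14621, nat_lit 17537, nat_lit 15593, nat_lit 16133, nat_lit 16061, nat_lit 16097, nat_lit 16073, nat_lit 16085, nat_lit 16081] (nat_lit 0) [] false,
   Spec.mk (nat_lit 16081) (nat_lit 1) [nat_lit 11707, nat_lit 14623, nat_lit 17539, nat_lit 15595, nat_lit 16135, nat_lit 16063, nat_lit 16099, nat_lit 16087, nat_lit 16079] (nat_lit 0) [nat_lit 9521] false,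
   Spec.mk (nat_lit 16085) (nat_lit 0) [nat_lit 11711, nat_lit 14627, nat_lit 17543, nat_lit 15599, nat_lit 16139, nat_lit 16103, nat_lit 16079, nat_lit 16087] (nat_lit 0) [] false,
   Spec.mk (nat_lit 16087) (nat_lit 1) [nat_lit 11713, nat_lit 14629, nat_lit 17545, nat_lit 15601, nat_lit 16141, nat_lit 16105, nat_lit 16081, nat_lit 16085, nat_lit 16089] (nat_lit 0) [nat_lit 9527] false,
   Spec.mk (nat_lit 16089) (nat_lit 0) [nat_lit 11715, nat_lit 14631, nat_lit 17547, nat_lit 15603, nat_lit 16143, nat_lit 16107, nat_lit 16087] (nat_lit 0) [nat_lit 9529] false,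
   Spec.mk (nat_lit 16097) (nat_lit 0) [nat_lit 11723, nat_lit 14639, nat_lit 17555, nat_lit 15611, nat_lit 16151, nat_lit 16079, nat_lit 16103, nat_lit 16099] (nat_lit 0) [] false,
   Spec.mk (nat_lit 16099) (nat_lit 0) [nat_lit 11725, nat_lit 14641, nat_lit 17557, nat_lit 15613, nat_lit 16153, nat_lit 16081, nat_lit 16105, nat_lit 16097] (nat_lit 2) [nat_lit 9539] false,
   Spec.mk (nat_lit 16103) (nat_lit 0) [nat_lit 11729, nat_lit 14645, nat_lit 17561, nat_lit 15617, nat_lit 16157, nat_lit 16085, nat_lit 16097, nat_lit 16105] (nat_lit 0) [] false,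
   Spec.mk (nat_lit 16105) (nat_lit 0) [nat_lit 11731, nat_lit 14647, nat_lit 17563, nat_lit 15619, nat_lit 16159, nat_lit 16087, nat_lit 16099, nat_lit 16111, nat_lit 16103, nat_lit 16107] (nat_lit 0) [nat_lit 9545] false,
   Spec.mk (nat_lit 16107) (nat_lit 0) [nat_lit 11733, nat_lit 14649, nat_lit 17565, nat_lit 15621, nat_lit 16161, nat_lit 16089, nat_lit 16113, nat_lit 16105] (nat_lit 2) [nat_lit 9547] false,
   Spec.mk (nat_lit 16111) (nat_lit 0) [nat_lit 11737, nat_lit 14653, nat_lit 17569, nat_lit 15625, nat_lit 16165, nat_lit 16105, nat_lit 16113] (nat_lit 0) [nat_lit 9551] false,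
   Spec.mk (nat_lit 16113) (nat_lit 0) [nat_lit 11739, nat_lit 14655, nat_lit 17571, nat_lit 15627, nat_lit 16167, nat_lit 16107, nat_lit 16111] (nat_lit 0) [nat_lit 9553] false,
   Spec.mk (nat_lit 16127) (nat_lit 2) [nat_lit 11753, nat_lit 14669, nat_lit 17585, nat_lit 15641, nat_lit 16289, nat_lit 16073, nat_lit 16133] (nat_lit 0) [] false,
   Spec.mk (nat_lit 16133) (nat_lit 1) [nat_lit 11759, nat_lit 14675, nat_lit 17591, nat_lit 15647, nat_lit 16295, nat_lit 16079, nat_lit 16151, nat_lit 16127, nat_lit 16139, nat_lit 16135] (nat_lit 0) [] false,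
   Spec.mk (nat_lit 16135) (nat_lit 0) [nat_lit 11761, nat_lit 14677, nat_lit 17593, nat_lit 15649, nat_lit 16297, nat_lit 16081, nat_lit 16153, nat_lit 16141, nat_lit 16133] (nat_lit 0) [nat_lit 9575] false,
   Spec.mk (nat_lit 16139) (nat_lit 0) [nat_lit 11765, nat_lit 14681, nat_lit 17597, nat_lit 15653, nat_lit 16301, nat_lit 16085, nat_lit 16157, nat_lit 16133, nat_lit 16141] (nat_lit 2) [] false,
   Spec.mk (nat_lit 16141) (nat_lit 0) [nat_lit 11767, nat_lit 14683, nat_lit 17599, nat_lit 15655, nat_lit 16303, nat_lit 16087, nat_lit 16159, nat_lit 16135, nat_lit 16139, nat_lit 16143] (nat_lit 1) [nat_lit 9581] false,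
   Spec.mk (nat_lit 16143) (nat_lit 0) [nat_lit 11769, nat_lit 14685, nat_lit 17601, nat_lit 15657, nat_lit 16305, nat_lit 16089, nat_lit 16161, nat_lit 16141] (nat_lit 2) [nat_lit 9583] false,
   Spec.mk (nat_lit 16151) (nat_lit 1) [nat_lit 11777, nat_lit 14693, nat_lit 17609, nat_lit 15665, nat_lit 16313, nat_lit 16097, nat_lit 16205, nat_lit 16133, nat_lit 16157, nat_lit 16153] (nat_lit 0) [] false,
   Spec.mk (nat_lit 16153) (nat_lit 0) [nat_lit 11779, nat_lit 14695, nat_lit 17611, nat_lit 15667, nat_lit 16315, nat_lit 16099, nat_lit 16207, nat_lit 16135, nat_lit 16159, nat_lit 16151] (nat_lit 1) [nat_lit 9593] false,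
   Spec.mk (nat_lit 16157) (nat_lit 0) [nat_lit 11783, nat_lit 14699, nat_lit 17615, nat_lit 15671, nat_lit 16319, nat_lit 16103, nat_lit 16211, nat_lit 16139, nat_lit 16175, nat_lit 16151, nat_lit 16159] (nat_lit 0) [] false,
   Spec.mk (nat_lit 16159) (nat_lit 0) [nat_lit 11785, nat_lit 14701, nat_lit 17617, nat_lit 15673, nat_lit 16321, nat_lit 16105, nat_lit 16213, nat_lit 16141, nat_lit 16177, nat_lit 16153, nat_lit 16165, nat_lit 16157, nat_lit 16161] (nat_lit 0) [nat_lit 9599] false,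
   Spec.mk (nat_lit 16161) (nat_lit 0) [nat_lit 11787, nat_lit 14703, nat_lit 17619, nat_lit 15675, nat_lit 16323, nat_lit 16107, nat_lit 16215, nat_lit 16143, nat_lit 16179, nat_lit 16167, nat_lit 16159] (nat_lit 2) [nat_lit 9601] false,
   Spec.mk (nat_lit 16165) (nat_lit 0) [nat_lit 11791, nat_lit 14707, nat_lit 17623, nat_lit 15679, nat_lit 16327, nat_lit 16111, nat_lit 16219, nat_lit 16183, nat_lit 16159, nat_lit 16167] (nat_lit 1) [nat_lit 9605] false,
   Spec.mk (nat_lit 16167) (nat_lit 0) [nat_lit 11793, nat_lit 14709, nat_lit 17625, nat_lit 15681, nat_lit 16329, nat_lit 16113, nat_lit 16221, nat_lit 16185, nat_lit 16161, nat_lit 16165] (nat_lit 1) [nat_lit 9607] false,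
   Spec.mk (nat_lit 16175) (nat_lit 0) [nat_lit 11801, nat_lit 14717, nat_lit 17633, nat_lit 15689, nat_lit 16337, nat_lit 16229, nat_lit 16157, nat_lit 16177] (nat_lit 0) [] false,
   Spec.mk (nat_lit 16177) (nat_lit 0) [nat_lit 11803, nat_lit 14719, nat_lit 17635, nat_lit 15691, nat_lit 16339, nat_lit 16231, nat_lit 16159, nat_lit 16183, nat_lit 16175, nat_lit 16179] (nat_lit 1) [nat_lit 9617] false,
   Spec.mk (nat_lit 16179) (nat_lit 0) [nat_lit 11805, nat_lit 14721, nat_lit 17637, nat_lit 15693, nat_lit 16341, nat_lit 16233, nat_lit 16161, nat_lit 16185, nat_lit 16177] (nat_lit 4) [nat_lit 9619] false,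
   Spec.mk (nat_lit 16183) (nat_lit 0) [nat_lit 11809, nat_lit 14725, nat_lit 17641, nat_lit 15697, nat_lit 16345, nat_lit 16237, nat_lit 16165, nat_lit 16177, nat_lit 16185] (nat_lit 0) [nat_lit 9623] false,
   Spec.mk (nat_lit 16185) (nat_lit 0) [nat_lit 11811, nat_lit 14727, nat_lit 17643, nat_lit 15699, nat_lit 16347, nat_lit 16239, nat_lit 16167, nat_lit 16179, nat_lit 16191, nat_lit 16183] (nat_lit 1) [nat_lit 9625] false,
   Spec.mk (nat_lit 16191) (nat_lit 0) [nat_lit 11817, nat_lit 14733, nat_lit 17649, nat_lit 15705, nat_lit 16353, nat_lit 16245, nat_lit 16185] (nat_lit 0) [nat_lit 9631] false,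
   Spec.mk (nat_lit 16205) (nat_lit 0) [nat_lit 11831, nat_lit 14747, nat_lit 17663, nat_lit 15719, nat_lit 16367, nat_lit 16151, nat_lit 16211, nat_lit 16207] (nat_lit 0) [] false,
   Spec.mk (nat_lit 16207) (nat_lit 0) [nat_lit 11833, nat_lit 14749, nat_lit 17665, nat_lit 15721, nat_lit 16369, nat_lit 16153, nat_lit 16213, nat_lit 16205] (nat_lit 2) [nat_lit 9647] false,
   Spec.mk (nat_lit 16211) (nat_lit 0) [nat_lit 11837, nat_lit 14753, nat_lit 17669, nat_lit 15725, nat_lit 16373, nat_lit 16157, nat_lit 16229, nat_lit 16205, nat_lit 16213] (nat_lit 2) [] false,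
   Spec.mk (nat_lit 16213) (nat_lit 0) [nat_lit 11839, nat_lit 14755, nat_lit 17671, nat_lit 15727, nat_lit 16375, nat_lit 16159, nat_lit 16231, nat_lit 16207, nat_lit 16219, nat_lit 16211, nat_lit 16215] (nat_lit 2) [nat_lit 9653] false,
   Spec.mk (nat_lit 16215) (nat_lit 0) [nat_lit 11841, nat_lit 14757, nat_lit 17673, nat_lit 15729, nat_lit 16377, nat_lit 16161, nat_lit 16233, nat_lit 16221, nat_lit 16213] (nat_lit 4) [nat_lit 9655] false,
   Spec.mk (nat_lit 16219) (nat_lit 0) [nat_lit 11845, nat_lit 14761, nat_lit 17677, nat_lit 15733, nat_lit 16381, nat_lit 16165, nat_lit 16237, nat_lit 16213, nat_lit 16221] (nat_lit 4) [nat_lit 9659] false,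
   Spec.mk (nat_lit 16221) (nat_lit 0) [nat_lit 11847, nat_lit 14763, nat_lit 17679, nat_lit 15735, nat_lit 16383, nat_lit 16167, nat_lit 16239, nat_lit 16215, nat_lit 16219] (nat_lit 4) [nat_lit 9661] false,
   Spec.mk (nat_lit 16229) (nat_lit 0) [nat_lit 11855, nat_lit 14771, nat_lit 17687, nat_lit 15743, nat_lit 16391, nat_lit 16175, nat_lit 16211, nat_lit 16231] (nat_lit 0) [] false]

noncomputable def sp45 : List Spec :=
  [Spec.mk (nat_lit 16231) (nat_lit 0) [nat_lit 11857, nat_lit 14773, nat_lit 17689, nat_lit 15745, nat_lit 16393, nat_lit 16177, nat_lit 16213, nat_lit 16237, nat_lit 16229, nat_lit 16233] (nat_lit 1) [nat_lit 9671] false,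
   Spec.mk (nat_lit 16233) (nat_lit 0) [nat_lit 11859, nat_lit 14775, nat_lit 17691, nat_lit 15747, nat_lit 16395, nat_lit 16179, nat_lit 16215, nat_lit 16239, nat_lit 16231] (nat_lit 4) [nat_lit 9673] false,
   Spec.mk (nat_lit 16237) (nat_lit 0) [nat_lit 11863, nat_lit 14779, nat_lit 17695, nat_lit 15751, nat_lit 16399, nat_lit 16183, nat_lit 16219, nat_lit 16255, nat_lit 16231, nat_lit 16239] (nat_lit 1) [nat_lit 9677] false,
   Spec.mk (nat_lit 16239) (nat_lit 0) [nat_lit 11865, nat_lit 14781, nat_lit 17697, nat_lit 15753, nat_lit 16401, nat_lit 16185, nat_lit 16221, nat_lit 16257, nat_lit 16233, nat_lit 16245, nat_lit 16237] (nat_lit 2) [nat_lit 9679] false,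
   Spec.mk (nat_lit 16245) (nat_lit 0) [nat_lit 11871, nat_lit 14787, nat_lit 17703, nat_lit 15759, nat_lit 16407, nat_lit 16191, nat_lit 16263, nat_lit 16239] (nat_lit 2) [nat_lit 9685] false,
   Spec.mk (nat_lit 16255) (nat_lit 0) [nat_lit 11881, nat_lit 14797, nat_lit 17713, nat_lit 15769, nat_lit 16417, nat_lit 16237, nat_lit 16257] (nat_lit 0) [nat_lit 9695] false,
   Spec.mk (nat_lit 16257) (nat_lit 0) [nat_lit 11883, nat_lit 14799, nat_lit 17715, nat_lit 15771, nat_lit 16419, nat_lit 16239, nat_lit 16263, nat_lit 16255] (nat_lit 2) [nat_lit 9697] false,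
   Spec.mk (nat_lit 16263) (nat_lit 0) [nat_lit 11889, nat_lit 14805, nat_lit 17721, nat_lit 15777, nat_lit 16425, nat_lit 16245, nat_lit 16257] (nat_lit 0) [nat_lit 9703] false,
   Spec.mk (nat_lit 16289) (nat_lit 3) [nat_lit 11915, nat_lit 14831, nat_lit 17747, nat_lit 15803, nat_lit 16775, nat_lit 16127, nat_lit 16295] (nat_lit 0) [] false,
   Spec.mk (nat_lit 16295) (nat_lit 2) [nat_lit 11921, nat_lit 14837, nat_lit 17753, nat_lit 15809, nat_lit 16781, nat_lit 16133, nat_lit 16313, nat_lit 16289, nat_lit 16301, nat_lit 16297] (nat_lit 0) [] false,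
   Spec.mk (nat_lit 16297) (nat_lit 1) [nat_lit 11923, nat_lit 14839, nat_lit 17755, nat_lit 15811, nat_lit 16783, nat_lit 16135, nat_lit 16315, nat_lit 16303, nat_lit 16295] (nat_lit 0) [nat_lit 9737] false,
   Spec.mk (nat_lit 16301) (nat_lit 0) [nat_lit 11927, nat_lit 14843, nat_lit 17759, nat_lit 15815, nat_lit 16787, nat_lit 16139, nat_lit 16319, nat_lit 16295, nat_lit 16303] (nat_lit 1) [] false,
   Spec.mk (nat_lit 16303) (nat_lit 0) [nat_lit 11929, nat_lit 14845, nat_lit 17761, nat_lit 15817, nat_lit 16789, nat_lit 16141, nat_lit 16321, nat_lit 16297, nat_lit 16301, nat_lit 16305] (nat_lit 0) [nat_lit 9743] false,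
   Spec.mk (nat_lit 16305) (nat_lit 0) [nat_lit 11931, nat_lit 14847, nat_lit 17763, nat_lit 15819, nat_lit 16791, nat_lit 16143, nat_lit 16323, nat_lit 16303] (nat_lit 1) [nat_lit 9745] false,
   Spec.mk (nat_lit 16313) (nat_lit 1) [nat_lit 11939, nat_lit 14855, nat_lit 17771, nat_lit 15827, nat_lit 16799, nat_lit 16151, nat_lit 16367, nat_lit 16295, nat_lit 16319, nat_lit 16315] (nat_lit 0) [] false,
   Spec.mk (nat_lit 16315) (nat_lit 0) [nat_lit 11941, nat_lit 14857, nat_lit 17773, nat_lit 15829, nat_lit 16801, nat_lit 16153, nat_lit 16369, nat_lit 16297, nat_lit 16321, nat_lit 16313] (nat_lit 1) [nat_lit 9755] false,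
   Spec.mk (nat_lit 16319) (nat_lit 0) [nat_lit 11945, nat_lit 14861, nat_lit 17777, nat_lit 15833, nat_lit 16805, nat_lit 16157, nat_lit 16373, nat_lit 16301, nat_lit 16337, nat_lit 16313, nat_lit 16321] (nat_lit 0) [] false,
   Spec.mk (nat_lit 16321) (nat_lit 0) [nat_lit 11947, nat_lit 14863, nat_lit 17779, nat_lit 15835, nat_lit 16807, nat_lit 16159, nat_lit 16375, nat_lit 16303, nat_lit 16339, nat_lit 16315, nat_lit 16327, nat_lit 16319, nat_lit 16323] (nat_lit 0) [nat_lit 9761] false,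
   Spec.mk (nat_lit 16323) (nat_lit 0) [nat_lit 11949, nat_lit 14865, nat_lit 17781, nat_lit 15837, nat_lit 16809, nat_lit 16161, nat_lit 16377, nat_lit 16305, nat_lit 16341, nat_lit 16329, nat_lit 16321] (nat_lit 2) [nat_lit 9763] false,
   Spec.mk (nat_lit 16327) (nat_lit 0) [nat_lit 11953, nat_lit 14869, nat_lit 17785, nat_lit 15841, nat_lit 16813, nat_lit 16165, nat_lit 16381, nat_lit 16345, nat_lit 16321, nat_lit 16329] (nat_lit 1) [nat_lit 9767] false,
   Spec.mk (nat_lit 16329) (nat_lit 0) [nat_lit 11955, nat_lit 14871, nat_lit 17787, nat_lit 15843, nat_lit 16815, nat_lit 16167, nat_lit 16383, nat_lit 16347, nat_lit 16323, nat_lit 16327] (nat_lit 1) [nat_lit 9769] false,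
   Spec.mk (nat_lit 16337) (nat_lit 0) [nat_lit 11963, nat_lit 14879, nat_lit 17795, nat_lit 15851, nat_lit 16823, nat_lit 16175, nat_lit 16391, nat_lit 16319, nat_lit 16339] (nat_lit 1) [] false,
   Spec.mk (nat_lit 16339) (nat_lit 0) [nat_lit 11965, nat_lit 14881, nat_lit 17797, nat_lit 15853, nat_lit 16825, nat_lit 16177, nat_lit 16393, nat_lit 16321, nat_lit 16345, nat_lit 16337, nat_lit 16341] (nat_lit 2) [nat_lit 9779] false,
   Spec.mk (nat_lit 16341) (nat_lit 0) [nat_lit 11967, nat_lit 14883, nat_lit 17799, nat_lit 15855, nat_lit 16827, nat_lit 16179, nat_lit 16395, nat_lit 16323, nat_lit 16347, nat_lit 16339] (nat_lit 5) [nat_lit 9781] false,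
   Spec.mk (nat_lit 16345) (nat_lit 0) [nat_lit 11971, nat_lit 14887, nat_lit 17803, nat_lit 15859, nat_lit 16831, nat_lit 16183, nat_lit 16399, nat_lit 16327, nat_lit 16339, nat_lit 16347] (nat_lit 1) [nat_lit 9785] false,
   Spec.mk (nat_lit 16347) (nat_lit 0) [nat_lit 11973, nat_lit 14889, nat_lit 17805, nat_lit 15861, nat_lit 16833, nat_lit 16185, nat_lit 16401, nat_lit 16329, nat_lit 16341, nat_lit 16353, nat_lit 16345] (nat_lit 2) [nat_lit 9787] false,
   Spec.mk (nat_lit 16353) (nat_lit 0) [nat_lit 11979, nat_lit 14895, nat_lit 17811, nat_lit 15867, nat_lit 16839, nat_lit 16191, nat_lit 16407, nat_lit 16347] (nat_lit 1) [nat_lit 9793] false,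
   Spec.mk (nat_lit 16367) (nat_lit 2) [nat_lit 11993, nat_lit 14909, nat_lit 17825, nat_lit 15881, nat_lit 16853, nat_lit 16205, nat_lit 16529, nat_lit 16313, nat_lit 16373, nat_lit 16369] (nat_lit 0) [] false,
   Spec.mk (nat_lit 16369) (nat_lit 0) [nat_lit 11995, nat_lit 14911, nat_lit 17827, nat_lit 15883, nat_lit 16855, nat_lit 16207, nat_lit 16531, nat_lit 16315, nat_lit 16375, nat_lit 16367] (nat_lit 0) [nat_lit 9809] false,
   Spec.mk (nat_lit 16373) (nat_lit 0) [nat_lit 11999, nat_lit 14915, nat_lit 17831, nat_lit 15887, nat_lit 16859, nat_lit 16211, nat_lit 16535, nat_lit 16319, nat_lit 16391, nat_lit 16367, nat_lit 16375] (nat_lit 0) [] false,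
   Spec.mk (nat_lit 16375) (nat_lit 0) [nat_lit 12001, nat_lit 14917, nat_lit 17833, nat_lit 15889, nat_lit 16861, nat_lit 16213, nat_lit 16537, nat_lit 16321, nat_lit 16393, nat_lit 16369, nat_lit 16381, nat_lit 16373, nat_lit 16377] (nat_lit 0) [nat_lit 9815] false,
   Spec.mk (nat_lit 16377) (nat_lit 0) [nat_lit 12003, nat_lit 14919, nat_lit 17835, nat_lit 15891, nat_lit 16863, nat_lit 16215, nat_lit 16539, nat_lit 16323, nat_lit 16395, nat_lit 16383, nat_lit 16375] (nat_lit 2) [nat_lit 9817] false,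
   Spec.mk (nat_lit 16381) (nat_lit 0) [nat_lit 12007, nat_lit 14923, nat_lit 17839, nat_lit 15895, nat_lit 16867, nat_lit 16219, nat_lit 16543, nat_lit 16327, nat_lit 16399, nat_lit 16375, nat_lit 16383] (nat_lit 2) [nat_lit 9821] false,
   Spec.mk (nat_lit 16383) (nat_lit 0) [nat_lit 12009, nat_lit 14925, nat_lit 17841, nat_lit 15897, nat_lit 16869, nat_lit 16221, nat_lit 16545, nat_lit 16329, nat_lit 16401, nat_lit 16377, nat_lit 16381] (nat_lit 2) [nat_lit 9823] false,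
   Spec.mk (nat_lit 16391) (nat_lit 1) [nat_lit 12017, nat_lit 14933, nat_lit 17849, nat_lit 15905, nat_lit 16877, nat_lit 16229, nat_lit 16553, nat_lit 16337, nat_lit 16445, nat_lit 16373, nat_lit 16393] (nat_lit 0) [] false,
   Spec.mk (nat_lit 16393) (nat_lit 0) [nat_lit 12019, nat_lit 14935, nat_lit 17851, nat_lit 15907, nat_lit 16879, nat_lit 16231, nat_lit 16555, nat_lit 16339, nat_lit 16447, nat_lit 16375, nat_lit 16399, nat_lit 16391, nat_lit 16395] (nat_lit 0) [nat_lit 9833] false,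
   Spec.mk (nat_lit 16395) (nat_lit 0) [nat_lit 12021, nat_lit 14937, nat_lit 17853, nat_lit 15909, nat_lit 16881, nat_lit 16233, nat_lit 16557, nat_lit 16341, nat_lit 16449, nat_lit 16377, nat_lit 16401, nat_lit 16393] (nat_lit 3) [nat_lit 9835] false,
   Spec.mk (nat_lit 16399) (nat_lit 0) [nat_lit 12025, nat_lit 14941, nat_lit 17857, nat_lit 15913, nat_lit 16885, nat_lit 16237, nat_lit 16561, nat_lit 16345, nat_lit 16453, nat_lit 16381, nat_lit 16417, nat_lit 16393, nat_lit 16401] (nat_lit 0) [nat_lit 9839] false,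
   Spec.mk (nat_lit 16401) (nat_lit 0) [nat_lit 12027, nat_lit 14943, nat_lit 17859, nat_lit 15915, nat_lit 16887, nat_lit 16239, nat_lit 16563, nat_lit 16347, nat_lit 16455, nat_lit 16383, nat_lit 16419, nat_lit 16395, nat_lit 16407, nat_lit 16399] (nat_lit 1) [nat_lit 9841] false,
   Spec.mk (nat_lit 16407) (nat_lit 0) [nat_lit 12033, nat_lit 14949, nat_lit 17865, nat_lit 15921, nat_lit 16893, nat_lit 16245, nat_lit 16569, nat_lit 16353, nat_lit 16461, nat_lit 16425, nat_lit 16401] (nat_lit 1) [nat_lit 9847] false,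
   Spec.mk (nat_lit 16417) (nat_lit 0) [nat_lit 12043, nat_lit 14959, nat_lit 17875, nat_lit 15931, nat_lit 16903, nat_lit 16255, nat_lit 16579, nat_lit 16471, nat_lit 16399, nat_lit 16419] (nat_lit 0) [nat_lit 9857] false,
   Spec.mk (nat_lit 16419) (nat_lit 0) [nat_lit 12045, nat_lit 14961, nat_lit 17877, nat_lit 15933, nat_lit 16905, nat_lit 16257, nat_lit 16581, nat_lit 16473, nat_lit 16401, nat_lit 16425, nat_lit 16417] (nat_lit 2) [nat_lit 9859] false,
   Spec.mk (nat_lit 16425) (nat_lit 0) [nat_lit 12051, nat_lit 14967, nat_lit 17883, nat_lit 15939, nat_lit 16911, nat_lit 16263, nat_lit 16587, nat_lit 16479, nat_lit 16407, nat_lit 16419] (nat_lit 0) [nat_lit 9865] false,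
   Spec.mk (nat_lit 16445) (nat_lit 1) [nat_lit 12071, nat_lit 14987, nat_lit 17903, nat_lit 15959, nat_lit 16931, nat_lit 16607, nat_lit 16391, nat_lit 16447] (nat_lit 0) [] false,
   Spec.mk (nat_lit 16447) (nat_lit 0) [nat_lit 12073, nat_lit 14989, nat_lit 17905, nat_lit 15961, nat_lit 16933, nat_lit 16609, nat_lit 16393, nat_lit 16453, nat_lit 16445, nat_lit 16449] (nat_lit 0) [nat_lit 9887] false,
   Spec.mk (nat_lit 16449) (nat_lit 0) [nat_lit 12075, nat_lit 14991, nat_lit 17907, nat_lit 15963, nat_lit 16935, nat_lit 16611, nat_lit 16395, nat_lit 16455, nat_lit 16447] (nat_lit 3) [nat_lit 9889] false,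
   Spec.mk (nat_lit 16453) (nat_lit 0) [nat_lit 12079, nat_lit 14995, nat_lit 17911, nat_lit 15967, nat_lit 16939, nat_lit 16615, nat_lit 16399, nat_lit 16471, nat_lit 16447, nat_lit 16455] (nat_lit 1) [nat_lit 9893] false,
   Spec.mk (nat_lit 16455) (nat_lit 0) [nat_lit 12081, nat_lit 14997, nat_lit 17913, nat_lit 15969, nat_lit 16941, nat_lit 16617, nat_lit 16401, nat_lit 16473, nat_lit 16449, nat_lit 16461, nat_lit 16453] (nat_lit 2) [nat_lit 9895] false,
   Spec.mk (nat_lit 16461) (nat_lit 0) [nat_lit 12087, nat_lit 15003, nat_lit 17919, nat_lit 15975, nat_lit 16947, nat_lit 16623, nat_lit 16407, nat_lit 16479, nat_lit 16455] (nat_lit 3) [nat_lit 9901] false,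
   Spec.mk (nat_lit 16471) (nat_lit 1) [nat_lit 12097, nat_lit 15013, nat_lit 17929, nat_lit 15985, nat_lit 16957, nat_lit 16633, nat_lit 16417, nat_lit 16453, nat_lit 16473] (nat_lit 0) [nat_lit 9911] false,
   Spec.mk (nat_lit 16473) (nat_lit 0) [nat_lit 12099, nat_lit 15015, nat_lit 17931, nat_lit 15987, nat_lit 16959, nat_lit 16635, nat_lit 16419, nat_lit 16455, nat_lit 16479, nat_lit 16471] (nat_lit 1) [nat_lit 9913] false,
   Spec.mk (nat_lit 16479) (nat_lit 0) [nat_lit 12105, nat_lit 15021, nat_lit 17937, nat_lit 15993, nat_lit 16965, nat_lit 16641, nat_lit 16425, nat_lit 16461, nat_lit 16497, nat_lit 16473] (nat_lit 0) [nat_lit 9919] false,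
   Spec.mk (nat_lit 16497) (nat_lit 1) [nat_lit 12123, nat_lit 15039, nat_lit 17955, nat_lit 16011, nat_lit 16983, nat_lit 16659, nat_lit 16479] (nat_lit 0) [nat_lit 9937] false,
   Spec.mk (nat_lit 16529) (nat_lit 2) [nat_lit 12155, nat_lit 15071, nat_lit 17987, nat_lit 17015, nat_lit 16367, nat_lit 16535, nat_lit 16531] (nat_lit 0) [] false,
   Spec.mk (nat_lit 16531) (nat_lit 0) [nat_lit 12157, nat_lit 15073, nat_lit 17989, nat_lit 17017, nat_lit 16369, nat_lit 16537, nat_lit 16529] (nat_lit 0) [nat_lit 9971] false,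
   Spec.mk (nat_lit 16535) (nat_lit 0) [nat_lit 12161, nat_lit 15077, nat_lit 17993, nat_lit 17021, nat_lit 16373, nat_lit 16553, nat_lit 16529, nat_lit 16537] (nat_lit 0) [] false,
   Spec.mk (nat_lit 16537) (nat_lit 0) [nat_lit 12163, nat_lit 15079, nat_lit 17995, nat_lit 17023, nat_lit 16375, nat_lit 16555, nat_lit 16531, nat_lit 16543, nat_lit 16535, nat_lit 16539] (nat_lit 0) [nat_lit 9977] false,
   Spec.mk (nat_lit 16539) (nat_lit 0) [nat_lit 12165, nat_lit 15081, nat_lit 17997, nat_lit 17025, nat_lit 16377, nat_lit 16557, nat_lit 16545, nat_lit 16537] (nat_lit 2) [nat_lit 9979] false,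
   Spec.mk (nat_lit 16543) (nat_lit 0) [nat_lit 12169, nat_lit 15085, nat_lit 18001, nat_lit 17029, nat_lit 16381, nat_lit 16561, nat_lit 16537, nat_lit 16545] (nat_lit 2) [nat_lit 9983] false,
   Spec.mk (nat_lit 16545) (nat_lit 0) [nat_lit 12171, nat_lit 15087, nat_lit 18003, nat_lit 17031, nat_lit 16383, nat_lit 16563, nat_lit 16539, nat_lit 16543] (nat_lit 2) [nat_lit 9985] false]

noncomputable def sp46 : List Spec :=
  [Spec.mk (nat_lit 16553) (nat_lit 0) [nat_lit 12179, nat_lit 15095, nat_lit 18011, nat_lit 17039, nat_lit 16391, nat_lit 16607, nat_lit 16535, nat_lit 16555] (nat_lit 0) [] false,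
   Spec.mk (nat_lit 16555) (nat_lit 0) [nat_lit 12181, nat_lit 15097, nat_lit 18013, nat_lit 17041, nat_lit 16393, nat_lit 16609, nat_lit 16537, nat_lit 16561, nat_lit 16553, nat_lit 16557] (nat_lit 1) [nat_lit 9995] false,
   Spec.mk (nat_lit 16557) (nat_lit 0) [nat_lit 12183, nat_lit 15099, nat_lit 18015, nat_lit 17043, nat_lit 16395, nat_lit 16611, nat_lit 16539, nat_lit 16563, nat_lit 16555] (nat_lit 4) [nat_lit 9997] false,
   Spec.mk (nat_lit 16561) (nat_lit 0) [nat_lit 12187, nat_lit 15103, nat_lit 18019, nat_lit 17047, nat_lit 16399, nat_lit 16615, nat_lit 16543, nat_lit 16579, nat_lit 16555, nat_lit 16563] (nat_lit 1) [nat_lit 10001] false,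
   Spec.mk (nat_lit 16563) (nat_lit 0) [nat_lit 12189, nat_lit 15105, nat_lit 18021, nat_lit 17049, nat_lit 16401, nat_lit 16617, nat_lit 16545, nat_lit 16581, nat_lit 16557, nat_lit 16569, nat_lit 16561] (nat_lit 2) [nat_lit 10003] false,
   Spec.mk (nat_lit 16569) (nat_lit 0) [nat_lit 12195, nat_lit 15111, nat_lit 18027, nat_lit 17055, nat_lit 16407, nat_lit 16623, nat_lit 16587, nat_lit 16563] (nat_lit 2) [nat_lit 10009] false,
   Spec.mk (nat_lit 16579) (nat_lit 0) [nat_lit 12205, nat_lit 15121, nat_lit 18037, nat_lit 17065, nat_lit 16417, nat_lit 16633, nat_lit 16561, nat_lit 16581] (nat_lit 2) [nat_lit 10019] false,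
   Spec.mk (nat_lit 16581) (nat_lit 0) [nat_lit 12207, nat_lit 15123, nat_lit 18039, nat_lit 17067, nat_lit 16419, nat_lit 16635, nat_lit 16563, nat_lit 16587, nat_lit 16579] (nat_lit 4) [nat_lit 10021] false,
   Spec.mk (nat_lit 16587) (nat_lit 0) [nat_lit 12213, nat_lit 15129, nat_lit 18045, nat_lit 17073, nat_lit 16425, nat_lit 16641, nat_lit 16569, nat_lit 16581] (nat_lit 2) [nat_lit 10027] false,
   Spec.mk (nat_lit 16607) (nat_lit 2) [nat_lit 12233, nat_lit 15149, nat_lit 18065, nat_lit 17093, nat_lit 16445, nat_lit 16553, nat_lit 16609] (nat_lit 0) [] false,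
   Spec.mk (nat_lit 16609) (nat_lit 1) [nat_lit 12235, nat_lit 15151, nat_lit 18067, nat_lit 17095, nat_lit 16447, nat_lit 16555, nat_lit 16615, nat_lit 16607, nat_lit 16611] (nat_lit 0) [nat_lit 10049] false,
   Spec.mk (nat_lit 16611) (nat_lit 0) [nat_lit 12237, nat_lit 15153, nat_lit 18069, nat_lit 17097, nat_lit 16449, nat_lit 16557, nat_lit 16617, nat_lit 16609] (nat_lit 2) [nat_lit 10051] false,
   Spec.mk (nat_lit 16615) (nat_lit 0) [nat_lit 12241, nat_lit 15157, nat_lit 18073, nat_lit 17101, nat_lit 16453, nat_lit 16561, nat_lit 16633, nat_lit 16609, nat_lit 16617] (nat_lit 0) [nat_lit 10055] false,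
   Spec.mk (nat_lit 16617) (nat_lit 0) [nat_lit 12243, nat_lit 15159, nat_lit 18075, nat_lit 17103, nat_lit 16455, nat_lit 16563, nat_lit 16635, nat_lit 16611, nat_lit 16623, nat_lit 16615] (nat_lit 1) [nat_lit 10057] false,
   Spec.mk (nat_lit 16623) (nat_lit 0) [nat_lit 12249, nat_lit 15165, nat_lit 18081, nat_lit 17109, nat_lit 16461, nat_lit 16569, nat_lit 16641, nat_lit 16617] (nat_lit 2) [nat_lit 10063] false,
   Spec.mk (nat_lit 16633) (nat_lit 1) [nat_lit 12259, nat_lit 15175, nat_lit 18091, nat_lit 17119, nat_lit 16471, nat_lit 16579, nat_lit 16687, nat_lit 16615, nat_lit 16635] (nat_lit 0) [nat_lit 10073] false,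
   Spec.mk (nat_lit 16635) (nat_lit 0) [nat_lit 12261, nat_lit 15177, nat_lit 18093, nat_lit 17121, nat_lit 16473, nat_lit 16581, nat_lit 16689, nat_lit 16617, nat_lit 16641, nat_lit 16633] (nat_lit 1) [nat_lit 10075] false,
   Spec.mk (nat_lit 16641) (nat_lit 0) [nat_lit 12267, nat_lit 15183, nat_lit 18099, nat_lit 17127, nat_lit 16479, nat_lit 16587, nat_lit 16695, nat_lit 16623, nat_lit 16659, nat_lit 16635] (nat_lit 0) [nat_lit 10081] false,
   Spec.mk (nat_lit 16659) (nat_lit 0) [nat_lit 12285, nat_lit 15201, nat_lit 18117, nat_lit 17145, nat_lit 16497, nat_lit 16713, nat_lit 16641] (nat_lit 0) [nat_lit 10099] false,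
   Spec.mk (nat_lit 16687) (nat_lit 2) [nat_lit 12313, nat_lit 15229, nat_lit 18145, nat_lit 17173, nat_lit 16633, nat_lit 16689] (nat_lit 0) [nat_lit 10127] false,
   Spec.mk (nat_lit 16689) (nat_lit 0) [nat_lit 12315, nat_lit 15231, nat_lit 18147, nat_lit 17175, nat_lit 16635, nat_lit 16695, nat_lit 16687] (nat_lit 0) [nat_lit 10129] false,
   Spec.mk (nat_lit 16695) (nat_lit 0) [nat_lit 12321, nat_lit 15237, nat_lit 18153, nat_lit 17181, nat_lit 16641, nat_lit 16713, nat_lit 16689] (nat_lit 0) [nat_lit 10135] false,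
   Spec.mk (nat_lit 16713) (nat_lit 2) [nat_lit 12339, nat_lit 15255, nat_lit 18171, nat_lit 17199, nat_lit 16659, nat_lit 16695] (nat_lit 0) [nat_lit 10153] false,
   Spec.mk (nat_lit 16775) (nat_lit 3) [nat_lit 12401, nat_lit 18233, nat_lit 16289, nat_lit 16781] (nat_lit 0) [] false,
   Spec.mk (nat_lit 16781) (nat_lit 2) [nat_lit 12407, nat_lit 18239, nat_lit 16295, nat_lit 16799, nat_lit 16775, nat_lit 16787, nat_lit 16783] (nat_lit 0) [] false,
   Spec.mk (nat_lit 16783) (nat_lit 1) [nat_lit 12409, nat_lit 18241, nat_lit 16297, nat_lit 16801, nat_lit 16789, nat_lit 16781] (nat_lit 0) [nat_lit 10223] false,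
   Spec.mk (nat_lit 16787) (nat_lit 0) [nat_lit 12413, nat_lit 18245, nat_lit 16301, nat_lit 16805, nat_lit 16781, nat_lit 16789] (nat_lit 1) [] false,
   Spec.mk (nat_lit 16789) (nat_lit 0) [nat_lit 12415, nat_lit 18247, nat_lit 16303, nat_lit 16807, nat_lit 16783, nat_lit 16787, nat_lit 16791] (nat_lit 0) [nat_lit 10229] false,
   Spec.mk (nat_lit 16791) (nat_lit 0) [nat_lit 12417, nat_lit 18249, nat_lit 16305, nat_lit 16809, nat_lit 16789] (nat_lit 1) [nat_lit 10231] false,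
   Spec.mk (nat_lit 16799) (nat_lit 1) [nat_lit 12425, nat_lit 18257, nat_lit 16313, nat_lit 16853, nat_lit 16781, nat_lit 16805, nat_lit 16801] (nat_lit 0) [] false,
   Spec.mk (nat_lit 16801) (nat_lit 0) [nat_lit 12427, nat_lit 18259, nat_lit 16315, nat_lit 16855, nat_lit 16783, nat_lit 16807, nat_lit 16799] (nat_lit 1) [nat_lit 10241] false,
   Spec.mk (nat_lit 16805) (nat_lit 0) [nat_lit 12431, nat_lit 18263, nat_lit 16319, nat_lit 16859, nat_lit 16787, nat_lit 16823, nat_lit 16799, nat_lit 16807] (nat_lit 0) [] false,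
   Spec.mk (nat_lit 16807) (nat_lit 0) [nat_lit 12433, nat_lit 18265, nat_lit 16321, nat_lit 16861, nat_lit 16789, nat_lit 16825, nat_lit 16801, nat_lit 16813, nat_lit 16805, nat_lit 16809] (nat_lit 0) [nat_lit 10247] false,
   Spec.mk (nat_lit 16809) (nat_lit 0) [nat_lit 12435, nat_lit 18267, nat_lit 16323, nat_lit 16863, nat_lit 16791, nat_lit 16827, nat_lit 16815, nat_lit 16807] (nat_lit 2) [nat_lit 10249] false,
   Spec.mk (nat_lit 16813) (nat_lit 0) [nat_lit 12439, nat_lit 18271, nat_lit 16327, nat_lit 16867, nat_lit 16831, nat_lit 16807, nat_lit 16815] (nat_lit 1) [nat_lit 10253] false,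
   Spec.mk (nat_lit 16815) (nat_lit 0) [nat_lit 12441, nat_lit 18273, nat_lit 16329, nat_lit 16869, nat_lit 16833, nat_lit 16809, nat_lit 16813] (nat_lit 1) [nat_lit 10255] false,
   Spec.mk (nat_lit 16823) (nat_lit 0) [nat_lit 12449, nat_lit 18281, nat_lit 16337, nat_lit 16877, nat_lit 16805, nat_lit 16825] (nat_lit 1) [] false,
   Spec.mk (nat_lit 16825) (nat_lit 0) [nat_lit 12451, nat_lit 18283, nat_lit 16339, nat_lit 16879, nat_lit 16807, nat_lit 16831, nat_lit 16823, nat_lit 16827] (nat_lit 2) [nat_lit 10265] false,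
   Spec.mk (nat_lit 16827) (nat_lit 0) [nat_lit 12453, nat_lit 18285, nat_lit 16341, nat_lit 16881, nat_lit 16809, nat_lit 16833, nat_lit 16825] (nat_lit 5) [nat_lit 10267] false,
   Spec.mk (nat_lit 16831) (nat_lit 0) [nat_lit 12457, nat_lit 18289, nat_lit 16345, nat_lit 16885, nat_lit 16813, nat_lit 16825, nat_lit 16833] (nat_lit 1) [nat_lit 10271] false,
   Spec.mk (nat_lit 16833) (nat_lit 0) [nat_lit 12459, nat_lit 18291, nat_lit 16347, nat_lit 16887, nat_lit 16815, nat_lit 16827, nat_lit 16839, nat_lit 16831] (nat_lit 2) [nat_lit 10273] false,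
   Spec.mk (nat_lit 16839) (nat_lit 0) [nat_lit 12465, nat_lit 18297, nat_lit 16353, nat_lit 16893, nat_lit 16833] (nat_lit 1) [nat_lit 10279] false,
   Spec.mk (nat_lit 16853) (nat_lit 1) [nat_lit 12479, nat_lit 18311, nat_lit 16367, nat_lit 17015, nat_lit 16799, nat_lit 16859, nat_lit 16855] (nat_lit 0) [] false,
   Spec.mk (nat_lit 16855) (nat_lit 0) [nat_lit 12481, nat_lit 18313, nat_lit 16369, nat_lit 17017, nat_lit 16801, nat_lit 16861, nat_lit 16853] (nat_lit 1) [nat_lit 10295] false,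
   Spec.mk (nat_lit 16859) (nat_lit 0) [nat_lit 12485, nat_lit 18317, nat_lit 16373, nat_lit 17021, nat_lit 16805, nat_lit 16877, nat_lit 16853, nat_lit 16861] (nat_lit 1) [] false,
   Spec.mk (nat_lit 16861) (nat_lit 0) [nat_lit 12487, nat_lit 18319, nat_lit 16375, nat_lit 17023, nat_lit 16807, nat_lit 16879, nat_lit 16855, nat_lit 16867, nat_lit 16859, nat_lit 16863] (nat_lit 1) [nat_lit 10301] false,
   Spec.mk (nat_lit 16863) (nat_lit 0) [nat_lit 12489, nat_lit 18321, nat_lit 16377, nat_lit 17025, nat_lit 16809, nat_lit 16881, nat_lit 16869, nat_lit 16861] (nat_lit 3) [nat_lit 10303] false,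
   Spec.mk (nat_lit 16867) (nat_lit 0) [nat_lit 12493, nat_lit 18325, nat_lit 16381, nat_lit 17029, nat_lit 16813, nat_lit 16885, nat_lit 16861, nat_lit 16869] (nat_lit 3) [nat_lit 10307] false,
   Spec.mk (nat_lit 16869) (nat_lit 0) [nat_lit 12495, nat_lit 18327, nat_lit 16383, nat_lit 17031, nat_lit 16815, nat_lit 16887, nat_lit 16863, nat_lit 16867] (nat_lit 3) [nat_lit 10309] false,
   Spec.mk (nat_lit 16877) (nat_lit 0) [nat_lit 12503, nat_lit 18335, nat_lit 16391, nat_lit 17039, nat_lit 16823, nat_lit 16931, nat_lit 16859, nat_lit 16879] (nat_lit 0) [] false,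
   Spec.mk (nat_lit 16879) (nat_lit 0) [nat_lit 12505, nat_lit 18337, nat_lit 16393, nat_lit 17041, nat_lit 16825, nat_lit 16933, nat_lit 16861, nat_lit 16885, nat_lit 16877, nat_lit 16881] (nat_lit 1) [nat_lit 10319] false,
   Spec.mk (nat_lit 16881) (nat_lit 0) [nat_lit 12507, nat_lit 18339, nat_lit 16395, nat_lit 17043, nat_lit 16827, nat_lit 16935, nat_lit 16863, nat_lit 16887, nat_lit 16879] (nat_lit 4) [nat_lit 10321] false,
   Spec.mk (nat_lit 16885) (nat_lit 0) [nat_lit 12511, nat_lit 18343, nat_lit 16399, nat_lit 17047, nat_lit 16831, nat_lit 16939, nat_lit 16867, nat_lit 16903, nat_lit 16879, nat_lit 16887] (nat_lit 1) [nat_lit 10325] false,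
   Spec.mk (nat_lit 16887) (nat_lit 0) [nat_lit 12513, nat_lit 18345, nat_lit 16401, nat_lit 17049, nat_lit 16833, nat_lit 16941, nat_lit 16869, nat_lit 16905, nat_lit 16881, nat_lit 16893, nat_lit 16885] (nat_lit 2) [nat_lit 10327] false,
   Spec.mk (nat_lit 16893) (nat_lit 0) [nat_lit 12519, nat_lit 18351, nat_lit 16407, nat_lit 17055, nat_lit 16839, nat_lit 16947, nat_lit 16911, nat_lit 16887] (nat_lit 2) [nat_lit 10333] false,
   Spec.mk (nat_lit 16903) (nat_lit 0) [nat_lit 12529, nat_lit 18361, nat_lit 16417, nat_lit 17065, nat_lit 16957, nat_lit 16885, nat_lit 16905] (nat_lit 1) [nat_lit 10343] false,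
   Spec.mk (nat_lit 16905) (nat_lit 0) [nat_lit 12531, nat_lit 18363, nat_lit 16419, nat_lit 17067, nat_lit 16959, nat_lit 16887, nat_lit 16911, nat_lit 16903] (nat_lit 3) [nat_lit 10345] false,
   Spec.mk (nat_lit 16911) (nat_lit 0) [nat_lit 12537, nat_lit 18369, nat_lit 16425, nat_lit 17073, nat_lit 16965, nat_lit 16893, nat_lit 16905] (nat_lit 1) [nat_lit 10351] false,
   Spec.mk (nat_lit 16931) (nat_lit 0) [nat_lit 12557, nat_lit 18389, nat_lit 16445, nat_lit 17093, nat_lit 16877, nat_lit 16933] (nat_lit 1) [] false,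
   Spec.mk (nat_lit 16933) (nat_lit 0) [nat_lit 12559, nat_lit 18391, nat_lit 16447, nat_lit 17095, nat_lit 16879, nat_lit 16939, nat_lit 16931, nat_lit 16935] (nat_lit 2) [nat_lit 10373] false]

noncomputable def sp47 : List Spec :=
  [Spec.mk (nat_lit 16935) (nat_lit 0) [nat_lit 12561, nat_lit 18393, nat_lit 16449, nat_lit 17097, nat_lit 16881, nat_lit 16941, nat_lit 16933] (nat_lit 5) [nat_lit 10375] false,
   Spec.mk (nat_lit 16939) (nat_lit 0) [nat_lit 12565, nat_lit 18397, nat_lit 16453, nat_lit 17101, nat_lit 16885, nat_lit 16957, nat_lit 16933, nat_lit 16941] (nat_lit 3) [nat_lit 10379] false,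
   Spec.mk (nat_lit 16941) (nat_lit 0) [nat_lit 12567, nat_lit 18399, nat_lit 16455, nat_lit 17103, nat_lit 16887, nat_lit 16959, nat_lit 16935, nat_lit 16947, nat_lit 16939] (nat_lit 4) [nat_lit 10381] false,
   Spec.mk (nat_lit 16947) (nat_lit 0) [nat_lit 12573, nat_lit 18405, nat_lit 16461, nat_lit 17109, nat_lit 16893, nat_lit 16965, nat_lit 16941] (nat_lit 5) [nat_lit 10387] false,
   Spec.mk (nat_lit 16957) (nat_lit 0) [nat_lit 12583, nat_lit 18415, nat_lit 16471, nat_lit 17119, nat_lit 16903, nat_lit 16939, nat_lit 16959] (nat_lit 1) [nat_lit 10397] false,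
   Spec.mk (nat_lit 16959) (nat_lit 0) [nat_lit 12585, nat_lit 18417, nat_lit 16473, nat_lit 17121, nat_lit 16905, nat_lit 16941, nat_lit 16965, nat_lit 16957] (nat_lit 3) [nat_lit 10399] false,
   Spec.mk (nat_lit 16965) (nat_lit 0) [nat_lit 12591, nat_lit 18423, nat_lit 16479, nat_lit 17127, nat_lit 16911, nat_lit 16947, nat_lit 16983, nat_lit 16959] (nat_lit 2) [nat_lit 10405] false,
   Spec.mk (nat_lit 16983) (nat_lit 0) [nat_lit 12609, nat_lit 18441, nat_lit 16497, nat_lit 17145, nat_lit 16965] (nat_lit 1) [nat_lit 10423] false,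
   Spec.mk (nat_lit 17015) (nat_lit 3) [nat_lit 12641, nat_lit 18473, nat_lit 16529, nat_lit 16853, nat_lit 17021, nat_lit 17017] (nat_lit 0) [] false,
   Spec.mk (nat_lit 17017) (nat_lit 1) [nat_lit 12643, nat_lit 18475, nat_lit 16531, nat_lit 16855, nat_lit 17023, nat_lit 17015] (nat_lit 0) [nat_lit 10457] false,
   Spec.mk (nat_lit 17021) (nat_lit 1) [nat_lit 12647, nat_lit 18479, nat_lit 16535, nat_lit 16859, nat_lit 17039, nat_lit 17015, nat_lit 17023] (nat_lit 0) [] false,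
   Spec.mk (nat_lit 17023) (nat_lit 1) [nat_lit 12649, nat_lit 18481, nat_lit 16537, nat_lit 16861, nat_lit 17041, nat_lit 17017, nat_lit 17029, nat_lit 17021, nat_lit 17025] (nat_lit 0) [nat_lit 10463] false,
   Spec.mk (nat_lit 17025) (nat_lit 0) [nat_lit 12651, nat_lit 18483, nat_lit 16539, nat_lit 16863, nat_lit 17043, nat_lit 17031, nat_lit 17023] (nat_lit 1) [nat_lit 10465] false,
   Spec.mk (nat_lit 17029) (nat_lit 0) [nat_lit 12655, nat_lit 18487, nat_lit 16543, nat_lit 16867, nat_lit 17047, nat_lit 17023, nat_lit 17031] (nat_lit 1) [nat_lit 10469] false,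
   Spec.mk (nat_lit 17031) (nat_lit 0) [nat_lit 12657, nat_lit 18489, nat_lit 16545, nat_lit 16869, nat_lit 17049, nat_lit 17025, nat_lit 17029] (nat_lit 1) [nat_lit 10471] false,
   Spec.mk (nat_lit 17039) (nat_lit 1) [nat_lit 12665, nat_lit 18497, nat_lit 16553, nat_lit 16877, nat_lit 17093, nat_lit 17021, nat_lit 17041] (nat_lit 0) [] false,
   Spec.mk (nat_lit 17041) (nat_lit 0) [nat_lit 12667, nat_lit 18499, nat_lit 16555, nat_lit 16879, nat_lit 17095, nat_lit 17023, nat_lit 17047, nat_lit 17039, nat_lit 17043] (nat_lit 0) [nat_lit 10481] false,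
   Spec.mk (nat_lit 17043) (nat_lit 0) [nat_lit 12669, nat_lit 18501, nat_lit 16557, nat_lit 16881, nat_lit 17097, nat_lit 17025, nat_lit 17049, nat_lit 17041] (nat_lit 3) [nat_lit 10483] false,
   Spec.mk (nat_lit 17047) (nat_lit 0) [nat_lit 12673, nat_lit 18505, nat_lit 16561, nat_lit 16885, nat_lit 17101, nat_lit 17029, nat_lit 17065, nat_lit 17041, nat_lit 17049] (nat_lit 0) [nat_lit 10487] false,
   Spec.mk (nat_lit 17049) (nat_lit 0) [nat_lit 12675, nat_lit 18507, nat_lit 16563, nat_lit 16887, nat_lit 17103, nat_lit 17031, nat_lit 17067, nat_lit 17043, nat_lit 17055, nat_lit 17047] (nat_lit 1) [nat_lit 10489] false,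
   Spec.mk (nat_lit 17055) (nat_lit 0) [nat_lit 12681, nat_lit 18513, nat_lit 16569, nat_lit 16893, nat_lit 17109, nat_lit 17073, nat_lit 17049] (nat_lit 1) [nat_lit 10495] false,
   Spec.mk (nat_lit 17065) (nat_lit 0) [nat_lit 12691, nat_lit 18523, nat_lit 16579, nat_lit 16903, nat_lit 17119, nat_lit 17047, nat_lit 17067] (nat_lit 1) [nat_lit 10505] false,
   Spec.mk (nat_lit 17067) (nat_lit 0) [nat_lit 12693, nat_lit 18525, nat_lit 16581, nat_lit 16905, nat_lit 17121, nat_lit 17049, nat_lit 17073, nat_lit 17065] (nat_lit 3) [nat_lit 10507] false,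
   Spec.mk (nat_lit 17073) (nat_lit 0) [nat_lit 12699, nat_lit 18531, nat_lit 16587, nat_lit 16911, nat_lit 17127, nat_lit 17055, nat_lit 17067] (nat_lit 1) [nat_lit 10513] false,
   Spec.mk (nat_lit 17093) (nat_lit 2) [nat_lit 12719, nat_lit 18551, nat_lit 16607, nat_lit 16931, nat_lit 17255, nat_lit 17039, nat_lit 17095] (nat_lit 0) [] false,
   Spec.mk (nat_lit 17095) (nat_lit 1) [nat_lit 12721, nat_lit 18553, nat_lit 16609, nat_lit 16933, nat_lit 17257, nat_lit 17041, nat_lit 17101, nat_lit 17093, nat_lit 17097] (nat_lit 0) [nat_lit 10535] false,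
   Spec.mk (nat_lit 17097) (nat_lit 0) [nat_lit 12723, nat_lit 18555, nat_lit 16611, nat_lit 16935, nat_lit 17259, nat_lit 17043, nat_lit 17103, nat_lit 17095] (nat_lit 2) [nat_lit 10537] false,
   Spec.mk (nat_lit 17101) (nat_lit 0) [nat_lit 12727, nat_lit 18559, nat_lit 16615, nat_lit 16939, nat_lit 17263, nat_lit 17047, nat_lit 17119, nat_lit 17095, nat_lit 17103] (nat_lit 0) [nat_lit 10541] false,
   Spec.mk (nat_lit 17103) (nat_lit 0) [nat_lit 12729, nat_lit 18561, nat_lit 16617, nat_lit 16941, nat_lit 17265, nat_lit 17049, nat_lit 17121, nat_lit 17097, nat_lit 17109, nat_lit 17101] (nat_lit 1) [nat_lit 10543] false,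
   Spec.mk (nat_lit 17109) (nat_lit 0) [nat_lit 12735, nat_lit 18567, nat_lit 16623, nat_lit 16947, nat_lit 17271, nat_lit 17055, nat_lit 17127, nat_lit 17103] (nat_lit 2) [nat_lit 10549] false,
   Spec.mk (nat_lit 17119) (nat_lit 1) [nat_lit 12745, nat_lit 18577, nat_lit 16633, nat_lit 16957, nat_lit 17281, nat_lit 17065, nat_lit 17173, nat_lit 17101, nat_lit 17121] (nat_lit 0) [nat_lit 10559] false,
   Spec.mk (nat_lit 17121) (nat_lit 0) [nat_lit 12747, nat_lit 18579, nat_lit 16635, nat_lit 16959, nat_lit 17283, nat_lit 17067, nat_lit 17175, nat_lit 17103, nat_lit 17127, nat_lit 17119] (nat_lit 1) [nat_lit 10561] false,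
   Spec.mk (nat_lit 17127) (nat_lit 0) [nat_lit 12753, nat_lit 18585, nat_lit 16641, nat_lit 16965, nat_lit 17289, nat_lit 17073, nat_lit 17181, nat_lit 17109, nat_lit 17145, nat_lit 17121] (nat_lit 0) [nat_lit 10567] false,
   Spec.mk (nat_lit 17145) (nat_lit 0) [nat_lit 12771, nat_lit 18603, nat_lit 16659, nat_lit 16983, nat_lit 17307, nat_lit 17199, nat_lit 17127] (nat_lit 0) [nat_lit 10585] false,
   Spec.mk (nat_lit 17173) (nat_lit 1) [nat_lit 12799, nat_lit 18631, nat_lit 16687, nat_lit 17335, nat_lit 17119, nat_lit 17175] (nat_lit 0) [nat_lit 10613] false,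
   Spec.mk (nat_lit 17175) (nat_lit 0) [nat_lit 12801, nat_lit 18633, nat_lit 16689, nat_lit 17337, nat_lit 17121, nat_lit 17181, nat_lit 17173] (nat_lit 1) [nat_lit 10615] false,
   Spec.mk (nat_lit 17181) (nat_lit 0) [nat_lit 12807, nat_lit 18639, nat_lit 16695, nat_lit 17343, nat_lit 17127, nat_lit 17199, nat_lit 17175] (nat_lit 1) [nat_lit 10621] false,
   Spec.mk (nat_lit 17199) (nat_lit 1) [nat_lit 12825, nat_lit 18657, nat_lit 16713, nat_lit 17361, nat_lit 17145, nat_lit 17181] (nat_lit 0) [nat_lit 10639] false,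
   Spec.mk (nat_lit 17255) (nat_lit 3) [nat_lit 12881, nat_lit 18713, nat_lit 17093, nat_lit 17257] (nat_lit 0) [] false,
   Spec.mk (nat_lit 17257) (nat_lit 2) [nat_lit 12883, nat_lit 18715, nat_lit 17095, nat_lit 17263, nat_lit 17255, nat_lit 17259] (nat_lit 0) [nat_lit 10697] false,
   Spec.mk (nat_lit 17259) (nat_lit 0) [nat_lit 12885, nat_lit 18717, nat_lit 17097, nat_lit 17265, nat_lit 17257] (nat_lit 1) [nat_lit 10699] false,
   Spec.mk (nat_lit 17263) (nat_lit 1) [nat_lit 12889, nat_lit 18721, nat_lit 17101, nat_lit 17281, nat_lit 17257, nat_lit 17265] (nat_lit 0) [nat_lit 10703] false,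
   Spec.mk (nat_lit 17265) (nat_lit 0) [nat_lit 12891, nat_lit 18723, nat_lit 17103, nat_lit 17283, nat_lit 17259, nat_lit 17271, nat_lit 17263] (nat_lit 0) [nat_lit 10705] false,
   Spec.mk (nat_lit 17271) (nat_lit 0) [nat_lit 12897, nat_lit 18729, nat_lit 17109, nat_lit 17289, nat_lit 17265] (nat_lit 1) [nat_lit 10711] false,
   Spec.mk (nat_lit 17281) (nat_lit 1) [nat_lit 12907, nat_lit 18739, nat_lit 17119, nat_lit 17335, nat_lit 17263, nat_lit 17283] (nat_lit 0) [nat_lit 10721] false,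
   Spec.mk (nat_lit 17283) (nat_lit 0) [nat_lit 12909, nat_lit 18741, nat_lit 17121, nat_lit 17337, nat_lit 17265, nat_lit 17289, nat_lit 17281] (nat_lit 1) [nat_lit 10723] false,
   Spec.mk (nat_lit 17289) (nat_lit 0) [nat_lit 12915, nat_lit 18747, nat_lit 17127, nat_lit 17343, nat_lit 17271, nat_lit 17307, nat_lit 17283] (nat_lit 0) [nat_lit 10729] false,
   Spec.mk (nat_lit 17307) (nat_lit 0) [nat_lit 12933, nat_lit 18765, nat_lit 17145, nat_lit 17361, nat_lit 17289] (nat_lit 1) [nat_lit 10747] false,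
   Spec.mk (nat_lit 17335) (nat_lit 3) [nat_lit 12961, nat_lit 18793, nat_lit 17173, nat_lit 17281, nat_lit 17337] (nat_lit 0) [nat_lit 10775] false,
   Spec.mk (nat_lit 17337) (nat_lit 1) [nat_lit 12963, nat_lit 18795, nat_lit 17175, nat_lit 17283, nat_lit 17343, nat_lit 17335] (nat_lit 0) [nat_lit 10777] false,
   Spec.mk (nat_lit 17343) (nat_lit 1) [nat_lit 12969, nat_lit 18801, nat_lit 17181, nat_lit 17289, nat_lit 17361, nat_lit 17337] (nat_lit 0) [nat_lit 10783] false,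
   Spec.mk (nat_lit 17361) (nat_lit 2) [nat_lit 12987, nat_lit 18819, nat_lit 17199, nat_lit 17307, nat_lit 17415, nat_lit 17343] (nat_lit 0) [nat_lit 10801] false,
   Spec.mk (nat_lit 17415) (nat_lit 3) [nat_lit 13041, nat_lit 18873, nat_lit 17361] (nat_lit 0) [nat_lit 10855] false,
   Spec.mk (nat_lit 17513) (nat_lit 5) [nat_lit 16055, nat_lit 17531, nat_lit 17519] (nat_lit 0) [] false,
   Spec.mk (nat_lit 17519) (nat_lit 3) [nat_lit 16061, nat_lit 17537, nat_lit 17513, nat_lit 17521] (nat_lit 0) [] false,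
   Spec.mk (nat_lit 17521) (nat_lit 3) [nat_lit 16063, nat_lit 17539, nat_lit 17519] (nat_lit 0) [nat_lit 10961] false,
   Spec.mk (nat_lit 17531) (nat_lit 3) [nat_lit 16073, nat_lit 17585, nat_lit 17513, nat_lit 17537] (nat_lit 0) [] false,
   Spec.mk (nat_lit 17537) (nat_lit 3) [nat_lit 16079, nat_lit 17591, nat_lit 17519, nat_lit 17555, nat_lit 17531, nat_lit 17543, nat_lit 17539] (nat_lit 0) [] false,
   Spec.mk (nat_lit 17539) (nat_lit 2) [nat_lit 16081, nat_lit 17593, nat_lit 17521, nat_lit 17557, nat_lit 17545, nat_lit 17537] (nat_lit 0) [nat_lit 10979] false,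
   Spec.mk (nat_lit 17543) (nat_lit 1) [nat_lit 16085, nat_lit 17597, nat_lit 17561, nat_lit 17537, nat_lit 17545] (nat_lit 0) [] false]

noncomputable def sp48 : List Spec :=
  [Spec.mk (nat_lit 17545) (nat_lit 2) [nat_lit 16087, nat_lit 17599, nat_lit 17563, nat_lit 17539, nat_lit 17543, nat_lit 17547] (nat_lit 0) [nat_lit 10985] false,
   Spec.mk (nat_lit 17547) (nat_lit 1) [nat_lit 16089, nat_lit 17601, nat_lit 17565, nat_lit 17545] (nat_lit 0) [nat_lit 10987] false,
   Spec.mk (nat_lit 17555) (nat_lit 1) [nat_lit 16097, nat_lit 17609, nat_lit 17537, nat_lit 17561, nat_lit 17557] (nat_lit 0) [] false,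
   Spec.mk (nat_lit 17557) (nat_lit 0) [nat_lit 16099, nat_lit 17611, nat_lit 17539, nat_lit 17563, nat_lit 17555] (nat_lit 1) [nat_lit 10997] false,
   Spec.mk (nat_lit 17561) (nat_lit 1) [nat_lit 16103, nat_lit 17615, nat_lit 17543, nat_lit 17555, nat_lit 17563] (nat_lit 0) [] false,
   Spec.mk (nat_lit 17563) (nat_lit 1) [nat_lit 16105, nat_lit 17617, nat_lit 17545, nat_lit 17557, nat_lit 17569, nat_lit 17561, nat_lit 17565] (nat_lit 0) [nat_lit 11003] false,
   Spec.mk (nat_lit 17565) (nat_lit 0) [nat_lit 16107, nat_lit 17619, nat_lit 17547, nat_lit 17571, nat_lit 17563] (nat_lit 1) [nat_lit 11005] false,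
   Spec.mk (nat_lit 17569) (nat_lit 1) [nat_lit 16111, nat_lit 17623, nat_lit 17563, nat_lit 17571] (nat_lit 0) [nat_lit 11009] false,
   Spec.mk (nat_lit 17571) (nat_lit 1) [nat_lit 16113, nat_lit 17625, nat_lit 17565, nat_lit 17569] (nat_lit 0) [nat_lit 11011] false,
   Spec.mk (nat_lit 17585) (nat_lit 3) [nat_lit 16127, nat_lit 17747, nat_lit 17531, nat_lit 17591] (nat_lit 0) [] false,
   Spec.mk (nat_lit 17591) (nat_lit 2) [nat_lit 16133, nat_lit 17753, nat_lit 17537, nat_lit 17609, nat_lit 17585, nat_lit 17597, nat_lit 17593] (nat_lit 0) [] false,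
   Spec.mk (nat_lit 17593) (nat_lit 1) [nat_lit 16135, nat_lit 17755, nat_lit 17539, nat_lit 17611, nat_lit 17599, nat_lit 17591] (nat_lit 0) [nat_lit 11033] false,
   Spec.mk (nat_lit 17597) (nat_lit 0) [nat_lit 16139, nat_lit 17759, nat_lit 17543, nat_lit 17615, nat_lit 17591, nat_lit 17599] (nat_lit 1) [] false,
   Spec.mk (nat_lit 17599) (nat_lit 0) [nat_lit 16141, nat_lit 17761, nat_lit 17545, nat_lit 17617, nat_lit 17593, nat_lit 17597, nat_lit 17601] (nat_lit 0) [nat_lit 11039] false,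
   Spec.mk (nat_lit 17601) (nat_lit 0) [nat_lit 16143, nat_lit 17763, nat_lit 17547, nat_lit 17619, nat_lit 17599] (nat_lit 1) [nat_lit 11041] false,
   Spec.mk (nat_lit 17609) (nat_lit 2) [nat_lit 16151, nat_lit 17771, nat_lit 17555, nat_lit 17663, nat_lit 17591, nat_lit 17615, nat_lit 17611] (nat_lit 0) [] false,
   Spec.mk (nat_lit 17611) (nat_lit 0) [nat_lit 16153, nat_lit 17773, nat_lit 17557, nat_lit 17665, nat_lit 17593, nat_lit 17617, nat_lit 17609] (nat_lit 0) [nat_lit 11051] false,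
   Spec.mk (nat_lit 17615) (nat_lit 1) [nat_lit 16157, nat_lit 17777, nat_lit 17561, nat_lit 17669, nat_lit 17597, nat_lit 17633, nat_lit 17609, nat_lit 17617] (nat_lit 0) [] false,
   Spec.mk (nat_lit 17617) (nat_lit 1) [nat_lit 16159, nat_lit 17779, nat_lit 17563, nat_lit 17671, nat_lit 17599, nat_lit 17635, nat_lit 17611, nat_lit 17623, nat_lit 17615, nat_lit 17619] (nat_lit 0) [nat_lit 11057] false,
   Spec.mk (nat_lit 17619) (nat_lit 0) [nat_lit 16161, nat_lit 17781, nat_lit 17565, nat_lit 17673, nat_lit 17601, nat_lit 17637, nat_lit 17625, nat_lit 17617] (nat_lit 1) [nat_lit 11059] false,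
   Spec.mk (nat_lit 17623) (nat_lit 0) [nat_lit 16165, nat_lit 17785, nat_lit 17569, nat_lit 17677, nat_lit 17641, nat_lit 17617, nat_lit 17625] (nat_lit 0) [nat_lit 11063] false,
   Spec.mk (nat_lit 17625) (nat_lit 0) [nat_lit 16167, nat_lit 17787, nat_lit 17571, nat_lit 17679, nat_lit 17643, nat_lit 17619, nat_lit 17623] (nat_lit 0) [nat_lit 11065] false,
   Spec.mk (nat_lit 17633) (nat_lit 1) [nat_lit 16175, nat_lit 17795, nat_lit 17687, nat_lit 17615, nat_lit 17635] (nat_lit 0) [] false,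
   Spec.mk (nat_lit 17635) (nat_lit 0) [nat_lit 16177, nat_lit 17797, nat_lit 17689, nat_lit 17617, nat_lit 17641, nat_lit 17633, nat_lit 17637] (nat_lit 0) [nat_lit 11075] false,
   Spec.mk (nat_lit 17637) (nat_lit 0) [nat_lit 16179, nat_lit 17799, nat_lit 17691, nat_lit 17619, nat_lit 17643, nat_lit 17635] (nat_lit 3) [nat_lit 11077] false,
   Spec.mk (nat_lit 17641) (nat_lit 1) [nat_lit 16183, nat_lit 17803, nat_lit 17695, nat_lit 17623, nat_lit 17635, nat_lit 17643] (nat_lit 0) [nat_lit 11081] false,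
   Spec.mk (nat_lit 17643) (nat_lit 0) [nat_lit 16185, nat_lit 17805, nat_lit 17697, nat_lit 17625, nat_lit 17637, nat_lit 17649, nat_lit 17641] (nat_lit 0) [nat_lit 11083] false,
   Spec.mk (nat_lit 17649) (nat_lit 1) [nat_lit 16191, nat_lit 17811, nat_lit 17703, nat_lit 17643] (nat_lit 0) [nat_lit 11089] false,
   Spec.mk (nat_lit 17663) (nat_lit 1) [nat_lit 16205, nat_lit 17825, nat_lit 17609, nat_lit 17669, nat_lit 17665] (nat_lit 0) [] false,
   Spec.mk (nat_lit 17665) (nat_lit 0) [nat_lit 16207, nat_lit 17827, nat_lit 17611, nat_lit 17671, nat_lit 17663] (nat_lit 1) [nat_lit 11105] false,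
   Spec.mk (nat_lit 17669) (nat_lit 0) [nat_lit 16211, nat_lit 17831, nat_lit 17615, nat_lit 17687, nat_lit 17663, nat_lit 17671] (nat_lit 1) [] false,
   Spec.mk (nat_lit 17671) (nat_lit 0) [nat_lit 16213, nat_lit 17833, nat_lit 17617, nat_lit 17689, nat_lit 17665, nat_lit 17677, nat_lit 17669, nat_lit 17673] (nat_lit 1) [nat_lit 11111] false,
   Spec.mk (nat_lit 17673) (nat_lit 0) [nat_lit 16215, nat_lit 17835, nat_lit 17619, nat_lit 17691, nat_lit 17679, nat_lit 17671] (nat_lit 3) [nat_lit 11113] false,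
   Spec.mk (nat_lit 17677) (nat_lit 0) [nat_lit 16219, nat_lit 17839, nat_lit 17623, nat_lit 17695, nat_lit 17671, nat_lit 17679] (nat_lit 3) [nat_lit 11117] false,
   Spec.mk (nat_lit 17679) (nat_lit 0) [nat_lit 16221, nat_lit 17841, nat_lit 17625, nat_lit 17697, nat_lit 17673, nat_lit 17677] (nat_lit 3) [nat_lit 11119] false,
   Spec.mk (nat_lit 17687) (nat_lit 1) [nat_lit 16229, nat_lit 17849, nat_lit 17633, nat_lit 17669, nat_lit 17689] (nat_lit 0) [] false,
   Spec.mk (nat_lit 17689) (nat_lit 0) [nat_lit 16231, nat_lit 17851, nat_lit 17635, nat_lit 17671, nat_lit 17695, nat_lit 17687, nat_lit 17691] (nat_lit 0) [nat_lit 11129] false,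
   Spec.mk (nat_lit 17691) (nat_lit 0) [nat_lit 16233, nat_lit 17853, nat_lit 17637, nat_lit 17673, nat_lit 17697, nat_lit 17689] (nat_lit 3) [nat_lit 11131] false,
   Spec.mk (nat_lit 17695) (nat_lit 0) [nat_lit 16237, nat_lit 17857, nat_lit 17641, nat_lit 17677, nat_lit 17713, nat_lit 17689, nat_lit 17697] (nat_lit 0) [nat_lit 11135] false,
   Spec.mk (nat_lit 17697) (nat_lit 0) [nat_lit 16239, nat_lit 17859, nat_lit 17643, nat_lit 17679, nat_lit 17715, nat_lit 17691, nat_lit 17703, nat_lit 17695] (nat_lit 1) [nat_lit 11137] false,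
   Spec.mk (nat_lit 17703) (nat_lit 0) [nat_lit 16245, nat_lit 17865, nat_lit 17649, nat_lit 17721, nat_lit 17697] (nat_lit 1) [nat_lit 11143] false,
   Spec.mk (nat_lit 17713) (nat_lit 1) [nat_lit 16255, nat_lit 17875, nat_lit 17695, nat_lit 17715] (nat_lit 0) [nat_lit 11153] false,
   Spec.mk (nat_lit 17715) (nat_lit 0) [nat_lit 16257, nat_lit 17877, nat_lit 17697, nat_lit 17721, nat_lit 17713] (nat_lit 1) [nat_lit 11155] false,
   Spec.mk (nat_lit 17721) (nat_lit 1) [nat_lit 16263, nat_lit 17883, nat_lit 17703, nat_lit 17715] (nat_lit 0) [nat_lit 11161] false,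
   Spec.mk (nat_lit 17747) (nat_lit 3) [nat_lit 16289, nat_lit 18233, nat_lit 17585, nat_lit 17753] (nat_lit 0) [] false,
   Spec.mk (nat_lit 17753) (nat_lit 2) [nat_lit 16295, nat_lit 18239, nat_lit 17591, nat_lit 17771, nat_lit 17747, nat_lit 17759, nat_lit 17755] (nat_lit 0) [] false,
   Spec.mk (nat_lit 17755) (nat_lit 1) [nat_lit 16297, nat_lit 18241, nat_lit 17593, nat_lit 17773, nat_lit 17761, nat_lit 17753] (nat_lit 0) [nat_lit 11195] false,
   Spec.mk (nat_lit 17759) (nat_lit 0) [nat_lit 16301, nat_lit 18245, nat_lit 17597, nat_lit 17777, nat_lit 17753, nat_lit 17761] (nat_lit 1) [] false,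
   Spec.mk (nat_lit 17761) (nat_lit 0) [nat_lit 16303, nat_lit 18247, nat_lit 17599, nat_lit 17779, nat_lit 17755, nat_lit 17759, nat_lit 17763] (nat_lit 0) [nat_lit 11201] false,
   Spec.mk (nat_lit 17763) (nat_lit 0) [nat_lit 16305, nat_lit 18249, nat_lit 17601, nat_lit 17781, nat_lit 17761] (nat_lit 1) [nat_lit 11203] false,
   Spec.mk (nat_lit 17771) (nat_lit 1) [nat_lit 16313, nat_lit 18257, nat_lit 17609, nat_lit 17825, nat_lit 17753, nat_lit 17777, nat_lit 17773] (nat_lit 0) [] false,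
   Spec.mk (nat_lit 17773) (nat_lit 0) [nat_lit 16315, nat_lit 18259, nat_lit 17611, nat_lit 17827, nat_lit 17755, nat_lit 17779, nat_lit 17771] (nat_lit 1) [nat_lit 11213] false,
   Spec.mk (nat_lit 17777) (nat_lit 0) [nat_lit 16319, nat_lit 18263, nat_lit 17615, nat_lit 17831, nat_lit 17759, nat_lit 17795, nat_lit 17771, nat_lit 17779] (nat_lit 0) [] false,
   Spec.mk (nat_lit 17779) (nat_lit 0) [nat_lit 16321, nat_lit 18265, nat_lit 17617, nat_lit 17833, nat_lit 17761, nat_lit 17797, nat_lit 17773, nat_lit 17785, nat_lit 17777, nat_lit 17781] (nat_lit 0) [nat_lit 11219] false,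
   Spec.mk (nat_lit 17781) (nat_lit 0) [nat_lit 16323, nat_lit 18267, nat_lit 17619, nat_lit 17835, nat_lit 17763, nat_lit 17799, nat_lit 17787, nat_lit 17779] (nat_lit 2) [nat_lit 11221] false,
   Spec.mk (nat_lit 17785) (nat_lit 0) [nat_lit 16327, nat_lit 18271, nat_lit 17623, nat_lit 17839, nat_lit 17803, nat_lit 17779, nat_lit 17787] (nat_lit 1) [nat_lit 11225] false,
   Spec.mk (nat_lit 17787) (nat_lit 0) [nat_lit 16329, nat_lit 18273, nat_lit 17625, nat_lit 17841, nat_lit 17805, nat_lit 17781, nat_lit 17785] (nat_lit 1) [nat_lit 11227] false,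
   Spec.mk (nat_lit 17795) (nat_lit 0) [nat_lit 16337, nat_lit 18281, nat_lit 17633, nat_lit 17849, nat_lit 17777, nat_lit 17797] (nat_lit 1) [] false,
   Spec.mk (nat_lit 17797) (nat_lit 0) [nat_lit 16339, nat_lit 18283, nat_lit 17635, nat_lit 17851, nat_lit 17779, nat_lit 17803, nat_lit 17795, nat_lit 17799] (nat_lit 2) [nat_lit 11237] false,
   Spec.mk (nat_lit 17799) (nat_lit 0) [nat_lit 16341, nat_lit 18285, nat_lit 17637, nat_lit 17853, nat_lit 17781, nat_lit 17805, nat_lit 17797] (nat_lit 5) [nat_lit 11239] false]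

noncomputable def sp49 : List Spec :=
  [Spec.mk (nat_lit 17803) (nat_lit 0) [nat_lit 16345, nat_lit 18289, nat_lit 17641, nat_lit 17857, nat_lit 17785, nat_lit 17797, nat_lit 17805] (nat_lit 1) [nat_lit 11243] false,
   Spec.mk (nat_lit 17805) (nat_lit 0) [nat_lit 16347, nat_lit 18291, nat_lit 17643, nat_lit 17859, nat_lit 17787, nat_lit 17799, nat_lit 17811, nat_lit 17803] (nat_lit 2) [nat_lit 11245] false,
   Spec.mk (nat_lit 17811) (nat_lit 0) [nat_lit 16353, nat_lit 18297, nat_lit 17649, nat_lit 17865, nat_lit 17805] (nat_lit 1) [nat_lit 11251] false,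
   Spec.mk (nat_lit 17825) (nat_lit 2) [nat_lit 16367, nat_lit 18311, nat_lit 17663, nat_lit 17987, nat_lit 17771, nat_lit 17831, nat_lit 17827] (nat_lit 0) [] false,
   Spec.mk (nat_lit 17827) (nat_lit 0) [nat_lit 16369, nat_lit 18313, nat_lit 17665, nat_lit 17989, nat_lit 17773, nat_lit 17833, nat_lit 17825] (nat_lit 0) [nat_lit 11267] false,
   Spec.mk (nat_lit 17831) (nat_lit 0) [nat_lit 16373, nat_lit 18317, nat_lit 17669, nat_lit 17993, nat_lit 17777, nat_lit 17849, nat_lit 17825, nat_lit 17833] (nat_lit 0) [] false,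
   Spec.mk (nat_lit 17833) (nat_lit 0) [nat_lit 16375, nat_lit 18319, nat_lit 17671, nat_lit 17995, nat_lit 17779, nat_lit 17851, nat_lit 17827, nat_lit 17839, nat_lit 17831, nat_lit 17835] (nat_lit 0) [nat_lit 11273] false,
   Spec.mk (nat_lit 17835) (nat_lit 0) [nat_lit 16377, nat_lit 18321, nat_lit 17673, nat_lit 17997, nat_lit 17781, nat_lit 17853, nat_lit 17841, nat_lit 17833] (nat_lit 2) [nat_lit 11275] false,
   Spec.mk (nat_lit 17839) (nat_lit 0) [nat_lit 16381, nat_lit 18325, nat_lit 17677, nat_lit 18001, nat_lit 17785, nat_lit 17857, nat_lit 17833, nat_lit 17841] (nat_lit 2) [nat_lit 11279] false,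
   Spec.mk (nat_lit 17841) (nat_lit 0) [nat_lit 16383, nat_lit 18327, nat_lit 17679, nat_lit 18003, nat_lit 17787, nat_lit 17859, nat_lit 17835, nat_lit 17839] (nat_lit 2) [nat_lit 11281] false,
   Spec.mk (nat_lit 17849) (nat_lit 1) [nat_lit 16391, nat_lit 18335, nat_lit 17687, nat_lit 18011, nat_lit 17795, nat_lit 17903, nat_lit 17831, nat_lit 17851] (nat_lit 0) [] false,
   Spec.mk (nat_lit 17851) (nat_lit 0) [nat_lit 16393, nat_lit 18337, nat_lit 17689, nat_lit 18013, nat_lit 17797, nat_lit 17905, nat_lit 17833, nat_lit 17857, nat_lit 17849, nat_lit 17853] (nat_lit 0) [nat_lit 11291] false,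
   Spec.mk (nat_lit 17853) (nat_lit 0) [nat_lit 16395, nat_lit 18339, nat_lit 17691, nat_lit 18015, nat_lit 17799, nat_lit 17907, nat_lit 17835, nat_lit 17859, nat_lit 17851] (nat_lit 3) [nat_lit 11293] false,
   Spec.mk (nat_lit 17857) (nat_lit 0) [nat_lit 16399, nat_lit 18343, nat_lit 17695, nat_lit 18019, nat_lit 17803, nat_lit 17911, nat_lit 17839, nat_lit 17875, nat_lit 17851, nat_lit 17859] (nat_lit 0) [nat_lit 11297] false,
   Spec.mk (nat_lit 17859) (nat_lit 0) [nat_lit 16401, nat_lit 18345, nat_lit 17697, nat_lit 18021, nat_lit 17805, nat_lit 17913, nat_lit 17841, nat_lit 17877, nat_lit 17853, nat_lit 17865, nat_lit 17857] (nat_lit 1) [nat_lit 11299] false,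
   Spec.mk (nat_lit 17865) (nat_lit 0) [nat_lit 16407, nat_lit 18351, nat_lit 17703, nat_lit 18027, nat_lit 17811, nat_lit 17919, nat_lit 17883, nat_lit 17859] (nat_lit 1) [nat_lit 11305] false,
   Spec.mk (nat_lit 17875) (nat_lit 0) [nat_lit 16417, nat_lit 18361, nat_lit 17713, nat_lit 18037, nat_lit 17929, nat_lit 17857, nat_lit 17877] (nat_lit 0) [nat_lit 11315] false,
   Spec.mk (nat_lit 17877) (nat_lit 0) [nat_lit 16419, nat_lit 18363, nat_lit 17715, nat_lit 18039, nat_lit 17931, nat_lit 17859, nat_lit 17883, nat_lit 17875] (nat_lit 2) [nat_lit 11317] false,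
   Spec.mk (nat_lit 17883) (nat_lit 0) [nat_lit 16425, nat_lit 18369, nat_lit 17721, nat_lit 18045, nat_lit 17937, nat_lit 17865, nat_lit 17877] (nat_lit 0) [nat_lit 11323] false,
   Spec.mk (nat_lit 17903) (nat_lit 1) [nat_lit 16445, nat_lit 18389, nat_lit 18065, nat_lit 17849, nat_lit 17905] (nat_lit 0) [] false,
   Spec.mk (nat_lit 17905) (nat_lit 0) [nat_lit 16447, nat_lit 18391, nat_lit 18067, nat_lit 17851, nat_lit 17911, nat_lit 17903, nat_lit 17907] (nat_lit 0) [nat_lit 11345] false,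
   Spec.mk (nat_lit 17907) (nat_lit 0) [nat_lit 16449, nat_lit 18393, nat_lit 18069, nat_lit 17853, nat_lit 17913, nat_lit 17905] (nat_lit 3) [nat_lit 11347] false,
   Spec.mk (nat_lit 17911) (nat_lit 0) [nat_lit 16453, nat_lit 18397, nat_lit 18073, nat_lit 17857, nat_lit 17929, nat_lit 17905, nat_lit 17913] (nat_lit 1) [nat_lit 11351] false,
   Spec.mk (nat_lit 17913) (nat_lit 0) [nat_lit 16455, nat_lit 18399, nat_lit 18075, nat_lit 17859, nat_lit 17931, nat_lit 17907, nat_lit 17919, nat_lit 17911] (nat_lit 2) [nat_lit 11353] false,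
   Spec.mk (nat_lit 17919) (nat_lit 0) [nat_lit 16461, nat_lit 18405, nat_lit 18081, nat_lit 17865, nat_lit 17937, nat_lit 17913] (nat_lit 3) [nat_lit 11359] false,
   Spec.mk (nat_lit 17929) (nat_lit 1) [nat_lit 16471, nat_lit 18415, nat_lit 18091, nat_lit 17875, nat_lit 17911, nat_lit 17931] (nat_lit 0) [nat_lit 11369] false,
   Spec.mk (nat_lit 17931) (nat_lit 0) [nat_lit 16473, nat_lit 18417, nat_lit 18093, nat_lit 17877, nat_lit 17913, nat_lit 17937, nat_lit 17929] (nat_lit 1) [nat_lit 11371] false,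
   Spec.mk (nat_lit 17937) (nat_lit 0) [nat_lit 16479, nat_lit 18423, nat_lit 18099, nat_lit 17883, nat_lit 17919, nat_lit 17955, nat_lit 17931] (nat_lit 0) [nat_lit 11377] false,
   Spec.mk (nat_lit 17955) (nat_lit 1) [nat_lit 16497, nat_lit 18441, nat_lit 18117, nat_lit 17937] (nat_lit 0) [nat_lit 11395] false,
   Spec.mk (nat_lit 17987) (nat_lit 1) [nat_lit 16529, nat_lit 18473, nat_lit 17825, nat_lit 17993, nat_lit 17989] (nat_lit 0) [] false,
   Spec.mk (nat_lit 17989) (nat_lit 0) [nat_lit 16531, nat_lit 18475, nat_lit 17827, nat_lit 17995, nat_lit 17987] (nat_lit 1) [nat_lit 11429] false,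
   Spec.mk (nat_lit 17993) (nat_lit 0) [nat_lit 16535, nat_lit 18479, nat_lit 17831, nat_lit 18011, nat_lit 17987, nat_lit 17995] (nat_lit 1) [] false,
   Spec.mk (nat_lit 17995) (nat_lit 0) [nat_lit 16537, nat_lit 18481, nat_lit 17833, nat_lit 18013, nat_lit 17989, nat_lit 18001, nat_lit 17993, nat_lit 17997] (nat_lit 1) [nat_lit 11435] false,
   Spec.mk (nat_lit 17997) (nat_lit 0) [nat_lit 16539, nat_lit 18483, nat_lit 17835, nat_lit 18015, nat_lit 18003, nat_lit 17995] (nat_lit 3) [nat_lit 11437] false,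
   Spec.mk (nat_lit 18001) (nat_lit 0) [nat_lit 16543, nat_lit 18487, nat_lit 17839, nat_lit 18019, nat_lit 17995, nat_lit 18003] (nat_lit 3) [nat_lit 11441] false,
   Spec.mk (nat_lit 18003) (nat_lit 0) [nat_lit 16545, nat_lit 18489, nat_lit 17841, nat_lit 18021, nat_lit 17997, nat_lit 18001] (nat_lit 3) [nat_lit 11443] false,
   Spec.mk (nat_lit 18011) (nat_lit 0) [nat_lit 16553, nat_lit 18497, nat_lit 17849, nat_lit 18065, nat_lit 17993, nat_lit 18013] (nat_lit 1) [] false,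
   Spec.mk (nat_lit 18013) (nat_lit 0) [nat_lit 16555, nat_lit 18499, nat_lit 17851, nat_lit 18067, nat_lit 17995, nat_lit 18019, nat_lit 18011, nat_lit 18015] (nat_lit 2) [nat_lit 11453] false,
   Spec.mk (nat_lit 18015) (nat_lit 0) [nat_lit 16557, nat_lit 18501, nat_lit 17853, nat_lit 18069, nat_lit 17997, nat_lit 18021, nat_lit 18013] (nat_lit 5) [nat_lit 11455] false,
   Spec.mk (nat_lit 18019) (nat_lit 0) [nat_lit 16561, nat_lit 18505, nat_lit 17857, nat_lit 18073, nat_lit 18001, nat_lit 18037, nat_lit 18013, nat_lit 18021] (nat_lit 2) [nat_lit 11459] false,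
   Spec.mk (nat_lit 18021) (nat_lit 0) [nat_lit 16563, nat_lit 18507, nat_lit 17859, nat_lit 18075, nat_lit 18003, nat_lit 18039, nat_lit 18015, nat_lit 18027, nat_lit 18019] (nat_lit 3) [nat_lit 11461] false,
   Spec.mk (nat_lit 18027) (nat_lit 0) [nat_lit 16569, nat_lit 18513, nat_lit 17865, nat_lit 18081, nat_lit 18045, nat_lit 18021] (nat_lit 3) [nat_lit 11467] false,
   Spec.mk (nat_lit 18037) (nat_lit 0) [nat_lit 16579, nat_lit 18523, nat_lit 17875, nat_lit 18091, nat_lit 18019, nat_lit 18039] (nat_lit 3) [nat_lit 11477] false,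
   Spec.mk (nat_lit 18039) (nat_lit 0) [nat_lit 16581, nat_lit 18525, nat_lit 17877, nat_lit 18093, nat_lit 18021, nat_lit 18045, nat_lit 18037] (nat_lit 5) [nat_lit 11479] false,
   Spec.mk (nat_lit 18045) (nat_lit 0) [nat_lit 16587, nat_lit 18531, nat_lit 17883, nat_lit 18099, nat_lit 18027, nat_lit 18039] (nat_lit 3) [nat_lit 11485] false,
   Spec.mk (nat_lit 18065) (nat_lit 1) [nat_lit 16607, nat_lit 18551, nat_lit 17903, nat_lit 18011, nat_lit 18067] (nat_lit 0) [] false,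
   Spec.mk (nat_lit 18067) (nat_lit 0) [nat_lit 16609, nat_lit 18553, nat_lit 17905, nat_lit 18013, nat_lit 18073, nat_lit 18065, nat_lit 18069] (nat_lit 0) [nat_lit 11507] false,
   Spec.mk (nat_lit 18069) (nat_lit 0) [nat_lit 16611, nat_lit 18555, nat_lit 17907, nat_lit 18015, nat_lit 18075, nat_lit 18067] (nat_lit 3) [nat_lit 11509] false,
   Spec.mk (nat_lit 18073) (nat_lit 0) [nat_lit 16615, nat_lit 18559, nat_lit 17911, nat_lit 18019, nat_lit 18091, nat_lit 18067, nat_lit 18075] (nat_lit 1) [nat_lit 11513] false,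
   Spec.mk (nat_lit 18075) (nat_lit 0) [nat_lit 16617, nat_lit 18561, nat_lit 17913, nat_lit 18021, nat_lit 18093, nat_lit 18069, nat_lit 18081, nat_lit 18073] (nat_lit 2) [nat_lit 11515] false,
   Spec.mk (nat_lit 18081) (nat_lit 0) [nat_lit 16623, nat_lit 18567, nat_lit 17919, nat_lit 18027, nat_lit 18099, nat_lit 18075] (nat_lit 3) [nat_lit 11521] false,
   Spec.mk (nat_lit 18091) (nat_lit 0) [nat_lit 16633, nat_lit 18577, nat_lit 17929, nat_lit 18037, nat_lit 18145, nat_lit 18073, nat_lit 18093] (nat_lit 0) [nat_lit 11531] false,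
   Spec.mk (nat_lit 18093) (nat_lit 0) [nat_lit 16635, nat_lit 18579, nat_lit 17931, nat_lit 18039, nat_lit 18147, nat_lit 18075, nat_lit 18099, nat_lit 18091] (nat_lit 2) [nat_lit 11533] false,
   Spec.mk (nat_lit 18099) (nat_lit 0) [nat_lit 16641, nat_lit 18585, nat_lit 17937, nat_lit 18045, nat_lit 18153, nat_lit 18081, nat_lit 18117, nat_lit 18093] (nat_lit 1) [nat_lit 11539] false,
   Spec.mk (nat_lit 18117) (nat_lit 0) [nat_lit 16659, nat_lit 18603, nat_lit 17955, nat_lit 18171, nat_lit 18099] (nat_lit 1) [nat_lit 11557] false,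
   Spec.mk (nat_lit 18145) (nat_lit 1) [nat_lit 16687, nat_lit 18631, nat_lit 18091, nat_lit 18147] (nat_lit 0) [nat_lit 11585] false,
   Spec.mk (nat_lit 18147) (nat_lit 0) [nat_lit 16689, nat_lit 18633, nat_lit 18093, nat_lit 18153, nat_lit 18145] (nat_lit 1) [nat_lit 11587] false,
   Spec.mk (nat_lit 18153) (nat_lit 0) [nat_lit 16695, nat_lit 18639, nat_lit 18099, nat_lit 18171, nat_lit 18147] (nat_lit 1) [nat_lit 11593] false,
   Spec.mk (nat_lit 18171) (nat_lit 1) [nat_lit 16713, nat_lit 18657, nat_lit 18117, nat_lit 18153] (nat_lit 0) [nat_lit 11611] false,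
   Spec.mk (nat_lit 18233) (nat_lit 5) [nat_lit 16775, nat_lit 17747, nat_lit 18239] (nat_lit 0) [] false]

noncomputable def sp50 : List Spec :=
  [Spec.mk (nat_lit 18239) (nat_lit 4) [nat_lit 16781, nat_lit 17753, nat_lit 18257, nat_lit 18233, nat_lit 18245, nat_lit 18241] (nat_lit 0) [] false,
   Spec.mk (nat_lit 18241) (nat_lit 3) [nat_lit 16783, nat_lit 17755, nat_lit 18259, nat_lit 18247, nat_lit 18239] (nat_lit 0) [nat_lit 11681] false,
   Spec.mk (nat_lit 18245) (nat_lit 1) [nat_lit 16787, nat_lit 17759, nat_lit 18263, nat_lit 18239, nat_lit 18247] (nat_lit 0) [] false,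
   Spec.mk (nat_lit 18247) (nat_lit 2) [nat_lit 16789, nat_lit 17761, nat_lit 18265, nat_lit 18241, nat_lit 18245, nat_lit 18249] (nat_lit 0) [nat_lit 11687] false,
   Spec.mk (nat_lit 18249) (nat_lit 1) [nat_lit 16791, nat_lit 17763, nat_lit 18267, nat_lit 18247] (nat_lit 0) [nat_lit 11689] false,
   Spec.mk (nat_lit 18257) (nat_lit 3) [nat_lit 16799, nat_lit 17771, nat_lit 18311, nat_lit 18239, nat_lit 18263, nat_lit 18259] (nat_lit 0) [] false,
   Spec.mk (nat_lit 18259) (nat_lit 1) [nat_lit 16801, nat_lit 17773, nat_lit 18313, nat_lit 18241, nat_lit 18265, nat_lit 18257] (nat_lit 0) [nat_lit 11699] false,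
   Spec.mk (nat_lit 18263) (nat_lit 2) [nat_lit 16805, nat_lit 17777, nat_lit 18317, nat_lit 18245, nat_lit 18281, nat_lit 18257, nat_lit 18265] (nat_lit 0) [] false,
   Spec.mk (nat_lit 18265) (nat_lit 2) [nat_lit 16807, nat_lit 17779, nat_lit 18319, nat_lit 18247, nat_lit 18283, nat_lit 18259, nat_lit 18271, nat_lit 18263, nat_lit 18267] (nat_lit 0) [nat_lit 11705] false,
   Spec.mk (nat_lit 18267) (nat_lit 0) [nat_lit 16809, nat_lit 17781, nat_lit 18321, nat_lit 18249, nat_lit 18285, nat_lit 18273, nat_lit 18265] (nat_lit 0) [nat_lit 11707] false,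
   Spec.mk (nat_lit 18271) (nat_lit 1) [nat_lit 16813, nat_lit 17785, nat_lit 18325, nat_lit 18289, nat_lit 18265, nat_lit 18273] (nat_lit 0) [nat_lit 11711] false,
   Spec.mk (nat_lit 18273) (nat_lit 1) [nat_lit 16815, nat_lit 17787, nat_lit 18327, nat_lit 18291, nat_lit 18267, nat_lit 18271] (nat_lit 0) [nat_lit 11713] false,
   Spec.mk (nat_lit 18281) (nat_lit 1) [nat_lit 16823, nat_lit 17795, nat_lit 18335, nat_lit 18263, nat_lit 18283] (nat_lit 0) [] false,
   Spec.mk (nat_lit 18283) (nat_lit 0) [nat_lit 16825, nat_lit 17797, nat_lit 18337, nat_lit 18265, nat_lit 18289, nat_lit 18281, nat_lit 18285] (nat_lit 0) [nat_lit 11723] false,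
   Spec.mk (nat_lit 18285) (nat_lit 0) [nat_lit 16827, nat_lit 17799, nat_lit 18339, nat_lit 18267, nat_lit 18291, nat_lit 18283] (nat_lit 3) [nat_lit 11725] false,
   Spec.mk (nat_lit 18289) (nat_lit 1) [nat_lit 16831, nat_lit 17803, nat_lit 18343, nat_lit 18271, nat_lit 18283, nat_lit 18291] (nat_lit 0) [nat_lit 11729] false,
   Spec.mk (nat_lit 18291) (nat_lit 0) [nat_lit 16833, nat_lit 17805, nat_lit 18345, nat_lit 18273, nat_lit 18285, nat_lit 18297, nat_lit 18289] (nat_lit 0) [nat_lit 11731] false,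
   Spec.mk (nat_lit 18297) (nat_lit 1) [nat_lit 16839, nat_lit 17811, nat_lit 18351, nat_lit 18291] (nat_lit 0) [nat_lit 11737] false,
   Spec.mk (nat_lit 18311) (nat_lit 3) [nat_lit 16853, nat_lit 17825, nat_lit 18473, nat_lit 18257, nat_lit 18317, nat_lit 18313] (nat_lit 0) [] false,
   Spec.mk (nat_lit 18313) (nat_lit 1) [nat_lit 16855, nat_lit 17827, nat_lit 18475, nat_lit 18259, nat_lit 18319, nat_lit 18311] (nat_lit 0) [nat_lit 11753] false,
   Spec.mk (nat_lit 18317) (nat_lit 1) [nat_lit 16859, nat_lit 17831, nat_lit 18479, nat_lit 18263, nat_lit 18335, nat_lit 18311, nat_lit 18319] (nat_lit 0) [] false,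
   Spec.mk (nat_lit 18319) (nat_lit 1) [nat_lit 16861, nat_lit 17833, nat_lit 18481, nat_lit 18265, nat_lit 18337, nat_lit 18313, nat_lit 18325, nat_lit 18317, nat_lit 18321] (nat_lit 0) [nat_lit 11759] false,
   Spec.mk (nat_lit 18321) (nat_lit 0) [nat_lit 16863, nat_lit 17835, nat_lit 18483, nat_lit 18267, nat_lit 18339, nat_lit 18327, nat_lit 18319] (nat_lit 1) [nat_lit 11761] false,
   Spec.mk (nat_lit 18325) (nat_lit 0) [nat_lit 16867, nat_lit 17839, nat_lit 18487, nat_lit 18271, nat_lit 18343, nat_lit 18319, nat_lit 18327] (nat_lit 1) [nat_lit 11765] false,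
   Spec.mk (nat_lit 18327) (nat_lit 0) [nat_lit 16869, nat_lit 17841, nat_lit 18489, nat_lit 18273, nat_lit 18345, nat_lit 18321, nat_lit 18325] (nat_lit 1) [nat_lit 11767] false,
   Spec.mk (nat_lit 18335) (nat_lit 2) [nat_lit 16877, nat_lit 17849, nat_lit 18497, nat_lit 18281, nat_lit 18389, nat_lit 18317, nat_lit 18337] (nat_lit 0) [] false,
   Spec.mk (nat_lit 18337) (nat_lit 1) [nat_lit 16879, nat_lit 17851, nat_lit 18499, nat_lit 18283, nat_lit 18391, nat_lit 18319, nat_lit 18343, nat_lit 18335, nat_lit 18339] (nat_lit 0) [nat_lit 11777] false,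
   Spec.mk (nat_lit 18339) (nat_lit 0) [nat_lit 16881, nat_lit 17853, nat_lit 18501, nat_lit 18285, nat_lit 18393, nat_lit 18321, nat_lit 18345, nat_lit 18337] (nat_lit 2) [nat_lit 11779] false,
   Spec.mk (nat_lit 18343) (nat_lit 1) [nat_lit 16885, nat_lit 17857, nat_lit 18505, nat_lit 18289, nat_lit 18397, nat_lit 18325, nat_lit 18361, nat_lit 18337, nat_lit 18345] (nat_lit 0) [nat_lit 11783] false,
   Spec.mk (nat_lit 18345) (nat_lit 0) [nat_lit 16887, nat_lit 17859, nat_lit 18507, nat_lit 18291, nat_lit 18399, nat_lit 18327, nat_lit 18363, nat_lit 18339, nat_lit 18351, nat_lit 18343] (nat_lit 0) [nat_lit 11785] false,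
   Spec.mk (nat_lit 18351) (nat_lit 0) [nat_lit 16893, nat_lit 17865, nat_lit 18513, nat_lit 18297, nat_lit 18405, nat_lit 18369, nat_lit 18345] (nat_lit 0) [nat_lit 11791] false,
   Spec.mk (nat_lit 18361) (nat_lit 1) [nat_lit 16903, nat_lit 17875, nat_lit 18523, nat_lit 18415, nat_lit 18343, nat_lit 18363] (nat_lit 0) [nat_lit 11801] false,
   Spec.mk (nat_lit 18363) (nat_lit 0) [nat_lit 16905, nat_lit 17877, nat_lit 18525, nat_lit 18417, nat_lit 18345, nat_lit 18369, nat_lit 18361] (nat_lit 1) [nat_lit 11803] false,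
   Spec.mk (nat_lit 18369) (nat_lit 1) [nat_lit 16911, nat_lit 17883, nat_lit 18531, nat_lit 18423, nat_lit 18351, nat_lit 18363] (nat_lit 0) [nat_lit 11809] false,
   Spec.mk (nat_lit 18389) (nat_lit 1) [nat_lit 16931, nat_lit 17903, nat_lit 18551, nat_lit 18335, nat_lit 18391] (nat_lit 0) [] false,
   Spec.mk (nat_lit 18391) (nat_lit 0) [nat_lit 16933, nat_lit 17905, nat_lit 18553, nat_lit 18337, nat_lit 18397, nat_lit 18389, nat_lit 18393] (nat_lit 0) [nat_lit 11831] false,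
   Spec.mk (nat_lit 18393) (nat_lit 0) [nat_lit 16935, nat_lit 17907, nat_lit 18555, nat_lit 18339, nat_lit 18399, nat_lit 18391] (nat_lit 3) [nat_lit 11833] false,
   Spec.mk (nat_lit 18397) (nat_lit 0) [nat_lit 16939, nat_lit 17911, nat_lit 18559, nat_lit 18343, nat_lit 18415, nat_lit 18391, nat_lit 18399] (nat_lit 1) [nat_lit 11837] false,
   Spec.mk (nat_lit 18399) (nat_lit 0) [nat_lit 16941, nat_lit 17913, nat_lit 18561, nat_lit 18345, nat_lit 18417, nat_lit 18393, nat_lit 18405, nat_lit 18397] (nat_lit 2) [nat_lit 11839] false,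
   Spec.mk (nat_lit 18405) (nat_lit 0) [nat_lit 16947, nat_lit 17919, nat_lit 18567, nat_lit 18351, nat_lit 18423, nat_lit 18399] (nat_lit 3) [nat_lit 11845] false,
   Spec.mk (nat_lit 18415) (nat_lit 1) [nat_lit 16957, nat_lit 17929, nat_lit 18577, nat_lit 18361, nat_lit 18397, nat_lit 18417] (nat_lit 0) [nat_lit 11855] false,
   Spec.mk (nat_lit 18417) (nat_lit 0) [nat_lit 16959, nat_lit 17931, nat_lit 18579, nat_lit 18363, nat_lit 18399, nat_lit 18423, nat_lit 18415] (nat_lit 1) [nat_lit 11857] false,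
   Spec.mk (nat_lit 18423) (nat_lit 0) [nat_lit 16965, nat_lit 17937, nat_lit 18585, nat_lit 18369, nat_lit 18405, nat_lit 18441, nat_lit 18417] (nat_lit 0) [nat_lit 11863] false,
   Spec.mk (nat_lit 18441) (nat_lit 1) [nat_lit 16983, nat_lit 17955, nat_lit 18603, nat_lit 18423] (nat_lit 0) [nat_lit 11881] false,
   Spec.mk (nat_lit 18473) (nat_lit 4) [nat_lit 17015, nat_lit 17987, nat_lit 18959, nat_lit 18311, nat_lit 18479, nat_lit 18475] (nat_lit 0) [] false,
   Spec.mk (nat_lit 18475) (nat_lit 2) [nat_lit 17017, nat_lit 17989, nat_lit 18961, nat_lit 18313, nat_lit 18481, nat_lit 18473] (nat_lit 0) [nat_lit 11915] false,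
   Spec.mk (nat_lit 18479) (nat_lit 2) [nat_lit 17021, nat_lit 17993, nat_lit 18965, nat_lit 18317, nat_lit 18497, nat_lit 18473, nat_lit 18481] (nat_lit 0) [] false,
   Spec.mk (nat_lit 18481) (nat_lit 2) [nat_lit 17023, nat_lit 17995, nat_lit 18967, nat_lit 18319, nat_lit 18499, nat_lit 18475, nat_lit 18487, nat_lit 18479, nat_lit 18483] (nat_lit 0) [nat_lit 11921] false,
   Spec.mk (nat_lit 18483) (nat_lit 0) [nat_lit 17025, nat_lit 17997, nat_lit 18969, nat_lit 18321, nat_lit 18501, nat_lit 18489, nat_lit 18481] (nat_lit 0) [nat_lit 11923] false,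
   Spec.mk (nat_lit 18487) (nat_lit 0) [nat_lit 17029, nat_lit 18001, nat_lit 18973, nat_lit 18325, nat_lit 18505, nat_lit 18481, nat_lit 18489] (nat_lit 0) [nat_lit 11927] false,
   Spec.mk (nat_lit 18489) (nat_lit 0) [nat_lit 17031, nat_lit 18003, nat_lit 18975, nat_lit 18327, nat_lit 18507, nat_lit 18483, nat_lit 18487] (nat_lit 0) [nat_lit 11929] false,
   Spec.mk (nat_lit 18497) (nat_lit 2) [nat_lit 17039, nat_lit 18011, nat_lit 18983, nat_lit 18335, nat_lit 18551, nat_lit 18479, nat_lit 18499] (nat_lit 0) [] false,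
   Spec.mk (nat_lit 18499) (nat_lit 1) [nat_lit 17041, nat_lit 18013, nat_lit 18985, nat_lit 18337, nat_lit 18553, nat_lit 18481, nat_lit 18505, nat_lit 18497, nat_lit 18501] (nat_lit 0) [nat_lit 11939] false,
   Spec.mk (nat_lit 18501) (nat_lit 0) [nat_lit 17043, nat_lit 18015, nat_lit 18987, nat_lit 18339, nat_lit 18555, nat_lit 18483, nat_lit 18507, nat_lit 18499] (nat_lit 2) [nat_lit 11941] false,
   Spec.mk (nat_lit 18505) (nat_lit 1) [nat_lit 17047, nat_lit 18019, nat_lit 18991, nat_lit 18343, nat_lit 18559, nat_lit 18487, nat_lit 18523, nat_lit 18499, nat_lit 18507] (nat_lit 0) [nat_lit 11945] false,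
   Spec.mk (nat_lit 18507) (nat_lit 0) [nat_lit 17049, nat_lit 18021, nat_lit 18993, nat_lit 18345, nat_lit 18561, nat_lit 18489, nat_lit 18525, nat_lit 18501, nat_lit 18513, nat_lit 18505] (nat_lit 0) [nat_lit 11947] false,
   Spec.mk (nat_lit 18513) (nat_lit 0) [nat_lit 17055, nat_lit 18027, nat_lit 18999, nat_lit 18351, nat_lit 18567, nat_lit 18531, nat_lit 18507] (nat_lit 0) [nat_lit 11953] false,
   Spec.mk (nat_lit 18523) (nat_lit 0) [nat_lit 17065, nat_lit 18037, nat_lit 19009, nat_lit 18361, nat_lit 18577, nat_lit 18505, nat_lit 18525] (nat_lit 0) [nat_lit 11963] false,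
   Spec.mk (nat_lit 18525) (nat_lit 0) [nat_lit 17067, nat_lit 18039, nat_lit 19011, nat_lit 18363, nat_lit 18579, nat_lit 18507, nat_lit 18531, nat_lit 18523] (nat_lit 2) [nat_lit 11965] false,
   Spec.mk (nat_lit 18531) (nat_lit 0) [nat_lit 17073, nat_lit 18045, nat_lit 19017, nat_lit 18369, nat_lit 18585, nat_lit 18513, nat_lit 18525] (nat_lit 0) [nat_lit 11971] false]

noncomputable def sp51 : List Spec :=
  [Spec.mk (nat_lit 18551) (nat_lit 3) [nat_lit 17093, nat_lit 18065, nat_lit 19037, nat_lit 18389, nat_lit 18713, nat_lit 18497, nat_lit 18553] (nat_lit 0) [] false,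
   Spec.mk (nat_lit 18553) (nat_lit 2) [nat_lit 17095, nat_lit 18067, nat_lit 19039, nat_lit 18391, nat_lit 18715, nat_lit 18499, nat_lit 18559, nat_lit 18551, nat_lit 18555] (nat_lit 0) [nat_lit 11993] false,
   Spec.mk (nat_lit 18555) (nat_lit 0) [nat_lit 17097, nat_lit 18069, nat_lit 19041, nat_lit 18393, nat_lit 18717, nat_lit 18501, nat_lit 18561, nat_lit 18553] (nat_lit 1) [nat_lit 11995] false,
   Spec.mk (nat_lit 18559) (nat_lit 1) [nat_lit 17101, nat_lit 18073, nat_lit 19045, nat_lit 18397, nat_lit 18721, nat_lit 18505, nat_lit 18577, nat_lit 18553, nat_lit 18561] (nat_lit 0) [nat_lit 11999] false,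
   Spec.mk (nat_lit 18561) (nat_lit 0) [nat_lit 17103, nat_lit 18075, nat_lit 19047, nat_lit 18399, nat_lit 18723, nat_lit 18507, nat_lit 18579, nat_lit 18555, nat_lit 18567, nat_lit 18559] (nat_lit 0) [nat_lit 12001] false,
   Spec.mk (nat_lit 18567) (nat_lit 0) [nat_lit 17109, nat_lit 18081, nat_lit 19053, nat_lit 18405, nat_lit 18729, nat_lit 18513, nat_lit 18585, nat_lit 18561] (nat_lit 1) [nat_lit 12007] false,
   Spec.mk (nat_lit 18577) (nat_lit 2) [nat_lit 17119, nat_lit 18091, nat_lit 19063, nat_lit 18415, nat_lit 18739, nat_lit 18523, nat_lit 18631, nat_lit 18559, nat_lit 18579] (nat_lit 0) [nat_lit 12017] false,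
   Spec.mk (nat_lit 18579) (nat_lit 0) [nat_lit 17121, nat_lit 18093, nat_lit 19065, nat_lit 18417, nat_lit 18741, nat_lit 18525, nat_lit 18633, nat_lit 18561, nat_lit 18585, nat_lit 18577] (nat_lit 0) [nat_lit 12019] false,
   Spec.mk (nat_lit 18585) (nat_lit 1) [nat_lit 17127, nat_lit 18099, nat_lit 19071, nat_lit 18423, nat_lit 18747, nat_lit 18531, nat_lit 18639, nat_lit 18567, nat_lit 18603, nat_lit 18579] (nat_lit 0) [nat_lit 12025] false,
   Spec.mk (nat_lit 18603) (nat_lit 1) [nat_lit 17145, nat_lit 18117, nat_lit 19089, nat_lit 18441, nat_lit 18765, nat_lit 18657, nat_lit 18585] (nat_lit 0) [nat_lit 12043] false,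
   Spec.mk (nat_lit 18631) (nat_lit 2) [nat_lit 17173, nat_lit 18145, nat_lit 19117, nat_lit 18793, nat_lit 18577, nat_lit 18633] (nat_lit 0) [nat_lit 12071] false,
   Spec.mk (nat_lit 18633) (nat_lit 0) [nat_lit 17175, nat_lit 18147, nat_lit 19119, nat_lit 18795, nat_lit 18579, nat_lit 18639, nat_lit 18631] (nat_lit 0) [nat_lit 12073] false,
   Spec.mk (nat_lit 18639) (nat_lit 0) [nat_lit 17181, nat_lit 18153, nat_lit 19125, nat_lit 18801, nat_lit 18585, nat_lit 18657, nat_lit 18633] (nat_lit 0) [nat_lit 12079] false,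
   Spec.mk (nat_lit 18657) (nat_lit 2) [nat_lit 17199, nat_lit 18171, nat_lit 19143, nat_lit 18819, nat_lit 18603, nat_lit 18639] (nat_lit 0) [nat_lit 12097] false,
   Spec.mk (nat_lit 18713) (nat_lit 3) [nat_lit 17255, nat_lit 19199, nat_lit 18551, nat_lit 18715] (nat_lit 0) [] false,
   Spec.mk (nat_lit 18715) (nat_lit 2) [nat_lit 17257, nat_lit 19201, nat_lit 18553, nat_lit 18721, nat_lit 18713, nat_lit 18717] (nat_lit 0) [nat_lit 12155] false,
   Spec.mk (nat_lit 18717) (nat_lit 0) [nat_lit 17259, nat_lit 19203, nat_lit 18555, nat_lit 18723, nat_lit 18715] (nat_lit 1) [nat_lit 12157] false,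
   Spec.mk (nat_lit 18721) (nat_lit 1) [nat_lit 17263, nat_lit 19207, nat_lit 18559, nat_lit 18739, nat_lit 18715, nat_lit 18723] (nat_lit 0) [nat_lit 12161] false,
   Spec.mk (nat_lit 18723) (nat_lit 0) [nat_lit 17265, nat_lit 19209, nat_lit 18561, nat_lit 18741, nat_lit 18717, nat_lit 18729, nat_lit 18721] (nat_lit 0) [nat_lit 12163] false,
   Spec.mk (nat_lit 18729) (nat_lit 0) [nat_lit 17271, nat_lit 19215, nat_lit 18567, nat_lit 18747, nat_lit 18723] (nat_lit 1) [nat_lit 12169] false,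
   Spec.mk (nat_lit 18739) (nat_lit 1) [nat_lit 17281, nat_lit 19225, nat_lit 18577, nat_lit 18793, nat_lit 18721, nat_lit 18741] (nat_lit 0) [nat_lit 12179] false,
   Spec.mk (nat_lit 18741) (nat_lit 0) [nat_lit 17283, nat_lit 19227, nat_lit 18579, nat_lit 18795, nat_lit 18723, nat_lit 18747, nat_lit 18739] (nat_lit 1) [nat_lit 12181] false,
   Spec.mk (nat_lit 18747) (nat_lit 0) [nat_lit 17289, nat_lit 19233, nat_lit 18585, nat_lit 18801, nat_lit 18729, nat_lit 18765, nat_lit 18741] (nat_lit 0) [nat_lit 12187] false,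
   Spec.mk (nat_lit 18765) (nat_lit 0) [nat_lit 17307, nat_lit 19251, nat_lit 18603, nat_lit 18819, nat_lit 18747] (nat_lit 1) [nat_lit 12205] false,
   Spec.mk (nat_lit 18793) (nat_lit 3) [nat_lit 17335, nat_lit 19279, nat_lit 18631, nat_lit 18739, nat_lit 18795] (nat_lit 0) [nat_lit 12233] false,
   Spec.mk (nat_lit 18795) (nat_lit 1) [nat_lit 17337, nat_lit 19281, nat_lit 18633, nat_lit 18741, nat_lit 18801, nat_lit 18793] (nat_lit 0) [nat_lit 12235] false,
   Spec.mk (nat_lit 18801) (nat_lit 1) [nat_lit 17343, nat_lit 19287, nat_lit 18639, nat_lit 18747, nat_lit 18819, nat_lit 18795] (nat_lit 0) [nat_lit 12241] false,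
   Spec.mk (nat_lit 18819) (nat_lit 2) [nat_lit 17361, nat_lit 19305, nat_lit 18657, nat_lit 18765, nat_lit 18873, nat_lit 18801] (nat_lit 0) [nat_lit 12259] false,
   Spec.mk (nat_lit 18873) (nat_lit 3) [nat_lit 17415, nat_lit 19359, nat_lit 18819] (nat_lit 0) [nat_lit 12313] false,
   Spec.mk (nat_lit 18959) (nat_lit 5) [nat_lit 18473, nat_lit 18965, nat_lit 18961] (nat_lit 0) [] false,
   Spec.mk (nat_lit 18961) (nat_lit 3) [nat_lit 18475, nat_lit 18967, nat_lit 18959] (nat_lit 0) [nat_lit 12401] false,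
   Spec.mk (nat_lit 18965) (nat_lit 3) [nat_lit 18479, nat_lit 18983, nat_lit 18959, nat_lit 18967] (nat_lit 0) [] false,
   Spec.mk (nat_lit 18967) (nat_lit 3) [nat_lit 18481, nat_lit 18985, nat_lit 18961, nat_lit 18973, nat_lit 18965, nat_lit 18969] (nat_lit 0) [nat_lit 12407] false,
   Spec.mk (nat_lit 18969) (nat_lit 1) [nat_lit 18483, nat_lit 18987, nat_lit 18975, nat_lit 18967] (nat_lit 0) [nat_lit 12409] false,
   Spec.mk (nat_lit 18973) (nat_lit 1) [nat_lit 18487, nat_lit 18991, nat_lit 18967, nat_lit 18975] (nat_lit 0) [nat_lit 12413] false,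
   Spec.mk (nat_lit 18975) (nat_lit 1) [nat_lit 18489, nat_lit 18993, nat_lit 18969, nat_lit 18973] (nat_lit 0) [nat_lit 12415] false,
   Spec.mk (nat_lit 18983) (nat_lit 3) [nat_lit 18497, nat_lit 19037, nat_lit 18965, nat_lit 18985] (nat_lit 0) [] false,
   Spec.mk (nat_lit 18985) (nat_lit 2) [nat_lit 18499, nat_lit 19039, nat_lit 18967, nat_lit 18991, nat_lit 18983, nat_lit 18987] (nat_lit 0) [nat_lit 12425] false,
   Spec.mk (nat_lit 18987) (nat_lit 0) [nat_lit 18501, nat_lit 19041, nat_lit 18969, nat_lit 18993, nat_lit 18985] (nat_lit 1) [nat_lit 12427] false,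
   Spec.mk (nat_lit 18991) (nat_lit 2) [nat_lit 18505, nat_lit 19045, nat_lit 18973, nat_lit 19009, nat_lit 18985, nat_lit 18993] (nat_lit 0) [nat_lit 12431] false,
   Spec.mk (nat_lit 18993) (nat_lit 1) [nat_lit 18507, nat_lit 19047, nat_lit 18975, nat_lit 19011, nat_lit 18987, nat_lit 18999, nat_lit 18991] (nat_lit 0) [nat_lit 12433] false,
   Spec.mk (nat_lit 18999) (nat_lit 1) [nat_lit 18513, nat_lit 19053, nat_lit 19017, nat_lit 18993] (nat_lit 0) [nat_lit 12439] false,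
   Spec.mk (nat_lit 19009) (nat_lit 1) [nat_lit 18523, nat_lit 19063, nat_lit 18991, nat_lit 19011] (nat_lit 0) [nat_lit 12449] false,
   Spec.mk (nat_lit 19011) (nat_lit 0) [nat_lit 18525, nat_lit 19065, nat_lit 18993, nat_lit 19017, nat_lit 19009] (nat_lit 1) [nat_lit 12451] false,
   Spec.mk (nat_lit 19017) (nat_lit 1) [nat_lit 18531, nat_lit 19071, nat_lit 18999, nat_lit 19011] (nat_lit 0) [nat_lit 12457] false,
   Spec.mk (nat_lit 19037) (nat_lit 3) [nat_lit 18551, nat_lit 19199, nat_lit 18983, nat_lit 19039] (nat_lit 0) [] false,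
   Spec.mk (nat_lit 19039) (nat_lit 2) [nat_lit 18553, nat_lit 19201, nat_lit 18985, nat_lit 19045, nat_lit 19037, nat_lit 19041] (nat_lit 0) [nat_lit 12479] false,
   Spec.mk (nat_lit 19041) (nat_lit 0) [nat_lit 18555, nat_lit 19203, nat_lit 18987, nat_lit 19047, nat_lit 19039] (nat_lit 1) [nat_lit 12481] false,
   Spec.mk (nat_lit 19045) (nat_lit 1) [nat_lit 18559, nat_lit 19207, nat_lit 18991, nat_lit 19063, nat_lit 19039, nat_lit 19047] (nat_lit 0) [nat_lit 12485] false,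
   Spec.mk (nat_lit 19047) (nat_lit 0) [nat_lit 18561, nat_lit 19209, nat_lit 18993, nat_lit 19065, nat_lit 19041, nat_lit 19053, nat_lit 19045] (nat_lit 0) [nat_lit 12487] false,
   Spec.mk (nat_lit 19053) (nat_lit 0) [nat_lit 18567, nat_lit 19215, nat_lit 18999, nat_lit 19071, nat_lit 19047] (nat_lit 1) [nat_lit 12493] false,
   Spec.mk (nat_lit 19063) (nat_lit 2) [nat_lit 18577, nat_lit 19225, nat_lit 19009, nat_lit 19117, nat_lit 19045, nat_lit 19065] (nat_lit 0) [nat_lit 12503] false,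
   Spec.mk (nat_lit 19065) (nat_lit 0) [nat_lit 18579, nat_lit 19227, nat_lit 19011, nat_lit 19119, nat_lit 19047, nat_lit 19071, nat_lit 19063] (nat_lit 0) [nat_lit 12505] false,
   Spec.mk (nat_lit 19071) (nat_lit 1) [nat_lit 18585, nat_lit 19233, nat_lit 19017, nat_lit 19125, nat_lit 19053, nat_lit 19089, nat_lit 19065] (nat_lit 0) [nat_lit 12511] false,
   Spec.mk (nat_lit 19089) (nat_lit 1) [nat_lit 18603, nat_lit 19251, nat_lit 19143, nat_lit 19071] (nat_lit 0) [nat_lit 12529] false,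
   Spec.mk (nat_lit 19117) (nat_lit 1) [nat_lit 18631, nat_lit 19279, nat_lit 19063, nat_lit 19119] (nat_lit 0) [nat_lit 12557] false,
   Spec.mk (nat_lit 19119) (nat_lit 0) [nat_lit 18633, nat_lit 19281, nat_lit 19065, nat_lit 19125, nat_lit 19117] (nat_lit 1) [nat_lit 12559] false,
   Spec.mk (nat_lit 19125) (nat_lit 0) [nat_lit 18639, nat_lit 19287, nat_lit 19071, nat_lit 19143, nat_lit 19119] (nat_lit 1) [nat_lit 12565] false,
   Spec.mk (nat_lit 19143) (nat_lit 1) [nat_lit 18657, nat_lit 19305, nat_lit 19089, nat_lit 19125] (nat_lit 0) [nat_lit 12583] false,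
   Spec.mk (nat_lit 19199) (nat_lit 5) [nat_lit 18713, nat_lit 19037, nat_lit 19201] (nat_lit 0) [] false]

noncomputable def sp52 : List Spec :=
  [Spec.mk (nat_lit 19201) (nat_lit 4) [nat_lit 18715, nat_lit 19039, nat_lit 19207, nat_lit 19199, nat_lit 19203] (nat_lit 0) [nat_lit 12641] false,
   Spec.mk (nat_lit 19203) (nat_lit 1) [nat_lit 18717, nat_lit 19041, nat_lit 19209, nat_lit 19201] (nat_lit 0) [nat_lit 12643] false,
   Spec.mk (nat_lit 19207) (nat_lit 3) [nat_lit 18721, nat_lit 19045, nat_lit 19225, nat_lit 19201, nat_lit 19209] (nat_lit 0) [nat_lit 12647] false,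
   Spec.mk (nat_lit 19209) (nat_lit 2) [nat_lit 18723, nat_lit 19047, nat_lit 19227, nat_lit 19203, nat_lit 19215, nat_lit 19207] (nat_lit 0) [nat_lit 12649] false,
   Spec.mk (nat_lit 19215) (nat_lit 1) [nat_lit 18729, nat_lit 19053, nat_lit 19233, nat_lit 19209] (nat_lit 0) [nat_lit 12655] false,
   Spec.mk (nat_lit 19225) (nat_lit 3) [nat_lit 18739, nat_lit 19063, nat_lit 19279, nat_lit 19207, nat_lit 19227] (nat_lit 0) [nat_lit 12665] false,
   Spec.mk (nat_lit 19227) (nat_lit 1) [nat_lit 18741, nat_lit 19065, nat_lit 19281, nat_lit 19209, nat_lit 19233, nat_lit 19225] (nat_lit 0) [nat_lit 12667] false,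
   Spec.mk (nat_lit 19233) (nat_lit 2) [nat_lit 18747, nat_lit 19071, nat_lit 19287, nat_lit 19215, nat_lit 19251, nat_lit 19227] (nat_lit 0) [nat_lit 12673] false,
   Spec.mk (nat_lit 19251) (nat_lit 1) [nat_lit 18765, nat_lit 19089, nat_lit 19305, nat_lit 19233] (nat_lit 0) [nat_lit 12691] false,
   Spec.mk (nat_lit 19279) (nat_lit 4) [nat_lit 18793, nat_lit 19117, nat_lit 19441, nat_lit 19225, nat_lit 19281] (nat_lit 0) [nat_lit 12719] false,
   Spec.mk (nat_lit 19281) (nat_lit 2) [nat_lit 18795, nat_lit 19119, nat_lit 19443, nat_lit 19227, nat_lit 19287, nat_lit 19279] (nat_lit 0) [nat_lit 12721] false,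
   Spec.mk (nat_lit 19287) (nat_lit 2) [nat_lit 18801, nat_lit 19125, nat_lit 19449, nat_lit 19233, nat_lit 19305, nat_lit 19281] (nat_lit 0) [nat_lit 12727] false,
   Spec.mk (nat_lit 19305) (nat_lit 3) [nat_lit 18819, nat_lit 19143, nat_lit 19467, nat_lit 19251, nat_lit 19359, nat_lit 19287] (nat_lit 0) [nat_lit 12745] false,
   Spec.mk (nat_lit 19359) (nat_lit 3) [nat_lit 18873, nat_lit 19521, nat_lit 19305] (nat_lit 0) [nat_lit 12799] false,
   Spec.mk (nat_lit 19441) (nat_lit 5) [nat_lit 19279, nat_lit 19443] (nat_lit 0) [nat_lit 12881] false,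
   Spec.mk (nat_lit 19443) (nat_lit 3) [nat_lit 19281, nat_lit 19449, nat_lit 19441] (nat_lit 0) [nat_lit 12883] false,
   Spec.mk (nat_lit 19449) (nat_lit 3) [nat_lit 19287, nat_lit 19467, nat_lit 19443] (nat_lit 0) [nat_lit 12889] false,
   Spec.mk (nat_lit 19467) (nat_lit 3) [nat_lit 19305, nat_lit 19521, nat_lit 19449] (nat_lit 0) [nat_lit 12907] false,
   Spec.mk (nat_lit 19521) (nat_lit 5) [nat_lit 19359, nat_lit 19467] (nat_lit 0) [nat_lit 12961] false]

noncomputable def specs : List (List Spec) :=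
    sp0 :: sp1 :: sp2 :: sp3 :: sp4 :: sp5 :: sp6 :: sp7 :: sp8 :: sp9 :: sp10 :: sp11 :: sp12 ::
    sp13 :: sp14 :: sp15 :: sp16 :: sp17 :: sp18 :: sp19 :: sp20 :: sp21 :: sp22 :: sp23 :: sp24 ::
    sp25 :: sp26 :: sp27 :: sp28 :: sp29 :: sp30 :: sp31 :: sp32 :: sp33 :: sp34 :: sp35 :: sp36 ::
    sp37 :: sp38 :: sp39 :: sp40 :: sp41 :: sp42 :: sp43 :: sp44 :: sp45 :: sp46 :: sp47 :: sp48 ::
    sp49 :: sp50 :: sp51 :: sp52 :: []

noncomputable def step (e : Nat → Nat) (C ap an : Nat) (k :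
    Nat → Nat → Nat → Nat → Nat → Nat → Nat → Nat → Nat → Nat → Nat → Nat → Nat → Nat → Nat → Nat →
    Nat → Nat → Nat → Nat → Nat → Nat → Nat → Nat → Nat → Nat → Nat → Nat → Nat → Nat → Nat → Nat →
    Nat → Nat → Nat → Nat → Nat → Nat → Nat → Nat → Nat → Nat → Nat → Nat → Nat → Nat → Nat → Nat →
    Nat → Nat → Nat → Nat → Nat → Nat → Nat → Nat → Nat → Nat → Nat → Nat → Nat → Nat → Nat → Nat →
    Nat → Nat → Nat → Nat → Nat → Nat → Nat → Nat → Nat → Nat → Nat → Nat → Nat → Nat → Nat → Nat →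
    Nat → Nat → Nat → Nat → Nat → Nat → Nat → Nat → Nat → Nat → Nat → Nat → Nat → Nat → Nat → Nat →
    Nat → Nat → Nat → Nat → Nat → Nat → Nat → Nat → Nat → Nat → Nat → Nat → Nat → Nat → Nat → Nat →
    Nat → Nat → Nat → Nat → Nat → Nat → Nat → Nat → Nat → Nat → Nat → Nat → Nat → Nat → Nat → Nat →
    Nat → Nat → Nat → Nat → Nat → Nat → Nat → Nat → Nat → Nat → Nat → Nat → Nat → Nat → Nat → Nat →
    Nat → Nat → Nat → Nat → Nat → Nat → Nat → Nat → Nat → Nat → Nat → Nat → Nat → Nat → Nat → Nat →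
    Nat → Nat → Nat → Nat → Nat → Nat → Nat → Nat → Nat → Nat → Nat → Nat → Nat → Nat → Nat → Nat →
    Nat → Nat → Nat → Nat → Nat → Nat → Nat → Nat → Nat → Nat → Nat → Nat → Nat → Nat → Nat → Nat →
    Nat → Nat → Nat → Nat → Nat → Nat → Nat → Nat → Nat → Nat → Nat → Nat → Nat → Nat → Nat → Nat →
    Nat → Nat → Nat → Nat → Nat → Nat → Nat → Nat → Nat → Nat → Nat → Nat → Nat → Nat → Nat → Nat →
    Nat → Nat → Nat → Nat → Nat → Nat → Nat → Nat → Nat → Nat → Nat → Nat → Nat → Nat → Nat → Nat →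
    Nat → Nat → Nat → Nat → Nat → Nat → Nat → Nat → Nat → Nat → Nat → Nat → Nat → Nat → Nat → Nat →
    Nat → Nat → Nat → Nat → Nat → Nat → Nat → Nat → Nat → Nat → Nat → Nat → Nat → Nat → Nat → Nat →
    Nat → Nat → Nat → Nat → Nat → Nat → Nat → Nat → Nat → Nat → Nat → Nat → Nat → Nat → Nat → Nat →
    Nat → Nat → Nat → Nat → Nat → Nat → Nat → Nat → Nat → Nat → Nat → Nat → Nat → Nat → Nat → Nat →
    Nat → Nat → Nat → Nat → Nat → Nat → Nat → Nat → Nat → Nat → Nat → Nat → Nat → Nat → Nat → Nat →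
    Nat → Nat → Nat → Nat → Nat → Nat → Nat → Nat → Nat → Nat → Nat → Nat → Nat → Nat → Nat → Nat →
    Nat → Nat → Nat → Nat → Nat → Nat → Nat → Nat → Nat → Nat → Nat → Nat → Nat → Nat → Nat → Nat →
    Nat → Nat → Nat → Nat → Nat → Nat → Nat → Nat → Nat → Nat → Nat → Nat → Nat → Nat → Nat → Nat →
    Nat → Nat → Nat → Nat → Nat → Nat → Nat → Nat → Nat → Nat → Nat → Nat → Nat → Nat → Nat → Nat →
    Nat → Nat → Nat → Nat → Nat → Nat → Nat → Nat → Nat → Nat → Nat → Nat → Nat → Nat → Nat → Nat →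
    Nat → Nat → Nat → Nat → Nat → Nat → Nat → Nat → Nat → Nat → Nat → Nat → Nat → Nat → Nat → Nat →
    Nat → Nat → Nat → Nat → Nat → Nat → Nat → Nat → Nat → Nat → Nat → Nat → Nat → Nat → Nat → Nat →
    Nat → Nat → Nat → Nat → Nat → Nat → Nat → Nat → Nat → Nat → Nat → Nat → Nat → Nat → Nat → Nat →
    Nat → Nat → Nat → Nat → Nat → Nat → Nat → Nat → Nat → Nat → Nat → Nat → Nat → Nat → Nat → Nat →
    Nat → Nat → Nat → Nat → Nat → Nat → Nat → Nat → Nat → Nat → Nat → Nat → Nat → Nat → Nat → Nat →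
    Nat → Nat → Nat → Nat → Nat → Nat → Nat → Nat → Nat → Nat → Nat → Nat → Nat → Nat → Nat → Nat →
    Nat → Nat → Nat → Nat → Nat → Nat → Nat → Nat → Nat → Nat → Nat → Nat → Nat → Nat → Nat → Nat →
    Nat → Nat → Nat → Nat → Nat → Nat → Nat → Nat → Nat → Nat → Nat → Nat → Nat → Nat → Nat → Nat →
    Nat → Nat → Nat → Nat → Nat → Nat → Nat → Nat → Nat → Nat → Nat → Nat → Nat → Nat → Nat → Nat →
    Nat → Nat → Nat → Nat → Nat → Nat → Nat → Nat → Nat → Nat → Nat → Nat → Nat → Nat → Nat → Nat →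
    Nat → Nat → Nat → Nat → Nat → Nat → Nat → Nat → Nat → Nat → Nat → Nat → Nat → Nat → Nat → Nat →
    Nat → Nat → Nat → Nat → Nat → Nat → Nat → Nat → Nat → Nat → Nat → Nat → Nat → Nat → Nat → Nat →
    Nat → Nat → Nat → Nat → Nat → Nat → Nat → Nat → Nat → Nat → Nat → Nat → Nat → Nat → Nat → Nat →
    Nat → Nat → Nat → Nat → Nat → Nat → Nat → Nat → Nat → Nat → Nat → Nat → Nat → Nat → Nat → Nat →
    Nat → Nat → Nat → Nat → Nat → Nat → Nat → Nat → Nat → Nat → Nat → Nat → Nat → Nat → Nat → Nat →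
    Nat → Nat → Nat → Nat → Nat → Nat → Nat → Nat → Nat → Nat → Nat → Nat → Nat → Nat → Nat → Nat →
    Nat → Nat → Nat → Nat → Nat → Nat → Nat → Nat → Nat → Nat → Nat → Nat → Nat → Nat → Nat → Nat →
    Nat → Nat → Nat → Nat → Nat → Nat → Nat → Nat → Nat → Nat → Nat → Nat → Nat → Nat → Nat → Nat →
    Nat → Nat → Nat → Nat → Nat → Nat → Nat → Nat → Nat → Nat → Nat → Nat → Nat → Nat → Nat → Nat →
    Nat → Nat → Nat → Nat → Nat → Nat → Nat → Nat → Nat → Nat → Nat → Nat → Nat → Nat → Nat → Nat →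
    Nat → Nat → Nat → Nat → Nat → Nat → Nat → Nat → Nat → Nat → Nat → Nat → Nat → Nat → Nat → Nat →
    Nat → Nat → Nat → Nat → Nat → Nat → Nat → Nat → Nat → Nat → Nat → Nat → Nat → Nat → Nat → Nat →
    Nat → Nat → Nat → Nat → Nat → Nat → Nat → Nat → Nat → Nat → Nat → Nat → Nat → Nat → Nat → Nat →
    Nat → Nat → Nat → Nat → Nat → Nat → Nat → Nat → Nat → Nat → Nat → Nat → Nat → Nat → Nat → Nat →
    Nat → Nat → Nat → Nat → Nat → Nat → Nat → Nat → Nat → Nat → Nat → Nat → Nat → Nat → Nat → Nat →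
    Nat → Nat → Nat → Nat → Nat → Nat → Nat → Nat → Nat → Nat → Nat → Nat → Nat → Nat → Nat → Nat →
    Nat → Nat → Nat → Nat → Nat → Nat → Nat → Nat → Nat → Nat → Nat → Nat → Nat → Nat → Nat → Nat →
    Nat → Nat → Nat → Nat → Nat → Nat → Nat → Nat → Nat → Nat → Nat → Nat → Nat → Nat → Nat → Nat →
    Nat → Nat → Nat → Nat → Nat → Nat → Nat → Nat → Nat → Nat → Nat → Nat → Nat → Nat → Nat → Nat →
    Nat → Nat → Nat → Nat → Nat → Nat → Nat → Nat → Nat → Nat → Nat → Nat → Nat → Nat → Nat → Nat →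
    Nat → Nat → Nat → Nat → Nat → Nat → Nat → Nat → Nat → Nat → Nat → Nat → Nat → Nat → Nat → Nat →
    Nat → Nat → Nat → Nat → Nat → Nat → Nat → Nat → Nat → Nat → Nat → Nat → Nat → Nat → Nat → Nat →
    Nat → Nat → Nat → Nat → Nat → Nat → Nat → Nat → Nat → Nat → Nat → Nat → Nat → Nat → Nat → Nat →
    Nat → Nat → Nat → Nat → Nat → Nat → Nat → Nat → Nat → Nat → Nat → Nat → Nat → Nat → Nat → Nat →
    Nat → Nat → Nat → Nat → Nat → Nat → Nat → Nat → Nat → Nat → Nat → Nat → Nat → Nat → Nat → Nat →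
    Nat → Nat → Nat → Nat → Nat → Nat → Nat → Nat → Nat → Nat → Nat → Nat → Nat → Nat → Nat → Nat →
    Nat → Nat → Nat → Nat → Nat → Nat → Nat → Nat → Nat → Nat → Nat → Nat → Nat → Nat → Nat → Nat →
    Nat → Nat → Nat → Nat → Nat → Nat → Nat → Nat → Nat → Nat → Nat → Nat → Nat → Nat → Nat → Nat →
    Nat → Nat → Nat → Nat → Nat → Nat → Nat → Nat → Nat → Nat → Nat → Nat → Nat → Nat → Nat → Nat →
    Nat → Nat → Nat → Nat → Nat → Nat → Nat → Nat → Nat → Nat → Nat → Nat → Nat → Nat → Nat → Nat →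
    Nat → Nat → Nat → Nat → Nat → Nat → Nat → Nat → Nat → Nat → Nat → Nat → Nat → Nat → Nat → Nat →
    Nat → Nat → Nat → Nat → Nat → Nat → Nat → Nat → Nat → Nat → Nat → Nat → Nat → Nat → Nat → Nat →
    Nat → Nat → Nat → Nat → Nat → Nat → Nat → Nat → Nat → Nat → Nat → Nat → Nat → Nat → Nat → Nat →
    Nat → Nat → Nat → Nat → Nat → Nat → Nat → Nat → Nat → Nat → Nat → Nat → Nat → Nat → Nat → Nat →
    Nat → Nat → Nat → Nat → Nat → Nat → Nat → Nat → Nat → Nat → Nat → Nat → Nat → Nat → Nat → Nat →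
    Nat → Nat → Nat → Nat → Nat → Nat → Nat → Nat → Nat → Nat → Nat → Nat → Nat → Nat → Nat → Nat →
    Nat → Nat → Nat → Nat → Nat → Nat → Nat → Nat → Nat → Nat → Nat → Nat → Nat → Nat → Nat → Nat →
    Nat → Nat → Nat → Nat → Nat → Nat → Nat → Nat → Nat → Nat → Nat → Nat → Nat → Nat → Nat → Nat →
    Nat → Nat → Nat → Nat → Nat → Nat → Nat → Nat → Nat → Nat → Nat → Nat → Nat → Nat → Nat → Nat →
    Nat → Nat → Nat → Nat → Nat → Nat → Nat → Nat → Nat → Nat → Nat → Nat → Nat → Nat → Nat → Nat →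
    Nat → Nat → Nat → Nat → Nat → Nat → Nat → Nat → Nat → Nat → Nat → Nat → Nat → Nat → Nat → Nat →
    Nat → Nat → Nat → Nat → Nat → Nat → Nat → Nat → Nat → Nat → Nat → Nat → Nat → Nat → Nat → Nat →
    Nat → Nat → Nat → Nat → Nat → Nat → Nat → Nat → Nat → Nat → Nat → Nat → Nat → Nat → Nat → Nat →
    Nat → Nat → Nat → Nat → Nat → Nat → Nat → Nat → Nat → Nat → Nat → Nat → Nat → Nat → Nat → Nat →
    Nat → Nat → Nat → Nat → Nat → Nat → Nat → Nat → Nat → Nat → Nat → Nat → Nat → Nat → Nat → Nat →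
    Nat → Nat → Nat → Nat → Nat → Nat → Nat → Nat → Nat → Nat → Nat → Nat → Nat → Nat → Nat → Nat →
    Nat → Nat → Nat → Nat → Nat → Nat → Nat → Nat → Nat → Nat → Nat → Nat → Nat → Nat → Nat → Nat →
    Nat → Nat → Nat → Nat → Nat → Nat → Nat → Nat → Nat → Nat → Nat → Nat → Nat → Nat → Nat → Nat →
    Nat → Nat → Nat → Nat → Nat → Nat → Nat → Nat → Nat → Nat → Nat → Nat → Nat → Nat → Nat → Nat →
    Nat → Nat → Nat → Nat → Nat → Nat → Nat → Nat → Nat → Nat → Nat → Nat → Nat → Nat → Nat → Nat →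
    Nat → Nat → Nat → Nat → Nat → Nat → Nat → Nat → Nat → Nat → Nat → Nat → Nat → Nat → Nat → Nat →
    Nat → Nat → Nat → Nat → Nat → Nat → Nat → Nat → Nat → Nat → Nat → Nat → Nat → Nat → Nat → Nat →
    Nat → Nat → Nat → Nat → Nat → Nat → Nat → Nat → Nat → Nat → Nat → Nat → Nat → Nat → Nat → Nat →
    Nat → Nat → Nat → Nat → Nat → Nat → Nat → Nat → Nat → Nat → Nat → Nat → Nat → Nat → Nat → Nat →
    Nat → Nat → Nat → Nat → Nat → Nat → Nat → Nat → Nat → Nat → Nat → Nat → Nat → Nat → Nat → Nat →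
    Nat → Nat → Nat → Nat → Nat → Nat → Nat → Nat → Nat → Nat → Nat → Nat → Nat → Nat → Nat → Nat →
    Nat → Nat → Nat → Nat → Nat → Nat → Nat → Nat → Nat → Nat → Nat → Nat → Nat → Nat → Nat → Nat →
    Nat → Nat → Nat → Nat → Nat → Nat → Nat → Nat → Nat → Nat → Nat → Nat → Nat → Nat → Nat → Nat →
    Nat → Nat → Nat → Nat → Nat → Nat → Nat → Nat → Nat → Nat → Nat → Nat → Nat → Nat → Nat → Nat →
    Nat → Nat → Nat → Nat → Nat → Nat → Nat → Nat → Nat → Nat → Nat → Nat → Nat → Nat → Nat → Nat →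
    Nat → Nat → Nat → Nat → Nat → Nat → Nat → Nat → Nat → Nat → Nat → Nat → Nat → Nat → Nat → Nat →
    Nat → Nat → Nat → Nat → Nat → Nat → Nat → Nat → Nat → Nat → Nat → Nat → Nat → Nat → Nat → Nat →
    Nat → Nat → Nat → Nat → Nat → Nat → Nat → Nat → Nat → Nat → Nat → Nat → Nat → Nat → Nat → Nat →
    Nat → Nat → Nat → Nat → Nat → Nat → Nat → Nat → Nat → Nat → Nat → Nat → Nat → Nat → Nat → Nat →
    Nat → Nat → Nat → Nat → Nat → Nat → Nat → Nat → Nat → Nat → Nat → Nat → Nat → Nat → Nat → Nat →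
    Nat → Nat → Nat → Nat → Nat → Nat → Nat → Nat → Nat → Nat → Nat → Nat → Nat → Nat → Nat → Nat →
    Nat → Nat → Nat → Nat → Nat → Nat → Nat → Nat → Nat → Nat → Nat → Nat → Nat → Nat → Nat → Nat →
    Nat → Nat → Nat → Nat → Nat → Nat → Nat → Nat → Nat → Nat → Nat → Nat → Nat → Nat → Nat → Nat →
    Nat → Nat → Nat → Nat → Nat → Nat → Nat → Nat → Nat → Nat → Nat → Nat → Nat → Nat → Nat → Nat →
    Nat → Nat → Nat → Nat → Nat → Nat → Nat → Nat → Nat → Nat → Nat → Nat → Nat → Nat → Nat → Nat →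
    Nat → Nat → Nat → Nat → Nat → Nat → Nat → Nat → Nat → Nat → Nat → Nat → Nat → Nat → Nat → Nat →
    Nat → Nat → Nat → Nat → Nat → Nat → Nat → Nat → Nat → Nat → Nat → Nat → Nat → Nat → Nat → Nat →
    Nat → Nat → Nat → Nat → Nat → Nat → Nat → Nat → Nat → Nat → Nat → Nat → Nat → Nat → Nat → Nat →
    Nat → Nat → Nat → Nat → Nat → Nat → Nat → Nat → Nat → Nat → Nat → Nat → Nat → Nat → Nat → Nat →
    Nat → Nat → Nat → Nat → Nat → Nat → Nat → Nat → Nat → Nat → Nat → Nat → Nat → Nat → Nat → Nat →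
    Nat → Nat → Nat → Nat → Nat → Nat → Nat → Nat → Nat → Nat → Nat → Nat → Nat → Nat → Nat → Nat →
    Nat → Nat → Nat → Nat → Nat → Nat → Nat → Nat → Nat → Nat → Nat → Nat → Nat → Nat → Nat → Nat →
    Nat → Nat → Nat → Nat → Nat → Nat → Nat → Nat → Nat → Nat → Nat → Nat → Nat → Nat → Nat → Nat →
    Nat → Nat → Nat → Nat → Nat → Nat → Nat → Nat → Nat → Nat → Nat → Nat → Nat → Nat → Nat → Nat →
    Nat → Nat → Nat → Nat → Nat → Nat → Nat → Nat → Nat → Nat → Nat → Nat → Nat → Nat → Nat → Nat →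
    Nat → Nat → Nat → Nat → Nat → Nat → Nat → Nat → Nat → Nat → Nat → Nat → Nat → Nat → Nat → Nat →
    Nat → Nat → Nat → Nat → Nat → Nat → Nat → Nat → Nat → Nat → Nat → Nat → Nat → Nat → Nat → Nat →
    Nat → Nat → Nat → Nat → Nat → Nat → Nat → Nat → Nat → Nat → Nat → Nat → Nat → Nat → Nat → Nat →
    Nat → Nat → Nat → Nat → Nat → Nat → Nat → Nat → Nat → Nat → Nat → Nat → Nat → Nat → Nat → Nat →
    Nat → Nat → Nat → Nat → Nat → Nat → Nat → Nat → Nat → Nat → Nat → Nat → Nat → Nat → Nat → Nat →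
    Nat → Nat → Nat → Nat → Nat → Nat → Nat → Nat → Nat → Nat → Nat → Nat → Nat → Nat → Nat → Nat →
    Nat → Nat → Nat → Nat → Nat → Nat → Nat → Nat → Nat → Nat → Nat → Nat → Nat → Nat → Nat → Nat →
    Nat → Nat → Nat → Nat → Nat → Nat → Nat → Nat → Nat → Nat → Nat → Nat → Nat → Nat → Nat → Nat →
    Nat → Nat → Nat → Nat → Nat → Nat → Nat → Nat → Nat → Nat → Nat → Nat → Nat → Nat → Nat → Nat →
    Nat → Nat → Nat → Nat → Nat → Nat → Nat → Nat → Nat → Nat → Nat → Nat → Nat → Nat → Nat → Nat →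
    Nat → Nat → Nat → Nat → Nat → Nat → Nat → Nat → Nat → Nat → Nat → Nat → Nat → Nat → Nat → Nat →
    Nat → Nat → Nat → Nat → Nat → Nat → Nat → Nat → Nat → Nat → Nat → Nat → Nat → Nat → Nat → Nat →
    Nat → Nat → Nat → Nat → Nat → Nat → Nat → Nat → Nat → Nat → Nat → Nat → Nat → Nat → Nat → Nat →
    Nat → Nat → Nat → Nat → Nat → Nat → Nat → Nat → Nat → Nat → Nat → Nat → Nat → Nat → Nat → Nat →
    Nat → Nat → Nat → Nat → Nat → Nat → Nat → Nat → Nat → Nat → Nat → Nat → Nat → Nat → Nat → Nat →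
    Nat → Nat → Nat → Nat → Nat → Nat → Nat → Nat → Nat → Nat → Nat → Nat → Nat → Nat → Nat → Nat →
    Nat → Nat → Nat → Nat → Nat → Nat → Nat → Nat → Nat → Nat → Nat → Nat → Nat → Nat → Nat → Nat →
    Nat → Nat → Nat → Nat → Nat → Nat → Nat → Nat → Nat → Nat → Nat → Nat → Nat → Nat → Nat → Nat →
    Nat → Nat → Nat → Nat → Nat → Nat → Nat → Nat → Nat → Nat → Nat → Nat → Nat → Nat → Nat → Nat →
    Nat → Nat → Nat → Nat → Nat → Nat → Nat → Nat → Nat → Nat → Nat → Nat → Nat → Nat → Nat → Nat →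
    Nat → Nat → Nat → Nat → Nat → Nat → Nat → Nat → Nat → Nat → Nat → Nat → Nat → Nat → Nat → Nat →
    Nat → Nat → Nat → Nat → Nat → Nat → Nat → Nat → Nat → Nat → Nat → Nat → Nat → Nat → Nat → Nat →
    Nat → Nat → Nat → Nat → Nat → Nat → Nat → Nat → Nat → Nat → Nat → Nat → Nat → Nat → Nat → Nat →
    Nat → Nat → Nat → Nat → Nat → Nat → Nat → Nat → Nat → Nat → Nat → Nat → Nat → Nat → Nat → Nat →
    Nat → Nat → Nat → Nat → Nat → Nat → Nat → Nat → Nat → Nat → Nat → Nat → Nat → Nat → Nat → Nat →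
    Nat → Nat → Nat → Nat → Nat → Nat → Nat → Nat → Nat → Nat → Nat → Nat → Nat → Nat → Nat → Nat →
    Nat → Nat → Nat → Nat → Nat → Nat → Nat → Nat → Nat → Nat → Nat → Nat → Nat → Nat → Nat → Nat →
    Nat → Nat → Nat → Nat → Nat → Nat → Nat → Nat → Nat → Nat → Nat → Nat → Nat → Nat → Nat → Nat →
    Nat → Nat → Nat → Nat → Nat → Nat → Nat → Nat → Nat → Nat → Nat → Nat → Nat → Nat → Nat → Nat →
    Nat → Nat → Nat → Nat → Nat → Nat → Nat → Nat → Nat → Nat → Nat → Nat → Nat → Nat → Nat → Nat →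
    Nat → Nat → Nat → Nat → Nat → Nat → Nat → Nat → Nat → Nat → Nat → Nat → Nat → Nat → Nat → Nat →
    Nat → Nat → Nat → Nat → Nat → Nat → Nat → Nat → Nat → Nat → Nat → Nat → Nat → Nat → Nat → Nat →
    Nat → Nat → Nat → Nat → Nat → Nat → Nat → Nat → Nat → Nat → Nat → Nat → Nat → Nat → Nat → Nat →
    Nat → Nat → Nat → Nat → Nat → Nat → Nat → Nat → Nat → Nat → Nat → Nat → Nat → Nat → Nat → Nat →
    Nat → Nat → Nat → Nat → Nat → Nat → Nat → Nat → Nat → Nat → Nat → Nat → Nat → Nat → Nat → Nat →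
    Nat → Nat → Nat → Nat → Nat → Nat → Nat → Nat → Nat → Nat → Nat → Nat → Nat → Nat → Nat → Nat →
    Nat → Nat → Nat → Nat → Nat → Nat → Nat → Nat → Nat → Nat → Nat → Nat → Nat → Nat → Nat → Nat →
    Nat → Nat → Nat → Nat → Nat → Nat → Nat → Nat → Nat → Nat → Nat → Nat → Nat → Nat → Nat → Nat →
    Nat → Nat → Nat → Nat → Nat → Nat → Nat → Nat → Nat → Nat → Nat → Nat → Nat → Nat → Nat → Nat →
    Nat → Nat → Nat → Nat → Nat → Nat → Nat → Nat → Nat → Nat → Nat → Nat → Nat → Nat → Nat → Nat →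
    Nat → Nat → Nat → Nat → Nat → Nat → Nat → Nat → Nat → Nat → Nat → Nat → Nat → Nat → Nat → Nat →
    Nat → Nat → Nat → Nat → Nat → Nat → Nat → Nat → Nat → Nat → Nat → Nat → Nat → Nat → Nat → Nat →
    Nat → Nat → Nat → Nat → Nat → Nat → Nat → Nat → Nat → Nat → Nat → Nat → Nat → Nat → Nat → Nat →
    Nat → Nat → Nat → Nat → Nat → Nat → Nat → Nat → Nat → Nat → Nat → Nat → Nat → Nat → Nat → Nat →
    Nat → Nat → Nat → Nat → Nat → Nat → Nat → Nat → Nat → Nat → Nat → Nat → Nat → Nat → Nat → Nat →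
    Nat → Nat → Nat → Nat → Nat → Nat → Nat → Nat → Nat → Nat → Nat → Nat → Nat → Nat → Nat → Nat →
    Nat → Nat → Nat → Nat → Nat → Nat → Nat → Nat → Nat → Nat → Nat → Nat → Nat → Nat → Nat → Nat →
    Nat → Nat → Nat → Nat → Nat → Nat → Nat → Nat → Nat → Nat → Nat → Nat → Nat → Nat → Nat → Nat →
    Nat → Nat → Nat → Nat → Nat → Nat → Nat → Nat → Nat → Nat → Nat → Nat → Nat → Nat → Nat → Nat →
    Nat → Nat → Nat → Nat → Nat → Nat → Nat → Nat → Nat → Nat → Nat → Nat → Nat → Nat → Nat → Nat →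
    Nat → Nat → Nat → Nat → Nat → Nat → Nat → Nat → Nat → Nat → Nat → Nat → Nat → Nat → Nat → Nat →
    Nat → Nat → Nat → Nat → Nat → Nat → Nat → Nat → Nat → Nat → Nat → Nat → Nat → Nat → Nat → Nat →
    Nat → Nat → Nat → Nat → Nat → Nat → Nat → Nat → Nat → Nat → Nat → Nat → Nat → Nat → Nat → Nat →
    Nat → Nat → Nat → Nat → Nat → Nat → Nat → Nat → Nat → Nat → Nat → Nat → Nat → Nat → Nat → Nat →
    Nat → Nat → Nat → Nat → Nat → Nat → Nat → Nat → Nat → Nat → Nat → Nat → Nat → Nat → Nat → Nat →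
    Nat → Nat → Nat → Nat → Nat → Nat → Nat → Nat → Nat → Nat → Nat → Nat → Nat → Nat → Nat → Nat →
    Nat → Nat → Nat → Nat → Nat → Nat → Nat → Nat → Nat → Nat → Nat → Nat → Nat → Nat → Nat → Nat →
    Nat → Nat → Nat → Nat → Nat → Nat → Nat → Nat → Nat → Nat → Nat → Nat → Nat → Nat → Nat → Nat →
    Nat → Nat → Nat → Nat → Nat → Nat → Nat → Nat → Nat → Nat → Nat → Nat → Nat → Nat → Nat → Nat →
    Nat → Nat → Nat → Nat → Nat → Nat → Nat → Nat → Nat → Nat → Nat → Nat → Nat → Nat → Nat → Nat →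
    Nat → Nat → Nat → Nat → Nat → Nat → Nat → Nat → Nat → Nat → Nat → Nat → Nat → Nat → Nat → Nat →
    Nat → Nat → Nat → Nat → Nat → Nat → Nat → Nat → Nat → Nat → Nat → Nat → Nat → Nat → Nat → Nat →
    Nat → Nat → Nat → Nat → Nat → Nat → Nat → Nat → Nat → Nat → Nat → Nat → Nat → Nat → Nat → Nat →
    Nat → Nat → Nat → Nat → Nat → Nat → Nat → Nat → Nat → Nat → Nat → Nat → Nat → Nat → Nat → Nat →
    Nat → Nat → Nat → Nat → Nat → Nat → Nat → Nat → Nat → Nat → Nat → Nat → Nat → Nat → Nat → Nat →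
    Nat → Nat → Nat → Nat → Nat → Nat → Nat → Nat → Nat → Nat → Nat → Nat → Nat → Nat → Nat → Nat →
    Nat → Nat → Nat → Nat → Nat → Nat → Nat → Nat → Nat → Nat → Nat → Nat → Nat → Nat → Nat → Nat →
    Nat → Nat → Nat → Nat → Nat → Nat → Nat → Nat → Nat → Nat → Nat → Nat → Nat → Nat → Nat → Nat →
    Nat → Nat → Nat → Nat → Nat → Nat → Nat → Nat → Nat → Nat → Nat → Nat → Nat → Nat → Nat → Nat →
    Nat → Nat → Nat → Nat → Nat → Nat → Nat → Nat → Nat → Nat → Nat → Nat → Nat → Nat → Nat → Nat →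
    Nat → Nat → Nat → Nat → Nat → Nat → Nat → Nat → Nat → Nat → Nat → Nat → Nat → Nat → Nat → Nat →
    Nat → Nat → Nat → Nat → Nat → Nat → Nat → Nat → Nat → Nat → Nat → Nat → Nat → Nat → Nat → Nat →
    Nat → Nat → Nat → Nat → Nat → Nat → Nat → Nat → Nat → Nat → Nat → Nat → Nat → Nat → Nat → Nat →
    Nat → Nat → Nat → Nat → Nat → Nat → Nat → Nat → Nat → Nat → Nat → Nat → Nat → Nat → Nat → Nat →
    Nat → Nat → Nat → Nat → Nat → Nat → Nat → Nat → Nat → Nat → Nat → Nat → Nat → Nat → Nat → Nat →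
    Nat → Nat → Nat → Nat → Nat → Nat → Nat → Nat → Nat → Nat → Nat → Nat → Nat → Nat → Nat → Nat →
    Nat → Nat → Nat → Nat → Nat → Nat → Nat → Nat → Nat → Nat → Nat → Nat → Nat → Nat → Nat → Nat →
    Nat → Nat → Nat → Nat → Nat → Nat → Nat → Nat → Nat → Nat → Nat → Nat → Nat → Nat → Nat → Nat →
    Nat → Nat → Nat → Nat → Nat → Nat → Nat → Nat → Nat → Nat → Nat → Nat → Nat → Nat → Nat → Nat →
    Nat → Nat → Nat → Nat → Nat → Nat → Nat → Nat → Nat → Nat → Nat → Nat → Nat → Nat → Nat → Nat →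
    Nat → Nat → Nat → Nat → Nat → Nat → Nat → Nat → Nat → Nat → Nat → Nat → Nat → Nat → Nat → Nat →
    Nat → Nat → Nat → Bool)
  (
    x161 x215 x233 x239 x241 x323 x377 x395 x401 x403 x431 x449 x455 x457 x467 x473 x475 x479 x481
    x483 x539 x557 x563 x565 x593 x611 x617 x619 x629 x635 x637 x641 x643 x645 x665 x671 x673 x683
    x689 x691 x695 x697 x699 x707 x709 x713 x715 x717 x721 x723 x809 x863 x881 x887 x889 x917 x935
    x941 x943 x953 x959 x961 x965 x967 x969 x1025 x1043 x1049 x1051 x1079 x1097 x1103 x1105 x1115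
    x1121 x1123 x1127 x1129 x1131 x1151 x1157 x1159 x1169 x1175 x1177 x1181 x1183 x1185 x1193 x1195
    x1199 x1201 x1203 x1207 x1209 x1241 x1259 x1265 x1267 x1277 x1283 x1285 x1289 x1291 x1293 x1313
    x1319 x1321 x1331 x1337 x1339 x1343 x1345 x1347 x1355 x1357 x1361 x1363 x1365 x1369 x1371 x1385
    x1391 x1393 x1397 x1399 x1401 x1409 x1411 x1415 x1417 x1419 x1423 x1425 x1433 x1435 x1437 x1441
    x1443 x1449 x1511 x1529 x1535 x1537 x1565 x1583 x1589 x1591 x1601 x1607 x1609 x1613 x1615 x1617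
    x1637 x1643 x1645 x1655 x1661 x1663 x1667 x1669 x1671 x1679 x1681 x1685 x1687 x1689 x1693 x1695
    x1727 x1745 x1751 x1753 x1763 x1769 x1771 x1775 x1777 x1779 x1799 x1805 x1807 x1817 x1823 x1825
    x1829 x1831 x1833 x1841 x1843 x1847 x1849 x1851 x1855 x1857 x1871 x1877 x1879 x1883 x1885 x1887
    x1895 x1897 x1901 x1903 x1905 x1909 x1911 x1919 x1921 x1923 x1927 x1929 x1935 x1961 x1967 x1969
    x1979 x1985 x1987 x1991 x1993 x1995 x2003 x2005 x2009 x2011 x2013 x2017 x2019 x2033 x2039 x2041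
    x2045 x2047 x2049 x2057 x2059 x2063 x2065 x2067 x2071 x2073 x2081 x2083 x2085 x2089 x2091 x2097
    x2111 x2113 x2117 x2119 x2121 x2125 x2127 x2135 x2137 x2139 x2143 x2145 x2151 x2161 x2163 x2169
    x2267 x2321 x2339 x2345 x2347 x2375 x2393 x2399 x2401 x2411 x2417 x2419 x2423 x2425 x2427 x2483
    x2501 x2507 x2509 x2537 x2555 x2561 x2563 x2573 x2579 x2581 x2585 x2587 x2589 x2609 x2615 x2617
    x2627 x2633 x2635 x2639 x2641 x2643 x2651 x2653 x2657 x2659 x2661 x2665 x2667 x2699 x2717 x2723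
    x2725 x2735 x2741 x2743 x2747 x2749 x2751 x2771 x2777 x2779 x2789 x2795 x2797 x2801 x2803 x2805
    x2813 x2815 x2819 x2821 x2823 x2827 x2829 x2843 x2849 x2851 x2855 x2857 x2859 x2867 x2869 x2873
    x2875 x2877 x2881 x2883 x2891 x2893 x2895 x2899 x2901 x2907 x2969 x2987 x2993 x2995 x3023 x3041
    x3047 x3049 x3059 x3065 x3067 x3071 x3073 x3075 x3095 x3101 x3103 x3113 x3119 x3121 x3125 x3127
    x3129 x3137 x3139 x3143 x3145 x3147 x3151 x3153 x3185 x3203 x3209 x3211 x3221 x3227 x3229 x3233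
    x3235 x3237 x3257 x3263 x3265 x3275 x3281 x3283 x3287 x3289 x3291 x3299 x3301 x3305 x3307 x3309
    x3313 x3315 x3329 x3335 x3337 x3341 x3343 x3345 x3353 x3355 x3359 x3361 x3363 x3367 x3369 x3377
    x3379 x3381 x3385 x3387 x3393 x3419 x3425 x3427 x3437 x3443 x3445 x3449 x3451 x3453 x3461 x3463
    x3467 x3469 x3471 x3475 x3477 x3491 x3497 x3499 x3503 x3505 x3507 x3515 x3517 x3521 x3523 x3525
    x3529 x3531 x3539 x3541 x3543 x3547 x3549 x3555 x3569 x3571 x3575 x3577 x3579 x3583 x3585 x3593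
    x3595 x3597 x3601 x3603 x3609 x3619 x3621 x3627 x3671 x3689 x3695 x3697 x3707 x3713 x3715 x3719
    x3721 x3723 x3743 x3749 x3751 x3761 x3767 x3769 x3773 x3775 x3777 x3785 x3787 x3791 x3793 x3795
    x3799 x3801 x3815 x3821 x3823 x3827 x3829 x3831 x3839 x3841 x3845 x3847 x3849 x3853 x3855 x3863
    x3865 x3867 x3871 x3873 x3879 x3905 x3911 x3913 x3923 x3929 x3931 x3935 x3937 x3939 x3947 x3949
    x3953 x3955 x3957 x3961 x3963 x3977 x3983 x3985 x3989 x3991 x3993 x4001 x4003 x4007 x4009 x4011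
    x4015 x4017 x4025 x4027 x4029 x4033 x4035 x4041 x4055 x4057 x4061 x4063 x4065 x4069 x4071 x4079
    x4081 x4083 x4087 x4089 x4095 x4105 x4107 x4113 x4139 x4145 x4147 x4151 x4153 x4155 x4163 x4165
    x4169 x4171 x4173 x4177 x4179 x4187 x4189 x4191 x4195 x4197 x4203 x4217 x4219 x4223 x4225 x4227
    x4231 x4233 x4241 x4243 x4245 x4249 x4251 x4257 x4267 x4269 x4275 x4295 x4297 x4299 x4303 x4305
    x4311 x4321 x4323 x4329 x4347 x4427 x4445 x4451 x4453 x4481 x4499 x4505 x4507 x4517 x4523 x4525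
    x4529 x4531 x4533 x4553 x4559 x4561 x4571 x4577 x4579 x4583 x4585 x4587 x4595 x4597 x4601 x4603
    x4605 x4609 x4611 x4643 x4661 x4667 x4669 x4679 x4685 x4687 x4691 x4693 x4695 x4715 x4721 x4723
    x4733 x4739 x4741 x4745 x4747 x4749 x4757 x4759 x4763 x4765 x4767 x4771 x4773 x4787 x4793 x4795
    x4799 x4801 x4803 x4811 x4813 x4817 x4819 x4821 x4825 x4827 x4835 x4837 x4839 x4843 x4845 x4851
    x4877 x4883 x4885 x4895 x4901 x4903 x4907 x4909 x4911 x4919 x4921 x4925 x4927 x4929 x4933 x4935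
    x4949 x4955 x4957 x4961 x4963 x4965 x4973 x4975 x4979 x4981 x4983 x4987 x4989 x4997 x4999 x5001
    x5005 x5007 x5013 x5027 x5029 x5033 x5035 x5037 x5041 x5043 x5051 x5053 x5055 x5059 x5061 x5067
    x5077 x5079 x5085 x5129 x5147 x5153 x5155 x5165 x5171 x5173 x5177 x5179 x5181 x5201 x5207 x5209
    x5219 x5225 x5227 x5231 x5233 x5235 x5243 x5245 x5249 x5251 x5253 x5257 x5259 x5273 x5279 x5281
    x5285 x5287 x5289 x5297 x5299 x5303 x5305 x5307 x5311 x5313 x5321 x5323 x5325 x5329 x5331 x5337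
    x5363 x5369 x5371 x5381 x5387 x5389 x5393 x5395 x5397 x5405 x5407 x5411 x5413 x5415 x5419 x5421
    x5435 x5441 x5443 x5447 x5449 x5451 x5459 x5461 x5465 x5467 x5469 x5473 x5475 x5483 x5485 x5487
    x5491 x5493 x5499 x5513 x5515 x5519 x5521 x5523 x5527 x5529 x5537 x5539 x5541 x5545 x5547 x5553
    x5563 x5565 x5571 x5597 x5603 x5605 x5609 x5611 x5613 x5621 x5623 x5627 x5629 x5631 x5635 x5637
    x5645 x5647 x5649 x5653 x5655 x5661 x5675 x5677 x5681 x5683 x5685 x5689 x5691 x5699 x5701 x5703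
    x5707 x5709 x5715 x5725 x5727 x5733 x5753 x5755 x5757 x5761 x5763 x5769 x5779 x5781 x5787 x5805
    x5849 x5855 x5857 x5867 x5873 x5875 x5879 x5881 x5883 x5891 x5893 x5897 x5899 x5901 x5905 x5907
    x5921 x5927 x5929 x5933 x5935 x5937 x5945 x5947 x5951 x5953 x5955 x5959 x5961 x5969 x5971 x5973
    x5977 x5979 x5985 x5999 x6001 x6005 x6007 x6009 x6013 x6015 x6023 x6025 x6027 x6031 x6033 x6039
    x6049 x6051 x6057 x6083 x6089 x6091 x6095 x6097 x6099 x6107 x6109 x6113 x6115 x6117 x6121 x6123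
    x6131 x6133 x6135 x6139 x6141 x6147 x6161 x6163 x6167 x6169 x6171 x6175 x6177 x6185 x6187 x6189
    x6193 x6195 x6201 x6211 x6213 x6219 x6239 x6241 x6243 x6247 x6249 x6255 x6265 x6267 x6273 x6291
    x6323 x6325 x6329 x6331 x6333 x6337 x6339 x6347 x6349 x6351 x6355 x6357 x6363 x6373 x6375 x6381
    x6401 x6403 x6405 x6409 x6411 x6417 x6427 x6429 x6435 x6453 x6481 x6483 x6489 x6507 x6641 x6695
    x6713 x6719 x6721 x6749 x6767 x6773 x6775 x6785 x6791 x6793 x6797 x6799 x6801 x6857 x6875 x6881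
    x6883 x6911 x6929 x6935 x6937 x6947 x6953 x6955 x6959 x6961 x6963 x6983 x6989 x6991 x7001 x7007
    x7009 x7013 x7015 x7017 x7025 x7027 x7031 x7033 x7035 x7039 x7041 x7073 x7091 x7097 x7099 x7109
    x7115 x7117 x7121 x7123 x7125 x7145 x7151 x7153 x7163 x7169 x7171 x7175 x7177 x7179 x7187 x7189
    x7193 x7195 x7197 x7201 x7203 x7217 x7223 x7225 x7229 x7231 x7233 x7241 x7243 x7247 x7249 x7251
    x7255 x7257 x7265 x7267 x7269 x7273 x7275 x7281 x7343 x7361 x7367 x7369 x7397 x7415 x7421 x7423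
    x7433 x7439 x7441 x7445 x7447 x7449 x7469 x7475 x7477 x7487 x7493 x7495 x7499 x7501 x7503 x7511
    x7513 x7517 x7519 x7521 x7525 x7527 x7559 x7577 x7583 x7585 x7595 x7601 x7603 x7607 x7609 x7611
    x7631 x7637 x7639 x7649 x7655 x7657 x7661 x7663 x7665 x7673 x7675 x7679 x7681 x7683 x7687 x7689
    x7703 x7709 x7711 x7715 x7717 x7719 x7727 x7729 x7733 x7735 x7737 x7741 x7743 x7751 x7753 x7755
    x7759 x7761 x7767 x7793 x7799 x7801 x7811 x7817 x7819 x7823 x7825 x7827 x7835 x7837 x7841 x7843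
    x7845 x7849 x7851 x7865 x7871 x7873 x7877 x7879 x7881 x7889 x7891 x7895 x7897 x7899 x7903 x7905
    x7913 x7915 x7917 x7921 x7923 x7929 x7943 x7945 x7949 x7951 x7953 x7957 x7959 x7967 x7969 x7971
    x7975 x7977 x7983 x7993 x7995 x8001 x8045 x8063 x8069 x8071 x8081 x8087 x8089 x8093 x8095 x8097
    x8117 x8123 x8125 x8135 x8141 x8143 x8147 x8149 x8151 x8159 x8161 x8165 x8167 x8169 x8173 x8175
    x8189 x8195 x8197 x8201 x8203 x8205 x8213 x8215 x8219 x8221 x8223 x8227 x8229 x8237 x8239 x8241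
    x8245 x8247 x8253 x8279 x8285 x8287 x8297 x8303 x8305 x8309 x8311 x8313 x8321 x8323 x8327 x8329
    x8331 x8335 x8337 x8351 x8357 x8359 x8363 x8365 x8367 x8375 x8377 x8381 x8383 x8385 x8389 x8391
    x8399 x8401 x8403 x8407 x8409 x8415 x8429 x8431 x8435 x8437 x8439 x8443 x8445 x8453 x8455 x8457
    x8461 x8463 x8469 x8479 x8481 x8487 x8513 x8519 x8521 x8525 x8527 x8529 x8537 x8539 x8543 x8545
    x8547 x8551 x8553 x8561 x8563 x8565 x8569 x8571 x8577 x8591 x8593 x8597 x8599 x8601 x8605 x8607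
    x8615 x8617 x8619 x8623 x8625 x8631 x8641 x8643 x8649 x8669 x8671 x8673 x8677 x8679 x8685 x8695
    x8697 x8703 x8721 x8801 x8819 x8825 x8827 x8855 x8873 x8879 x8881 x8891 x8897 x8899 x8903 x8905
    x8907 x8927 x8933 x8935 x8945 x8951 x8953 x8957 x8959 x8961 x8969 x8971 x8975 x8977 x8979 x8983
    x8985 x9017 x9035 x9041 x9043 x9053 x9059 x9061 x9065 x9067 x9069 x9089 x9095 x9097 x9107 x9113
    x9115 x9119 x9121 x9123 x9131 x9133 x9137 x9139 x9141 x9145 x9147 x9161 x9167 x9169 x9173 x9175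
    x9177 x9185 x9187 x9191 x9193 x9195 x9199 x9201 x9209 x9211 x9213 x9217 x9219 x9225 x9251 x9257
    x9259 x9269 x9275 x9277 x9281 x9283 x9285 x9293 x9295 x9299 x9301 x9303 x9307 x9309 x9323 x9329
    x9331 x9335 x9337 x9339 x9347 x9349 x9353 x9355 x9357 x9361 x9363 x9371 x9373 x9375 x9379 x9381
    x9387 x9401 x9403 x9407 x9409 x9411 x9415 x9417 x9425 x9427 x9429 x9433 x9435 x9441 x9451 x9453
    x9459 x9503 x9521 x9527 x9529 x9539 x9545 x9547 x9551 x9553 x9555 x9575 x9581 x9583 x9593 x9599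
    x9601 x9605 x9607 x9609 x9617 x9619 x9623 x9625 x9627 x9631 x9633 x9647 x9653 x9655 x9659 x9661
    x9663 x9671 x9673 x9677 x9679 x9681 x9685 x9687 x9695 x9697 x9699 x9703 x9705 x9711 x9737 x9743
    x9745 x9755 x9761 x9763 x9767 x9769 x9771 x9779 x9781 x9785 x9787 x9789 x9793 x9795 x9809 x9815
    x9817 x9821 x9823 x9825 x9833 x9835 x9839 x9841 x9843 x9847 x9849 x9857 x9859 x9861 x9865 x9867
    x9873 x9887 x9889 x9893 x9895 x9897 x9901 x9903 x9911 x9913 x9915 x9919 x9921 x9927 x9937 x9939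
    x9945 x9971 x9977 x9979 x9983 x9985 x9987 x9995 x9997 x10001 x10003 x10005 x10009 x10011 x10019
    x10021 x10023 x10027 x10029 x10035 x10049 x10051 x10055 x10057 x10059 x10063 x10065 x10073
    x10075 x10077 x10081 x10083 x10089 x10099 x10101 x10107 x10127 x10129 x10131 x10135 x10137
    x10143 x10153 x10155 x10161 x10179 x10223 x10229 x10231 x10241 x10247 x10249 x10253 x10255
    x10257 x10265 x10267 x10271 x10273 x10275 x10279 x10281 x10295 x10301 x10303 x10307 x10309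
    x10311 x10319 x10321 x10325 x10327 x10329 x10333 x10335 x10343 x10345 x10347 x10351 x10353
    x10359 x10373 x10375 x10379 x10381 x10383 x10387 x10389 x10397 x10399 x10401 x10405 x10407
    x10413 x10423 x10425 x10431 x10457 x10463 x10465 x10469 x10471 x10473 x10481 x10483 x10487
    x10489 x10491 x10495 x10497 x10505 x10507 x10509 x10513 x10515 x10521 x10535 x10537 x10541
    x10543 x10545 x10549 x10551 x10559 x10561 x10563 x10567 x10569 x10575 x10585 x10587 x10593
    x10613 x10615 x10617 x10621 x10623 x10629 x10639 x10641 x10647 x10665 x10697 x10699 x10703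
    x10705 x10707 x10711 x10713 x10721 x10723 x10725 x10729 x10731 x10737 x10747 x10749 x10755
    x10775 x10777 x10779 x10783 x10785 x10791 x10801 x10803 x10809 x10827 x10855 x10857 x10863
    x10881 x10961 x10979 x10985 x10987 x10997 x11003 x11005 x11009 x11011 x11013 x11033 x11039
    x11041 x11051 x11057 x11059 x11063 x11065 x11067 x11075 x11077 x11081 x11083 x11085 x11089
    x11091 x11105 x11111 x11113 x11117 x11119 x11121 x11129 x11131 x11135 x11137 x11139 x11143
    x11145 x11153 x11155 x11157 x11161 x11163 x11169 x11195 x11201 x11203 x11213 x11219 x11221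
    x11225 x11227 x11229 x11237 x11239 x11243 x11245 x11247 x11251 x11253 x11267 x11273 x11275
    x11279 x11281 x11283 x11291 x11293 x11297 x11299 x11301 x11305 x11307 x11315 x11317 x11319
    x11323 x11325 x11331 x11345 x11347 x11351 x11353 x11355 x11359 x11361 x11369 x11371 x11373
    x11377 x11379 x11385 x11395 x11397 x11403 x11429 x11435 x11437 x11441 x11443 x11445 x11453
    x11455 x11459 x11461 x11463 x11467 x11469 x11477 x11479 x11481 x11485 x11487 x11493 x11507
    x11509 x11513 x11515 x11517 x11521 x11523 x11531 x11533 x11535 x11539 x11541 x11547 x11557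
    x11559 x11565 x11585 x11587 x11589 x11593 x11595 x11601 x11611 x11613 x11619 x11637 x11681
    x11687 x11689 x11699 x11705 x11707 x11711 x11713 x11715 x11723 x11725 x11729 x11731 x11733
    x11737 x11739 x11753 x11759 x11761 x11765 x11767 x11769 x11777 x11779 x11783 x11785 x11787
    x11791 x11793 x11801 x11803 x11805 x11809 x11811 x11817 x11831 x11833 x11837 x11839 x11841
    x11845 x11847 x11855 x11857 x11859 x11863 x11865 x11871 x11881 x11883 x11889 x11915 x11921
    x11923 x11927 x11929 x11931 x11939 x11941 x11945 x11947 x11949 x11953 x11955 x11963 x11965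
    x11967 x11971 x11973 x11979 x11993 x11995 x11999 x12001 x12003 x12007 x12009 x12017 x12019
    x12021 x12025 x12027 x12033 x12043 x12045 x12051 x12071 x12073 x12075 x12079 x12081 x12087
    x12097 x12099 x12105 x12123 x12155 x12157 x12161 x12163 x12165 x12169 x12171 x12179 x12181
    x12183 x12187 x12189 x12195 x12205 x12207 x12213 x12233 x12235 x12237 x12241 x12243 x12249
    x12259 x12261 x12267 x12285 x12313 x12315 x12321 x12339 x12401 x12407 x12409 x12413 x12415
    x12417 x12425 x12427 x12431 x12433 x12435 x12439 x12441 x12449 x12451 x12453 x12457 x12459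
    x12465 x12479 x12481 x12485 x12487 x12489 x12493 x12495 x12503 x12505 x12507 x12511 x12513
    x12519 x12529 x12531 x12537 x12557 x12559 x12561 x12565 x12567 x12573 x12583 x12585 x12591
    x12609 x12641 x12643 x12647 x12649 x12651 x12655 x12657 x12665 x12667 x12669 x12673 x12675
    x12681 x12691 x12693 x12699 x12719 x12721 x12723 x12727 x12729 x12735 x12745 x12747 x12753
    x12771 x12799 x12801 x12807 x12825 x12881 x12883 x12885 x12889 x12891 x12897 x12907 x12909
    x12915 x12933 x12961 x12963 x12969 x12987 x13041 x13175 x13193 x13199 x13201 x13229 x13247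
    x13253 x13255 x13265 x13271 x13273 x13277 x13279 x13281 x13301 x13307 x13309 x13319 x13325
    x13327 x13331 x13333 x13335 x13343 x13345 x13349 x13351 x13353 x13357 x13359 x13391 x13409
    x13415 x13417 x13427 x13433 x13435 x13439 x13441 x13443 x13463 x13469 x13471 x13481 x13487
    x13489 x13493 x13495 x13497 x13505 x13507 x13511 x13513 x13515 x13519 x13521 x13535 x13541
    x13543 x13547 x13549 x13551 x13559 x13561 x13565 x13567 x13569 x13573 x13575 x13583 x13585
    x13587 x13591 x13593 x13599 x13625 x13631 x13633 x13643 x13649 x13651 x13655 x13657 x13659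
    x13667 x13669 x13673 x13675 x13677 x13681 x13683 x13697 x13703 x13705 x13709 x13711 x13713
    x13721 x13723 x13727 x13729 x13731 x13735 x13737 x13745 x13747 x13749 x13753 x13755 x13761
    x13775 x13777 x13781 x13783 x13785 x13789 x13791 x13799 x13801 x13803 x13807 x13809 x13815
    x13825 x13827 x13833 x13877 x13895 x13901 x13903 x13913 x13919 x13921 x13925 x13927 x13929
    x13949 x13955 x13957 x13967 x13973 x13975 x13979 x13981 x13983 x13991 x13993 x13997 x13999
    x14001 x14005 x14007 x14021 x14027 x14029 x14033 x14035 x14037 x14045 x14047 x14051 x14053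
    x14055 x14059 x14061 x14069 x14071 x14073 x14077 x14079 x14085 x14111 x14117 x14119 x14129
    x14135 x14137 x14141 x14143 x14145 x14153 x14155 x14159 x14161 x14163 x14167 x14169 x14183
    x14189 x14191 x14195 x14197 x14199 x14207 x14209 x14213 x14215 x14217 x14221 x14223 x14231
    x14233 x14235 x14239 x14241 x14247 x14261 x14263 x14267 x14269 x14271 x14275 x14277 x14285
    x14287 x14289 x14293 x14295 x14301 x14311 x14313 x14319 x14345 x14351 x14353 x14357 x14359
    x14361 x14369 x14371 x14375 x14377 x14379 x14383 x14385 x14393 x14395 x14397 x14401 x14403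
    x14409 x14423 x14425 x14429 x14431 x14433 x14437 x14439 x14447 x14449 x14451 x14455 x14457
    x14463 x14473 x14475 x14481 x14501 x14503 x14505 x14509 x14511 x14517 x14527 x14529 x14535
    x14553 x14597 x14603 x14605 x14615 x14621 x14623 x14627 x14629 x14631 x14639 x14641 x14645
    x14647 x14649 x14653 x14655 x14669 x14675 x14677 x14681 x14683 x14685 x14693 x14695 x14699
    x14701 x14703 x14707 x14709 x14717 x14719 x14721 x14725 x14727 x14733 x14747 x14749 x14753
    x14755 x14757 x14761 x14763 x14771 x14773 x14775 x14779 x14781 x14787 x14797 x14799 x14805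
    x14831 x14837 x14839 x14843 x14845 x14847 x14855 x14857 x14861 x14863 x14865 x14869 x14871
    x14879 x14881 x14883 x14887 x14889 x14895 x14909 x14911 x14915 x14917 x14919 x14923 x14925
    x14933 x14935 x14937 x14941 x14943 x14949 x14959 x14961 x14967 x14987 x14989 x14991 x14995
    x14997 x15003 x15013 x15015 x15021 x15039 x15071 x15073 x15077 x15079 x15081 x15085 x15087
    x15095 x15097 x15099 x15103 x15105 x15111 x15121 x15123 x15129 x15149 x15151 x15153 x15157
    x15159 x15165 x15175 x15177 x15183 x15201 x15229 x15231 x15237 x15255 x15335 x15353 x15359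
    x15361 x15371 x15377 x15379 x15383 x15385 x15387 x15407 x15413 x15415 x15425 x15431 x15433
    x15437 x15439 x15441 x15449 x15451 x15455 x15457 x15459 x15463 x15465 x15479 x15485 x15487
    x15491 x15493 x15495 x15503 x15505 x15509 x15511 x15513 x15517 x15519 x15527 x15529 x15531
    x15535 x15537 x15543 x15569 x15575 x15577 x15587 x15593 x15595 x15599 x15601 x15603 x15611
    x15613 x15617 x15619 x15621 x15625 x15627 x15641 x15647 x15649 x15653 x15655 x15657 x15665
    x15667 x15671 x15673 x15675 x15679 x15681 x15689 x15691 x15693 x15697 x15699 x15705 x15719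
    x15721 x15725 x15727 x15729 x15733 x15735 x15743 x15745 x15747 x15751 x15753 x15759 x15769
    x15771 x15777 x15803 x15809 x15811 x15815 x15817 x15819 x15827 x15829 x15833 x15835 x15837
    x15841 x15843 x15851 x15853 x15855 x15859 x15861 x15867 x15881 x15883 x15887 x15889 x15891
    x15895 x15897 x15905 x15907 x15909 x15913 x15915 x15921 x15931 x15933 x15939 x15959 x15961
    x15963 x15967 x15969 x15975 x15985 x15987 x15993 x16011 x16055 x16061 x16063 x16073 x16079
    x16081 x16085 x16087 x16089 x16097 x16099 x16103 x16105 x16107 x16111 x16113 x16127 x16133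
    x16135 x16139 x16141 x16143 x16151 x16153 x16157 x16159 x16161 x16165 x16167 x16175 x16177
    x16179 x16183 x16185 x16191 x16205 x16207 x16211 x16213 x16215 x16219 x16221 x16229 x16231
    x16233 x16237 x16239 x16245 x16255 x16257 x16263 x16289 x16295 x16297 x16301 x16303 x16305
    x16313 x16315 x16319 x16321 x16323 x16327 x16329 x16337 x16339 x16341 x16345 x16347 x16353
    x16367 x16369 x16373 x16375 x16377 x16381 x16383 x16391 x16393 x16395 x16399 x16401 x16407
    x16417 x16419 x16425 x16445 x16447 x16449 x16453 x16455 x16461 x16471 x16473 x16479 x16497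
    x16529 x16531 x16535 x16537 x16539 x16543 x16545 x16553 x16555 x16557 x16561 x16563 x16569
    x16579 x16581 x16587 x16607 x16609 x16611 x16615 x16617 x16623 x16633 x16635 x16641 x16659
    x16687 x16689 x16695 x16713 x16775 x16781 x16783 x16787 x16789 x16791 x16799 x16801 x16805
    x16807 x16809 x16813 x16815 x16823 x16825 x16827 x16831 x16833 x16839 x16853 x16855 x16859
    x16861 x16863 x16867 x16869 x16877 x16879 x16881 x16885 x16887 x16893 x16903 x16905 x16911
    x16931 x16933 x16935 x16939 x16941 x16947 x16957 x16959 x16965 x16983 x17015 x17017 x17021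
    x17023 x17025 x17029 x17031 x17039 x17041 x17043 x17047 x17049 x17055 x17065 x17067 x17073
    x17093 x17095 x17097 x17101 x17103 x17109 x17119 x17121 x17127 x17145 x17173 x17175 x17181
    x17199 x17255 x17257 x17259 x17263 x17265 x17271 x17281 x17283 x17289 x17307 x17335 x17337
    x17343 x17361 x17415 x17513 x17519 x17521 x17531 x17537 x17539 x17543 x17545 x17547 x17555
    x17557 x17561 x17563 x17565 x17569 x17571 x17585 x17591 x17593 x17597 x17599 x17601 x17609
    x17611 x17615 x17617 x17619 x17623 x17625 x17633 x17635 x17637 x17641 x17643 x17649 x17663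
    x17665 x17669 x17671 x17673 x17677 x17679 x17687 x17689 x17691 x17695 x17697 x17703 x17713
    x17715 x17721 x17747 x17753 x17755 x17759 x17761 x17763 x17771 x17773 x17777 x17779 x17781
    x17785 x17787 x17795 x17797 x17799 x17803 x17805 x17811 x17825 x17827 x17831 x17833 x17835
    x17839 x17841 x17849 x17851 x17853 x17857 x17859 x17865 x17875 x17877 x17883 x17903 x17905
    x17907 x17911 x17913 x17919 x17929 x17931 x17937 x17955 x17987 x17989 x17993 x17995 x17997
    x18001 x18003 x18011 x18013 x18015 x18019 x18021 x18027 x18037 x18039 x18045 x18065 x18067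
    x18069 x18073 x18075 x18081 x18091 x18093 x18099 x18117 x18145 x18147 x18153 x18171 x18233
    x18239 x18241 x18245 x18247 x18249 x18257 x18259 x18263 x18265 x18267 x18271 x18273 x18281
    x18283 x18285 x18289 x18291 x18297 x18311 x18313 x18317 x18319 x18321 x18325 x18327 x18335
    x18337 x18339 x18343 x18345 x18351 x18361 x18363 x18369 x18389 x18391 x18393 x18397 x18399
    x18405 x18415 x18417 x18423 x18441 x18473 x18475 x18479 x18481 x18483 x18487 x18489 x18497
    x18499 x18501 x18505 x18507 x18513 x18523 x18525 x18531 x18551 x18553 x18555 x18559 x18561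
    x18567 x18577 x18579 x18585 x18603 x18631 x18633 x18639 x18657 x18713 x18715 x18717 x18721
    x18723 x18729 x18739 x18741 x18747 x18765 x18793 x18795 x18801 x18819 x18873 x18959 x18961
    x18965 x18967 x18969 x18973 x18975 x18983 x18985 x18987 x18991 x18993 x18999 x19009 x19011
    x19017 x19037 x19039 x19041 x19045 x19047 x19053 x19063 x19065 x19071 x19089 x19117 x19119
    x19125 x19143 x19199 x19201 x19203 x19207 x19209 x19215 x19225 x19227 x19233 x19251 x19279
    x19281 x19287 x19305 x19359 x19441 x19443 x19449 x19467 x19521 : Nat) : Bool :=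
  k
    (Nat.sub (Nat.sub (Nat.add (Nat.add (Nat.add (Nat.add C (Nat.mul x161 (nat_lit 5))) x323) x215) (Nat.mul (e (nat_lit 161)) ap)) x6721) (Nat.mul (e (nat_lit 161)) an))
    (Nat.sub (Nat.sub (Nat.add (Nat.add (Nat.add (Nat.add (Nat.add C (Nat.mul x215 (nat_lit 3))) x377) x161) x233) (Nat.mul (e (nat_lit 215)) ap)) x6775) (Nat.mul (e (nat_lit 215)) an))
    (Nat.sub (Nat.sub (Nat.add (Nat.add (Nat.add (Nat.add (Nat.add C (Nat.mul x233 (nat_lit 3))) x395) x215) x239) (Nat.mul (e (nat_lit 233)) ap)) x6793) (Nat.mul (e (nat_lit 233)) an))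
    (Nat.sub (Nat.add (Nat.add (Nat.add (Nat.add C (Nat.mul x239 (nat_lit 3))) x401) x233) x241) x6799)
    (Nat.sub (Nat.add (Nat.add (Nat.add C (Nat.mul x241 (nat_lit 5))) x403) x239) x6801)
    (Nat.sub (Nat.add (Nat.add (Nat.add (Nat.add C (Nat.mul x323 (nat_lit 3))) x809) x161) x377) x6883)
    (Nat.sub (Nat.sub (Nat.add (Nat.add (Nat.add (Nat.add (Nat.add (Nat.add (Nat.add (Nat.add C (Nat.mul x377 (nat_lit 3))) x863) x215) x539) x323) x431) x395) (Nat.mul (e (nat_lit 377)) ap)) x6937) (Nat.mul (e (nat_lit 377)) an))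
    (Nat.sub (Nat.sub (Nat.add (Nat.add (Nat.add (Nat.add (Nat.add (Nat.add (Nat.add (Nat.add C (Nat.mul x395 (nat_lit 2))) x881) x233) x557) x449) x377) x401) (Nat.mul (e (nat_lit 395)) ap)) x6955) (Nat.mul (e (nat_lit 395)) an))
    (Nat.sub (Nat.sub (Nat.add (Nat.add (Nat.add (Nat.add (Nat.add (Nat.add (Nat.add (Nat.add C (Nat.mul x401 (nat_lit 2))) x887) x239) x563) x455) x395) x403) (Nat.mul (e (nat_lit 401)) ap)) x6961) (Nat.mul (e (nat_lit 401)) an))
    (Nat.sub (Nat.sub (Nat.add (Nat.add (Nat.add (Nat.add (Nat.add (Nat.add (Nat.add C (Nat.mul x403 (nat_lit 4))) x889) x241) x565) x457) x401) (Nat.mul (e (nat_lit 403)) ap)) x6963) (Nat.mul (e (nat_lit 403)) an))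
    (Nat.sub (Nat.sub (Nat.add (Nat.add (Nat.add (Nat.add (Nat.add (Nat.add C x431) x917) x593) x377) x449) (Nat.mul (e (nat_lit 431)) ap)) x6991) (Nat.mul (e (nat_lit 431)) an))
    (Nat.sub (Nat.sub (Nat.add (Nat.add (Nat.add (Nat.add (Nat.add (Nat.add (Nat.add (Nat.add C (Nat.mul x449 (nat_lit 2))) x935) x611) x395) x431) x467) x455) (Nat.mul (e (nat_lit 449)) ap)) x7009) (Nat.mul (e (nat_lit 449)) an))
    (Nat.sub (Nat.sub (Nat.add (Nat.add (Nat.add (Nat.add (Nat.add (Nat.add (Nat.add (Nat.add C x455) x941) x617) x401) x473) x449) x457) (Nat.mul (e (nat_lit 455)) ap)) x7015) (Nat.mul (e (nat_lit 455)) an))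
    (Nat.sub (Nat.sub (Nat.add (Nat.add (Nat.add (Nat.add (Nat.add (Nat.add (Nat.add C (Nat.mul x457 (nat_lit 3))) x943) x619) x403) x475) x455) (Nat.mul (e (nat_lit 457)) ap)) x7017) (Nat.mul (e (nat_lit 457)) an))
    (Nat.sub (Nat.sub (Nat.add (Nat.add (Nat.add (Nat.add (Nat.add (Nat.add C x467) x953) x629) x449) x473) (Nat.mul (e (nat_lit 467)) ap)) x7027) (Nat.mul (e (nat_lit 467)) an))
    (Nat.sub (Nat.sub (Nat.add (Nat.add (Nat.add (Nat.add (Nat.add (Nat.add (Nat.add (Nat.add C (Nat.mul x473 (nat_lit 2))) x959) x635) x455) x467) x479) x475) (Nat.mul (e (nat_lit 473)) ap)) x7033) (Nat.mul (e (nat_lit 473)) an))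
    (Nat.sub (Nat.add (Nat.add (Nat.add (Nat.add (Nat.add (Nat.add C (Nat.mul x475 (nat_lit 3))) x961) x637) x457) x481) x473) x7035)
    (Nat.sub (Nat.sub (Nat.add (Nat.add (Nat.add (Nat.add (Nat.add (Nat.add C x479) x965) x641) x473) x481) (Nat.mul (e (nat_lit 479)) ap)) x7039) (Nat.mul (e (nat_lit 479)) an))
    (Nat.sub (Nat.add (Nat.add (Nat.add (Nat.add (Nat.add (Nat.add C (Nat.mul x481 (nat_lit 4))) x967) x643) x475) x479) x483) x7041)
    (Nat.add (Nat.add (Nat.add (Nat.add C (Nat.mul x483 (nat_lit 5))) x969) x645) x481)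
    (Nat.sub (Nat.add (Nat.add (Nat.add (Nat.add (Nat.add C x539) x1025) x377) x593) x557) x7099)
    (Nat.sub (Nat.sub (Nat.sub (Nat.add (Nat.add (Nat.add (Nat.add (Nat.add (Nat.add C x1043) x395) x611) x539) x563) (Nat.mul (e (nat_lit 557)) ap)) x557) x7117) (Nat.mul (e (nat_lit 557)) an))
    (Nat.sub (Nat.sub (Nat.sub (Nat.add (Nat.add (Nat.add (Nat.add (Nat.add (Nat.add C x1049) x401) x617) x557) x565) (Nat.mul (e (nat_lit 563)) ap)) x563) x7123) (Nat.mul (e (nat_lit 563)) an))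
    (Nat.sub (Nat.add (Nat.add (Nat.add (Nat.add (Nat.add C x565) x1051) x403) x619) x563) x7125)
    (Nat.sub (Nat.sub (Nat.add (Nat.add (Nat.add (Nat.add (Nat.add (Nat.add C x593) x1079) x431) x539) x611) (Nat.mul (e (nat_lit 593)) ap)) x7153) (Nat.mul (e (nat_lit 593)) an))
    (Nat.sub (Nat.sub (Nat.add (Nat.add (Nat.add (Nat.add (Nat.add (Nat.add (Nat.add (Nat.add (Nat.add C x611) x1097) x449) x557) x665) x593) x629) x617) (Nat.mul (e (nat_lit 611)) ap)) x7171) (Nat.mul (e (nat_lit 611)) an))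
    (Nat.sub (Nat.sub (Nat.add (Nat.add (Nat.add (Nat.add (Nat.add (Nat.add (Nat.add (Nat.add C x1103) x455) x563) x671) x635) x611) x619) (Nat.mul (e (nat_lit 617)) ap)) x7177) (Nat.mul (e (nat_lit 617)) an))
    (Nat.sub (Nat.add (Nat.add (Nat.add (Nat.add (Nat.add (Nat.add (Nat.add C (Nat.mul x619 (nat_lit 2))) x1105) x457) x565) x673) x637) x617) x7179)
    (Nat.sub (Nat.sub (Nat.sub (Nat.add (Nat.add (Nat.add (Nat.add (Nat.add (Nat.add C x1115) x467) x683) x611) x635) (Nat.mul (e (nat_lit 629)) ap)) x629) x7189) (Nat.mul (e (nat_lit 629)) an))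
    (Nat.sub (Nat.add (Nat.add (Nat.add (Nat.add (Nat.add (Nat.add (Nat.add C x1121) x473) x689) x617) x629) x641) x637) x7195)
    (Nat.sub (Nat.add (Nat.add (Nat.add (Nat.add (Nat.add (Nat.add (Nat.add C x637) x1123) x475) x691) x619) x643) x635) x7197)
    (Nat.sub (Nat.sub (Nat.add (Nat.add (Nat.add (Nat.add (Nat.add C x1127) x479) x695) x635) x643) x641) x7201)
    (Nat.sub (Nat.add (Nat.add (Nat.add (Nat.add (Nat.add (Nat.add (Nat.add C (Nat.mul x643 (nat_lit 2))) x1129) x481) x697) x637) x641) x645) x7203)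
    (Nat.add (Nat.add (Nat.add (Nat.add (Nat.add C (Nat.mul x645 (nat_lit 3))) x1131) x483) x699) x643)
    (Nat.sub (Nat.sub (Nat.add (Nat.add (Nat.add (Nat.add (Nat.add (Nat.add C x665) x1151) x611) x683) x671) (Nat.mul (e (nat_lit 665)) ap)) x7225) (Nat.mul (e (nat_lit 665)) an))
    (Nat.sub (Nat.sub (Nat.add (Nat.add (Nat.add (Nat.add (Nat.add C x1157) x617) x689) x665) x673) x671) x7231)
    (Nat.sub (Nat.add (Nat.add (Nat.add (Nat.add (Nat.add C x673) x1159) x619) x691) x671) x7233)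
    (Nat.sub (Nat.add (Nat.add (Nat.add (Nat.add (Nat.add C x683) x1169) x629) x665) x689) x7243)
    (Nat.sub (Nat.add (Nat.add (Nat.add (Nat.add (Nat.add (Nat.add (Nat.add (Nat.add C x689) x1175) x635) x671) x707) x683) x695) x691) x7249)
    (Nat.sub (Nat.add (Nat.add (Nat.add (Nat.add (Nat.add (Nat.add (Nat.add C (Nat.mul x691 (nat_lit 2))) x1177) x637) x673) x709) x697) x689) x7251)
    (Nat.sub (Nat.sub (Nat.add (Nat.add (Nat.add (Nat.add (Nat.add C x1181) x641) x713) x689) x697) x695) x7255)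
    (Nat.sub (Nat.add (Nat.add (Nat.add (Nat.add (Nat.add (Nat.add (Nat.add C (Nat.mul x697 (nat_lit 2))) x1183) x643) x715) x691) x695) x699) x7257)
    (Nat.add (Nat.add (Nat.add (Nat.add (Nat.add C (Nat.mul x699 (nat_lit 3))) x1185) x645) x717) x697)
    (Nat.sub (Nat.add (Nat.add (Nat.add (Nat.add (Nat.add C x707) x1193) x689) x713) x709) x7267)
    (Nat.sub (Nat.add (Nat.add (Nat.add (Nat.add (Nat.add C x709) x1195) x691) x715) x707) x7269)
    (Nat.sub (Nat.add (Nat.add (Nat.add (Nat.add (Nat.add C x713) x1199) x695) x707) x715) x7273)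
    (Nat.sub (Nat.add (Nat.add (Nat.add (Nat.add (Nat.add (Nat.add (Nat.add C (Nat.mul x715 (nat_lit 3))) x1201) x697) x709) x721) x713) x717) x7275)
    (Nat.add (Nat.add (Nat.add (Nat.add (Nat.add C (Nat.mul x717 (nat_lit 3))) x1203) x699) x723) x715)
    (Nat.sub (Nat.add (Nat.add (Nat.add (Nat.add C (Nat.mul x721 (nat_lit 3))) x1207) x715) x723) x7281)
    (Nat.add (Nat.add (Nat.add (Nat.add C (Nat.mul x723 (nat_lit 5))) x1209) x717) x721)
    (Nat.sub (Nat.add (Nat.add (Nat.add (Nat.add C (Nat.mul x809 (nat_lit 3))) x2267) x323) x863) x7369)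
    (Nat.sub (Nat.add (Nat.add (Nat.add (Nat.add (Nat.add (Nat.add (Nat.add C (Nat.mul x863 (nat_lit 2))) x2321) x377) x1025) x809) x917) x881) x7423)
    (Nat.sub (Nat.sub (Nat.add (Nat.add (Nat.add (Nat.add (Nat.add (Nat.add (Nat.add (Nat.add C x881) x2339) x395) x1043) x935) x863) x887) (Nat.mul (e (nat_lit 881)) ap)) x7441) (Nat.mul (e (nat_lit 881)) an))
    (Nat.sub (Nat.sub (Nat.add (Nat.add (Nat.add (Nat.add (Nat.add (Nat.add (Nat.add (Nat.add C x887) x2345) x401) x1049) x941) x881) x889) (Nat.mul (e (nat_lit 887)) ap)) x7447) (Nat.mul (e (nat_lit 887)) an))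
    (Nat.sub (Nat.add (Nat.add (Nat.add (Nat.add (Nat.add (Nat.add C (Nat.mul x889 (nat_lit 3))) x2347) x403) x1051) x943) x887) x7449)
    (Nat.sub (Nat.sub (Nat.add (Nat.add (Nat.add (Nat.add (Nat.add C x2375) x431) x1079) x863) x935) x917) x7477)
    (Nat.sub (Nat.sub (Nat.add (Nat.add (Nat.add (Nat.add (Nat.add (Nat.add (Nat.add (Nat.add C x2393) x449) x1097) x881) x917) x953) x941) (Nat.mul (e (nat_lit 935)) ap)) x7495) (Nat.mul (e (nat_lit 935)) an))
    (Nat.sub (Nat.sub (Nat.sub (Nat.add (Nat.add (Nat.add (Nat.add (Nat.add (Nat.add (Nat.add (Nat.add C x2399) x455) x1103) x887) x959) x935) x943) (Nat.mul (e (nat_lit 941)) ap)) x941) x7501) (Nat.mul (e (nat_lit 941)) an))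
    (Nat.sub (Nat.sub (Nat.add (Nat.add (Nat.add (Nat.add (Nat.add (Nat.add (Nat.add (Nat.add C x943) x2401) x457) x1105) x889) x961) x941) (Nat.mul (e (nat_lit 943)) ap)) x7503) (Nat.mul (e (nat_lit 943)) an))
    (Nat.sub (Nat.sub (Nat.sub (Nat.add (Nat.add (Nat.add (Nat.add (Nat.add (Nat.add C x2411) x467) x1115) x935) x959) (Nat.mul (e (nat_lit 953)) ap)) x953) x7513) (Nat.mul (e (nat_lit 953)) an))
    (Nat.sub (Nat.sub (Nat.add (Nat.add (Nat.add (Nat.add (Nat.add (Nat.add (Nat.add (Nat.add C x2417) x473) x1121) x941) x953) x965) x961) (Nat.mul (e (nat_lit 959)) ap)) x7519) (Nat.mul (e (nat_lit 959)) an))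
    (Nat.sub (Nat.add (Nat.add (Nat.add (Nat.add (Nat.add (Nat.add (Nat.add C x961) x2419) x475) x1123) x943) x967) x959) x7521)
    (Nat.sub (Nat.sub (Nat.add (Nat.add (Nat.add (Nat.add (Nat.add C x2423) x479) x1127) x959) x967) x965) x7525)
    (Nat.sub (Nat.add (Nat.add (Nat.add (Nat.add (Nat.add (Nat.add (Nat.add C (Nat.mul x967 (nat_lit 2))) x2425) x481) x1129) x961) x965) x969) x7527)
    (Nat.add (Nat.add (Nat.add (Nat.add (Nat.add C (Nat.mul x969 (nat_lit 3))) x2427) x483) x1131) x967)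
    (Nat.sub (Nat.add (Nat.add (Nat.add (Nat.add (Nat.add (Nat.add (Nat.add C (Nat.mul x1025 (nat_lit 2))) x2483) x539) x1511) x863) x1079) x1043) x7585)
    (Nat.sub (Nat.add (Nat.add (Nat.add (Nat.add (Nat.add (Nat.add (Nat.add C x2501) x557) x1529) x881) x1097) x1025) x1049) x7603)
    (Nat.sub (Nat.add (Nat.add (Nat.add (Nat.add (Nat.add (Nat.add (Nat.add C x2507) x563) x1535) x887) x1103) x1043) x1051) x7609)
    (Nat.sub (Nat.add (Nat.add (Nat.add (Nat.add (Nat.add (Nat.add (Nat.add C (Nat.mul x1051 (nat_lit 2))) x2509) x565) x1537) x889) x1105) x1049) x7611)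
    (Nat.sub (Nat.add (Nat.add (Nat.add (Nat.add (Nat.add (Nat.add (Nat.add (Nat.add C x1079) x2537) x593) x1565) x917) x1241) x1025) x1097) x7639)
    (Nat.sub (Nat.sub (Nat.add (Nat.add (Nat.add (Nat.add (Nat.add (Nat.add (Nat.add (Nat.add (Nat.add (Nat.add (Nat.add (Nat.add C x1097) x2555) x611) x1583) x935) x1259) x1043) x1151) x1079) x1115) x1103) (Nat.mul (e (nat_lit 1097)) ap)) x7657) (Nat.mul (e (nat_lit 1097)) an))
    (Nat.sub (Nat.sub (Nat.add (Nat.add (Nat.add (Nat.add (Nat.add (Nat.add (Nat.add (Nat.add (Nat.add (Nat.add (Nat.add C x2561) x617) x1589) x941) x1265) x1049) x1157) x1121) x1097) x1105) (Nat.mul (e (nat_lit 1103)) ap)) x7663) (Nat.mul (e (nat_lit 1103)) an))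
    (Nat.sub (Nat.sub (Nat.add (Nat.add (Nat.add (Nat.add (Nat.add (Nat.add (Nat.add (Nat.add (Nat.add (Nat.add (Nat.add C (Nat.mul x1105 (nat_lit 2))) x2563) x619) x1591) x943) x1267) x1051) x1159) x1123) x1103) (Nat.mul (e (nat_lit 1105)) ap)) x7665) (Nat.mul (e (nat_lit 1105)) an))
    (Nat.sub (Nat.sub (Nat.sub (Nat.add (Nat.add (Nat.add (Nat.add (Nat.add (Nat.add (Nat.add (Nat.add (Nat.add C x2573) x629) x1601) x953) x1277) x1169) x1097) x1121) (Nat.mul (e (nat_lit 1115)) ap)) x1115) x7675) (Nat.mul (e (nat_lit 1115)) an))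
    (Nat.sub (Nat.sub (Nat.add (Nat.add (Nat.add (Nat.add (Nat.add (Nat.add (Nat.add (Nat.add (Nat.add (Nat.add (Nat.add C x2579) x635) x1607) x959) x1283) x1175) x1103) x1115) x1127) x1123) (Nat.mul (e (nat_lit 1121)) ap)) x7681) (Nat.mul (e (nat_lit 1121)) an))
    (Nat.sub (Nat.sub (Nat.add (Nat.add (Nat.add (Nat.add (Nat.add (Nat.add (Nat.add (Nat.add (Nat.add (Nat.add (Nat.add C x1123) x2581) x637) x1609) x961) x1285) x1177) x1105) x1129) x1121) (Nat.mul (e (nat_lit 1123)) ap)) x7683) (Nat.mul (e (nat_lit 1123)) an))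
    (Nat.sub (Nat.sub (Nat.sub (Nat.add (Nat.add (Nat.add (Nat.add (Nat.add (Nat.add (Nat.add (Nat.add (Nat.add C x2585) x641) x1613) x965) x1289) x1181) x1121) x1129) (Nat.mul (e (nat_lit 1127)) ap)) x1127) x7687) (Nat.mul (e (nat_lit 1127)) an))
    (Nat.sub (Nat.sub (Nat.add (Nat.add (Nat.add (Nat.add (Nat.add (Nat.add (Nat.add (Nat.add (Nat.add (Nat.add (Nat.add C (Nat.mul x1129 (nat_lit 2))) x2587) x643) x1615) x967) x1291) x1183) x1123) x1127) x1131) (Nat.mul (e (nat_lit 1129)) ap)) x7689) (Nat.mul (e (nat_lit 1129)) an))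
    (Nat.add (Nat.add (Nat.add (Nat.add (Nat.add (Nat.add (Nat.add (Nat.add C (Nat.mul x1131 (nat_lit 3))) x2589) x645) x1617) x969) x1293) x1185) x1129)
    (Nat.sub (Nat.sub (Nat.add (Nat.add (Nat.add (Nat.add (Nat.add (Nat.add (Nat.add (Nat.add C x2609) x665) x1637) x1313) x1097) x1169) x1157) (Nat.mul (e (nat_lit 1151)) ap)) x7711) (Nat.mul (e (nat_lit 1151)) an))
    (Nat.sub (Nat.sub (Nat.sub (Nat.add (Nat.add (Nat.add (Nat.add (Nat.add (Nat.add (Nat.add (Nat.add (Nat.add C x2615) x671) x1643) x1319) x1103) x1175) x1151) x1159) (Nat.mul (e (nat_lit 1157)) ap)) (Nat.mul x1157 (nat_lit 2))) x7717) (Nat.mul (e (nat_lit 1157)) an))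
    (Nat.sub (Nat.sub (Nat.add (Nat.add (Nat.add (Nat.add (Nat.add (Nat.add (Nat.add (Nat.add C x2617) x673) x1645) x1321) x1105) x1177) x1157) (Nat.mul (e (nat_lit 1159)) ap)) x7719) (Nat.mul (e (nat_lit 1159)) an))
    (Nat.sub (Nat.sub (Nat.add (Nat.add (Nat.add (Nat.add (Nat.add (Nat.add (Nat.add (Nat.add C x2627) x683) x1655) x1331) x1115) x1151) x1175) (Nat.mul (e (nat_lit 1169)) ap)) x7729) (Nat.mul (e (nat_lit 1169)) an))
    (Nat.sub (Nat.sub (Nat.add (Nat.add (Nat.add (Nat.add (Nat.add (Nat.add (Nat.add (Nat.add (Nat.add (Nat.add (Nat.add C x2633) x689) x1661) x1337) x1121) x1157) x1193) x1169) x1181) x1177) (Nat.mul (e (nat_lit 1175)) ap)) x7735) (Nat.mul (e (nat_lit 1175)) an))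
    (Nat.sub (Nat.sub (Nat.add (Nat.add (Nat.add (Nat.add (Nat.add (Nat.add (Nat.add (Nat.add (Nat.add (Nat.add (Nat.add C x1177) x2635) x691) x1663) x1339) x1123) x1159) x1195) x1183) x1175) (Nat.mul (e (nat_lit 1177)) ap)) x7737) (Nat.mul (e (nat_lit 1177)) an))
    (Nat.sub (Nat.sub (Nat.sub (Nat.add (Nat.add (Nat.add (Nat.add (Nat.add (Nat.add (Nat.add (Nat.add (Nat.add C x2639) x695) x1667) x1343) x1127) x1199) x1175) x1183) (Nat.mul (e (nat_lit 1181)) ap)) (Nat.mul x1181 (nat_lit 2))) x7741) (Nat.mul (e (nat_lit 1181)) an))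
    (Nat.sub (Nat.sub (Nat.add (Nat.add (Nat.add (Nat.add (Nat.add (Nat.add (Nat.add (Nat.add (Nat.add (Nat.add (Nat.add C x1183) x2641) x697) x1669) x1345) x1129) x1201) x1177) x1181) x1185) (Nat.mul (e (nat_lit 1183)) ap)) x7743) (Nat.mul (e (nat_lit 1183)) an))
    (Nat.add (Nat.add (Nat.add (Nat.add (Nat.add (Nat.add (Nat.add (Nat.add C (Nat.mul x1185 (nat_lit 2))) x2643) x699) x1671) x1347) x1131) x1203) x1183)
    (Nat.sub (Nat.sub (Nat.add (Nat.add (Nat.add (Nat.add (Nat.add (Nat.add (Nat.add (Nat.add C x2651) x707) x1679) x1355) x1175) x1199) x1195) (Nat.mul (e (nat_lit 1193)) ap)) x7753) (Nat.mul (e (nat_lit 1193)) an))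
    (Nat.sub (Nat.sub (Nat.add (Nat.add (Nat.add (Nat.add (Nat.add (Nat.add (Nat.add (Nat.add C x2653) x709) x1681) x1357) x1177) x1201) x1193) (Nat.mul (e (nat_lit 1195)) ap)) x7755) (Nat.mul (e (nat_lit 1195)) an))
    (Nat.sub (Nat.add (Nat.add (Nat.add (Nat.add (Nat.add (Nat.add (Nat.add C x2657) x713) x1685) x1361) x1181) x1193) x1201) x7759)
    (Nat.sub (Nat.add (Nat.add (Nat.add (Nat.add (Nat.add (Nat.add (Nat.add (Nat.add (Nat.add (Nat.add C (Nat.mul x1201 (nat_lit 2))) x2659) x715) x1687) x1363) x1183) x1195) x1207) x1199) x1203) x7761)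
    (Nat.add (Nat.add (Nat.add (Nat.add (Nat.add (Nat.add (Nat.add (Nat.add C (Nat.mul x1203 (nat_lit 2))) x2661) x717) x1689) x1365) x1185) x1209) x1201)
    (Nat.sub (Nat.add (Nat.add (Nat.add (Nat.add (Nat.add (Nat.add (Nat.add C (Nat.mul x1207 (nat_lit 2))) x2665) x721) x1693) x1369) x1201) x1209) x7767)
    (Nat.add (Nat.add (Nat.add (Nat.add (Nat.add (Nat.add (Nat.add C (Nat.mul x1209 (nat_lit 4))) x2667) x723) x1695) x1371) x1203) x1207)
    (Nat.sub (Nat.add (Nat.add (Nat.add (Nat.add (Nat.add C x1241) x2699) x1727) x1079) x1259) x7801)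
    (Nat.sub (Nat.add (Nat.add (Nat.add (Nat.add (Nat.add (Nat.add (Nat.add C x2717) x1745) x1097) x1313) x1241) x1277) x1265) x7819)
    (Nat.sub (Nat.sub (Nat.sub (Nat.add (Nat.add (Nat.add (Nat.add (Nat.add (Nat.add (Nat.add (Nat.add C x2723) x1751) x1103) x1319) x1283) x1259) x1267) (Nat.mul (e (nat_lit 1265)) ap)) x1265) x7825) (Nat.mul (e (nat_lit 1265)) an))
    (Nat.sub (Nat.sub (Nat.add (Nat.add (Nat.add (Nat.add (Nat.add (Nat.add (Nat.add (Nat.add C x1267) x2725) x1753) x1105) x1321) x1285) x1265) (Nat.mul (e (nat_lit 1267)) ap)) x7827) (Nat.mul (e (nat_lit 1267)) an))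
    (Nat.sub (Nat.sub (Nat.sub (Nat.add (Nat.add (Nat.add (Nat.add (Nat.add (Nat.add (Nat.add C x2735) x1763) x1115) x1331) x1259) x1283) (Nat.mul (e (nat_lit 1277)) ap)) (Nat.mul x1277 (nat_lit 3))) x7837) (Nat.mul (e (nat_lit 1277)) an))
    (Nat.sub (Nat.sub (Nat.sub (Nat.add (Nat.add (Nat.add (Nat.add (Nat.add (Nat.add (Nat.add (Nat.add (Nat.add C x2741) x1769) x1121) x1337) x1265) x1277) x1289) x1285) (Nat.mul (e (nat_lit 1283)) ap)) (Nat.mul x1283 (nat_lit 2))) x7843) (Nat.mul (e (nat_lit 1283)) an))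
    (Nat.sub (Nat.sub (Nat.sub (Nat.add (Nat.add (Nat.add (Nat.add (Nat.add (Nat.add (Nat.add (Nat.add C x2743) x1771) x1123) x1339) x1267) x1291) x1283) (Nat.mul (e (nat_lit 1285)) ap)) x1285) x7845) (Nat.mul (e (nat_lit 1285)) an))
    (Nat.sub (Nat.sub (Nat.sub (Nat.add (Nat.add (Nat.add (Nat.add (Nat.add (Nat.add (Nat.add C x2747) x1775) x1127) x1343) x1283) x1291) (Nat.mul (e (nat_lit 1289)) ap)) (Nat.mul x1289 (nat_lit 3))) x7849) (Nat.mul (e (nat_lit 1289)) an))
    (Nat.sub (Nat.add (Nat.add (Nat.add (Nat.add (Nat.add (Nat.add (Nat.add C x2749) x1777) x1129) x1345) x1285) x1289) x1293) x7851)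
    (Nat.add (Nat.add (Nat.add (Nat.add (Nat.add (Nat.add C x1293) x2751) x1779) x1131) x1347) x1291)
    (Nat.sub (Nat.sub (Nat.add (Nat.add (Nat.add (Nat.add (Nat.add (Nat.add (Nat.add (Nat.add C x1313) x2771) x1799) x1151) x1259) x1331) x1319) (Nat.mul (e (nat_lit 1313)) ap)) x7873) (Nat.mul (e (nat_lit 1313)) an))
    (Nat.sub (Nat.sub (Nat.sub (Nat.add (Nat.add (Nat.add (Nat.add (Nat.add (Nat.add (Nat.add (Nat.add C x2777) x1805) x1157) x1265) x1337) x1313) x1321) (Nat.mul (e (nat_lit 1319)) ap)) x1319) x7879) (Nat.mul (e (nat_lit 1319)) an))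
    (Nat.sub (Nat.sub (Nat.add (Nat.add (Nat.add (Nat.add (Nat.add (Nat.add (Nat.add (Nat.add C x1321) x2779) x1807) x1159) x1267) x1339) x1319) (Nat.mul (e (nat_lit 1321)) ap)) x7881) (Nat.mul (e (nat_lit 1321)) an))
    (Nat.sub (Nat.sub (Nat.add (Nat.add (Nat.add (Nat.add (Nat.add (Nat.add (Nat.add (Nat.add C x2789) x1817) x1169) x1277) x1385) x1313) x1337) (Nat.mul (e (nat_lit 1331)) ap)) x7891) (Nat.mul (e (nat_lit 1331)) an))
    (Nat.sub (Nat.sub (Nat.add (Nat.add (Nat.add (Nat.add (Nat.add (Nat.add (Nat.add (Nat.add (Nat.add (Nat.add (Nat.add C x2795) x1823) x1175) x1283) x1391) x1319) x1355) x1331) x1343) x1339) (Nat.mul (e (nat_lit 1337)) ap)) x7897) (Nat.mul (e (nat_lit 1337)) an))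
    (Nat.sub (Nat.sub (Nat.add (Nat.add (Nat.add (Nat.add (Nat.add (Nat.add (Nat.add (Nat.add (Nat.add (Nat.add (Nat.add C x1339) x2797) x1825) x1177) x1285) x1393) x1321) x1357) x1345) x1337) (Nat.mul (e (nat_lit 1339)) ap)) x7899) (Nat.mul (e (nat_lit 1339)) an))
    (Nat.sub (Nat.sub (Nat.sub (Nat.add (Nat.add (Nat.add (Nat.add (Nat.add (Nat.add (Nat.add (Nat.add (Nat.add C x2801) x1829) x1181) x1289) x1397) x1361) x1337) x1345) (Nat.mul (e (nat_lit 1343)) ap)) (Nat.mul x1343 (nat_lit 2))) x7903) (Nat.mul (e (nat_lit 1343)) an))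
    (Nat.sub (Nat.add (Nat.add (Nat.add (Nat.add (Nat.add (Nat.add (Nat.add (Nat.add (Nat.add (Nat.add C x1345) x2803) x1831) x1183) x1291) x1399) x1363) x1339) x1343) x1347) x7905)
    (Nat.add (Nat.add (Nat.add (Nat.add (Nat.add (Nat.add (Nat.add (Nat.add C (Nat.mul x1347 (nat_lit 2))) x2805) x1833) x1185) x1293) x1401) x1365) x1345)
    (Nat.sub (Nat.sub (Nat.sub (Nat.add (Nat.add (Nat.add (Nat.add (Nat.add (Nat.add (Nat.add (Nat.add C x2813) x1841) x1193) x1409) x1337) x1361) x1357) (Nat.mul (e (nat_lit 1355)) ap)) x1355) x7915) (Nat.mul (e (nat_lit 1355)) an))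
    (Nat.sub (Nat.sub (Nat.add (Nat.add (Nat.add (Nat.add (Nat.add (Nat.add (Nat.add C x2815) x1843) x1195) x1411) x1339) x1363) x1355) x1357) x7917)
    (Nat.sub (Nat.sub (Nat.sub (Nat.add (Nat.add (Nat.add (Nat.add (Nat.add (Nat.add (Nat.add (Nat.add C x2819) x1847) x1199) x1415) x1343) x1355) x1363) (Nat.mul (e (nat_lit 1361)) ap)) x1361) x7921) (Nat.mul (e (nat_lit 1361)) an))
    (Nat.sub (Nat.add (Nat.add (Nat.add (Nat.add (Nat.add (Nat.add (Nat.add (Nat.add (Nat.add (Nat.add C x1363) x2821) x1849) x1201) x1417) x1345) x1357) x1369) x1361) x1365) x7923)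
    (Nat.add (Nat.add (Nat.add (Nat.add (Nat.add (Nat.add (Nat.add (Nat.add C x1365) x2823) x1851) x1203) x1419) x1347) x1371) x1363)
    (Nat.sub (Nat.add (Nat.add (Nat.add (Nat.add (Nat.add (Nat.add (Nat.add C x1369) x2827) x1855) x1207) x1423) x1363) x1371) x7929)
    (Nat.add (Nat.add (Nat.add (Nat.add (Nat.add (Nat.add (Nat.add C (Nat.mul x1371 (nat_lit 3))) x2829) x1857) x1209) x1425) x1365) x1369)
    (Nat.sub (Nat.sub (Nat.add (Nat.add (Nat.add (Nat.add (Nat.add (Nat.add C x1385) x2843) x1871) x1331) x1391) (Nat.mul (e (nat_lit 1385)) ap)) x7945) (Nat.mul (e (nat_lit 1385)) an))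
    (Nat.sub (Nat.sub (Nat.add (Nat.add (Nat.add (Nat.add (Nat.add (Nat.add (Nat.add (Nat.add C x2849) x1877) x1337) x1409) x1385) x1397) x1393) (Nat.mul (e (nat_lit 1391)) ap)) x7951) (Nat.mul (e (nat_lit 1391)) an))
    (Nat.sub (Nat.add (Nat.add (Nat.add (Nat.add (Nat.add (Nat.add (Nat.add C x1393) x2851) x1879) x1339) x1411) x1399) x1391) x7953)
    (Nat.sub (Nat.sub (Nat.sub (Nat.add (Nat.add (Nat.add (Nat.add (Nat.add (Nat.add (Nat.add C x2855) x1883) x1343) x1415) x1391) x1399) (Nat.mul (e (nat_lit 1397)) ap)) (Nat.mul x1397 (nat_lit 3))) x7957) (Nat.mul (e (nat_lit 1397)) an))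
    (Nat.sub (Nat.add (Nat.add (Nat.add (Nat.add (Nat.add (Nat.add (Nat.add C x2857) x1885) x1345) x1417) x1393) x1397) x1401) x7959)
    (Nat.add (Nat.add (Nat.add (Nat.add (Nat.add (Nat.add C x1401) x2859) x1887) x1347) x1419) x1399)
    (Nat.sub (Nat.add (Nat.add (Nat.add (Nat.add (Nat.add (Nat.add (Nat.add C x1409) x2867) x1895) x1355) x1391) x1415) x1411) x7969)
    (Nat.sub (Nat.add (Nat.add (Nat.add (Nat.add (Nat.add (Nat.add (Nat.add C x1411) x2869) x1897) x1357) x1393) x1417) x1409) x7971)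
    (Nat.sub (Nat.add (Nat.add (Nat.add (Nat.add (Nat.add (Nat.add (Nat.add C x2873) x1901) x1361) x1397) x1433) x1409) x1417) x7975)
    (Nat.sub (Nat.add (Nat.add (Nat.add (Nat.add (Nat.add (Nat.add (Nat.add (Nat.add (Nat.add (Nat.add C (Nat.mul x1417 (nat_lit 2))) x2875) x1903) x1363) x1399) x1435) x1411) x1423) x1415) x1419) x7977)
    (Nat.add (Nat.add (Nat.add (Nat.add (Nat.add (Nat.add (Nat.add (Nat.add C (Nat.mul x1419 (nat_lit 2))) x2877) x1905) x1365) x1401) x1437) x1425) x1417)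
    (Nat.sub (Nat.add (Nat.add (Nat.add (Nat.add (Nat.add (Nat.add (Nat.add C x1423) x2881) x1909) x1369) x1441) x1417) x1425) x7983)
    (Nat.add (Nat.add (Nat.add (Nat.add (Nat.add (Nat.add (Nat.add C (Nat.mul x1425 (nat_lit 3))) x2883) x1911) x1371) x1443) x1419) x1423)
    (Nat.sub (Nat.add (Nat.add (Nat.add (Nat.add (Nat.add C x1433) x2891) x1919) x1415) x1435) x7993)
    (Nat.sub (Nat.add (Nat.add (Nat.add (Nat.add (Nat.add (Nat.add (Nat.add C (Nat.mul x1435 (nat_lit 2))) x2893) x1921) x1417) x1441) x1433) x1437) x7995)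
    (Nat.add (Nat.add (Nat.add (Nat.add (Nat.add (Nat.add C x1437) x2895) x1923) x1419) x1443) x1435)
    (Nat.sub (Nat.add (Nat.add (Nat.add (Nat.add (Nat.add (Nat.add C (Nat.mul x1441 (nat_lit 3))) x2899) x1927) x1423) x1435) x1443) x8001)
    (Nat.add (Nat.add (Nat.add (Nat.add (Nat.add (Nat.add (Nat.add C (Nat.mul x1443 (nat_lit 4))) x2901) x1929) x1425) x1437) x1449) x1441)
    (Nat.add (Nat.add (Nat.add (Nat.add C (Nat.mul x1449 (nat_lit 5))) x2907) x1935) x1443)
    (Nat.sub (Nat.add (Nat.add (Nat.add (Nat.add (Nat.add C x1511) x2969) x1025) x1565) x1529) x8071)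
    (Nat.sub (Nat.sub (Nat.add (Nat.add (Nat.add (Nat.add (Nat.add C x2987) x1043) x1583) x1511) x1535) x1529) x8089)
    (Nat.sub (Nat.sub (Nat.add (Nat.add (Nat.add (Nat.add (Nat.add C x2993) x1049) x1589) x1529) x1537) x1535) x8095)
    (Nat.sub (Nat.add (Nat.add (Nat.add (Nat.add (Nat.add C x1537) x2995) x1051) x1591) x1535) x8097)
    (Nat.sub (Nat.sub (Nat.add (Nat.add (Nat.add (Nat.add (Nat.add C x3023) x1079) x1727) x1511) x1583) x1565) x8125)
    (Nat.sub (Nat.sub (Nat.add (Nat.add (Nat.add (Nat.add (Nat.add (Nat.add (Nat.add (Nat.add C x3041) x1097) x1745) x1529) x1637) x1565) x1601) x1589) x1583) x8143)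
    (Nat.sub (Nat.sub (Nat.sub (Nat.add (Nat.add (Nat.add (Nat.add (Nat.add (Nat.add (Nat.add (Nat.add (Nat.add C x3047) x1103) x1751) x1535) x1643) x1607) x1583) x1591) (Nat.mul (e (nat_lit 1589)) ap)) (Nat.mul x1589 (nat_lit 2))) x8149) (Nat.mul (e (nat_lit 1589)) an))
    (Nat.sub (Nat.add (Nat.add (Nat.add (Nat.add (Nat.add (Nat.add (Nat.add C x3049) x1105) x1753) x1537) x1645) x1609) x1589) x8151)
    (Nat.sub (Nat.sub (Nat.sub (Nat.add (Nat.add (Nat.add (Nat.add (Nat.add (Nat.add (Nat.add C x3059) x1115) x1763) x1655) x1583) x1607) (Nat.mul (e (nat_lit 1601)) ap)) (Nat.mul x1601 (nat_lit 3))) x8161) (Nat.mul (e (nat_lit 1601)) an))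
    (Nat.sub (Nat.sub (Nat.sub (Nat.add (Nat.add (Nat.add (Nat.add (Nat.add (Nat.add (Nat.add (Nat.add (Nat.add C x3065) x1121) x1769) x1661) x1589) x1601) x1613) x1609) (Nat.mul (e (nat_lit 1607)) ap)) (Nat.mul x1607 (nat_lit 2))) x8167) (Nat.mul (e (nat_lit 1607)) an))
    (Nat.sub (Nat.sub (Nat.add (Nat.add (Nat.add (Nat.add (Nat.add (Nat.add (Nat.add C x3067) x1123) x1771) x1663) x1591) x1615) x1607) x1609) x8169)
    (Nat.sub (Nat.sub (Nat.add (Nat.add (Nat.add (Nat.add (Nat.add (Nat.add C x3071) x1127) x1775) x1667) x1607) x1615) (Nat.mul x1613 (nat_lit 3))) x8173)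
    (Nat.sub (Nat.add (Nat.add (Nat.add (Nat.add (Nat.add (Nat.add (Nat.add C x3073) x1129) x1777) x1669) x1609) x1613) x1617) x8175)
    (Nat.add (Nat.add (Nat.add (Nat.add (Nat.add (Nat.add C x1617) x3075) x1131) x1779) x1671) x1615)
    (Nat.sub (Nat.sub (Nat.add (Nat.add (Nat.add (Nat.add (Nat.add (Nat.add C x3095) x1151) x1799) x1583) x1655) x1643) (Nat.mul x1637 (nat_lit 3))) x8197)
    (Nat.sub (Nat.sub (Nat.sub (Nat.add (Nat.add (Nat.add (Nat.add (Nat.add (Nat.add (Nat.add (Nat.add C x3101) x1157) x1805) x1589) x1661) x1637) x1645) (Nat.mul (e (nat_lit 1643)) ap)) (Nat.mul x1643 (nat_lit 5))) x8203) (Nat.mul (e (nat_lit 1643)) an))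
    (Nat.sub (Nat.sub (Nat.add (Nat.add (Nat.add (Nat.add (Nat.add (Nat.add C x3103) x1159) x1807) x1591) x1663) x1643) (Nat.mul x1645 (nat_lit 3))) x8205)
    (Nat.sub (Nat.sub (Nat.sub (Nat.add (Nat.add (Nat.add (Nat.add (Nat.add (Nat.add (Nat.add C x3113) x1169) x1817) x1601) x1637) x1661) (Nat.mul (e (nat_lit 1655)) ap)) (Nat.mul x1655 (nat_lit 3))) x8215) (Nat.mul (e (nat_lit 1655)) an))
    (Nat.sub (Nat.sub (Nat.sub (Nat.add (Nat.add (Nat.add (Nat.add (Nat.add (Nat.add (Nat.add (Nat.add (Nat.add (Nat.add C x3119) x1175) x1823) x1607) x1643) x1679) x1655) x1667) x1663) (Nat.mul (e (nat_lit 1661)) ap)) (Nat.mul x1661 (nat_lit 3))) x8221) (Nat.mul (e (nat_lit 1661)) an))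
    (Nat.sub (Nat.sub (Nat.add (Nat.add (Nat.add (Nat.add (Nat.add (Nat.add (Nat.add (Nat.add C x3121) x1177) x1825) x1609) x1645) x1681) x1669) x1661) (Nat.mul x1663 (nat_lit 2))) x8223)
    (Nat.sub (Nat.sub (Nat.sub (Nat.add (Nat.add (Nat.add (Nat.add (Nat.add (Nat.add (Nat.add (Nat.add C x3125) x1181) x1829) x1613) x1685) x1661) x1669) (Nat.mul (e (nat_lit 1667)) ap)) (Nat.mul x1667 (nat_lit 5))) x8227) (Nat.mul (e (nat_lit 1667)) an))
    (Nat.sub (Nat.sub (Nat.add (Nat.add (Nat.add (Nat.add (Nat.add (Nat.add (Nat.add (Nat.add C x3127) x1183) x1831) x1615) x1687) x1663) x1667) x1671) (Nat.mul x1669 (nat_lit 2))) x8229)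
    (Nat.sub (Nat.add (Nat.add (Nat.add (Nat.add (Nat.add (Nat.add C x3129) x1185) x1833) x1617) x1689) x1669) x1671)
    (Nat.sub (Nat.sub (Nat.sub (Nat.add (Nat.add (Nat.add (Nat.add (Nat.add (Nat.add (Nat.add C x3137) x1193) x1841) x1661) x1685) x1681) (Nat.mul (e (nat_lit 1679)) ap)) (Nat.mul x1679 (nat_lit 3))) x8239) (Nat.mul (e (nat_lit 1679)) an))
    (Nat.sub (Nat.sub (Nat.add (Nat.add (Nat.add (Nat.add (Nat.add (Nat.add C x3139) x1195) x1843) x1663) x1687) x1679) (Nat.mul x1681 (nat_lit 3))) x8241)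
    (Nat.sub (Nat.sub (Nat.add (Nat.add (Nat.add (Nat.add (Nat.add (Nat.add C x3143) x1199) x1847) x1667) x1679) x1687) (Nat.mul x1685 (nat_lit 3))) x8245)
    (Nat.sub (Nat.sub (Nat.add (Nat.add (Nat.add (Nat.add (Nat.add (Nat.add (Nat.add (Nat.add C x3145) x1201) x1849) x1669) x1681) x1693) x1685) x1689) x1687) x8247)
    (Nat.sub (Nat.add (Nat.add (Nat.add (Nat.add (Nat.add (Nat.add C x3147) x1203) x1851) x1671) x1695) x1687) x1689)
    (Nat.sub (Nat.sub (Nat.add (Nat.add (Nat.add (Nat.add (Nat.add C x3151) x1207) x1855) x1687) x1695) x1693) x8253)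
    (Nat.add (Nat.add (Nat.add (Nat.add (Nat.add (Nat.add C x1695) x3153) x1209) x1857) x1689) x1693)
    (Nat.sub (Nat.add (Nat.add (Nat.add (Nat.add (Nat.add C x1727) x3185) x1241) x1565) x1745) x8287)
    (Nat.sub (Nat.add (Nat.add (Nat.add (Nat.add (Nat.add (Nat.add (Nat.add C x3203) x1259) x1583) x1799) x1727) x1763) x1751) x8305)
    (Nat.sub (Nat.sub (Nat.sub (Nat.add (Nat.add (Nat.add (Nat.add (Nat.add (Nat.add (Nat.add (Nat.add C x3209) x1265) x1589) x1805) x1769) x1745) x1753) (Nat.mul (e (nat_lit 1751)) ap)) x1751) x8311) (Nat.mul (e (nat_lit 1751)) an))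
    (Nat.sub (Nat.add (Nat.add (Nat.add (Nat.add (Nat.add (Nat.add (Nat.add C x1753) x3211) x1267) x1591) x1807) x1771) x1751) x8313)
    (Nat.sub (Nat.sub (Nat.add (Nat.add (Nat.add (Nat.add (Nat.add (Nat.add C x3221) x1277) x1601) x1817) x1745) x1769) (Nat.mul x1763 (nat_lit 3))) x8323)
    (Nat.sub (Nat.sub (Nat.sub (Nat.add (Nat.add (Nat.add (Nat.add (Nat.add (Nat.add (Nat.add (Nat.add (Nat.add C x3227) x1283) x1607) x1823) x1751) x1763) x1775) x1771) (Nat.mul (e (nat_lit 1769)) ap)) (Nat.mul x1769 (nat_lit 2))) x8329) (Nat.mul (e (nat_lit 1769)) an))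
    (Nat.sub (Nat.sub (Nat.add (Nat.add (Nat.add (Nat.add (Nat.add (Nat.add (Nat.add C x3229) x1285) x1609) x1825) x1753) x1777) x1769) x1771) x8331)
    (Nat.sub (Nat.sub (Nat.add (Nat.add (Nat.add (Nat.add (Nat.add (Nat.add C x3233) x1289) x1613) x1829) x1769) x1777) (Nat.mul x1775 (nat_lit 3))) x8335)
    (Nat.sub (Nat.add (Nat.add (Nat.add (Nat.add (Nat.add (Nat.add (Nat.add C x3235) x1291) x1615) x1831) x1771) x1775) x1779) x8337)
    (Nat.add (Nat.add (Nat.add (Nat.add (Nat.add (Nat.add C x1779) x3237) x1293) x1617) x1833) x1777)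
    (Nat.sub (Nat.add (Nat.add (Nat.add (Nat.add (Nat.add (Nat.add (Nat.add C x3257) x1313) x1637) x1961) x1745) x1817) x1805) x8359)
    (Nat.sub (Nat.sub (Nat.sub (Nat.add (Nat.add (Nat.add (Nat.add (Nat.add (Nat.add (Nat.add (Nat.add (Nat.add C x3263) x1319) x1643) x1967) x1751) x1823) x1799) x1807) (Nat.mul (e (nat_lit 1805)) ap)) (Nat.mul x1805 (nat_lit 2))) x8365) (Nat.mul (e (nat_lit 1805)) an))
    (Nat.sub (Nat.add (Nat.add (Nat.add (Nat.add (Nat.add (Nat.add (Nat.add C x3265) x1321) x1645) x1969) x1753) x1825) x1805) x8367)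
    (Nat.sub (Nat.sub (Nat.sub (Nat.add (Nat.add (Nat.add (Nat.add (Nat.add (Nat.add (Nat.add (Nat.add (Nat.add C x3275) x1331) x1655) x1979) x1763) x1871) x1799) x1823) (Nat.mul (e (nat_lit 1817)) ap)) x1817) x8377) (Nat.mul (e (nat_lit 1817)) an))
    (Nat.sub (Nat.sub (Nat.sub (Nat.add (Nat.add (Nat.add (Nat.add (Nat.add (Nat.add (Nat.add (Nat.add (Nat.add (Nat.add (Nat.add (Nat.add C x3281) x1337) x1661) x1985) x1769) x1877) x1805) x1841) x1817) x1829) x1825) (Nat.mul (e (nat_lit 1823)) ap)) x1823) x8383) (Nat.mul (e (nat_lit 1823)) an))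
    (Nat.sub (Nat.add (Nat.add (Nat.add (Nat.add (Nat.add (Nat.add (Nat.add (Nat.add (Nat.add (Nat.add C x3283) x1339) x1663) x1987) x1771) x1879) x1807) x1843) x1831) x1823) x8385)
    (Nat.sub (Nat.sub (Nat.add (Nat.add (Nat.add (Nat.add (Nat.add (Nat.add (Nat.add (Nat.add (Nat.add C x3287) x1343) x1667) x1991) x1775) x1883) x1847) x1823) x1831) (Nat.mul x1829 (nat_lit 3))) x8389)
    (Nat.sub (Nat.add (Nat.add (Nat.add (Nat.add (Nat.add (Nat.add (Nat.add (Nat.add (Nat.add (Nat.add C x3289) x1345) x1669) x1993) x1777) x1885) x1849) x1825) x1829) x1833) x8391)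
    (Nat.add (Nat.add (Nat.add (Nat.add (Nat.add (Nat.add (Nat.add (Nat.add (Nat.add C x1833) x3291) x1347) x1671) x1995) x1779) x1887) x1851) x1831)
    (Nat.sub (Nat.sub (Nat.add (Nat.add (Nat.add (Nat.add (Nat.add (Nat.add (Nat.add (Nat.add C x3299) x1355) x1679) x2003) x1895) x1823) x1847) x1843) (Nat.mul x1841 (nat_lit 2))) x8401)
    (Nat.sub (Nat.sub (Nat.add (Nat.add (Nat.add (Nat.add (Nat.add (Nat.add (Nat.add (Nat.add C x3301) x1357) x1681) x2005) x1897) x1825) x1849) x1841) (Nat.mul x1843 (nat_lit 2))) x8403)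
    (Nat.sub (Nat.sub (Nat.add (Nat.add (Nat.add (Nat.add (Nat.add (Nat.add (Nat.add (Nat.add C x3305) x1361) x1685) x2009) x1901) x1829) x1841) x1849) (Nat.mul x1847 (nat_lit 2))) x8407)
    (Nat.sub (Nat.add (Nat.add (Nat.add (Nat.add (Nat.add (Nat.add (Nat.add (Nat.add (Nat.add (Nat.add C x3307) x1363) x1687) x2011) x1903) x1831) x1843) x1855) x1847) x1851) x8409)
    (Nat.add (Nat.add (Nat.add (Nat.add (Nat.add (Nat.add (Nat.add (Nat.add C x3309) x1365) x1689) x2013) x1905) x1833) x1857) x1849)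
    (Nat.sub (Nat.add (Nat.add (Nat.add (Nat.add (Nat.add (Nat.add (Nat.add C x3313) x1369) x1693) x2017) x1909) x1849) x1857) x8415)
    (Nat.add (Nat.add (Nat.add (Nat.add (Nat.add (Nat.add (Nat.add (Nat.add C (Nat.mul x1857 (nat_lit 2))) x3315) x1371) x1695) x2019) x1911) x1851) x1855)
    (Nat.sub (Nat.sub (Nat.sub (Nat.add (Nat.add (Nat.add (Nat.add (Nat.add (Nat.add C x3329) x1385) x2033) x1817) x1877) (Nat.mul (e (nat_lit 1871)) ap)) x1871) x8431) (Nat.mul (e (nat_lit 1871)) an))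
    (Nat.sub (Nat.sub (Nat.add (Nat.add (Nat.add (Nat.add (Nat.add (Nat.add (Nat.add (Nat.add C x3335) x1391) x2039) x1823) x1895) x1871) x1883) x1879) (Nat.mul x1877 (nat_lit 2))) x8437)
    (Nat.sub (Nat.sub (Nat.add (Nat.add (Nat.add (Nat.add (Nat.add (Nat.add (Nat.add C x3337) x1393) x2041) x1825) x1897) x1885) x1877) x1879) x8439)
    (Nat.sub (Nat.sub (Nat.add (Nat.add (Nat.add (Nat.add (Nat.add (Nat.add (Nat.add C x3341) x1397) x2045) x1829) x1901) x1877) x1885) (Nat.mul x1883 (nat_lit 5))) x8443)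
    (Nat.sub (Nat.sub (Nat.add (Nat.add (Nat.add (Nat.add (Nat.add (Nat.add (Nat.add (Nat.add C x3343) x1399) x2047) x1831) x1903) x1879) x1883) x1887) (Nat.mul x1885 (nat_lit 2))) x8445)
    (Nat.sub (Nat.add (Nat.add (Nat.add (Nat.add (Nat.add (Nat.add C x3345) x1401) x2049) x1833) x1905) x1885) x1887)
    (Nat.sub (Nat.sub (Nat.add (Nat.add (Nat.add (Nat.add (Nat.add (Nat.add (Nat.add C x3353) x1409) x2057) x1841) x1877) x1901) x1897) x1895) x8455)
    (Nat.sub (Nat.sub (Nat.add (Nat.add (Nat.add (Nat.add (Nat.add (Nat.add (Nat.add C x3355) x1411) x2059) x1843) x1879) x1903) x1895) x1897) x8457)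
    (Nat.sub (Nat.sub (Nat.add (Nat.add (Nat.add (Nat.add (Nat.add (Nat.add (Nat.add (Nat.add C x3359) x1415) x2063) x1847) x1883) x1919) x1895) x1903) (Nat.mul x1901 (nat_lit 2))) x8461)
    (Nat.sub (Nat.add (Nat.add (Nat.add (Nat.add (Nat.add (Nat.add (Nat.add (Nat.add (Nat.add (Nat.add C x3361) x1417) x2065) x1849) x1885) x1921) x1897) x1909) x1901) x1905) x8463)
    (Nat.add (Nat.add (Nat.add (Nat.add (Nat.add (Nat.add (Nat.add (Nat.add C x3363) x1419) x2067) x1851) x1887) x1923) x1911) x1903)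
    (Nat.sub (Nat.sub (Nat.add (Nat.add (Nat.add (Nat.add (Nat.add (Nat.add (Nat.add C x3367) x1423) x2071) x1855) x1927) x1903) x1911) x1909) x8469)
    (Nat.add (Nat.add (Nat.add (Nat.add (Nat.add (Nat.add (Nat.add (Nat.add C x1911) x3369) x1425) x2073) x1857) x1929) x1905) x1909)
    (Nat.sub (Nat.sub (Nat.add (Nat.add (Nat.add (Nat.add (Nat.add C x3377) x1433) x2081) x1901) x1921) x1919) x8479)
    (Nat.sub (Nat.add (Nat.add (Nat.add (Nat.add (Nat.add (Nat.add (Nat.add C x3379) x1435) x2083) x1903) x1927) x1919) x1923) x8481)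
    (Nat.sub (Nat.add (Nat.add (Nat.add (Nat.add (Nat.add (Nat.add C x3381) x1437) x2085) x1905) x1929) x1921) x1923)
    (Nat.sub (Nat.add (Nat.add (Nat.add (Nat.add (Nat.add (Nat.add (Nat.add C x1927) x3385) x1441) x2089) x1909) x1921) x1929) x8487)
    (Nat.add (Nat.add (Nat.add (Nat.add (Nat.add (Nat.add (Nat.add (Nat.add C (Nat.mul x1929 (nat_lit 2))) x3387) x1443) x2091) x1911) x1923) x1935) x1927)
    (Nat.add (Nat.add (Nat.add (Nat.add (Nat.add C (Nat.mul x1935 (nat_lit 3))) x3393) x1449) x2097) x1929)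
    (Nat.sub (Nat.add (Nat.add (Nat.add (Nat.add (Nat.add C x1961) x3419) x1799) x1979) x1967) x8521)
    (Nat.sub (Nat.sub (Nat.add (Nat.add (Nat.add (Nat.add (Nat.add C x3425) x1805) x1985) x1961) x1969) x1967) x8527)
    (Nat.sub (Nat.add (Nat.add (Nat.add (Nat.add (Nat.add C x1969) x3427) x1807) x1987) x1967) x8529)
    (Nat.sub (Nat.sub (Nat.add (Nat.add (Nat.add (Nat.add (Nat.add C x3437) x1817) x2033) x1961) x1985) x1979) x8539)
    (Nat.sub (Nat.sub (Nat.add (Nat.add (Nat.add (Nat.add (Nat.add (Nat.add (Nat.add (Nat.add C x3443) x1823) x2039) x1967) x2003) x1979) x1991) x1987) x1985) x8545)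
    (Nat.sub (Nat.add (Nat.add (Nat.add (Nat.add (Nat.add (Nat.add (Nat.add C x3445) x1825) x2041) x1969) x2005) x1993) x1985) x8547)
    (Nat.sub (Nat.sub (Nat.add (Nat.add (Nat.add (Nat.add (Nat.add (Nat.add C x3449) x1829) x2045) x2009) x1985) x1993) (Nat.mul x1991 (nat_lit 3))) x8551)
    (Nat.sub (Nat.add (Nat.add (Nat.add (Nat.add (Nat.add (Nat.add (Nat.add C x3451) x1831) x2047) x2011) x1987) x1991) x1995) x8553)
    (Nat.add (Nat.add (Nat.add (Nat.add (Nat.add (Nat.add C x1995) x3453) x1833) x2049) x2013) x1993)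
    (Nat.sub (Nat.sub (Nat.add (Nat.add (Nat.add (Nat.add (Nat.add (Nat.add C x3461) x1841) x2057) x1985) x2009) x2005) (Nat.mul x2003 (nat_lit 3))) x8563)
    (Nat.sub (Nat.sub (Nat.add (Nat.add (Nat.add (Nat.add (Nat.add (Nat.add C x3463) x1843) x2059) x1987) x2011) x2003) (Nat.mul x2005 (nat_lit 3))) x8565)
    (Nat.sub (Nat.sub (Nat.add (Nat.add (Nat.add (Nat.add (Nat.add (Nat.add C x3467) x1847) x2063) x1991) x2003) x2011) (Nat.mul x2009 (nat_lit 3))) x8569)
    (Nat.sub (Nat.sub (Nat.add (Nat.add (Nat.add (Nat.add (Nat.add (Nat.add (Nat.add (Nat.add C x3469) x1849) x2065) x1993) x2005) x2017) x2009) x2013) x2011) x8571)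
    (Nat.sub (Nat.add (Nat.add (Nat.add (Nat.add (Nat.add (Nat.add C x3471) x1851) x2067) x1995) x2019) x2011) x2013)
    (Nat.sub (Nat.sub (Nat.add (Nat.add (Nat.add (Nat.add (Nat.add C x3475) x1855) x2071) x2011) x2019) x2017) x8577)
    (Nat.add (Nat.add (Nat.add (Nat.add (Nat.add (Nat.add C x2019) x3477) x1857) x2073) x2013) x2017)
    (Nat.sub (Nat.add (Nat.add (Nat.add (Nat.add (Nat.add C x2033) x3491) x1871) x1979) x2039) x8593)
    (Nat.sub (Nat.add (Nat.add (Nat.add (Nat.add (Nat.add (Nat.add (Nat.add C x3497) x1877) x1985) x2057) x2033) x2045) x2041) x8599)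
    (Nat.sub (Nat.add (Nat.add (Nat.add (Nat.add (Nat.add (Nat.add (Nat.add C x2041) x3499) x1879) x1987) x2059) x2047) x2039) x8601)
    (Nat.sub (Nat.sub (Nat.add (Nat.add (Nat.add (Nat.add (Nat.add (Nat.add C x3503) x1883) x1991) x2063) x2039) x2047) (Nat.mul x2045 (nat_lit 3))) x8605)
    (Nat.sub (Nat.add (Nat.add (Nat.add (Nat.add (Nat.add (Nat.add (Nat.add C x3505) x1885) x1993) x2065) x2041) x2045) x2049) x8607)
    (Nat.add (Nat.add (Nat.add (Nat.add (Nat.add (Nat.add C x2049) x3507) x1887) x1995) x2067) x2047)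
    (Nat.sub (Nat.add (Nat.add (Nat.add (Nat.add (Nat.add (Nat.add (Nat.add C x3515) x1895) x2003) x2111) x2039) x2063) x2059) x8617)
    (Nat.sub (Nat.add (Nat.add (Nat.add (Nat.add (Nat.add (Nat.add (Nat.add C x3517) x1897) x2005) x2113) x2041) x2065) x2057) x8619)
    (Nat.sub (Nat.sub (Nat.add (Nat.add (Nat.add (Nat.add (Nat.add (Nat.add (Nat.add (Nat.add C x3521) x1901) x2009) x2117) x2045) x2081) x2057) x2065) x2063) x8623)
    (Nat.sub (Nat.add (Nat.add (Nat.add (Nat.add (Nat.add (Nat.add (Nat.add (Nat.add (Nat.add (Nat.add (Nat.add C x2065) x3523) x1903) x2011) x2119) x2047) x2083) x2059) x2071) x2063) x2067) x8625)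
    (Nat.add (Nat.add (Nat.add (Nat.add (Nat.add (Nat.add (Nat.add (Nat.add (Nat.add C x2067) x3525) x1905) x2013) x2121) x2049) x2085) x2073) x2065)
    (Nat.sub (Nat.add (Nat.add (Nat.add (Nat.add (Nat.add (Nat.add (Nat.add C x3529) x1909) x2017) x2125) x2089) x2065) x2073) x8631)
    (Nat.add (Nat.add (Nat.add (Nat.add (Nat.add (Nat.add (Nat.add (Nat.add C (Nat.mul x2073 (nat_lit 2))) x3531) x1911) x2019) x2127) x2091) x2067) x2071)
    (Nat.sub (Nat.sub (Nat.add (Nat.add (Nat.add (Nat.add (Nat.add C x3539) x1919) x2135) x2063) x2083) x2081) x8641)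
    (Nat.sub (Nat.add (Nat.add (Nat.add (Nat.add (Nat.add (Nat.add (Nat.add C x3541) x1921) x2137) x2065) x2089) x2081) x2085) x8643)
    (Nat.sub (Nat.add (Nat.add (Nat.add (Nat.add (Nat.add (Nat.add C x3543) x1923) x2139) x2067) x2091) x2083) x2085)
    (Nat.sub (Nat.add (Nat.add (Nat.add (Nat.add (Nat.add (Nat.add (Nat.add C x2089) x3547) x1927) x2143) x2071) x2083) x2091) x8649)
    (Nat.add (Nat.add (Nat.add (Nat.add (Nat.add (Nat.add (Nat.add (Nat.add C (Nat.mul x2091 (nat_lit 2))) x3549) x1929) x2145) x2073) x2085) x2097) x2089)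
    (Nat.add (Nat.add (Nat.add (Nat.add (Nat.add C (Nat.mul x2097 (nat_lit 3))) x3555) x1935) x2151) x2091)
    (Nat.sub (Nat.add (Nat.add (Nat.add (Nat.add (Nat.add C x2111) x3569) x2057) x2117) x2113) x8671)
    (Nat.sub (Nat.add (Nat.add (Nat.add (Nat.add (Nat.add C x2113) x3571) x2059) x2119) x2111) x8673)
    (Nat.sub (Nat.sub (Nat.add (Nat.add (Nat.add (Nat.add (Nat.add C x3575) x2063) x2135) x2111) x2119) x2117) x8677)
    (Nat.sub (Nat.add (Nat.add (Nat.add (Nat.add (Nat.add (Nat.add (Nat.add (Nat.add C x2119) x3577) x2065) x2137) x2113) x2125) x2117) x2121) x8679)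
    (Nat.add (Nat.add (Nat.add (Nat.add (Nat.add (Nat.add C x2121) x3579) x2067) x2139) x2127) x2119)
    (Nat.sub (Nat.sub (Nat.add (Nat.add (Nat.add (Nat.add (Nat.add C x3583) x2071) x2143) x2119) x2127) x2125) x8685)
    (Nat.add (Nat.add (Nat.add (Nat.add (Nat.add (Nat.add C x2127) x3585) x2073) x2145) x2121) x2125)
    (Nat.sub (Nat.add (Nat.add (Nat.add (Nat.add (Nat.add C x2135) x3593) x2081) x2117) x2137) x8695)
    (Nat.sub (Nat.add (Nat.add (Nat.add (Nat.add (Nat.add (Nat.add (Nat.add C (Nat.mul x2137 (nat_lit 2))) x3595) x2083) x2119) x2143) x2135) x2139) x8697)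
    (Nat.add (Nat.add (Nat.add (Nat.add (Nat.add (Nat.add C x2139) x3597) x2085) x2121) x2145) x2137)
    (Nat.sub (Nat.add (Nat.add (Nat.add (Nat.add (Nat.add (Nat.add (Nat.add C (Nat.mul x2143 (nat_lit 2))) x3601) x2089) x2125) x2161) x2137) x2145) x8703)
    (Nat.add (Nat.add (Nat.add (Nat.add (Nat.add (Nat.add (Nat.add (Nat.add C (Nat.mul x2145 (nat_lit 3))) x3603) x2091) x2127) x2163) x2139) x2151) x2143)
    (Nat.add (Nat.add (Nat.add (Nat.add (Nat.add C (Nat.mul x2151 (nat_lit 3))) x3609) x2097) x2169) x2145)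
    (Nat.sub (Nat.add (Nat.add (Nat.add (Nat.add C (Nat.mul x2161 (nat_lit 3))) x3619) x2143) x2163) x8721)
    (Nat.add (Nat.add (Nat.add (Nat.add (Nat.add C (Nat.mul x2163 (nat_lit 3))) x3621) x2145) x2169) x2161)
    (Nat.add (Nat.add (Nat.add (Nat.add C (Nat.mul x2169 (nat_lit 5))) x3627) x2151) x2163)
    (Nat.sub (Nat.add (Nat.add (Nat.add (Nat.add C (Nat.mul x2267 (nat_lit 3))) x6641) x809) x2321) x8827)
    (Nat.sub (Nat.add (Nat.add (Nat.add (Nat.add (Nat.add (Nat.add (Nat.add C (Nat.mul x2321 (nat_lit 2))) x6695) x863) x2483) x2267) x2375) x2339) x8881)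
    (Nat.sub (Nat.add (Nat.add (Nat.add (Nat.add (Nat.add (Nat.add (Nat.add C x2339) x6713) x881) x2501) x2393) x2321) x2345) x8899)
    (Nat.sub (Nat.add (Nat.add (Nat.add (Nat.add (Nat.add (Nat.add (Nat.add C x2345) x6719) x887) x2507) x2399) x2339) x2347) x8905)
    (Nat.sub (Nat.add (Nat.add (Nat.add (Nat.add (Nat.add (Nat.add C (Nat.mul x2347 (nat_lit 3))) x6721) x889) x2509) x2401) x2345) x8907)
    (Nat.sub (Nat.sub (Nat.add (Nat.add (Nat.add (Nat.add (Nat.add C x6749) x917) x2537) x2321) x2393) x2375) x8935)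
    (Nat.sub (Nat.add (Nat.add (Nat.add (Nat.add (Nat.add (Nat.add (Nat.add C x6767) x935) x2555) x2339) x2375) x2411) x2399) x8953)
    (Nat.sub (Nat.sub (Nat.add (Nat.add (Nat.add (Nat.add (Nat.add (Nat.add (Nat.add C x6773) x941) x2561) x2345) x2417) x2393) x2401) x2399) x8959)
    (Nat.sub (Nat.add (Nat.add (Nat.add (Nat.add (Nat.add (Nat.add (Nat.add C x2401) x6775) x943) x2563) x2347) x2419) x2399) x8961)
    (Nat.sub (Nat.sub (Nat.add (Nat.add (Nat.add (Nat.add (Nat.add C x6785) x953) x2573) x2393) x2417) x2411) x8971)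
    (Nat.sub (Nat.add (Nat.add (Nat.add (Nat.add (Nat.add (Nat.add (Nat.add C x6791) x959) x2579) x2399) x2411) x2423) x2419) x8977)
    (Nat.sub (Nat.add (Nat.add (Nat.add (Nat.add (Nat.add (Nat.add (Nat.add C x2419) x6793) x961) x2581) x2401) x2425) x2417) x8979)
    (Nat.sub (Nat.sub (Nat.add (Nat.add (Nat.add (Nat.add (Nat.add C x6797) x965) x2585) x2417) x2425) x2423) x8983)
    (Nat.sub (Nat.add (Nat.add (Nat.add (Nat.add (Nat.add (Nat.add (Nat.add C (Nat.mul x2425 (nat_lit 2))) x6799) x967) x2587) x2419) x2423) x2427) x8985)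
    (Nat.add (Nat.add (Nat.add (Nat.add (Nat.add C (Nat.mul x2427 (nat_lit 3))) x6801) x969) x2589) x2425)
    (Nat.sub (Nat.add (Nat.add (Nat.add (Nat.add (Nat.add (Nat.add (Nat.add C x2483) x6857) x1025) x2969) x2321) x2537) x2501) x9043)
    (Nat.sub (Nat.sub (Nat.add (Nat.add (Nat.add (Nat.add (Nat.add (Nat.add (Nat.add C x6875) x1043) x2987) x2339) x2555) x2483) x2507) x2501) x9061)
    (Nat.sub (Nat.sub (Nat.add (Nat.add (Nat.add (Nat.add (Nat.add (Nat.add (Nat.add C x6881) x1049) x2993) x2345) x2561) x2501) x2509) x2507) x9067)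
    (Nat.sub (Nat.add (Nat.add (Nat.add (Nat.add (Nat.add (Nat.add (Nat.add C x2509) x6883) x1051) x2995) x2347) x2563) x2507) x9069)
    (Nat.sub (Nat.add (Nat.add (Nat.add (Nat.add (Nat.add (Nat.add (Nat.add C x6911) x1079) x3023) x2375) x2699) x2483) x2555) x9097)
    (Nat.sub (Nat.add (Nat.add (Nat.add (Nat.add (Nat.add (Nat.add (Nat.add (Nat.add (Nat.add (Nat.add C x6929) x1097) x3041) x2393) x2717) x2501) x2609) x2537) x2573) x2561) x9115)
    (Nat.sub (Nat.sub (Nat.sub (Nat.add (Nat.add (Nat.add (Nat.add (Nat.add (Nat.add (Nat.add (Nat.add (Nat.add (Nat.add (Nat.add C x6935) x1103) x3047) x2399) x2723) x2507) x2615) x2579) x2555) x2563) (Nat.mul (e (nat_lit 2561)) ap)) x2561) x9121) (Nat.mul (e (nat_lit 2561)) an))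
    (Nat.sub (Nat.add (Nat.add (Nat.add (Nat.add (Nat.add (Nat.add (Nat.add (Nat.add (Nat.add (Nat.add C x2563) x6937) x1105) x3049) x2401) x2725) x2509) x2617) x2581) x2561) x9123)
    (Nat.sub (Nat.sub (Nat.add (Nat.add (Nat.add (Nat.add (Nat.add (Nat.add (Nat.add (Nat.add C x6947) x1115) x3059) x2411) x2735) x2627) x2555) x2579) (Nat.mul x2573 (nat_lit 2))) x9133)
    (Nat.sub (Nat.sub (Nat.sub (Nat.add (Nat.add (Nat.add (Nat.add (Nat.add (Nat.add (Nat.add (Nat.add (Nat.add (Nat.add (Nat.add C x6953) x1121) x3065) x2417) x2741) x2633) x2561) x2573) x2585) x2581) (Nat.mul (e (nat_lit 2579)) ap)) x2579) x9139) (Nat.mul (e (nat_lit 2579)) an))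
    (Nat.sub (Nat.sub (Nat.add (Nat.add (Nat.add (Nat.add (Nat.add (Nat.add (Nat.add (Nat.add (Nat.add (Nat.add C x6955) x1123) x3067) x2419) x2743) x2635) x2563) x2587) x2579) (Nat.mul (e (nat_lit 2581)) ap)) x9141) (Nat.mul (e (nat_lit 2581)) an))
    (Nat.sub (Nat.sub (Nat.add (Nat.add (Nat.add (Nat.add (Nat.add (Nat.add (Nat.add (Nat.add C x6959) x1127) x3071) x2423) x2747) x2639) x2579) x2587) (Nat.mul x2585 (nat_lit 2))) x9145)
    (Nat.sub (Nat.add (Nat.add (Nat.add (Nat.add (Nat.add (Nat.add (Nat.add (Nat.add (Nat.add (Nat.add C x2587) x6961) x1129) x3073) x2425) x2749) x2641) x2581) x2585) x2589) x9147)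
    (Nat.add (Nat.add (Nat.add (Nat.add (Nat.add (Nat.add (Nat.add (Nat.add C (Nat.mul x2589 (nat_lit 2))) x6963) x1131) x3075) x2427) x2751) x2643) x2587)
    (Nat.sub (Nat.sub (Nat.add (Nat.add (Nat.add (Nat.add (Nat.add (Nat.add (Nat.add C x6983) x1151) x3095) x2771) x2555) x2627) x2615) x2609) x9169)
    (Nat.sub (Nat.sub (Nat.sub (Nat.add (Nat.add (Nat.add (Nat.add (Nat.add (Nat.add (Nat.add (Nat.add (Nat.add C x6989) x1157) x3101) x2777) x2561) x2633) x2609) x2617) (Nat.mul (e (nat_lit 2615)) ap)) (Nat.mul x2615 (nat_lit 3))) x9175) (Nat.mul (e (nat_lit 2615)) an))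
    (Nat.sub (Nat.sub (Nat.add (Nat.add (Nat.add (Nat.add (Nat.add (Nat.add (Nat.add C x6991) x1159) x3103) x2779) x2563) x2635) x2615) x2617) x9177)
    (Nat.sub (Nat.sub (Nat.add (Nat.add (Nat.add (Nat.add (Nat.add (Nat.add (Nat.add C x7001) x1169) x3113) x2789) x2573) x2609) x2633) x2627) x9187)
    (Nat.sub (Nat.sub (Nat.sub (Nat.add (Nat.add (Nat.add (Nat.add (Nat.add (Nat.add (Nat.add (Nat.add (Nat.add (Nat.add (Nat.add C x7007) x1175) x3119) x2795) x2579) x2615) x2651) x2627) x2639) x2635) (Nat.mul (e (nat_lit 2633)) ap)) x2633) x9193) (Nat.mul (e (nat_lit 2633)) an))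
    (Nat.sub (Nat.sub (Nat.add (Nat.add (Nat.add (Nat.add (Nat.add (Nat.add (Nat.add (Nat.add (Nat.add (Nat.add C x7009) x1177) x3121) x2797) x2581) x2617) x2653) x2641) x2633) (Nat.mul (e (nat_lit 2635)) ap)) x9195) (Nat.mul (e (nat_lit 2635)) an))
    (Nat.sub (Nat.sub (Nat.sub (Nat.add (Nat.add (Nat.add (Nat.add (Nat.add (Nat.add (Nat.add (Nat.add (Nat.add C x7013) x1181) x3125) x2801) x2585) x2657) x2633) x2641) (Nat.mul (e (nat_lit 2639)) ap)) (Nat.mul x2639 (nat_lit 3))) x9199) (Nat.mul (e (nat_lit 2639)) an))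
    (Nat.sub (Nat.add (Nat.add (Nat.add (Nat.add (Nat.add (Nat.add (Nat.add (Nat.add (Nat.add C x7015) x1183) x3127) x2803) x2587) x2659) x2635) x2639) x2643) x9201)
    (Nat.add (Nat.add (Nat.add (Nat.add (Nat.add (Nat.add (Nat.add (Nat.add C x2643) x7017) x1185) x3129) x2805) x2589) x2661) x2641)
    (Nat.sub (Nat.sub (Nat.add (Nat.add (Nat.add (Nat.add (Nat.add (Nat.add (Nat.add C x7025) x1193) x3137) x2813) x2633) x2657) x2653) x2651) x9211)
    (Nat.sub (Nat.sub (Nat.add (Nat.add (Nat.add (Nat.add (Nat.add (Nat.add (Nat.add C x7027) x1195) x3139) x2815) x2635) x2659) x2651) x2653) x9213)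
    (Nat.sub (Nat.sub (Nat.add (Nat.add (Nat.add (Nat.add (Nat.add (Nat.add (Nat.add C x7031) x1199) x3143) x2819) x2639) x2651) x2659) x2657) x9217)
    (Nat.sub (Nat.add (Nat.add (Nat.add (Nat.add (Nat.add (Nat.add (Nat.add (Nat.add (Nat.add (Nat.add C x2659) x7033) x1201) x3145) x2821) x2641) x2653) x2665) x2657) x2661) x9219)
    (Nat.add (Nat.add (Nat.add (Nat.add (Nat.add (Nat.add (Nat.add (Nat.add C x2661) x7035) x1203) x3147) x2823) x2643) x2667) x2659)
    (Nat.sub (Nat.add (Nat.add (Nat.add (Nat.add (Nat.add (Nat.add (Nat.add C x2665) x7039) x1207) x3151) x2827) x2659) x2667) x9225)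
    (Nat.add (Nat.add (Nat.add (Nat.add (Nat.add (Nat.add (Nat.add C (Nat.mul x2667 (nat_lit 3))) x7041) x1209) x3153) x2829) x2661) x2665)
    (Nat.sub (Nat.sub (Nat.add (Nat.add (Nat.add (Nat.add (Nat.add C x7073) x1241) x3185) x2537) x2717) x2699) x9259)
    (Nat.sub (Nat.sub (Nat.add (Nat.add (Nat.add (Nat.add (Nat.add (Nat.add (Nat.add (Nat.add C x7091) x1259) x3203) x2555) x2771) x2699) x2735) x2723) (Nat.mul x2717 (nat_lit 2))) x9277)
    (Nat.sub (Nat.sub (Nat.add (Nat.add (Nat.add (Nat.add (Nat.add (Nat.add (Nat.add (Nat.add C x7097) x1265) x3209) x2561) x2777) x2741) x2717) x2725) (Nat.mul x2723 (nat_lit 3))) x9283)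
    (Nat.sub (Nat.sub (Nat.add (Nat.add (Nat.add (Nat.add (Nat.add (Nat.add (Nat.add C x7099) x1267) x3211) x2563) x2779) x2743) x2723) x2725) x9285)
    (Nat.sub (Nat.sub (Nat.add (Nat.add (Nat.add (Nat.add (Nat.add (Nat.add (Nat.add C x7109) x1277) x3221) x2573) x2789) x2717) x2741) (Nat.mul x2735 (nat_lit 5))) x9295)
    (Nat.sub (Nat.sub (Nat.sub (Nat.add (Nat.add (Nat.add (Nat.add (Nat.add (Nat.add (Nat.add (Nat.add (Nat.add (Nat.add C x7115) x1283) x3227) x2579) x2795) x2723) x2735) x2747) x2743) (Nat.mul (e (nat_lit 2741)) ap)) (Nat.mul x2741 (nat_lit 4))) x9301) (Nat.mul (e (nat_lit 2741)) an))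
    (Nat.sub (Nat.sub (Nat.add (Nat.add (Nat.add (Nat.add (Nat.add (Nat.add (Nat.add (Nat.add C x7117) x1285) x3229) x2581) x2797) x2725) x2749) x2741) (Nat.mul x2743 (nat_lit 3))) x9303)
    (Nat.sub (Nat.sub (Nat.add (Nat.add (Nat.add (Nat.add (Nat.add (Nat.add (Nat.add C x7121) x1289) x3233) x2585) x2801) x2741) x2749) (Nat.mul x2747 (nat_lit 5))) x9307)
    (Nat.sub (Nat.sub (Nat.add (Nat.add (Nat.add (Nat.add (Nat.add (Nat.add (Nat.add (Nat.add C x7123) x1291) x3235) x2587) x2803) x2743) x2747) x2751) (Nat.mul x2749 (nat_lit 2))) x9309)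
    (Nat.sub (Nat.add (Nat.add (Nat.add (Nat.add (Nat.add (Nat.add C x7125) x1293) x3237) x2589) x2805) x2749) x2751)
    (Nat.sub (Nat.sub (Nat.add (Nat.add (Nat.add (Nat.add (Nat.add (Nat.add (Nat.add C x7145) x1313) x3257) x2609) x2717) x2789) x2777) x2771) x9331)
    (Nat.sub (Nat.sub (Nat.sub (Nat.add (Nat.add (Nat.add (Nat.add (Nat.add (Nat.add (Nat.add (Nat.add (Nat.add C x7151) x1319) x3263) x2615) x2723) x2795) x2771) x2779) (Nat.mul (e (nat_lit 2777)) ap)) (Nat.mul x2777 (nat_lit 3))) x9337) (Nat.mul (e (nat_lit 2777)) an))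
    (Nat.sub (Nat.sub (Nat.add (Nat.add (Nat.add (Nat.add (Nat.add (Nat.add (Nat.add C x7153) x1321) x3265) x2617) x2725) x2797) x2777) x2779) x9339)
    (Nat.sub (Nat.sub (Nat.add (Nat.add (Nat.add (Nat.add (Nat.add (Nat.add (Nat.add (Nat.add C x7163) x1331) x3275) x2627) x2735) x2843) x2771) x2795) (Nat.mul x2789 (nat_lit 2))) x9349)
    (Nat.sub (Nat.sub (Nat.sub (Nat.add (Nat.add (Nat.add (Nat.add (Nat.add (Nat.add (Nat.add (Nat.add (Nat.add (Nat.add (Nat.add (Nat.add C x7169) x1337) x3281) x2633) x2741) x2849) x2777) x2813) x2789) x2801) x2797) (Nat.mul (e (nat_lit 2795)) ap)) (Nat.mul x2795 (nat_lit 2))) x9355) (Nat.mul (e (nat_lit 2795)) an))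
    (Nat.sub (Nat.sub (Nat.add (Nat.add (Nat.add (Nat.add (Nat.add (Nat.add (Nat.add (Nat.add (Nat.add (Nat.add C x7171) x1339) x3283) x2635) x2743) x2851) x2779) x2815) x2803) x2795) x2797) x9357)
    (Nat.sub (Nat.sub (Nat.add (Nat.add (Nat.add (Nat.add (Nat.add (Nat.add (Nat.add (Nat.add (Nat.add C x7175) x1343) x3287) x2639) x2747) x2855) x2819) x2795) x2803) (Nat.mul x2801 (nat_lit 4))) x9361)
    (Nat.sub (Nat.sub (Nat.add (Nat.add (Nat.add (Nat.add (Nat.add (Nat.add (Nat.add (Nat.add (Nat.add (Nat.add C x7177) x1345) x3289) x2641) x2749) x2857) x2821) x2797) x2801) x2805) x2803) x9363)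
    (Nat.add (Nat.add (Nat.add (Nat.add (Nat.add (Nat.add (Nat.add (Nat.add C x7179) x1347) x3291) x2643) x2751) x2859) x2823) x2803)
    (Nat.sub (Nat.sub (Nat.add (Nat.add (Nat.add (Nat.add (Nat.add (Nat.add (Nat.add (Nat.add C x7187) x1355) x3299) x2651) x2867) x2795) x2819) x2815) (Nat.mul x2813 (nat_lit 3))) x9373)
    (Nat.sub (Nat.sub (Nat.add (Nat.add (Nat.add (Nat.add (Nat.add (Nat.add (Nat.add (Nat.add C x7189) x1357) x3301) x2653) x2869) x2797) x2821) x2813) (Nat.mul x2815 (nat_lit 3))) x9375)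
    (Nat.sub (Nat.sub (Nat.add (Nat.add (Nat.add (Nat.add (Nat.add (Nat.add (Nat.add (Nat.add C x7193) x1361) x3305) x2657) x2873) x2801) x2813) x2821) (Nat.mul x2819 (nat_lit 3))) x9379)
    (Nat.sub (Nat.sub (Nat.add (Nat.add (Nat.add (Nat.add (Nat.add (Nat.add (Nat.add (Nat.add (Nat.add (Nat.add C x7195) x1363) x3307) x2659) x2875) x2803) x2815) x2827) x2819) x2823) x2821) x9381)
    (Nat.sub (Nat.add (Nat.add (Nat.add (Nat.add (Nat.add (Nat.add (Nat.add (Nat.add C x7197) x1365) x3309) x2661) x2877) x2805) x2829) x2821) x2823)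
    (Nat.sub (Nat.sub (Nat.add (Nat.add (Nat.add (Nat.add (Nat.add (Nat.add (Nat.add C x7201) x1369) x3313) x2665) x2881) x2821) x2829) x2827) x9387)
    (Nat.add (Nat.add (Nat.add (Nat.add (Nat.add (Nat.add (Nat.add (Nat.add C x2829) x7203) x1371) x3315) x2667) x2883) x2823) x2827)
    (Nat.sub (Nat.sub (Nat.add (Nat.add (Nat.add (Nat.add (Nat.add C x7217) x1385) x3329) x2789) x2849) x2843) x9403)
    (Nat.sub (Nat.sub (Nat.add (Nat.add (Nat.add (Nat.add (Nat.add (Nat.add (Nat.add (Nat.add C x7223) x1391) x3335) x2795) x2867) x2843) x2855) x2851) (Nat.mul x2849 (nat_lit 2))) x9409)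
    (Nat.sub (Nat.sub (Nat.add (Nat.add (Nat.add (Nat.add (Nat.add (Nat.add (Nat.add C x7225) x1393) x3337) x2797) x2869) x2857) x2849) x2851) x9411)
    (Nat.sub (Nat.sub (Nat.add (Nat.add (Nat.add (Nat.add (Nat.add (Nat.add (Nat.add C x7229) x1397) x3341) x2801) x2873) x2849) x2857) (Nat.mul x2855 (nat_lit 5))) x9415)
    (Nat.sub (Nat.sub (Nat.add (Nat.add (Nat.add (Nat.add (Nat.add (Nat.add (Nat.add (Nat.add C x7231) x1399) x3343) x2803) x2875) x2851) x2855) x2859) (Nat.mul x2857 (nat_lit 2))) x9417)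
    (Nat.sub (Nat.add (Nat.add (Nat.add (Nat.add (Nat.add (Nat.add C x7233) x1401) x3345) x2805) x2877) x2857) x2859)
    (Nat.sub (Nat.sub (Nat.add (Nat.add (Nat.add (Nat.add (Nat.add (Nat.add (Nat.add C x7241) x1409) x3353) x2813) x2849) x2873) x2869) x2867) x9427)
    (Nat.sub (Nat.sub (Nat.add (Nat.add (Nat.add (Nat.add (Nat.add (Nat.add (Nat.add C x7243) x1411) x3355) x2815) x2851) x2875) x2867) x2869) x9429)
    (Nat.sub (Nat.sub (Nat.add (Nat.add (Nat.add (Nat.add (Nat.add (Nat.add (Nat.add (Nat.add C x7247) x1415) x3359) x2819) x2855) x2891) x2867) x2875) (Nat.mul x2873 (nat_lit 2))) x9433)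
    (Nat.sub (Nat.add (Nat.add (Nat.add (Nat.add (Nat.add (Nat.add (Nat.add (Nat.add (Nat.add (Nat.add C x7249) x1417) x3361) x2821) x2857) x2893) x2869) x2881) x2873) x2877) x9435)
    (Nat.add (Nat.add (Nat.add (Nat.add (Nat.add (Nat.add (Nat.add (Nat.add C x7251) x1419) x3363) x2823) x2859) x2895) x2883) x2875)
    (Nat.sub (Nat.sub (Nat.add (Nat.add (Nat.add (Nat.add (Nat.add (Nat.add (Nat.add C x7255) x1423) x3367) x2827) x2899) x2875) x2883) x2881) x9441)
    (Nat.add (Nat.add (Nat.add (Nat.add (Nat.add (Nat.add (Nat.add (Nat.add C x2883) x7257) x1425) x3369) x2829) x2901) x2877) x2881)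
    (Nat.sub (Nat.sub (Nat.add (Nat.add (Nat.add (Nat.add (Nat.add C x7265) x1433) x3377) x2873) x2893) x2891) x9451)
    (Nat.sub (Nat.add (Nat.add (Nat.add (Nat.add (Nat.add (Nat.add (Nat.add C x7267) x1435) x3379) x2875) x2899) x2891) x2895) x9453)
    (Nat.sub (Nat.add (Nat.add (Nat.add (Nat.add (Nat.add (Nat.add C x7269) x1437) x3381) x2877) x2901) x2893) x2895)
    (Nat.sub (Nat.add (Nat.add (Nat.add (Nat.add (Nat.add (Nat.add (Nat.add C x2899) x7273) x1441) x3385) x2881) x2893) x2901) x9459)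
    (Nat.add (Nat.add (Nat.add (Nat.add (Nat.add (Nat.add (Nat.add (Nat.add C (Nat.mul x2901 (nat_lit 2))) x7275) x1443) x3387) x2883) x2895) x2907) x2899)
    (Nat.add (Nat.add (Nat.add (Nat.add (Nat.add C (Nat.mul x2907 (nat_lit 3))) x7281) x1449) x3393) x2901)
    (Nat.sub (Nat.add (Nat.add (Nat.add (Nat.add (Nat.add (Nat.add (Nat.add C (Nat.mul x2969 (nat_lit 2))) x7343) x1511) x4427) x2483) x3023) x2987) x9529)
    (Nat.sub (Nat.add (Nat.add (Nat.add (Nat.add (Nat.add (Nat.add (Nat.add C x7361) x1529) x4445) x2501) x3041) x2969) x2993) x9547)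
    (Nat.sub (Nat.add (Nat.add (Nat.add (Nat.add (Nat.add (Nat.add (Nat.add C x7367) x1535) x4451) x2507) x3047) x2987) x2995) x9553)
    (Nat.sub (Nat.add (Nat.add (Nat.add (Nat.add (Nat.add (Nat.add (Nat.add C (Nat.mul x2995 (nat_lit 2))) x7369) x1537) x4453) x2509) x3049) x2993) x9555)
    (Nat.sub (Nat.add (Nat.add (Nat.add (Nat.add (Nat.add (Nat.add (Nat.add C x7397) x1565) x4481) x2537) x3185) x2969) x3041) x9583)
    (Nat.sub (Nat.add (Nat.add (Nat.add (Nat.add (Nat.add (Nat.add (Nat.add (Nat.add (Nat.add (Nat.add C x7415) x1583) x4499) x2555) x3203) x2987) x3095) x3023) x3059) x3047) x9601)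
    (Nat.sub (Nat.sub (Nat.add (Nat.add (Nat.add (Nat.add (Nat.add (Nat.add (Nat.add (Nat.add (Nat.add (Nat.add C x7421) x1589) x4505) x2561) x3209) x2993) x3101) x3065) x3041) x3049) x3047) x9607)
    (Nat.sub (Nat.add (Nat.add (Nat.add (Nat.add (Nat.add (Nat.add (Nat.add (Nat.add (Nat.add (Nat.add C x3049) x7423) x1591) x4507) x2563) x3211) x2995) x3103) x3067) x3047) x9609)
    (Nat.sub (Nat.sub (Nat.add (Nat.add (Nat.add (Nat.add (Nat.add (Nat.add (Nat.add (Nat.add C x7433) x1601) x4517) x2573) x3221) x3113) x3041) x3065) (Nat.mul x3059 (nat_lit 2))) x9619)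
    (Nat.sub (Nat.sub (Nat.sub (Nat.add (Nat.add (Nat.add (Nat.add (Nat.add (Nat.add (Nat.add (Nat.add (Nat.add (Nat.add (Nat.add C x7439) x1607) x4523) x2579) x3227) x3119) x3047) x3059) x3071) x3067) (Nat.mul (e (nat_lit 3065)) ap)) x3065) x9625) (Nat.mul (e (nat_lit 3065)) an))
    (Nat.sub (Nat.add (Nat.add (Nat.add (Nat.add (Nat.add (Nat.add (Nat.add (Nat.add (Nat.add C x7441) x1609) x4525) x2581) x3229) x3121) x3049) x3073) x3065) x9627)
    (Nat.sub (Nat.sub (Nat.add (Nat.add (Nat.add (Nat.add (Nat.add (Nat.add (Nat.add (Nat.add C x7445) x1613) x4529) x2585) x3233) x3125) x3065) x3073) (Nat.mul x3071 (nat_lit 2))) x9631)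
    (Nat.sub (Nat.add (Nat.add (Nat.add (Nat.add (Nat.add (Nat.add (Nat.add (Nat.add (Nat.add (Nat.add C x3073) x7447) x1615) x4531) x2587) x3235) x3127) x3067) x3071) x3075) x9633)
    (Nat.add (Nat.add (Nat.add (Nat.add (Nat.add (Nat.add (Nat.add (Nat.add C (Nat.mul x3075 (nat_lit 2))) x7449) x1617) x4533) x2589) x3237) x3129) x3073)
    (Nat.sub (Nat.sub (Nat.add (Nat.add (Nat.add (Nat.add (Nat.add (Nat.add (Nat.add (Nat.add C x7469) x1637) x4553) x2609) x3257) x3041) x3113) x3101) (Nat.mul x3095 (nat_lit 2))) x9655)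
    (Nat.sub (Nat.sub (Nat.add (Nat.add (Nat.add (Nat.add (Nat.add (Nat.add (Nat.add (Nat.add (Nat.add C x7475) x1643) x4559) x2615) x3263) x3047) x3119) x3095) x3103) (Nat.mul x3101 (nat_lit 4))) x9661)
    (Nat.sub (Nat.sub (Nat.add (Nat.add (Nat.add (Nat.add (Nat.add (Nat.add (Nat.add (Nat.add C x7477) x1645) x4561) x2617) x3265) x3049) x3121) x3101) (Nat.mul x3103 (nat_lit 2))) x9663)
    (Nat.sub (Nat.sub (Nat.add (Nat.add (Nat.add (Nat.add (Nat.add (Nat.add (Nat.add (Nat.add C x7487) x1655) x4571) x2627) x3275) x3059) x3095) x3119) (Nat.mul x3113 (nat_lit 2))) x9673)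
    (Nat.sub (Nat.sub (Nat.sub (Nat.add (Nat.add (Nat.add (Nat.add (Nat.add (Nat.add (Nat.add (Nat.add (Nat.add (Nat.add (Nat.add (Nat.add C x7493) x1661) x4577) x2633) x3281) x3065) x3101) x3137) x3113) x3125) x3121) (Nat.mul (e (nat_lit 3119)) ap)) (Nat.mul x3119 (nat_lit 2))) x9679) (Nat.mul (e (nat_lit 3119)) an))
    (Nat.sub (Nat.sub (Nat.add (Nat.add (Nat.add (Nat.add (Nat.add (Nat.add (Nat.add (Nat.add (Nat.add (Nat.add C x7495) x1663) x4579) x2635) x3283) x3067) x3103) x3139) x3127) x3119) x3121) x9681)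
    (Nat.sub (Nat.sub (Nat.add (Nat.add (Nat.add (Nat.add (Nat.add (Nat.add (Nat.add (Nat.add (Nat.add C x7499) x1667) x4583) x2639) x3287) x3071) x3143) x3119) x3127) (Nat.mul x3125 (nat_lit 4))) x9685)
    (Nat.sub (Nat.sub (Nat.add (Nat.add (Nat.add (Nat.add (Nat.add (Nat.add (Nat.add (Nat.add (Nat.add (Nat.add C x7501) x1669) x4585) x2641) x3289) x3073) x3145) x3121) x3125) x3129) x3127) x9687)
    (Nat.add (Nat.add (Nat.add (Nat.add (Nat.add (Nat.add (Nat.add (Nat.add C x7503) x1671) x4587) x2643) x3291) x3075) x3147) x3127)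
    (Nat.sub (Nat.sub (Nat.add (Nat.add (Nat.add (Nat.add (Nat.add (Nat.add (Nat.add (Nat.add C x7511) x1679) x4595) x2651) x3299) x3119) x3143) x3139) (Nat.mul x3137 (nat_lit 2))) x9697)
    (Nat.sub (Nat.sub (Nat.add (Nat.add (Nat.add (Nat.add (Nat.add (Nat.add (Nat.add (Nat.add C x7513) x1681) x4597) x2653) x3301) x3121) x3145) x3137) (Nat.mul x3139 (nat_lit 2))) x9699)
    (Nat.sub (Nat.sub (Nat.add (Nat.add (Nat.add (Nat.add (Nat.add (Nat.add (Nat.add (Nat.add C x7517) x1685) x4601) x2657) x3305) x3125) x3137) x3145) (Nat.mul x3143 (nat_lit 2))) x9703)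
    (Nat.sub (Nat.add (Nat.add (Nat.add (Nat.add (Nat.add (Nat.add (Nat.add (Nat.add (Nat.add (Nat.add C x7519) x1687) x4603) x2659) x3307) x3127) x3139) x3151) x3143) x3147) x9705)
    (Nat.add (Nat.add (Nat.add (Nat.add (Nat.add (Nat.add (Nat.add (Nat.add C x7521) x1689) x4605) x2661) x3309) x3129) x3153) x3145)
    (Nat.sub (Nat.add (Nat.add (Nat.add (Nat.add (Nat.add (Nat.add (Nat.add C x7525) x1693) x4609) x2665) x3313) x3145) x3153) x9711)
    (Nat.add (Nat.add (Nat.add (Nat.add (Nat.add (Nat.add (Nat.add (Nat.add C (Nat.mul x3153 (nat_lit 2))) x7527) x1695) x4611) x2667) x3315) x3147) x3151)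
    (Nat.sub (Nat.add (Nat.add (Nat.add (Nat.add (Nat.add (Nat.add (Nat.add (Nat.add C x3185) x7559) x1727) x4643) x2699) x3671) x3023) x3203) x9745)
    (Nat.sub (Nat.add (Nat.add (Nat.add (Nat.add (Nat.add (Nat.add (Nat.add (Nat.add (Nat.add (Nat.add C x7577) x1745) x4661) x2717) x3689) x3041) x3257) x3185) x3221) x3209) x9763)
    (Nat.sub (Nat.sub (Nat.add (Nat.add (Nat.add (Nat.add (Nat.add (Nat.add (Nat.add (Nat.add (Nat.add (Nat.add C x7583) x1751) x4667) x2723) x3695) x3047) x3263) x3227) x3203) x3211) x3209) x9769)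
    (Nat.sub (Nat.add (Nat.add (Nat.add (Nat.add (Nat.add (Nat.add (Nat.add (Nat.add (Nat.add (Nat.add C x3211) x7585) x1753) x4669) x2725) x3697) x3049) x3265) x3229) x3209) x9771)
    (Nat.sub (Nat.sub (Nat.add (Nat.add (Nat.add (Nat.add (Nat.add (Nat.add (Nat.add (Nat.add (Nat.add C x7595) x1763) x4679) x2735) x3707) x3059) x3275) x3203) x3227) (Nat.mul x3221 (nat_lit 3))) x9781)
    (Nat.sub (Nat.sub (Nat.add (Nat.add (Nat.add (Nat.add (Nat.add (Nat.add (Nat.add (Nat.add (Nat.add (Nat.add (Nat.add C x7601) x1769) x4685) x2741) x3713) x3065) x3281) x3209) x3221) x3233) x3229) (Nat.mul x3227 (nat_lit 2))) x9787)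
    (Nat.sub (Nat.sub (Nat.add (Nat.add (Nat.add (Nat.add (Nat.add (Nat.add (Nat.add (Nat.add (Nat.add (Nat.add C x7603) x1771) x4687) x2743) x3715) x3067) x3283) x3211) x3235) x3227) x3229) x9789)
    (Nat.sub (Nat.sub (Nat.add (Nat.add (Nat.add (Nat.add (Nat.add (Nat.add (Nat.add (Nat.add (Nat.add C x7607) x1775) x4691) x2747) x3719) x3071) x3287) x3227) x3235) (Nat.mul x3233 (nat_lit 3))) x9793)
    (Nat.sub (Nat.add (Nat.add (Nat.add (Nat.add (Nat.add (Nat.add (Nat.add (Nat.add (Nat.add (Nat.add C x7609) x1777) x4693) x2749) x3721) x3073) x3289) x3229) x3233) x3237) x9795)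
    (Nat.add (Nat.add (Nat.add (Nat.add (Nat.add (Nat.add (Nat.add (Nat.add (Nat.add C x3237) x7611) x1779) x4695) x2751) x3723) x3075) x3291) x3235)
    (Nat.sub (Nat.add (Nat.add (Nat.add (Nat.add (Nat.add (Nat.add (Nat.add (Nat.add (Nat.add (Nat.add C x7631) x1799) x4715) x2771) x3743) x3095) x3419) x3203) x3275) x3263) x9817)
    (Nat.sub (Nat.sub (Nat.add (Nat.add (Nat.add (Nat.add (Nat.add (Nat.add (Nat.add (Nat.add (Nat.add (Nat.add (Nat.add C x7637) x1805) x4721) x2777) x3749) x3101) x3425) x3209) x3281) x3257) x3265) (Nat.mul x3263 (nat_lit 2))) x9823)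
    (Nat.sub (Nat.add (Nat.add (Nat.add (Nat.add (Nat.add (Nat.add (Nat.add (Nat.add (Nat.add (Nat.add C x7639) x1807) x4723) x2779) x3751) x3103) x3427) x3211) x3283) x3263) x9825)
    (Nat.sub (Nat.sub (Nat.add (Nat.add (Nat.add (Nat.add (Nat.add (Nat.add (Nat.add (Nat.add (Nat.add (Nat.add (Nat.add C x7649) x1817) x4733) x2789) x3761) x3113) x3437) x3221) x3329) x3257) x3281) x3275) x9835)
    (Nat.sub (Nat.sub (Nat.sub (Nat.add (Nat.add (Nat.add (Nat.add (Nat.add (Nat.add (Nat.add (Nat.add (Nat.add (Nat.add (Nat.add (Nat.add (Nat.add (Nat.add (Nat.add C x7655) x1823) x4739) x2795) x3767) x3119) x3443) x3227) x3335) x3263) x3299) x3275) x3287) x3283) (Nat.mul (e (nat_lit 3281)) ap)) x3281) x9841) (Nat.mul (e (nat_lit 3281)) an))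
    (Nat.sub (Nat.sub (Nat.add (Nat.add (Nat.add (Nat.add (Nat.add (Nat.add (Nat.add (Nat.add (Nat.add (Nat.add (Nat.add (Nat.add (Nat.add (Nat.add C x7657) x1825) x4741) x2797) x3769) x3121) x3445) x3229) x3337) x3265) x3301) x3289) x3281) (Nat.mul (e (nat_lit 3283)) ap)) x9843) (Nat.mul (e (nat_lit 3283)) an))
    (Nat.sub (Nat.sub (Nat.sub (Nat.add (Nat.add (Nat.add (Nat.add (Nat.add (Nat.add (Nat.add (Nat.add (Nat.add (Nat.add (Nat.add (Nat.add (Nat.add C x7661) x1829) x4745) x2801) x3773) x3125) x3449) x3233) x3341) x3305) x3281) x3289) (Nat.mul (e (nat_lit 3287)) ap)) (Nat.mul x3287 (nat_lit 3))) x9847) (Nat.mul (e (nat_lit 3287)) an))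
    (Nat.sub (Nat.sub (Nat.add (Nat.add (Nat.add (Nat.add (Nat.add (Nat.add (Nat.add (Nat.add (Nat.add (Nat.add (Nat.add (Nat.add (Nat.add (Nat.add C x7663) x1831) x4747) x2803) x3775) x3127) x3451) x3235) x3343) x3307) x3283) x3287) x3291) (Nat.mul (e (nat_lit 3289)) ap)) x9849) (Nat.mul (e (nat_lit 3289)) an))
    (Nat.add (Nat.add (Nat.add (Nat.add (Nat.add (Nat.add (Nat.add (Nat.add (Nat.add (Nat.add (Nat.add (Nat.add C x3291) x7665) x1833) x4749) x2805) x3777) x3129) x3453) x3237) x3345) x3309) x3289)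
    (Nat.sub (Nat.sub (Nat.sub (Nat.add (Nat.add (Nat.add (Nat.add (Nat.add (Nat.add (Nat.add (Nat.add (Nat.add (Nat.add (Nat.add (Nat.add C x7673) x1841) x4757) x2813) x3785) x3137) x3461) x3353) x3281) x3305) x3301) (Nat.mul (e (nat_lit 3299)) ap)) (Nat.mul x3299 (nat_lit 2))) x9859) (Nat.mul (e (nat_lit 3299)) an))
    (Nat.sub (Nat.sub (Nat.sub (Nat.add (Nat.add (Nat.add (Nat.add (Nat.add (Nat.add (Nat.add (Nat.add (Nat.add (Nat.add (Nat.add (Nat.add C x7675) x1843) x4759) x2815) x3787) x3139) x3463) x3355) x3283) x3307) x3299) (Nat.mul (e (nat_lit 3301)) ap)) (Nat.mul x3301 (nat_lit 2))) x9861) (Nat.mul (e (nat_lit 3301)) an))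
    (Nat.sub (Nat.sub (Nat.add (Nat.add (Nat.add (Nat.add (Nat.add (Nat.add (Nat.add (Nat.add (Nat.add (Nat.add (Nat.add C x7679) x1847) x4763) x2819) x3791) x3143) x3467) x3359) x3287) x3299) x3307) (Nat.mul x3305 (nat_lit 2))) x9865)
    (Nat.sub (Nat.sub (Nat.add (Nat.add (Nat.add (Nat.add (Nat.add (Nat.add (Nat.add (Nat.add (Nat.add (Nat.add (Nat.add (Nat.add (Nat.add (Nat.add C x7681) x1849) x4765) x2821) x3793) x3145) x3469) x3361) x3289) x3301) x3313) x3305) x3309) (Nat.mul (e (nat_lit 3307)) ap)) x9867) (Nat.mul (e (nat_lit 3307)) an))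
    (Nat.add (Nat.add (Nat.add (Nat.add (Nat.add (Nat.add (Nat.add (Nat.add (Nat.add (Nat.add (Nat.add C x7683) x1851) x4767) x2823) x3795) x3147) x3471) x3363) x3291) x3315) x3307)
    (Nat.sub (Nat.add (Nat.add (Nat.add (Nat.add (Nat.add (Nat.add (Nat.add (Nat.add (Nat.add (Nat.add C x7687) x1855) x4771) x2827) x3799) x3151) x3475) x3367) x3307) x3315) x9873)
    (Nat.add (Nat.add (Nat.add (Nat.add (Nat.add (Nat.add (Nat.add (Nat.add (Nat.add (Nat.add (Nat.add C (Nat.mul x3315 (nat_lit 2))) x7689) x1857) x4773) x2829) x3801) x3153) x3477) x3369) x3309) x3313)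
    (Nat.sub (Nat.sub (Nat.add (Nat.add (Nat.add (Nat.add (Nat.add (Nat.add (Nat.add (Nat.add C x7703) x1871) x4787) x2843) x3815) x3491) x3275) x3335) x3329) x9889)
    (Nat.sub (Nat.sub (Nat.sub (Nat.add (Nat.add (Nat.add (Nat.add (Nat.add (Nat.add (Nat.add (Nat.add (Nat.add (Nat.add (Nat.add (Nat.add C x7709) x1877) x4793) x2849) x3821) x3497) x3281) x3353) x3329) x3341) x3337) (Nat.mul (e (nat_lit 3335)) ap)) (Nat.mul x3335 (nat_lit 2))) x9895) (Nat.mul (e (nat_lit 3335)) an))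
    (Nat.sub (Nat.sub (Nat.sub (Nat.add (Nat.add (Nat.add (Nat.add (Nat.add (Nat.add (Nat.add (Nat.add (Nat.add (Nat.add (Nat.add C x7711) x1879) x4795) x2851) x3823) x3499) x3283) x3355) x3343) x3335) (Nat.mul (e (nat_lit 3337)) ap)) x3337) x9897) (Nat.mul (e (nat_lit 3337)) an))
    (Nat.sub (Nat.sub (Nat.sub (Nat.add (Nat.add (Nat.add (Nat.add (Nat.add (Nat.add (Nat.add (Nat.add (Nat.add (Nat.add (Nat.add C x7715) x1883) x4799) x2855) x3827) x3503) x3287) x3359) x3335) x3343) (Nat.mul (e (nat_lit 3341)) ap)) (Nat.mul x3341 (nat_lit 5))) x9901) (Nat.mul (e (nat_lit 3341)) an))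
    (Nat.sub (Nat.sub (Nat.sub (Nat.add (Nat.add (Nat.add (Nat.add (Nat.add (Nat.add (Nat.add (Nat.add (Nat.add (Nat.add (Nat.add (Nat.add C x7717) x1885) x4801) x2857) x3829) x3505) x3289) x3361) x3337) x3341) x3345) (Nat.mul (e (nat_lit 3343)) ap)) (Nat.mul x3343 (nat_lit 2))) x9903) (Nat.mul (e (nat_lit 3343)) an))
    (Nat.sub (Nat.add (Nat.add (Nat.add (Nat.add (Nat.add (Nat.add (Nat.add (Nat.add (Nat.add C x7719) x1887) x4803) x2859) x3831) x3507) x3291) x3363) x3343) x3345)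
    (Nat.sub (Nat.sub (Nat.add (Nat.add (Nat.add (Nat.add (Nat.add (Nat.add (Nat.add (Nat.add (Nat.add (Nat.add C x7727) x1895) x4811) x2867) x3839) x3515) x3299) x3335) x3359) x3355) x3353) x9913)
    (Nat.sub (Nat.sub (Nat.sub (Nat.add (Nat.add (Nat.add (Nat.add (Nat.add (Nat.add (Nat.add (Nat.add (Nat.add (Nat.add (Nat.add C x7729) x1897) x4813) x2869) x3841) x3517) x3301) x3337) x3361) x3353) (Nat.mul (e (nat_lit 3355)) ap)) x3355) x9915) (Nat.mul (e (nat_lit 3355)) an))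
    (Nat.sub (Nat.sub (Nat.add (Nat.add (Nat.add (Nat.add (Nat.add (Nat.add (Nat.add (Nat.add (Nat.add (Nat.add (Nat.add C x7733) x1901) x4817) x2873) x3845) x3521) x3305) x3341) x3377) x3353) x3361) (Nat.mul x3359 (nat_lit 2))) x9919)
    (Nat.sub (Nat.add (Nat.add (Nat.add (Nat.add (Nat.add (Nat.add (Nat.add (Nat.add (Nat.add (Nat.add (Nat.add (Nat.add (Nat.add C x7735) x1903) x4819) x2875) x3847) x3523) x3307) x3343) x3379) x3355) x3367) x3359) x3363) x9921)
    (Nat.add (Nat.add (Nat.add (Nat.add (Nat.add (Nat.add (Nat.add (Nat.add (Nat.add (Nat.add (Nat.add C x7737) x1905) x4821) x2877) x3849) x3525) x3309) x3345) x3381) x3369) x3361)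
    (Nat.sub (Nat.sub (Nat.add (Nat.add (Nat.add (Nat.add (Nat.add (Nat.add (Nat.add (Nat.add (Nat.add (Nat.add C x7741) x1909) x4825) x2881) x3853) x3529) x3313) x3385) x3361) x3369) x3367) x9927)
    (Nat.add (Nat.add (Nat.add (Nat.add (Nat.add (Nat.add (Nat.add (Nat.add (Nat.add (Nat.add (Nat.add C x3369) x7743) x1911) x4827) x2883) x3855) x3531) x3315) x3387) x3363) x3367)
    (Nat.sub (Nat.sub (Nat.add (Nat.add (Nat.add (Nat.add (Nat.add (Nat.add (Nat.add (Nat.add C x7751) x1919) x4835) x2891) x3863) x3539) x3359) x3379) x3377) x9937)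
    (Nat.sub (Nat.add (Nat.add (Nat.add (Nat.add (Nat.add (Nat.add (Nat.add (Nat.add (Nat.add (Nat.add C x7753) x1921) x4837) x2893) x3865) x3541) x3361) x3385) x3377) x3381) x9939)
    (Nat.sub (Nat.add (Nat.add (Nat.add (Nat.add (Nat.add (Nat.add (Nat.add (Nat.add (Nat.add C x7755) x1923) x4839) x2895) x3867) x3543) x3363) x3387) x3379) x3381)
    (Nat.sub (Nat.add (Nat.add (Nat.add (Nat.add (Nat.add (Nat.add (Nat.add (Nat.add (Nat.add (Nat.add C x3385) x7759) x1927) x4843) x2899) x3871) x3547) x3367) x3379) x3387) x9945)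
    (Nat.add (Nat.add (Nat.add (Nat.add (Nat.add (Nat.add (Nat.add (Nat.add (Nat.add (Nat.add (Nat.add C (Nat.mul x3387 (nat_lit 2))) x7761) x1929) x4845) x2901) x3873) x3549) x3369) x3381) x3393) x3385)
    (Nat.add (Nat.add (Nat.add (Nat.add (Nat.add (Nat.add (Nat.add (Nat.add C (Nat.mul x3393 (nat_lit 3))) x7767) x1935) x4851) x2907) x3879) x3555) x3387)
    (Nat.sub (Nat.add (Nat.add (Nat.add (Nat.add (Nat.add (Nat.add (Nat.add C x7793) x1961) x4877) x3905) x3257) x3437) x3425) x9979)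
    (Nat.sub (Nat.sub (Nat.add (Nat.add (Nat.add (Nat.add (Nat.add (Nat.add (Nat.add (Nat.add C x7799) x1967) x4883) x3911) x3263) x3443) x3419) x3427) (Nat.mul x3425 (nat_lit 2))) x9985)
    (Nat.sub (Nat.add (Nat.add (Nat.add (Nat.add (Nat.add (Nat.add (Nat.add C x7801) x1969) x4885) x3913) x3265) x3445) x3425) x9987)
    (Nat.sub (Nat.sub (Nat.add (Nat.add (Nat.add (Nat.add (Nat.add (Nat.add (Nat.add (Nat.add C x7811) x1979) x4895) x3923) x3275) x3491) x3419) x3443) (Nat.mul x3437 (nat_lit 2))) x9997)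
    (Nat.sub (Nat.sub (Nat.add (Nat.add (Nat.add (Nat.add (Nat.add (Nat.add (Nat.add (Nat.add (Nat.add (Nat.add (Nat.add C x7817) x1985) x4901) x3929) x3281) x3497) x3425) x3461) x3437) x3449) x3445) (Nat.mul x3443 (nat_lit 2))) x10003)
    (Nat.sub (Nat.sub (Nat.sub (Nat.add (Nat.add (Nat.add (Nat.add (Nat.add (Nat.add (Nat.add (Nat.add (Nat.add (Nat.add (Nat.add C x7819) x1987) x4903) x3931) x3283) x3499) x3427) x3463) x3451) x3443) (Nat.mul (e (nat_lit 3445)) ap)) x3445) x10005) (Nat.mul (e (nat_lit 3445)) an))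
    (Nat.sub (Nat.sub (Nat.sub (Nat.add (Nat.add (Nat.add (Nat.add (Nat.add (Nat.add (Nat.add (Nat.add (Nat.add (Nat.add C x7823) x1991) x4907) x3935) x3287) x3503) x3467) x3443) x3451) (Nat.mul (e (nat_lit 3449)) ap)) (Nat.mul x3449 (nat_lit 4))) x10009) (Nat.mul (e (nat_lit 3449)) an))
    (Nat.sub (Nat.sub (Nat.sub (Nat.add (Nat.add (Nat.add (Nat.add (Nat.add (Nat.add (Nat.add (Nat.add (Nat.add (Nat.add (Nat.add C x7825) x1993) x4909) x3937) x3289) x3505) x3469) x3445) x3449) x3453) (Nat.mul (e (nat_lit 3451)) ap)) x3451) x10011) (Nat.mul (e (nat_lit 3451)) an))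
    (Nat.add (Nat.add (Nat.add (Nat.add (Nat.add (Nat.add (Nat.add (Nat.add C x7827) x1995) x4911) x3939) x3291) x3507) x3471) x3451)
    (Nat.sub (Nat.sub (Nat.add (Nat.add (Nat.add (Nat.add (Nat.add (Nat.add (Nat.add (Nat.add (Nat.add C x7835) x2003) x4919) x3947) x3299) x3515) x3443) x3467) x3463) (Nat.mul x3461 (nat_lit 4))) x10021)
    (Nat.sub (Nat.sub (Nat.sub (Nat.add (Nat.add (Nat.add (Nat.add (Nat.add (Nat.add (Nat.add (Nat.add (Nat.add (Nat.add C x7837) x2005) x4921) x3949) x3301) x3517) x3445) x3469) x3461) (Nat.mul (e (nat_lit 3463)) ap)) (Nat.mul x3463 (nat_lit 4))) x10023) (Nat.mul (e (nat_lit 3463)) an))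
    (Nat.sub (Nat.sub (Nat.sub (Nat.add (Nat.add (Nat.add (Nat.add (Nat.add (Nat.add (Nat.add (Nat.add (Nat.add (Nat.add C x7841) x2009) x4925) x3953) x3305) x3521) x3449) x3461) x3469) (Nat.mul (e (nat_lit 3467)) ap)) (Nat.mul x3467 (nat_lit 4))) x10027) (Nat.mul (e (nat_lit 3467)) an))
    (Nat.sub (Nat.sub (Nat.add (Nat.add (Nat.add (Nat.add (Nat.add (Nat.add (Nat.add (Nat.add (Nat.add (Nat.add (Nat.add C x7843) x2011) x4927) x3955) x3307) x3523) x3451) x3463) x3475) x3467) x3471) (Nat.mul x3469 (nat_lit 2))) x10029)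
    (Nat.sub (Nat.add (Nat.add (Nat.add (Nat.add (Nat.add (Nat.add (Nat.add (Nat.add (Nat.add C x7845) x2013) x4929) x3957) x3309) x3525) x3453) x3477) x3469) (Nat.mul x3471 (nat_lit 2)))
    (Nat.sub (Nat.sub (Nat.add (Nat.add (Nat.add (Nat.add (Nat.add (Nat.add (Nat.add (Nat.add C x7849) x2017) x4933) x3961) x3313) x3529) x3469) x3477) (Nat.mul x3475 (nat_lit 2))) x10035)
    (Nat.add (Nat.add (Nat.add (Nat.add (Nat.add (Nat.add (Nat.add (Nat.add C x7851) x2019) x4935) x3963) x3315) x3531) x3471) x3475)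
    (Nat.sub (Nat.add (Nat.add (Nat.add (Nat.add (Nat.add (Nat.add (Nat.add C x7865) x2033) x4949) x3977) x3329) x3437) x3497) x10051)
    (Nat.sub (Nat.sub (Nat.add (Nat.add (Nat.add (Nat.add (Nat.add (Nat.add (Nat.add (Nat.add (Nat.add (Nat.add C x7871) x2039) x4955) x3983) x3335) x3443) x3515) x3491) x3503) x3499) x3497) x10057)
    (Nat.sub (Nat.sub (Nat.add (Nat.add (Nat.add (Nat.add (Nat.add (Nat.add (Nat.add (Nat.add (Nat.add (Nat.add C x7873) x2041) x4957) x3985) x3337) x3445) x3517) x3505) x3497) (Nat.mul (e (nat_lit 3499)) ap)) x10059) (Nat.mul (e (nat_lit 3499)) an))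
    (Nat.sub (Nat.sub (Nat.add (Nat.add (Nat.add (Nat.add (Nat.add (Nat.add (Nat.add (Nat.add (Nat.add C x7877) x2045) x4961) x3989) x3341) x3449) x3521) x3497) x3505) (Nat.mul x3503 (nat_lit 4))) x10063)
    (Nat.sub (Nat.sub (Nat.add (Nat.add (Nat.add (Nat.add (Nat.add (Nat.add (Nat.add (Nat.add (Nat.add (Nat.add C x7879) x2047) x4963) x3991) x3343) x3451) x3523) x3499) x3503) x3507) x3505) x10065)
    (Nat.add (Nat.add (Nat.add (Nat.add (Nat.add (Nat.add (Nat.add (Nat.add C x7881) x2049) x4965) x3993) x3345) x3453) x3525) x3505)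
    (Nat.sub (Nat.sub (Nat.add (Nat.add (Nat.add (Nat.add (Nat.add (Nat.add (Nat.add (Nat.add (Nat.add (Nat.add C x7889) x2057) x4973) x4001) x3353) x3461) x3569) x3497) x3521) x3517) x3515) x10075)
    (Nat.sub (Nat.sub (Nat.add (Nat.add (Nat.add (Nat.add (Nat.add (Nat.add (Nat.add (Nat.add (Nat.add (Nat.add C x7891) x2059) x4975) x4003) x3355) x3463) x3571) x3499) x3523) x3515) x3517) x10077)
    (Nat.sub (Nat.sub (Nat.add (Nat.add (Nat.add (Nat.add (Nat.add (Nat.add (Nat.add (Nat.add (Nat.add (Nat.add (Nat.add C x7895) x2063) x4979) x4007) x3359) x3467) x3575) x3503) x3539) x3515) x3523) (Nat.mul x3521 (nat_lit 2))) x10081)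
    (Nat.sub (Nat.add (Nat.add (Nat.add (Nat.add (Nat.add (Nat.add (Nat.add (Nat.add (Nat.add (Nat.add (Nat.add (Nat.add (Nat.add C x7897) x2065) x4981) x4009) x3361) x3469) x3577) x3505) x3541) x3517) x3529) x3521) x3525) x10083)
    (Nat.add (Nat.add (Nat.add (Nat.add (Nat.add (Nat.add (Nat.add (Nat.add (Nat.add (Nat.add (Nat.add C x7899) x2067) x4983) x4011) x3363) x3471) x3579) x3507) x3543) x3531) x3523)
    (Nat.sub (Nat.sub (Nat.add (Nat.add (Nat.add (Nat.add (Nat.add (Nat.add (Nat.add (Nat.add (Nat.add (Nat.add C x7903) x2071) x4987) x4015) x3367) x3475) x3583) x3547) x3523) x3531) x3529) x10089)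
    (Nat.add (Nat.add (Nat.add (Nat.add (Nat.add (Nat.add (Nat.add (Nat.add (Nat.add (Nat.add (Nat.add C x3531) x7905) x2073) x4989) x4017) x3369) x3477) x3585) x3549) x3525) x3529)
    (Nat.sub (Nat.sub (Nat.add (Nat.add (Nat.add (Nat.add (Nat.add (Nat.add (Nat.add (Nat.add C x7913) x2081) x4997) x4025) x3377) x3593) x3521) x3541) (Nat.mul x3539 (nat_lit 2))) x10099)
    (Nat.sub (Nat.sub (Nat.add (Nat.add (Nat.add (Nat.add (Nat.add (Nat.add (Nat.add (Nat.add (Nat.add (Nat.add C x7915) x2083) x4999) x4027) x3379) x3595) x3523) x3547) x3539) x3543) x3541) x10101)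
    (Nat.sub (Nat.add (Nat.add (Nat.add (Nat.add (Nat.add (Nat.add (Nat.add (Nat.add (Nat.add C x7917) x2085) x5001) x4029) x3381) x3597) x3525) x3549) x3541) (Nat.mul x3543 (nat_lit 2)))
    (Nat.sub (Nat.add (Nat.add (Nat.add (Nat.add (Nat.add (Nat.add (Nat.add (Nat.add (Nat.add C x7921) x2089) x5005) x4033) x3385) x3601) x3529) x3541) x3549) x10107)
    (Nat.add (Nat.add (Nat.add (Nat.add (Nat.add (Nat.add (Nat.add (Nat.add (Nat.add (Nat.add (Nat.add C x3549) x7923) x2091) x5007) x4035) x3387) x3603) x3531) x3543) x3555) x3547)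
    (Nat.add (Nat.add (Nat.add (Nat.add (Nat.add (Nat.add (Nat.add (Nat.add C (Nat.mul x3555 (nat_lit 2))) x7929) x2097) x5013) x4041) x3393) x3609) x3549)
    (Nat.sub (Nat.add (Nat.add (Nat.add (Nat.add (Nat.add (Nat.add (Nat.add C x7943) x2111) x5027) x4055) x3515) x3575) x3571) x10129)
    (Nat.sub (Nat.add (Nat.add (Nat.add (Nat.add (Nat.add (Nat.add (Nat.add C x7945) x2113) x5029) x4057) x3517) x3577) x3569) x10131)
    (Nat.sub (Nat.sub (Nat.add (Nat.add (Nat.add (Nat.add (Nat.add (Nat.add (Nat.add (Nat.add C x7949) x2117) x5033) x4061) x3521) x3593) x3569) x3577) (Nat.mul x3575 (nat_lit 2))) x10135)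
    (Nat.sub (Nat.add (Nat.add (Nat.add (Nat.add (Nat.add (Nat.add (Nat.add (Nat.add (Nat.add (Nat.add C x7951) x2119) x5035) x4063) x3523) x3595) x3571) x3583) x3575) x3579) x10137)
    (Nat.add (Nat.add (Nat.add (Nat.add (Nat.add (Nat.add (Nat.add (Nat.add C x7953) x2121) x5037) x4065) x3525) x3597) x3585) x3577)
    (Nat.sub (Nat.sub (Nat.add (Nat.add (Nat.add (Nat.add (Nat.add (Nat.add (Nat.add (Nat.add C x7957) x2125) x5041) x4069) x3529) x3601) x3577) x3585) (Nat.mul x3583 (nat_lit 2))) x10143)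
    (Nat.add (Nat.add (Nat.add (Nat.add (Nat.add (Nat.add (Nat.add (Nat.add C x7959) x2127) x5043) x4071) x3531) x3603) x3579) x3583)
    (Nat.sub (Nat.add (Nat.add (Nat.add (Nat.add (Nat.add (Nat.add (Nat.add C x7967) x2135) x5051) x4079) x3539) x3575) x3595) x10153)
    (Nat.sub (Nat.add (Nat.add (Nat.add (Nat.add (Nat.add (Nat.add (Nat.add (Nat.add (Nat.add (Nat.add C x3595) x7969) x2137) x5053) x4081) x3541) x3577) x3601) x3593) x3597) x10155)
    (Nat.add (Nat.add (Nat.add (Nat.add (Nat.add (Nat.add (Nat.add (Nat.add C x7971) x2139) x5055) x4083) x3543) x3579) x3603) x3595)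
    (Nat.sub (Nat.add (Nat.add (Nat.add (Nat.add (Nat.add (Nat.add (Nat.add (Nat.add (Nat.add (Nat.add C x3601) x7975) x2143) x5059) x4087) x3547) x3583) x3619) x3595) x3603) x10161)
    (Nat.add (Nat.add (Nat.add (Nat.add (Nat.add (Nat.add (Nat.add (Nat.add (Nat.add (Nat.add (Nat.add C (Nat.mul x3603 (nat_lit 2))) x7977) x2145) x5061) x4089) x3549) x3585) x3621) x3597) x3609) x3601)
    (Nat.add (Nat.add (Nat.add (Nat.add (Nat.add (Nat.add (Nat.add (Nat.add C (Nat.mul x3609 (nat_lit 2))) x7983) x2151) x5067) x4095) x3555) x3627) x3603)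
    (Nat.sub (Nat.add (Nat.add (Nat.add (Nat.add (Nat.add (Nat.add (Nat.add C (Nat.mul x3619 (nat_lit 2))) x7993) x2161) x5077) x4105) x3601) x3621) x10179)
    (Nat.add (Nat.add (Nat.add (Nat.add (Nat.add (Nat.add (Nat.add (Nat.add C (Nat.mul x3621 (nat_lit 2))) x7995) x2163) x5079) x4107) x3603) x3627) x3619)
    (Nat.add (Nat.add (Nat.add (Nat.add (Nat.add (Nat.add (Nat.add C (Nat.mul x3627 (nat_lit 4))) x8001) x2169) x5085) x4113) x3609) x3621)
    (Nat.sub (Nat.add (Nat.add (Nat.add (Nat.add (Nat.add C x3671) x8045) x5129) x3185) x3689) x10231)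
    (Nat.sub (Nat.add (Nat.add (Nat.add (Nat.add (Nat.add (Nat.add (Nat.add C x8063) x5147) x3203) x3743) x3671) x3707) x3695) x10249)
    (Nat.sub (Nat.sub (Nat.add (Nat.add (Nat.add (Nat.add (Nat.add (Nat.add (Nat.add C x8069) x5153) x3209) x3749) x3713) x3689) x3697) x3695) x10255)
    (Nat.sub (Nat.add (Nat.add (Nat.add (Nat.add (Nat.add (Nat.add (Nat.add C x3697) x8071) x5155) x3211) x3751) x3715) x3695) x10257)
    (Nat.sub (Nat.sub (Nat.add (Nat.add (Nat.add (Nat.add (Nat.add (Nat.add C x8081) x5165) x3221) x3761) x3689) x3713) (Nat.mul x3707 (nat_lit 3))) x10267)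
    (Nat.sub (Nat.sub (Nat.add (Nat.add (Nat.add (Nat.add (Nat.add (Nat.add (Nat.add (Nat.add C x8087) x5171) x3227) x3767) x3695) x3707) x3719) x3715) (Nat.mul x3713 (nat_lit 2))) x10273)
    (Nat.sub (Nat.sub (Nat.add (Nat.add (Nat.add (Nat.add (Nat.add (Nat.add (Nat.add C x8089) x5173) x3229) x3769) x3697) x3721) x3713) x3715) x10275)
    (Nat.sub (Nat.sub (Nat.add (Nat.add (Nat.add (Nat.add (Nat.add (Nat.add C x8093) x5177) x3233) x3773) x3713) x3721) (Nat.mul x3719 (nat_lit 3))) x10279)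
    (Nat.sub (Nat.add (Nat.add (Nat.add (Nat.add (Nat.add (Nat.add (Nat.add C x8095) x5179) x3235) x3775) x3715) x3719) x3723) x10281)
    (Nat.add (Nat.add (Nat.add (Nat.add (Nat.add (Nat.add C x3723) x8097) x5181) x3237) x3777) x3721)
    (Nat.sub (Nat.sub (Nat.add (Nat.add (Nat.add (Nat.add (Nat.add (Nat.add (Nat.add C x8117) x5201) x3257) x3905) x3689) x3761) x3749) x3743) x10303)
    (Nat.sub (Nat.sub (Nat.add (Nat.add (Nat.add (Nat.add (Nat.add (Nat.add (Nat.add (Nat.add C x8123) x5207) x3263) x3911) x3695) x3767) x3743) x3751) (Nat.mul x3749 (nat_lit 3))) x10309)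
    (Nat.sub (Nat.sub (Nat.add (Nat.add (Nat.add (Nat.add (Nat.add (Nat.add (Nat.add C x8125) x5209) x3265) x3913) x3697) x3769) x3749) x3751) x10311)
    (Nat.sub (Nat.sub (Nat.add (Nat.add (Nat.add (Nat.add (Nat.add (Nat.add (Nat.add (Nat.add C x8135) x5219) x3275) x3923) x3707) x3815) x3743) x3767) (Nat.mul x3761 (nat_lit 2))) x10321)
    (Nat.sub (Nat.sub (Nat.add (Nat.add (Nat.add (Nat.add (Nat.add (Nat.add (Nat.add (Nat.add (Nat.add (Nat.add (Nat.add C x8141) x5225) x3281) x3929) x3713) x3821) x3749) x3785) x3761) x3773) x3769) (Nat.mul x3767 (nat_lit 2))) x10327)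
    (Nat.sub (Nat.sub (Nat.add (Nat.add (Nat.add (Nat.add (Nat.add (Nat.add (Nat.add (Nat.add (Nat.add (Nat.add C x8143) x5227) x3283) x3931) x3715) x3823) x3751) x3787) x3775) x3767) x3769) x10329)
    (Nat.sub (Nat.sub (Nat.add (Nat.add (Nat.add (Nat.add (Nat.add (Nat.add (Nat.add (Nat.add (Nat.add C x8147) x5231) x3287) x3935) x3719) x3827) x3791) x3767) x3775) (Nat.mul x3773 (nat_lit 4))) x10333)
    (Nat.sub (Nat.sub (Nat.add (Nat.add (Nat.add (Nat.add (Nat.add (Nat.add (Nat.add (Nat.add (Nat.add (Nat.add C x8149) x5233) x3289) x3937) x3721) x3829) x3793) x3769) x3773) x3777) x3775) x10335)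
    (Nat.add (Nat.add (Nat.add (Nat.add (Nat.add (Nat.add (Nat.add (Nat.add C x8151) x5235) x3291) x3939) x3723) x3831) x3795) x3775)
    (Nat.sub (Nat.sub (Nat.sub (Nat.add (Nat.add (Nat.add (Nat.add (Nat.add (Nat.add (Nat.add (Nat.add (Nat.add C x8159) x5243) x3299) x3947) x3839) x3767) x3791) x3787) (Nat.mul (e (nat_lit 3785)) ap)) (Nat.mul x3785 (nat_lit 3))) x10345) (Nat.mul (e (nat_lit 3785)) an))
    (Nat.sub (Nat.sub (Nat.sub (Nat.add (Nat.add (Nat.add (Nat.add (Nat.add (Nat.add (Nat.add (Nat.add (Nat.add C x8161) x5245) x3301) x3949) x3841) x3769) x3793) x3785) (Nat.mul (e (nat_lit 3787)) ap)) (Nat.mul x3787 (nat_lit 3))) x10347) (Nat.mul (e (nat_lit 3787)) an))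
    (Nat.sub (Nat.sub (Nat.add (Nat.add (Nat.add (Nat.add (Nat.add (Nat.add (Nat.add (Nat.add C x8165) x5249) x3305) x3953) x3845) x3773) x3785) x3793) (Nat.mul x3791 (nat_lit 3))) x10351)
    (Nat.sub (Nat.sub (Nat.add (Nat.add (Nat.add (Nat.add (Nat.add (Nat.add (Nat.add (Nat.add (Nat.add (Nat.add C x8167) x5251) x3307) x3955) x3847) x3775) x3787) x3799) x3791) x3795) x3793) x10353)
    (Nat.sub (Nat.add (Nat.add (Nat.add (Nat.add (Nat.add (Nat.add (Nat.add (Nat.add C x8169) x5253) x3309) x3957) x3849) x3777) x3801) x3793) x3795)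
    (Nat.sub (Nat.sub (Nat.add (Nat.add (Nat.add (Nat.add (Nat.add (Nat.add (Nat.add C x8173) x5257) x3313) x3961) x3853) x3793) x3801) x3799) x10359)
    (Nat.add (Nat.add (Nat.add (Nat.add (Nat.add (Nat.add (Nat.add (Nat.add C x3801) x8175) x5259) x3315) x3963) x3855) x3795) x3799)
    (Nat.sub (Nat.sub (Nat.add (Nat.add (Nat.add (Nat.add (Nat.add (Nat.add C x8189) x5273) x3329) x3977) x3761) x3821) (Nat.mul x3815 (nat_lit 3))) x10375)
    (Nat.sub (Nat.sub (Nat.add (Nat.add (Nat.add (Nat.add (Nat.add (Nat.add (Nat.add (Nat.add (Nat.add C x8195) x5279) x3335) x3983) x3767) x3839) x3815) x3827) x3823) (Nat.mul x3821 (nat_lit 4))) x10381)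
    (Nat.sub (Nat.sub (Nat.sub (Nat.add (Nat.add (Nat.add (Nat.add (Nat.add (Nat.add (Nat.add (Nat.add (Nat.add C x8197) x5281) x3337) x3985) x3769) x3841) x3829) x3821) (Nat.mul (e (nat_lit 3823)) ap)) (Nat.mul x3823 (nat_lit 3))) x10383) (Nat.mul (e (nat_lit 3823)) an))
    (Nat.sub (Nat.sub (Nat.sub (Nat.add (Nat.add (Nat.add (Nat.add (Nat.add (Nat.add (Nat.add (Nat.add (Nat.add C x8201) x5285) x3341) x3989) x3773) x3845) x3821) x3829) (Nat.mul (e (nat_lit 3827)) ap)) (Nat.mul x3827 (nat_lit 7))) x10387) (Nat.mul (e (nat_lit 3827)) an))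
    (Nat.sub (Nat.sub (Nat.add (Nat.add (Nat.add (Nat.add (Nat.add (Nat.add (Nat.add (Nat.add (Nat.add C x8203) x5287) x3343) x3991) x3775) x3847) x3823) x3827) x3831) (Nat.mul x3829 (nat_lit 4))) x10389)
    (Nat.sub (Nat.add (Nat.add (Nat.add (Nat.add (Nat.add (Nat.add (Nat.add C x8205) x5289) x3345) x3993) x3777) x3849) x3829) (Nat.mul x3831 (nat_lit 3)))
    (Nat.sub (Nat.sub (Nat.add (Nat.add (Nat.add (Nat.add (Nat.add (Nat.add (Nat.add (Nat.add C x8213) x5297) x3353) x4001) x3785) x3821) x3845) x3841) (Nat.mul x3839 (nat_lit 3))) x10399)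
    (Nat.sub (Nat.sub (Nat.add (Nat.add (Nat.add (Nat.add (Nat.add (Nat.add (Nat.add (Nat.add C x8215) x5299) x3355) x4003) x3787) x3823) x3847) x3839) (Nat.mul x3841 (nat_lit 3))) x10401)
    (Nat.sub (Nat.sub (Nat.add (Nat.add (Nat.add (Nat.add (Nat.add (Nat.add (Nat.add (Nat.add (Nat.add C x8219) x5303) x3359) x4007) x3791) x3827) x3863) x3839) x3847) (Nat.mul x3845 (nat_lit 4))) x10405)
    (Nat.sub (Nat.sub (Nat.add (Nat.add (Nat.add (Nat.add (Nat.add (Nat.add (Nat.add (Nat.add (Nat.add (Nat.add (Nat.add C x8221) x5305) x3361) x4009) x3793) x3829) x3865) x3841) x3853) x3845) x3849) (Nat.mul x3847 (nat_lit 2))) x10407)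
    (Nat.sub (Nat.add (Nat.add (Nat.add (Nat.add (Nat.add (Nat.add (Nat.add (Nat.add (Nat.add C x8223) x5307) x3363) x4011) x3795) x3831) x3867) x3855) x3847) (Nat.mul x3849 (nat_lit 2)))
    (Nat.sub (Nat.sub (Nat.add (Nat.add (Nat.add (Nat.add (Nat.add (Nat.add (Nat.add (Nat.add C x8227) x5311) x3367) x4015) x3799) x3871) x3847) x3855) (Nat.mul x3853 (nat_lit 3))) x10413)
    (Nat.sub (Nat.add (Nat.add (Nat.add (Nat.add (Nat.add (Nat.add (Nat.add (Nat.add C x8229) x5313) x3369) x4017) x3801) x3873) x3849) x3853) x3855)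
    (Nat.sub (Nat.sub (Nat.add (Nat.add (Nat.add (Nat.add (Nat.add (Nat.add C x8237) x5321) x3377) x4025) x3845) x3865) (Nat.mul x3863 (nat_lit 3))) x10423)
    (Nat.sub (Nat.sub (Nat.add (Nat.add (Nat.add (Nat.add (Nat.add (Nat.add (Nat.add (Nat.add C x8239) x5323) x3379) x4027) x3847) x3871) x3863) x3867) (Nat.mul x3865 (nat_lit 2))) x10425)
    (Nat.sub (Nat.add (Nat.add (Nat.add (Nat.add (Nat.add (Nat.add (Nat.add C x8241) x5325) x3381) x4029) x3849) x3873) x3865) (Nat.mul x3867 (nat_lit 3)))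
    (Nat.sub (Nat.sub (Nat.add (Nat.add (Nat.add (Nat.add (Nat.add (Nat.add (Nat.add C x8245) x5329) x3385) x4033) x3853) x3865) x3873) x3871) x10431)
    (Nat.add (Nat.add (Nat.add (Nat.add (Nat.add (Nat.add (Nat.add (Nat.add C x8247) x5331) x3387) x4035) x3855) x3867) x3879) x3871)
    (Nat.add (Nat.add (Nat.add (Nat.add (Nat.add (Nat.add C x3879) x8253) x5337) x3393) x4041) x3873)
    (Nat.sub (Nat.add (Nat.add (Nat.add (Nat.add (Nat.add (Nat.add (Nat.add C x3905) x8279) x5363) x3419) x3743) x3923) x3911) x10465)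
    (Nat.sub (Nat.sub (Nat.add (Nat.add (Nat.add (Nat.add (Nat.add (Nat.add (Nat.add C x8285) x5369) x3425) x3749) x3929) x3905) x3913) x3911) x10471)
    (Nat.sub (Nat.add (Nat.add (Nat.add (Nat.add (Nat.add (Nat.add (Nat.add C x3913) x8287) x5371) x3427) x3751) x3931) x3911) x10473)
    (Nat.sub (Nat.sub (Nat.add (Nat.add (Nat.add (Nat.add (Nat.add (Nat.add (Nat.add C x8297) x5381) x3437) x3761) x3977) x3905) x3929) x3923) x10483)
    (Nat.sub (Nat.sub (Nat.add (Nat.add (Nat.add (Nat.add (Nat.add (Nat.add (Nat.add (Nat.add (Nat.add (Nat.add C x8303) x5387) x3443) x3767) x3983) x3911) x3947) x3923) x3935) x3931) x3929) x10489)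
    (Nat.sub (Nat.add (Nat.add (Nat.add (Nat.add (Nat.add (Nat.add (Nat.add (Nat.add (Nat.add C x8305) x5389) x3445) x3769) x3985) x3913) x3949) x3937) x3929) x10491)
    (Nat.sub (Nat.sub (Nat.add (Nat.add (Nat.add (Nat.add (Nat.add (Nat.add (Nat.add (Nat.add C x8309) x5393) x3449) x3773) x3989) x3953) x3929) x3937) (Nat.mul x3935 (nat_lit 3))) x10495)
    (Nat.sub (Nat.add (Nat.add (Nat.add (Nat.add (Nat.add (Nat.add (Nat.add (Nat.add (Nat.add C x8311) x5395) x3451) x3775) x3991) x3955) x3931) x3935) x3939) x10497)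
    (Nat.add (Nat.add (Nat.add (Nat.add (Nat.add (Nat.add (Nat.add (Nat.add C x3939) x8313) x5397) x3453) x3777) x3993) x3957) x3937)
    (Nat.sub (Nat.sub (Nat.add (Nat.add (Nat.add (Nat.add (Nat.add (Nat.add (Nat.add (Nat.add C x8321) x5405) x3461) x3785) x4001) x3929) x3953) x3949) (Nat.mul x3947 (nat_lit 3))) x10507)
    (Nat.sub (Nat.sub (Nat.add (Nat.add (Nat.add (Nat.add (Nat.add (Nat.add (Nat.add (Nat.add C x8323) x5407) x3463) x3787) x4003) x3931) x3955) x3947) (Nat.mul x3949 (nat_lit 3))) x10509)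
    (Nat.sub (Nat.sub (Nat.add (Nat.add (Nat.add (Nat.add (Nat.add (Nat.add (Nat.add (Nat.add C x8327) x5411) x3467) x3791) x4007) x3935) x3947) x3955) (Nat.mul x3953 (nat_lit 3))) x10513)
    (Nat.sub (Nat.sub (Nat.add (Nat.add (Nat.add (Nat.add (Nat.add (Nat.add (Nat.add (Nat.add (Nat.add (Nat.add C x8329) x5413) x3469) x3793) x4009) x3937) x3949) x3961) x3953) x3957) x3955) x10515)
    (Nat.sub (Nat.add (Nat.add (Nat.add (Nat.add (Nat.add (Nat.add (Nat.add (Nat.add C x8331) x5415) x3471) x3795) x4011) x3939) x3963) x3955) x3957)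
    (Nat.sub (Nat.sub (Nat.add (Nat.add (Nat.add (Nat.add (Nat.add (Nat.add (Nat.add C x8335) x5419) x3475) x3799) x4015) x3955) x3963) x3961) x10521)
    (Nat.add (Nat.add (Nat.add (Nat.add (Nat.add (Nat.add (Nat.add (Nat.add C x3963) x8337) x5421) x3477) x3801) x4017) x3957) x3961)
    (Nat.sub (Nat.add (Nat.add (Nat.add (Nat.add (Nat.add (Nat.add (Nat.add C x8351) x5435) x3491) x3815) x4139) x3923) x3983) x10537)
    (Nat.sub (Nat.sub (Nat.add (Nat.add (Nat.add (Nat.add (Nat.add (Nat.add (Nat.add (Nat.add (Nat.add (Nat.add C x8357) x5441) x3497) x3821) x4145) x3929) x4001) x3977) x3989) x3985) x3983) x10543)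
    (Nat.sub (Nat.add (Nat.add (Nat.add (Nat.add (Nat.add (Nat.add (Nat.add (Nat.add (Nat.add C x8359) x5443) x3499) x3823) x4147) x3931) x4003) x3991) x3983) x10545)
    (Nat.sub (Nat.sub (Nat.add (Nat.add (Nat.add (Nat.add (Nat.add (Nat.add (Nat.add (Nat.add (Nat.add C x8363) x5447) x3503) x3827) x4151) x3935) x4007) x3983) x3991) (Nat.mul x3989 (nat_lit 4))) x10549)
    (Nat.sub (Nat.sub (Nat.add (Nat.add (Nat.add (Nat.add (Nat.add (Nat.add (Nat.add (Nat.add (Nat.add (Nat.add C x8365) x5449) x3505) x3829) x4153) x3937) x4009) x3985) x3989) x3993) x3991) x10551)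
    (Nat.add (Nat.add (Nat.add (Nat.add (Nat.add (Nat.add (Nat.add (Nat.add C x8367) x5451) x3507) x3831) x4155) x3939) x4011) x3991)
    (Nat.sub (Nat.sub (Nat.add (Nat.add (Nat.add (Nat.add (Nat.add (Nat.add (Nat.add (Nat.add (Nat.add (Nat.add C x8375) x5459) x3515) x3839) x4163) x3947) x4055) x3983) x4007) x4003) x4001) x10561)
    (Nat.sub (Nat.sub (Nat.add (Nat.add (Nat.add (Nat.add (Nat.add (Nat.add (Nat.add (Nat.add (Nat.add (Nat.add C x8377) x5461) x3517) x3841) x4165) x3949) x4057) x3985) x4009) x4001) x4003) x10563)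
    (Nat.sub (Nat.sub (Nat.add (Nat.add (Nat.add (Nat.add (Nat.add (Nat.add (Nat.add (Nat.add (Nat.add (Nat.add (Nat.add C x8381) x5465) x3521) x3845) x4169) x3953) x4061) x3989) x4025) x4001) x4009) (Nat.mul x4007 (nat_lit 2))) x10567)
    (Nat.sub (Nat.add (Nat.add (Nat.add (Nat.add (Nat.add (Nat.add (Nat.add (Nat.add (Nat.add (Nat.add (Nat.add (Nat.add (Nat.add C x8383) x5467) x3523) x3847) x4171) x3955) x4063) x3991) x4027) x4003) x4015) x4007) x4011) x10569)
    (Nat.add (Nat.add (Nat.add (Nat.add (Nat.add (Nat.add (Nat.add (Nat.add (Nat.add (Nat.add (Nat.add C x8385) x5469) x3525) x3849) x4173) x3957) x4065) x3993) x4029) x4017) x4009)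
    (Nat.sub (Nat.sub (Nat.add (Nat.add (Nat.add (Nat.add (Nat.add (Nat.add (Nat.add (Nat.add (Nat.add (Nat.add C x8389) x5473) x3529) x3853) x4177) x3961) x4069) x4033) x4009) x4017) x4015) x10575)
    (Nat.add (Nat.add (Nat.add (Nat.add (Nat.add (Nat.add (Nat.add (Nat.add (Nat.add (Nat.add (Nat.add C x4017) x8391) x5475) x3531) x3855) x4179) x3963) x4071) x4035) x4011) x4015)
    (Nat.sub (Nat.sub (Nat.add (Nat.add (Nat.add (Nat.add (Nat.add (Nat.add (Nat.add (Nat.add C x8399) x5483) x3539) x3863) x4187) x4079) x4007) x4027) (Nat.mul x4025 (nat_lit 2))) x10585)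
    (Nat.sub (Nat.sub (Nat.add (Nat.add (Nat.add (Nat.add (Nat.add (Nat.add (Nat.add (Nat.add (Nat.add (Nat.add C x8401) x5485) x3541) x3865) x4189) x4081) x4009) x4033) x4025) x4029) x4027) x10587)
    (Nat.sub (Nat.add (Nat.add (Nat.add (Nat.add (Nat.add (Nat.add (Nat.add (Nat.add (Nat.add C x8403) x5487) x3543) x3867) x4191) x4083) x4011) x4035) x4027) (Nat.mul x4029 (nat_lit 2)))
    (Nat.sub (Nat.add (Nat.add (Nat.add (Nat.add (Nat.add (Nat.add (Nat.add (Nat.add (Nat.add C x8407) x5491) x3547) x3871) x4195) x4087) x4015) x4027) x4035) x10593)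
    (Nat.add (Nat.add (Nat.add (Nat.add (Nat.add (Nat.add (Nat.add (Nat.add (Nat.add (Nat.add (Nat.add C x4035) x8409) x5493) x3549) x3873) x4197) x4089) x4017) x4029) x4041) x4033)
    (Nat.add (Nat.add (Nat.add (Nat.add (Nat.add (Nat.add (Nat.add (Nat.add C (Nat.mul x4041 (nat_lit 2))) x8415) x5499) x3555) x3879) x4203) x4095) x4035)
    (Nat.sub (Nat.sub (Nat.add (Nat.add (Nat.add (Nat.add (Nat.add (Nat.add (Nat.add C x8429) x5513) x3569) x4217) x4001) x4061) x4057) x4055) x10615)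
    (Nat.sub (Nat.sub (Nat.add (Nat.add (Nat.add (Nat.add (Nat.add (Nat.add (Nat.add C x8431) x5515) x3571) x4219) x4003) x4063) x4055) x4057) x10617)
    (Nat.sub (Nat.sub (Nat.add (Nat.add (Nat.add (Nat.add (Nat.add (Nat.add (Nat.add (Nat.add C x8435) x5519) x3575) x4223) x4007) x4079) x4055) x4063) (Nat.mul x4061 (nat_lit 3))) x10621)
    (Nat.sub (Nat.sub (Nat.add (Nat.add (Nat.add (Nat.add (Nat.add (Nat.add (Nat.add (Nat.add (Nat.add (Nat.add C x8437) x5521) x3577) x4225) x4009) x4081) x4057) x4069) x4061) x4065) x4063) x10623)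
    (Nat.sub (Nat.add (Nat.add (Nat.add (Nat.add (Nat.add (Nat.add (Nat.add (Nat.add C x8439) x5523) x3579) x4227) x4011) x4083) x4071) x4063) x4065)
    (Nat.sub (Nat.sub (Nat.add (Nat.add (Nat.add (Nat.add (Nat.add (Nat.add (Nat.add (Nat.add C x8443) x5527) x3583) x4231) x4015) x4087) x4063) x4071) (Nat.mul x4069 (nat_lit 3))) x10629)
    (Nat.sub (Nat.add (Nat.add (Nat.add (Nat.add (Nat.add (Nat.add (Nat.add (Nat.add C x8445) x5529) x3585) x4233) x4017) x4089) x4065) x4069) x4071)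
    (Nat.sub (Nat.sub (Nat.add (Nat.add (Nat.add (Nat.add (Nat.add (Nat.add (Nat.add C x8453) x5537) x3593) x4241) x4025) x4061) x4081) x4079) x10639)
    (Nat.sub (Nat.add (Nat.add (Nat.add (Nat.add (Nat.add (Nat.add (Nat.add (Nat.add (Nat.add C x8455) x5539) x3595) x4243) x4027) x4063) x4087) x4079) x4083) x10641)
    (Nat.sub (Nat.add (Nat.add (Nat.add (Nat.add (Nat.add (Nat.add (Nat.add (Nat.add C x8457) x5541) x3597) x4245) x4029) x4065) x4089) x4081) x4083)
    (Nat.sub (Nat.add (Nat.add (Nat.add (Nat.add (Nat.add (Nat.add (Nat.add (Nat.add (Nat.add C x8461) x5545) x3601) x4249) x4033) x4069) x4105) x4081) x4089) x10647)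
    (Nat.add (Nat.add (Nat.add (Nat.add (Nat.add (Nat.add (Nat.add (Nat.add (Nat.add (Nat.add (Nat.add C x4089) x8463) x5547) x3603) x4251) x4035) x4071) x4107) x4083) x4095) x4087)
    (Nat.add (Nat.add (Nat.add (Nat.add (Nat.add (Nat.add (Nat.add (Nat.add C x4095) x8469) x5553) x3609) x4257) x4041) x4113) x4089)
    (Nat.sub (Nat.add (Nat.add (Nat.add (Nat.add (Nat.add (Nat.add (Nat.add C x4105) x8479) x5563) x3619) x4267) x4087) x4107) x10665)
    (Nat.add (Nat.add (Nat.add (Nat.add (Nat.add (Nat.add (Nat.add (Nat.add C x4107) x8481) x5565) x3621) x4269) x4089) x4113) x4105)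
    (Nat.add (Nat.add (Nat.add (Nat.add (Nat.add (Nat.add (Nat.add C (Nat.mul x4113 (nat_lit 3))) x8487) x5571) x3627) x4275) x4095) x4107)
    (Nat.sub (Nat.add (Nat.add (Nat.add (Nat.add (Nat.add C x4139) x8513) x5597) x3977) x4145) x10699)
    (Nat.sub (Nat.add (Nat.add (Nat.add (Nat.add (Nat.add (Nat.add (Nat.add C x8519) x5603) x3983) x4163) x4139) x4151) x4147) x10705)
    (Nat.sub (Nat.add (Nat.add (Nat.add (Nat.add (Nat.add (Nat.add (Nat.add C x4147) x8521) x5605) x3985) x4165) x4153) x4145) x10707)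
    (Nat.sub (Nat.sub (Nat.add (Nat.add (Nat.add (Nat.add (Nat.add (Nat.add C x8525) x5609) x3989) x4169) x4145) x4153) (Nat.mul x4151 (nat_lit 3))) x10711)
    (Nat.sub (Nat.add (Nat.add (Nat.add (Nat.add (Nat.add (Nat.add (Nat.add C x8527) x5611) x3991) x4171) x4147) x4151) x4155) x10713)
    (Nat.add (Nat.add (Nat.add (Nat.add (Nat.add (Nat.add C x4155) x8529) x5613) x3993) x4173) x4153)
    (Nat.sub (Nat.sub (Nat.add (Nat.add (Nat.add (Nat.add (Nat.add (Nat.add (Nat.add C x8537) x5621) x4001) x4217) x4145) x4169) x4165) x4163) x10723)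
    (Nat.sub (Nat.sub (Nat.add (Nat.add (Nat.add (Nat.add (Nat.add (Nat.add (Nat.add C x8539) x5623) x4003) x4219) x4147) x4171) x4163) x4165) x10725)
    (Nat.sub (Nat.sub (Nat.add (Nat.add (Nat.add (Nat.add (Nat.add (Nat.add (Nat.add (Nat.add C x8543) x5627) x4007) x4223) x4151) x4187) x4163) x4171) (Nat.mul x4169 (nat_lit 2))) x10729)
    (Nat.sub (Nat.add (Nat.add (Nat.add (Nat.add (Nat.add (Nat.add (Nat.add (Nat.add (Nat.add (Nat.add C x8545) x5629) x4009) x4225) x4153) x4189) x4165) x4177) x4169) x4173) x10731)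
    (Nat.add (Nat.add (Nat.add (Nat.add (Nat.add (Nat.add (Nat.add (Nat.add C x8547) x5631) x4011) x4227) x4155) x4191) x4179) x4171)
    (Nat.sub (Nat.sub (Nat.add (Nat.add (Nat.add (Nat.add (Nat.add (Nat.add (Nat.add C x8551) x5635) x4015) x4231) x4195) x4171) x4179) x4177) x10737)
    (Nat.add (Nat.add (Nat.add (Nat.add (Nat.add (Nat.add (Nat.add (Nat.add C x4179) x8553) x5637) x4017) x4233) x4197) x4173) x4177)
    (Nat.sub (Nat.sub (Nat.add (Nat.add (Nat.add (Nat.add (Nat.add (Nat.add C x8561) x5645) x4025) x4241) x4169) x4189) (Nat.mul x4187 (nat_lit 3))) x10747)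
    (Nat.sub (Nat.sub (Nat.add (Nat.add (Nat.add (Nat.add (Nat.add (Nat.add (Nat.add (Nat.add C x8563) x5647) x4027) x4243) x4171) x4195) x4187) x4191) (Nat.mul x4189 (nat_lit 2))) x10749)
    (Nat.sub (Nat.add (Nat.add (Nat.add (Nat.add (Nat.add (Nat.add (Nat.add C x8565) x5649) x4029) x4245) x4173) x4197) x4189) (Nat.mul x4191 (nat_lit 3)))
    (Nat.sub (Nat.sub (Nat.add (Nat.add (Nat.add (Nat.add (Nat.add (Nat.add (Nat.add C x8569) x5653) x4033) x4249) x4177) x4189) x4197) x4195) x10755)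
    (Nat.add (Nat.add (Nat.add (Nat.add (Nat.add (Nat.add (Nat.add (Nat.add C x8571) x5655) x4035) x4251) x4179) x4191) x4203) x4195)
    (Nat.add (Nat.add (Nat.add (Nat.add (Nat.add (Nat.add C x4203) x8577) x5661) x4041) x4257) x4197)
    (Nat.sub (Nat.add (Nat.add (Nat.add (Nat.add (Nat.add (Nat.add (Nat.add C x4217) x8591) x5675) x4055) x4163) x4223) x4219) x10777)
    (Nat.sub (Nat.add (Nat.add (Nat.add (Nat.add (Nat.add (Nat.add (Nat.add C x4219) x8593) x5677) x4057) x4165) x4225) x4217) x10779)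
    (Nat.sub (Nat.sub (Nat.add (Nat.add (Nat.add (Nat.add (Nat.add (Nat.add (Nat.add C x8597) x5681) x4061) x4169) x4241) x4217) x4225) x4223) x10783)
    (Nat.sub (Nat.add (Nat.add (Nat.add (Nat.add (Nat.add (Nat.add (Nat.add (Nat.add (Nat.add (Nat.add C x4225) x8599) x5683) x4063) x4171) x4243) x4219) x4231) x4223) x4227) x10785)
    (Nat.add (Nat.add (Nat.add (Nat.add (Nat.add (Nat.add (Nat.add (Nat.add C x4227) x8601) x5685) x4065) x4173) x4245) x4233) x4225)
    (Nat.sub (Nat.sub (Nat.add (Nat.add (Nat.add (Nat.add (Nat.add (Nat.add (Nat.add C x8605) x5689) x4069) x4177) x4249) x4225) x4233) x4231) x10791)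
    (Nat.add (Nat.add (Nat.add (Nat.add (Nat.add (Nat.add (Nat.add (Nat.add C x4233) x8607) x5691) x4071) x4179) x4251) x4227) x4231)
    (Nat.sub (Nat.add (Nat.add (Nat.add (Nat.add (Nat.add (Nat.add (Nat.add C x8615) x5699) x4079) x4187) x4295) x4223) x4243) x10801)
    (Nat.sub (Nat.add (Nat.add (Nat.add (Nat.add (Nat.add (Nat.add (Nat.add (Nat.add (Nat.add (Nat.add C x4243) x8617) x5701) x4081) x4189) x4297) x4225) x4249) x4241) x4245) x10803)
    (Nat.add (Nat.add (Nat.add (Nat.add (Nat.add (Nat.add (Nat.add (Nat.add C x8619) x5703) x4083) x4191) x4299) x4227) x4251) x4243)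
    (Nat.sub (Nat.add (Nat.add (Nat.add (Nat.add (Nat.add (Nat.add (Nat.add (Nat.add (Nat.add (Nat.add C x4249) x8623) x5707) x4087) x4195) x4303) x4231) x4267) x4243) x4251) x10809)
    (Nat.add (Nat.add (Nat.add (Nat.add (Nat.add (Nat.add (Nat.add (Nat.add (Nat.add (Nat.add (Nat.add C (Nat.mul x4251 (nat_lit 2))) x8625) x5709) x4089) x4197) x4305) x4233) x4269) x4245) x4257) x4249)
    (Nat.add (Nat.add (Nat.add (Nat.add (Nat.add (Nat.add (Nat.add (Nat.add C (Nat.mul x4257 (nat_lit 2))) x8631) x5715) x4095) x4203) x4311) x4275) x4251)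
    (Nat.sub (Nat.add (Nat.add (Nat.add (Nat.add (Nat.add (Nat.add (Nat.add C x4267) x8641) x5725) x4105) x4321) x4249) x4269) x10827)
    (Nat.add (Nat.add (Nat.add (Nat.add (Nat.add (Nat.add (Nat.add (Nat.add C x4269) x8643) x5727) x4107) x4323) x4251) x4275) x4267)
    (Nat.add (Nat.add (Nat.add (Nat.add (Nat.add (Nat.add (Nat.add C (Nat.mul x4275 (nat_lit 3))) x8649) x5733) x4113) x4329) x4257) x4269)
    (Nat.sub (Nat.add (Nat.add (Nat.add (Nat.add (Nat.add C x4295) x8669) x5753) x4241) x4297) x10855)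
    (Nat.sub (Nat.add (Nat.add (Nat.add (Nat.add (Nat.add (Nat.add (Nat.add C (Nat.mul x4297 (nat_lit 2))) x8671) x5755) x4243) x4303) x4295) x4299) x10857)
    (Nat.add (Nat.add (Nat.add (Nat.add (Nat.add (Nat.add C x4299) x8673) x5757) x4245) x4305) x4297)
    (Nat.sub (Nat.add (Nat.add (Nat.add (Nat.add (Nat.add (Nat.add (Nat.add C x4303) x8677) x5761) x4249) x4321) x4297) x4305) x10863)
    (Nat.add (Nat.add (Nat.add (Nat.add (Nat.add (Nat.add (Nat.add (Nat.add C (Nat.mul x4305 (nat_lit 2))) x8679) x5763) x4251) x4323) x4299) x4311) x4303)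
    (Nat.add (Nat.add (Nat.add (Nat.add (Nat.add (Nat.add C x4311) x8685) x5769) x4257) x4329) x4305)
    (Nat.sub (Nat.add (Nat.add (Nat.add (Nat.add (Nat.add (Nat.add C (Nat.mul x4321 (nat_lit 3))) x8695) x5779) x4267) x4303) x4323) x10881)
    (Nat.add (Nat.add (Nat.add (Nat.add (Nat.add (Nat.add (Nat.add C (Nat.mul x4323 (nat_lit 3))) x8697) x5781) x4269) x4305) x4329) x4321)
    (Nat.add (Nat.add (Nat.add (Nat.add (Nat.add (Nat.add (Nat.add C (Nat.mul x4329 (nat_lit 4))) x8703) x5787) x4275) x4311) x4347) x4323)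
    (Nat.add (Nat.add (Nat.add (Nat.add C (Nat.mul x4347 (nat_lit 5))) x8721) x5805) x4329)
    (Nat.sub (Nat.add (Nat.add (Nat.add (Nat.add (Nat.add C x4427) x8801) x2969) x4481) x4445) x10987)
    (Nat.sub (Nat.sub (Nat.add (Nat.add (Nat.add (Nat.add (Nat.add C x8819) x2987) x4499) x4427) x4451) x4445) x11005)
    (Nat.sub (Nat.sub (Nat.add (Nat.add (Nat.add (Nat.add (Nat.add C x8825) x2993) x4505) x4445) x4453) x4451) x11011)
    (Nat.sub (Nat.add (Nat.add (Nat.add (Nat.add (Nat.add C x4453) x8827) x2995) x4507) x4451) x11013)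
    (Nat.sub (Nat.sub (Nat.add (Nat.add (Nat.add (Nat.add (Nat.add C x8855) x3023) x4643) x4427) x4499) x4481) x11041)
    (Nat.sub (Nat.sub (Nat.add (Nat.add (Nat.add (Nat.add (Nat.add (Nat.add (Nat.add (Nat.add C x8873) x3041) x4661) x4445) x4553) x4481) x4517) x4505) x4499) x11059)
    (Nat.sub (Nat.sub (Nat.add (Nat.add (Nat.add (Nat.add (Nat.add (Nat.add (Nat.add (Nat.add C x8879) x3047) x4667) x4451) x4559) x4523) x4499) x4507) (Nat.mul x4505 (nat_lit 2))) x11065)
    (Nat.sub (Nat.add (Nat.add (Nat.add (Nat.add (Nat.add (Nat.add (Nat.add C x8881) x3049) x4669) x4453) x4561) x4525) x4505) x11067)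
    (Nat.sub (Nat.sub (Nat.add (Nat.add (Nat.add (Nat.add (Nat.add (Nat.add C x8891) x3059) x4679) x4571) x4499) x4523) (Nat.mul x4517 (nat_lit 3))) x11077)
    (Nat.sub (Nat.sub (Nat.add (Nat.add (Nat.add (Nat.add (Nat.add (Nat.add (Nat.add (Nat.add C x8897) x3065) x4685) x4577) x4505) x4517) x4529) x4525) (Nat.mul x4523 (nat_lit 2))) x11083)
    (Nat.sub (Nat.sub (Nat.add (Nat.add (Nat.add (Nat.add (Nat.add (Nat.add (Nat.add C x8899) x3067) x4687) x4579) x4507) x4531) x4523) x4525) x11085)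
    (Nat.sub (Nat.sub (Nat.add (Nat.add (Nat.add (Nat.add (Nat.add (Nat.add C x8903) x3071) x4691) x4583) x4523) x4531) (Nat.mul x4529 (nat_lit 3))) x11089)
    (Nat.sub (Nat.add (Nat.add (Nat.add (Nat.add (Nat.add (Nat.add (Nat.add C x8905) x3073) x4693) x4585) x4525) x4529) x4533) x11091)
    (Nat.add (Nat.add (Nat.add (Nat.add (Nat.add (Nat.add C x4533) x8907) x3075) x4695) x4587) x4531)
    (Nat.sub (Nat.sub (Nat.add (Nat.add (Nat.add (Nat.add (Nat.add (Nat.add C x8927) x3095) x4715) x4499) x4571) x4559) (Nat.mul x4553 (nat_lit 3))) x11113)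
    (Nat.sub (Nat.sub (Nat.add (Nat.add (Nat.add (Nat.add (Nat.add (Nat.add (Nat.add C x8933) x3101) x4721) x4505) x4577) x4553) x4561) (Nat.mul x4559 (nat_lit 5))) x11119)
    (Nat.sub (Nat.sub (Nat.add (Nat.add (Nat.add (Nat.add (Nat.add (Nat.add C x8935) x3103) x4723) x4507) x4579) x4559) (Nat.mul x4561 (nat_lit 3))) x11121)
    (Nat.sub (Nat.sub (Nat.add (Nat.add (Nat.add (Nat.add (Nat.add (Nat.add C x8945) x3113) x4733) x4517) x4553) x4577) (Nat.mul x4571 (nat_lit 3))) x11131)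
    (Nat.sub (Nat.sub (Nat.add (Nat.add (Nat.add (Nat.add (Nat.add (Nat.add (Nat.add (Nat.add (Nat.add C x8951) x3119) x4739) x4523) x4559) x4595) x4571) x4583) x4579) (Nat.mul x4577 (nat_lit 3))) x11137)
    (Nat.sub (Nat.sub (Nat.add (Nat.add (Nat.add (Nat.add (Nat.add (Nat.add (Nat.add (Nat.add C x8953) x3121) x4741) x4525) x4561) x4597) x4585) x4577) (Nat.mul x4579 (nat_lit 2))) x11139)
    (Nat.sub (Nat.sub (Nat.add (Nat.add (Nat.add (Nat.add (Nat.add (Nat.add (Nat.add C x8957) x3125) x4745) x4529) x4601) x4577) x4585) (Nat.mul x4583 (nat_lit 5))) x11143)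
    (Nat.sub (Nat.sub (Nat.add (Nat.add (Nat.add (Nat.add (Nat.add (Nat.add (Nat.add (Nat.add C x8959) x3127) x4747) x4531) x4603) x4579) x4583) x4587) (Nat.mul x4585 (nat_lit 2))) x11145)
    (Nat.sub (Nat.add (Nat.add (Nat.add (Nat.add (Nat.add (Nat.add C x8961) x3129) x4749) x4533) x4605) x4585) x4587)
    (Nat.sub (Nat.sub (Nat.add (Nat.add (Nat.add (Nat.add (Nat.add (Nat.add C x8969) x3137) x4757) x4577) x4601) x4597) (Nat.mul x4595 (nat_lit 3))) x11155)
    (Nat.sub (Nat.sub (Nat.add (Nat.add (Nat.add (Nat.add (Nat.add (Nat.add C x8971) x3139) x4759) x4579) x4603) x4595) (Nat.mul x4597 (nat_lit 3))) x11157)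
    (Nat.sub (Nat.sub (Nat.add (Nat.add (Nat.add (Nat.add (Nat.add (Nat.add C x8975) x3143) x4763) x4583) x4595) x4603) (Nat.mul x4601 (nat_lit 3))) x11161)
    (Nat.sub (Nat.sub (Nat.add (Nat.add (Nat.add (Nat.add (Nat.add (Nat.add (Nat.add (Nat.add C x8977) x3145) x4765) x4585) x4597) x4609) x4601) x4605) x4603) x11163)
    (Nat.sub (Nat.add (Nat.add (Nat.add (Nat.add (Nat.add (Nat.add C x8979) x3147) x4767) x4587) x4611) x4603) x4605)
    (Nat.sub (Nat.sub (Nat.add (Nat.add (Nat.add (Nat.add (Nat.add C x8983) x3151) x4771) x4603) x4611) x4609) x11169)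
    (Nat.add (Nat.add (Nat.add (Nat.add (Nat.add (Nat.add C x4611) x8985) x3153) x4773) x4605) x4609)
    (Nat.sub (Nat.sub (Nat.add (Nat.add (Nat.add (Nat.add (Nat.add C x9017) x3185) x5129) x4481) x4661) x4643) x11203)
    (Nat.sub (Nat.sub (Nat.add (Nat.add (Nat.add (Nat.add (Nat.add (Nat.add (Nat.add (Nat.add C x9035) x3203) x5147) x4499) x4715) x4643) x4679) x4667) (Nat.mul x4661 (nat_lit 2))) x11221)
    (Nat.sub (Nat.sub (Nat.add (Nat.add (Nat.add (Nat.add (Nat.add (Nat.add (Nat.add (Nat.add C x9041) x3209) x5153) x4505) x4721) x4685) x4661) x4669) (Nat.mul x4667 (nat_lit 3))) x11227)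
    (Nat.sub (Nat.sub (Nat.add (Nat.add (Nat.add (Nat.add (Nat.add (Nat.add (Nat.add C x9043) x3211) x5155) x4507) x4723) x4687) x4667) x4669) x11229)
    (Nat.sub (Nat.sub (Nat.add (Nat.add (Nat.add (Nat.add (Nat.add (Nat.add (Nat.add C x9053) x3221) x5165) x4517) x4733) x4661) x4685) (Nat.mul x4679 (nat_lit 5))) x11239)
    (Nat.sub (Nat.sub (Nat.add (Nat.add (Nat.add (Nat.add (Nat.add (Nat.add (Nat.add (Nat.add (Nat.add C x9059) x3227) x5171) x4523) x4739) x4667) x4679) x4691) x4687) (Nat.mul x4685 (nat_lit 4))) x11245)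
    (Nat.sub (Nat.sub (Nat.add (Nat.add (Nat.add (Nat.add (Nat.add (Nat.add (Nat.add (Nat.add C x9061) x3229) x5173) x4525) x4741) x4669) x4693) x4685) (Nat.mul x4687 (nat_lit 3))) x11247)
    (Nat.sub (Nat.sub (Nat.add (Nat.add (Nat.add (Nat.add (Nat.add (Nat.add (Nat.add C x9065) x3233) x5177) x4529) x4745) x4685) x4693) (Nat.mul x4691 (nat_lit 5))) x11251)
    (Nat.sub (Nat.sub (Nat.add (Nat.add (Nat.add (Nat.add (Nat.add (Nat.add (Nat.add (Nat.add C x9067) x3235) x5179) x4531) x4747) x4687) x4691) x4695) (Nat.mul x4693 (nat_lit 2))) x11253)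
    (Nat.sub (Nat.add (Nat.add (Nat.add (Nat.add (Nat.add (Nat.add C x9069) x3237) x5181) x4533) x4749) x4693) x4695)
    (Nat.sub (Nat.sub (Nat.add (Nat.add (Nat.add (Nat.add (Nat.add (Nat.add (Nat.add (Nat.add C x9089) x3257) x5201) x4553) x4877) x4661) x4733) x4721) (Nat.mul x4715 (nat_lit 2))) x11275)
    (Nat.sub (Nat.sub (Nat.add (Nat.add (Nat.add (Nat.add (Nat.add (Nat.add (Nat.add (Nat.add (Nat.add C x9095) x3263) x5207) x4559) x4883) x4667) x4739) x4715) x4723) (Nat.mul x4721 (nat_lit 4))) x11281)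
    (Nat.sub (Nat.sub (Nat.add (Nat.add (Nat.add (Nat.add (Nat.add (Nat.add (Nat.add (Nat.add C x9097) x3265) x5209) x4561) x4885) x4669) x4741) x4721) (Nat.mul x4723 (nat_lit 2))) x11283)
    (Nat.sub (Nat.sub (Nat.add (Nat.add (Nat.add (Nat.add (Nat.add (Nat.add (Nat.add (Nat.add (Nat.add C x9107) x3275) x5219) x4571) x4895) x4679) x4787) x4715) x4739) (Nat.mul x4733 (nat_lit 3))) x11293)
    (Nat.sub (Nat.sub (Nat.add (Nat.add (Nat.add (Nat.add (Nat.add (Nat.add (Nat.add (Nat.add (Nat.add (Nat.add (Nat.add (Nat.add C x9113) x3281) x5225) x4577) x4901) x4685) x4793) x4721) x4757) x4733) x4745) x4741) (Nat.mul x4739 (nat_lit 3))) x11299)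
    (Nat.sub (Nat.sub (Nat.add (Nat.add (Nat.add (Nat.add (Nat.add (Nat.add (Nat.add (Nat.add (Nat.add (Nat.add (Nat.add C x9115) x3283) x5227) x4579) x4903) x4687) x4795) x4723) x4759) x4747) x4739) (Nat.mul x4741 (nat_lit 2))) x11301)
    (Nat.sub (Nat.sub (Nat.add (Nat.add (Nat.add (Nat.add (Nat.add (Nat.add (Nat.add (Nat.add (Nat.add (Nat.add C x9119) x3287) x5231) x4583) x4907) x4691) x4799) x4763) x4739) x4747) (Nat.mul x4745 (nat_lit 5))) x11305)
    (Nat.sub (Nat.sub (Nat.add (Nat.add (Nat.add (Nat.add (Nat.add (Nat.add (Nat.add (Nat.add (Nat.add (Nat.add (Nat.add C x9121) x3289) x5233) x4585) x4909) x4693) x4801) x4765) x4741) x4745) x4749) (Nat.mul x4747 (nat_lit 2))) x11307)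
    (Nat.sub (Nat.add (Nat.add (Nat.add (Nat.add (Nat.add (Nat.add (Nat.add (Nat.add (Nat.add C x9123) x3291) x5235) x4587) x4911) x4695) x4803) x4767) x4747) x4749)
    (Nat.sub (Nat.sub (Nat.add (Nat.add (Nat.add (Nat.add (Nat.add (Nat.add (Nat.add (Nat.add (Nat.add C x9131) x3299) x5243) x4595) x4919) x4811) x4739) x4763) x4759) (Nat.mul x4757 (nat_lit 4))) x11317)
    (Nat.sub (Nat.sub (Nat.add (Nat.add (Nat.add (Nat.add (Nat.add (Nat.add (Nat.add (Nat.add (Nat.add C x9133) x3301) x5245) x4597) x4921) x4813) x4741) x4765) x4757) (Nat.mul x4759 (nat_lit 4))) x11319)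
    (Nat.sub (Nat.sub (Nat.add (Nat.add (Nat.add (Nat.add (Nat.add (Nat.add (Nat.add (Nat.add (Nat.add C x9137) x3305) x5249) x4601) x4925) x4817) x4745) x4757) x4765) (Nat.mul x4763 (nat_lit 4))) x11323)
    (Nat.sub (Nat.sub (Nat.add (Nat.add (Nat.add (Nat.add (Nat.add (Nat.add (Nat.add (Nat.add (Nat.add (Nat.add (Nat.add C x9139) x3307) x5251) x4603) x4927) x4819) x4747) x4759) x4771) x4763) x4767) (Nat.mul x4765 (nat_lit 2))) x11325)
    (Nat.sub (Nat.add (Nat.add (Nat.add (Nat.add (Nat.add (Nat.add (Nat.add (Nat.add (Nat.add C x9141) x3309) x5253) x4605) x4929) x4821) x4749) x4773) x4765) (Nat.mul x4767 (nat_lit 2)))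
    (Nat.sub (Nat.sub (Nat.add (Nat.add (Nat.add (Nat.add (Nat.add (Nat.add (Nat.add (Nat.add C x9145) x3313) x5257) x4609) x4933) x4825) x4765) x4773) (Nat.mul x4771 (nat_lit 2))) x11331)
    (Nat.add (Nat.add (Nat.add (Nat.add (Nat.add (Nat.add (Nat.add (Nat.add C x9147) x3315) x5259) x4611) x4935) x4827) x4767) x4771)
    (Nat.sub (Nat.sub (Nat.add (Nat.add (Nat.add (Nat.add (Nat.add (Nat.add C x9161) x3329) x5273) x4949) x4733) x4793) (Nat.mul x4787 (nat_lit 3))) x11347)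
    (Nat.sub (Nat.sub (Nat.add (Nat.add (Nat.add (Nat.add (Nat.add (Nat.add (Nat.add (Nat.add (Nat.add C x9167) x3335) x5279) x4955) x4739) x4811) x4787) x4799) x4795) (Nat.mul x4793 (nat_lit 4))) x11353)
    (Nat.sub (Nat.sub (Nat.add (Nat.add (Nat.add (Nat.add (Nat.add (Nat.add (Nat.add (Nat.add C x9169) x3337) x5281) x4957) x4741) x4813) x4801) x4793) (Nat.mul x4795 (nat_lit 3))) x11355)
    (Nat.sub (Nat.sub (Nat.add (Nat.add (Nat.add (Nat.add (Nat.add (Nat.add (Nat.add (Nat.add C x9173) x3341) x5285) x4961) x4745) x4817) x4793) x4801) (Nat.mul x4799 (nat_lit 7))) x11359)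
    (Nat.sub (Nat.sub (Nat.add (Nat.add (Nat.add (Nat.add (Nat.add (Nat.add (Nat.add (Nat.add (Nat.add C x9175) x3343) x5287) x4963) x4747) x4819) x4795) x4799) x4803) (Nat.mul x4801 (nat_lit 4))) x11361)
    (Nat.sub (Nat.add (Nat.add (Nat.add (Nat.add (Nat.add (Nat.add (Nat.add C x9177) x3345) x5289) x4965) x4749) x4821) x4801) (Nat.mul x4803 (nat_lit 3)))
    (Nat.sub (Nat.sub (Nat.add (Nat.add (Nat.add (Nat.add (Nat.add (Nat.add (Nat.add (Nat.add C x9185) x3353) x5297) x4973) x4757) x4793) x4817) x4813) (Nat.mul x4811 (nat_lit 3))) x11371)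
    (Nat.sub (Nat.sub (Nat.add (Nat.add (Nat.add (Nat.add (Nat.add (Nat.add (Nat.add (Nat.add C x9187) x3355) x5299) x4975) x4759) x4795) x4819) x4811) (Nat.mul x4813 (nat_lit 3))) x11373)
    (Nat.sub (Nat.sub (Nat.add (Nat.add (Nat.add (Nat.add (Nat.add (Nat.add (Nat.add (Nat.add (Nat.add C x9191) x3359) x5303) x4979) x4763) x4799) x4835) x4811) x4819) (Nat.mul x4817 (nat_lit 4))) x11377)
    (Nat.sub (Nat.sub (Nat.add (Nat.add (Nat.add (Nat.add (Nat.add (Nat.add (Nat.add (Nat.add (Nat.add (Nat.add (Nat.add C x9193) x3361) x5305) x4981) x4765) x4801) x4837) x4813) x4825) x4817) x4821) (Nat.mul x4819 (nat_lit 2))) x11379)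
    (Nat.sub (Nat.add (Nat.add (Nat.add (Nat.add (Nat.add (Nat.add (Nat.add (Nat.add (Nat.add C x9195) x3363) x5307) x4983) x4767) x4803) x4839) x4827) x4819) (Nat.mul x4821 (nat_lit 2)))
    (Nat.sub (Nat.sub (Nat.add (Nat.add (Nat.add (Nat.add (Nat.add (Nat.add (Nat.add (Nat.add C x9199) x3367) x5311) x4987) x4771) x4843) x4819) x4827) (Nat.mul x4825 (nat_lit 3))) x11385)
    (Nat.sub (Nat.add (Nat.add (Nat.add (Nat.add (Nat.add (Nat.add (Nat.add (Nat.add C x9201) x3369) x5313) x4989) x4773) x4845) x4821) x4825) x4827)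
    (Nat.sub (Nat.sub (Nat.add (Nat.add (Nat.add (Nat.add (Nat.add (Nat.add C x9209) x3377) x5321) x4997) x4817) x4837) (Nat.mul x4835 (nat_lit 3))) x11395)
    (Nat.sub (Nat.sub (Nat.add (Nat.add (Nat.add (Nat.add (Nat.add (Nat.add (Nat.add (Nat.add C x9211) x3379) x5323) x4999) x4819) x4843) x4835) x4839) (Nat.mul x4837 (nat_lit 2))) x11397)
    (Nat.sub (Nat.add (Nat.add (Nat.add (Nat.add (Nat.add (Nat.add (Nat.add C x9213) x3381) x5325) x5001) x4821) x4845) x4837) (Nat.mul x4839 (nat_lit 3)))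
    (Nat.sub (Nat.sub (Nat.add (Nat.add (Nat.add (Nat.add (Nat.add (Nat.add (Nat.add C x9217) x3385) x5329) x5005) x4825) x4837) x4845) x4843) x11403)
    (Nat.add (Nat.add (Nat.add (Nat.add (Nat.add (Nat.add (Nat.add (Nat.add C x9219) x3387) x5331) x5007) x4827) x4839) x4851) x4843)
    (Nat.add (Nat.add (Nat.add (Nat.add (Nat.add (Nat.add C x4851) x9225) x3393) x5337) x5013) x4845)
    (Nat.sub (Nat.sub (Nat.add (Nat.add (Nat.add (Nat.add (Nat.add (Nat.add C x9251) x3419) x5363) x4715) x4895) x4883) (Nat.mul x4877 (nat_lit 3))) x11437)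
    (Nat.sub (Nat.sub (Nat.add (Nat.add (Nat.add (Nat.add (Nat.add (Nat.add (Nat.add C x9257) x3425) x5369) x4721) x4901) x4877) x4885) (Nat.mul x4883 (nat_lit 5))) x11443)
    (Nat.sub (Nat.sub (Nat.add (Nat.add (Nat.add (Nat.add (Nat.add (Nat.add C x9259) x3427) x5371) x4723) x4903) x4883) (Nat.mul x4885 (nat_lit 3))) x11445)
    (Nat.sub (Nat.sub (Nat.add (Nat.add (Nat.add (Nat.add (Nat.add (Nat.add (Nat.add C x9269) x3437) x5381) x4733) x4949) x4877) x4901) (Nat.mul x4895 (nat_lit 5))) x11455)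
    (Nat.sub (Nat.sub (Nat.add (Nat.add (Nat.add (Nat.add (Nat.add (Nat.add (Nat.add (Nat.add (Nat.add (Nat.add C x9275) x3443) x5387) x4739) x4955) x4883) x4919) x4895) x4907) x4903) (Nat.mul x4901 (nat_lit 5))) x11461)
    (Nat.sub (Nat.sub (Nat.add (Nat.add (Nat.add (Nat.add (Nat.add (Nat.add (Nat.add (Nat.add (Nat.add C x9277) x3445) x5389) x4741) x4957) x4885) x4921) x4909) x4901) (Nat.mul x4903 (nat_lit 4))) x11463)
    (Nat.sub (Nat.sub (Nat.add (Nat.add (Nat.add (Nat.add (Nat.add (Nat.add (Nat.add (Nat.add C x9281) x3449) x5393) x4745) x4961) x4925) x4901) x4909) (Nat.mul x4907 (nat_lit 7))) x11467)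
    (Nat.sub (Nat.sub (Nat.add (Nat.add (Nat.add (Nat.add (Nat.add (Nat.add (Nat.add (Nat.add (Nat.add C x9283) x3451) x5395) x4747) x4963) x4927) x4903) x4907) x4911) (Nat.mul x4909 (nat_lit 4))) x11469)
    (Nat.sub (Nat.add (Nat.add (Nat.add (Nat.add (Nat.add (Nat.add (Nat.add C x9285) x3453) x5397) x4749) x4965) x4929) x4909) (Nat.mul x4911 (nat_lit 3)))
    (Nat.sub (Nat.sub (Nat.add (Nat.add (Nat.add (Nat.add (Nat.add (Nat.add (Nat.add (Nat.add C x9293) x3461) x5405) x4757) x4973) x4901) x4925) x4921) (Nat.mul x4919 (nat_lit 7))) x11479)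
    (Nat.sub (Nat.sub (Nat.add (Nat.add (Nat.add (Nat.add (Nat.add (Nat.add (Nat.add (Nat.add C x9295) x3463) x5407) x4759) x4975) x4903) x4927) x4919) (Nat.mul x4921 (nat_lit 7))) x11481)
    (Nat.sub (Nat.sub (Nat.add (Nat.add (Nat.add (Nat.add (Nat.add (Nat.add (Nat.add (Nat.add C x9299) x3467) x5411) x4763) x4979) x4907) x4919) x4927) (Nat.mul x4925 (nat_lit 7))) x11485)
    (Nat.sub (Nat.sub (Nat.add (Nat.add (Nat.add (Nat.add (Nat.add (Nat.add (Nat.add (Nat.add (Nat.add (Nat.add C x9301) x3469) x5413) x4765) x4981) x4909) x4921) x4933) x4925) x4929) (Nat.mul x4927 (nat_lit 5))) x11487)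
    (Nat.sub (Nat.add (Nat.add (Nat.add (Nat.add (Nat.add (Nat.add (Nat.add (Nat.add C x9303) x3471) x5415) x4767) x4983) x4911) x4935) x4927) (Nat.mul x4929 (nat_lit 5)))
    (Nat.sub (Nat.sub (Nat.add (Nat.add (Nat.add (Nat.add (Nat.add (Nat.add (Nat.add C x9307) x3475) x5419) x4771) x4987) x4927) x4935) (Nat.mul x4933 (nat_lit 5))) x11493)
    (Nat.sub (Nat.add (Nat.add (Nat.add (Nat.add (Nat.add (Nat.add (Nat.add C x9309) x3477) x5421) x4773) x4989) x4929) x4933) (Nat.mul x4935 (nat_lit 3)))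
    (Nat.sub (Nat.sub (Nat.add (Nat.add (Nat.add (Nat.add (Nat.add (Nat.add C x9323) x3491) x5435) x4787) x4895) x4955) (Nat.mul x4949 (nat_lit 3))) x11509)
    (Nat.sub (Nat.sub (Nat.add (Nat.add (Nat.add (Nat.add (Nat.add (Nat.add (Nat.add (Nat.add (Nat.add C x9329) x3497) x5441) x4793) x4901) x4973) x4949) x4961) x4957) (Nat.mul x4955 (nat_lit 4))) x11515)
    (Nat.sub (Nat.sub (Nat.add (Nat.add (Nat.add (Nat.add (Nat.add (Nat.add (Nat.add (Nat.add C x9331) x3499) x5443) x4795) x4903) x4975) x4963) x4955) (Nat.mul x4957 (nat_lit 3))) x11517)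
    (Nat.sub (Nat.sub (Nat.add (Nat.add (Nat.add (Nat.add (Nat.add (Nat.add (Nat.add (Nat.add C x9335) x3503) x5447) x4799) x4907) x4979) x4955) x4963) (Nat.mul x4961 (nat_lit 7))) x11521)
    (Nat.sub (Nat.sub (Nat.add (Nat.add (Nat.add (Nat.add (Nat.add (Nat.add (Nat.add (Nat.add (Nat.add C x9337) x3505) x5449) x4801) x4909) x4981) x4957) x4961) x4965) (Nat.mul x4963 (nat_lit 4))) x11523)
    (Nat.sub (Nat.add (Nat.add (Nat.add (Nat.add (Nat.add (Nat.add (Nat.add C x9339) x3507) x5451) x4803) x4911) x4983) x4963) (Nat.mul x4965 (nat_lit 3)))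
    (Nat.sub (Nat.sub (Nat.add (Nat.add (Nat.add (Nat.add (Nat.add (Nat.add (Nat.add (Nat.add (Nat.add C x9347) x3515) x5459) x4811) x4919) x5027) x4955) x4979) x4975) (Nat.mul x4973 (nat_lit 4))) x11533)
    (Nat.sub (Nat.sub (Nat.add (Nat.add (Nat.add (Nat.add (Nat.add (Nat.add (Nat.add (Nat.add (Nat.add C x9349) x3517) x5461) x4813) x4921) x5029) x4957) x4981) x4973) (Nat.mul x4975 (nat_lit 4))) x11535)
    (Nat.sub (Nat.sub (Nat.add (Nat.add (Nat.add (Nat.add (Nat.add (Nat.add (Nat.add (Nat.add (Nat.add (Nat.add C x9353) x3521) x5465) x4817) x4925) x5033) x4961) x4997) x4973) x4981) (Nat.mul x4979 (nat_lit 5))) x11539)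
    (Nat.sub (Nat.sub (Nat.add (Nat.add (Nat.add (Nat.add (Nat.add (Nat.add (Nat.add (Nat.add (Nat.add (Nat.add (Nat.add (Nat.add C x9355) x3523) x5467) x4819) x4927) x5035) x4963) x4999) x4975) x4987) x4979) x4983) (Nat.mul x4981 (nat_lit 3))) x11541)
    (Nat.sub (Nat.add (Nat.add (Nat.add (Nat.add (Nat.add (Nat.add (Nat.add (Nat.add (Nat.add (Nat.add C x9357) x3525) x5469) x4821) x4929) x5037) x4965) x5001) x4989) x4981) (Nat.mul x4983 (nat_lit 3)))
    (Nat.sub (Nat.sub (Nat.add (Nat.add (Nat.add (Nat.add (Nat.add (Nat.add (Nat.add (Nat.add (Nat.add C x9361) x3529) x5473) x4825) x4933) x5041) x5005) x4981) x4989) (Nat.mul x4987 (nat_lit 4))) x11547)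
    (Nat.sub (Nat.add (Nat.add (Nat.add (Nat.add (Nat.add (Nat.add (Nat.add (Nat.add (Nat.add C x9363) x3531) x5475) x4827) x4935) x5043) x5007) x4983) x4987) (Nat.mul x4989 (nat_lit 2)))
    (Nat.sub (Nat.sub (Nat.add (Nat.add (Nat.add (Nat.add (Nat.add (Nat.add (Nat.add C x9371) x3539) x5483) x4835) x5051) x4979) x4999) (Nat.mul x4997 (nat_lit 5))) x11557)
    (Nat.sub (Nat.sub (Nat.add (Nat.add (Nat.add (Nat.add (Nat.add (Nat.add (Nat.add (Nat.add (Nat.add C x9373) x3541) x5485) x4837) x5053) x4981) x5005) x4997) x5001) (Nat.mul x4999 (nat_lit 4))) x11559)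
    (Nat.sub (Nat.add (Nat.add (Nat.add (Nat.add (Nat.add (Nat.add (Nat.add (Nat.add C x9375) x3543) x5487) x4839) x5055) x4983) x5007) x4999) (Nat.mul x5001 (nat_lit 5)))
    (Nat.sub (Nat.sub (Nat.add (Nat.add (Nat.add (Nat.add (Nat.add (Nat.add (Nat.add (Nat.add C x9379) x3547) x5491) x4843) x5059) x4987) x4999) x5007) (Nat.mul x5005 (nat_lit 3))) x11565)
    (Nat.sub (Nat.add (Nat.add (Nat.add (Nat.add (Nat.add (Nat.add (Nat.add (Nat.add (Nat.add C x9381) x3549) x5493) x4845) x5061) x4989) x5001) x5013) x5005) (Nat.mul x5007 (nat_lit 2)))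
    (Nat.sub (Nat.add (Nat.add (Nat.add (Nat.add (Nat.add (Nat.add C x9387) x3555) x5499) x4851) x5067) x5007) x5013)
    (Nat.sub (Nat.sub (Nat.add (Nat.add (Nat.add (Nat.add (Nat.add (Nat.add C x9401) x3569) x5513) x4973) x5033) x5029) (Nat.mul x5027 (nat_lit 3))) x11587)
    (Nat.sub (Nat.sub (Nat.add (Nat.add (Nat.add (Nat.add (Nat.add (Nat.add C x9403) x3571) x5515) x4975) x5035) x5027) (Nat.mul x5029 (nat_lit 3))) x11589)
    (Nat.sub (Nat.sub (Nat.add (Nat.add (Nat.add (Nat.add (Nat.add (Nat.add (Nat.add C x9407) x3575) x5519) x4979) x5051) x5027) x5035) (Nat.mul x5033 (nat_lit 5))) x11593)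
    (Nat.sub (Nat.sub (Nat.add (Nat.add (Nat.add (Nat.add (Nat.add (Nat.add (Nat.add (Nat.add (Nat.add C x9409) x3577) x5521) x4981) x5053) x5029) x5041) x5033) x5037) (Nat.mul x5035 (nat_lit 3))) x11595)
    (Nat.sub (Nat.add (Nat.add (Nat.add (Nat.add (Nat.add (Nat.add (Nat.add C x9411) x3579) x5523) x4983) x5055) x5043) x5035) (Nat.mul x5037 (nat_lit 3)))
    (Nat.sub (Nat.sub (Nat.add (Nat.add (Nat.add (Nat.add (Nat.add (Nat.add (Nat.add C x9415) x3583) x5527) x4987) x5059) x5035) x5043) (Nat.mul x5041 (nat_lit 5))) x11601)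
    (Nat.sub (Nat.add (Nat.add (Nat.add (Nat.add (Nat.add (Nat.add (Nat.add C x9417) x3585) x5529) x4989) x5061) x5037) x5041) (Nat.mul x5043 (nat_lit 3)))
    (Nat.sub (Nat.sub (Nat.add (Nat.add (Nat.add (Nat.add (Nat.add (Nat.add C x9425) x3593) x5537) x4997) x5033) x5053) (Nat.mul x5051 (nat_lit 3))) x11611)
    (Nat.sub (Nat.sub (Nat.add (Nat.add (Nat.add (Nat.add (Nat.add (Nat.add (Nat.add (Nat.add C x9427) x3595) x5539) x4999) x5035) x5059) x5051) x5055) (Nat.mul x5053 (nat_lit 2))) x11613)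
    (Nat.sub (Nat.add (Nat.add (Nat.add (Nat.add (Nat.add (Nat.add (Nat.add C x9429) x3597) x5541) x5001) x5037) x5061) x5053) (Nat.mul x5055 (nat_lit 3)))
    (Nat.sub (Nat.sub (Nat.add (Nat.add (Nat.add (Nat.add (Nat.add (Nat.add (Nat.add (Nat.add C x9433) x3601) x5545) x5005) x5041) x5077) x5053) x5061) (Nat.mul x5059 (nat_lit 2))) x11619)
    (Nat.sub (Nat.add (Nat.add (Nat.add (Nat.add (Nat.add (Nat.add (Nat.add (Nat.add (Nat.add C x9435) x3603) x5547) x5007) x5043) x5079) x5055) x5067) x5059) x5061)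
    (Nat.sub (Nat.add (Nat.add (Nat.add (Nat.add (Nat.add (Nat.add C x9441) x3609) x5553) x5013) x5085) x5061) x5067)
    (Nat.sub (Nat.sub (Nat.add (Nat.add (Nat.add (Nat.add (Nat.add C x9451) x3619) x5563) x5059) x5079) x5077) x11637)
    (Nat.sub (Nat.add (Nat.add (Nat.add (Nat.add (Nat.add (Nat.add C x9453) x3621) x5565) x5061) x5085) x5077) x5079)
    (Nat.add (Nat.add (Nat.add (Nat.add (Nat.add (Nat.add C x5085) x9459) x3627) x5571) x5067) x5079)
    (Nat.sub (Nat.add (Nat.add (Nat.add (Nat.add (Nat.add C x5129) x9503) x3671) x4643) x5147) x11689)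
    (Nat.sub (Nat.add (Nat.add (Nat.add (Nat.add (Nat.add (Nat.add (Nat.add C x9521) x3689) x4661) x5201) x5129) x5165) x5153) x11707)
    (Nat.sub (Nat.sub (Nat.add (Nat.add (Nat.add (Nat.add (Nat.add (Nat.add (Nat.add C x9527) x3695) x4667) x5207) x5171) x5147) x5155) x5153) x11713)
    (Nat.sub (Nat.add (Nat.add (Nat.add (Nat.add (Nat.add (Nat.add (Nat.add C x5155) x9529) x3697) x4669) x5209) x5173) x5153) x11715)
    (Nat.sub (Nat.sub (Nat.add (Nat.add (Nat.add (Nat.add (Nat.add (Nat.add C x9539) x3707) x4679) x5219) x5147) x5171) (Nat.mul x5165 (nat_lit 3))) x11725)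
    (Nat.sub (Nat.sub (Nat.add (Nat.add (Nat.add (Nat.add (Nat.add (Nat.add (Nat.add (Nat.add C x9545) x3713) x4685) x5225) x5153) x5165) x5177) x5173) (Nat.mul x5171 (nat_lit 2))) x11731)
    (Nat.sub (Nat.sub (Nat.add (Nat.add (Nat.add (Nat.add (Nat.add (Nat.add (Nat.add C x9547) x3715) x4687) x5227) x5155) x5179) x5171) x5173) x11733)
    (Nat.sub (Nat.sub (Nat.add (Nat.add (Nat.add (Nat.add (Nat.add (Nat.add C x9551) x3719) x4691) x5231) x5171) x5179) (Nat.mul x5177 (nat_lit 3))) x11737)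
    (Nat.sub (Nat.add (Nat.add (Nat.add (Nat.add (Nat.add (Nat.add (Nat.add C x9553) x3721) x4693) x5233) x5173) x5177) x5181) x11739)
    (Nat.add (Nat.add (Nat.add (Nat.add (Nat.add (Nat.add C x5181) x9555) x3723) x4695) x5235) x5179)
    (Nat.sub (Nat.sub (Nat.add (Nat.add (Nat.add (Nat.add (Nat.add (Nat.add (Nat.add C x9575) x3743) x4715) x5363) x5147) x5219) x5207) x5201) x11761)
    (Nat.sub (Nat.sub (Nat.add (Nat.add (Nat.add (Nat.add (Nat.add (Nat.add (Nat.add (Nat.add C x9581) x3749) x4721) x5369) x5153) x5225) x5201) x5209) (Nat.mul x5207 (nat_lit 3))) x11767)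
    (Nat.sub (Nat.sub (Nat.add (Nat.add (Nat.add (Nat.add (Nat.add (Nat.add (Nat.add C x9583) x3751) x4723) x5371) x5155) x5227) x5207) x5209) x11769)
    (Nat.sub (Nat.sub (Nat.add (Nat.add (Nat.add (Nat.add (Nat.add (Nat.add (Nat.add (Nat.add C x9593) x3761) x4733) x5381) x5165) x5273) x5201) x5225) (Nat.mul x5219 (nat_lit 2))) x11779)
    (Nat.sub (Nat.sub (Nat.add (Nat.add (Nat.add (Nat.add (Nat.add (Nat.add (Nat.add (Nat.add (Nat.add (Nat.add (Nat.add C x9599) x3767) x4739) x5387) x5171) x5279) x5207) x5243) x5219) x5231) x5227) (Nat.mul x5225 (nat_lit 2))) x11785)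
    (Nat.sub (Nat.sub (Nat.add (Nat.add (Nat.add (Nat.add (Nat.add (Nat.add (Nat.add (Nat.add (Nat.add (Nat.add C x9601) x3769) x4741) x5389) x5173) x5281) x5209) x5245) x5233) x5225) x5227) x11787)
    (Nat.sub (Nat.sub (Nat.add (Nat.add (Nat.add (Nat.add (Nat.add (Nat.add (Nat.add (Nat.add (Nat.add C x9605) x3773) x4745) x5393) x5177) x5285) x5249) x5225) x5233) (Nat.mul x5231 (nat_lit 4))) x11791)
    (Nat.sub (Nat.sub (Nat.add (Nat.add (Nat.add (Nat.add (Nat.add (Nat.add (Nat.add (Nat.add (Nat.add (Nat.add C x9607) x3775) x4747) x5395) x5179) x5287) x5251) x5227) x5231) x5235) x5233) x11793)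
    (Nat.add (Nat.add (Nat.add (Nat.add (Nat.add (Nat.add (Nat.add (Nat.add C x9609) x3777) x4749) x5397) x5181) x5289) x5253) x5233)
    (Nat.sub (Nat.sub (Nat.add (Nat.add (Nat.add (Nat.add (Nat.add (Nat.add (Nat.add (Nat.add C x9617) x3785) x4757) x5405) x5297) x5225) x5249) x5245) (Nat.mul x5243 (nat_lit 3))) x11803)
    (Nat.sub (Nat.sub (Nat.add (Nat.add (Nat.add (Nat.add (Nat.add (Nat.add (Nat.add (Nat.add C x9619) x3787) x4759) x5407) x5299) x5227) x5251) x5243) (Nat.mul x5245 (nat_lit 3))) x11805)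
    (Nat.sub (Nat.sub (Nat.add (Nat.add (Nat.add (Nat.add (Nat.add (Nat.add (Nat.add (Nat.add C x9623) x3791) x4763) x5411) x5303) x5231) x5243) x5251) (Nat.mul x5249 (nat_lit 3))) x11809)
    (Nat.sub (Nat.sub (Nat.add (Nat.add (Nat.add (Nat.add (Nat.add (Nat.add (Nat.add (Nat.add (Nat.add (Nat.add C x9625) x3793) x4765) x5413) x5305) x5233) x5245) x5257) x5249) x5253) x5251) x11811)
    (Nat.sub (Nat.add (Nat.add (Nat.add (Nat.add (Nat.add (Nat.add (Nat.add (Nat.add C x9627) x3795) x4767) x5415) x5307) x5235) x5259) x5251) x5253)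
    (Nat.sub (Nat.sub (Nat.add (Nat.add (Nat.add (Nat.add (Nat.add (Nat.add (Nat.add C x9631) x3799) x4771) x5419) x5311) x5251) x5259) x5257) x11817)
    (Nat.add (Nat.add (Nat.add (Nat.add (Nat.add (Nat.add (Nat.add (Nat.add C x5259) x9633) x3801) x4773) x5421) x5313) x5253) x5257)
    (Nat.sub (Nat.sub (Nat.add (Nat.add (Nat.add (Nat.add (Nat.add (Nat.add C x9647) x3815) x4787) x5435) x5219) x5279) (Nat.mul x5273 (nat_lit 3))) x11833)
    (Nat.sub (Nat.sub (Nat.add (Nat.add (Nat.add (Nat.add (Nat.add (Nat.add (Nat.add (Nat.add (Nat.add C x9653) x3821) x4793) x5441) x5225) x5297) x5273) x5285) x5281) (Nat.mul x5279 (nat_lit 4))) x11839)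
    (Nat.sub (Nat.sub (Nat.add (Nat.add (Nat.add (Nat.add (Nat.add (Nat.add (Nat.add (Nat.add C x9655) x3823) x4795) x5443) x5227) x5299) x5287) x5279) (Nat.mul x5281 (nat_lit 3))) x11841)
    (Nat.sub (Nat.sub (Nat.add (Nat.add (Nat.add (Nat.add (Nat.add (Nat.add (Nat.add (Nat.add C x9659) x3827) x4799) x5447) x5231) x5303) x5279) x5287) (Nat.mul x5285 (nat_lit 7))) x11845)
    (Nat.sub (Nat.sub (Nat.add (Nat.add (Nat.add (Nat.add (Nat.add (Nat.add (Nat.add (Nat.add (Nat.add C x9661) x3829) x4801) x5449) x5233) x5305) x5281) x5285) x5289) (Nat.mul x5287 (nat_lit 4))) x11847)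
    (Nat.sub (Nat.add (Nat.add (Nat.add (Nat.add (Nat.add (Nat.add (Nat.add C x9663) x3831) x4803) x5451) x5235) x5307) x5287) (Nat.mul x5289 (nat_lit 3)))
    (Nat.sub (Nat.sub (Nat.add (Nat.add (Nat.add (Nat.add (Nat.add (Nat.add (Nat.add (Nat.add C x9671) x3839) x4811) x5459) x5243) x5279) x5303) x5299) (Nat.mul x5297 (nat_lit 3))) x11857)
    (Nat.sub (Nat.sub (Nat.add (Nat.add (Nat.add (Nat.add (Nat.add (Nat.add (Nat.add (Nat.add C x9673) x3841) x4813) x5461) x5245) x5281) x5305) x5297) (Nat.mul x5299 (nat_lit 3))) x11859)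
    (Nat.sub (Nat.sub (Nat.add (Nat.add (Nat.add (Nat.add (Nat.add (Nat.add (Nat.add (Nat.add (Nat.add C x9677) x3845) x4817) x5465) x5249) x5285) x5321) x5297) x5305) (Nat.mul x5303 (nat_lit 4))) x11863)
    (Nat.sub (Nat.sub (Nat.add (Nat.add (Nat.add (Nat.add (Nat.add (Nat.add (Nat.add (Nat.add (Nat.add (Nat.add (Nat.add C x9679) x3847) x4819) x5467) x5251) x5287) x5323) x5299) x5311) x5303) x5307) (Nat.mul x5305 (nat_lit 2))) x11865)
    (Nat.sub (Nat.add (Nat.add (Nat.add (Nat.add (Nat.add (Nat.add (Nat.add (Nat.add (Nat.add C x9681) x3849) x4821) x5469) x5253) x5289) x5325) x5313) x5305) (Nat.mul x5307 (nat_lit 2)))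
    (Nat.sub (Nat.sub (Nat.add (Nat.add (Nat.add (Nat.add (Nat.add (Nat.add (Nat.add (Nat.add C x9685) x3853) x4825) x5473) x5257) x5329) x5305) x5313) (Nat.mul x5311 (nat_lit 3))) x11871)
    (Nat.sub (Nat.add (Nat.add (Nat.add (Nat.add (Nat.add (Nat.add (Nat.add (Nat.add C x9687) x3855) x4827) x5475) x5259) x5331) x5307) x5311) x5313)
    (Nat.sub (Nat.sub (Nat.add (Nat.add (Nat.add (Nat.add (Nat.add (Nat.add C x9695) x3863) x4835) x5483) x5303) x5323) (Nat.mul x5321 (nat_lit 3))) x11881)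
    (Nat.sub (Nat.sub (Nat.add (Nat.add (Nat.add (Nat.add (Nat.add (Nat.add (Nat.add (Nat.add C x9697) x3865) x4837) x5485) x5305) x5329) x5321) x5325) (Nat.mul x5323 (nat_lit 2))) x11883)
    (Nat.sub (Nat.add (Nat.add (Nat.add (Nat.add (Nat.add (Nat.add (Nat.add C x9699) x3867) x4839) x5487) x5307) x5331) x5323) (Nat.mul x5325 (nat_lit 3)))
    (Nat.sub (Nat.sub (Nat.add (Nat.add (Nat.add (Nat.add (Nat.add (Nat.add (Nat.add C x9703) x3871) x4843) x5491) x5311) x5323) x5331) x5329) x11889)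
    (Nat.add (Nat.add (Nat.add (Nat.add (Nat.add (Nat.add (Nat.add (Nat.add C x9705) x3873) x4845) x5493) x5313) x5325) x5337) x5329)
    (Nat.add (Nat.add (Nat.add (Nat.add (Nat.add (Nat.add C x5337) x9711) x3879) x4851) x5499) x5331)
    (Nat.sub (Nat.add (Nat.add (Nat.add (Nat.add (Nat.add (Nat.add (Nat.add C x9737) x3905) x4877) x5849) x5201) x5381) x5369) x11923)
    (Nat.sub (Nat.sub (Nat.add (Nat.add (Nat.add (Nat.add (Nat.add (Nat.add (Nat.add (Nat.add C x9743) x3911) x4883) x5855) x5207) x5387) x5363) x5371) (Nat.mul x5369 (nat_lit 2))) x11929)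
    (Nat.sub (Nat.add (Nat.add (Nat.add (Nat.add (Nat.add (Nat.add (Nat.add C x9745) x3913) x4885) x5857) x5209) x5389) x5369) x11931)
    (Nat.sub (Nat.sub (Nat.add (Nat.add (Nat.add (Nat.add (Nat.add (Nat.add (Nat.add (Nat.add C x9755) x3923) x4895) x5867) x5219) x5435) x5363) x5387) (Nat.mul x5381 (nat_lit 2))) x11941)
    (Nat.sub (Nat.sub (Nat.add (Nat.add (Nat.add (Nat.add (Nat.add (Nat.add (Nat.add (Nat.add (Nat.add (Nat.add (Nat.add C x9761) x3929) x4901) x5873) x5225) x5441) x5369) x5405) x5381) x5393) x5389) (Nat.mul x5387 (nat_lit 2))) x11947)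
    (Nat.sub (Nat.sub (Nat.add (Nat.add (Nat.add (Nat.add (Nat.add (Nat.add (Nat.add (Nat.add (Nat.add (Nat.add C x9763) x3931) x4903) x5875) x5227) x5443) x5371) x5407) x5395) x5387) x5389) x11949)
    (Nat.sub (Nat.sub (Nat.add (Nat.add (Nat.add (Nat.add (Nat.add (Nat.add (Nat.add (Nat.add (Nat.add C x9767) x3935) x4907) x5879) x5231) x5447) x5411) x5387) x5395) (Nat.mul x5393 (nat_lit 4))) x11953)
    (Nat.sub (Nat.sub (Nat.add (Nat.add (Nat.add (Nat.add (Nat.add (Nat.add (Nat.add (Nat.add (Nat.add (Nat.add C x9769) x3937) x4909) x5881) x5233) x5449) x5413) x5389) x5393) x5397) x5395) x11955)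
    (Nat.add (Nat.add (Nat.add (Nat.add (Nat.add (Nat.add (Nat.add (Nat.add C x9771) x3939) x4911) x5883) x5235) x5451) x5415) x5395)
    (Nat.sub (Nat.sub (Nat.add (Nat.add (Nat.add (Nat.add (Nat.add (Nat.add (Nat.add (Nat.add (Nat.add C x9779) x3947) x4919) x5891) x5243) x5459) x5387) x5411) x5407) (Nat.mul x5405 (nat_lit 4))) x11965)
    (Nat.sub (Nat.sub (Nat.add (Nat.add (Nat.add (Nat.add (Nat.add (Nat.add (Nat.add (Nat.add (Nat.add C x9781) x3949) x4921) x5893) x5245) x5461) x5389) x5413) x5405) (Nat.mul x5407 (nat_lit 4))) x11967)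
    (Nat.sub (Nat.sub (Nat.add (Nat.add (Nat.add (Nat.add (Nat.add (Nat.add (Nat.add (Nat.add (Nat.add C x9785) x3953) x4925) x5897) x5249) x5465) x5393) x5405) x5413) (Nat.mul x5411 (nat_lit 4))) x11971)
    (Nat.sub (Nat.sub (Nat.add (Nat.add (Nat.add (Nat.add (Nat.add (Nat.add (Nat.add (Nat.add (Nat.add (Nat.add (Nat.add C x9787) x3955) x4927) x5899) x5251) x5467) x5395) x5407) x5419) x5411) x5415) (Nat.mul x5413 (nat_lit 2))) x11973)
    (Nat.sub (Nat.add (Nat.add (Nat.add (Nat.add (Nat.add (Nat.add (Nat.add (Nat.add (Nat.add C x9789) x3957) x4929) x5901) x5253) x5469) x5397) x5421) x5413) (Nat.mul x5415 (nat_lit 2)))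
    (Nat.sub (Nat.sub (Nat.add (Nat.add (Nat.add (Nat.add (Nat.add (Nat.add (Nat.add (Nat.add C x9793) x3961) x4933) x5905) x5257) x5473) x5413) x5421) (Nat.mul x5419 (nat_lit 2))) x11979)
    (Nat.add (Nat.add (Nat.add (Nat.add (Nat.add (Nat.add (Nat.add (Nat.add C x9795) x3963) x4935) x5907) x5259) x5475) x5415) x5419)
    (Nat.sub (Nat.sub (Nat.add (Nat.add (Nat.add (Nat.add (Nat.add (Nat.add (Nat.add (Nat.add C x9809) x3977) x4949) x5921) x5273) x5597) x5381) x5441) x5435) x11995)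
    (Nat.sub (Nat.sub (Nat.add (Nat.add (Nat.add (Nat.add (Nat.add (Nat.add (Nat.add (Nat.add (Nat.add (Nat.add (Nat.add C x9815) x3983) x4955) x5927) x5279) x5603) x5387) x5459) x5435) x5447) x5443) (Nat.mul x5441 (nat_lit 2))) x12001)
    (Nat.sub (Nat.sub (Nat.add (Nat.add (Nat.add (Nat.add (Nat.add (Nat.add (Nat.add (Nat.add (Nat.add (Nat.add C x9817) x3985) x4957) x5929) x5281) x5605) x5389) x5461) x5449) x5441) x5443) x12003)
    (Nat.sub (Nat.sub (Nat.add (Nat.add (Nat.add (Nat.add (Nat.add (Nat.add (Nat.add (Nat.add (Nat.add (Nat.add C x9821) x3989) x4961) x5933) x5285) x5609) x5393) x5465) x5441) x5449) (Nat.mul x5447 (nat_lit 5))) x12007)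
    (Nat.sub (Nat.sub (Nat.add (Nat.add (Nat.add (Nat.add (Nat.add (Nat.add (Nat.add (Nat.add (Nat.add (Nat.add (Nat.add C x9823) x3991) x4963) x5935) x5287) x5611) x5395) x5467) x5443) x5447) x5451) (Nat.mul x5449 (nat_lit 2))) x12009)
    (Nat.sub (Nat.add (Nat.add (Nat.add (Nat.add (Nat.add (Nat.add (Nat.add (Nat.add (Nat.add C x9825) x3993) x4965) x5937) x5289) x5613) x5397) x5469) x5449) x5451)
    (Nat.sub (Nat.sub (Nat.add (Nat.add (Nat.add (Nat.add (Nat.add (Nat.add (Nat.add (Nat.add (Nat.add (Nat.add (Nat.add C x9833) x4001) x4973) x5945) x5297) x5621) x5405) x5513) x5441) x5465) x5461) (Nat.mul x5459 (nat_lit 2))) x12019)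
    (Nat.sub (Nat.sub (Nat.add (Nat.add (Nat.add (Nat.add (Nat.add (Nat.add (Nat.add (Nat.add (Nat.add (Nat.add (Nat.add C x9835) x4003) x4975) x5947) x5299) x5623) x5407) x5515) x5443) x5467) x5459) (Nat.mul x5461 (nat_lit 2))) x12021)
    (Nat.sub (Nat.sub (Nat.add (Nat.add (Nat.add (Nat.add (Nat.add (Nat.add (Nat.add (Nat.add (Nat.add (Nat.add (Nat.add (Nat.add C x9839) x4007) x4979) x5951) x5303) x5627) x5411) x5519) x5447) x5483) x5459) x5467) (Nat.mul x5465 (nat_lit 3))) x12025)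
    (Nat.sub (Nat.sub (Nat.add (Nat.add (Nat.add (Nat.add (Nat.add (Nat.add (Nat.add (Nat.add (Nat.add (Nat.add (Nat.add (Nat.add (Nat.add (Nat.add C x9841) x4009) x4981) x5953) x5305) x5629) x5413) x5521) x5449) x5485) x5461) x5473) x5465) x5469) x5467) x12027)
    (Nat.sub (Nat.add (Nat.add (Nat.add (Nat.add (Nat.add (Nat.add (Nat.add (Nat.add (Nat.add (Nat.add (Nat.add (Nat.add C x9843) x4011) x4983) x5955) x5307) x5631) x5415) x5523) x5451) x5487) x5475) x5467) x5469)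
    (Nat.sub (Nat.sub (Nat.add (Nat.add (Nat.add (Nat.add (Nat.add (Nat.add (Nat.add (Nat.add (Nat.add (Nat.add (Nat.add C x9847) x4015) x4987) x5959) x5311) x5635) x5419) x5527) x5491) x5467) x5475) (Nat.mul x5473 (nat_lit 2))) x12033)
    (Nat.add (Nat.add (Nat.add (Nat.add (Nat.add (Nat.add (Nat.add (Nat.add (Nat.add (Nat.add (Nat.add C x9849) x4017) x4989) x5961) x5313) x5637) x5421) x5529) x5493) x5469) x5473)
    (Nat.sub (Nat.sub (Nat.add (Nat.add (Nat.add (Nat.add (Nat.add (Nat.add (Nat.add (Nat.add (Nat.add C x9857) x4025) x4997) x5969) x5321) x5645) x5537) x5465) x5485) (Nat.mul x5483 (nat_lit 3))) x12043)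
    (Nat.sub (Nat.sub (Nat.add (Nat.add (Nat.add (Nat.add (Nat.add (Nat.add (Nat.add (Nat.add (Nat.add (Nat.add (Nat.add C x9859) x4027) x4999) x5971) x5323) x5647) x5539) x5467) x5491) x5483) x5487) (Nat.mul x5485 (nat_lit 2))) x12045)
    (Nat.sub (Nat.add (Nat.add (Nat.add (Nat.add (Nat.add (Nat.add (Nat.add (Nat.add (Nat.add (Nat.add C x9861) x4029) x5001) x5973) x5325) x5649) x5541) x5469) x5493) x5485) (Nat.mul x5487 (nat_lit 3)))
    (Nat.sub (Nat.sub (Nat.add (Nat.add (Nat.add (Nat.add (Nat.add (Nat.add (Nat.add (Nat.add (Nat.add (Nat.add C x9865) x4033) x5005) x5977) x5329) x5653) x5545) x5473) x5485) x5493) x5491) x12051)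
    (Nat.add (Nat.add (Nat.add (Nat.add (Nat.add (Nat.add (Nat.add (Nat.add (Nat.add (Nat.add (Nat.add C x9867) x4035) x5007) x5979) x5331) x5655) x5547) x5475) x5487) x5499) x5491)
    (Nat.add (Nat.add (Nat.add (Nat.add (Nat.add (Nat.add (Nat.add (Nat.add (Nat.add C x5499) x9873) x4041) x5013) x5985) x5337) x5661) x5553) x5493)
    (Nat.sub (Nat.sub (Nat.add (Nat.add (Nat.add (Nat.add (Nat.add (Nat.add (Nat.add (Nat.add C x9887) x4055) x5027) x5999) x5675) x5459) x5519) x5515) (Nat.mul x5513 (nat_lit 2))) x12073)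
    (Nat.sub (Nat.sub (Nat.add (Nat.add (Nat.add (Nat.add (Nat.add (Nat.add (Nat.add (Nat.add C x9889) x4057) x5029) x6001) x5677) x5461) x5521) x5513) (Nat.mul x5515 (nat_lit 2))) x12075)
    (Nat.sub (Nat.sub (Nat.add (Nat.add (Nat.add (Nat.add (Nat.add (Nat.add (Nat.add (Nat.add (Nat.add C x9893) x4061) x5033) x6005) x5681) x5465) x5537) x5513) x5521) (Nat.mul x5519 (nat_lit 4))) x12079)
    (Nat.sub (Nat.sub (Nat.add (Nat.add (Nat.add (Nat.add (Nat.add (Nat.add (Nat.add (Nat.add (Nat.add (Nat.add (Nat.add C x9895) x4063) x5035) x6007) x5683) x5467) x5539) x5515) x5527) x5519) x5523) (Nat.mul x5521 (nat_lit 2))) x12081)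
    (Nat.sub (Nat.add (Nat.add (Nat.add (Nat.add (Nat.add (Nat.add (Nat.add (Nat.add (Nat.add C x9897) x4065) x5037) x6009) x5685) x5469) x5541) x5529) x5521) (Nat.mul x5523 (nat_lit 2)))
    (Nat.sub (Nat.sub (Nat.add (Nat.add (Nat.add (Nat.add (Nat.add (Nat.add (Nat.add (Nat.add (Nat.add C x9901) x4069) x5041) x6013) x5689) x5473) x5545) x5521) x5529) (Nat.mul x5527 (nat_lit 4))) x12087)
    (Nat.sub (Nat.add (Nat.add (Nat.add (Nat.add (Nat.add (Nat.add (Nat.add (Nat.add (Nat.add C x9903) x4071) x5043) x6015) x5691) x5475) x5547) x5523) x5527) (Nat.mul x5529 (nat_lit 2)))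
    (Nat.sub (Nat.sub (Nat.add (Nat.add (Nat.add (Nat.add (Nat.add (Nat.add (Nat.add (Nat.add C x9911) x4079) x5051) x6023) x5699) x5483) x5519) x5539) (Nat.mul x5537 (nat_lit 2))) x12097)
    (Nat.sub (Nat.sub (Nat.add (Nat.add (Nat.add (Nat.add (Nat.add (Nat.add (Nat.add (Nat.add (Nat.add (Nat.add C x9913) x4081) x5053) x6025) x5701) x5485) x5521) x5545) x5537) x5541) x5539) x12099)
    (Nat.sub (Nat.add (Nat.add (Nat.add (Nat.add (Nat.add (Nat.add (Nat.add (Nat.add (Nat.add C x9915) x4083) x5055) x6027) x5703) x5487) x5523) x5547) x5539) (Nat.mul x5541 (nat_lit 2)))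
    (Nat.sub (Nat.sub (Nat.add (Nat.add (Nat.add (Nat.add (Nat.add (Nat.add (Nat.add (Nat.add (Nat.add (Nat.add C x9919) x4087) x5059) x6031) x5707) x5491) x5527) x5563) x5539) x5547) x5545) x12105)
    (Nat.add (Nat.add (Nat.add (Nat.add (Nat.add (Nat.add (Nat.add (Nat.add (Nat.add (Nat.add (Nat.add C x9921) x4089) x5061) x6033) x5709) x5493) x5529) x5565) x5541) x5553) x5545)
    (Nat.add (Nat.add (Nat.add (Nat.add (Nat.add (Nat.add (Nat.add (Nat.add C x9927) x4095) x5067) x6039) x5715) x5499) x5571) x5547)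
    (Nat.sub (Nat.add (Nat.add (Nat.add (Nat.add (Nat.add (Nat.add (Nat.add C x9937) x4105) x5077) x6049) x5725) x5545) x5565) x12123)
    (Nat.add (Nat.add (Nat.add (Nat.add (Nat.add (Nat.add (Nat.add (Nat.add C x9939) x4107) x5079) x6051) x5727) x5547) x5571) x5563)
    (Nat.add (Nat.add (Nat.add (Nat.add (Nat.add (Nat.add (Nat.add (Nat.add C (Nat.mul x5571 (nat_lit 2))) x9945) x4113) x5085) x6057) x5733) x5553) x5565)
    (Nat.sub (Nat.sub (Nat.add (Nat.add (Nat.add (Nat.add (Nat.add C x9971) x4139) x6083) x5435) x5603) x5597) x12157)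
    (Nat.sub (Nat.sub (Nat.add (Nat.add (Nat.add (Nat.add (Nat.add (Nat.add (Nat.add (Nat.add C x9977) x4145) x6089) x5441) x5621) x5597) x5609) x5605) (Nat.mul x5603 (nat_lit 2))) x12163)
    (Nat.sub (Nat.sub (Nat.add (Nat.add (Nat.add (Nat.add (Nat.add (Nat.add (Nat.add C x9979) x4147) x6091) x5443) x5623) x5611) x5603) x5605) x12165)
    (Nat.sub (Nat.sub (Nat.add (Nat.add (Nat.add (Nat.add (Nat.add (Nat.add (Nat.add C x9983) x4151) x6095) x5447) x5627) x5603) x5611) (Nat.mul x5609 (nat_lit 5))) x12169)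
    (Nat.sub (Nat.sub (Nat.add (Nat.add (Nat.add (Nat.add (Nat.add (Nat.add (Nat.add (Nat.add C x9985) x4153) x6097) x5449) x5629) x5605) x5609) x5613) (Nat.mul x5611 (nat_lit 2))) x12171)
    (Nat.sub (Nat.add (Nat.add (Nat.add (Nat.add (Nat.add (Nat.add C x9987) x4155) x6099) x5451) x5631) x5611) x5613)
    (Nat.sub (Nat.sub (Nat.add (Nat.add (Nat.add (Nat.add (Nat.add (Nat.add (Nat.add (Nat.add C x9995) x4163) x6107) x5459) x5675) x5603) x5627) x5623) (Nat.mul x5621 (nat_lit 3))) x12181)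
    (Nat.sub (Nat.sub (Nat.add (Nat.add (Nat.add (Nat.add (Nat.add (Nat.add (Nat.add (Nat.add C x9997) x4165) x6109) x5461) x5677) x5605) x5629) x5621) (Nat.mul x5623 (nat_lit 3))) x12183)
    (Nat.sub (Nat.sub (Nat.add (Nat.add (Nat.add (Nat.add (Nat.add (Nat.add (Nat.add (Nat.add (Nat.add C x10001) x4169) x6113) x5465) x5681) x5609) x5645) x5621) x5629) (Nat.mul x5627 (nat_lit 4))) x12187)
    (Nat.sub (Nat.sub (Nat.add (Nat.add (Nat.add (Nat.add (Nat.add (Nat.add (Nat.add (Nat.add (Nat.add (Nat.add (Nat.add C x10003) x4171) x6115) x5467) x5683) x5611) x5647) x5623) x5635) x5627) x5631) (Nat.mul x5629 (nat_lit 2))) x12189)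
    (Nat.sub (Nat.add (Nat.add (Nat.add (Nat.add (Nat.add (Nat.add (Nat.add (Nat.add (Nat.add C x10005) x4173) x6117) x5469) x5685) x5613) x5649) x5637) x5629) (Nat.mul x5631 (nat_lit 2)))
    (Nat.sub (Nat.sub (Nat.add (Nat.add (Nat.add (Nat.add (Nat.add (Nat.add (Nat.add (Nat.add C x10009) x4177) x6121) x5473) x5689) x5653) x5629) x5637) (Nat.mul x5635 (nat_lit 3))) x12195)
    (Nat.sub (Nat.add (Nat.add (Nat.add (Nat.add (Nat.add (Nat.add (Nat.add (Nat.add C x10011) x4179) x6123) x5475) x5691) x5655) x5631) x5635) x5637)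
    (Nat.sub (Nat.sub (Nat.add (Nat.add (Nat.add (Nat.add (Nat.add (Nat.add (Nat.add C x10019) x4187) x6131) x5483) x5699) x5627) x5647) (Nat.mul x5645 (nat_lit 5))) x12205)
    (Nat.sub (Nat.sub (Nat.add (Nat.add (Nat.add (Nat.add (Nat.add (Nat.add (Nat.add (Nat.add (Nat.add C x10021) x4189) x6133) x5485) x5701) x5629) x5653) x5645) x5649) (Nat.mul x5647 (nat_lit 4))) x12207)
    (Nat.sub (Nat.add (Nat.add (Nat.add (Nat.add (Nat.add (Nat.add (Nat.add (Nat.add C x10023) x4191) x6135) x5487) x5703) x5631) x5655) x5647) (Nat.mul x5649 (nat_lit 5)))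
    (Nat.sub (Nat.sub (Nat.add (Nat.add (Nat.add (Nat.add (Nat.add (Nat.add (Nat.add (Nat.add C x10027) x4195) x6139) x5491) x5707) x5635) x5647) x5655) (Nat.mul x5653 (nat_lit 3))) x12213)
    (Nat.sub (Nat.add (Nat.add (Nat.add (Nat.add (Nat.add (Nat.add (Nat.add (Nat.add (Nat.add C x10029) x4197) x6141) x5493) x5709) x5637) x5649) x5661) x5653) (Nat.mul x5655 (nat_lit 2)))
    (Nat.sub (Nat.add (Nat.add (Nat.add (Nat.add (Nat.add (Nat.add C x10035) x4203) x6147) x5499) x5715) x5655) x5661)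
    (Nat.sub (Nat.sub (Nat.add (Nat.add (Nat.add (Nat.add (Nat.add (Nat.add (Nat.add C x10049) x4217) x6161) x5513) x5621) x5681) x5677) x5675) x12235)
    (Nat.sub (Nat.sub (Nat.add (Nat.add (Nat.add (Nat.add (Nat.add (Nat.add (Nat.add C x10051) x4219) x6163) x5515) x5623) x5683) x5675) x5677) x12237)
    (Nat.sub (Nat.sub (Nat.add (Nat.add (Nat.add (Nat.add (Nat.add (Nat.add (Nat.add (Nat.add C x10055) x4223) x6167) x5519) x5627) x5699) x5675) x5683) (Nat.mul x5681 (nat_lit 3))) x12241)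
    (Nat.sub (Nat.sub (Nat.add (Nat.add (Nat.add (Nat.add (Nat.add (Nat.add (Nat.add (Nat.add (Nat.add (Nat.add C x10057) x4225) x6169) x5521) x5629) x5701) x5677) x5689) x5681) x5685) x5683) x12243)
    (Nat.sub (Nat.add (Nat.add (Nat.add (Nat.add (Nat.add (Nat.add (Nat.add (Nat.add C x10059) x4227) x6171) x5523) x5631) x5703) x5691) x5683) x5685)
    (Nat.sub (Nat.sub (Nat.add (Nat.add (Nat.add (Nat.add (Nat.add (Nat.add (Nat.add (Nat.add C x10063) x4231) x6175) x5527) x5635) x5707) x5683) x5691) (Nat.mul x5689 (nat_lit 3))) x12249)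
    (Nat.sub (Nat.add (Nat.add (Nat.add (Nat.add (Nat.add (Nat.add (Nat.add (Nat.add C x10065) x4233) x6177) x5529) x5637) x5709) x5685) x5689) x5691)
    (Nat.sub (Nat.sub (Nat.add (Nat.add (Nat.add (Nat.add (Nat.add (Nat.add (Nat.add (Nat.add C x10073) x4241) x6185) x5537) x5645) x5753) x5681) x5701) (Nat.mul x5699 (nat_lit 2))) x12259)
    (Nat.sub (Nat.sub (Nat.add (Nat.add (Nat.add (Nat.add (Nat.add (Nat.add (Nat.add (Nat.add (Nat.add (Nat.add C x10075) x4243) x6187) x5539) x5647) x5755) x5683) x5707) x5699) x5703) x5701) x12261)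
    (Nat.sub (Nat.add (Nat.add (Nat.add (Nat.add (Nat.add (Nat.add (Nat.add (Nat.add (Nat.add C x10077) x4245) x6189) x5541) x5649) x5757) x5685) x5709) x5701) (Nat.mul x5703 (nat_lit 2)))
    (Nat.sub (Nat.sub (Nat.add (Nat.add (Nat.add (Nat.add (Nat.add (Nat.add (Nat.add (Nat.add (Nat.add (Nat.add C x10081) x4249) x6193) x5545) x5653) x5761) x5689) x5725) x5701) x5709) x5707) x12267)
    (Nat.add (Nat.add (Nat.add (Nat.add (Nat.add (Nat.add (Nat.add (Nat.add (Nat.add (Nat.add (Nat.add C x10083) x4251) x6195) x5547) x5655) x5763) x5691) x5727) x5703) x5715) x5707)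
    (Nat.add (Nat.add (Nat.add (Nat.add (Nat.add (Nat.add (Nat.add (Nat.add C x10089) x4257) x6201) x5553) x5661) x5769) x5733) x5709)
    (Nat.sub (Nat.sub (Nat.add (Nat.add (Nat.add (Nat.add (Nat.add (Nat.add (Nat.add C x10099) x4267) x6211) x5563) x5779) x5707) x5727) x5725) x12285)
    (Nat.sub (Nat.add (Nat.add (Nat.add (Nat.add (Nat.add (Nat.add (Nat.add (Nat.add C x10101) x4269) x6213) x5565) x5781) x5709) x5733) x5725) x5727)
    (Nat.add (Nat.add (Nat.add (Nat.add (Nat.add (Nat.add (Nat.add (Nat.add C x5733) x10107) x4275) x6219) x5571) x5787) x5715) x5727)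
    (Nat.sub (Nat.sub (Nat.add (Nat.add (Nat.add (Nat.add (Nat.add C x10127) x4295) x6239) x5699) x5755) x5753) x12313)
    (Nat.sub (Nat.add (Nat.add (Nat.add (Nat.add (Nat.add (Nat.add (Nat.add C x10129) x4297) x6241) x5701) x5761) x5753) x5757) x12315)
    (Nat.sub (Nat.add (Nat.add (Nat.add (Nat.add (Nat.add (Nat.add C x10131) x4299) x6243) x5703) x5763) x5755) x5757)
    (Nat.sub (Nat.sub (Nat.add (Nat.add (Nat.add (Nat.add (Nat.add (Nat.add (Nat.add C x10135) x4303) x6247) x5707) x5779) x5755) x5763) x5761) x12321)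
    (Nat.add (Nat.add (Nat.add (Nat.add (Nat.add (Nat.add (Nat.add (Nat.add C x10137) x4305) x6249) x5709) x5781) x5757) x5769) x5761)
    (Nat.sub (Nat.add (Nat.add (Nat.add (Nat.add (Nat.add (Nat.add C x10143) x4311) x6255) x5715) x5787) x5763) x5769)
    (Nat.sub (Nat.add (Nat.add (Nat.add (Nat.add (Nat.add (Nat.add (Nat.add C x5779) x10153) x4321) x6265) x5725) x5761) x5781) x12339)
    (Nat.add (Nat.add (Nat.add (Nat.add (Nat.add (Nat.add (Nat.add (Nat.add C x5781) x10155) x4323) x6267) x5727) x5763) x5787) x5779)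
    (Nat.add (Nat.add (Nat.add (Nat.add (Nat.add (Nat.add (Nat.add (Nat.add C (Nat.mul x5787 (nat_lit 2))) x10161) x4329) x6273) x5733) x5769) x5805) x5781)
    (Nat.add (Nat.add (Nat.add (Nat.add (Nat.add C (Nat.mul x5805 (nat_lit 3))) x10179) x4347) x6291) x5787)
    (Nat.sub (Nat.add (Nat.add (Nat.add (Nat.add (Nat.add C x5849) x10223) x5363) x5867) x5855) x12409)
    (Nat.sub (Nat.sub (Nat.add (Nat.add (Nat.add (Nat.add (Nat.add C x10229) x5369) x5873) x5849) x5857) x5855) x12415)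
    (Nat.sub (Nat.add (Nat.add (Nat.add (Nat.add (Nat.add C x5857) x10231) x5371) x5875) x5855) x12417)
    (Nat.sub (Nat.sub (Nat.add (Nat.add (Nat.add (Nat.add (Nat.add C x10241) x5381) x5921) x5849) x5873) x5867) x12427)
    (Nat.sub (Nat.sub (Nat.add (Nat.add (Nat.add (Nat.add (Nat.add (Nat.add (Nat.add (Nat.add C x10247) x5387) x5927) x5855) x5891) x5867) x5879) x5875) x5873) x12433)
    (Nat.sub (Nat.add (Nat.add (Nat.add (Nat.add (Nat.add (Nat.add (Nat.add C x10249) x5389) x5929) x5857) x5893) x5881) x5873) x12435)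
    (Nat.sub (Nat.sub (Nat.add (Nat.add (Nat.add (Nat.add (Nat.add (Nat.add C x10253) x5393) x5933) x5897) x5873) x5881) (Nat.mul x5879 (nat_lit 3))) x12439)
    (Nat.sub (Nat.add (Nat.add (Nat.add (Nat.add (Nat.add (Nat.add (Nat.add C x10255) x5395) x5935) x5899) x5875) x5879) x5883) x12441)
    (Nat.add (Nat.add (Nat.add (Nat.add (Nat.add (Nat.add C x5883) x10257) x5397) x5937) x5901) x5881)
    (Nat.sub (Nat.sub (Nat.add (Nat.add (Nat.add (Nat.add (Nat.add (Nat.add C x10265) x5405) x5945) x5873) x5897) x5893) (Nat.mul x5891 (nat_lit 3))) x12451)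
    (Nat.sub (Nat.sub (Nat.add (Nat.add (Nat.add (Nat.add (Nat.add (Nat.add C x10267) x5407) x5947) x5875) x5899) x5891) (Nat.mul x5893 (nat_lit 3))) x12453)
    (Nat.sub (Nat.sub (Nat.add (Nat.add (Nat.add (Nat.add (Nat.add (Nat.add C x10271) x5411) x5951) x5879) x5891) x5899) (Nat.mul x5897 (nat_lit 3))) x12457)
    (Nat.sub (Nat.sub (Nat.add (Nat.add (Nat.add (Nat.add (Nat.add (Nat.add (Nat.add (Nat.add C x10273) x5413) x5953) x5881) x5893) x5905) x5897) x5901) x5899) x12459)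
    (Nat.sub (Nat.add (Nat.add (Nat.add (Nat.add (Nat.add (Nat.add C x10275) x5415) x5955) x5883) x5907) x5899) x5901)
    (Nat.sub (Nat.sub (Nat.add (Nat.add (Nat.add (Nat.add (Nat.add C x10279) x5419) x5959) x5899) x5907) x5905) x12465)
    (Nat.add (Nat.add (Nat.add (Nat.add (Nat.add (Nat.add C x5907) x10281) x5421) x5961) x5901) x5905)
    (Nat.sub (Nat.sub (Nat.add (Nat.add (Nat.add (Nat.add (Nat.add C x10295) x5435) x6083) x5867) x5927) x5921) x12481)
    (Nat.sub (Nat.sub (Nat.add (Nat.add (Nat.add (Nat.add (Nat.add (Nat.add (Nat.add (Nat.add C x10301) x5441) x6089) x5873) x5945) x5921) x5933) x5929) (Nat.mul x5927 (nat_lit 2))) x12487)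
    (Nat.sub (Nat.sub (Nat.add (Nat.add (Nat.add (Nat.add (Nat.add (Nat.add (Nat.add C x10303) x5443) x6091) x5875) x5947) x5935) x5927) x5929) x12489)
    (Nat.sub (Nat.sub (Nat.add (Nat.add (Nat.add (Nat.add (Nat.add (Nat.add (Nat.add C x10307) x5447) x6095) x5879) x5951) x5927) x5935) (Nat.mul x5933 (nat_lit 5))) x12493)
    (Nat.sub (Nat.sub (Nat.add (Nat.add (Nat.add (Nat.add (Nat.add (Nat.add (Nat.add (Nat.add C x10309) x5449) x6097) x5881) x5953) x5929) x5933) x5937) (Nat.mul x5935 (nat_lit 2))) x12495)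
    (Nat.sub (Nat.add (Nat.add (Nat.add (Nat.add (Nat.add (Nat.add C x10311) x5451) x6099) x5883) x5955) x5935) x5937)
    (Nat.sub (Nat.sub (Nat.add (Nat.add (Nat.add (Nat.add (Nat.add (Nat.add (Nat.add (Nat.add C x10319) x5459) x6107) x5891) x5999) x5927) x5951) x5947) (Nat.mul x5945 (nat_lit 2))) x12505)
    (Nat.sub (Nat.sub (Nat.add (Nat.add (Nat.add (Nat.add (Nat.add (Nat.add (Nat.add (Nat.add C x10321) x5461) x6109) x5893) x6001) x5929) x5953) x5945) (Nat.mul x5947 (nat_lit 2))) x12507)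
    (Nat.sub (Nat.sub (Nat.add (Nat.add (Nat.add (Nat.add (Nat.add (Nat.add (Nat.add (Nat.add (Nat.add C x10325) x5465) x6113) x5897) x6005) x5933) x5969) x5945) x5953) (Nat.mul x5951 (nat_lit 3))) x12511)
    (Nat.sub (Nat.sub (Nat.add (Nat.add (Nat.add (Nat.add (Nat.add (Nat.add (Nat.add (Nat.add (Nat.add (Nat.add (Nat.add C x10327) x5467) x6115) x5899) x6007) x5935) x5971) x5947) x5959) x5951) x5955) x5953) x12513)
    (Nat.sub (Nat.add (Nat.add (Nat.add (Nat.add (Nat.add (Nat.add (Nat.add (Nat.add (Nat.add C x10329) x5469) x6117) x5901) x6009) x5937) x5973) x5961) x5953) x5955)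
    (Nat.sub (Nat.sub (Nat.add (Nat.add (Nat.add (Nat.add (Nat.add (Nat.add (Nat.add (Nat.add C x10333) x5473) x6121) x5905) x6013) x5977) x5953) x5961) (Nat.mul x5959 (nat_lit 2))) x12519)
    (Nat.add (Nat.add (Nat.add (Nat.add (Nat.add (Nat.add (Nat.add (Nat.add C x10335) x5475) x6123) x5907) x6015) x5979) x5955) x5959)
    (Nat.sub (Nat.sub (Nat.add (Nat.add (Nat.add (Nat.add (Nat.add (Nat.add C x10343) x5483) x6131) x6023) x5951) x5971) (Nat.mul x5969 (nat_lit 3))) x12529)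
    (Nat.sub (Nat.sub (Nat.add (Nat.add (Nat.add (Nat.add (Nat.add (Nat.add (Nat.add (Nat.add C x10345) x5485) x6133) x6025) x5953) x5977) x5969) x5973) (Nat.mul x5971 (nat_lit 2))) x12531)
    (Nat.sub (Nat.add (Nat.add (Nat.add (Nat.add (Nat.add (Nat.add (Nat.add C x10347) x5487) x6135) x6027) x5955) x5979) x5971) (Nat.mul x5973 (nat_lit 3)))
    (Nat.sub (Nat.sub (Nat.add (Nat.add (Nat.add (Nat.add (Nat.add (Nat.add (Nat.add C x10351) x5491) x6139) x6031) x5959) x5971) x5979) x5977) x12537)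
    (Nat.add (Nat.add (Nat.add (Nat.add (Nat.add (Nat.add (Nat.add (Nat.add C x10353) x5493) x6141) x6033) x5961) x5973) x5985) x5977)
    (Nat.add (Nat.add (Nat.add (Nat.add (Nat.add (Nat.add C x5985) x10359) x5499) x6147) x6039) x5979)
    (Nat.sub (Nat.sub (Nat.add (Nat.add (Nat.add (Nat.add (Nat.add (Nat.add C x10373) x5513) x6161) x5945) x6005) x6001) (Nat.mul x5999 (nat_lit 3))) x12559)
    (Nat.sub (Nat.sub (Nat.add (Nat.add (Nat.add (Nat.add (Nat.add (Nat.add C x10375) x5515) x6163) x5947) x6007) x5999) (Nat.mul x6001 (nat_lit 3))) x12561)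
    (Nat.sub (Nat.sub (Nat.add (Nat.add (Nat.add (Nat.add (Nat.add (Nat.add (Nat.add C x10379) x5519) x6167) x5951) x6023) x5999) x6007) (Nat.mul x6005 (nat_lit 5))) x12565)
    (Nat.sub (Nat.sub (Nat.add (Nat.add (Nat.add (Nat.add (Nat.add (Nat.add (Nat.add (Nat.add (Nat.add C x10381) x5521) x6169) x5953) x6025) x6001) x6013) x6005) x6009) (Nat.mul x6007 (nat_lit 3))) x12567)
    (Nat.sub (Nat.add (Nat.add (Nat.add (Nat.add (Nat.add (Nat.add (Nat.add C x10383) x5523) x6171) x5955) x6027) x6015) x6007) (Nat.mul x6009 (nat_lit 3)))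
    (Nat.sub (Nat.sub (Nat.add (Nat.add (Nat.add (Nat.add (Nat.add (Nat.add (Nat.add C x10387) x5527) x6175) x5959) x6031) x6007) x6015) (Nat.mul x6013 (nat_lit 5))) x12573)
    (Nat.sub (Nat.add (Nat.add (Nat.add (Nat.add (Nat.add (Nat.add (Nat.add C x10389) x5529) x6177) x5961) x6033) x6009) x6013) (Nat.mul x6015 (nat_lit 3)))
    (Nat.sub (Nat.sub (Nat.add (Nat.add (Nat.add (Nat.add (Nat.add (Nat.add C x10397) x5537) x6185) x5969) x6005) x6025) (Nat.mul x6023 (nat_lit 3))) x12583)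
    (Nat.sub (Nat.sub (Nat.add (Nat.add (Nat.add (Nat.add (Nat.add (Nat.add (Nat.add (Nat.add C x10399) x5539) x6187) x5971) x6007) x6031) x6023) x6027) (Nat.mul x6025 (nat_lit 2))) x12585)
    (Nat.sub (Nat.add (Nat.add (Nat.add (Nat.add (Nat.add (Nat.add (Nat.add C x10401) x5541) x6189) x5973) x6009) x6033) x6025) (Nat.mul x6027 (nat_lit 3)))
    (Nat.sub (Nat.sub (Nat.add (Nat.add (Nat.add (Nat.add (Nat.add (Nat.add (Nat.add (Nat.add C x10405) x5545) x6193) x5977) x6013) x6049) x6025) x6033) (Nat.mul x6031 (nat_lit 2))) x12591)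
    (Nat.sub (Nat.add (Nat.add (Nat.add (Nat.add (Nat.add (Nat.add (Nat.add (Nat.add (Nat.add C x10407) x5547) x6195) x5979) x6015) x6051) x6027) x6039) x6031) x6033)
    (Nat.sub (Nat.add (Nat.add (Nat.add (Nat.add (Nat.add (Nat.add C x10413) x5553) x6201) x5985) x6057) x6033) x6039)
    (Nat.sub (Nat.sub (Nat.add (Nat.add (Nat.add (Nat.add (Nat.add C x10423) x5563) x6211) x6031) x6051) x6049) x12609)
    (Nat.sub (Nat.add (Nat.add (Nat.add (Nat.add (Nat.add (Nat.add C x10425) x5565) x6213) x6033) x6057) x6049) x6051)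
    (Nat.add (Nat.add (Nat.add (Nat.add (Nat.add (Nat.add C x6057) x10431) x5571) x6219) x6039) x6051)
    (Nat.sub (Nat.add (Nat.add (Nat.add (Nat.add (Nat.add C x6083) x10457) x5597) x5921) x6089) x12643)
    (Nat.sub (Nat.add (Nat.add (Nat.add (Nat.add (Nat.add (Nat.add (Nat.add C x10463) x5603) x5927) x6107) x6083) x6095) x6091) x12649)
    (Nat.sub (Nat.add (Nat.add (Nat.add (Nat.add (Nat.add (Nat.add (Nat.add C x6091) x10465) x5605) x5929) x6109) x6097) x6089) x12651)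
    (Nat.sub (Nat.sub (Nat.add (Nat.add (Nat.add (Nat.add (Nat.add (Nat.add C x10469) x5609) x5933) x6113) x6089) x6097) (Nat.mul x6095 (nat_lit 3))) x12655)
    (Nat.sub (Nat.add (Nat.add (Nat.add (Nat.add (Nat.add (Nat.add (Nat.add C x10471) x5611) x5935) x6115) x6091) x6095) x6099) x12657)
    (Nat.add (Nat.add (Nat.add (Nat.add (Nat.add (Nat.add C x6099) x10473) x5613) x5937) x6117) x6097)
    (Nat.sub (Nat.sub (Nat.add (Nat.add (Nat.add (Nat.add (Nat.add (Nat.add (Nat.add C x10481) x5621) x5945) x6161) x6089) x6113) x6109) x6107) x12667)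
    (Nat.sub (Nat.sub (Nat.add (Nat.add (Nat.add (Nat.add (Nat.add (Nat.add (Nat.add C x10483) x5623) x5947) x6163) x6091) x6115) x6107) x6109) x12669)
    (Nat.sub (Nat.sub (Nat.add (Nat.add (Nat.add (Nat.add (Nat.add (Nat.add (Nat.add (Nat.add C x10487) x5627) x5951) x6167) x6095) x6131) x6107) x6115) (Nat.mul x6113 (nat_lit 2))) x12673)
    (Nat.sub (Nat.add (Nat.add (Nat.add (Nat.add (Nat.add (Nat.add (Nat.add (Nat.add (Nat.add (Nat.add C x10489) x5629) x5953) x6169) x6097) x6133) x6109) x6121) x6113) x6117) x12675)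
    (Nat.add (Nat.add (Nat.add (Nat.add (Nat.add (Nat.add (Nat.add (Nat.add C x10491) x5631) x5955) x6171) x6099) x6135) x6123) x6115)
    (Nat.sub (Nat.sub (Nat.add (Nat.add (Nat.add (Nat.add (Nat.add (Nat.add (Nat.add C x10495) x5635) x5959) x6175) x6139) x6115) x6123) x6121) x12681)
    (Nat.add (Nat.add (Nat.add (Nat.add (Nat.add (Nat.add (Nat.add (Nat.add C x6123) x10497) x5637) x5961) x6177) x6141) x6117) x6121)
    (Nat.sub (Nat.sub (Nat.add (Nat.add (Nat.add (Nat.add (Nat.add (Nat.add C x10505) x5645) x5969) x6185) x6113) x6133) (Nat.mul x6131 (nat_lit 3))) x12691)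
    (Nat.sub (Nat.sub (Nat.add (Nat.add (Nat.add (Nat.add (Nat.add (Nat.add (Nat.add (Nat.add C x10507) x5647) x5971) x6187) x6115) x6139) x6131) x6135) (Nat.mul x6133 (nat_lit 2))) x12693)
    (Nat.sub (Nat.add (Nat.add (Nat.add (Nat.add (Nat.add (Nat.add (Nat.add C x10509) x5649) x5973) x6189) x6117) x6141) x6133) (Nat.mul x6135 (nat_lit 3)))
    (Nat.sub (Nat.sub (Nat.add (Nat.add (Nat.add (Nat.add (Nat.add (Nat.add (Nat.add C x10513) x5653) x5977) x6193) x6121) x6133) x6141) x6139) x12699)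
    (Nat.add (Nat.add (Nat.add (Nat.add (Nat.add (Nat.add (Nat.add (Nat.add C x10515) x5655) x5979) x6195) x6123) x6135) x6147) x6139)
    (Nat.add (Nat.add (Nat.add (Nat.add (Nat.add (Nat.add C x6147) x10521) x5661) x5985) x6201) x6141)
    (Nat.sub (Nat.add (Nat.add (Nat.add (Nat.add (Nat.add (Nat.add (Nat.add C x10535) x5675) x5999) x6323) x6107) x6167) x6163) x12721)
    (Nat.sub (Nat.add (Nat.add (Nat.add (Nat.add (Nat.add (Nat.add (Nat.add C x10537) x5677) x6001) x6325) x6109) x6169) x6161) x12723)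
    (Nat.sub (Nat.sub (Nat.add (Nat.add (Nat.add (Nat.add (Nat.add (Nat.add (Nat.add (Nat.add C x10541) x5681) x6005) x6329) x6113) x6185) x6161) x6169) (Nat.mul x6167 (nat_lit 2))) x12727)
    (Nat.sub (Nat.add (Nat.add (Nat.add (Nat.add (Nat.add (Nat.add (Nat.add (Nat.add (Nat.add (Nat.add C x10543) x5683) x6007) x6331) x6115) x6187) x6163) x6175) x6167) x6171) x12729)
    (Nat.add (Nat.add (Nat.add (Nat.add (Nat.add (Nat.add (Nat.add (Nat.add C x10545) x5685) x6009) x6333) x6117) x6189) x6177) x6169)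
    (Nat.sub (Nat.sub (Nat.add (Nat.add (Nat.add (Nat.add (Nat.add (Nat.add (Nat.add (Nat.add C x10549) x5689) x6013) x6337) x6121) x6193) x6169) x6177) (Nat.mul x6175 (nat_lit 2))) x12735)
    (Nat.add (Nat.add (Nat.add (Nat.add (Nat.add (Nat.add (Nat.add (Nat.add C x10551) x5691) x6015) x6339) x6123) x6195) x6171) x6175)
    (Nat.sub (Nat.sub (Nat.add (Nat.add (Nat.add (Nat.add (Nat.add (Nat.add (Nat.add (Nat.add C x10559) x5699) x6023) x6347) x6131) x6239) x6167) x6187) x6185) x12745)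
    (Nat.sub (Nat.add (Nat.add (Nat.add (Nat.add (Nat.add (Nat.add (Nat.add (Nat.add (Nat.add (Nat.add C x10561) x5701) x6025) x6349) x6133) x6241) x6169) x6193) x6185) x6189) x12747)
    (Nat.sub (Nat.add (Nat.add (Nat.add (Nat.add (Nat.add (Nat.add (Nat.add (Nat.add (Nat.add C x10563) x5703) x6027) x6351) x6135) x6243) x6171) x6195) x6187) x6189)
    (Nat.sub (Nat.add (Nat.add (Nat.add (Nat.add (Nat.add (Nat.add (Nat.add (Nat.add (Nat.add (Nat.add C x10567) x5707) x6031) x6355) x6139) x6247) x6175) x6211) x6187) x6195) x12753)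
    (Nat.add (Nat.add (Nat.add (Nat.add (Nat.add (Nat.add (Nat.add (Nat.add (Nat.add (Nat.add (Nat.add (Nat.add C x6195) x10569) x5709) x6033) x6357) x6141) x6249) x6177) x6213) x6189) x6201) x6193)
    (Nat.add (Nat.add (Nat.add (Nat.add (Nat.add (Nat.add (Nat.add (Nat.add (Nat.add C x6201) x10575) x5715) x6039) x6363) x6147) x6255) x6219) x6195)
    (Nat.sub (Nat.add (Nat.add (Nat.add (Nat.add (Nat.add (Nat.add (Nat.add C x10585) x5725) x6049) x6373) x6265) x6193) x6213) x12771)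
    (Nat.add (Nat.add (Nat.add (Nat.add (Nat.add (Nat.add (Nat.add (Nat.add C x10587) x5727) x6051) x6375) x6267) x6195) x6219) x6211)
    (Nat.add (Nat.add (Nat.add (Nat.add (Nat.add (Nat.add (Nat.add (Nat.add C (Nat.mul x6219 (nat_lit 2))) x10593) x5733) x6057) x6381) x6273) x6201) x6213)
    (Nat.sub (Nat.sub (Nat.add (Nat.add (Nat.add (Nat.add (Nat.add C x10613) x5753) x6401) x6185) x6241) x6239) x12799)
    (Nat.sub (Nat.add (Nat.add (Nat.add (Nat.add (Nat.add (Nat.add (Nat.add C x10615) x5755) x6403) x6187) x6247) x6239) x6243) x12801)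
    (Nat.sub (Nat.add (Nat.add (Nat.add (Nat.add (Nat.add (Nat.add C x10617) x5757) x6405) x6189) x6249) x6241) x6243)
    (Nat.sub (Nat.sub (Nat.add (Nat.add (Nat.add (Nat.add (Nat.add (Nat.add (Nat.add C x10621) x5761) x6409) x6193) x6265) x6241) x6249) x6247) x12807)
    (Nat.add (Nat.add (Nat.add (Nat.add (Nat.add (Nat.add (Nat.add (Nat.add C x10623) x5763) x6411) x6195) x6267) x6243) x6255) x6247)
    (Nat.sub (Nat.add (Nat.add (Nat.add (Nat.add (Nat.add (Nat.add C x10629) x5769) x6417) x6201) x6273) x6249) x6255)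
    (Nat.sub (Nat.add (Nat.add (Nat.add (Nat.add (Nat.add (Nat.add (Nat.add C x6265) x10639) x5779) x6427) x6211) x6247) x6267) x12825)
    (Nat.add (Nat.add (Nat.add (Nat.add (Nat.add (Nat.add (Nat.add (Nat.add C x6267) x10641) x5781) x6429) x6213) x6249) x6273) x6265)
    (Nat.add (Nat.add (Nat.add (Nat.add (Nat.add (Nat.add (Nat.add (Nat.add C (Nat.mul x6273 (nat_lit 2))) x10647) x5787) x6435) x6219) x6255) x6291) x6267)
    (Nat.add (Nat.add (Nat.add (Nat.add (Nat.add C (Nat.mul x6291 (nat_lit 3))) x10665) x5805) x6453) x6273)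
    (Nat.sub (Nat.add (Nat.add (Nat.add (Nat.add (Nat.add C x6323) x10697) x6161) x6329) x6325) x12883)
    (Nat.sub (Nat.add (Nat.add (Nat.add (Nat.add (Nat.add C x6325) x10699) x6163) x6331) x6323) x12885)
    (Nat.sub (Nat.sub (Nat.add (Nat.add (Nat.add (Nat.add (Nat.add C x10703) x6167) x6347) x6323) x6331) x6329) x12889)
    (Nat.sub (Nat.add (Nat.add (Nat.add (Nat.add (Nat.add (Nat.add (Nat.add (Nat.add C x6331) x10705) x6169) x6349) x6325) x6337) x6329) x6333) x12891)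
    (Nat.add (Nat.add (Nat.add (Nat.add (Nat.add (Nat.add C x6333) x10707) x6171) x6351) x6339) x6331)
    (Nat.sub (Nat.sub (Nat.add (Nat.add (Nat.add (Nat.add (Nat.add C x10711) x6175) x6355) x6331) x6339) x6337) x12897)
    (Nat.add (Nat.add (Nat.add (Nat.add (Nat.add (Nat.add C x6339) x10713) x6177) x6357) x6333) x6337)
    (Nat.sub (Nat.sub (Nat.add (Nat.add (Nat.add (Nat.add (Nat.add C x10721) x6185) x6401) x6329) x6349) x6347) x12907)
    (Nat.sub (Nat.add (Nat.add (Nat.add (Nat.add (Nat.add (Nat.add (Nat.add C x10723) x6187) x6403) x6331) x6355) x6347) x6351) x12909)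
    (Nat.sub (Nat.add (Nat.add (Nat.add (Nat.add (Nat.add (Nat.add C x10725) x6189) x6405) x6333) x6357) x6349) x6351)
    (Nat.sub (Nat.add (Nat.add (Nat.add (Nat.add (Nat.add (Nat.add (Nat.add C x10729) x6193) x6409) x6337) x6373) x6349) x6357) x12915)
    (Nat.add (Nat.add (Nat.add (Nat.add (Nat.add (Nat.add (Nat.add (Nat.add (Nat.add C x6357) x10731) x6195) x6411) x6339) x6375) x6351) x6363) x6355)
    (Nat.add (Nat.add (Nat.add (Nat.add (Nat.add (Nat.add C x6363) x10737) x6201) x6417) x6381) x6357)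
    (Nat.sub (Nat.sub (Nat.add (Nat.add (Nat.add (Nat.add (Nat.add C x10747) x6211) x6427) x6355) x6375) x6373) x12933)
    (Nat.sub (Nat.add (Nat.add (Nat.add (Nat.add (Nat.add (Nat.add C x10749) x6213) x6429) x6357) x6381) x6373) x6375)
    (Nat.add (Nat.add (Nat.add (Nat.add (Nat.add (Nat.add C x6381) x10755) x6219) x6435) x6363) x6375)
    (Nat.sub (Nat.add (Nat.add (Nat.add (Nat.add (Nat.add C x6401) x10775) x6239) x6347) x6403) x12961)
    (Nat.sub (Nat.add (Nat.add (Nat.add (Nat.add (Nat.add (Nat.add (Nat.add C (Nat.mul x6403 (nat_lit 2))) x10777) x6241) x6349) x6409) x6401) x6405) x12963)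
    (Nat.add (Nat.add (Nat.add (Nat.add (Nat.add (Nat.add C x6405) x10779) x6243) x6351) x6411) x6403)
    (Nat.sub (Nat.add (Nat.add (Nat.add (Nat.add (Nat.add (Nat.add (Nat.add C x6409) x10783) x6247) x6355) x6427) x6403) x6411) x12969)
    (Nat.add (Nat.add (Nat.add (Nat.add (Nat.add (Nat.add (Nat.add (Nat.add C (Nat.mul x6411 (nat_lit 2))) x10785) x6249) x6357) x6429) x6405) x6417) x6409)
    (Nat.add (Nat.add (Nat.add (Nat.add (Nat.add (Nat.add C x6417) x10791) x6255) x6363) x6435) x6411)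
    (Nat.sub (Nat.add (Nat.add (Nat.add (Nat.add (Nat.add (Nat.add (Nat.add C (Nat.mul x6427 (nat_lit 2))) x10801) x6265) x6373) x6481) x6409) x6429) x12987)
    (Nat.add (Nat.add (Nat.add (Nat.add (Nat.add (Nat.add (Nat.add (Nat.add C (Nat.mul x6429 (nat_lit 2))) x10803) x6267) x6375) x6483) x6411) x6435) x6427)
    (Nat.add (Nat.add (Nat.add (Nat.add (Nat.add (Nat.add (Nat.add (Nat.add C (Nat.mul x6435 (nat_lit 3))) x10809) x6273) x6381) x6489) x6417) x6453) x6429)
    (Nat.add (Nat.add (Nat.add (Nat.add (Nat.add C (Nat.mul x6453 (nat_lit 3))) x10827) x6291) x6507) x6435)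
    (Nat.sub (Nat.add (Nat.add (Nat.add (Nat.add C (Nat.mul x6481 (nat_lit 3))) x10855) x6427) x6483) x13041)
    (Nat.add (Nat.add (Nat.add (Nat.add (Nat.add C (Nat.mul x6483 (nat_lit 3))) x10857) x6429) x6489) x6481)
    (Nat.add (Nat.add (Nat.add (Nat.add (Nat.add C (Nat.mul x6489 (nat_lit 3))) x10863) x6435) x6507) x6483)
    (Nat.add (Nat.add (Nat.add (Nat.add C (Nat.mul x6507 (nat_lit 5))) x10881) x6453) x6489)
    (Nat.sub (Nat.add (Nat.add (Nat.add C (Nat.mul x6641 (nat_lit 5))) x2267) x6695) x13201)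
    (Nat.sub (Nat.add (Nat.add (Nat.add (Nat.add (Nat.add (Nat.add C (Nat.mul x6695 (nat_lit 4))) x2321) x6857) x6641) x6749) x6713) x13255)
    (Nat.sub (Nat.add (Nat.add (Nat.add (Nat.add (Nat.add (Nat.add C (Nat.mul x6713 (nat_lit 3))) x2339) x6875) x6767) x6695) x6719) x13273)
    (Nat.sub (Nat.add (Nat.add (Nat.add (Nat.add (Nat.add (Nat.add C (Nat.mul x6719 (nat_lit 3))) x2345) x6881) x6773) x6713) x6721) x13279)
    (Nat.sub (Nat.sub (Nat.add (Nat.add (Nat.add (Nat.add (Nat.add C (Nat.mul x6721 (nat_lit 4))) x2347) x6883) x6775) x6719) x13281) x161)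
    (Nat.sub (Nat.add (Nat.add (Nat.add (Nat.add (Nat.add C x6749) x2375) x6911) x6695) x6767) x13309)
    (Nat.sub (Nat.add (Nat.add (Nat.add (Nat.add (Nat.add (Nat.add (Nat.add C (Nat.mul x6767 (nat_lit 2))) x2393) x6929) x6713) x6749) x6785) x6773) x13327)
    (Nat.sub (Nat.add (Nat.add (Nat.add (Nat.add (Nat.add (Nat.add (Nat.add C x6773) x2399) x6935) x6719) x6791) x6767) x6775) x13333)
    (Nat.sub (Nat.sub (Nat.add (Nat.add (Nat.add (Nat.add (Nat.add (Nat.add C (Nat.mul x6775 (nat_lit 2))) x2401) x6937) x6721) x6793) x6773) x13335) x215)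
    (Nat.sub (Nat.add (Nat.add (Nat.add (Nat.add (Nat.add C x6785) x2411) x6947) x6767) x6791) x13345)
    (Nat.sub (Nat.add (Nat.add (Nat.add (Nat.add (Nat.add (Nat.add (Nat.add C (Nat.mul x6791 (nat_lit 2))) x2417) x6953) x6773) x6785) x6797) x6793) x13351)
    (Nat.sub (Nat.sub (Nat.add (Nat.add (Nat.add (Nat.add (Nat.add (Nat.add C (Nat.mul x6793 (nat_lit 2))) x2419) x6955) x6775) x6799) x6791) x13353) x233)
    (Nat.sub (Nat.add (Nat.add (Nat.add (Nat.add (Nat.add C x6797) x2423) x6959) x6791) x6799) x13357)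
    (Nat.sub (Nat.sub (Nat.add (Nat.add (Nat.add (Nat.add (Nat.add (Nat.add C (Nat.mul x6799 (nat_lit 3))) x2425) x6961) x6793) x6797) x6801) x13359) x239)
    (Nat.sub (Nat.add (Nat.add (Nat.add (Nat.add C (Nat.mul x6801 (nat_lit 3))) x2427) x6963) x6799) x241)
    (Nat.sub (Nat.add (Nat.add (Nat.add (Nat.add (Nat.add (Nat.add C (Nat.mul x6857 (nat_lit 3))) x2483) x7343) x6695) x6911) x6875) x13417)
    (Nat.sub (Nat.add (Nat.add (Nat.add (Nat.add (Nat.add (Nat.add (Nat.add C x6875) x2501) x7361) x6713) x6929) x6857) x6881) x13435)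
    (Nat.sub (Nat.add (Nat.add (Nat.add (Nat.add (Nat.add (Nat.add (Nat.add C x6881) x2507) x7367) x6719) x6935) x6875) x6883) x13441)
    (Nat.sub (Nat.sub (Nat.add (Nat.add (Nat.add (Nat.add (Nat.add (Nat.add C (Nat.mul x6883 (nat_lit 2))) x2509) x7369) x6721) x6937) x6881) x13443) x323)
    (Nat.sub (Nat.add (Nat.add (Nat.add (Nat.add (Nat.add (Nat.add (Nat.add C (Nat.mul x6911 (nat_lit 2))) x2537) x7397) x6749) x7073) x6857) x6929) x13471)
    (Nat.sub (Nat.add (Nat.add (Nat.add (Nat.add (Nat.add (Nat.add (Nat.add (Nat.add (Nat.add (Nat.add C (Nat.mul x6929 (nat_lit 2))) x2555) x7415) x6767) x7091) x6875) x6983) x6911) x6947) x6935) x13489)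
    (Nat.sub (Nat.add (Nat.add (Nat.add (Nat.add (Nat.add (Nat.add (Nat.add (Nat.add (Nat.add (Nat.add C x6935) x2561) x7421) x6773) x7097) x6881) x6989) x6953) x6929) x6937) x13495)
    (Nat.sub (Nat.sub (Nat.add (Nat.add (Nat.add (Nat.add (Nat.add (Nat.add (Nat.add (Nat.add (Nat.add C (Nat.mul x6937 (nat_lit 2))) x2563) x7423) x6775) x7099) x6883) x6991) x6955) x6935) x13497) x377)
    (Nat.sub (Nat.add (Nat.add (Nat.add (Nat.add (Nat.add (Nat.add (Nat.add C x2573) x7433) x6785) x7109) x7001) x6929) x6953) x13507)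
    (Nat.sub (Nat.add (Nat.add (Nat.add (Nat.add (Nat.add (Nat.add (Nat.add (Nat.add (Nat.add (Nat.add C x6953) x2579) x7439) x6791) x7115) x7007) x6935) x6947) x6959) x6955) x13513)
    (Nat.sub (Nat.sub (Nat.add (Nat.add (Nat.add (Nat.add (Nat.add (Nat.add (Nat.add (Nat.add (Nat.add C x6955) x2581) x7441) x6793) x7117) x7009) x6937) x6961) x6953) x13515) x395)
    (Nat.sub (Nat.add (Nat.add (Nat.add (Nat.add (Nat.add (Nat.add (Nat.add C x2585) x7445) x6797) x7121) x7013) x6953) x6961) x13519)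
    (Nat.sub (Nat.sub (Nat.add (Nat.add (Nat.add (Nat.add (Nat.add (Nat.add (Nat.add (Nat.add (Nat.add C (Nat.mul x6961 (nat_lit 2))) x2587) x7447) x6799) x7123) x7015) x6955) x6959) x6963) x13521) x401)
    (Nat.sub (Nat.add (Nat.add (Nat.add (Nat.add (Nat.add (Nat.add (Nat.add C (Nat.mul x6963 (nat_lit 2))) x2589) x7449) x6801) x7125) x7017) x6961) x403)
    (Nat.sub (Nat.add (Nat.add (Nat.add (Nat.add (Nat.add (Nat.add (Nat.add C x6983) x2609) x7469) x7145) x6929) x7001) x6989) x13543)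
    (Nat.sub (Nat.sub (Nat.add (Nat.add (Nat.add (Nat.add (Nat.add (Nat.add (Nat.add C x2615) x7475) x7151) x6935) x7007) x6983) x6991) x6989) x13549)
    (Nat.sub (Nat.sub (Nat.add (Nat.add (Nat.add (Nat.add (Nat.add (Nat.add C x2617) x7477) x7153) x6937) x7009) x6989) x13551) x431)
    (Nat.sub (Nat.add (Nat.add (Nat.add (Nat.add (Nat.add (Nat.add (Nat.add C x7001) x2627) x7487) x7163) x6947) x6983) x7007) x13561)
    (Nat.sub (Nat.add (Nat.add (Nat.add (Nat.add (Nat.add (Nat.add (Nat.add (Nat.add (Nat.add (Nat.add C x7007) x2633) x7493) x7169) x6953) x6989) x7025) x7001) x7013) x7009) x13567)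
    (Nat.sub (Nat.sub (Nat.add (Nat.add (Nat.add (Nat.add (Nat.add (Nat.add (Nat.add (Nat.add (Nat.add C x7009) x2635) x7495) x7171) x6955) x6991) x7027) x7015) x7007) x13569) x449)
    (Nat.sub (Nat.sub (Nat.add (Nat.add (Nat.add (Nat.add (Nat.add (Nat.add (Nat.add C x2639) x7499) x7175) x6959) x7031) x7007) x7015) x7013) x13573)
    (Nat.sub (Nat.sub (Nat.add (Nat.add (Nat.add (Nat.add (Nat.add (Nat.add (Nat.add (Nat.add (Nat.add C x7015) x2641) x7501) x7177) x6961) x7033) x7009) x7013) x7017) x13575) x455)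
    (Nat.sub (Nat.add (Nat.add (Nat.add (Nat.add (Nat.add (Nat.add (Nat.add C x7017) x2643) x7503) x7179) x6963) x7035) x7015) x457)
    (Nat.sub (Nat.add (Nat.add (Nat.add (Nat.add (Nat.add (Nat.add (Nat.add C x7025) x2651) x7511) x7187) x7007) x7031) x7027) x13585)
    (Nat.sub (Nat.sub (Nat.add (Nat.add (Nat.add (Nat.add (Nat.add (Nat.add C x2653) x7513) x7189) x7009) x7033) x7025) x13587) x467)
    (Nat.sub (Nat.add (Nat.add (Nat.add (Nat.add (Nat.add (Nat.add (Nat.add C x7031) x2657) x7517) x7193) x7013) x7025) x7033) x13591)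
    (Nat.sub (Nat.sub (Nat.add (Nat.add (Nat.add (Nat.add (Nat.add (Nat.add (Nat.add (Nat.add (Nat.add C (Nat.mul x7033 (nat_lit 2))) x2659) x7519) x7195) x7015) x7027) x7039) x7031) x7035) x13593) x473)
    (Nat.sub (Nat.add (Nat.add (Nat.add (Nat.add (Nat.add (Nat.add (Nat.add C x7035) x2661) x7521) x7197) x7017) x7041) x7033) x475)
    (Nat.sub (Nat.sub (Nat.add (Nat.add (Nat.add (Nat.add (Nat.add (Nat.add C (Nat.mul x7039 (nat_lit 2))) x2665) x7525) x7201) x7033) x7041) x13599) x479)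
    (Nat.sub (Nat.add (Nat.add (Nat.add (Nat.add (Nat.add (Nat.add C (Nat.mul x7041 (nat_lit 3))) x2667) x7527) x7203) x7035) x7039) x481)
    (Nat.sub (Nat.add (Nat.add (Nat.add (Nat.add (Nat.add C x7073) x2699) x7559) x6911) x7091) x13633)
    (Nat.sub (Nat.add (Nat.add (Nat.add (Nat.add (Nat.add (Nat.add (Nat.add C x2717) x7577) x6929) x7145) x7073) x7109) x7097) x13651)
    (Nat.sub (Nat.sub (Nat.add (Nat.add (Nat.add (Nat.add (Nat.add (Nat.add (Nat.add C x2723) x7583) x6935) x7151) x7115) x7091) x7099) x7097) x13657)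
    (Nat.sub (Nat.sub (Nat.add (Nat.add (Nat.add (Nat.add (Nat.add (Nat.add C x2725) x7585) x6937) x7153) x7117) x7097) x13659) x539)
    (Nat.sub (Nat.sub (Nat.add (Nat.add (Nat.add (Nat.add (Nat.add (Nat.add C x2735) x7595) x6947) x7163) x7091) x7115) (Nat.mul x7109 (nat_lit 3))) x13669)
    (Nat.sub (Nat.sub (Nat.add (Nat.add (Nat.add (Nat.add (Nat.add (Nat.add (Nat.add (Nat.add C x2741) x7601) x6953) x7169) x7097) x7109) x7121) x7117) (Nat.mul x7115 (nat_lit 2))) x13675)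
    (Nat.sub (Nat.sub (Nat.sub (Nat.add (Nat.add (Nat.add (Nat.add (Nat.add (Nat.add (Nat.add C x2743) x7603) x6955) x7171) x7099) x7123) x7115) (Nat.mul x7117 (nat_lit 2))) x13677) x557)
    (Nat.sub (Nat.sub (Nat.add (Nat.add (Nat.add (Nat.add (Nat.add (Nat.add C x2747) x7607) x6959) x7175) x7115) x7123) (Nat.mul x7121 (nat_lit 3))) x13681)
    (Nat.sub (Nat.sub (Nat.sub (Nat.add (Nat.add (Nat.add (Nat.add (Nat.add (Nat.add (Nat.add C x2749) x7609) x6961) x7177) x7117) x7121) x7125) x7123) x13683) x563)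
    (Nat.sub (Nat.sub (Nat.add (Nat.add (Nat.add (Nat.add (Nat.add C x2751) x7611) x6963) x7179) x7123) x7125) x565)
    (Nat.sub (Nat.add (Nat.add (Nat.add (Nat.add (Nat.add (Nat.add (Nat.add C x7145) x2771) x7631) x6983) x7091) x7163) x7151) x13705)
    (Nat.sub (Nat.sub (Nat.add (Nat.add (Nat.add (Nat.add (Nat.add (Nat.add (Nat.add C x2777) x7637) x6989) x7097) x7169) x7145) x7153) x7151) x13711)
    (Nat.sub (Nat.sub (Nat.add (Nat.add (Nat.add (Nat.add (Nat.add (Nat.add C x2779) x7639) x6991) x7099) x7171) x7151) x13713) x593)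
    (Nat.sub (Nat.add (Nat.add (Nat.add (Nat.add (Nat.add (Nat.add (Nat.add C x2789) x7649) x7001) x7109) x7217) x7145) x7169) x13723)
    (Nat.sub (Nat.add (Nat.add (Nat.add (Nat.add (Nat.add (Nat.add (Nat.add (Nat.add (Nat.add (Nat.add C x2795) x7655) x7007) x7115) x7223) x7151) x7187) x7163) x7175) x7171) x13729)
    (Nat.sub (Nat.sub (Nat.add (Nat.add (Nat.add (Nat.add (Nat.add (Nat.add (Nat.add (Nat.add (Nat.add C x2797) x7657) x7009) x7117) x7225) x7153) x7189) x7177) x7169) x13731) x611)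
    (Nat.sub (Nat.sub (Nat.add (Nat.add (Nat.add (Nat.add (Nat.add (Nat.add (Nat.add (Nat.add C x2801) x7661) x7013) x7121) x7229) x7193) x7169) x7177) (Nat.mul x7175 (nat_lit 2))) x13735)
    (Nat.sub (Nat.sub (Nat.add (Nat.add (Nat.add (Nat.add (Nat.add (Nat.add (Nat.add (Nat.add (Nat.add C x2803) x7663) x7015) x7123) x7231) x7195) x7171) x7175) x7179) x13737) x617)
    (Nat.sub (Nat.add (Nat.add (Nat.add (Nat.add (Nat.add (Nat.add (Nat.add C x2805) x7665) x7017) x7125) x7233) x7197) x7177) x619)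
    (Nat.sub (Nat.sub (Nat.add (Nat.add (Nat.add (Nat.add (Nat.add (Nat.add (Nat.add C x2813) x7673) x7025) x7241) x7169) x7193) x7189) x7187) x13747)
    (Nat.sub (Nat.sub (Nat.sub (Nat.add (Nat.add (Nat.add (Nat.add (Nat.add (Nat.add (Nat.add C x2815) x7675) x7027) x7243) x7171) x7195) x7187) (Nat.mul x7189 (nat_lit 2))) x13749) x629)
    (Nat.sub (Nat.sub (Nat.add (Nat.add (Nat.add (Nat.add (Nat.add (Nat.add (Nat.add C x2819) x7679) x7031) x7247) x7175) x7187) x7195) x7193) x13753)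
    (Nat.sub (Nat.sub (Nat.add (Nat.add (Nat.add (Nat.add (Nat.add (Nat.add (Nat.add (Nat.add (Nat.add C x2821) x7681) x7033) x7249) x7177) x7189) x7201) x7193) x7197) x13755) x635)
    (Nat.sub (Nat.sub (Nat.add (Nat.add (Nat.add (Nat.add (Nat.add (Nat.add (Nat.add C x2823) x7683) x7035) x7251) x7179) x7203) x7195) x7197) x637)
    (Nat.sub (Nat.sub (Nat.add (Nat.add (Nat.add (Nat.add (Nat.add (Nat.add C x2827) x7687) x7039) x7255) x7195) x7203) x13761) x641)
    (Nat.sub (Nat.add (Nat.add (Nat.add (Nat.add (Nat.add (Nat.add (Nat.add C x7203) x2829) x7689) x7041) x7257) x7197) x7201) x643)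
    (Nat.sub (Nat.add (Nat.add (Nat.add (Nat.add (Nat.add C x7217) x2843) x7703) x7163) x7223) x13777)
    (Nat.sub (Nat.add (Nat.add (Nat.add (Nat.add (Nat.add (Nat.add (Nat.add C x2849) x7709) x7169) x7241) x7217) x7229) x7225) x13783)
    (Nat.sub (Nat.sub (Nat.add (Nat.add (Nat.add (Nat.add (Nat.add (Nat.add C x2851) x7711) x7171) x7243) x7231) x7223) x13785) x665)
    (Nat.sub (Nat.sub (Nat.add (Nat.add (Nat.add (Nat.add (Nat.add (Nat.add C x2855) x7715) x7175) x7247) x7223) x7231) (Nat.mul x7229 (nat_lit 3))) x13789)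
    (Nat.sub (Nat.sub (Nat.sub (Nat.add (Nat.add (Nat.add (Nat.add (Nat.add (Nat.add (Nat.add C x2857) x7717) x7177) x7249) x7225) x7229) x7233) x7231) x13791) x671)
    (Nat.sub (Nat.sub (Nat.add (Nat.add (Nat.add (Nat.add (Nat.add C x2859) x7719) x7179) x7251) x7231) x7233) x673)
    (Nat.sub (Nat.add (Nat.add (Nat.add (Nat.add (Nat.add (Nat.add (Nat.add C x7241) x2867) x7727) x7187) x7223) x7247) x7243) x13801)
    (Nat.sub (Nat.sub (Nat.add (Nat.add (Nat.add (Nat.add (Nat.add (Nat.add C x2869) x7729) x7189) x7225) x7249) x7241) x13803) x683)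
    (Nat.sub (Nat.add (Nat.add (Nat.add (Nat.add (Nat.add (Nat.add (Nat.add C x2873) x7733) x7193) x7229) x7265) x7241) x7249) x13807)
    (Nat.sub (Nat.sub (Nat.add (Nat.add (Nat.add (Nat.add (Nat.add (Nat.add (Nat.add (Nat.add (Nat.add (Nat.add C x7249) x2875) x7735) x7195) x7231) x7267) x7243) x7255) x7247) x7251) x13809) x689)
    (Nat.sub (Nat.add (Nat.add (Nat.add (Nat.add (Nat.add (Nat.add (Nat.add C x2877) x7737) x7197) x7233) x7269) x7257) x7249) x691)
    (Nat.sub (Nat.sub (Nat.add (Nat.add (Nat.add (Nat.add (Nat.add (Nat.add C x2881) x7741) x7201) x7273) x7249) x7257) x13815) x695)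
    (Nat.sub (Nat.add (Nat.add (Nat.add (Nat.add (Nat.add (Nat.add (Nat.add C x7257) x2883) x7743) x7203) x7275) x7251) x7255) x697)
    (Nat.sub (Nat.add (Nat.add (Nat.add (Nat.add (Nat.add C x7265) x2891) x7751) x7247) x7267) x13825)
    (Nat.sub (Nat.sub (Nat.add (Nat.add (Nat.add (Nat.add (Nat.add (Nat.add (Nat.add C x7267) x2893) x7753) x7249) x7273) x7265) x7269) x13827) x707)
    (Nat.sub (Nat.sub (Nat.add (Nat.add (Nat.add (Nat.add (Nat.add C x2895) x7755) x7251) x7275) x7267) x7269) x709)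
    (Nat.sub (Nat.sub (Nat.add (Nat.add (Nat.add (Nat.add (Nat.add (Nat.add C (Nat.mul x7273 (nat_lit 2))) x2899) x7759) x7255) x7267) x7275) x13833) x713)
    (Nat.sub (Nat.add (Nat.add (Nat.add (Nat.add (Nat.add (Nat.add (Nat.add C (Nat.mul x7275 (nat_lit 2))) x2901) x7761) x7257) x7269) x7281) x7273) x715)
    (Nat.sub (Nat.add (Nat.add (Nat.add (Nat.add C (Nat.mul x7281 (nat_lit 3))) x2907) x7767) x7275) x721)
    (Nat.sub (Nat.add (Nat.add (Nat.add (Nat.add (Nat.add (Nat.add C (Nat.mul x7343 (nat_lit 3))) x2969) x8801) x6857) x7397) x7361) x13903)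
    (Nat.sub (Nat.add (Nat.add (Nat.add (Nat.add (Nat.add (Nat.add (Nat.add C x7361) x2987) x8819) x6875) x7415) x7343) x7367) x13921)
    (Nat.sub (Nat.add (Nat.add (Nat.add (Nat.add (Nat.add (Nat.add (Nat.add C x7367) x2993) x8825) x6881) x7421) x7361) x7369) x13927)
    (Nat.sub (Nat.sub (Nat.add (Nat.add (Nat.add (Nat.add (Nat.add (Nat.add C (Nat.mul x7369 (nat_lit 2))) x2995) x8827) x6883) x7423) x7367) x13929) x809)
    (Nat.sub (Nat.add (Nat.add (Nat.add (Nat.add (Nat.add (Nat.add (Nat.add C x7397) x3023) x8855) x6911) x7559) x7343) x7415) x13957)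
    (Nat.sub (Nat.add (Nat.add (Nat.add (Nat.add (Nat.add (Nat.add (Nat.add (Nat.add (Nat.add (Nat.add C x7415) x3041) x8873) x6929) x7577) x7361) x7469) x7397) x7433) x7421) x13975)
    (Nat.sub (Nat.add (Nat.add (Nat.add (Nat.add (Nat.add (Nat.add (Nat.add (Nat.add (Nat.add C x3047) x8879) x6935) x7583) x7367) x7475) x7439) x7415) x7423) x13981)
    (Nat.sub (Nat.sub (Nat.add (Nat.add (Nat.add (Nat.add (Nat.add (Nat.add (Nat.add (Nat.add (Nat.add C x7423) x3049) x8881) x6937) x7585) x7369) x7477) x7441) x7421) x13983) x863)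
    (Nat.sub (Nat.sub (Nat.add (Nat.add (Nat.add (Nat.add (Nat.add (Nat.add (Nat.add C x3059) x8891) x6947) x7595) x7487) x7415) x7439) x7433) x13993)
    (Nat.sub (Nat.add (Nat.add (Nat.add (Nat.add (Nat.add (Nat.add (Nat.add (Nat.add (Nat.add C x3065) x8897) x6953) x7601) x7493) x7421) x7433) x7445) x7441) x13999)
    (Nat.sub (Nat.sub (Nat.add (Nat.add (Nat.add (Nat.add (Nat.add (Nat.add (Nat.add (Nat.add C x3067) x8899) x6955) x7603) x7495) x7423) x7447) x7439) x14001) x881)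
    (Nat.sub (Nat.sub (Nat.add (Nat.add (Nat.add (Nat.add (Nat.add (Nat.add (Nat.add C x3071) x8903) x6959) x7607) x7499) x7439) x7447) x7445) x14005)
    (Nat.sub (Nat.sub (Nat.add (Nat.add (Nat.add (Nat.add (Nat.add (Nat.add (Nat.add (Nat.add (Nat.add C x7447) x3073) x8905) x6961) x7609) x7501) x7441) x7445) x7449) x14007) x887)
    (Nat.sub (Nat.add (Nat.add (Nat.add (Nat.add (Nat.add (Nat.add (Nat.add C x7449) x3075) x8907) x6963) x7611) x7503) x7447) x889)
    (Nat.sub (Nat.sub (Nat.add (Nat.add (Nat.add (Nat.add (Nat.add (Nat.add (Nat.add C x3095) x8927) x6983) x7631) x7415) x7487) x7475) x7469) x14029)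
    (Nat.sub (Nat.sub (Nat.add (Nat.add (Nat.add (Nat.add (Nat.add (Nat.add (Nat.add (Nat.add C x3101) x8933) x6989) x7637) x7421) x7493) x7469) x7477) (Nat.mul x7475 (nat_lit 3))) x14035)
    (Nat.sub (Nat.sub (Nat.sub (Nat.add (Nat.add (Nat.add (Nat.add (Nat.add (Nat.add (Nat.add C x3103) x8935) x6991) x7639) x7423) x7495) x7475) (Nat.mul x7477 (nat_lit 2))) x14037) x917)
    (Nat.sub (Nat.sub (Nat.add (Nat.add (Nat.add (Nat.add (Nat.add (Nat.add (Nat.add C x3113) x8945) x7001) x7649) x7433) x7469) x7493) x7487) x14047)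
    (Nat.sub (Nat.sub (Nat.add (Nat.add (Nat.add (Nat.add (Nat.add (Nat.add (Nat.add (Nat.add (Nat.add (Nat.add C x3119) x8951) x7007) x7655) x7439) x7475) x7511) x7487) x7499) x7495) x7493) x14053)
    (Nat.sub (Nat.sub (Nat.sub (Nat.add (Nat.add (Nat.add (Nat.add (Nat.add (Nat.add (Nat.add (Nat.add (Nat.add C x3121) x8953) x7009) x7657) x7441) x7477) x7513) x7501) x7493) x7495) x14055) x935)
    (Nat.sub (Nat.sub (Nat.add (Nat.add (Nat.add (Nat.add (Nat.add (Nat.add (Nat.add (Nat.add C x3125) x8957) x7013) x7661) x7445) x7517) x7493) x7501) (Nat.mul x7499 (nat_lit 3))) x14059)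
    (Nat.sub (Nat.sub (Nat.sub (Nat.add (Nat.add (Nat.add (Nat.add (Nat.add (Nat.add (Nat.add (Nat.add (Nat.add C x3127) x8959) x7015) x7663) x7447) x7519) x7495) x7499) x7503) x7501) x14061) x941)
    (Nat.sub (Nat.sub (Nat.add (Nat.add (Nat.add (Nat.add (Nat.add (Nat.add (Nat.add C x3129) x8961) x7017) x7665) x7449) x7521) x7501) x7503) x943)
    (Nat.sub (Nat.sub (Nat.add (Nat.add (Nat.add (Nat.add (Nat.add (Nat.add (Nat.add C x3137) x8969) x7025) x7673) x7493) x7517) x7513) x7511) x14071)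
    (Nat.sub (Nat.sub (Nat.sub (Nat.add (Nat.add (Nat.add (Nat.add (Nat.add (Nat.add (Nat.add C x3139) x8971) x7027) x7675) x7495) x7519) x7511) (Nat.mul x7513 (nat_lit 2))) x14073) x953)
    (Nat.sub (Nat.sub (Nat.add (Nat.add (Nat.add (Nat.add (Nat.add (Nat.add (Nat.add C x3143) x8975) x7031) x7679) x7499) x7511) x7519) x7517) x14077)
    (Nat.sub (Nat.sub (Nat.add (Nat.add (Nat.add (Nat.add (Nat.add (Nat.add (Nat.add (Nat.add (Nat.add C x3145) x8977) x7033) x7681) x7501) x7513) x7525) x7517) x7521) x14079) x959)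
    (Nat.sub (Nat.sub (Nat.add (Nat.add (Nat.add (Nat.add (Nat.add (Nat.add (Nat.add C x3147) x8979) x7035) x7683) x7503) x7527) x7519) x7521) x961)
    (Nat.sub (Nat.sub (Nat.add (Nat.add (Nat.add (Nat.add (Nat.add (Nat.add C x3151) x8983) x7039) x7687) x7519) x7527) x14085) x965)
    (Nat.sub (Nat.add (Nat.add (Nat.add (Nat.add (Nat.add (Nat.add (Nat.add C x7527) x3153) x8985) x7041) x7689) x7521) x7525) x967)
    (Nat.sub (Nat.add (Nat.add (Nat.add (Nat.add (Nat.add (Nat.add (Nat.add C (Nat.mul x7559 (nat_lit 2))) x3185) x9017) x7073) x8045) x7397) x7577) x14119)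
    (Nat.sub (Nat.add (Nat.add (Nat.add (Nat.add (Nat.add (Nat.add (Nat.add (Nat.add (Nat.add (Nat.add C x7577) x3203) x9035) x7091) x8063) x7415) x7631) x7559) x7595) x7583) x14137)
    (Nat.sub (Nat.add (Nat.add (Nat.add (Nat.add (Nat.add (Nat.add (Nat.add (Nat.add (Nat.add C x3209) x9041) x7097) x8069) x7421) x7637) x7601) x7577) x7585) x14143)
    (Nat.sub (Nat.sub (Nat.add (Nat.add (Nat.add (Nat.add (Nat.add (Nat.add (Nat.add (Nat.add (Nat.add C x7585) x3211) x9043) x7099) x8071) x7423) x7639) x7603) x7583) x14145) x1025)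
    (Nat.sub (Nat.sub (Nat.add (Nat.add (Nat.add (Nat.add (Nat.add (Nat.add (Nat.add (Nat.add C x3221) x9053) x7109) x8081) x7433) x7649) x7577) x7601) (Nat.mul x7595 (nat_lit 2))) x14155)
    (Nat.sub (Nat.sub (Nat.add (Nat.add (Nat.add (Nat.add (Nat.add (Nat.add (Nat.add (Nat.add (Nat.add (Nat.add C x3227) x9059) x7115) x8087) x7439) x7655) x7583) x7595) x7607) x7603) x7601) x14161)
    (Nat.sub (Nat.sub (Nat.sub (Nat.add (Nat.add (Nat.add (Nat.add (Nat.add (Nat.add (Nat.add (Nat.add (Nat.add C x3229) x9061) x7117) x8089) x7441) x7657) x7585) x7609) x7601) x7603) x14163) x1043)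
    (Nat.sub (Nat.sub (Nat.add (Nat.add (Nat.add (Nat.add (Nat.add (Nat.add (Nat.add (Nat.add C x3233) x9065) x7121) x8093) x7445) x7661) x7601) x7609) (Nat.mul x7607 (nat_lit 2))) x14167)
    (Nat.sub (Nat.sub (Nat.add (Nat.add (Nat.add (Nat.add (Nat.add (Nat.add (Nat.add (Nat.add (Nat.add C x3235) x9067) x7123) x8095) x7447) x7663) x7603) x7607) x7611) x14169) x1049)
    (Nat.sub (Nat.add (Nat.add (Nat.add (Nat.add (Nat.add (Nat.add (Nat.add C x3237) x9069) x7125) x8097) x7449) x7665) x7609) x1051)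
    (Nat.sub (Nat.add (Nat.add (Nat.add (Nat.add (Nat.add (Nat.add (Nat.add (Nat.add (Nat.add (Nat.add C x7631) x3257) x9089) x7145) x8117) x7469) x7793) x7577) x7649) x7637) x14191)
    (Nat.sub (Nat.sub (Nat.add (Nat.add (Nat.add (Nat.add (Nat.add (Nat.add (Nat.add (Nat.add (Nat.add (Nat.add C x3263) x9095) x7151) x8123) x7475) x7799) x7583) x7655) x7631) x7639) x7637) x14197)
    (Nat.sub (Nat.sub (Nat.add (Nat.add (Nat.add (Nat.add (Nat.add (Nat.add (Nat.add (Nat.add (Nat.add C x3265) x9097) x7153) x8125) x7477) x7801) x7585) x7657) x7637) x14199) x1079)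
    (Nat.sub (Nat.add (Nat.add (Nat.add (Nat.add (Nat.add (Nat.add (Nat.add (Nat.add (Nat.add (Nat.add C x3275) x9107) x7163) x8135) x7487) x7811) x7595) x7703) x7631) x7655) x14209)
    (Nat.sub (Nat.add (Nat.add (Nat.add (Nat.add (Nat.add (Nat.add (Nat.add (Nat.add (Nat.add (Nat.add (Nat.add (Nat.add (Nat.add C x3281) x9113) x7169) x8141) x7493) x7817) x7601) x7709) x7637) x7673) x7649) x7661) x7657) x14215)
    (Nat.sub (Nat.sub (Nat.add (Nat.add (Nat.add (Nat.add (Nat.add (Nat.add (Nat.add (Nat.add (Nat.add (Nat.add (Nat.add (Nat.add C x3283) x9115) x7171) x8143) x7495) x7819) x7603) x7711) x7639) x7675) x7663) x7655) x14217) x1097)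
    (Nat.sub (Nat.sub (Nat.add (Nat.add (Nat.add (Nat.add (Nat.add (Nat.add (Nat.add (Nat.add (Nat.add (Nat.add (Nat.add C x3287) x9119) x7175) x8147) x7499) x7823) x7607) x7715) x7679) x7655) x7663) (Nat.mul x7661 (nat_lit 2))) x14221)
    (Nat.sub (Nat.sub (Nat.add (Nat.add (Nat.add (Nat.add (Nat.add (Nat.add (Nat.add (Nat.add (Nat.add (Nat.add (Nat.add (Nat.add C x3289) x9121) x7177) x8149) x7501) x7825) x7609) x7717) x7681) x7657) x7661) x7665) x14223) x1103)
    (Nat.sub (Nat.add (Nat.add (Nat.add (Nat.add (Nat.add (Nat.add (Nat.add (Nat.add (Nat.add (Nat.add C x3291) x9123) x7179) x8151) x7503) x7827) x7611) x7719) x7683) x7663) x1105)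
    (Nat.sub (Nat.sub (Nat.add (Nat.add (Nat.add (Nat.add (Nat.add (Nat.add (Nat.add (Nat.add (Nat.add (Nat.add C x3299) x9131) x7187) x8159) x7511) x7835) x7727) x7655) x7679) x7675) x7673) x14233)
    (Nat.sub (Nat.sub (Nat.sub (Nat.add (Nat.add (Nat.add (Nat.add (Nat.add (Nat.add (Nat.add (Nat.add (Nat.add (Nat.add C x3301) x9133) x7189) x8161) x7513) x7837) x7729) x7657) x7681) x7673) (Nat.mul x7675 (nat_lit 2))) x14235) x1115)
    (Nat.sub (Nat.sub (Nat.add (Nat.add (Nat.add (Nat.add (Nat.add (Nat.add (Nat.add (Nat.add (Nat.add (Nat.add C x3305) x9137) x7193) x8165) x7517) x7841) x7733) x7661) x7673) x7681) x7679) x14239)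
    (Nat.sub (Nat.sub (Nat.add (Nat.add (Nat.add (Nat.add (Nat.add (Nat.add (Nat.add (Nat.add (Nat.add (Nat.add (Nat.add (Nat.add C x3307) x9139) x7195) x8167) x7519) x7843) x7735) x7663) x7675) x7687) x7679) x7683) x14241) x1121)
    (Nat.sub (Nat.sub (Nat.add (Nat.add (Nat.add (Nat.add (Nat.add (Nat.add (Nat.add (Nat.add (Nat.add (Nat.add C x3309) x9141) x7197) x8169) x7521) x7845) x7737) x7665) x7689) x7681) x7683) x1123)
    (Nat.sub (Nat.sub (Nat.add (Nat.add (Nat.add (Nat.add (Nat.add (Nat.add (Nat.add (Nat.add (Nat.add C x3313) x9145) x7201) x8173) x7525) x7849) x7741) x7681) x7689) x14247) x1127)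
    (Nat.sub (Nat.add (Nat.add (Nat.add (Nat.add (Nat.add (Nat.add (Nat.add (Nat.add (Nat.add (Nat.add C x7689) x3315) x9147) x7203) x8175) x7527) x7851) x7743) x7683) x7687) x1129)
    (Nat.sub (Nat.add (Nat.add (Nat.add (Nat.add (Nat.add (Nat.add (Nat.add C x3329) x9161) x7217) x8189) x7865) x7649) x7709) x14263)
    (Nat.sub (Nat.sub (Nat.add (Nat.add (Nat.add (Nat.add (Nat.add (Nat.add (Nat.add (Nat.add (Nat.add (Nat.add C x3335) x9167) x7223) x8195) x7871) x7655) x7727) x7703) x7715) x7711) x7709) x14269)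
    (Nat.sub (Nat.sub (Nat.sub (Nat.add (Nat.add (Nat.add (Nat.add (Nat.add (Nat.add (Nat.add (Nat.add (Nat.add C x3337) x9169) x7225) x8197) x7873) x7657) x7729) x7717) x7709) x7711) x14271) x1151)
    (Nat.sub (Nat.sub (Nat.add (Nat.add (Nat.add (Nat.add (Nat.add (Nat.add (Nat.add (Nat.add (Nat.add C x3341) x9173) x7229) x8201) x7877) x7661) x7733) x7709) x7717) (Nat.mul x7715 (nat_lit 4))) x14275)
    (Nat.sub (Nat.sub (Nat.sub (Nat.add (Nat.add (Nat.add (Nat.add (Nat.add (Nat.add (Nat.add (Nat.add (Nat.add (Nat.add C x3343) x9175) x7231) x8203) x7879) x7663) x7735) x7711) x7715) x7719) (Nat.mul x7717 (nat_lit 2))) x14277) x1157)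
    (Nat.sub (Nat.sub (Nat.add (Nat.add (Nat.add (Nat.add (Nat.add (Nat.add (Nat.add (Nat.add C x3345) x9177) x7233) x8205) x7881) x7665) x7737) x7717) (Nat.mul x7719 (nat_lit 2))) x1159)
    (Nat.sub (Nat.add (Nat.add (Nat.add (Nat.add (Nat.add (Nat.add (Nat.add (Nat.add (Nat.add C x3353) x9185) x7241) x8213) x7889) x7673) x7709) x7733) x7729) x14287)
    (Nat.sub (Nat.sub (Nat.sub (Nat.add (Nat.add (Nat.add (Nat.add (Nat.add (Nat.add (Nat.add (Nat.add (Nat.add C x3355) x9187) x7243) x8215) x7891) x7675) x7711) x7735) x7727) x7729) x14289) x1169)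
    (Nat.sub (Nat.sub (Nat.add (Nat.add (Nat.add (Nat.add (Nat.add (Nat.add (Nat.add (Nat.add (Nat.add (Nat.add C x3359) x9191) x7247) x8219) x7895) x7679) x7715) x7751) x7727) x7735) x7733) x14293)
    (Nat.sub (Nat.sub (Nat.add (Nat.add (Nat.add (Nat.add (Nat.add (Nat.add (Nat.add (Nat.add (Nat.add (Nat.add (Nat.add (Nat.add C x3361) x9193) x7249) x8221) x7897) x7681) x7717) x7753) x7729) x7741) x7733) x7737) x14295) x1175)
    (Nat.sub (Nat.sub (Nat.add (Nat.add (Nat.add (Nat.add (Nat.add (Nat.add (Nat.add (Nat.add (Nat.add (Nat.add C x3363) x9195) x7251) x8223) x7899) x7683) x7719) x7755) x7743) x7735) x7737) x1177)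
    (Nat.sub (Nat.sub (Nat.sub (Nat.add (Nat.add (Nat.add (Nat.add (Nat.add (Nat.add (Nat.add (Nat.add (Nat.add C x3367) x9199) x7255) x8227) x7903) x7687) x7759) x7735) x7743) x7741) x14301) x1181)
    (Nat.sub (Nat.add (Nat.add (Nat.add (Nat.add (Nat.add (Nat.add (Nat.add (Nat.add (Nat.add C x3369) x9201) x7257) x8229) x7905) x7689) x7761) x7737) x7741) x1183)
    (Nat.sub (Nat.add (Nat.add (Nat.add (Nat.add (Nat.add (Nat.add (Nat.add C x3377) x9209) x7265) x8237) x7913) x7733) x7753) x14311)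
    (Nat.sub (Nat.sub (Nat.add (Nat.add (Nat.add (Nat.add (Nat.add (Nat.add (Nat.add (Nat.add (Nat.add C x3379) x9211) x7267) x8239) x7915) x7735) x7759) x7751) x7755) x14313) x1193)
    (Nat.sub (Nat.sub (Nat.add (Nat.add (Nat.add (Nat.add (Nat.add (Nat.add (Nat.add (Nat.add C x3381) x9213) x7269) x8241) x7917) x7737) x7761) x7753) (Nat.mul x7755 (nat_lit 2))) x1195)
    (Nat.sub (Nat.sub (Nat.add (Nat.add (Nat.add (Nat.add (Nat.add (Nat.add (Nat.add (Nat.add (Nat.add C x7759) x3385) x9217) x7273) x8245) x7921) x7741) x7753) x7761) x14319) x1199)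
    (Nat.sub (Nat.add (Nat.add (Nat.add (Nat.add (Nat.add (Nat.add (Nat.add (Nat.add (Nat.add (Nat.add C x7761) x3387) x9219) x7275) x8247) x7923) x7743) x7755) x7767) x7759) x1201)
    (Nat.sub (Nat.add (Nat.add (Nat.add (Nat.add (Nat.add (Nat.add (Nat.add C (Nat.mul x7767 (nat_lit 2))) x3393) x9225) x7281) x8253) x7929) x7761) x1207)
    (Nat.sub (Nat.add (Nat.add (Nat.add (Nat.add (Nat.add (Nat.add (Nat.add C x7793) x3419) x9251) x8279) x7631) x7811) x7799) x14353)
    (Nat.sub (Nat.sub (Nat.add (Nat.add (Nat.add (Nat.add (Nat.add (Nat.add (Nat.add C x3425) x9257) x8285) x7637) x7817) x7793) x7801) x7799) x14359)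
    (Nat.sub (Nat.sub (Nat.add (Nat.add (Nat.add (Nat.add (Nat.add (Nat.add C x3427) x9259) x8287) x7639) x7819) x7799) x14361) x1241)
    (Nat.sub (Nat.sub (Nat.add (Nat.add (Nat.add (Nat.add (Nat.add (Nat.add (Nat.add C x3437) x9269) x8297) x7649) x7865) x7793) x7817) x7811) x14371)
    (Nat.sub (Nat.sub (Nat.add (Nat.add (Nat.add (Nat.add (Nat.add (Nat.add (Nat.add (Nat.add (Nat.add (Nat.add C x3443) x9275) x8303) x7655) x7871) x7799) x7835) x7811) x7823) x7819) x7817) x14377)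
    (Nat.sub (Nat.sub (Nat.sub (Nat.add (Nat.add (Nat.add (Nat.add (Nat.add (Nat.add (Nat.add (Nat.add (Nat.add C x3445) x9277) x8305) x7657) x7873) x7801) x7837) x7825) x7817) x7819) x14379) x1259)
    (Nat.sub (Nat.sub (Nat.add (Nat.add (Nat.add (Nat.add (Nat.add (Nat.add (Nat.add (Nat.add C x3449) x9281) x8309) x7661) x7877) x7841) x7817) x7825) (Nat.mul x7823 (nat_lit 3))) x14383)
    (Nat.sub (Nat.sub (Nat.sub (Nat.add (Nat.add (Nat.add (Nat.add (Nat.add (Nat.add (Nat.add (Nat.add (Nat.add C x3451) x9283) x8311) x7663) x7879) x7843) x7819) x7823) x7827) x7825) x14385) x1265)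
    (Nat.sub (Nat.sub (Nat.add (Nat.add (Nat.add (Nat.add (Nat.add (Nat.add (Nat.add C x3453) x9285) x8313) x7665) x7881) x7845) x7825) x7827) x1267)
    (Nat.sub (Nat.sub (Nat.add (Nat.add (Nat.add (Nat.add (Nat.add (Nat.add (Nat.add (Nat.add C x3461) x9293) x8321) x7673) x7889) x7817) x7841) x7837) (Nat.mul x7835 (nat_lit 3))) x14395)
    (Nat.sub (Nat.sub (Nat.sub (Nat.add (Nat.add (Nat.add (Nat.add (Nat.add (Nat.add (Nat.add (Nat.add C x3463) x9295) x8323) x7675) x7891) x7819) x7843) x7835) (Nat.mul x7837 (nat_lit 4))) x14397) x1277)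
    (Nat.sub (Nat.sub (Nat.add (Nat.add (Nat.add (Nat.add (Nat.add (Nat.add (Nat.add (Nat.add C x3467) x9299) x8327) x7679) x7895) x7823) x7835) x7843) (Nat.mul x7841 (nat_lit 3))) x14401)
    (Nat.sub (Nat.sub (Nat.sub (Nat.add (Nat.add (Nat.add (Nat.add (Nat.add (Nat.add (Nat.add (Nat.add (Nat.add (Nat.add C x3469) x9301) x8329) x7681) x7897) x7825) x7837) x7849) x7841) x7845) (Nat.mul x7843 (nat_lit 2))) x14403) x1283)
    (Nat.sub (Nat.sub (Nat.add (Nat.add (Nat.add (Nat.add (Nat.add (Nat.add (Nat.add (Nat.add C x3471) x9303) x8331) x7683) x7899) x7827) x7851) x7843) (Nat.mul x7845 (nat_lit 3))) x1285)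
    (Nat.sub (Nat.sub (Nat.sub (Nat.add (Nat.add (Nat.add (Nat.add (Nat.add (Nat.add (Nat.add C x3475) x9307) x8335) x7687) x7903) x7843) x7851) (Nat.mul x7849 (nat_lit 2))) x14409) x1289)
    (Nat.sub (Nat.sub (Nat.add (Nat.add (Nat.add (Nat.add (Nat.add (Nat.add (Nat.add C x3477) x9309) x8337) x7689) x7905) x7845) x7849) x7851) x1291)
    (Nat.sub (Nat.add (Nat.add (Nat.add (Nat.add (Nat.add (Nat.add (Nat.add C x7865) x3491) x9323) x8351) x7703) x7811) x7871) x14425)
    (Nat.sub (Nat.add (Nat.add (Nat.add (Nat.add (Nat.add (Nat.add (Nat.add (Nat.add (Nat.add C x3497) x9329) x8357) x7709) x7817) x7889) x7865) x7877) x7873) x14431)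
    (Nat.sub (Nat.sub (Nat.add (Nat.add (Nat.add (Nat.add (Nat.add (Nat.add (Nat.add (Nat.add C x3499) x9331) x8359) x7711) x7819) x7891) x7879) x7871) x14433) x1313)
    (Nat.sub (Nat.sub (Nat.add (Nat.add (Nat.add (Nat.add (Nat.add (Nat.add (Nat.add (Nat.add C x3503) x9335) x8363) x7715) x7823) x7895) x7871) x7879) (Nat.mul x7877 (nat_lit 3))) x14437)
    (Nat.sub (Nat.sub (Nat.sub (Nat.add (Nat.add (Nat.add (Nat.add (Nat.add (Nat.add (Nat.add (Nat.add (Nat.add C x3505) x9337) x8365) x7717) x7825) x7897) x7873) x7877) x7881) x7879) x14439) x1319)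
    (Nat.sub (Nat.sub (Nat.add (Nat.add (Nat.add (Nat.add (Nat.add (Nat.add (Nat.add C x3507) x9339) x8367) x7719) x7827) x7899) x7879) x7881) x1321)
    (Nat.sub (Nat.add (Nat.add (Nat.add (Nat.add (Nat.add (Nat.add (Nat.add (Nat.add (Nat.add C x3515) x9347) x8375) x7727) x7835) x7943) x7871) x7895) x7891) x14449)
    (Nat.sub (Nat.sub (Nat.sub (Nat.add (Nat.add (Nat.add (Nat.add (Nat.add (Nat.add (Nat.add (Nat.add (Nat.add C x3517) x9349) x8377) x7729) x7837) x7945) x7873) x7897) x7889) x7891) x14451) x1331)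
    (Nat.sub (Nat.sub (Nat.add (Nat.add (Nat.add (Nat.add (Nat.add (Nat.add (Nat.add (Nat.add (Nat.add (Nat.add C x3521) x9353) x8381) x7733) x7841) x7949) x7877) x7913) x7889) x7897) x7895) x14455)
    (Nat.sub (Nat.sub (Nat.add (Nat.add (Nat.add (Nat.add (Nat.add (Nat.add (Nat.add (Nat.add (Nat.add (Nat.add (Nat.add (Nat.add C x3523) x9355) x8383) x7735) x7843) x7951) x7879) x7915) x7891) x7903) x7895) x7899) x14457) x1337)
    (Nat.sub (Nat.sub (Nat.add (Nat.add (Nat.add (Nat.add (Nat.add (Nat.add (Nat.add (Nat.add (Nat.add (Nat.add C x3525) x9357) x8385) x7737) x7845) x7953) x7881) x7917) x7905) x7897) x7899) x1339)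
    (Nat.sub (Nat.sub (Nat.sub (Nat.add (Nat.add (Nat.add (Nat.add (Nat.add (Nat.add (Nat.add (Nat.add (Nat.add C x3529) x9361) x8389) x7741) x7849) x7957) x7921) x7897) x7905) x7903) x14463) x1343)
    (Nat.sub (Nat.add (Nat.add (Nat.add (Nat.add (Nat.add (Nat.add (Nat.add (Nat.add (Nat.add C x3531) x9363) x8391) x7743) x7851) x7959) x7923) x7899) x7903) x1345)
    (Nat.sub (Nat.sub (Nat.add (Nat.add (Nat.add (Nat.add (Nat.add (Nat.add (Nat.add C x3539) x9371) x8399) x7751) x7967) x7895) x7915) x7913) x14473)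
    (Nat.sub (Nat.sub (Nat.sub (Nat.add (Nat.add (Nat.add (Nat.add (Nat.add (Nat.add (Nat.add (Nat.add (Nat.add C x3541) x9373) x8401) x7753) x7969) x7897) x7921) x7913) x7917) x7915) x14475) x1355)
    (Nat.sub (Nat.sub (Nat.add (Nat.add (Nat.add (Nat.add (Nat.add (Nat.add (Nat.add (Nat.add C x3543) x9375) x8403) x7755) x7971) x7899) x7923) x7915) (Nat.mul x7917 (nat_lit 3))) x1357)
    (Nat.sub (Nat.sub (Nat.add (Nat.add (Nat.add (Nat.add (Nat.add (Nat.add (Nat.add (Nat.add C x3547) x9379) x8407) x7759) x7975) x7903) x7915) x7923) x14481) x1361)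
    (Nat.sub (Nat.add (Nat.add (Nat.add (Nat.add (Nat.add (Nat.add (Nat.add (Nat.add (Nat.add C x3549) x9381) x8409) x7761) x7977) x7905) x7917) x7929) x7921) x1363)
    (Nat.sub (Nat.add (Nat.add (Nat.add (Nat.add (Nat.add (Nat.add (Nat.add C x7929) x3555) x9387) x8415) x7767) x7983) x7923) x1369)
    (Nat.sub (Nat.add (Nat.add (Nat.add (Nat.add (Nat.add (Nat.add (Nat.add C x7943) x3569) x9401) x8429) x7889) x7949) x7945) x14503)
    (Nat.sub (Nat.sub (Nat.add (Nat.add (Nat.add (Nat.add (Nat.add (Nat.add C x3571) x9403) x8431) x7891) x7951) x7943) x14505) x1385)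
    (Nat.sub (Nat.sub (Nat.add (Nat.add (Nat.add (Nat.add (Nat.add (Nat.add (Nat.add C x3575) x9407) x8435) x7895) x7967) x7943) x7951) x7949) x14509)
    (Nat.sub (Nat.sub (Nat.add (Nat.add (Nat.add (Nat.add (Nat.add (Nat.add (Nat.add (Nat.add (Nat.add C x3577) x9409) x8437) x7897) x7969) x7945) x7957) x7949) x7953) x14511) x1391)
    (Nat.sub (Nat.sub (Nat.add (Nat.add (Nat.add (Nat.add (Nat.add (Nat.add (Nat.add C x3579) x9411) x8439) x7899) x7971) x7959) x7951) x7953) x1393)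
    (Nat.sub (Nat.sub (Nat.sub (Nat.add (Nat.add (Nat.add (Nat.add (Nat.add (Nat.add (Nat.add C x3583) x9415) x8443) x7903) x7975) x7951) x7959) (Nat.mul x7957 (nat_lit 2))) x14517) x1397)
    (Nat.sub (Nat.sub (Nat.add (Nat.add (Nat.add (Nat.add (Nat.add (Nat.add (Nat.add C x3585) x9417) x8445) x7905) x7977) x7953) x7957) x7959) x1399)
    (Nat.sub (Nat.add (Nat.add (Nat.add (Nat.add (Nat.add (Nat.add (Nat.add C x7967) x3593) x9425) x8453) x7913) x7949) x7969) x14527)
    (Nat.sub (Nat.sub (Nat.add (Nat.add (Nat.add (Nat.add (Nat.add (Nat.add (Nat.add (Nat.add (Nat.add C x7969) x3595) x9427) x8455) x7915) x7951) x7975) x7967) x7971) x14529) x1409)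
    (Nat.sub (Nat.sub (Nat.add (Nat.add (Nat.add (Nat.add (Nat.add (Nat.add (Nat.add C x3597) x9429) x8457) x7917) x7953) x7977) x7969) x7971) x1411)
    (Nat.sub (Nat.sub (Nat.add (Nat.add (Nat.add (Nat.add (Nat.add (Nat.add (Nat.add (Nat.add (Nat.add C x7975) x3601) x9433) x8461) x7921) x7957) x7993) x7969) x7977) x14535) x1415)
    (Nat.sub (Nat.add (Nat.add (Nat.add (Nat.add (Nat.add (Nat.add (Nat.add (Nat.add (Nat.add (Nat.add C x7977) x3603) x9435) x8463) x7923) x7959) x7995) x7971) x7983) x7975) x1417)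
    (Nat.sub (Nat.add (Nat.add (Nat.add (Nat.add (Nat.add (Nat.add (Nat.add C x7983) x3609) x9441) x8469) x7929) x8001) x7977) x1423)
    (Nat.sub (Nat.sub (Nat.add (Nat.add (Nat.add (Nat.add (Nat.add (Nat.add C (Nat.mul x7993 (nat_lit 2))) x3619) x9451) x8479) x7975) x7995) x14553) x1433)
    (Nat.sub (Nat.add (Nat.add (Nat.add (Nat.add (Nat.add (Nat.add (Nat.add C x7995) x3621) x9453) x8481) x7977) x8001) x7993) x1435)
    (Nat.sub (Nat.add (Nat.add (Nat.add (Nat.add (Nat.add (Nat.add C (Nat.mul x8001 (nat_lit 3))) x3627) x9459) x8487) x7983) x7995) x1441)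
    (Nat.sub (Nat.add (Nat.add (Nat.add (Nat.add (Nat.add C x8045) x3671) x9503) x7559) x8063) x14605)
    (Nat.sub (Nat.add (Nat.add (Nat.add (Nat.add (Nat.add (Nat.add (Nat.add C x3689) x9521) x7577) x8117) x8045) x8081) x8069) x14623)
    (Nat.sub (Nat.sub (Nat.add (Nat.add (Nat.add (Nat.add (Nat.add (Nat.add (Nat.add C x3695) x9527) x7583) x8123) x8087) x8063) x8071) x8069) x14629)
    (Nat.sub (Nat.sub (Nat.add (Nat.add (Nat.add (Nat.add (Nat.add (Nat.add C x3697) x9529) x7585) x8125) x8089) x8069) x14631) x1511)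
    (Nat.sub (Nat.sub (Nat.add (Nat.add (Nat.add (Nat.add (Nat.add (Nat.add C x3707) x9539) x7595) x8135) x8063) x8087) (Nat.mul x8081 (nat_lit 3))) x14641)
    (Nat.sub (Nat.sub (Nat.add (Nat.add (Nat.add (Nat.add (Nat.add (Nat.add (Nat.add (Nat.add C x3713) x9545) x7601) x8141) x8069) x8081) x8093) x8089) (Nat.mul x8087 (nat_lit 2))) x14647)
    (Nat.sub (Nat.sub (Nat.sub (Nat.add (Nat.add (Nat.add (Nat.add (Nat.add (Nat.add (Nat.add C x3715) x9547) x7603) x8143) x8071) x8095) x8087) (Nat.mul x8089 (nat_lit 2))) x14649) x1529)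
    (Nat.sub (Nat.sub (Nat.add (Nat.add (Nat.add (Nat.add (Nat.add (Nat.add C x3719) x9551) x7607) x8147) x8087) x8095) (Nat.mul x8093 (nat_lit 3))) x14653)
    (Nat.sub (Nat.sub (Nat.sub (Nat.add (Nat.add (Nat.add (Nat.add (Nat.add (Nat.add (Nat.add C x3721) x9553) x7609) x8149) x8089) x8093) x8097) x8095) x14655) x1535)
    (Nat.sub (Nat.sub (Nat.add (Nat.add (Nat.add (Nat.add (Nat.add C x3723) x9555) x7611) x8151) x8095) x8097) x1537)
    (Nat.sub (Nat.sub (Nat.add (Nat.add (Nat.add (Nat.add (Nat.add (Nat.add (Nat.add C x3743) x9575) x7631) x8279) x8063) x8135) x8123) x8117) x14677)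
    (Nat.sub (Nat.sub (Nat.add (Nat.add (Nat.add (Nat.add (Nat.add (Nat.add (Nat.add (Nat.add C x3749) x9581) x7637) x8285) x8069) x8141) x8117) x8125) (Nat.mul x8123 (nat_lit 3))) x14683)
    (Nat.sub (Nat.sub (Nat.sub (Nat.add (Nat.add (Nat.add (Nat.add (Nat.add (Nat.add (Nat.add C x3751) x9583) x7639) x8287) x8071) x8143) x8123) (Nat.mul x8125 (nat_lit 2))) x14685) x1565)
    (Nat.sub (Nat.sub (Nat.add (Nat.add (Nat.add (Nat.add (Nat.add (Nat.add (Nat.add (Nat.add C x3761) x9593) x7649) x8297) x8081) x8189) x8117) x8141) (Nat.mul x8135 (nat_lit 2))) x14695)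
    (Nat.sub (Nat.sub (Nat.add (Nat.add (Nat.add (Nat.add (Nat.add (Nat.add (Nat.add (Nat.add (Nat.add (Nat.add (Nat.add C x3767) x9599) x7655) x8303) x8087) x8195) x8123) x8159) x8135) x8147) x8143) (Nat.mul x8141 (nat_lit 2))) x14701)
    (Nat.sub (Nat.sub (Nat.sub (Nat.add (Nat.add (Nat.add (Nat.add (Nat.add (Nat.add (Nat.add (Nat.add (Nat.add (Nat.add C x3769) x9601) x7657) x8305) x8089) x8197) x8125) x8161) x8149) x8141) (Nat.mul x8143 (nat_lit 2))) x14703) x1583)
    (Nat.sub (Nat.sub (Nat.add (Nat.add (Nat.add (Nat.add (Nat.add (Nat.add (Nat.add (Nat.add (Nat.add C x3773) x9605) x7661) x8309) x8093) x8201) x8165) x8141) x8149) (Nat.mul x8147 (nat_lit 4))) x14707)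
    (Nat.sub (Nat.sub (Nat.sub (Nat.add (Nat.add (Nat.add (Nat.add (Nat.add (Nat.add (Nat.add (Nat.add (Nat.add (Nat.add C x3775) x9607) x7663) x8311) x8095) x8203) x8167) x8143) x8147) x8151) (Nat.mul x8149 (nat_lit 2))) x14709) x1589)
    (Nat.sub (Nat.sub (Nat.add (Nat.add (Nat.add (Nat.add (Nat.add (Nat.add (Nat.add (Nat.add C x3777) x9609) x7665) x8313) x8097) x8205) x8169) x8149) (Nat.mul x8151 (nat_lit 2))) x1591)
    (Nat.sub (Nat.sub (Nat.add (Nat.add (Nat.add (Nat.add (Nat.add (Nat.add (Nat.add (Nat.add C x3785) x9617) x7673) x8321) x8213) x8141) x8165) x8161) (Nat.mul x8159 (nat_lit 3))) x14719)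
    (Nat.sub (Nat.sub (Nat.sub (Nat.add (Nat.add (Nat.add (Nat.add (Nat.add (Nat.add (Nat.add (Nat.add C x3787) x9619) x7675) x8323) x8215) x8143) x8167) x8159) (Nat.mul x8161 (nat_lit 4))) x14721) x1601)
    (Nat.sub (Nat.sub (Nat.add (Nat.add (Nat.add (Nat.add (Nat.add (Nat.add (Nat.add (Nat.add C x3791) x9623) x7679) x8327) x8219) x8147) x8159) x8167) (Nat.mul x8165 (nat_lit 3))) x14725)
    (Nat.sub (Nat.sub (Nat.sub (Nat.add (Nat.add (Nat.add (Nat.add (Nat.add (Nat.add (Nat.add (Nat.add (Nat.add (Nat.add C x3793) x9625) x7681) x8329) x8221) x8149) x8161) x8173) x8165) x8169) (Nat.mul x8167 (nat_lit 2))) x14727) x1607)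
    (Nat.sub (Nat.sub (Nat.add (Nat.add (Nat.add (Nat.add (Nat.add (Nat.add (Nat.add (Nat.add C x3795) x9627) x7683) x8331) x8223) x8151) x8175) x8167) (Nat.mul x8169 (nat_lit 3))) x1609)
    (Nat.sub (Nat.sub (Nat.sub (Nat.add (Nat.add (Nat.add (Nat.add (Nat.add (Nat.add (Nat.add C x3799) x9631) x7687) x8335) x8227) x8167) x8175) (Nat.mul x8173 (nat_lit 2))) x14733) x1613)
    (Nat.sub (Nat.sub (Nat.add (Nat.add (Nat.add (Nat.add (Nat.add (Nat.add (Nat.add C x3801) x9633) x7689) x8337) x8229) x8169) x8173) x8175) x1615)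
    (Nat.sub (Nat.sub (Nat.add (Nat.add (Nat.add (Nat.add (Nat.add (Nat.add C x3815) x9647) x7703) x8351) x8135) x8195) (Nat.mul x8189 (nat_lit 3))) x14749)
    (Nat.sub (Nat.sub (Nat.add (Nat.add (Nat.add (Nat.add (Nat.add (Nat.add (Nat.add (Nat.add (Nat.add C x3821) x9653) x7709) x8357) x8141) x8213) x8189) x8201) x8197) (Nat.mul x8195 (nat_lit 4))) x14755)
    (Nat.sub (Nat.sub (Nat.sub (Nat.add (Nat.add (Nat.add (Nat.add (Nat.add (Nat.add (Nat.add (Nat.add C x3823) x9655) x7711) x8359) x8143) x8215) x8203) x8195) (Nat.mul x8197 (nat_lit 4))) x14757) x1637)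
    (Nat.sub (Nat.sub (Nat.add (Nat.add (Nat.add (Nat.add (Nat.add (Nat.add (Nat.add (Nat.add C x3827) x9659) x7715) x8363) x8147) x8219) x8195) x8203) (Nat.mul x8201 (nat_lit 7))) x14761)
    (Nat.sub (Nat.sub (Nat.sub (Nat.add (Nat.add (Nat.add (Nat.add (Nat.add (Nat.add (Nat.add (Nat.add (Nat.add C x3829) x9661) x7717) x8365) x8149) x8221) x8197) x8201) x8205) (Nat.mul x8203 (nat_lit 5))) x14763) x1643)
    (Nat.sub (Nat.sub (Nat.add (Nat.add (Nat.add (Nat.add (Nat.add (Nat.add (Nat.add C x3831) x9663) x7719) x8367) x8151) x8223) x8203) (Nat.mul x8205 (nat_lit 5))) x1645)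
    (Nat.sub (Nat.sub (Nat.add (Nat.add (Nat.add (Nat.add (Nat.add (Nat.add (Nat.add (Nat.add C x3839) x9671) x7727) x8375) x8159) x8195) x8219) x8215) (Nat.mul x8213 (nat_lit 3))) x14773)
    (Nat.sub (Nat.sub (Nat.sub (Nat.add (Nat.add (Nat.add (Nat.add (Nat.add (Nat.add (Nat.add (Nat.add C x3841) x9673) x7729) x8377) x8161) x8197) x8221) x8213) (Nat.mul x8215 (nat_lit 4))) x14775) x1655)
    (Nat.sub (Nat.sub (Nat.add (Nat.add (Nat.add (Nat.add (Nat.add (Nat.add (Nat.add (Nat.add (Nat.add C x3845) x9677) x7733) x8381) x8165) x8201) x8237) x8213) x8221) (Nat.mul x8219 (nat_lit 4))) x14779)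
    (Nat.sub (Nat.sub (Nat.sub (Nat.add (Nat.add (Nat.add (Nat.add (Nat.add (Nat.add (Nat.add (Nat.add (Nat.add (Nat.add (Nat.add C x3847) x9679) x7735) x8383) x8167) x8203) x8239) x8215) x8227) x8219) x8223) (Nat.mul x8221 (nat_lit 3))) x14781) x1661)
    (Nat.sub (Nat.sub (Nat.add (Nat.add (Nat.add (Nat.add (Nat.add (Nat.add (Nat.add (Nat.add (Nat.add C x3849) x9681) x7737) x8385) x8169) x8205) x8241) x8229) x8221) (Nat.mul x8223 (nat_lit 4))) x1663)
    (Nat.sub (Nat.sub (Nat.sub (Nat.add (Nat.add (Nat.add (Nat.add (Nat.add (Nat.add (Nat.add (Nat.add C x3853) x9685) x7741) x8389) x8173) x8245) x8221) x8229) (Nat.mul x8227 (nat_lit 4))) x14787) x1667)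
    (Nat.sub (Nat.sub (Nat.add (Nat.add (Nat.add (Nat.add (Nat.add (Nat.add (Nat.add (Nat.add C x3855) x9687) x7743) x8391) x8175) x8247) x8223) x8227) (Nat.mul x8229 (nat_lit 3))) x1669)
    (Nat.sub (Nat.sub (Nat.add (Nat.add (Nat.add (Nat.add (Nat.add (Nat.add C x3863) x9695) x7751) x8399) x8219) x8239) (Nat.mul x8237 (nat_lit 3))) x14797)
    (Nat.sub (Nat.sub (Nat.sub (Nat.add (Nat.add (Nat.add (Nat.add (Nat.add (Nat.add (Nat.add (Nat.add C x3865) x9697) x7753) x8401) x8221) x8245) x8237) x8241) (Nat.mul x8239 (nat_lit 3))) x14799) x1679)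
    (Nat.sub (Nat.sub (Nat.add (Nat.add (Nat.add (Nat.add (Nat.add (Nat.add (Nat.add C x3867) x9699) x7755) x8403) x8223) x8247) x8239) (Nat.mul x8241 (nat_lit 5))) x1681)
    (Nat.sub (Nat.sub (Nat.sub (Nat.add (Nat.add (Nat.add (Nat.add (Nat.add (Nat.add (Nat.add C x3871) x9703) x7759) x8407) x8227) x8239) x8247) (Nat.mul x8245 (nat_lit 2))) x14805) x1685)
    (Nat.sub (Nat.sub (Nat.add (Nat.add (Nat.add (Nat.add (Nat.add (Nat.add (Nat.add (Nat.add C x3873) x9705) x7761) x8409) x8229) x8241) x8253) x8245) (Nat.mul x8247 (nat_lit 2))) x1687)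
    (Nat.sub (Nat.sub (Nat.add (Nat.add (Nat.add (Nat.add (Nat.add C x3879) x9711) x7767) x8415) x8247) x8253) x1693)
    (Nat.sub (Nat.add (Nat.add (Nat.add (Nat.add (Nat.add (Nat.add (Nat.add C x8279) x3905) x9737) x7793) x8117) x8297) x8285) x14839)
    (Nat.sub (Nat.sub (Nat.add (Nat.add (Nat.add (Nat.add (Nat.add (Nat.add (Nat.add C x3911) x9743) x7799) x8123) x8303) x8279) x8287) x8285) x14845)
    (Nat.sub (Nat.sub (Nat.add (Nat.add (Nat.add (Nat.add (Nat.add (Nat.add C x3913) x9745) x7801) x8125) x8305) x8285) x14847) x1727)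
    (Nat.sub (Nat.sub (Nat.add (Nat.add (Nat.add (Nat.add (Nat.add (Nat.add (Nat.add C x3923) x9755) x7811) x8135) x8351) x8279) x8303) x8297) x14857)
    (Nat.sub (Nat.sub (Nat.add (Nat.add (Nat.add (Nat.add (Nat.add (Nat.add (Nat.add (Nat.add (Nat.add (Nat.add C x3929) x9761) x7817) x8141) x8357) x8285) x8321) x8297) x8309) x8305) x8303) x14863)
    (Nat.sub (Nat.sub (Nat.sub (Nat.add (Nat.add (Nat.add (Nat.add (Nat.add (Nat.add (Nat.add (Nat.add (Nat.add C x3931) x9763) x7819) x8143) x8359) x8287) x8323) x8311) x8303) x8305) x14865) x1745)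
    (Nat.sub (Nat.sub (Nat.add (Nat.add (Nat.add (Nat.add (Nat.add (Nat.add (Nat.add (Nat.add C x3935) x9767) x7823) x8147) x8363) x8327) x8303) x8311) (Nat.mul x8309 (nat_lit 3))) x14869)
    (Nat.sub (Nat.sub (Nat.sub (Nat.add (Nat.add (Nat.add (Nat.add (Nat.add (Nat.add (Nat.add (Nat.add (Nat.add C x3937) x9769) x7825) x8149) x8365) x8329) x8305) x8309) x8313) x8311) x14871) x1751)
    (Nat.sub (Nat.sub (Nat.add (Nat.add (Nat.add (Nat.add (Nat.add (Nat.add (Nat.add C x3939) x9771) x7827) x8151) x8367) x8331) x8311) x8313) x1753)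
    (Nat.sub (Nat.sub (Nat.add (Nat.add (Nat.add (Nat.add (Nat.add (Nat.add (Nat.add (Nat.add C x3947) x9779) x7835) x8159) x8375) x8303) x8327) x8323) (Nat.mul x8321 (nat_lit 3))) x14881)
    (Nat.sub (Nat.sub (Nat.sub (Nat.add (Nat.add (Nat.add (Nat.add (Nat.add (Nat.add (Nat.add (Nat.add C x3949) x9781) x7837) x8161) x8377) x8305) x8329) x8321) (Nat.mul x8323 (nat_lit 4))) x14883) x1763)
    (Nat.sub (Nat.sub (Nat.add (Nat.add (Nat.add (Nat.add (Nat.add (Nat.add (Nat.add (Nat.add C x3953) x9785) x7841) x8165) x8381) x8309) x8321) x8329) (Nat.mul x8327 (nat_lit 3))) x14887)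
    (Nat.sub (Nat.sub (Nat.sub (Nat.add (Nat.add (Nat.add (Nat.add (Nat.add (Nat.add (Nat.add (Nat.add (Nat.add (Nat.add C x3955) x9787) x7843) x8167) x8383) x8311) x8323) x8335) x8327) x8331) (Nat.mul x8329 (nat_lit 2))) x14889) x1769)
    (Nat.sub (Nat.sub (Nat.add (Nat.add (Nat.add (Nat.add (Nat.add (Nat.add (Nat.add (Nat.add C x3957) x9789) x7845) x8169) x8385) x8313) x8337) x8329) (Nat.mul x8331 (nat_lit 3))) x1771)
    (Nat.sub (Nat.sub (Nat.sub (Nat.add (Nat.add (Nat.add (Nat.add (Nat.add (Nat.add (Nat.add C x3961) x9793) x7849) x8173) x8389) x8329) x8337) (Nat.mul x8335 (nat_lit 2))) x14895) x1775)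
    (Nat.sub (Nat.sub (Nat.add (Nat.add (Nat.add (Nat.add (Nat.add (Nat.add (Nat.add C x3963) x9795) x7851) x8175) x8391) x8331) x8335) x8337) x1777)
    (Nat.sub (Nat.add (Nat.add (Nat.add (Nat.add (Nat.add (Nat.add (Nat.add C x3977) x9809) x7865) x8189) x8513) x8297) x8357) x14911)
    (Nat.sub (Nat.sub (Nat.add (Nat.add (Nat.add (Nat.add (Nat.add (Nat.add (Nat.add (Nat.add (Nat.add (Nat.add C x3983) x9815) x7871) x8195) x8519) x8303) x8375) x8351) x8363) x8359) x8357) x14917)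
    (Nat.sub (Nat.sub (Nat.sub (Nat.add (Nat.add (Nat.add (Nat.add (Nat.add (Nat.add (Nat.add (Nat.add (Nat.add C x3985) x9817) x7873) x8197) x8521) x8305) x8377) x8365) x8357) x8359) x14919) x1799)
    (Nat.sub (Nat.sub (Nat.add (Nat.add (Nat.add (Nat.add (Nat.add (Nat.add (Nat.add (Nat.add (Nat.add C x3989) x9821) x7877) x8201) x8525) x8309) x8381) x8357) x8365) (Nat.mul x8363 (nat_lit 4))) x14923)
    (Nat.sub (Nat.sub (Nat.sub (Nat.add (Nat.add (Nat.add (Nat.add (Nat.add (Nat.add (Nat.add (Nat.add (Nat.add (Nat.add C x3991) x9823) x7879) x8203) x8527) x8311) x8383) x8359) x8363) x8367) (Nat.mul x8365 (nat_lit 2))) x14925) x1805)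
    (Nat.sub (Nat.sub (Nat.add (Nat.add (Nat.add (Nat.add (Nat.add (Nat.add (Nat.add (Nat.add C x3993) x9825) x7881) x8205) x8529) x8313) x8385) x8365) (Nat.mul x8367 (nat_lit 2))) x1807)
    (Nat.sub (Nat.sub (Nat.add (Nat.add (Nat.add (Nat.add (Nat.add (Nat.add (Nat.add (Nat.add (Nat.add (Nat.add C x4001) x9833) x7889) x8213) x8537) x8321) x8429) x8357) x8381) x8377) x8375) x14935)
    (Nat.sub (Nat.sub (Nat.sub (Nat.add (Nat.add (Nat.add (Nat.add (Nat.add (Nat.add (Nat.add (Nat.add (Nat.add (Nat.add C x4003) x9835) x7891) x8215) x8539) x8323) x8431) x8359) x8383) x8375) (Nat.mul x8377 (nat_lit 2))) x14937) x1817)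
    (Nat.sub (Nat.sub (Nat.add (Nat.add (Nat.add (Nat.add (Nat.add (Nat.add (Nat.add (Nat.add (Nat.add (Nat.add (Nat.add C x4007) x9839) x7895) x8219) x8543) x8327) x8435) x8363) x8399) x8375) x8383) (Nat.mul x8381 (nat_lit 2))) x14941)
    (Nat.sub (Nat.sub (Nat.sub (Nat.add (Nat.add (Nat.add (Nat.add (Nat.add (Nat.add (Nat.add (Nat.add (Nat.add (Nat.add (Nat.add (Nat.add (Nat.add C x4009) x9841) x7897) x8221) x8545) x8329) x8437) x8365) x8401) x8377) x8389) x8381) x8385) x8383) x14943) x1823)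
    (Nat.sub (Nat.sub (Nat.add (Nat.add (Nat.add (Nat.add (Nat.add (Nat.add (Nat.add (Nat.add (Nat.add (Nat.add (Nat.add C x4011) x9843) x7899) x8223) x8547) x8331) x8439) x8367) x8403) x8391) x8383) (Nat.mul x8385 (nat_lit 2))) x1825)
    (Nat.sub (Nat.sub (Nat.sub (Nat.add (Nat.add (Nat.add (Nat.add (Nat.add (Nat.add (Nat.add (Nat.add (Nat.add (Nat.add C x4015) x9847) x7903) x8227) x8551) x8335) x8443) x8407) x8383) x8391) (Nat.mul x8389 (nat_lit 2))) x14949) x1829)
    (Nat.sub (Nat.sub (Nat.add (Nat.add (Nat.add (Nat.add (Nat.add (Nat.add (Nat.add (Nat.add (Nat.add (Nat.add C x4017) x9849) x7905) x8229) x8553) x8337) x8445) x8409) x8385) x8389) x8391) x1831)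
    (Nat.sub (Nat.sub (Nat.add (Nat.add (Nat.add (Nat.add (Nat.add (Nat.add (Nat.add (Nat.add C x4025) x9857) x7913) x8237) x8561) x8453) x8381) x8401) (Nat.mul x8399 (nat_lit 2))) x14959)
    (Nat.sub (Nat.sub (Nat.sub (Nat.add (Nat.add (Nat.add (Nat.add (Nat.add (Nat.add (Nat.add (Nat.add (Nat.add (Nat.add C x4027) x9859) x7915) x8239) x8563) x8455) x8383) x8407) x8399) x8403) (Nat.mul x8401 (nat_lit 2))) x14961) x1841)
    (Nat.sub (Nat.sub (Nat.add (Nat.add (Nat.add (Nat.add (Nat.add (Nat.add (Nat.add (Nat.add (Nat.add C x4029) x9861) x7917) x8241) x8565) x8457) x8385) x8409) x8401) (Nat.mul x8403 (nat_lit 4))) x1843)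
    (Nat.sub (Nat.sub (Nat.sub (Nat.add (Nat.add (Nat.add (Nat.add (Nat.add (Nat.add (Nat.add (Nat.add (Nat.add C x4033) x9865) x7921) x8245) x8569) x8461) x8389) x8401) x8409) x8407) x14967) x1847)
    (Nat.sub (Nat.sub (Nat.add (Nat.add (Nat.add (Nat.add (Nat.add (Nat.add (Nat.add (Nat.add (Nat.add (Nat.add C x4035) x9867) x7923) x8247) x8571) x8463) x8391) x8403) x8415) x8407) x8409) x1849)
    (Nat.sub (Nat.add (Nat.add (Nat.add (Nat.add (Nat.add (Nat.add (Nat.add C x4041) x9873) x7929) x8253) x8577) x8469) x8409) x1855)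
    (Nat.sub (Nat.sub (Nat.add (Nat.add (Nat.add (Nat.add (Nat.add (Nat.add (Nat.add C x4055) x9887) x7943) x8591) x8375) x8435) x8431) x8429) x14989)
    (Nat.sub (Nat.sub (Nat.sub (Nat.add (Nat.add (Nat.add (Nat.add (Nat.add (Nat.add (Nat.add C x4057) x9889) x7945) x8593) x8377) x8437) x8429) (Nat.mul x8431 (nat_lit 2))) x14991) x1871)
    (Nat.sub (Nat.sub (Nat.add (Nat.add (Nat.add (Nat.add (Nat.add (Nat.add (Nat.add (Nat.add C x4061) x9893) x7949) x8597) x8381) x8453) x8429) x8437) (Nat.mul x8435 (nat_lit 3))) x14995)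
    (Nat.sub (Nat.sub (Nat.sub (Nat.add (Nat.add (Nat.add (Nat.add (Nat.add (Nat.add (Nat.add (Nat.add (Nat.add (Nat.add C x4063) x9895) x7951) x8599) x8383) x8455) x8431) x8443) x8435) x8439) (Nat.mul x8437 (nat_lit 2))) x14997) x1877)
    (Nat.sub (Nat.sub (Nat.add (Nat.add (Nat.add (Nat.add (Nat.add (Nat.add (Nat.add (Nat.add C x4065) x9897) x7953) x8601) x8385) x8457) x8445) x8437) (Nat.mul x8439 (nat_lit 3))) x1879)
    (Nat.sub (Nat.sub (Nat.sub (Nat.add (Nat.add (Nat.add (Nat.add (Nat.add (Nat.add (Nat.add (Nat.add C x4069) x9901) x7957) x8605) x8389) x8461) x8437) x8445) (Nat.mul x8443 (nat_lit 4))) x15003) x1883)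
    (Nat.sub (Nat.sub (Nat.add (Nat.add (Nat.add (Nat.add (Nat.add (Nat.add (Nat.add (Nat.add C x4071) x9903) x7959) x8607) x8391) x8463) x8439) x8443) (Nat.mul x8445 (nat_lit 3))) x1885)
    (Nat.sub (Nat.sub (Nat.add (Nat.add (Nat.add (Nat.add (Nat.add (Nat.add (Nat.add C x4079) x9911) x7967) x8615) x8399) x8435) x8455) x8453) x15013)
    (Nat.sub (Nat.sub (Nat.sub (Nat.add (Nat.add (Nat.add (Nat.add (Nat.add (Nat.add (Nat.add (Nat.add (Nat.add C x4081) x9913) x7969) x8617) x8401) x8437) x8461) x8453) x8457) x8455) x15015) x1895)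
    (Nat.sub (Nat.sub (Nat.add (Nat.add (Nat.add (Nat.add (Nat.add (Nat.add (Nat.add (Nat.add C x4083) x9915) x7971) x8619) x8403) x8439) x8463) x8455) (Nat.mul x8457 (nat_lit 3))) x1897)
    (Nat.sub (Nat.sub (Nat.sub (Nat.add (Nat.add (Nat.add (Nat.add (Nat.add (Nat.add (Nat.add (Nat.add (Nat.add C x4087) x9919) x7975) x8623) x8407) x8443) x8479) x8455) x8463) x8461) x15021) x1901)
    (Nat.sub (Nat.sub (Nat.add (Nat.add (Nat.add (Nat.add (Nat.add (Nat.add (Nat.add (Nat.add (Nat.add (Nat.add C x4089) x9921) x7977) x8625) x8409) x8445) x8481) x8457) x8469) x8461) x8463) x1903)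
    (Nat.sub (Nat.sub (Nat.add (Nat.add (Nat.add (Nat.add (Nat.add (Nat.add (Nat.add C x4095) x9927) x7983) x8631) x8415) x8487) x8463) x8469) x1909)
    (Nat.sub (Nat.sub (Nat.add (Nat.add (Nat.add (Nat.add (Nat.add (Nat.add C x4105) x9937) x7993) x8641) x8461) x8481) x15039) x1919)
    (Nat.sub (Nat.sub (Nat.add (Nat.add (Nat.add (Nat.add (Nat.add (Nat.add (Nat.add C x4107) x9939) x7995) x8643) x8463) x8487) x8479) x8481) x1921)
    (Nat.sub (Nat.add (Nat.add (Nat.add (Nat.add (Nat.add (Nat.add (Nat.add C x8487) x4113) x9945) x8001) x8649) x8469) x8481) x1927)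
    (Nat.sub (Nat.add (Nat.add (Nat.add (Nat.add (Nat.add C x8513) x4139) x9971) x8351) x8519) x15073)
    (Nat.sub (Nat.add (Nat.add (Nat.add (Nat.add (Nat.add (Nat.add (Nat.add C x4145) x9977) x8357) x8537) x8513) x8525) x8521) x15079)
    (Nat.sub (Nat.sub (Nat.add (Nat.add (Nat.add (Nat.add (Nat.add (Nat.add C x4147) x9979) x8359) x8539) x8527) x8519) x15081) x1961)
    (Nat.sub (Nat.sub (Nat.add (Nat.add (Nat.add (Nat.add (Nat.add (Nat.add C x4151) x9983) x8363) x8543) x8519) x8527) (Nat.mul x8525 (nat_lit 3))) x15085)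
    (Nat.sub (Nat.sub (Nat.sub (Nat.add (Nat.add (Nat.add (Nat.add (Nat.add (Nat.add (Nat.add C x4153) x9985) x8365) x8545) x8521) x8525) x8529) x8527) x15087) x1967)
    (Nat.sub (Nat.sub (Nat.add (Nat.add (Nat.add (Nat.add (Nat.add C x4155) x9987) x8367) x8547) x8527) x8529) x1969)
    (Nat.sub (Nat.sub (Nat.add (Nat.add (Nat.add (Nat.add (Nat.add (Nat.add (Nat.add C x4163) x9995) x8375) x8591) x8519) x8543) x8539) x8537) x15097)
    (Nat.sub (Nat.sub (Nat.sub (Nat.add (Nat.add (Nat.add (Nat.add (Nat.add (Nat.add (Nat.add C x4165) x9997) x8377) x8593) x8521) x8545) x8537) (Nat.mul x8539 (nat_lit 2))) x15099) x1979)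
    (Nat.sub (Nat.sub (Nat.add (Nat.add (Nat.add (Nat.add (Nat.add (Nat.add (Nat.add (Nat.add C x4169) x10001) x8381) x8597) x8525) x8561) x8537) x8545) (Nat.mul x8543 (nat_lit 2))) x15103)
    (Nat.sub (Nat.sub (Nat.sub (Nat.add (Nat.add (Nat.add (Nat.add (Nat.add (Nat.add (Nat.add (Nat.add (Nat.add (Nat.add C x4171) x10003) x8383) x8599) x8527) x8563) x8539) x8551) x8543) x8547) x8545) x15105) x1985)
    (Nat.sub (Nat.sub (Nat.add (Nat.add (Nat.add (Nat.add (Nat.add (Nat.add (Nat.add (Nat.add C x4173) x10005) x8385) x8601) x8529) x8565) x8553) x8545) (Nat.mul x8547 (nat_lit 2))) x1987)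
    (Nat.sub (Nat.sub (Nat.sub (Nat.add (Nat.add (Nat.add (Nat.add (Nat.add (Nat.add (Nat.add C x4177) x10009) x8389) x8605) x8569) x8545) x8553) (Nat.mul x8551 (nat_lit 2))) x15111) x1991)
    (Nat.sub (Nat.sub (Nat.add (Nat.add (Nat.add (Nat.add (Nat.add (Nat.add (Nat.add C x4179) x10011) x8391) x8607) x8571) x8547) x8551) x8553) x1993)
    (Nat.sub (Nat.sub (Nat.add (Nat.add (Nat.add (Nat.add (Nat.add (Nat.add C x4187) x10019) x8399) x8615) x8543) x8563) (Nat.mul x8561 (nat_lit 3))) x15121)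
    (Nat.sub (Nat.sub (Nat.sub (Nat.add (Nat.add (Nat.add (Nat.add (Nat.add (Nat.add (Nat.add (Nat.add C x4189) x10021) x8401) x8617) x8545) x8569) x8561) x8565) (Nat.mul x8563 (nat_lit 3))) x15123) x2003)
    (Nat.sub (Nat.sub (Nat.add (Nat.add (Nat.add (Nat.add (Nat.add (Nat.add (Nat.add C x4191) x10023) x8403) x8619) x8547) x8571) x8563) (Nat.mul x8565 (nat_lit 5))) x2005)
    (Nat.sub (Nat.sub (Nat.sub (Nat.add (Nat.add (Nat.add (Nat.add (Nat.add (Nat.add (Nat.add C x4195) x10027) x8407) x8623) x8551) x8563) x8571) (Nat.mul x8569 (nat_lit 2))) x15129) x2009)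
    (Nat.sub (Nat.sub (Nat.add (Nat.add (Nat.add (Nat.add (Nat.add (Nat.add (Nat.add (Nat.add C x4197) x10029) x8409) x8625) x8553) x8565) x8577) x8569) (Nat.mul x8571 (nat_lit 2))) x2011)
    (Nat.sub (Nat.sub (Nat.add (Nat.add (Nat.add (Nat.add (Nat.add C x4203) x10035) x8415) x8631) x8571) x8577) x2017)
    (Nat.sub (Nat.add (Nat.add (Nat.add (Nat.add (Nat.add (Nat.add (Nat.add C x8591) x4217) x10049) x8429) x8537) x8597) x8593) x15151)
    (Nat.sub (Nat.sub (Nat.add (Nat.add (Nat.add (Nat.add (Nat.add (Nat.add C x4219) x10051) x8431) x8539) x8599) x8591) x15153) x2033)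
    (Nat.sub (Nat.sub (Nat.add (Nat.add (Nat.add (Nat.add (Nat.add (Nat.add (Nat.add C x4223) x10055) x8435) x8543) x8615) x8591) x8599) x8597) x15157)
    (Nat.sub (Nat.sub (Nat.add (Nat.add (Nat.add (Nat.add (Nat.add (Nat.add (Nat.add (Nat.add (Nat.add C x4225) x10057) x8437) x8545) x8617) x8593) x8605) x8597) x8601) x15159) x2039)
    (Nat.sub (Nat.sub (Nat.add (Nat.add (Nat.add (Nat.add (Nat.add (Nat.add (Nat.add C x4227) x10059) x8439) x8547) x8619) x8607) x8599) x8601) x2041)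
    (Nat.sub (Nat.sub (Nat.sub (Nat.add (Nat.add (Nat.add (Nat.add (Nat.add (Nat.add (Nat.add C x4231) x10063) x8443) x8551) x8623) x8599) x8607) (Nat.mul x8605 (nat_lit 2))) x15165) x2045)
    (Nat.sub (Nat.sub (Nat.add (Nat.add (Nat.add (Nat.add (Nat.add (Nat.add (Nat.add C x4233) x10065) x8445) x8553) x8625) x8601) x8605) x8607) x2047)
    (Nat.sub (Nat.add (Nat.add (Nat.add (Nat.add (Nat.add (Nat.add (Nat.add C x4241) x10073) x8453) x8561) x8669) x8597) x8617) x15175)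
    (Nat.sub (Nat.sub (Nat.add (Nat.add (Nat.add (Nat.add (Nat.add (Nat.add (Nat.add (Nat.add (Nat.add C x4243) x10075) x8455) x8563) x8671) x8599) x8623) x8615) x8619) x15177) x2057)
    (Nat.sub (Nat.sub (Nat.add (Nat.add (Nat.add (Nat.add (Nat.add (Nat.add (Nat.add (Nat.add C x4245) x10077) x8457) x8565) x8673) x8601) x8625) x8617) (Nat.mul x8619 (nat_lit 2))) x2059)
    (Nat.sub (Nat.sub (Nat.add (Nat.add (Nat.add (Nat.add (Nat.add (Nat.add (Nat.add (Nat.add (Nat.add C x4249) x10081) x8461) x8569) x8677) x8605) x8641) x8617) x8625) x15183) x2063)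
    (Nat.sub (Nat.add (Nat.add (Nat.add (Nat.add (Nat.add (Nat.add (Nat.add (Nat.add (Nat.add (Nat.add C x4251) x10083) x8463) x8571) x8679) x8607) x8643) x8619) x8631) x8623) x2065)
    (Nat.sub (Nat.add (Nat.add (Nat.add (Nat.add (Nat.add (Nat.add (Nat.add C x4257) x10089) x8469) x8577) x8685) x8649) x8625) x2071)
    (Nat.sub (Nat.sub (Nat.add (Nat.add (Nat.add (Nat.add (Nat.add (Nat.add C x4267) x10099) x8479) x8695) x8623) x8643) x15201) x2081)
    (Nat.sub (Nat.sub (Nat.add (Nat.add (Nat.add (Nat.add (Nat.add (Nat.add (Nat.add C x4269) x10101) x8481) x8697) x8625) x8649) x8641) x8643) x2083)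
    (Nat.sub (Nat.add (Nat.add (Nat.add (Nat.add (Nat.add (Nat.add (Nat.add C x8649) x4275) x10107) x8487) x8703) x8631) x8643) x2089)
    (Nat.sub (Nat.add (Nat.add (Nat.add (Nat.add (Nat.add C x8669) x4295) x10127) x8615) x8671) x15229)
    (Nat.sub (Nat.sub (Nat.add (Nat.add (Nat.add (Nat.add (Nat.add (Nat.add (Nat.add C x8671) x4297) x10129) x8617) x8677) x8669) x8673) x15231) x2111)
    (Nat.sub (Nat.sub (Nat.add (Nat.add (Nat.add (Nat.add (Nat.add C x4299) x10131) x8619) x8679) x8671) x8673) x2113)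
    (Nat.sub (Nat.sub (Nat.add (Nat.add (Nat.add (Nat.add (Nat.add (Nat.add C x4303) x10135) x8623) x8695) x8671) x8679) x15237) x2117)
    (Nat.sub (Nat.add (Nat.add (Nat.add (Nat.add (Nat.add (Nat.add (Nat.add C x4305) x10137) x8625) x8697) x8673) x8685) x8677) x2119)
    (Nat.sub (Nat.sub (Nat.add (Nat.add (Nat.add (Nat.add (Nat.add C x4311) x10143) x8631) x8703) x8679) x8685) x2125)
    (Nat.sub (Nat.sub (Nat.add (Nat.add (Nat.add (Nat.add (Nat.add (Nat.add C (Nat.mul x8695 (nat_lit 2))) x4321) x10153) x8641) x8677) x8697) x15255) x2135)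
    (Nat.sub (Nat.add (Nat.add (Nat.add (Nat.add (Nat.add (Nat.add (Nat.add C x8697) x4323) x10155) x8643) x8679) x8703) x8695) x2137)
    (Nat.sub (Nat.add (Nat.add (Nat.add (Nat.add (Nat.add (Nat.add (Nat.add C (Nat.mul x8703 (nat_lit 2))) x4329) x10161) x8649) x8685) x8721) x8697) x2143)
    (Nat.sub (Nat.add (Nat.add (Nat.add (Nat.add C (Nat.mul x8721 (nat_lit 3))) x4347) x10179) x8703) x2161)
    (Nat.sub (Nat.add (Nat.add (Nat.add (Nat.add (Nat.add (Nat.add C (Nat.mul x8801 (nat_lit 4))) x4427) x13175) x7343) x8855) x8819) x15361)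
    (Nat.sub (Nat.add (Nat.add (Nat.add (Nat.add (Nat.add (Nat.add (Nat.add C (Nat.mul x8819 (nat_lit 2))) x4445) x13193) x7361) x8873) x8801) x8825) x15379)
    (Nat.sub (Nat.add (Nat.add (Nat.add (Nat.add (Nat.add (Nat.add (Nat.add C (Nat.mul x8825 (nat_lit 2))) x4451) x13199) x7367) x8879) x8819) x8827) x15385)
    (Nat.sub (Nat.sub (Nat.add (Nat.add (Nat.add (Nat.add (Nat.add (Nat.add C (Nat.mul x8827 (nat_lit 3))) x4453) x13201) x7369) x8881) x8825) x15387) x2267)
    (Nat.sub (Nat.add (Nat.add (Nat.add (Nat.add (Nat.add (Nat.add (Nat.add C (Nat.mul x8855 (nat_lit 2))) x4481) x13229) x7397) x9017) x8801) x8873) x15415)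
    (Nat.sub (Nat.add (Nat.add (Nat.add (Nat.add (Nat.add (Nat.add (Nat.add (Nat.add (Nat.add (Nat.add C (Nat.mul x8873 (nat_lit 2))) x4499) x13247) x7415) x9035) x8819) x8927) x8855) x8891) x8879) x15433)
    (Nat.sub (Nat.add (Nat.add (Nat.add (Nat.add (Nat.add (Nat.add (Nat.add (Nat.add (Nat.add (Nat.add C x8879) x4505) x13253) x7421) x9041) x8825) x8933) x8897) x8873) x8881) x15439)
    (Nat.sub (Nat.sub (Nat.add (Nat.add (Nat.add (Nat.add (Nat.add (Nat.add (Nat.add (Nat.add (Nat.add C (Nat.mul x8881 (nat_lit 2))) x4507) x13255) x7423) x9043) x8827) x8935) x8899) x8879) x15441) x2321)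
    (Nat.sub (Nat.add (Nat.add (Nat.add (Nat.add (Nat.add (Nat.add (Nat.add C x4517) x13265) x7433) x9053) x8945) x8873) x8897) x15451)
    (Nat.sub (Nat.add (Nat.add (Nat.add (Nat.add (Nat.add (Nat.add (Nat.add (Nat.add (Nat.add (Nat.add C x8897) x4523) x13271) x7439) x9059) x8951) x8879) x8891) x8903) x8899) x15457)
    (Nat.sub (Nat.sub (Nat.add (Nat.add (Nat.add (Nat.add (Nat.add (Nat.add (Nat.add (Nat.add (Nat.add C x8899) x4525) x13273) x7441) x9061) x8953) x8881) x8905) x8897) x15459) x2339)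
    (Nat.sub (Nat.add (Nat.add (Nat.add (Nat.add (Nat.add (Nat.add (Nat.add C x4529) x13277) x7445) x9065) x8957) x8897) x8905) x15463)
    (Nat.sub (Nat.sub (Nat.add (Nat.add (Nat.add (Nat.add (Nat.add (Nat.add (Nat.add (Nat.add (Nat.add C (Nat.mul x8905 (nat_lit 2))) x4531) x13279) x7447) x9067) x8959) x8899) x8903) x8907) x15465) x2345)
    (Nat.sub (Nat.add (Nat.add (Nat.add (Nat.add (Nat.add (Nat.add (Nat.add C (Nat.mul x8907 (nat_lit 2))) x4533) x13281) x7449) x9069) x8961) x8905) x2347)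
    (Nat.sub (Nat.add (Nat.add (Nat.add (Nat.add (Nat.add (Nat.add (Nat.add C x4553) x13301) x7469) x9089) x8873) x8945) x8933) x15487)
    (Nat.sub (Nat.sub (Nat.add (Nat.add (Nat.add (Nat.add (Nat.add (Nat.add (Nat.add (Nat.add C x4559) x13307) x7475) x9095) x8879) x8951) x8927) x8935) (Nat.mul x8933 (nat_lit 2))) x15493)
    (Nat.sub (Nat.sub (Nat.sub (Nat.add (Nat.add (Nat.add (Nat.add (Nat.add (Nat.add (Nat.add C x4561) x13309) x7477) x9097) x8881) x8953) x8933) x8935) x15495) x2375)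
    (Nat.sub (Nat.add (Nat.add (Nat.add (Nat.add (Nat.add (Nat.add (Nat.add C x4571) x13319) x7487) x9107) x8891) x8927) x8951) x15505)
    (Nat.sub (Nat.add (Nat.add (Nat.add (Nat.add (Nat.add (Nat.add (Nat.add (Nat.add (Nat.add (Nat.add C x4577) x13325) x7493) x9113) x8897) x8933) x8969) x8945) x8957) x8953) x15511)
    (Nat.sub (Nat.sub (Nat.add (Nat.add (Nat.add (Nat.add (Nat.add (Nat.add (Nat.add (Nat.add (Nat.add C x4579) x13327) x7495) x9115) x8899) x8935) x8971) x8959) x8951) x15513) x2393)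
    (Nat.sub (Nat.sub (Nat.add (Nat.add (Nat.add (Nat.add (Nat.add (Nat.add (Nat.add (Nat.add C x4583) x13331) x7499) x9119) x8903) x8975) x8951) x8959) (Nat.mul x8957 (nat_lit 2))) x15517)
    (Nat.sub (Nat.sub (Nat.add (Nat.add (Nat.add (Nat.add (Nat.add (Nat.add (Nat.add (Nat.add (Nat.add C x4585) x13333) x7501) x9121) x8905) x8977) x8953) x8957) x8961) x15519) x2399)
    (Nat.sub (Nat.add (Nat.add (Nat.add (Nat.add (Nat.add (Nat.add (Nat.add C x4587) x13335) x7503) x9123) x8907) x8979) x8959) x2401)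
    (Nat.sub (Nat.add (Nat.add (Nat.add (Nat.add (Nat.add (Nat.add (Nat.add C x4595) x13343) x7511) x9131) x8951) x8975) x8971) x15529)
    (Nat.sub (Nat.sub (Nat.sub (Nat.add (Nat.add (Nat.add (Nat.add (Nat.add (Nat.add (Nat.add C x4597) x13345) x7513) x9133) x8953) x8977) x8969) x8971) x15531) x2411)
    (Nat.sub (Nat.add (Nat.add (Nat.add (Nat.add (Nat.add (Nat.add (Nat.add C x4601) x13349) x7517) x9137) x8957) x8969) x8977) x15535)
    (Nat.sub (Nat.sub (Nat.add (Nat.add (Nat.add (Nat.add (Nat.add (Nat.add (Nat.add (Nat.add (Nat.add (Nat.add C x8977) x4603) x13351) x7519) x9139) x8959) x8971) x8983) x8975) x8979) x15537) x2417)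
    (Nat.sub (Nat.add (Nat.add (Nat.add (Nat.add (Nat.add (Nat.add (Nat.add C x4605) x13353) x7521) x9141) x8961) x8985) x8977) x2419)
    (Nat.sub (Nat.sub (Nat.add (Nat.add (Nat.add (Nat.add (Nat.add (Nat.add (Nat.add C x8983) x4609) x13357) x7525) x9145) x8977) x8985) x15543) x2423)
    (Nat.sub (Nat.add (Nat.add (Nat.add (Nat.add (Nat.add (Nat.add (Nat.add C (Nat.mul x8985 (nat_lit 2))) x4611) x13359) x7527) x9147) x8979) x8983) x2425)
    (Nat.sub (Nat.add (Nat.add (Nat.add (Nat.add (Nat.add (Nat.add (Nat.add C (Nat.mul x9017 (nat_lit 2))) x4643) x13391) x7559) x9503) x8855) x9035) x15577)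
    (Nat.sub (Nat.add (Nat.add (Nat.add (Nat.add (Nat.add (Nat.add (Nat.add (Nat.add (Nat.add (Nat.add C x9035) x4661) x13409) x7577) x9521) x8873) x9089) x9017) x9053) x9041) x15595)
    (Nat.sub (Nat.add (Nat.add (Nat.add (Nat.add (Nat.add (Nat.add (Nat.add (Nat.add (Nat.add C x4667) x13415) x7583) x9527) x8879) x9095) x9059) x9035) x9043) x15601)
    (Nat.sub (Nat.sub (Nat.add (Nat.add (Nat.add (Nat.add (Nat.add (Nat.add (Nat.add (Nat.add (Nat.add C x9043) x4669) x13417) x7585) x9529) x8881) x9097) x9061) x9041) x15603) x2483)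
    (Nat.sub (Nat.sub (Nat.add (Nat.add (Nat.add (Nat.add (Nat.add (Nat.add (Nat.add (Nat.add C x4679) x13427) x7595) x9539) x8891) x9107) x9035) x9059) (Nat.mul x9053 (nat_lit 2))) x15613)
    (Nat.sub (Nat.sub (Nat.add (Nat.add (Nat.add (Nat.add (Nat.add (Nat.add (Nat.add (Nat.add (Nat.add (Nat.add C x4685) x13433) x7601) x9545) x8897) x9113) x9041) x9053) x9065) x9061) x9059) x15619)
    (Nat.sub (Nat.sub (Nat.sub (Nat.add (Nat.add (Nat.add (Nat.add (Nat.add (Nat.add (Nat.add (Nat.add (Nat.add C x4687) x13435) x7603) x9547) x8899) x9115) x9043) x9067) x9059) x9061) x15621) x2501)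
    (Nat.sub (Nat.sub (Nat.add (Nat.add (Nat.add (Nat.add (Nat.add (Nat.add (Nat.add (Nat.add C x4691) x13439) x7607) x9551) x8903) x9119) x9059) x9067) (Nat.mul x9065 (nat_lit 2))) x15625)
    (Nat.sub (Nat.sub (Nat.add (Nat.add (Nat.add (Nat.add (Nat.add (Nat.add (Nat.add (Nat.add (Nat.add C x4693) x13441) x7609) x9553) x8905) x9121) x9061) x9065) x9069) x15627) x2507)
    (Nat.sub (Nat.add (Nat.add (Nat.add (Nat.add (Nat.add (Nat.add (Nat.add C x4695) x13443) x7611) x9555) x8907) x9123) x9067) x2509)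
    (Nat.sub (Nat.add (Nat.add (Nat.add (Nat.add (Nat.add (Nat.add (Nat.add (Nat.add (Nat.add (Nat.add C x9089) x4715) x13463) x7631) x9575) x8927) x9251) x9035) x9107) x9095) x15649)
    (Nat.sub (Nat.sub (Nat.add (Nat.add (Nat.add (Nat.add (Nat.add (Nat.add (Nat.add (Nat.add (Nat.add (Nat.add C x4721) x13469) x7637) x9581) x8933) x9257) x9041) x9113) x9089) x9097) x9095) x15655)
    (Nat.sub (Nat.sub (Nat.add (Nat.add (Nat.add (Nat.add (Nat.add (Nat.add (Nat.add (Nat.add (Nat.add C x4723) x13471) x7639) x9583) x8935) x9259) x9043) x9115) x9095) x15657) x2537)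
    (Nat.sub (Nat.add (Nat.add (Nat.add (Nat.add (Nat.add (Nat.add (Nat.add (Nat.add (Nat.add (Nat.add C x4733) x13481) x7649) x9593) x8945) x9269) x9053) x9161) x9089) x9113) x15667)
    (Nat.sub (Nat.add (Nat.add (Nat.add (Nat.add (Nat.add (Nat.add (Nat.add (Nat.add (Nat.add (Nat.add (Nat.add (Nat.add (Nat.add C x4739) x13487) x7655) x9599) x8951) x9275) x9059) x9167) x9095) x9131) x9107) x9119) x9115) x15673)
    (Nat.sub (Nat.sub (Nat.add (Nat.add (Nat.add (Nat.add (Nat.add (Nat.add (Nat.add (Nat.add (Nat.add (Nat.add (Nat.add (Nat.add C x4741) x13489) x7657) x9601) x8953) x9277) x9061) x9169) x9097) x9133) x9121) x9113) x15675) x2555)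
    (Nat.sub (Nat.sub (Nat.add (Nat.add (Nat.add (Nat.add (Nat.add (Nat.add (Nat.add (Nat.add (Nat.add (Nat.add (Nat.add C x4745) x13493) x7661) x9605) x8957) x9281) x9065) x9173) x9137) x9113) x9121) (Nat.mul x9119 (nat_lit 2))) x15679)
    (Nat.sub (Nat.sub (Nat.add (Nat.add (Nat.add (Nat.add (Nat.add (Nat.add (Nat.add (Nat.add (Nat.add (Nat.add (Nat.add (Nat.add C x4747) x13495) x7663) x9607) x8959) x9283) x9067) x9175) x9139) x9115) x9119) x9123) x15681) x2561)
    (Nat.sub (Nat.add (Nat.add (Nat.add (Nat.add (Nat.add (Nat.add (Nat.add (Nat.add (Nat.add (Nat.add C x4749) x13497) x7665) x9609) x8961) x9285) x9069) x9177) x9141) x9121) x2563)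
    (Nat.sub (Nat.sub (Nat.add (Nat.add (Nat.add (Nat.add (Nat.add (Nat.add (Nat.add (Nat.add (Nat.add (Nat.add C x4757) x13505) x7673) x9617) x8969) x9293) x9185) x9113) x9137) x9133) x9131) x15691)
    (Nat.sub (Nat.sub (Nat.sub (Nat.add (Nat.add (Nat.add (Nat.add (Nat.add (Nat.add (Nat.add (Nat.add (Nat.add (Nat.add C x4759) x13507) x7675) x9619) x8971) x9295) x9187) x9115) x9139) x9131) (Nat.mul x9133 (nat_lit 2))) x15693) x2573)
    (Nat.sub (Nat.sub (Nat.add (Nat.add (Nat.add (Nat.add (Nat.add (Nat.add (Nat.add (Nat.add (Nat.add (Nat.add C x4763) x13511) x7679) x9623) x8975) x9299) x9191) x9119) x9131) x9139) x9137) x15697)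
    (Nat.sub (Nat.sub (Nat.add (Nat.add (Nat.add (Nat.add (Nat.add (Nat.add (Nat.add (Nat.add (Nat.add (Nat.add (Nat.add (Nat.add C x4765) x13513) x7681) x9625) x8977) x9301) x9193) x9121) x9133) x9145) x9137) x9141) x15699) x2579)
    (Nat.sub (Nat.sub (Nat.add (Nat.add (Nat.add (Nat.add (Nat.add (Nat.add (Nat.add (Nat.add (Nat.add (Nat.add C x4767) x13515) x7683) x9627) x8979) x9303) x9195) x9123) x9147) x9139) x9141) x2581)
    (Nat.sub (Nat.sub (Nat.add (Nat.add (Nat.add (Nat.add (Nat.add (Nat.add (Nat.add (Nat.add (Nat.add C x4771) x13519) x7687) x9631) x8983) x9307) x9199) x9139) x9147) x15705) x2585)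
    (Nat.sub (Nat.add (Nat.add (Nat.add (Nat.add (Nat.add (Nat.add (Nat.add (Nat.add (Nat.add (Nat.add C x9147) x4773) x13521) x7689) x9633) x8985) x9309) x9201) x9141) x9145) x2587)
    (Nat.sub (Nat.add (Nat.add (Nat.add (Nat.add (Nat.add (Nat.add (Nat.add C x4787) x13535) x7703) x9647) x9323) x9107) x9167) x15721)
    (Nat.sub (Nat.sub (Nat.add (Nat.add (Nat.add (Nat.add (Nat.add (Nat.add (Nat.add (Nat.add (Nat.add (Nat.add C x4793) x13541) x7709) x9653) x9329) x9113) x9185) x9161) x9173) x9169) x9167) x15727)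
    (Nat.sub (Nat.sub (Nat.sub (Nat.add (Nat.add (Nat.add (Nat.add (Nat.add (Nat.add (Nat.add (Nat.add (Nat.add C x4795) x13543) x7711) x9655) x9331) x9115) x9187) x9175) x9167) x9169) x15729) x2609)
    (Nat.sub (Nat.sub (Nat.add (Nat.add (Nat.add (Nat.add (Nat.add (Nat.add (Nat.add (Nat.add (Nat.add C x4799) x13547) x7715) x9659) x9335) x9119) x9191) x9167) x9175) (Nat.mul x9173 (nat_lit 4))) x15733)
    (Nat.sub (Nat.sub (Nat.sub (Nat.add (Nat.add (Nat.add (Nat.add (Nat.add (Nat.add (Nat.add (Nat.add (Nat.add (Nat.add C x4801) x13549) x7717) x9661) x9337) x9121) x9193) x9169) x9173) x9177) (Nat.mul x9175 (nat_lit 2))) x15735) x2615)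
    (Nat.sub (Nat.sub (Nat.add (Nat.add (Nat.add (Nat.add (Nat.add (Nat.add (Nat.add (Nat.add C x4803) x13551) x7719) x9663) x9339) x9123) x9195) x9175) (Nat.mul x9177 (nat_lit 2))) x2617)
    (Nat.sub (Nat.add (Nat.add (Nat.add (Nat.add (Nat.add (Nat.add (Nat.add (Nat.add (Nat.add C x4811) x13559) x7727) x9671) x9347) x9131) x9167) x9191) x9187) x15745)
    (Nat.sub (Nat.sub (Nat.sub (Nat.add (Nat.add (Nat.add (Nat.add (Nat.add (Nat.add (Nat.add (Nat.add (Nat.add C x4813) x13561) x7729) x9673) x9349) x9133) x9169) x9193) x9185) x9187) x15747) x2627)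
    (Nat.sub (Nat.sub (Nat.add (Nat.add (Nat.add (Nat.add (Nat.add (Nat.add (Nat.add (Nat.add (Nat.add (Nat.add C x4817) x13565) x7733) x9677) x9353) x9137) x9173) x9209) x9185) x9193) x9191) x15751)
    (Nat.sub (Nat.sub (Nat.add (Nat.add (Nat.add (Nat.add (Nat.add (Nat.add (Nat.add (Nat.add (Nat.add (Nat.add (Nat.add (Nat.add C x4819) x13567) x7735) x9679) x9355) x9139) x9175) x9211) x9187) x9199) x9191) x9195) x15753) x2633)
    (Nat.sub (Nat.sub (Nat.add (Nat.add (Nat.add (Nat.add (Nat.add (Nat.add (Nat.add (Nat.add (Nat.add (Nat.add C x4821) x13569) x7737) x9681) x9357) x9141) x9177) x9213) x9201) x9193) x9195) x2635)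
    (Nat.sub (Nat.sub (Nat.sub (Nat.add (Nat.add (Nat.add (Nat.add (Nat.add (Nat.add (Nat.add (Nat.add (Nat.add C x4825) x13573) x7741) x9685) x9361) x9145) x9217) x9193) x9201) x9199) x15759) x2639)
    (Nat.sub (Nat.add (Nat.add (Nat.add (Nat.add (Nat.add (Nat.add (Nat.add (Nat.add (Nat.add C x4827) x13575) x7743) x9687) x9363) x9147) x9219) x9195) x9199) x2641)
    (Nat.sub (Nat.add (Nat.add (Nat.add (Nat.add (Nat.add (Nat.add (Nat.add C x4835) x13583) x7751) x9695) x9371) x9191) x9211) x15769)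
    (Nat.sub (Nat.sub (Nat.add (Nat.add (Nat.add (Nat.add (Nat.add (Nat.add (Nat.add (Nat.add (Nat.add C x4837) x13585) x7753) x9697) x9373) x9193) x9217) x9209) x9213) x15771) x2651)
    (Nat.sub (Nat.sub (Nat.add (Nat.add (Nat.add (Nat.add (Nat.add (Nat.add (Nat.add (Nat.add C x4839) x13587) x7755) x9699) x9375) x9195) x9219) x9211) (Nat.mul x9213 (nat_lit 2))) x2653)
    (Nat.sub (Nat.sub (Nat.add (Nat.add (Nat.add (Nat.add (Nat.add (Nat.add (Nat.add (Nat.add (Nat.add C x9217) x4843) x13591) x7759) x9703) x9379) x9199) x9211) x9219) x15777) x2657)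
    (Nat.sub (Nat.add (Nat.add (Nat.add (Nat.add (Nat.add (Nat.add (Nat.add (Nat.add (Nat.add (Nat.add C x9219) x4845) x13593) x7761) x9705) x9381) x9201) x9213) x9225) x9217) x2659)
    (Nat.sub (Nat.add (Nat.add (Nat.add (Nat.add (Nat.add (Nat.add (Nat.add C (Nat.mul x9225 (nat_lit 2))) x4851) x13599) x7767) x9711) x9387) x9219) x2665)
    (Nat.sub (Nat.add (Nat.add (Nat.add (Nat.add (Nat.add (Nat.add (Nat.add C x4877) x13625) x7793) x9737) x9089) x9269) x9257) x15811)
    (Nat.sub (Nat.sub (Nat.add (Nat.add (Nat.add (Nat.add (Nat.add (Nat.add (Nat.add (Nat.add C x4883) x13631) x7799) x9743) x9095) x9275) x9251) x9259) (Nat.mul x9257 (nat_lit 2))) x15817)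
    (Nat.sub (Nat.sub (Nat.sub (Nat.add (Nat.add (Nat.add (Nat.add (Nat.add (Nat.add (Nat.add C x4885) x13633) x7801) x9745) x9097) x9277) x9257) x9259) x15819) x2699)
    (Nat.sub (Nat.sub (Nat.add (Nat.add (Nat.add (Nat.add (Nat.add (Nat.add (Nat.add (Nat.add C x4895) x13643) x7811) x9755) x9107) x9323) x9251) x9275) (Nat.mul x9269 (nat_lit 2))) x15829)
    (Nat.sub (Nat.sub (Nat.add (Nat.add (Nat.add (Nat.add (Nat.add (Nat.add (Nat.add (Nat.add (Nat.add (Nat.add (Nat.add C x4901) x13649) x7817) x9761) x9113) x9329) x9257) x9293) x9269) x9281) x9277) (Nat.mul x9275 (nat_lit 2))) x15835)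
    (Nat.sub (Nat.sub (Nat.sub (Nat.add (Nat.add (Nat.add (Nat.add (Nat.add (Nat.add (Nat.add (Nat.add (Nat.add (Nat.add C x4903) x13651) x7819) x9763) x9115) x9331) x9259) x9295) x9283) x9275) (Nat.mul x9277 (nat_lit 2))) x15837) x2717)
    (Nat.sub (Nat.sub (Nat.add (Nat.add (Nat.add (Nat.add (Nat.add (Nat.add (Nat.add (Nat.add (Nat.add C x4907) x13655) x7823) x9767) x9119) x9335) x9299) x9275) x9283) (Nat.mul x9281 (nat_lit 4))) x15841)
    (Nat.sub (Nat.sub (Nat.sub (Nat.add (Nat.add (Nat.add (Nat.add (Nat.add (Nat.add (Nat.add (Nat.add (Nat.add (Nat.add C x4909) x13657) x7825) x9769) x9121) x9337) x9301) x9277) x9281) x9285) (Nat.mul x9283 (nat_lit 2))) x15843) x2723)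
    (Nat.sub (Nat.sub (Nat.add (Nat.add (Nat.add (Nat.add (Nat.add (Nat.add (Nat.add (Nat.add C x4911) x13659) x7827) x9771) x9123) x9339) x9303) x9283) (Nat.mul x9285 (nat_lit 2))) x2725)
    (Nat.sub (Nat.sub (Nat.add (Nat.add (Nat.add (Nat.add (Nat.add (Nat.add (Nat.add (Nat.add (Nat.add C x4919) x13667) x7835) x9779) x9131) x9347) x9275) x9299) x9295) (Nat.mul x9293 (nat_lit 4))) x15853)
    (Nat.sub (Nat.sub (Nat.sub (Nat.add (Nat.add (Nat.add (Nat.add (Nat.add (Nat.add (Nat.add (Nat.add (Nat.add C x4921) x13669) x7837) x9781) x9133) x9349) x9277) x9301) x9293) (Nat.mul x9295 (nat_lit 5))) x15855) x2735)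
    (Nat.sub (Nat.sub (Nat.add (Nat.add (Nat.add (Nat.add (Nat.add (Nat.add (Nat.add (Nat.add (Nat.add C x4925) x13673) x7841) x9785) x9137) x9353) x9281) x9293) x9301) (Nat.mul x9299 (nat_lit 4))) x15859)
    (Nat.sub (Nat.sub (Nat.sub (Nat.add (Nat.add (Nat.add (Nat.add (Nat.add (Nat.add (Nat.add (Nat.add (Nat.add (Nat.add (Nat.add C x4927) x13675) x7843) x9787) x9139) x9355) x9283) x9295) x9307) x9299) x9303) (Nat.mul x9301 (nat_lit 3))) x15861) x2741)
    (Nat.sub (Nat.sub (Nat.add (Nat.add (Nat.add (Nat.add (Nat.add (Nat.add (Nat.add (Nat.add (Nat.add C x4929) x13677) x7845) x9789) x9141) x9357) x9285) x9309) x9301) (Nat.mul x9303 (nat_lit 4))) x2743)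
    (Nat.sub (Nat.sub (Nat.sub (Nat.add (Nat.add (Nat.add (Nat.add (Nat.add (Nat.add (Nat.add (Nat.add C x4933) x13681) x7849) x9793) x9145) x9361) x9301) x9309) (Nat.mul x9307 (nat_lit 3))) x15867) x2747)
    (Nat.sub (Nat.sub (Nat.add (Nat.add (Nat.add (Nat.add (Nat.add (Nat.add (Nat.add (Nat.add C x4935) x13683) x7851) x9795) x9147) x9363) x9303) x9307) (Nat.mul x9309 (nat_lit 2))) x2749)
    (Nat.sub (Nat.add (Nat.add (Nat.add (Nat.add (Nat.add (Nat.add (Nat.add C x4949) x13697) x7865) x9809) x9161) x9269) x9329) x15883)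
    (Nat.sub (Nat.sub (Nat.add (Nat.add (Nat.add (Nat.add (Nat.add (Nat.add (Nat.add (Nat.add (Nat.add (Nat.add C x4955) x13703) x7871) x9815) x9167) x9275) x9347) x9323) x9335) x9331) x9329) x15889)
    (Nat.sub (Nat.sub (Nat.sub (Nat.add (Nat.add (Nat.add (Nat.add (Nat.add (Nat.add (Nat.add (Nat.add (Nat.add C x4957) x13705) x7873) x9817) x9169) x9277) x9349) x9337) x9329) x9331) x15891) x2771)
    (Nat.sub (Nat.sub (Nat.add (Nat.add (Nat.add (Nat.add (Nat.add (Nat.add (Nat.add (Nat.add (Nat.add C x4961) x13709) x7877) x9821) x9173) x9281) x9353) x9329) x9337) (Nat.mul x9335 (nat_lit 4))) x15895)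
    (Nat.sub (Nat.sub (Nat.sub (Nat.add (Nat.add (Nat.add (Nat.add (Nat.add (Nat.add (Nat.add (Nat.add (Nat.add (Nat.add C x4963) x13711) x7879) x9823) x9175) x9283) x9355) x9331) x9335) x9339) (Nat.mul x9337 (nat_lit 2))) x15897) x2777)
    (Nat.sub (Nat.sub (Nat.add (Nat.add (Nat.add (Nat.add (Nat.add (Nat.add (Nat.add (Nat.add C x4965) x13713) x7881) x9825) x9177) x9285) x9357) x9337) (Nat.mul x9339 (nat_lit 2))) x2779)
    (Nat.sub (Nat.sub (Nat.add (Nat.add (Nat.add (Nat.add (Nat.add (Nat.add (Nat.add (Nat.add (Nat.add (Nat.add C x4973) x13721) x7889) x9833) x9185) x9293) x9401) x9329) x9353) x9349) x9347) x15907)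
    (Nat.sub (Nat.sub (Nat.sub (Nat.add (Nat.add (Nat.add (Nat.add (Nat.add (Nat.add (Nat.add (Nat.add (Nat.add (Nat.add C x4975) x13723) x7891) x9835) x9187) x9295) x9403) x9331) x9355) x9347) (Nat.mul x9349 (nat_lit 2))) x15909) x2789)
    (Nat.sub (Nat.sub (Nat.add (Nat.add (Nat.add (Nat.add (Nat.add (Nat.add (Nat.add (Nat.add (Nat.add (Nat.add (Nat.add C x4979) x13727) x7895) x9839) x9191) x9299) x9407) x9335) x9371) x9347) x9355) (Nat.mul x9353 (nat_lit 2))) x15913)
    (Nat.sub (Nat.sub (Nat.sub (Nat.add (Nat.add (Nat.add (Nat.add (Nat.add (Nat.add (Nat.add (Nat.add (Nat.add (Nat.add (Nat.add (Nat.add (Nat.add C x4981) x13729) x7897) x9841) x9193) x9301) x9409) x9337) x9373) x9349) x9361) x9353) x9357) x9355) x15915) x2795)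
    (Nat.sub (Nat.sub (Nat.add (Nat.add (Nat.add (Nat.add (Nat.add (Nat.add (Nat.add (Nat.add (Nat.add (Nat.add (Nat.add C x4983) x13731) x7899) x9843) x9195) x9303) x9411) x9339) x9375) x9363) x9355) (Nat.mul x9357 (nat_lit 2))) x2797)
    (Nat.sub (Nat.sub (Nat.sub (Nat.add (Nat.add (Nat.add (Nat.add (Nat.add (Nat.add (Nat.add (Nat.add (Nat.add (Nat.add C x4987) x13735) x7903) x9847) x9199) x9307) x9415) x9379) x9355) x9363) (Nat.mul x9361 (nat_lit 2))) x15921) x2801)
    (Nat.sub (Nat.sub (Nat.add (Nat.add (Nat.add (Nat.add (Nat.add (Nat.add (Nat.add (Nat.add (Nat.add (Nat.add C x4989) x13737) x7905) x9849) x9201) x9309) x9417) x9381) x9357) x9361) x9363) x2803)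
    (Nat.sub (Nat.sub (Nat.add (Nat.add (Nat.add (Nat.add (Nat.add (Nat.add (Nat.add (Nat.add C x4997) x13745) x7913) x9857) x9209) x9425) x9353) x9373) (Nat.mul x9371 (nat_lit 2))) x15931)
    (Nat.sub (Nat.sub (Nat.sub (Nat.add (Nat.add (Nat.add (Nat.add (Nat.add (Nat.add (Nat.add (Nat.add (Nat.add (Nat.add C x4999) x13747) x7915) x9859) x9211) x9427) x9355) x9379) x9371) x9375) (Nat.mul x9373 (nat_lit 2))) x15933) x2813)
    (Nat.sub (Nat.sub (Nat.add (Nat.add (Nat.add (Nat.add (Nat.add (Nat.add (Nat.add (Nat.add (Nat.add C x5001) x13749) x7917) x9861) x9213) x9429) x9357) x9381) x9373) (Nat.mul x9375 (nat_lit 4))) x2815)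
    (Nat.sub (Nat.sub (Nat.sub (Nat.add (Nat.add (Nat.add (Nat.add (Nat.add (Nat.add (Nat.add (Nat.add (Nat.add C x5005) x13753) x7921) x9865) x9217) x9433) x9361) x9373) x9381) x9379) x15939) x2819)
    (Nat.sub (Nat.sub (Nat.add (Nat.add (Nat.add (Nat.add (Nat.add (Nat.add (Nat.add (Nat.add (Nat.add (Nat.add C x5007) x13755) x7923) x9867) x9219) x9435) x9363) x9375) x9387) x9379) x9381) x2821)
    (Nat.sub (Nat.add (Nat.add (Nat.add (Nat.add (Nat.add (Nat.add (Nat.add C x5013) x13761) x7929) x9873) x9225) x9441) x9381) x2827)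
    (Nat.sub (Nat.add (Nat.add (Nat.add (Nat.add (Nat.add (Nat.add (Nat.add C x5027) x13775) x7943) x9887) x9347) x9407) x9403) x15961)
    (Nat.sub (Nat.sub (Nat.sub (Nat.add (Nat.add (Nat.add (Nat.add (Nat.add (Nat.add (Nat.add C x5029) x13777) x7945) x9889) x9349) x9409) x9401) x9403) x15963) x2843)
    (Nat.sub (Nat.sub (Nat.add (Nat.add (Nat.add (Nat.add (Nat.add (Nat.add (Nat.add (Nat.add C x5033) x13781) x7949) x9893) x9353) x9425) x9401) x9409) (Nat.mul x9407 (nat_lit 2))) x15967)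
    (Nat.sub (Nat.sub (Nat.sub (Nat.add (Nat.add (Nat.add (Nat.add (Nat.add (Nat.add (Nat.add (Nat.add (Nat.add (Nat.add C x5035) x13783) x7951) x9895) x9355) x9427) x9403) x9415) x9407) x9411) x9409) x15969) x2849)
    (Nat.sub (Nat.sub (Nat.add (Nat.add (Nat.add (Nat.add (Nat.add (Nat.add (Nat.add (Nat.add C x5037) x13785) x7953) x9897) x9357) x9429) x9417) x9409) (Nat.mul x9411 (nat_lit 2))) x2851)
    (Nat.sub (Nat.sub (Nat.sub (Nat.add (Nat.add (Nat.add (Nat.add (Nat.add (Nat.add (Nat.add (Nat.add C x5041) x13789) x7957) x9901) x9361) x9433) x9409) x9417) (Nat.mul x9415 (nat_lit 3))) x15975) x2855)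
    (Nat.sub (Nat.sub (Nat.add (Nat.add (Nat.add (Nat.add (Nat.add (Nat.add (Nat.add (Nat.add C x5043) x13791) x7959) x9903) x9363) x9435) x9411) x9415) (Nat.mul x9417 (nat_lit 2))) x2857)
    (Nat.sub (Nat.add (Nat.add (Nat.add (Nat.add (Nat.add (Nat.add (Nat.add C x5051) x13799) x7967) x9911) x9371) x9407) x9427) x15985)
    (Nat.sub (Nat.sub (Nat.add (Nat.add (Nat.add (Nat.add (Nat.add (Nat.add (Nat.add (Nat.add (Nat.add C x5053) x13801) x7969) x9913) x9373) x9409) x9433) x9425) x9429) x15987) x2867)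
    (Nat.sub (Nat.sub (Nat.add (Nat.add (Nat.add (Nat.add (Nat.add (Nat.add (Nat.add (Nat.add C x5055) x13803) x7971) x9915) x9375) x9411) x9435) x9427) (Nat.mul x9429 (nat_lit 2))) x2869)
    (Nat.sub (Nat.sub (Nat.add (Nat.add (Nat.add (Nat.add (Nat.add (Nat.add (Nat.add (Nat.add (Nat.add C x5059) x13807) x7975) x9919) x9379) x9415) x9451) x9427) x9435) x15993) x2873)
    (Nat.sub (Nat.add (Nat.add (Nat.add (Nat.add (Nat.add (Nat.add (Nat.add (Nat.add (Nat.add (Nat.add C x5061) x13809) x7977) x9921) x9381) x9417) x9453) x9429) x9441) x9433) x2875)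
    (Nat.sub (Nat.add (Nat.add (Nat.add (Nat.add (Nat.add (Nat.add (Nat.add C x5067) x13815) x7983) x9927) x9387) x9459) x9435) x2881)
    (Nat.sub (Nat.sub (Nat.add (Nat.add (Nat.add (Nat.add (Nat.add (Nat.add (Nat.add C x9451) x5077) x13825) x7993) x9937) x9433) x9453) x16011) x2891)
    (Nat.sub (Nat.add (Nat.add (Nat.add (Nat.add (Nat.add (Nat.add (Nat.add C x5079) x13827) x7995) x9939) x9435) x9459) x9451) x2893)
    (Nat.sub (Nat.add (Nat.add (Nat.add (Nat.add (Nat.add (Nat.add (Nat.add C (Nat.mul x9459 (nat_lit 2))) x5085) x13833) x8001) x9945) x9441) x9453) x2899)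
    (Nat.sub (Nat.add (Nat.add (Nat.add (Nat.add (Nat.add (Nat.add (Nat.add C (Nat.mul x9503 (nat_lit 3))) x5129) x13877) x8045) x10961) x9017) x9521) x16063)
    (Nat.sub (Nat.add (Nat.add (Nat.add (Nat.add (Nat.add (Nat.add (Nat.add (Nat.add (Nat.add (Nat.add C (Nat.mul x9521 (nat_lit 2))) x5147) x13895) x8063) x10979) x9035) x9575) x9503) x9539) x9527) x16081)
    (Nat.sub (Nat.add (Nat.add (Nat.add (Nat.add (Nat.add (Nat.add (Nat.add (Nat.add (Nat.add (Nat.add C x9527) x5153) x13901) x8069) x10985) x9041) x9581) x9545) x9521) x9529) x16087)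
    (Nat.sub (Nat.sub (Nat.add (Nat.add (Nat.add (Nat.add (Nat.add (Nat.add (Nat.add (Nat.add (Nat.add C (Nat.mul x9529 (nat_lit 2))) x5155) x13903) x8071) x10987) x9043) x9583) x9547) x9527) x16089) x2969)
    (Nat.sub (Nat.sub (Nat.add (Nat.add (Nat.add (Nat.add (Nat.add (Nat.add (Nat.add (Nat.add C x5165) x13913) x8081) x10997) x9053) x9593) x9521) x9545) x9539) x16099)
    (Nat.sub (Nat.add (Nat.add (Nat.add (Nat.add (Nat.add (Nat.add (Nat.add (Nat.add (Nat.add (Nat.add C x5171) x13919) x8087) x11003) x9059) x9599) x9527) x9539) x9551) x9547) x16105)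
    (Nat.sub (Nat.sub (Nat.add (Nat.add (Nat.add (Nat.add (Nat.add (Nat.add (Nat.add (Nat.add (Nat.add C x5173) x13921) x8089) x11005) x9061) x9601) x9529) x9553) x9545) x16107) x2987)
    (Nat.sub (Nat.sub (Nat.add (Nat.add (Nat.add (Nat.add (Nat.add (Nat.add (Nat.add (Nat.add C x5177) x13925) x8093) x11009) x9065) x9605) x9545) x9553) x9551) x16111)
    (Nat.sub (Nat.sub (Nat.add (Nat.add (Nat.add (Nat.add (Nat.add (Nat.add (Nat.add (Nat.add (Nat.add (Nat.add C x9553) x5179) x13927) x8095) x11011) x9067) x9607) x9547) x9551) x9555) x16113) x2993)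
    (Nat.sub (Nat.add (Nat.add (Nat.add (Nat.add (Nat.add (Nat.add (Nat.add (Nat.add C x9555) x5181) x13929) x8097) x11013) x9069) x9609) x9553) x2995)
    (Nat.sub (Nat.add (Nat.add (Nat.add (Nat.add (Nat.add (Nat.add (Nat.add (Nat.add (Nat.add (Nat.add C x9575) x5201) x13949) x8117) x11033) x9089) x9737) x9521) x9593) x9581) x16135)
    (Nat.sub (Nat.sub (Nat.add (Nat.add (Nat.add (Nat.add (Nat.add (Nat.add (Nat.add (Nat.add (Nat.add (Nat.add C x5207) x13955) x8123) x11039) x9095) x9743) x9527) x9599) x9575) x9583) x9581) x16141)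
    (Nat.sub (Nat.sub (Nat.add (Nat.add (Nat.add (Nat.add (Nat.add (Nat.add (Nat.add (Nat.add (Nat.add C x5209) x13957) x8125) x11041) x9097) x9745) x9529) x9601) x9581) x16143) x3023)
    (Nat.sub (Nat.add (Nat.add (Nat.add (Nat.add (Nat.add (Nat.add (Nat.add (Nat.add (Nat.add (Nat.add C x5219) x13967) x8135) x11051) x9107) x9755) x9539) x9647) x9575) x9599) x16153)
    (Nat.sub (Nat.add (Nat.add (Nat.add (Nat.add (Nat.add (Nat.add (Nat.add (Nat.add (Nat.add (Nat.add (Nat.add (Nat.add (Nat.add C x5225) x13973) x8141) x11057) x9113) x9761) x9545) x9653) x9581) x9617) x9593) x9605) x9601) x16159)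
    (Nat.sub (Nat.sub (Nat.add (Nat.add (Nat.add (Nat.add (Nat.add (Nat.add (Nat.add (Nat.add (Nat.add (Nat.add (Nat.add (Nat.add C x5227) x13975) x8143) x11059) x9115) x9763) x9547) x9655) x9583) x9619) x9607) x9599) x16161) x3041)
    (Nat.sub (Nat.sub (Nat.add (Nat.add (Nat.add (Nat.add (Nat.add (Nat.add (Nat.add (Nat.add (Nat.add (Nat.add (Nat.add C x5231) x13979) x8147) x11063) x9119) x9767) x9551) x9659) x9623) x9599) x9607) (Nat.mul x9605 (nat_lit 2))) x16165)
    (Nat.sub (Nat.sub (Nat.add (Nat.add (Nat.add (Nat.add (Nat.add (Nat.add (Nat.add (Nat.add (Nat.add (Nat.add (Nat.add (Nat.add C x5233) x13981) x8149) x11065) x9121) x9769) x9553) x9661) x9625) x9601) x9605) x9609) x16167) x3047)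
    (Nat.sub (Nat.add (Nat.add (Nat.add (Nat.add (Nat.add (Nat.add (Nat.add (Nat.add (Nat.add (Nat.add C x5235) x13983) x8151) x11067) x9123) x9771) x9555) x9663) x9627) x9607) x3049)
    (Nat.sub (Nat.sub (Nat.add (Nat.add (Nat.add (Nat.add (Nat.add (Nat.add (Nat.add (Nat.add (Nat.add (Nat.add C x5243) x13991) x8159) x11075) x9131) x9779) x9671) x9599) x9623) x9619) x9617) x16177)
    (Nat.sub (Nat.sub (Nat.sub (Nat.add (Nat.add (Nat.add (Nat.add (Nat.add (Nat.add (Nat.add (Nat.add (Nat.add (Nat.add C x5245) x13993) x8161) x11077) x9133) x9781) x9673) x9601) x9625) x9617) (Nat.mul x9619 (nat_lit 2))) x16179) x3059)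
    (Nat.sub (Nat.sub (Nat.add (Nat.add (Nat.add (Nat.add (Nat.add (Nat.add (Nat.add (Nat.add (Nat.add (Nat.add C x5249) x13997) x8165) x11081) x9137) x9785) x9677) x9605) x9617) x9625) x9623) x16183)
    (Nat.sub (Nat.sub (Nat.add (Nat.add (Nat.add (Nat.add (Nat.add (Nat.add (Nat.add (Nat.add (Nat.add (Nat.add (Nat.add (Nat.add C x5251) x13999) x8167) x11083) x9139) x9787) x9679) x9607) x9619) x9631) x9623) x9627) x16185) x3065)
    (Nat.sub (Nat.sub (Nat.add (Nat.add (Nat.add (Nat.add (Nat.add (Nat.add (Nat.add (Nat.add (Nat.add (Nat.add C x5253) x14001) x8169) x11085) x9141) x9789) x9681) x9609) x9633) x9625) x9627) x3067)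
    (Nat.sub (Nat.sub (Nat.add (Nat.add (Nat.add (Nat.add (Nat.add (Nat.add (Nat.add (Nat.add (Nat.add C x5257) x14005) x8173) x11089) x9145) x9793) x9685) x9625) x9633) x16191) x3071)
    (Nat.sub (Nat.add (Nat.add (Nat.add (Nat.add (Nat.add (Nat.add (Nat.add (Nat.add (Nat.add (Nat.add C x9633) x5259) x14007) x8175) x11091) x9147) x9795) x9687) x9627) x9631) x3073)
    (Nat.sub (Nat.sub (Nat.add (Nat.add (Nat.add (Nat.add (Nat.add (Nat.add (Nat.add (Nat.add C x5273) x14021) x8189) x11105) x9161) x9809) x9593) x9653) x9647) x16207)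
    (Nat.sub (Nat.sub (Nat.add (Nat.add (Nat.add (Nat.add (Nat.add (Nat.add (Nat.add (Nat.add (Nat.add (Nat.add (Nat.add C x5279) x14027) x8195) x11111) x9167) x9815) x9599) x9671) x9647) x9659) x9655) (Nat.mul x9653 (nat_lit 2))) x16213)
    (Nat.sub (Nat.sub (Nat.sub (Nat.add (Nat.add (Nat.add (Nat.add (Nat.add (Nat.add (Nat.add (Nat.add (Nat.add (Nat.add C x5281) x14029) x8197) x11113) x9169) x9817) x9601) x9673) x9661) x9653) (Nat.mul x9655 (nat_lit 2))) x16215) x3095)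
    (Nat.sub (Nat.sub (Nat.add (Nat.add (Nat.add (Nat.add (Nat.add (Nat.add (Nat.add (Nat.add (Nat.add (Nat.add C x5285) x14033) x8201) x11117) x9173) x9821) x9605) x9677) x9653) x9661) (Nat.mul x9659 (nat_lit 5))) x16219)
    (Nat.sub (Nat.sub (Nat.sub (Nat.add (Nat.add (Nat.add (Nat.add (Nat.add (Nat.add (Nat.add (Nat.add (Nat.add (Nat.add (Nat.add C x5287) x14035) x8203) x11119) x9175) x9823) x9607) x9679) x9655) x9659) x9663) (Nat.mul x9661 (nat_lit 3))) x16221) x3101)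
    (Nat.sub (Nat.sub (Nat.add (Nat.add (Nat.add (Nat.add (Nat.add (Nat.add (Nat.add (Nat.add (Nat.add C x5289) x14037) x8205) x11121) x9177) x9825) x9609) x9681) x9661) (Nat.mul x9663 (nat_lit 3))) x3103)
    (Nat.sub (Nat.sub (Nat.add (Nat.add (Nat.add (Nat.add (Nat.add (Nat.add (Nat.add (Nat.add (Nat.add (Nat.add C x5297) x14045) x8213) x11129) x9185) x9833) x9617) x9653) x9677) x9673) x9671) x16231)
    (Nat.sub (Nat.sub (Nat.sub (Nat.add (Nat.add (Nat.add (Nat.add (Nat.add (Nat.add (Nat.add (Nat.add (Nat.add (Nat.add C x5299) x14047) x8215) x11131) x9187) x9835) x9619) x9655) x9679) x9671) (Nat.mul x9673 (nat_lit 2))) x16233) x3113)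
    (Nat.sub (Nat.sub (Nat.add (Nat.add (Nat.add (Nat.add (Nat.add (Nat.add (Nat.add (Nat.add (Nat.add (Nat.add (Nat.add C x5303) x14051) x8219) x11135) x9191) x9839) x9623) x9659) x9695) x9671) x9679) (Nat.mul x9677 (nat_lit 2))) x16237)
    (Nat.sub (Nat.sub (Nat.sub (Nat.add (Nat.add (Nat.add (Nat.add (Nat.add (Nat.add (Nat.add (Nat.add (Nat.add (Nat.add (Nat.add (Nat.add (Nat.add C x5305) x14053) x8221) x11137) x9193) x9841) x9625) x9661) x9697) x9673) x9685) x9677) x9681) x9679) x16239) x3119)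
    (Nat.sub (Nat.sub (Nat.add (Nat.add (Nat.add (Nat.add (Nat.add (Nat.add (Nat.add (Nat.add (Nat.add (Nat.add (Nat.add C x5307) x14055) x8223) x11139) x9195) x9843) x9627) x9663) x9699) x9687) x9679) (Nat.mul x9681 (nat_lit 2))) x3121)
    (Nat.sub (Nat.sub (Nat.sub (Nat.add (Nat.add (Nat.add (Nat.add (Nat.add (Nat.add (Nat.add (Nat.add (Nat.add (Nat.add C x5311) x14059) x8227) x11143) x9199) x9847) x9631) x9703) x9679) x9687) (Nat.mul x9685 (nat_lit 2))) x16245) x3125)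
    (Nat.sub (Nat.sub (Nat.add (Nat.add (Nat.add (Nat.add (Nat.add (Nat.add (Nat.add (Nat.add (Nat.add (Nat.add C x5313) x14061) x8229) x11145) x9201) x9849) x9633) x9705) x9681) x9685) x9687) x3127)
    (Nat.sub (Nat.sub (Nat.add (Nat.add (Nat.add (Nat.add (Nat.add (Nat.add (Nat.add (Nat.add C x5321) x14069) x8237) x11153) x9209) x9857) x9677) x9697) x9695) x16255)
    (Nat.sub (Nat.sub (Nat.sub (Nat.add (Nat.add (Nat.add (Nat.add (Nat.add (Nat.add (Nat.add (Nat.add (Nat.add (Nat.add C x5323) x14071) x8239) x11155) x9211) x9859) x9679) x9703) x9695) x9699) x9697) x16257) x3137)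
    (Nat.sub (Nat.sub (Nat.add (Nat.add (Nat.add (Nat.add (Nat.add (Nat.add (Nat.add (Nat.add (Nat.add C x5325) x14073) x8241) x11157) x9213) x9861) x9681) x9705) x9697) (Nat.mul x9699 (nat_lit 3))) x3139)
    (Nat.sub (Nat.sub (Nat.add (Nat.add (Nat.add (Nat.add (Nat.add (Nat.add (Nat.add (Nat.add (Nat.add C x5329) x14077) x8245) x11161) x9217) x9865) x9685) x9697) x9705) x16263) x3143)
    (Nat.sub (Nat.add (Nat.add (Nat.add (Nat.add (Nat.add (Nat.add (Nat.add (Nat.add (Nat.add (Nat.add C x5331) x14079) x8247) x11163) x9219) x9867) x9687) x9699) x9711) x9703) x3145)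
    (Nat.sub (Nat.add (Nat.add (Nat.add (Nat.add (Nat.add (Nat.add (Nat.add (Nat.add C x9711) x5337) x14085) x8253) x11169) x9225) x9873) x9705) x3151)
    (Nat.sub (Nat.add (Nat.add (Nat.add (Nat.add (Nat.add (Nat.add (Nat.add (Nat.add (Nat.add (Nat.add C (Nat.mul x9737 (nat_lit 2))) x5363) x14111) x8279) x11195) x9251) x10223) x9575) x9755) x9743) x16297)
    (Nat.sub (Nat.add (Nat.add (Nat.add (Nat.add (Nat.add (Nat.add (Nat.add (Nat.add (Nat.add (Nat.add C x5369) x14117) x8285) x11201) x9257) x10229) x9581) x9761) x9737) x9745) x16303)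
    (Nat.sub (Nat.sub (Nat.add (Nat.add (Nat.add (Nat.add (Nat.add (Nat.add (Nat.add (Nat.add (Nat.add (Nat.add C x9745) x5371) x14119) x8287) x11203) x9259) x10231) x9583) x9763) x9743) x16305) x3185)
    (Nat.sub (Nat.add (Nat.add (Nat.add (Nat.add (Nat.add (Nat.add (Nat.add (Nat.add (Nat.add (Nat.add C x5381) x14129) x8297) x11213) x9269) x10241) x9593) x9809) x9737) x9761) x16315)
    (Nat.sub (Nat.add (Nat.add (Nat.add (Nat.add (Nat.add (Nat.add (Nat.add (Nat.add (Nat.add (Nat.add (Nat.add (Nat.add (Nat.add C x5387) x14135) x8303) x11219) x9275) x10247) x9599) x9815) x9743) x9779) x9755) x9767) x9763) x16321)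
    (Nat.sub (Nat.sub (Nat.add (Nat.add (Nat.add (Nat.add (Nat.add (Nat.add (Nat.add (Nat.add (Nat.add (Nat.add (Nat.add (Nat.add C x5389) x14137) x8305) x11221) x9277) x10249) x9601) x9817) x9745) x9781) x9769) x9761) x16323) x3203)
    (Nat.sub (Nat.sub (Nat.add (Nat.add (Nat.add (Nat.add (Nat.add (Nat.add (Nat.add (Nat.add (Nat.add (Nat.add (Nat.add C x5393) x14141) x8309) x11225) x9281) x10253) x9605) x9821) x9785) x9761) x9769) (Nat.mul x9767 (nat_lit 2))) x16327)
    (Nat.sub (Nat.sub (Nat.add (Nat.add (Nat.add (Nat.add (Nat.add (Nat.add (Nat.add (Nat.add (Nat.add (Nat.add (Nat.add (Nat.add C x5395) x14143) x8311) x11227) x9283) x10255) x9607) x9823) x9787) x9763) x9767) x9771) x16329) x3209)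
    (Nat.sub (Nat.add (Nat.add (Nat.add (Nat.add (Nat.add (Nat.add (Nat.add (Nat.add (Nat.add (Nat.add C x5397) x14145) x8313) x11229) x9285) x10257) x9609) x9825) x9789) x9769) x3211)
    (Nat.sub (Nat.sub (Nat.add (Nat.add (Nat.add (Nat.add (Nat.add (Nat.add (Nat.add (Nat.add (Nat.add (Nat.add (Nat.add C x5405) x14153) x8321) x11237) x9293) x10265) x9617) x9833) x9761) x9785) x9781) (Nat.mul x9779 (nat_lit 2))) x16339)
    (Nat.sub (Nat.sub (Nat.sub (Nat.add (Nat.add (Nat.add (Nat.add (Nat.add (Nat.add (Nat.add (Nat.add (Nat.add (Nat.add (Nat.add C x5407) x14155) x8323) x11239) x9295) x10267) x9619) x9835) x9763) x9787) x9779) (Nat.mul x9781 (nat_lit 3))) x16341) x3221)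
    (Nat.sub (Nat.sub (Nat.add (Nat.add (Nat.add (Nat.add (Nat.add (Nat.add (Nat.add (Nat.add (Nat.add (Nat.add (Nat.add C x5411) x14159) x8327) x11243) x9299) x10271) x9623) x9839) x9767) x9779) x9787) (Nat.mul x9785 (nat_lit 2))) x16345)
    (Nat.sub (Nat.sub (Nat.sub (Nat.add (Nat.add (Nat.add (Nat.add (Nat.add (Nat.add (Nat.add (Nat.add (Nat.add (Nat.add (Nat.add (Nat.add (Nat.add C x5413) x14161) x8329) x11245) x9301) x10273) x9625) x9841) x9769) x9781) x9793) x9785) x9789) x9787) x16347) x3227)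
    (Nat.sub (Nat.sub (Nat.add (Nat.add (Nat.add (Nat.add (Nat.add (Nat.add (Nat.add (Nat.add (Nat.add (Nat.add (Nat.add C x5415) x14163) x8331) x11247) x9303) x10275) x9627) x9843) x9771) x9795) x9787) (Nat.mul x9789 (nat_lit 2))) x3229)
    (Nat.sub (Nat.sub (Nat.sub (Nat.add (Nat.add (Nat.add (Nat.add (Nat.add (Nat.add (Nat.add (Nat.add (Nat.add (Nat.add C x5419) x14167) x8335) x11251) x9307) x10279) x9631) x9847) x9787) x9795) x9793) x16353) x3233)
    (Nat.sub (Nat.add (Nat.add (Nat.add (Nat.add (Nat.add (Nat.add (Nat.add (Nat.add (Nat.add (Nat.add C x5421) x14169) x8337) x11253) x9309) x10281) x9633) x9849) x9789) x9793) x3235)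
    (Nat.sub (Nat.add (Nat.add (Nat.add (Nat.add (Nat.add (Nat.add (Nat.add (Nat.add (Nat.add (Nat.add (Nat.add C x9809) x5435) x14183) x8351) x11267) x9323) x10295) x9647) x9971) x9755) x9815) x16369)
    (Nat.sub (Nat.add (Nat.add (Nat.add (Nat.add (Nat.add (Nat.add (Nat.add (Nat.add (Nat.add (Nat.add (Nat.add (Nat.add (Nat.add C x5441) x14189) x8357) x11273) x9329) x10301) x9653) x9977) x9761) x9833) x9809) x9821) x9817) x16375)
    (Nat.sub (Nat.sub (Nat.add (Nat.add (Nat.add (Nat.add (Nat.add (Nat.add (Nat.add (Nat.add (Nat.add (Nat.add (Nat.add (Nat.add C x5443) x14191) x8359) x11275) x9331) x10303) x9655) x9979) x9763) x9835) x9823) x9815) x16377) x3257)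
    (Nat.sub (Nat.sub (Nat.add (Nat.add (Nat.add (Nat.add (Nat.add (Nat.add (Nat.add (Nat.add (Nat.add (Nat.add (Nat.add (Nat.add C x5447) x14195) x8363) x11279) x9335) x10307) x9659) x9983) x9767) x9839) x9815) x9823) (Nat.mul x9821 (nat_lit 3))) x16381)
    (Nat.sub (Nat.sub (Nat.sub (Nat.add (Nat.add (Nat.add (Nat.add (Nat.add (Nat.add (Nat.add (Nat.add (Nat.add (Nat.add (Nat.add (Nat.add (Nat.add C x5449) x14197) x8365) x11281) x9337) x10309) x9661) x9985) x9769) x9841) x9817) x9821) x9825) x9823) x16383) x3263)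
    (Nat.sub (Nat.sub (Nat.add (Nat.add (Nat.add (Nat.add (Nat.add (Nat.add (Nat.add (Nat.add (Nat.add (Nat.add (Nat.add C x5451) x14199) x8367) x11283) x9339) x10311) x9663) x9987) x9771) x9843) x9823) x9825) x3265)
    (Nat.sub (Nat.add (Nat.add (Nat.add (Nat.add (Nat.add (Nat.add (Nat.add (Nat.add (Nat.add (Nat.add (Nat.add (Nat.add (Nat.add C x5459) x14207) x8375) x11291) x9347) x10319) x9671) x9995) x9779) x9887) x9815) x9839) x9835) x16393)
    (Nat.sub (Nat.sub (Nat.sub (Nat.add (Nat.add (Nat.add (Nat.add (Nat.add (Nat.add (Nat.add (Nat.add (Nat.add (Nat.add (Nat.add (Nat.add (Nat.add C x5461) x14209) x8377) x11293) x9349) x10321) x9673) x9997) x9781) x9889) x9817) x9841) x9833) x9835) x16395) x3275)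
    (Nat.sub (Nat.sub (Nat.add (Nat.add (Nat.add (Nat.add (Nat.add (Nat.add (Nat.add (Nat.add (Nat.add (Nat.add (Nat.add (Nat.add (Nat.add (Nat.add C x5465) x14213) x8381) x11297) x9353) x10325) x9677) x10001) x9785) x9893) x9821) x9857) x9833) x9841) x9839) x16399)
    (Nat.sub (Nat.sub (Nat.sub (Nat.add (Nat.add (Nat.add (Nat.add (Nat.add (Nat.add (Nat.add (Nat.add (Nat.add (Nat.add (Nat.add (Nat.add (Nat.add (Nat.add (Nat.add (Nat.add (Nat.add C x5467) x14215) x8383) x11299) x9355) x10327) x9679) x10003) x9787) x9895) x9823) x9859) x9835) x9847) x9839) x9843) (Nat.mul (e (nat_lit 9841)) ap)) x16401) x3281) (Nat.mul (e (nat_lit 9841)) an))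
    (Nat.sub (Nat.sub (Nat.add (Nat.add (Nat.add (Nat.add (Nat.add (Nat.add (Nat.add (Nat.add (Nat.add (Nat.add (Nat.add (Nat.add (Nat.add (Nat.add C x5469) x14217) x8385) x11301) x9357) x10329) x9681) x10005) x9789) x9897) x9825) x9861) x9849) x9841) x9843) x3283)
    (Nat.sub (Nat.sub (Nat.sub (Nat.add (Nat.add (Nat.add (Nat.add (Nat.add (Nat.add (Nat.add (Nat.add (Nat.add (Nat.add (Nat.add (Nat.add (Nat.add C x5473) x14221) x8389) x11305) x9361) x10333) x9685) x10009) x9793) x9901) x9865) x9841) x9849) x9847) x16407) x3287)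
    (Nat.sub (Nat.add (Nat.add (Nat.add (Nat.add (Nat.add (Nat.add (Nat.add (Nat.add (Nat.add (Nat.add (Nat.add (Nat.add (Nat.add C x5475) x14223) x8391) x11307) x9363) x10335) x9687) x10011) x9795) x9903) x9867) x9843) x9847) x3289)
    (Nat.sub (Nat.sub (Nat.add (Nat.add (Nat.add (Nat.add (Nat.add (Nat.add (Nat.add (Nat.add (Nat.add (Nat.add (Nat.add C x5483) x14231) x8399) x11315) x9371) x10343) x9695) x10019) x9911) x9839) x9859) x9857) x16417)
    (Nat.sub (Nat.sub (Nat.sub (Nat.add (Nat.add (Nat.add (Nat.add (Nat.add (Nat.add (Nat.add (Nat.add (Nat.add (Nat.add (Nat.add (Nat.add (Nat.add C x5485) x14233) x8401) x11317) x9373) x10345) x9697) x10021) x9913) x9841) x9865) x9857) x9861) x9859) x16419) x3299)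
    (Nat.sub (Nat.sub (Nat.add (Nat.add (Nat.add (Nat.add (Nat.add (Nat.add (Nat.add (Nat.add (Nat.add (Nat.add (Nat.add (Nat.add C x5487) x14235) x8403) x11319) x9375) x10347) x9699) x10023) x9915) x9843) x9867) x9859) (Nat.mul x9861 (nat_lit 3))) x3301)
    (Nat.sub (Nat.sub (Nat.add (Nat.add (Nat.add (Nat.add (Nat.add (Nat.add (Nat.add (Nat.add (Nat.add (Nat.add (Nat.add (Nat.add C x5491) x14239) x8407) x11323) x9379) x10351) x9703) x10027) x9919) x9847) x9859) x9867) x16425) x3305)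
    (Nat.sub (Nat.add (Nat.add (Nat.add (Nat.add (Nat.add (Nat.add (Nat.add (Nat.add (Nat.add (Nat.add (Nat.add (Nat.add (Nat.add C x5493) x14241) x8409) x11325) x9381) x10353) x9705) x10029) x9921) x9849) x9861) x9873) x9865) x3307)
    (Nat.sub (Nat.add (Nat.add (Nat.add (Nat.add (Nat.add (Nat.add (Nat.add (Nat.add (Nat.add (Nat.add (Nat.add C x9873) x5499) x14247) x8415) x11331) x9387) x10359) x9711) x10035) x9927) x9867) x3313)
    (Nat.sub (Nat.add (Nat.add (Nat.add (Nat.add (Nat.add (Nat.add (Nat.add (Nat.add (Nat.add (Nat.add C x5513) x14261) x8429) x11345) x9401) x10373) x10049) x9833) x9893) x9889) x16447)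
    (Nat.sub (Nat.sub (Nat.sub (Nat.add (Nat.add (Nat.add (Nat.add (Nat.add (Nat.add (Nat.add (Nat.add (Nat.add (Nat.add C x5515) x14263) x8431) x11347) x9403) x10375) x10051) x9835) x9895) x9887) x9889) x16449) x3329)
    (Nat.sub (Nat.sub (Nat.add (Nat.add (Nat.add (Nat.add (Nat.add (Nat.add (Nat.add (Nat.add (Nat.add (Nat.add (Nat.add C x5519) x14267) x8435) x11351) x9407) x10379) x10055) x9839) x9911) x9887) x9895) (Nat.mul x9893 (nat_lit 2))) x16453)
    (Nat.sub (Nat.sub (Nat.sub (Nat.add (Nat.add (Nat.add (Nat.add (Nat.add (Nat.add (Nat.add (Nat.add (Nat.add (Nat.add (Nat.add (Nat.add (Nat.add C x5521) x14269) x8437) x11353) x9409) x10381) x10057) x9841) x9913) x9889) x9901) x9893) x9897) x9895) x16455) x3335)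
    (Nat.sub (Nat.sub (Nat.add (Nat.add (Nat.add (Nat.add (Nat.add (Nat.add (Nat.add (Nat.add (Nat.add (Nat.add (Nat.add C x5523) x14271) x8439) x11355) x9411) x10383) x10059) x9843) x9915) x9903) x9895) (Nat.mul x9897 (nat_lit 2))) x3337)
    (Nat.sub (Nat.sub (Nat.sub (Nat.add (Nat.add (Nat.add (Nat.add (Nat.add (Nat.add (Nat.add (Nat.add (Nat.add (Nat.add (Nat.add C x5527) x14275) x8443) x11359) x9415) x10387) x10063) x9847) x9919) x9895) x9903) (Nat.mul x9901 (nat_lit 3))) x16461) x3341)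
    (Nat.sub (Nat.sub (Nat.add (Nat.add (Nat.add (Nat.add (Nat.add (Nat.add (Nat.add (Nat.add (Nat.add (Nat.add (Nat.add C x5529) x14277) x8445) x11361) x9417) x10389) x10065) x9849) x9921) x9897) x9901) (Nat.mul x9903 (nat_lit 2))) x3343)
    (Nat.sub (Nat.add (Nat.add (Nat.add (Nat.add (Nat.add (Nat.add (Nat.add (Nat.add (Nat.add (Nat.add C x5537) x14285) x8453) x11369) x9425) x10397) x10073) x9857) x9893) x9913) x16471)
    (Nat.sub (Nat.sub (Nat.add (Nat.add (Nat.add (Nat.add (Nat.add (Nat.add (Nat.add (Nat.add (Nat.add (Nat.add (Nat.add (Nat.add C x5539) x14287) x8455) x11371) x9427) x10399) x10075) x9859) x9895) x9919) x9911) x9915) x16473) x3353)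
    (Nat.sub (Nat.sub (Nat.add (Nat.add (Nat.add (Nat.add (Nat.add (Nat.add (Nat.add (Nat.add (Nat.add (Nat.add (Nat.add C x5541) x14289) x8457) x11373) x9429) x10401) x10077) x9861) x9897) x9921) x9913) (Nat.mul x9915 (nat_lit 2))) x3355)
    (Nat.sub (Nat.sub (Nat.add (Nat.add (Nat.add (Nat.add (Nat.add (Nat.add (Nat.add (Nat.add (Nat.add (Nat.add (Nat.add (Nat.add C x5545) x14293) x8461) x11377) x9433) x10405) x10081) x9865) x9901) x9937) x9913) x9921) x16479) x3359)
    (Nat.sub (Nat.add (Nat.add (Nat.add (Nat.add (Nat.add (Nat.add (Nat.add (Nat.add (Nat.add (Nat.add (Nat.add (Nat.add (Nat.add C x5547) x14295) x8463) x11379) x9435) x10407) x10083) x9867) x9903) x9939) x9915) x9927) x9919) x3361)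
    (Nat.sub (Nat.add (Nat.add (Nat.add (Nat.add (Nat.add (Nat.add (Nat.add (Nat.add (Nat.add (Nat.add C x5553) x14301) x8469) x11385) x9441) x10413) x10089) x9873) x9945) x9921) x3367)
    (Nat.sub (Nat.sub (Nat.add (Nat.add (Nat.add (Nat.add (Nat.add (Nat.add (Nat.add (Nat.add (Nat.add (Nat.add C x9937) x5563) x14311) x8479) x11395) x9451) x10423) x10099) x9919) x9939) x16497) x3377)
    (Nat.sub (Nat.add (Nat.add (Nat.add (Nat.add (Nat.add (Nat.add (Nat.add (Nat.add (Nat.add (Nat.add C x5565) x14313) x8481) x11397) x9453) x10425) x10101) x9921) x9945) x9937) x3379)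
    (Nat.sub (Nat.add (Nat.add (Nat.add (Nat.add (Nat.add (Nat.add (Nat.add (Nat.add (Nat.add (Nat.add C (Nat.mul x9945 (nat_lit 2))) x5571) x14319) x8487) x11403) x9459) x10431) x10107) x9927) x9939) x3385)
    (Nat.sub (Nat.add (Nat.add (Nat.add (Nat.add (Nat.add (Nat.add (Nat.add (Nat.add C x9971) x5597) x14345) x8513) x11429) x10457) x9809) x9977) x16531)
    (Nat.sub (Nat.add (Nat.add (Nat.add (Nat.add (Nat.add (Nat.add (Nat.add (Nat.add (Nat.add (Nat.add C x5603) x14351) x8519) x11435) x10463) x9815) x9995) x9971) x9983) x9979) x16537)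
    (Nat.sub (Nat.sub (Nat.add (Nat.add (Nat.add (Nat.add (Nat.add (Nat.add (Nat.add (Nat.add (Nat.add C x5605) x14353) x8521) x11437) x10465) x9817) x9997) x9985) x9977) x16539) x3419)
    (Nat.sub (Nat.sub (Nat.add (Nat.add (Nat.add (Nat.add (Nat.add (Nat.add (Nat.add (Nat.add (Nat.add C x5609) x14357) x8525) x11441) x10469) x9821) x10001) x9977) x9985) (Nat.mul x9983 (nat_lit 3))) x16543)
    (Nat.sub (Nat.sub (Nat.sub (Nat.add (Nat.add (Nat.add (Nat.add (Nat.add (Nat.add (Nat.add (Nat.add (Nat.add (Nat.add C x5611) x14359) x8527) x11443) x10471) x9823) x10003) x9979) x9983) x9987) x9985) x16545) x3425)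
    (Nat.sub (Nat.sub (Nat.add (Nat.add (Nat.add (Nat.add (Nat.add (Nat.add (Nat.add (Nat.add C x5613) x14361) x8529) x11445) x10473) x9825) x10005) x9985) x9987) x3427)
    (Nat.sub (Nat.sub (Nat.add (Nat.add (Nat.add (Nat.add (Nat.add (Nat.add (Nat.add (Nat.add (Nat.add (Nat.add C x5621) x14369) x8537) x11453) x10481) x9833) x10049) x9977) x10001) x9997) x9995) x16555)
    (Nat.sub (Nat.sub (Nat.sub (Nat.add (Nat.add (Nat.add (Nat.add (Nat.add (Nat.add (Nat.add (Nat.add (Nat.add (Nat.add C x5623) x14371) x8539) x11455) x10483) x9835) x10051) x9979) x10003) x9995) (Nat.mul x9997 (nat_lit 2))) x16557) x3437)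
    (Nat.sub (Nat.sub (Nat.add (Nat.add (Nat.add (Nat.add (Nat.add (Nat.add (Nat.add (Nat.add (Nat.add (Nat.add (Nat.add C x5627) x14375) x8543) x11459) x10487) x9839) x10055) x9983) x10019) x9995) x10003) (Nat.mul x10001 (nat_lit 2))) x16561)
    (Nat.sub (Nat.sub (Nat.sub (Nat.add (Nat.add (Nat.add (Nat.add (Nat.add (Nat.add (Nat.add (Nat.add (Nat.add (Nat.add (Nat.add (Nat.add (Nat.add C x5629) x14377) x8545) x11461) x10489) x9841) x10057) x9985) x10021) x9997) x10009) x10001) x10005) x10003) x16563) x3443)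
    (Nat.sub (Nat.sub (Nat.add (Nat.add (Nat.add (Nat.add (Nat.add (Nat.add (Nat.add (Nat.add (Nat.add (Nat.add (Nat.add C x5631) x14379) x8547) x11463) x10491) x9843) x10059) x9987) x10023) x10011) x10003) (Nat.mul x10005 (nat_lit 2))) x3445)
    (Nat.sub (Nat.sub (Nat.sub (Nat.add (Nat.add (Nat.add (Nat.add (Nat.add (Nat.add (Nat.add (Nat.add (Nat.add (Nat.add C x5635) x14383) x8551) x11467) x10495) x9847) x10063) x10027) x10003) x10011) (Nat.mul x10009 (nat_lit 2))) x16569) x3449)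
    (Nat.sub (Nat.sub (Nat.add (Nat.add (Nat.add (Nat.add (Nat.add (Nat.add (Nat.add (Nat.add (Nat.add (Nat.add C x5637) x14385) x8553) x11469) x10497) x9849) x10065) x10029) x10005) x10009) x10011) x3451)
    (Nat.sub (Nat.sub (Nat.add (Nat.add (Nat.add (Nat.add (Nat.add (Nat.add (Nat.add (Nat.add (Nat.add C x5645) x14393) x8561) x11477) x10505) x9857) x10073) x10001) x10021) (Nat.mul x10019 (nat_lit 3))) x16579)
    (Nat.sub (Nat.sub (Nat.sub (Nat.add (Nat.add (Nat.add (Nat.add (Nat.add (Nat.add (Nat.add (Nat.add (Nat.add (Nat.add (Nat.add C x5647) x14395) x8563) x11479) x10507) x9859) x10075) x10003) x10027) x10019) x10023) (Nat.mul x10021 (nat_lit 3))) x16581) x3461)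
    (Nat.sub (Nat.sub (Nat.add (Nat.add (Nat.add (Nat.add (Nat.add (Nat.add (Nat.add (Nat.add (Nat.add (Nat.add C x5649) x14397) x8565) x11481) x10509) x9861) x10077) x10005) x10029) x10021) (Nat.mul x10023 (nat_lit 5))) x3463)
    (Nat.sub (Nat.sub (Nat.sub (Nat.add (Nat.add (Nat.add (Nat.add (Nat.add (Nat.add (Nat.add (Nat.add (Nat.add (Nat.add C x5653) x14401) x8569) x11485) x10513) x9865) x10081) x10009) x10021) x10029) (Nat.mul x10027 (nat_lit 2))) x16587) x3467)
    (Nat.sub (Nat.sub (Nat.add (Nat.add (Nat.add (Nat.add (Nat.add (Nat.add (Nat.add (Nat.add (Nat.add (Nat.add (Nat.add C x5655) x14403) x8571) x11487) x10515) x9867) x10083) x10011) x10023) x10035) x10027) (Nat.mul x10029 (nat_lit 2))) x3469)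
    (Nat.sub (Nat.sub (Nat.add (Nat.add (Nat.add (Nat.add (Nat.add (Nat.add (Nat.add (Nat.add C x5661) x14409) x8577) x11493) x10521) x9873) x10089) x10029) x10035) x3475)
    (Nat.sub (Nat.add (Nat.add (Nat.add (Nat.add (Nat.add (Nat.add (Nat.add (Nat.add (Nat.add (Nat.add C x10049) x5675) x14423) x8591) x11507) x10535) x9887) x9995) x10055) x10051) x16609)
    (Nat.sub (Nat.sub (Nat.add (Nat.add (Nat.add (Nat.add (Nat.add (Nat.add (Nat.add (Nat.add (Nat.add C x5677) x14425) x8593) x11509) x10537) x9889) x9997) x10057) x10049) x16611) x3491)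
    (Nat.sub (Nat.sub (Nat.add (Nat.add (Nat.add (Nat.add (Nat.add (Nat.add (Nat.add (Nat.add (Nat.add (Nat.add C x5681) x14429) x8597) x11513) x10541) x9893) x10001) x10073) x10049) x10057) x10055) x16615)
    (Nat.sub (Nat.sub (Nat.add (Nat.add (Nat.add (Nat.add (Nat.add (Nat.add (Nat.add (Nat.add (Nat.add (Nat.add (Nat.add (Nat.add C x5683) x14431) x8599) x11515) x10543) x9895) x10003) x10075) x10051) x10063) x10055) x10059) x16617) x3497)
    (Nat.sub (Nat.sub (Nat.add (Nat.add (Nat.add (Nat.add (Nat.add (Nat.add (Nat.add (Nat.add (Nat.add (Nat.add C x5685) x14433) x8601) x11517) x10545) x9897) x10005) x10077) x10065) x10057) x10059) x3499)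
    (Nat.sub (Nat.sub (Nat.sub (Nat.add (Nat.add (Nat.add (Nat.add (Nat.add (Nat.add (Nat.add (Nat.add (Nat.add (Nat.add C x5689) x14437) x8605) x11521) x10549) x9901) x10009) x10081) x10057) x10065) (Nat.mul x10063 (nat_lit 2))) x16623) x3503)
    (Nat.sub (Nat.sub (Nat.add (Nat.add (Nat.add (Nat.add (Nat.add (Nat.add (Nat.add (Nat.add (Nat.add (Nat.add C x5691) x14439) x8607) x11523) x10551) x9903) x10011) x10083) x10059) x10063) x10065) x3505)
    (Nat.sub (Nat.add (Nat.add (Nat.add (Nat.add (Nat.add (Nat.add (Nat.add (Nat.add (Nat.add (Nat.add C x5699) x14447) x8615) x11531) x10559) x9911) x10019) x10127) x10055) x10075) x16633)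
    (Nat.sub (Nat.sub (Nat.add (Nat.add (Nat.add (Nat.add (Nat.add (Nat.add (Nat.add (Nat.add (Nat.add (Nat.add (Nat.add (Nat.add C x5701) x14449) x8617) x11533) x10561) x9913) x10021) x10129) x10057) x10081) x10073) x10077) x16635) x3515)
    (Nat.sub (Nat.sub (Nat.add (Nat.add (Nat.add (Nat.add (Nat.add (Nat.add (Nat.add (Nat.add (Nat.add (Nat.add (Nat.add C x5703) x14451) x8619) x11535) x10563) x9915) x10023) x10131) x10059) x10083) x10075) (Nat.mul x10077 (nat_lit 2))) x3517)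
    (Nat.sub (Nat.sub (Nat.add (Nat.add (Nat.add (Nat.add (Nat.add (Nat.add (Nat.add (Nat.add (Nat.add (Nat.add (Nat.add (Nat.add C x5707) x14455) x8623) x11539) x10567) x9919) x10027) x10135) x10063) x10099) x10075) x10083) x16641) x3521)
    (Nat.sub (Nat.add (Nat.add (Nat.add (Nat.add (Nat.add (Nat.add (Nat.add (Nat.add (Nat.add (Nat.add (Nat.add (Nat.add (Nat.add C x5709) x14457) x8625) x11541) x10569) x9921) x10029) x10137) x10065) x10101) x10077) x10089) x10081) x3523)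
    (Nat.sub (Nat.add (Nat.add (Nat.add (Nat.add (Nat.add (Nat.add (Nat.add (Nat.add (Nat.add (Nat.add C x5715) x14463) x8631) x11547) x10575) x9927) x10035) x10143) x10107) x10083) x3529)
    (Nat.sub (Nat.sub (Nat.add (Nat.add (Nat.add (Nat.add (Nat.add (Nat.add (Nat.add (Nat.add (Nat.add C x5725) x14473) x8641) x11557) x10585) x9937) x10153) x10081) x10101) x16659) x3539)
    (Nat.sub (Nat.sub (Nat.add (Nat.add (Nat.add (Nat.add (Nat.add (Nat.add (Nat.add (Nat.add (Nat.add (Nat.add C x5727) x14475) x8643) x11559) x10587) x9939) x10155) x10083) x10107) x10099) x10101) x3541)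
    (Nat.sub (Nat.add (Nat.add (Nat.add (Nat.add (Nat.add (Nat.add (Nat.add (Nat.add (Nat.add (Nat.add C x10107) x5733) x14481) x8649) x11565) x10593) x9945) x10161) x10089) x10101) x3547)
    (Nat.sub (Nat.add (Nat.add (Nat.add (Nat.add (Nat.add (Nat.add (Nat.add (Nat.add C x10127) x5753) x14501) x8669) x11585) x10613) x10073) x10129) x16687)
    (Nat.sub (Nat.sub (Nat.add (Nat.add (Nat.add (Nat.add (Nat.add (Nat.add (Nat.add (Nat.add (Nat.add (Nat.add C x10129) x5755) x14503) x8671) x11587) x10615) x10075) x10135) x10127) x10131) x16689) x3569)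
    (Nat.sub (Nat.sub (Nat.add (Nat.add (Nat.add (Nat.add (Nat.add (Nat.add (Nat.add (Nat.add C x5757) x14505) x8673) x11589) x10617) x10077) x10137) x10129) x10131) x3571)
    (Nat.sub (Nat.sub (Nat.add (Nat.add (Nat.add (Nat.add (Nat.add (Nat.add (Nat.add (Nat.add (Nat.add C x5761) x14509) x8677) x11593) x10621) x10081) x10153) x10129) x10137) x16695) x3575)
    (Nat.sub (Nat.add (Nat.add (Nat.add (Nat.add (Nat.add (Nat.add (Nat.add (Nat.add (Nat.add (Nat.add C x5763) x14511) x8679) x11595) x10623) x10083) x10155) x10131) x10143) x10135) x3577)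
    (Nat.sub (Nat.sub (Nat.add (Nat.add (Nat.add (Nat.add (Nat.add (Nat.add (Nat.add (Nat.add C x5769) x14517) x8685) x11601) x10629) x10089) x10161) x10137) x10143) x3583)
    (Nat.sub (Nat.sub (Nat.add (Nat.add (Nat.add (Nat.add (Nat.add (Nat.add (Nat.add (Nat.add (Nat.add C (Nat.mul x10153 (nat_lit 2))) x5779) x14527) x8695) x11611) x10639) x10099) x10135) x10155) x16713) x3593)
    (Nat.sub (Nat.add (Nat.add (Nat.add (Nat.add (Nat.add (Nat.add (Nat.add (Nat.add (Nat.add (Nat.add C x10155) x5781) x14529) x8697) x11613) x10641) x10101) x10137) x10161) x10153) x3595)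
    (Nat.sub (Nat.add (Nat.add (Nat.add (Nat.add (Nat.add (Nat.add (Nat.add (Nat.add (Nat.add (Nat.add C (Nat.mul x10161 (nat_lit 2))) x5787) x14535) x8703) x11619) x10647) x10107) x10143) x10179) x10155) x3601)
    (Nat.sub (Nat.add (Nat.add (Nat.add (Nat.add (Nat.add (Nat.add (Nat.add C (Nat.mul x10179 (nat_lit 3))) x5805) x14553) x8721) x11637) x10665) x10161) x3619)
    (Nat.sub (Nat.add (Nat.add (Nat.add (Nat.add (Nat.add (Nat.add (Nat.add C (Nat.mul x10223 (nat_lit 2))) x5849) x14597) x11681) x9737) x10241) x10229) x16783)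
    (Nat.sub (Nat.add (Nat.add (Nat.add (Nat.add (Nat.add (Nat.add (Nat.add C x5855) x14603) x11687) x9743) x10247) x10223) x10231) x16789)
    (Nat.sub (Nat.sub (Nat.add (Nat.add (Nat.add (Nat.add (Nat.add (Nat.add (Nat.add C x10231) x5857) x14605) x11689) x9745) x10249) x10229) x16791) x3671)
    (Nat.sub (Nat.add (Nat.add (Nat.add (Nat.add (Nat.add (Nat.add (Nat.add C x5867) x14615) x11699) x9755) x10295) x10223) x10247) x16801)
    (Nat.sub (Nat.add (Nat.add (Nat.add (Nat.add (Nat.add (Nat.add (Nat.add (Nat.add (Nat.add (Nat.add C x5873) x14621) x11705) x9761) x10301) x10229) x10265) x10241) x10253) x10249) x16807)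
    (Nat.sub (Nat.sub (Nat.add (Nat.add (Nat.add (Nat.add (Nat.add (Nat.add (Nat.add (Nat.add (Nat.add C x5875) x14623) x11707) x9763) x10303) x10231) x10267) x10255) x10247) x16809) x3689)
    (Nat.sub (Nat.sub (Nat.add (Nat.add (Nat.add (Nat.add (Nat.add (Nat.add (Nat.add (Nat.add C x5879) x14627) x11711) x9767) x10307) x10271) x10247) x10255) (Nat.mul x10253 (nat_lit 2))) x16813)
    (Nat.sub (Nat.sub (Nat.add (Nat.add (Nat.add (Nat.add (Nat.add (Nat.add (Nat.add (Nat.add (Nat.add C x5881) x14629) x11713) x9769) x10309) x10273) x10249) x10253) x10257) x16815) x3695)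
    (Nat.sub (Nat.add (Nat.add (Nat.add (Nat.add (Nat.add (Nat.add (Nat.add C x5883) x14631) x11715) x9771) x10311) x10275) x10255) x3697)
    (Nat.sub (Nat.sub (Nat.add (Nat.add (Nat.add (Nat.add (Nat.add (Nat.add (Nat.add (Nat.add C x5891) x14639) x11723) x9779) x10319) x10247) x10271) x10267) (Nat.mul x10265 (nat_lit 2))) x16825)
    (Nat.sub (Nat.sub (Nat.sub (Nat.add (Nat.add (Nat.add (Nat.add (Nat.add (Nat.add (Nat.add (Nat.add C x5893) x14641) x11725) x9781) x10321) x10249) x10273) x10265) (Nat.mul x10267 (nat_lit 3))) x16827) x3707)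
    (Nat.sub (Nat.sub (Nat.add (Nat.add (Nat.add (Nat.add (Nat.add (Nat.add (Nat.add (Nat.add C x5897) x14645) x11729) x9785) x10325) x10253) x10265) x10273) (Nat.mul x10271 (nat_lit 2))) x16831)
    (Nat.sub (Nat.sub (Nat.sub (Nat.add (Nat.add (Nat.add (Nat.add (Nat.add (Nat.add (Nat.add (Nat.add (Nat.add (Nat.add C x5899) x14647) x11731) x9787) x10327) x10255) x10267) x10279) x10271) x10275) x10273) x16833) x3713)
    (Nat.sub (Nat.sub (Nat.add (Nat.add (Nat.add (Nat.add (Nat.add (Nat.add (Nat.add (Nat.add C x5901) x14649) x11733) x9789) x10329) x10257) x10281) x10273) (Nat.mul x10275 (nat_lit 2))) x3715)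
    (Nat.sub (Nat.sub (Nat.sub (Nat.add (Nat.add (Nat.add (Nat.add (Nat.add (Nat.add (Nat.add C x5905) x14653) x11737) x9793) x10333) x10273) x10281) x10279) x16839) x3719)
    (Nat.sub (Nat.add (Nat.add (Nat.add (Nat.add (Nat.add (Nat.add (Nat.add C x5907) x14655) x11739) x9795) x10335) x10275) x10279) x3721)
    (Nat.sub (Nat.add (Nat.add (Nat.add (Nat.add (Nat.add (Nat.add (Nat.add C x5921) x14669) x11753) x9809) x10457) x10241) x10301) x16855)
    (Nat.sub (Nat.sub (Nat.add (Nat.add (Nat.add (Nat.add (Nat.add (Nat.add (Nat.add (Nat.add (Nat.add (Nat.add C x5927) x14675) x11759) x9815) x10463) x10247) x10319) x10295) x10307) x10303) x10301) x16861)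
    (Nat.sub (Nat.sub (Nat.sub (Nat.add (Nat.add (Nat.add (Nat.add (Nat.add (Nat.add (Nat.add (Nat.add (Nat.add C x5929) x14677) x11761) x9817) x10465) x10249) x10321) x10309) x10301) x10303) x16863) x3743)
    (Nat.sub (Nat.sub (Nat.add (Nat.add (Nat.add (Nat.add (Nat.add (Nat.add (Nat.add (Nat.add (Nat.add C x5933) x14681) x11765) x9821) x10469) x10253) x10325) x10301) x10309) (Nat.mul x10307 (nat_lit 4))) x16867)
    (Nat.sub (Nat.sub (Nat.sub (Nat.add (Nat.add (Nat.add (Nat.add (Nat.add (Nat.add (Nat.add (Nat.add (Nat.add (Nat.add C x5935) x14683) x11767) x9823) x10471) x10255) x10327) x10303) x10307) x10311) (Nat.mul x10309 (nat_lit 2))) x16869) x3749)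
    (Nat.sub (Nat.sub (Nat.add (Nat.add (Nat.add (Nat.add (Nat.add (Nat.add (Nat.add (Nat.add C x5937) x14685) x11769) x9825) x10473) x10257) x10329) x10309) (Nat.mul x10311 (nat_lit 2))) x3751)
    (Nat.sub (Nat.sub (Nat.add (Nat.add (Nat.add (Nat.add (Nat.add (Nat.add (Nat.add (Nat.add (Nat.add (Nat.add C x5945) x14693) x11777) x9833) x10481) x10265) x10373) x10301) x10325) x10321) x10319) x16879)
    (Nat.sub (Nat.sub (Nat.sub (Nat.add (Nat.add (Nat.add (Nat.add (Nat.add (Nat.add (Nat.add (Nat.add (Nat.add (Nat.add C x5947) x14695) x11779) x9835) x10483) x10267) x10375) x10303) x10327) x10319) (Nat.mul x10321 (nat_lit 2))) x16881) x3761)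
    (Nat.sub (Nat.sub (Nat.add (Nat.add (Nat.add (Nat.add (Nat.add (Nat.add (Nat.add (Nat.add (Nat.add (Nat.add (Nat.add C x5951) x14699) x11783) x9839) x10487) x10271) x10379) x10307) x10343) x10319) x10327) (Nat.mul x10325 (nat_lit 2))) x16885)
    (Nat.sub (Nat.sub (Nat.sub (Nat.add (Nat.add (Nat.add (Nat.add (Nat.add (Nat.add (Nat.add (Nat.add (Nat.add (Nat.add (Nat.add (Nat.add (Nat.add C x5953) x14701) x11785) x9841) x10489) x10273) x10381) x10309) x10345) x10321) x10333) x10325) x10329) x10327) x16887) x3767)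
    (Nat.sub (Nat.sub (Nat.add (Nat.add (Nat.add (Nat.add (Nat.add (Nat.add (Nat.add (Nat.add (Nat.add (Nat.add (Nat.add C x5955) x14703) x11787) x9843) x10491) x10275) x10383) x10311) x10347) x10335) x10327) (Nat.mul x10329 (nat_lit 2))) x3769)
    (Nat.sub (Nat.sub (Nat.sub (Nat.add (Nat.add (Nat.add (Nat.add (Nat.add (Nat.add (Nat.add (Nat.add (Nat.add (Nat.add C x5959) x14707) x11791) x9847) x10495) x10279) x10387) x10351) x10327) x10335) (Nat.mul x10333 (nat_lit 2))) x16893) x3773)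
    (Nat.sub (Nat.sub (Nat.add (Nat.add (Nat.add (Nat.add (Nat.add (Nat.add (Nat.add (Nat.add (Nat.add (Nat.add C x5961) x14709) x11793) x9849) x10497) x10281) x10389) x10353) x10329) x10333) x10335) x3775)
    (Nat.sub (Nat.sub (Nat.add (Nat.add (Nat.add (Nat.add (Nat.add (Nat.add (Nat.add (Nat.add C x5969) x14717) x11801) x9857) x10505) x10397) x10325) x10345) (Nat.mul x10343 (nat_lit 2))) x16903)
    (Nat.sub (Nat.sub (Nat.sub (Nat.add (Nat.add (Nat.add (Nat.add (Nat.add (Nat.add (Nat.add (Nat.add (Nat.add (Nat.add C x5971) x14719) x11803) x9859) x10507) x10399) x10327) x10351) x10343) x10347) (Nat.mul x10345 (nat_lit 2))) x16905) x3785)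
    (Nat.sub (Nat.sub (Nat.add (Nat.add (Nat.add (Nat.add (Nat.add (Nat.add (Nat.add (Nat.add (Nat.add C x5973) x14721) x11805) x9861) x10509) x10401) x10329) x10353) x10345) (Nat.mul x10347 (nat_lit 4))) x3787)
    (Nat.sub (Nat.sub (Nat.sub (Nat.add (Nat.add (Nat.add (Nat.add (Nat.add (Nat.add (Nat.add (Nat.add (Nat.add C x5977) x14725) x11809) x9865) x10513) x10405) x10333) x10345) x10353) x10351) x16911) x3791)
    (Nat.sub (Nat.sub (Nat.add (Nat.add (Nat.add (Nat.add (Nat.add (Nat.add (Nat.add (Nat.add (Nat.add (Nat.add C x5979) x14727) x11811) x9867) x10515) x10407) x10335) x10347) x10359) x10351) x10353) x3793)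
    (Nat.sub (Nat.add (Nat.add (Nat.add (Nat.add (Nat.add (Nat.add (Nat.add C x5985) x14733) x11817) x9873) x10521) x10413) x10353) x3799)
    (Nat.sub (Nat.sub (Nat.add (Nat.add (Nat.add (Nat.add (Nat.add (Nat.add (Nat.add (Nat.add C x5999) x14747) x11831) x9887) x10535) x10319) x10379) x10375) (Nat.mul x10373 (nat_lit 2))) x16933)
    (Nat.sub (Nat.sub (Nat.sub (Nat.add (Nat.add (Nat.add (Nat.add (Nat.add (Nat.add (Nat.add (Nat.add C x6001) x14749) x11833) x9889) x10537) x10321) x10381) x10373) (Nat.mul x10375 (nat_lit 3))) x16935) x3815)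
    (Nat.sub (Nat.sub (Nat.add (Nat.add (Nat.add (Nat.add (Nat.add (Nat.add (Nat.add (Nat.add (Nat.add C x6005) x14753) x11837) x9893) x10541) x10325) x10397) x10373) x10381) (Nat.mul x10379 (nat_lit 4))) x16939)
    (Nat.sub (Nat.sub (Nat.sub (Nat.add (Nat.add (Nat.add (Nat.add (Nat.add (Nat.add (Nat.add (Nat.add (Nat.add (Nat.add (Nat.add C x6007) x14755) x11839) x9895) x10543) x10327) x10399) x10375) x10387) x10379) x10383) (Nat.mul x10381 (nat_lit 3))) x16941) x3821)
    (Nat.sub (Nat.sub (Nat.add (Nat.add (Nat.add (Nat.add (Nat.add (Nat.add (Nat.add (Nat.add (Nat.add C x6009) x14757) x11841) x9897) x10545) x10329) x10401) x10389) x10381) (Nat.mul x10383 (nat_lit 4))) x3823)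
    (Nat.sub (Nat.sub (Nat.sub (Nat.add (Nat.add (Nat.add (Nat.add (Nat.add (Nat.add (Nat.add (Nat.add (Nat.add C x6013) x14761) x11845) x9901) x10549) x10333) x10405) x10381) x10389) (Nat.mul x10387 (nat_lit 5))) x16947) x3827)
    (Nat.sub (Nat.sub (Nat.add (Nat.add (Nat.add (Nat.add (Nat.add (Nat.add (Nat.add (Nat.add (Nat.add C x6015) x14763) x11847) x9903) x10551) x10335) x10407) x10383) x10387) (Nat.mul x10389 (nat_lit 4))) x3829)
    (Nat.sub (Nat.sub (Nat.add (Nat.add (Nat.add (Nat.add (Nat.add (Nat.add (Nat.add (Nat.add C x6023) x14771) x11855) x9911) x10559) x10343) x10379) x10399) (Nat.mul x10397 (nat_lit 2))) x16957)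
    (Nat.sub (Nat.sub (Nat.sub (Nat.add (Nat.add (Nat.add (Nat.add (Nat.add (Nat.add (Nat.add (Nat.add (Nat.add (Nat.add C x6025) x14773) x11857) x9913) x10561) x10345) x10381) x10405) x10397) x10401) (Nat.mul x10399 (nat_lit 2))) x16959) x3839)
    (Nat.sub (Nat.sub (Nat.add (Nat.add (Nat.add (Nat.add (Nat.add (Nat.add (Nat.add (Nat.add (Nat.add C x6027) x14775) x11859) x9915) x10563) x10347) x10383) x10407) x10399) (Nat.mul x10401 (nat_lit 4))) x3841)
    (Nat.sub (Nat.sub (Nat.sub (Nat.add (Nat.add (Nat.add (Nat.add (Nat.add (Nat.add (Nat.add (Nat.add (Nat.add (Nat.add C x6031) x14779) x11863) x9919) x10567) x10351) x10387) x10423) x10399) x10407) (Nat.mul x10405 (nat_lit 2))) x16965) x3845)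
    (Nat.sub (Nat.sub (Nat.add (Nat.add (Nat.add (Nat.add (Nat.add (Nat.add (Nat.add (Nat.add (Nat.add (Nat.add (Nat.add C x6033) x14781) x11865) x9921) x10569) x10353) x10389) x10425) x10401) x10413) x10405) (Nat.mul x10407 (nat_lit 2))) x3847)
    (Nat.sub (Nat.sub (Nat.add (Nat.add (Nat.add (Nat.add (Nat.add (Nat.add (Nat.add (Nat.add C x6039) x14787) x11871) x9927) x10575) x10359) x10431) x10407) (Nat.mul x10413 (nat_lit 2))) x3853)
    (Nat.sub (Nat.sub (Nat.sub (Nat.add (Nat.add (Nat.add (Nat.add (Nat.add (Nat.add (Nat.add C x6049) x14797) x11881) x9937) x10585) x10405) x10425) x10423) x16983) x3863)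
    (Nat.sub (Nat.sub (Nat.add (Nat.add (Nat.add (Nat.add (Nat.add (Nat.add (Nat.add (Nat.add C x6051) x14799) x11883) x9939) x10587) x10407) x10431) x10423) (Nat.mul x10425 (nat_lit 2))) x3865)
    (Nat.sub (Nat.add (Nat.add (Nat.add (Nat.add (Nat.add (Nat.add (Nat.add C x6057) x14805) x11889) x9945) x10593) x10413) x10425) x3871)
    (Nat.sub (Nat.add (Nat.add (Nat.add (Nat.add (Nat.add (Nat.add (Nat.add C (Nat.mul x10457 (nat_lit 2))) x6083) x14831) x11915) x9971) x10295) x10463) x17017)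
    (Nat.sub (Nat.add (Nat.add (Nat.add (Nat.add (Nat.add (Nat.add (Nat.add (Nat.add (Nat.add (Nat.add C x10463) x6089) x14837) x11921) x9977) x10301) x10481) x10457) x10469) x10465) x17023)
    (Nat.sub (Nat.sub (Nat.add (Nat.add (Nat.add (Nat.add (Nat.add (Nat.add (Nat.add (Nat.add (Nat.add C x10465) x6091) x14839) x11923) x9979) x10303) x10483) x10471) x10463) x17025) x3905)
    (Nat.sub (Nat.sub (Nat.add (Nat.add (Nat.add (Nat.add (Nat.add (Nat.add (Nat.add (Nat.add C x6095) x14843) x11927) x9983) x10307) x10487) x10463) x10471) (Nat.mul x10469 (nat_lit 2))) x17029)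
    (Nat.sub (Nat.sub (Nat.add (Nat.add (Nat.add (Nat.add (Nat.add (Nat.add (Nat.add (Nat.add (Nat.add C x6097) x14845) x11929) x9985) x10309) x10489) x10465) x10469) x10473) x17031) x3911)
    (Nat.sub (Nat.add (Nat.add (Nat.add (Nat.add (Nat.add (Nat.add (Nat.add C x6099) x14847) x11931) x9987) x10311) x10491) x10471) x3913)
    (Nat.sub (Nat.add (Nat.add (Nat.add (Nat.add (Nat.add (Nat.add (Nat.add (Nat.add (Nat.add C x6107) x14855) x11939) x9995) x10319) x10535) x10463) x10487) x10483) x17041)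
    (Nat.sub (Nat.sub (Nat.sub (Nat.add (Nat.add (Nat.add (Nat.add (Nat.add (Nat.add (Nat.add (Nat.add (Nat.add C x6109) x14857) x11941) x9997) x10321) x10537) x10465) x10489) x10481) x10483) x17043) x3923)
    (Nat.sub (Nat.sub (Nat.add (Nat.add (Nat.add (Nat.add (Nat.add (Nat.add (Nat.add (Nat.add (Nat.add (Nat.add C x6113) x14861) x11945) x10001) x10325) x10541) x10469) x10505) x10481) x10489) x10487) x17047)
    (Nat.sub (Nat.sub (Nat.add (Nat.add (Nat.add (Nat.add (Nat.add (Nat.add (Nat.add (Nat.add (Nat.add (Nat.add (Nat.add (Nat.add C x6115) x14863) x11947) x10003) x10327) x10543) x10471) x10507) x10483) x10495) x10487) x10491) x17049) x3929)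
    (Nat.sub (Nat.sub (Nat.add (Nat.add (Nat.add (Nat.add (Nat.add (Nat.add (Nat.add (Nat.add (Nat.add (Nat.add C x6117) x14865) x11949) x10005) x10329) x10545) x10473) x10509) x10497) x10489) x10491) x3931)
    (Nat.sub (Nat.sub (Nat.sub (Nat.add (Nat.add (Nat.add (Nat.add (Nat.add (Nat.add (Nat.add (Nat.add (Nat.add C x6121) x14869) x11953) x10009) x10333) x10549) x10513) x10489) x10497) x10495) x17055) x3935)
    (Nat.sub (Nat.add (Nat.add (Nat.add (Nat.add (Nat.add (Nat.add (Nat.add (Nat.add (Nat.add C x6123) x14871) x11955) x10011) x10335) x10551) x10515) x10491) x10495) x3937)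
    (Nat.sub (Nat.sub (Nat.add (Nat.add (Nat.add (Nat.add (Nat.add (Nat.add (Nat.add (Nat.add C x6131) x14879) x11963) x10019) x10343) x10559) x10487) x10507) (Nat.mul x10505 (nat_lit 2))) x17065)
    (Nat.sub (Nat.sub (Nat.sub (Nat.add (Nat.add (Nat.add (Nat.add (Nat.add (Nat.add (Nat.add (Nat.add (Nat.add (Nat.add C x6133) x14881) x11965) x10021) x10345) x10561) x10489) x10513) x10505) x10509) (Nat.mul x10507 (nat_lit 2))) x17067) x3947)
    (Nat.sub (Nat.sub (Nat.add (Nat.add (Nat.add (Nat.add (Nat.add (Nat.add (Nat.add (Nat.add (Nat.add C x6135) x14883) x11967) x10023) x10347) x10563) x10491) x10515) x10507) (Nat.mul x10509 (nat_lit 4))) x3949)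
    (Nat.sub (Nat.sub (Nat.sub (Nat.add (Nat.add (Nat.add (Nat.add (Nat.add (Nat.add (Nat.add (Nat.add (Nat.add C x6139) x14887) x11971) x10027) x10351) x10567) x10495) x10507) x10515) x10513) x17073) x3953)
    (Nat.sub (Nat.sub (Nat.add (Nat.add (Nat.add (Nat.add (Nat.add (Nat.add (Nat.add (Nat.add (Nat.add (Nat.add C x6141) x14889) x11973) x10029) x10353) x10569) x10497) x10509) x10521) x10513) x10515) x3955)
    (Nat.sub (Nat.add (Nat.add (Nat.add (Nat.add (Nat.add (Nat.add (Nat.add C x6147) x14895) x11979) x10035) x10359) x10575) x10515) x3961)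
    (Nat.sub (Nat.add (Nat.add (Nat.add (Nat.add (Nat.add (Nat.add (Nat.add (Nat.add (Nat.add (Nat.add C x10535) x6161) x14909) x11993) x10049) x10373) x10697) x10481) x10541) x10537) x17095)
    (Nat.sub (Nat.sub (Nat.add (Nat.add (Nat.add (Nat.add (Nat.add (Nat.add (Nat.add (Nat.add (Nat.add C x6163) x14911) x11995) x10051) x10375) x10699) x10483) x10543) x10535) x17097) x3977)
    (Nat.sub (Nat.sub (Nat.add (Nat.add (Nat.add (Nat.add (Nat.add (Nat.add (Nat.add (Nat.add (Nat.add (Nat.add C x6167) x14915) x11999) x10055) x10379) x10703) x10487) x10559) x10535) x10543) x10541) x17101)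
    (Nat.sub (Nat.sub (Nat.add (Nat.add (Nat.add (Nat.add (Nat.add (Nat.add (Nat.add (Nat.add (Nat.add (Nat.add (Nat.add (Nat.add C x6169) x14917) x12001) x10057) x10381) x10705) x10489) x10561) x10537) x10549) x10541) x10545) x17103) x3983)
    (Nat.sub (Nat.sub (Nat.add (Nat.add (Nat.add (Nat.add (Nat.add (Nat.add (Nat.add (Nat.add (Nat.add (Nat.add C x6171) x14919) x12003) x10059) x10383) x10707) x10491) x10563) x10551) x10543) x10545) x3985)
    (Nat.sub (Nat.sub (Nat.sub (Nat.add (Nat.add (Nat.add (Nat.add (Nat.add (Nat.add (Nat.add (Nat.add (Nat.add (Nat.add C x6175) x14923) x12007) x10063) x10387) x10711) x10495) x10567) x10543) x10551) (Nat.mul x10549 (nat_lit 2))) x17109) x3989)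
    (Nat.sub (Nat.sub (Nat.add (Nat.add (Nat.add (Nat.add (Nat.add (Nat.add (Nat.add (Nat.add (Nat.add (Nat.add C x6177) x14925) x12009) x10065) x10389) x10713) x10497) x10569) x10545) x10549) x10551) x3991)
    (Nat.sub (Nat.add (Nat.add (Nat.add (Nat.add (Nat.add (Nat.add (Nat.add (Nat.add (Nat.add (Nat.add C x6185) x14933) x12017) x10073) x10397) x10721) x10505) x10613) x10541) x10561) x17119)
    (Nat.sub (Nat.sub (Nat.add (Nat.add (Nat.add (Nat.add (Nat.add (Nat.add (Nat.add (Nat.add (Nat.add (Nat.add (Nat.add (Nat.add C x6187) x14935) x12019) x10075) x10399) x10723) x10507) x10615) x10543) x10567) x10559) x10563) x17121) x4001)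
    (Nat.sub (Nat.sub (Nat.add (Nat.add (Nat.add (Nat.add (Nat.add (Nat.add (Nat.add (Nat.add (Nat.add (Nat.add (Nat.add C x6189) x14937) x12021) x10077) x10401) x10725) x10509) x10617) x10545) x10569) x10561) (Nat.mul x10563 (nat_lit 2))) x4003)
    (Nat.sub (Nat.sub (Nat.add (Nat.add (Nat.add (Nat.add (Nat.add (Nat.add (Nat.add (Nat.add (Nat.add (Nat.add (Nat.add (Nat.add C x6193) x14941) x12025) x10081) x10405) x10729) x10513) x10621) x10549) x10585) x10561) x10569) x17127) x4007)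
    (Nat.sub (Nat.add (Nat.add (Nat.add (Nat.add (Nat.add (Nat.add (Nat.add (Nat.add (Nat.add (Nat.add (Nat.add (Nat.add (Nat.add C x6195) x14943) x12027) x10083) x10407) x10731) x10515) x10623) x10551) x10587) x10563) x10575) x10567) x4009)
    (Nat.sub (Nat.add (Nat.add (Nat.add (Nat.add (Nat.add (Nat.add (Nat.add (Nat.add (Nat.add (Nat.add C x6201) x14949) x12033) x10089) x10413) x10737) x10521) x10629) x10593) x10569) x4015)
    (Nat.sub (Nat.sub (Nat.add (Nat.add (Nat.add (Nat.add (Nat.add (Nat.add (Nat.add (Nat.add (Nat.add C x6211) x14959) x12043) x10099) x10423) x10747) x10639) x10567) x10587) x17145) x4025)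
    (Nat.sub (Nat.sub (Nat.add (Nat.add (Nat.add (Nat.add (Nat.add (Nat.add (Nat.add (Nat.add (Nat.add (Nat.add C x6213) x14961) x12045) x10101) x10425) x10749) x10641) x10569) x10593) x10585) x10587) x4027)
    (Nat.sub (Nat.add (Nat.add (Nat.add (Nat.add (Nat.add (Nat.add (Nat.add (Nat.add (Nat.add (Nat.add C x10593) x6219) x14967) x12051) x10107) x10431) x10755) x10647) x10575) x10587) x4033)
    (Nat.sub (Nat.add (Nat.add (Nat.add (Nat.add (Nat.add (Nat.add (Nat.add C x6239) x14987) x12071) x10127) x10775) x10559) x10615) x17173)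
    (Nat.sub (Nat.sub (Nat.add (Nat.add (Nat.add (Nat.add (Nat.add (Nat.add (Nat.add (Nat.add (Nat.add C x6241) x14989) x12073) x10129) x10777) x10561) x10621) x10613) x10617) x17175) x4055)
    (Nat.sub (Nat.sub (Nat.add (Nat.add (Nat.add (Nat.add (Nat.add (Nat.add (Nat.add (Nat.add C x6243) x14991) x12075) x10131) x10779) x10563) x10623) x10615) (Nat.mul x10617 (nat_lit 2))) x4057)
    (Nat.sub (Nat.sub (Nat.sub (Nat.add (Nat.add (Nat.add (Nat.add (Nat.add (Nat.add (Nat.add (Nat.add (Nat.add C x6247) x14995) x12079) x10135) x10783) x10567) x10639) x10615) x10623) x10621) x17181) x4061)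
    (Nat.sub (Nat.sub (Nat.add (Nat.add (Nat.add (Nat.add (Nat.add (Nat.add (Nat.add (Nat.add (Nat.add (Nat.add C x6249) x14997) x12081) x10137) x10785) x10569) x10641) x10617) x10629) x10621) x10623) x4063)
    (Nat.sub (Nat.sub (Nat.add (Nat.add (Nat.add (Nat.add (Nat.add (Nat.add (Nat.add (Nat.add C x6255) x15003) x12087) x10143) x10791) x10575) x10647) x10623) (Nat.mul x10629 (nat_lit 2))) x4069)
    (Nat.sub (Nat.sub (Nat.add (Nat.add (Nat.add (Nat.add (Nat.add (Nat.add (Nat.add (Nat.add (Nat.add C x10639) x6265) x15013) x12097) x10153) x10801) x10585) x10621) x10641) x17199) x4079)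
    (Nat.sub (Nat.add (Nat.add (Nat.add (Nat.add (Nat.add (Nat.add (Nat.add (Nat.add (Nat.add C x6267) x15015) x12099) x10155) x10803) x10587) x10623) x10647) x10639) x4081)
    (Nat.sub (Nat.add (Nat.add (Nat.add (Nat.add (Nat.add (Nat.add (Nat.add (Nat.add (Nat.add (Nat.add C x10647) x6273) x15021) x12105) x10161) x10809) x10593) x10629) x10665) x10641) x4087)
    (Nat.sub (Nat.add (Nat.add (Nat.add (Nat.add (Nat.add (Nat.add (Nat.add C (Nat.mul x10665 (nat_lit 2))) x6291) x15039) x12123) x10179) x10827) x10647) x4105)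
    (Nat.sub (Nat.add (Nat.add (Nat.add (Nat.add (Nat.add (Nat.add (Nat.add C (Nat.mul x10697 (nat_lit 2))) x6323) x15071) x12155) x10535) x10703) x10699) x17257)
    (Nat.sub (Nat.sub (Nat.add (Nat.add (Nat.add (Nat.add (Nat.add (Nat.add (Nat.add C x10699) x6325) x15073) x12157) x10537) x10705) x10697) x17259) x4139)
    (Nat.sub (Nat.add (Nat.add (Nat.add (Nat.add (Nat.add (Nat.add (Nat.add C x6329) x15077) x12161) x10541) x10721) x10697) x10705) x17263)
    (Nat.sub (Nat.sub (Nat.add (Nat.add (Nat.add (Nat.add (Nat.add (Nat.add (Nat.add (Nat.add (Nat.add (Nat.add C x10705) x6331) x15079) x12163) x10543) x10723) x10699) x10711) x10703) x10707) x17265) x4145)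
    (Nat.sub (Nat.add (Nat.add (Nat.add (Nat.add (Nat.add (Nat.add (Nat.add C x6333) x15081) x12165) x10545) x10725) x10713) x10705) x4147)
    (Nat.sub (Nat.sub (Nat.sub (Nat.add (Nat.add (Nat.add (Nat.add (Nat.add (Nat.add (Nat.add C x6337) x15085) x12169) x10549) x10729) x10705) x10713) x10711) x17271) x4151)
    (Nat.sub (Nat.add (Nat.add (Nat.add (Nat.add (Nat.add (Nat.add (Nat.add C x6339) x15087) x12171) x10551) x10731) x10707) x10711) x4153)
    (Nat.sub (Nat.add (Nat.add (Nat.add (Nat.add (Nat.add (Nat.add (Nat.add C x6347) x15095) x12179) x10559) x10775) x10703) x10723) x17281)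
    (Nat.sub (Nat.sub (Nat.add (Nat.add (Nat.add (Nat.add (Nat.add (Nat.add (Nat.add (Nat.add (Nat.add C x6349) x15097) x12181) x10561) x10777) x10705) x10729) x10721) x10725) x17283) x4163)
    (Nat.sub (Nat.sub (Nat.add (Nat.add (Nat.add (Nat.add (Nat.add (Nat.add (Nat.add (Nat.add C x6351) x15099) x12183) x10563) x10779) x10707) x10731) x10723) (Nat.mul x10725 (nat_lit 2))) x4165)
    (Nat.sub (Nat.sub (Nat.add (Nat.add (Nat.add (Nat.add (Nat.add (Nat.add (Nat.add (Nat.add (Nat.add C x6355) x15103) x12187) x10567) x10783) x10711) x10747) x10723) x10731) x17289) x4169)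
    (Nat.sub (Nat.add (Nat.add (Nat.add (Nat.add (Nat.add (Nat.add (Nat.add (Nat.add (Nat.add (Nat.add C x6357) x15105) x12189) x10569) x10785) x10713) x10749) x10725) x10737) x10729) x4171)
    (Nat.sub (Nat.add (Nat.add (Nat.add (Nat.add (Nat.add (Nat.add (Nat.add C x6363) x15111) x12195) x10575) x10791) x10755) x10731) x4177)
    (Nat.sub (Nat.sub (Nat.sub (Nat.add (Nat.add (Nat.add (Nat.add (Nat.add (Nat.add (Nat.add C x6373) x15121) x12205) x10585) x10801) x10729) x10749) x10747) x17307) x4187)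
    (Nat.sub (Nat.sub (Nat.add (Nat.add (Nat.add (Nat.add (Nat.add (Nat.add (Nat.add (Nat.add C x6375) x15123) x12207) x10587) x10803) x10731) x10755) x10747) (Nat.mul x10749 (nat_lit 2))) x4189)
    (Nat.sub (Nat.add (Nat.add (Nat.add (Nat.add (Nat.add (Nat.add (Nat.add C x6381) x15129) x12213) x10593) x10809) x10737) x10749) x4195)
    (Nat.sub (Nat.add (Nat.add (Nat.add (Nat.add (Nat.add (Nat.add (Nat.add C (Nat.mul x10775 (nat_lit 2))) x6401) x15149) x12233) x10613) x10721) x10777) x17335)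
    (Nat.sub (Nat.sub (Nat.add (Nat.add (Nat.add (Nat.add (Nat.add (Nat.add (Nat.add (Nat.add (Nat.add C (Nat.mul x10777 (nat_lit 2))) x6403) x15151) x12235) x10615) x10723) x10783) x10775) x10779) x17337) x4217)
    (Nat.sub (Nat.add (Nat.add (Nat.add (Nat.add (Nat.add (Nat.add (Nat.add C x6405) x15153) x12237) x10617) x10725) x10785) x10777) x4219)
    (Nat.sub (Nat.sub (Nat.add (Nat.add (Nat.add (Nat.add (Nat.add (Nat.add (Nat.add (Nat.add (Nat.add C x10783) x6409) x15157) x12241) x10621) x10729) x10801) x10777) x10785) x17343) x4223)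
    (Nat.sub (Nat.add (Nat.add (Nat.add (Nat.add (Nat.add (Nat.add (Nat.add (Nat.add (Nat.add (Nat.add C x10785) x6411) x15159) x12243) x10623) x10731) x10803) x10779) x10791) x10783) x4225)
    (Nat.sub (Nat.add (Nat.add (Nat.add (Nat.add (Nat.add (Nat.add (Nat.add C x6417) x15165) x12249) x10629) x10737) x10809) x10785) x4231)
    (Nat.sub (Nat.sub (Nat.add (Nat.add (Nat.add (Nat.add (Nat.add (Nat.add (Nat.add (Nat.add (Nat.add C (Nat.mul x10801 (nat_lit 2))) x6427) x15175) x12259) x10639) x10747) x10855) x10783) x10803) x17361) x4241)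
    (Nat.sub (Nat.add (Nat.add (Nat.add (Nat.add (Nat.add (Nat.add (Nat.add (Nat.add (Nat.add (Nat.add C x10803) x6429) x15177) x12261) x10641) x10749) x10857) x10785) x10809) x10801) x4243)
    (Nat.sub (Nat.add (Nat.add (Nat.add (Nat.add (Nat.add (Nat.add (Nat.add (Nat.add (Nat.add (Nat.add C (Nat.mul x10809 (nat_lit 2))) x6435) x15183) x12267) x10647) x10755) x10863) x10791) x10827) x10803) x4249)
    (Nat.sub (Nat.add (Nat.add (Nat.add (Nat.add (Nat.add (Nat.add (Nat.add C (Nat.mul x10827 (nat_lit 2))) x6453) x15201) x12285) x10665) x10881) x10809) x4267)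
    (Nat.sub (Nat.sub (Nat.add (Nat.add (Nat.add (Nat.add (Nat.add (Nat.add C (Nat.mul x10855 (nat_lit 3))) x6481) x15229) x12313) x10801) x10857) x17415) x4295)
    (Nat.sub (Nat.add (Nat.add (Nat.add (Nat.add (Nat.add (Nat.add (Nat.add C (Nat.mul x10857 (nat_lit 2))) x6483) x15231) x12315) x10803) x10863) x10855) x4297)
    (Nat.sub (Nat.add (Nat.add (Nat.add (Nat.add (Nat.add (Nat.add (Nat.add C (Nat.mul x10863 (nat_lit 2))) x6489) x15237) x12321) x10809) x10881) x10857) x4303)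
    (Nat.sub (Nat.add (Nat.add (Nat.add (Nat.add (Nat.add (Nat.add C (Nat.mul x10881 (nat_lit 4))) x6507) x15255) x12339) x10827) x10863) x4321)
    (Nat.sub (Nat.add (Nat.add (Nat.add (Nat.add C (Nat.mul x10961 (nat_lit 3))) x15335) x9503) x10979) x17521)
    (Nat.sub (Nat.add (Nat.add (Nat.add (Nat.add (Nat.add (Nat.add (Nat.add C (Nat.mul x10979 (nat_lit 2))) x15353) x9521) x11033) x10961) x10997) x10985) x17539)
    (Nat.sub (Nat.add (Nat.add (Nat.add (Nat.add (Nat.add (Nat.add (Nat.add C x10985) x15359) x9527) x11039) x11003) x10979) x10987) x17545)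
    (Nat.sub (Nat.sub (Nat.add (Nat.add (Nat.add (Nat.add (Nat.add (Nat.add C (Nat.mul x10987 (nat_lit 2))) x15361) x9529) x11041) x11005) x10985) x17547) x4427)
    (Nat.sub (Nat.sub (Nat.add (Nat.add (Nat.add (Nat.add (Nat.add C x15371) x9539) x11051) x10979) x11003) x10997) x17557)
    (Nat.sub (Nat.add (Nat.add (Nat.add (Nat.add (Nat.add (Nat.add (Nat.add C x15377) x9545) x11057) x10985) x10997) x11009) x11005) x17563)
    (Nat.sub (Nat.sub (Nat.add (Nat.add (Nat.add (Nat.add (Nat.add (Nat.add C x15379) x9547) x11059) x10987) x11011) x11003) x17565) x4445)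
    (Nat.sub (Nat.sub (Nat.add (Nat.add (Nat.add (Nat.add (Nat.add C x15383) x9551) x11063) x11003) x11011) x11009) x17569)
    (Nat.sub (Nat.sub (Nat.add (Nat.add (Nat.add (Nat.add (Nat.add (Nat.add (Nat.add C x11011) x15385) x9553) x11065) x11005) x11009) x11013) x17571) x4451)
    (Nat.sub (Nat.add (Nat.add (Nat.add (Nat.add (Nat.add C x11013) x15387) x9555) x11067) x11011) x4453)
    (Nat.sub (Nat.add (Nat.add (Nat.add (Nat.add (Nat.add (Nat.add (Nat.add C x11033) x15407) x9575) x11195) x10979) x11051) x11039) x17593)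
    (Nat.sub (Nat.sub (Nat.add (Nat.add (Nat.add (Nat.add (Nat.add (Nat.add (Nat.add C x15413) x9581) x11201) x10985) x11057) x11033) x11041) x11039) x17599)
    (Nat.sub (Nat.sub (Nat.add (Nat.add (Nat.add (Nat.add (Nat.add (Nat.add C x15415) x9583) x11203) x10987) x11059) x11039) x17601) x4481)
    (Nat.sub (Nat.add (Nat.add (Nat.add (Nat.add (Nat.add (Nat.add (Nat.add C x15425) x9593) x11213) x10997) x11105) x11033) x11057) x17611)
    (Nat.sub (Nat.add (Nat.add (Nat.add (Nat.add (Nat.add (Nat.add (Nat.add (Nat.add (Nat.add (Nat.add C x15431) x9599) x11219) x11003) x11111) x11039) x11075) x11051) x11063) x11059) x17617)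
    (Nat.sub (Nat.sub (Nat.add (Nat.add (Nat.add (Nat.add (Nat.add (Nat.add (Nat.add (Nat.add (Nat.add C x15433) x9601) x11221) x11005) x11113) x11041) x11077) x11065) x11057) x17619) x4499)
    (Nat.sub (Nat.sub (Nat.add (Nat.add (Nat.add (Nat.add (Nat.add (Nat.add (Nat.add (Nat.add C x15437) x9605) x11225) x11009) x11117) x11081) x11057) x11065) (Nat.mul x11063 (nat_lit 2))) x17623)
    (Nat.sub (Nat.sub (Nat.add (Nat.add (Nat.add (Nat.add (Nat.add (Nat.add (Nat.add (Nat.add (Nat.add C x15439) x9607) x11227) x11011) x11119) x11083) x11059) x11063) x11067) x17625) x4505)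
    (Nat.sub (Nat.add (Nat.add (Nat.add (Nat.add (Nat.add (Nat.add (Nat.add C x15441) x9609) x11229) x11013) x11121) x11085) x11065) x4507)
    (Nat.sub (Nat.sub (Nat.add (Nat.add (Nat.add (Nat.add (Nat.add (Nat.add (Nat.add C x15449) x9617) x11237) x11129) x11057) x11081) x11077) x11075) x17635)
    (Nat.sub (Nat.sub (Nat.sub (Nat.add (Nat.add (Nat.add (Nat.add (Nat.add (Nat.add (Nat.add C x15451) x9619) x11239) x11131) x11059) x11083) x11075) (Nat.mul x11077 (nat_lit 2))) x17637) x4517)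
    (Nat.sub (Nat.sub (Nat.add (Nat.add (Nat.add (Nat.add (Nat.add (Nat.add (Nat.add C x15455) x9623) x11243) x11135) x11063) x11075) x11083) x11081) x17641)
    (Nat.sub (Nat.sub (Nat.add (Nat.add (Nat.add (Nat.add (Nat.add (Nat.add (Nat.add (Nat.add (Nat.add C x15457) x9625) x11245) x11137) x11065) x11077) x11089) x11081) x11085) x17643) x4523)
    (Nat.sub (Nat.sub (Nat.add (Nat.add (Nat.add (Nat.add (Nat.add (Nat.add (Nat.add C x15459) x9627) x11247) x11139) x11067) x11091) x11083) x11085) x4525)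
    (Nat.sub (Nat.sub (Nat.add (Nat.add (Nat.add (Nat.add (Nat.add (Nat.add C x15463) x9631) x11251) x11143) x11083) x11091) x17649) x4529)
    (Nat.sub (Nat.add (Nat.add (Nat.add (Nat.add (Nat.add (Nat.add (Nat.add C x11091) x15465) x9633) x11253) x11145) x11085) x11089) x4531)
    (Nat.sub (Nat.sub (Nat.add (Nat.add (Nat.add (Nat.add (Nat.add C x15479) x9647) x11267) x11051) x11111) x11105) x17665)
    (Nat.sub (Nat.sub (Nat.add (Nat.add (Nat.add (Nat.add (Nat.add (Nat.add (Nat.add (Nat.add C x15485) x9653) x11273) x11057) x11129) x11105) x11117) x11113) (Nat.mul x11111 (nat_lit 2))) x17671)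
    (Nat.sub (Nat.sub (Nat.sub (Nat.add (Nat.add (Nat.add (Nat.add (Nat.add (Nat.add (Nat.add C x15487) x9655) x11275) x11059) x11131) x11119) x11111) (Nat.mul x11113 (nat_lit 2))) x17673) x4553)
    (Nat.sub (Nat.sub (Nat.add (Nat.add (Nat.add (Nat.add (Nat.add (Nat.add (Nat.add C x15491) x9659) x11279) x11063) x11135) x11111) x11119) (Nat.mul x11117 (nat_lit 5))) x17677)
    (Nat.sub (Nat.sub (Nat.sub (Nat.add (Nat.add (Nat.add (Nat.add (Nat.add (Nat.add (Nat.add (Nat.add C x15493) x9661) x11281) x11065) x11137) x11113) x11117) x11121) (Nat.mul x11119 (nat_lit 3))) x17679) x4559)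
    (Nat.sub (Nat.sub (Nat.add (Nat.add (Nat.add (Nat.add (Nat.add (Nat.add C x15495) x9663) x11283) x11067) x11139) x11119) (Nat.mul x11121 (nat_lit 3))) x4561)
    (Nat.sub (Nat.sub (Nat.add (Nat.add (Nat.add (Nat.add (Nat.add (Nat.add (Nat.add C x15503) x9671) x11291) x11075) x11111) x11135) x11131) x11129) x17689)
    (Nat.sub (Nat.sub (Nat.sub (Nat.add (Nat.add (Nat.add (Nat.add (Nat.add (Nat.add (Nat.add C x15505) x9673) x11293) x11077) x11113) x11137) x11129) (Nat.mul x11131 (nat_lit 2))) x17691) x4571)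
    (Nat.sub (Nat.sub (Nat.add (Nat.add (Nat.add (Nat.add (Nat.add (Nat.add (Nat.add (Nat.add C x15509) x9677) x11297) x11081) x11117) x11153) x11129) x11137) (Nat.mul x11135 (nat_lit 2))) x17695)
    (Nat.sub (Nat.sub (Nat.sub (Nat.add (Nat.add (Nat.add (Nat.add (Nat.add (Nat.add (Nat.add (Nat.add (Nat.add (Nat.add C x15511) x9679) x11299) x11083) x11119) x11155) x11131) x11143) x11135) x11139) x11137) x17697) x4577)
    (Nat.sub (Nat.sub (Nat.add (Nat.add (Nat.add (Nat.add (Nat.add (Nat.add (Nat.add (Nat.add C x15513) x9681) x11301) x11085) x11121) x11157) x11145) x11137) (Nat.mul x11139 (nat_lit 2))) x4579)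
    (Nat.sub (Nat.sub (Nat.sub (Nat.add (Nat.add (Nat.add (Nat.add (Nat.add (Nat.add (Nat.add C x15517) x9685) x11305) x11089) x11161) x11137) x11145) (Nat.mul x11143 (nat_lit 2))) x17703) x4583)
    (Nat.sub (Nat.sub (Nat.add (Nat.add (Nat.add (Nat.add (Nat.add (Nat.add (Nat.add C x15519) x9687) x11307) x11091) x11163) x11139) x11143) x11145) x4585)
    (Nat.sub (Nat.sub (Nat.add (Nat.add (Nat.add (Nat.add (Nat.add C x15527) x9695) x11315) x11135) x11155) x11153) x17713)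
    (Nat.sub (Nat.sub (Nat.sub (Nat.add (Nat.add (Nat.add (Nat.add (Nat.add (Nat.add (Nat.add C x15529) x9697) x11317) x11137) x11161) x11153) x11157) x11155) x17715) x4595)
    (Nat.sub (Nat.sub (Nat.add (Nat.add (Nat.add (Nat.add (Nat.add (Nat.add C x15531) x9699) x11319) x11139) x11163) x11155) (Nat.mul x11157 (nat_lit 3))) x4597)
    (Nat.sub (Nat.sub (Nat.add (Nat.add (Nat.add (Nat.add (Nat.add (Nat.add C x15535) x9703) x11323) x11143) x11155) x11163) x17721) x4601)
    (Nat.sub (Nat.add (Nat.add (Nat.add (Nat.add (Nat.add (Nat.add (Nat.add C x15537) x9705) x11325) x11145) x11157) x11169) x11161) x4603)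
    (Nat.sub (Nat.add (Nat.add (Nat.add (Nat.add (Nat.add C x11169) x15543) x9711) x11331) x11163) x4609)
    (Nat.sub (Nat.add (Nat.add (Nat.add (Nat.add (Nat.add (Nat.add (Nat.add C x11195) x15569) x9737) x11681) x11033) x11213) x11201) x17755)
    (Nat.sub (Nat.sub (Nat.add (Nat.add (Nat.add (Nat.add (Nat.add (Nat.add (Nat.add C x15575) x9743) x11687) x11039) x11219) x11195) x11203) x11201) x17761)
    (Nat.sub (Nat.sub (Nat.add (Nat.add (Nat.add (Nat.add (Nat.add (Nat.add C x15577) x9745) x11689) x11041) x11221) x11201) x17763) x4643)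
    (Nat.sub (Nat.sub (Nat.add (Nat.add (Nat.add (Nat.add (Nat.add (Nat.add (Nat.add C x15587) x9755) x11699) x11051) x11267) x11195) x11219) x11213) x17773)
    (Nat.sub (Nat.sub (Nat.add (Nat.add (Nat.add (Nat.add (Nat.add (Nat.add (Nat.add (Nat.add (Nat.add (Nat.add C x15593) x9761) x11705) x11057) x11273) x11201) x11237) x11213) x11225) x11221) x11219) x17779)
    (Nat.sub (Nat.sub (Nat.sub (Nat.add (Nat.add (Nat.add (Nat.add (Nat.add (Nat.add (Nat.add (Nat.add (Nat.add C x15595) x9763) x11707) x11059) x11275) x11203) x11239) x11227) x11219) x11221) x17781) x4661)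
    (Nat.sub (Nat.sub (Nat.add (Nat.add (Nat.add (Nat.add (Nat.add (Nat.add (Nat.add (Nat.add C x15599) x9767) x11711) x11063) x11279) x11243) x11219) x11227) (Nat.mul x11225 (nat_lit 3))) x17785)
    (Nat.sub (Nat.sub (Nat.sub (Nat.add (Nat.add (Nat.add (Nat.add (Nat.add (Nat.add (Nat.add (Nat.add (Nat.add C x15601) x9769) x11713) x11065) x11281) x11245) x11221) x11225) x11229) x11227) x17787) x4667)
    (Nat.sub (Nat.sub (Nat.add (Nat.add (Nat.add (Nat.add (Nat.add (Nat.add (Nat.add C x15603) x9771) x11715) x11067) x11283) x11247) x11227) x11229) x4669)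
    (Nat.sub (Nat.sub (Nat.add (Nat.add (Nat.add (Nat.add (Nat.add (Nat.add (Nat.add (Nat.add C x15611) x9779) x11723) x11075) x11291) x11219) x11243) x11239) (Nat.mul x11237 (nat_lit 3))) x17797)
    (Nat.sub (Nat.sub (Nat.sub (Nat.add (Nat.add (Nat.add (Nat.add (Nat.add (Nat.add (Nat.add (Nat.add C x15613) x9781) x11725) x11077) x11293) x11221) x11245) x11237) (Nat.mul x11239 (nat_lit 4))) x17799) x4679)
    (Nat.sub (Nat.sub (Nat.add (Nat.add (Nat.add (Nat.add (Nat.add (Nat.add (Nat.add (Nat.add C x15617) x9785) x11729) x11081) x11297) x11225) x11237) x11245) (Nat.mul x11243 (nat_lit 3))) x17803)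
    (Nat.sub (Nat.sub (Nat.sub (Nat.add (Nat.add (Nat.add (Nat.add (Nat.add (Nat.add (Nat.add (Nat.add (Nat.add (Nat.add C x15619) x9787) x11731) x11083) x11299) x11227) x11239) x11251) x11243) x11247) (Nat.mul x11245 (nat_lit 2))) x17805) x4685)
    (Nat.sub (Nat.sub (Nat.add (Nat.add (Nat.add (Nat.add (Nat.add (Nat.add (Nat.add (Nat.add C x15621) x9789) x11733) x11085) x11301) x11229) x11253) x11245) (Nat.mul x11247 (nat_lit 3))) x4687)
    (Nat.sub (Nat.sub (Nat.sub (Nat.add (Nat.add (Nat.add (Nat.add (Nat.add (Nat.add (Nat.add C x15625) x9793) x11737) x11089) x11305) x11245) x11253) (Nat.mul x11251 (nat_lit 2))) x17811) x4691)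
    (Nat.sub (Nat.sub (Nat.add (Nat.add (Nat.add (Nat.add (Nat.add (Nat.add (Nat.add C x15627) x9795) x11739) x11091) x11307) x11247) x11251) x11253) x4693)
    (Nat.sub (Nat.add (Nat.add (Nat.add (Nat.add (Nat.add (Nat.add (Nat.add C x15641) x9809) x11753) x11105) x11429) x11213) x11273) x17827)
    (Nat.sub (Nat.sub (Nat.add (Nat.add (Nat.add (Nat.add (Nat.add (Nat.add (Nat.add (Nat.add (Nat.add (Nat.add C x15647) x9815) x11759) x11111) x11435) x11219) x11291) x11267) x11279) x11275) x11273) x17833)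
    (Nat.sub (Nat.sub (Nat.sub (Nat.add (Nat.add (Nat.add (Nat.add (Nat.add (Nat.add (Nat.add (Nat.add (Nat.add C x15649) x9817) x11761) x11113) x11437) x11221) x11293) x11281) x11273) x11275) x17835) x4715)
    (Nat.sub (Nat.sub (Nat.add (Nat.add (Nat.add (Nat.add (Nat.add (Nat.add (Nat.add (Nat.add (Nat.add C x15653) x9821) x11765) x11117) x11441) x11225) x11297) x11273) x11281) (Nat.mul x11279 (nat_lit 4))) x17839)
    (Nat.sub (Nat.sub (Nat.sub (Nat.add (Nat.add (Nat.add (Nat.add (Nat.add (Nat.add (Nat.add (Nat.add (Nat.add (Nat.add C x15655) x9823) x11767) x11119) x11443) x11227) x11299) x11275) x11279) x11283) (Nat.mul x11281 (nat_lit 2))) x17841) x4721)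
    (Nat.sub (Nat.sub (Nat.add (Nat.add (Nat.add (Nat.add (Nat.add (Nat.add (Nat.add (Nat.add C x15657) x9825) x11769) x11121) x11445) x11229) x11301) x11281) (Nat.mul x11283 (nat_lit 2))) x4723)
    (Nat.sub (Nat.sub (Nat.add (Nat.add (Nat.add (Nat.add (Nat.add (Nat.add (Nat.add (Nat.add (Nat.add (Nat.add C x15665) x9833) x11777) x11129) x11453) x11237) x11345) x11273) x11297) x11293) x11291) x17851)
    (Nat.sub (Nat.sub (Nat.sub (Nat.add (Nat.add (Nat.add (Nat.add (Nat.add (Nat.add (Nat.add (Nat.add (Nat.add (Nat.add C x15667) x9835) x11779) x11131) x11455) x11239) x11347) x11275) x11299) x11291) (Nat.mul x11293 (nat_lit 2))) x17853) x4733)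
    (Nat.sub (Nat.sub (Nat.add (Nat.add (Nat.add (Nat.add (Nat.add (Nat.add (Nat.add (Nat.add (Nat.add (Nat.add (Nat.add C x15671) x9839) x11783) x11135) x11459) x11243) x11351) x11279) x11315) x11291) x11299) (Nat.mul x11297 (nat_lit 2))) x17857)
    (Nat.sub (Nat.sub (Nat.sub (Nat.add (Nat.add (Nat.add (Nat.add (Nat.add (Nat.add (Nat.add (Nat.add (Nat.add (Nat.add (Nat.add (Nat.add (Nat.add C x15673) x9841) x11785) x11137) x11461) x11245) x11353) x11281) x11317) x11293) x11305) x11297) x11301) x11299) x17859) x4739)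
    (Nat.sub (Nat.sub (Nat.add (Nat.add (Nat.add (Nat.add (Nat.add (Nat.add (Nat.add (Nat.add (Nat.add (Nat.add (Nat.add C x15675) x9843) x11787) x11139) x11463) x11247) x11355) x11283) x11319) x11307) x11299) (Nat.mul x11301 (nat_lit 2))) x4741)
    (Nat.sub (Nat.sub (Nat.sub (Nat.add (Nat.add (Nat.add (Nat.add (Nat.add (Nat.add (Nat.add (Nat.add (Nat.add (Nat.add C x15679) x9847) x11791) x11143) x11467) x11251) x11359) x11323) x11299) x11307) (Nat.mul x11305 (nat_lit 2))) x17865) x4745)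
    (Nat.sub (Nat.sub (Nat.add (Nat.add (Nat.add (Nat.add (Nat.add (Nat.add (Nat.add (Nat.add (Nat.add (Nat.add C x15681) x9849) x11793) x11145) x11469) x11253) x11361) x11325) x11301) x11305) x11307) x4747)
    (Nat.sub (Nat.sub (Nat.add (Nat.add (Nat.add (Nat.add (Nat.add (Nat.add (Nat.add (Nat.add C x15689) x9857) x11801) x11153) x11477) x11369) x11297) x11317) (Nat.mul x11315 (nat_lit 2))) x17875)
    (Nat.sub (Nat.sub (Nat.sub (Nat.add (Nat.add (Nat.add (Nat.add (Nat.add (Nat.add (Nat.add (Nat.add (Nat.add (Nat.add C x15691) x9859) x11803) x11155) x11479) x11371) x11299) x11323) x11315) x11319) (Nat.mul x11317 (nat_lit 2))) x17877) x4757)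
    (Nat.sub (Nat.sub (Nat.add (Nat.add (Nat.add (Nat.add (Nat.add (Nat.add (Nat.add (Nat.add (Nat.add C x15693) x9861) x11805) x11157) x11481) x11373) x11301) x11325) x11317) (Nat.mul x11319 (nat_lit 4))) x4759)
    (Nat.sub (Nat.sub (Nat.sub (Nat.add (Nat.add (Nat.add (Nat.add (Nat.add (Nat.add (Nat.add (Nat.add (Nat.add C x15697) x9865) x11809) x11161) x11485) x11377) x11305) x11317) x11325) x11323) x17883) x4763)
    (Nat.sub (Nat.sub (Nat.add (Nat.add (Nat.add (Nat.add (Nat.add (Nat.add (Nat.add (Nat.add (Nat.add (Nat.add C x15699) x9867) x11811) x11163) x11487) x11379) x11307) x11319) x11331) x11323) x11325) x4765)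
    (Nat.sub (Nat.add (Nat.add (Nat.add (Nat.add (Nat.add (Nat.add (Nat.add C x15705) x9873) x11817) x11169) x11493) x11385) x11325) x4771)
    (Nat.sub (Nat.sub (Nat.add (Nat.add (Nat.add (Nat.add (Nat.add (Nat.add (Nat.add C x15719) x9887) x11831) x11507) x11291) x11351) x11347) x11345) x17905)
    (Nat.sub (Nat.sub (Nat.sub (Nat.add (Nat.add (Nat.add (Nat.add (Nat.add (Nat.add (Nat.add C x15721) x9889) x11833) x11509) x11293) x11353) x11345) (Nat.mul x11347 (nat_lit 2))) x17907) x4787)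
    (Nat.sub (Nat.sub (Nat.add (Nat.add (Nat.add (Nat.add (Nat.add (Nat.add (Nat.add (Nat.add C x15725) x9893) x11837) x11513) x11297) x11369) x11345) x11353) (Nat.mul x11351 (nat_lit 3))) x17911)
    (Nat.sub (Nat.sub (Nat.sub (Nat.add (Nat.add (Nat.add (Nat.add (Nat.add (Nat.add (Nat.add (Nat.add (Nat.add (Nat.add C x15727) x9895) x11839) x11515) x11299) x11371) x11347) x11359) x11351) x11355) (Nat.mul x11353 (nat_lit 2))) x17913) x4793)
    (Nat.sub (Nat.sub (Nat.add (Nat.add (Nat.add (Nat.add (Nat.add (Nat.add (Nat.add (Nat.add C x15729) x9897) x11841) x11517) x11301) x11373) x11361) x11353) (Nat.mul x11355 (nat_lit 3))) x4795)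
    (Nat.sub (Nat.sub (Nat.sub (Nat.add (Nat.add (Nat.add (Nat.add (Nat.add (Nat.add (Nat.add (Nat.add C x15733) x9901) x11845) x11521) x11305) x11377) x11353) x11361) (Nat.mul x11359 (nat_lit 4))) x17919) x4799)
    (Nat.sub (Nat.sub (Nat.add (Nat.add (Nat.add (Nat.add (Nat.add (Nat.add (Nat.add (Nat.add C x15735) x9903) x11847) x11523) x11307) x11379) x11355) x11359) (Nat.mul x11361 (nat_lit 3))) x4801)
    (Nat.sub (Nat.sub (Nat.add (Nat.add (Nat.add (Nat.add (Nat.add (Nat.add (Nat.add C x15743) x9911) x11855) x11531) x11315) x11351) x11371) x11369) x17929)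
    (Nat.sub (Nat.sub (Nat.sub (Nat.add (Nat.add (Nat.add (Nat.add (Nat.add (Nat.add (Nat.add (Nat.add (Nat.add C x15745) x9913) x11857) x11533) x11317) x11353) x11377) x11369) x11373) x11371) x17931) x4811)
    (Nat.sub (Nat.sub (Nat.add (Nat.add (Nat.add (Nat.add (Nat.add (Nat.add (Nat.add (Nat.add C x15747) x9915) x11859) x11535) x11319) x11355) x11379) x11371) (Nat.mul x11373 (nat_lit 3))) x4813)
    (Nat.sub (Nat.sub (Nat.sub (Nat.add (Nat.add (Nat.add (Nat.add (Nat.add (Nat.add (Nat.add (Nat.add (Nat.add C x15751) x9919) x11863) x11539) x11323) x11359) x11395) x11371) x11379) x11377) x17937) x4817)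
    (Nat.sub (Nat.sub (Nat.add (Nat.add (Nat.add (Nat.add (Nat.add (Nat.add (Nat.add (Nat.add (Nat.add (Nat.add C x15753) x9921) x11865) x11541) x11325) x11361) x11397) x11373) x11385) x11377) x11379) x4819)
    (Nat.sub (Nat.sub (Nat.add (Nat.add (Nat.add (Nat.add (Nat.add (Nat.add (Nat.add C x15759) x9927) x11871) x11547) x11331) x11403) x11379) x11385) x4825)
    (Nat.sub (Nat.sub (Nat.add (Nat.add (Nat.add (Nat.add (Nat.add (Nat.add C x15769) x9937) x11881) x11557) x11377) x11397) x17955) x4835)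
    (Nat.sub (Nat.sub (Nat.add (Nat.add (Nat.add (Nat.add (Nat.add (Nat.add (Nat.add C x15771) x9939) x11883) x11559) x11379) x11403) x11395) x11397) x4837)
    (Nat.sub (Nat.add (Nat.add (Nat.add (Nat.add (Nat.add (Nat.add (Nat.add C x11403) x15777) x9945) x11889) x11565) x11385) x11397) x4843)
    (Nat.sub (Nat.sub (Nat.add (Nat.add (Nat.add (Nat.add (Nat.add C x15803) x9971) x11915) x11267) x11435) x11429) x17989)
    (Nat.sub (Nat.sub (Nat.add (Nat.add (Nat.add (Nat.add (Nat.add (Nat.add (Nat.add (Nat.add C x15809) x9977) x11921) x11273) x11453) x11429) x11441) x11437) (Nat.mul x11435 (nat_lit 2))) x17995)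
    (Nat.sub (Nat.sub (Nat.sub (Nat.add (Nat.add (Nat.add (Nat.add (Nat.add (Nat.add (Nat.add C x15811) x9979) x11923) x11275) x11455) x11443) x11435) (Nat.mul x11437 (nat_lit 2))) x17997) x4877)
    (Nat.sub (Nat.sub (Nat.add (Nat.add (Nat.add (Nat.add (Nat.add (Nat.add (Nat.add C x15815) x9983) x11927) x11279) x11459) x11435) x11443) (Nat.mul x11441 (nat_lit 5))) x18001)
    (Nat.sub (Nat.sub (Nat.sub (Nat.add (Nat.add (Nat.add (Nat.add (Nat.add (Nat.add (Nat.add (Nat.add C x15817) x9985) x11929) x11281) x11461) x11437) x11441) x11445) (Nat.mul x11443 (nat_lit 3))) x18003) x4883)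
    (Nat.sub (Nat.sub (Nat.add (Nat.add (Nat.add (Nat.add (Nat.add (Nat.add C x15819) x9987) x11931) x11283) x11463) x11443) (Nat.mul x11445 (nat_lit 3))) x4885)
    (Nat.sub (Nat.sub (Nat.add (Nat.add (Nat.add (Nat.add (Nat.add (Nat.add (Nat.add (Nat.add C x15827) x9995) x11939) x11291) x11507) x11435) x11459) x11455) (Nat.mul x11453 (nat_lit 3))) x18013)
    (Nat.sub (Nat.sub (Nat.sub (Nat.add (Nat.add (Nat.add (Nat.add (Nat.add (Nat.add (Nat.add (Nat.add C x15829) x9997) x11941) x11293) x11509) x11437) x11461) x11453) (Nat.mul x11455 (nat_lit 4))) x18015) x4895)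
    (Nat.sub (Nat.sub (Nat.add (Nat.add (Nat.add (Nat.add (Nat.add (Nat.add (Nat.add (Nat.add (Nat.add C x15833) x10001) x11945) x11297) x11513) x11441) x11477) x11453) x11461) (Nat.mul x11459 (nat_lit 4))) x18019)
    (Nat.sub (Nat.sub (Nat.sub (Nat.add (Nat.add (Nat.add (Nat.add (Nat.add (Nat.add (Nat.add (Nat.add (Nat.add (Nat.add (Nat.add C x15835) x10003) x11947) x11299) x11515) x11443) x11479) x11455) x11467) x11459) x11463) (Nat.mul x11461 (nat_lit 3))) x18021) x4901)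
    (Nat.sub (Nat.sub (Nat.add (Nat.add (Nat.add (Nat.add (Nat.add (Nat.add (Nat.add (Nat.add (Nat.add C x15837) x10005) x11949) x11301) x11517) x11445) x11481) x11469) x11461) (Nat.mul x11463 (nat_lit 4))) x4903)
    (Nat.sub (Nat.sub (Nat.sub (Nat.add (Nat.add (Nat.add (Nat.add (Nat.add (Nat.add (Nat.add (Nat.add C x15841) x10009) x11953) x11305) x11521) x11485) x11461) x11469) (Nat.mul x11467 (nat_lit 4))) x18027) x4907)
    (Nat.sub (Nat.sub (Nat.add (Nat.add (Nat.add (Nat.add (Nat.add (Nat.add (Nat.add (Nat.add C x15843) x10011) x11955) x11307) x11523) x11487) x11463) x11467) (Nat.mul x11469 (nat_lit 3))) x4909)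
    (Nat.sub (Nat.sub (Nat.add (Nat.add (Nat.add (Nat.add (Nat.add (Nat.add (Nat.add C x15851) x10019) x11963) x11315) x11531) x11459) x11479) (Nat.mul x11477 (nat_lit 5))) x18037)
    (Nat.sub (Nat.sub (Nat.sub (Nat.add (Nat.add (Nat.add (Nat.add (Nat.add (Nat.add (Nat.add (Nat.add (Nat.add C x15853) x10021) x11965) x11317) x11533) x11461) x11485) x11477) x11481) (Nat.mul x11479 (nat_lit 5))) x18039) x4919)
    (Nat.sub (Nat.sub (Nat.add (Nat.add (Nat.add (Nat.add (Nat.add (Nat.add (Nat.add (Nat.add C x15855) x10023) x11967) x11319) x11535) x11463) x11487) x11479) (Nat.mul x11481 (nat_lit 7))) x4921)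
    (Nat.sub (Nat.sub (Nat.sub (Nat.add (Nat.add (Nat.add (Nat.add (Nat.add (Nat.add (Nat.add (Nat.add C x15859) x10027) x11971) x11323) x11539) x11467) x11479) x11487) (Nat.mul x11485 (nat_lit 4))) x18045) x4925)
    (Nat.sub (Nat.sub (Nat.add (Nat.add (Nat.add (Nat.add (Nat.add (Nat.add (Nat.add (Nat.add (Nat.add C x15861) x10029) x11973) x11325) x11541) x11469) x11481) x11493) x11485) (Nat.mul x11487 (nat_lit 4))) x4927)
    (Nat.sub (Nat.sub (Nat.add (Nat.add (Nat.add (Nat.add (Nat.add (Nat.add C x15867) x10035) x11979) x11331) x11547) x11487) (Nat.mul x11493 (nat_lit 3))) x4933)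
    (Nat.sub (Nat.sub (Nat.add (Nat.add (Nat.add (Nat.add (Nat.add (Nat.add (Nat.add C x15881) x10049) x11993) x11345) x11453) x11513) x11509) x11507) x18067)
    (Nat.sub (Nat.sub (Nat.sub (Nat.add (Nat.add (Nat.add (Nat.add (Nat.add (Nat.add (Nat.add C x15883) x10051) x11995) x11347) x11455) x11515) x11507) (Nat.mul x11509 (nat_lit 2))) x18069) x4949)
    (Nat.sub (Nat.sub (Nat.add (Nat.add (Nat.add (Nat.add (Nat.add (Nat.add (Nat.add (Nat.add C x15887) x10055) x11999) x11351) x11459) x11531) x11507) x11515) (Nat.mul x11513 (nat_lit 3))) x18073)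
    (Nat.sub (Nat.sub (Nat.sub (Nat.add (Nat.add (Nat.add (Nat.add (Nat.add (Nat.add (Nat.add (Nat.add (Nat.add (Nat.add C x15889) x10057) x12001) x11353) x11461) x11533) x11509) x11521) x11513) x11517) (Nat.mul x11515 (nat_lit 2))) x18075) x4955)
    (Nat.sub (Nat.sub (Nat.add (Nat.add (Nat.add (Nat.add (Nat.add (Nat.add (Nat.add (Nat.add C x15891) x10059) x12003) x11355) x11463) x11535) x11523) x11515) (Nat.mul x11517 (nat_lit 3))) x4957)
    (Nat.sub (Nat.sub (Nat.sub (Nat.add (Nat.add (Nat.add (Nat.add (Nat.add (Nat.add (Nat.add (Nat.add C x15895) x10063) x12007) x11359) x11467) x11539) x11515) x11523) (Nat.mul x11521 (nat_lit 4))) x18081) x4961)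
    (Nat.sub (Nat.sub (Nat.add (Nat.add (Nat.add (Nat.add (Nat.add (Nat.add (Nat.add (Nat.add C x15897) x10065) x12009) x11361) x11469) x11541) x11517) x11521) (Nat.mul x11523 (nat_lit 3))) x4963)
    (Nat.sub (Nat.sub (Nat.add (Nat.add (Nat.add (Nat.add (Nat.add (Nat.add (Nat.add (Nat.add C x15905) x10073) x12017) x11369) x11477) x11585) x11513) x11533) (Nat.mul x11531 (nat_lit 2))) x18091)
    (Nat.sub (Nat.sub (Nat.sub (Nat.add (Nat.add (Nat.add (Nat.add (Nat.add (Nat.add (Nat.add (Nat.add (Nat.add (Nat.add C x15907) x10075) x12019) x11371) x11479) x11587) x11515) x11539) x11531) x11535) (Nat.mul x11533 (nat_lit 2))) x18093) x4973)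
    (Nat.sub (Nat.sub (Nat.add (Nat.add (Nat.add (Nat.add (Nat.add (Nat.add (Nat.add (Nat.add (Nat.add C x15909) x10077) x12021) x11373) x11481) x11589) x11517) x11541) x11533) (Nat.mul x11535 (nat_lit 4))) x4975)
    (Nat.sub (Nat.sub (Nat.sub (Nat.add (Nat.add (Nat.add (Nat.add (Nat.add (Nat.add (Nat.add (Nat.add (Nat.add (Nat.add C x15913) x10081) x12025) x11377) x11485) x11593) x11521) x11557) x11533) x11541) (Nat.mul x11539 (nat_lit 2))) x18099) x4979)
    (Nat.sub (Nat.sub (Nat.add (Nat.add (Nat.add (Nat.add (Nat.add (Nat.add (Nat.add (Nat.add (Nat.add (Nat.add (Nat.add C x15915) x10083) x12027) x11379) x11487) x11595) x11523) x11559) x11535) x11547) x11539) (Nat.mul x11541 (nat_lit 2))) x4981)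
    (Nat.sub (Nat.sub (Nat.add (Nat.add (Nat.add (Nat.add (Nat.add (Nat.add (Nat.add (Nat.add C x15921) x10089) x12033) x11385) x11493) x11601) x11565) x11541) (Nat.mul x11547 (nat_lit 2))) x4987)
    (Nat.sub (Nat.sub (Nat.sub (Nat.add (Nat.add (Nat.add (Nat.add (Nat.add (Nat.add (Nat.add C x15931) x10099) x12043) x11395) x11611) x11539) x11559) (Nat.mul x11557 (nat_lit 2))) x18117) x4997)
    (Nat.sub (Nat.sub (Nat.add (Nat.add (Nat.add (Nat.add (Nat.add (Nat.add (Nat.add (Nat.add C x15933) x10101) x12045) x11397) x11613) x11541) x11565) x11557) (Nat.mul x11559 (nat_lit 3))) x4999)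
    (Nat.sub (Nat.sub (Nat.add (Nat.add (Nat.add (Nat.add (Nat.add (Nat.add (Nat.add C x15939) x10107) x12051) x11403) x11619) x11547) x11559) x11565) x5005)
    (Nat.sub (Nat.sub (Nat.add (Nat.add (Nat.add (Nat.add (Nat.add C x15959) x10127) x12071) x11531) x11587) x11585) x18145)
    (Nat.sub (Nat.sub (Nat.sub (Nat.add (Nat.add (Nat.add (Nat.add (Nat.add (Nat.add (Nat.add C x15961) x10129) x12073) x11533) x11593) x11585) x11589) x11587) x18147) x5027)
    (Nat.sub (Nat.sub (Nat.add (Nat.add (Nat.add (Nat.add (Nat.add (Nat.add C x15963) x10131) x12075) x11535) x11595) x11587) (Nat.mul x11589 (nat_lit 3))) x5029)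
    (Nat.sub (Nat.sub (Nat.sub (Nat.add (Nat.add (Nat.add (Nat.add (Nat.add (Nat.add (Nat.add C x15967) x10135) x12079) x11539) x11611) x11587) x11595) (Nat.mul x11593 (nat_lit 2))) x18153) x5033)
    (Nat.sub (Nat.sub (Nat.add (Nat.add (Nat.add (Nat.add (Nat.add (Nat.add (Nat.add (Nat.add C x15969) x10137) x12081) x11541) x11613) x11589) x11601) x11593) (Nat.mul x11595 (nat_lit 2))) x5035)
    (Nat.sub (Nat.sub (Nat.add (Nat.add (Nat.add (Nat.add (Nat.add (Nat.add C x15975) x10143) x12087) x11547) x11619) x11595) (Nat.mul x11601 (nat_lit 3))) x5041)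
    (Nat.sub (Nat.sub (Nat.add (Nat.add (Nat.add (Nat.add (Nat.add (Nat.add C x15985) x10153) x12097) x11557) x11593) x11613) x18171) x5051)
    (Nat.sub (Nat.sub (Nat.add (Nat.add (Nat.add (Nat.add (Nat.add (Nat.add (Nat.add C x15987) x10155) x12099) x11559) x11595) x11619) x11611) x11613) x5053)
    (Nat.sub (Nat.add (Nat.add (Nat.add (Nat.add (Nat.add (Nat.add (Nat.add C x15993) x10161) x12105) x11565) x11601) x11637) x11613) x5059)
    (Nat.sub (Nat.add (Nat.add (Nat.add (Nat.add (Nat.add C x11637) x16011) x10179) x12123) x11619) x5077)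
    (Nat.sub (Nat.add (Nat.add (Nat.add (Nat.add (Nat.add (Nat.add C (Nat.mul x11681 (nat_lit 3))) x16055) x10223) x11195) x11699) x11687) x18241)
    (Nat.sub (Nat.add (Nat.add (Nat.add (Nat.add (Nat.add (Nat.add (Nat.add C x11687) x16061) x10229) x11201) x11705) x11681) x11689) x18247)
    (Nat.sub (Nat.sub (Nat.add (Nat.add (Nat.add (Nat.add (Nat.add (Nat.add C (Nat.mul x11689 (nat_lit 2))) x16063) x10231) x11203) x11707) x11687) x18249) x5129)
    (Nat.sub (Nat.add (Nat.add (Nat.add (Nat.add (Nat.add (Nat.add (Nat.add C x11699) x16073) x10241) x11213) x11753) x11681) x11705) x18259)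
    (Nat.sub (Nat.add (Nat.add (Nat.add (Nat.add (Nat.add (Nat.add (Nat.add (Nat.add (Nat.add (Nat.add C x11705) x16079) x10247) x11219) x11759) x11687) x11723) x11699) x11711) x11707) x18265)
    (Nat.sub (Nat.sub (Nat.add (Nat.add (Nat.add (Nat.add (Nat.add (Nat.add (Nat.add (Nat.add (Nat.add C x11707) x16081) x10249) x11221) x11761) x11689) x11725) x11713) x11705) x18267) x5147)
    (Nat.sub (Nat.sub (Nat.add (Nat.add (Nat.add (Nat.add (Nat.add (Nat.add (Nat.add C x16085) x10253) x11225) x11765) x11729) x11705) x11713) x11711) x18271)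
    (Nat.sub (Nat.sub (Nat.add (Nat.add (Nat.add (Nat.add (Nat.add (Nat.add (Nat.add (Nat.add (Nat.add C x11713) x16087) x10255) x11227) x11767) x11731) x11707) x11711) x11715) x18273) x5153)
    (Nat.sub (Nat.add (Nat.add (Nat.add (Nat.add (Nat.add (Nat.add (Nat.add C x11715) x16089) x10257) x11229) x11769) x11733) x11713) x5155)
    (Nat.sub (Nat.sub (Nat.add (Nat.add (Nat.add (Nat.add (Nat.add (Nat.add (Nat.add C x16097) x10265) x11237) x11777) x11705) x11729) x11725) x11723) x18283)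
    (Nat.sub (Nat.sub (Nat.sub (Nat.add (Nat.add (Nat.add (Nat.add (Nat.add (Nat.add (Nat.add C x16099) x10267) x11239) x11779) x11707) x11731) x11723) (Nat.mul x11725 (nat_lit 2))) x18285) x5165)
    (Nat.sub (Nat.sub (Nat.add (Nat.add (Nat.add (Nat.add (Nat.add (Nat.add (Nat.add C x16103) x10271) x11243) x11783) x11711) x11723) x11731) x11729) x18289)
    (Nat.sub (Nat.sub (Nat.add (Nat.add (Nat.add (Nat.add (Nat.add (Nat.add (Nat.add (Nat.add (Nat.add C x16105) x10273) x11245) x11785) x11713) x11725) x11737) x11729) x11733) x18291) x5171)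
    (Nat.sub (Nat.sub (Nat.add (Nat.add (Nat.add (Nat.add (Nat.add (Nat.add (Nat.add C x16107) x10275) x11247) x11787) x11715) x11739) x11731) x11733) x5173)
    (Nat.sub (Nat.sub (Nat.add (Nat.add (Nat.add (Nat.add (Nat.add (Nat.add C x16111) x10279) x11251) x11791) x11731) x11739) x18297) x5177)
    (Nat.sub (Nat.add (Nat.add (Nat.add (Nat.add (Nat.add (Nat.add (Nat.add C x11739) x16113) x10281) x11253) x11793) x11733) x11737) x5179)
    (Nat.sub (Nat.add (Nat.add (Nat.add (Nat.add (Nat.add (Nat.add (Nat.add C x11753) x16127) x10295) x11267) x11915) x11699) x11759) x18313)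
    (Nat.sub (Nat.add (Nat.add (Nat.add (Nat.add (Nat.add (Nat.add (Nat.add (Nat.add (Nat.add C x16133) x10301) x11273) x11921) x11705) x11777) x11753) x11765) x11761) x18319)
    (Nat.sub (Nat.sub (Nat.add (Nat.add (Nat.add (Nat.add (Nat.add (Nat.add (Nat.add (Nat.add C x16135) x10303) x11275) x11923) x11707) x11779) x11767) x11759) x18321) x5201)
    (Nat.sub (Nat.sub (Nat.add (Nat.add (Nat.add (Nat.add (Nat.add (Nat.add (Nat.add (Nat.add C x16139) x10307) x11279) x11927) x11711) x11783) x11759) x11767) (Nat.mul x11765 (nat_lit 3))) x18325)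
    (Nat.sub (Nat.sub (Nat.sub (Nat.add (Nat.add (Nat.add (Nat.add (Nat.add (Nat.add (Nat.add (Nat.add (Nat.add C x16141) x10309) x11281) x11929) x11713) x11785) x11761) x11765) x11769) x11767) x18327) x5207)
    (Nat.sub (Nat.sub (Nat.add (Nat.add (Nat.add (Nat.add (Nat.add (Nat.add (Nat.add C x16143) x10311) x11283) x11931) x11715) x11787) x11767) x11769) x5209)
    (Nat.sub (Nat.add (Nat.add (Nat.add (Nat.add (Nat.add (Nat.add (Nat.add (Nat.add (Nat.add C x16151) x10319) x11291) x11939) x11723) x11831) x11759) x11783) x11779) x18337)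
    (Nat.sub (Nat.sub (Nat.sub (Nat.add (Nat.add (Nat.add (Nat.add (Nat.add (Nat.add (Nat.add (Nat.add (Nat.add C x16153) x10321) x11293) x11941) x11725) x11833) x11761) x11785) x11777) x11779) x18339) x5219)
    (Nat.sub (Nat.sub (Nat.add (Nat.add (Nat.add (Nat.add (Nat.add (Nat.add (Nat.add (Nat.add (Nat.add (Nat.add C x16157) x10325) x11297) x11945) x11729) x11837) x11765) x11801) x11777) x11785) x11783) x18343)
    (Nat.sub (Nat.sub (Nat.add (Nat.add (Nat.add (Nat.add (Nat.add (Nat.add (Nat.add (Nat.add (Nat.add (Nat.add (Nat.add (Nat.add C x16159) x10327) x11299) x11947) x11731) x11839) x11767) x11803) x11779) x11791) x11783) x11787) x18345) x5225)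
    (Nat.sub (Nat.sub (Nat.add (Nat.add (Nat.add (Nat.add (Nat.add (Nat.add (Nat.add (Nat.add (Nat.add (Nat.add C x16161) x10329) x11301) x11949) x11733) x11841) x11769) x11805) x11793) x11785) x11787) x5227)
    (Nat.sub (Nat.sub (Nat.sub (Nat.add (Nat.add (Nat.add (Nat.add (Nat.add (Nat.add (Nat.add (Nat.add (Nat.add C x16165) x10333) x11305) x11953) x11737) x11845) x11809) x11785) x11793) x11791) x18351) x5231)
    (Nat.sub (Nat.add (Nat.add (Nat.add (Nat.add (Nat.add (Nat.add (Nat.add (Nat.add (Nat.add C x16167) x10335) x11307) x11955) x11739) x11847) x11811) x11787) x11791) x5233)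
    (Nat.sub (Nat.sub (Nat.add (Nat.add (Nat.add (Nat.add (Nat.add (Nat.add (Nat.add C x16175) x10343) x11315) x11963) x11855) x11783) x11803) x11801) x18361)
    (Nat.sub (Nat.sub (Nat.sub (Nat.add (Nat.add (Nat.add (Nat.add (Nat.add (Nat.add (Nat.add (Nat.add (Nat.add C x16177) x10345) x11317) x11965) x11857) x11785) x11809) x11801) x11805) x11803) x18363) x5243)
    (Nat.sub (Nat.sub (Nat.add (Nat.add (Nat.add (Nat.add (Nat.add (Nat.add (Nat.add (Nat.add C x16179) x10347) x11319) x11967) x11859) x11787) x11811) x11803) (Nat.mul x11805 (nat_lit 3))) x5245)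
    (Nat.sub (Nat.sub (Nat.add (Nat.add (Nat.add (Nat.add (Nat.add (Nat.add (Nat.add (Nat.add C x16183) x10351) x11323) x11971) x11863) x11791) x11803) x11811) x18369) x5249)
    (Nat.sub (Nat.add (Nat.add (Nat.add (Nat.add (Nat.add (Nat.add (Nat.add (Nat.add (Nat.add C x16185) x10353) x11325) x11973) x11865) x11793) x11805) x11817) x11809) x5251)
    (Nat.sub (Nat.add (Nat.add (Nat.add (Nat.add (Nat.add (Nat.add (Nat.add C x11817) x16191) x10359) x11331) x11979) x11871) x11811) x5257)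
    (Nat.sub (Nat.sub (Nat.add (Nat.add (Nat.add (Nat.add (Nat.add (Nat.add (Nat.add C x16205) x10373) x11345) x11993) x11777) x11837) x11833) x11831) x18391)
    (Nat.sub (Nat.sub (Nat.sub (Nat.add (Nat.add (Nat.add (Nat.add (Nat.add (Nat.add (Nat.add C x16207) x10375) x11347) x11995) x11779) x11839) x11831) (Nat.mul x11833 (nat_lit 2))) x18393) x5273)
    (Nat.sub (Nat.sub (Nat.add (Nat.add (Nat.add (Nat.add (Nat.add (Nat.add (Nat.add (Nat.add C x16211) x10379) x11351) x11999) x11783) x11855) x11831) x11839) (Nat.mul x11837 (nat_lit 3))) x18397)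
    (Nat.sub (Nat.sub (Nat.sub (Nat.add (Nat.add (Nat.add (Nat.add (Nat.add (Nat.add (Nat.add (Nat.add (Nat.add (Nat.add C x16213) x10381) x11353) x12001) x11785) x11857) x11833) x11845) x11837) x11841) (Nat.mul x11839 (nat_lit 2))) x18399) x5279)
    (Nat.sub (Nat.sub (Nat.add (Nat.add (Nat.add (Nat.add (Nat.add (Nat.add (Nat.add (Nat.add C x16215) x10383) x11355) x12003) x11787) x11859) x11847) x11839) (Nat.mul x11841 (nat_lit 3))) x5281)
    (Nat.sub (Nat.sub (Nat.sub (Nat.add (Nat.add (Nat.add (Nat.add (Nat.add (Nat.add (Nat.add (Nat.add C x16219) x10387) x11359) x12007) x11791) x11863) x11839) x11847) (Nat.mul x11845 (nat_lit 4))) x18405) x5285)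
    (Nat.sub (Nat.sub (Nat.add (Nat.add (Nat.add (Nat.add (Nat.add (Nat.add (Nat.add (Nat.add C x16221) x10389) x11361) x12009) x11793) x11865) x11841) x11845) (Nat.mul x11847 (nat_lit 3))) x5287)
    (Nat.sub (Nat.sub (Nat.add (Nat.add (Nat.add (Nat.add (Nat.add (Nat.add (Nat.add C x16229) x10397) x11369) x12017) x11801) x11837) x11857) x11855) x18415)
    (Nat.sub (Nat.sub (Nat.sub (Nat.add (Nat.add (Nat.add (Nat.add (Nat.add (Nat.add (Nat.add (Nat.add (Nat.add C x16231) x10399) x11371) x12019) x11803) x11839) x11863) x11855) x11859) x11857) x18417) x5297)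
    (Nat.sub (Nat.sub (Nat.add (Nat.add (Nat.add (Nat.add (Nat.add (Nat.add (Nat.add (Nat.add C x16233) x10401) x11373) x12021) x11805) x11841) x11865) x11857) (Nat.mul x11859 (nat_lit 3))) x5299)
    (Nat.sub (Nat.sub (Nat.sub (Nat.add (Nat.add (Nat.add (Nat.add (Nat.add (Nat.add (Nat.add (Nat.add (Nat.add C x16237) x10405) x11377) x12025) x11809) x11845) x11881) x11857) x11865) x11863) x18423) x5303)
    (Nat.sub (Nat.sub (Nat.add (Nat.add (Nat.add (Nat.add (Nat.add (Nat.add (Nat.add (Nat.add (Nat.add (Nat.add C x16239) x10407) x11379) x12027) x11811) x11847) x11883) x11859) x11871) x11863) x11865) x5305)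
    (Nat.sub (Nat.sub (Nat.add (Nat.add (Nat.add (Nat.add (Nat.add (Nat.add (Nat.add C x16245) x10413) x11385) x12033) x11817) x11889) x11865) x11871) x5311)
    (Nat.sub (Nat.sub (Nat.add (Nat.add (Nat.add (Nat.add (Nat.add (Nat.add C x16255) x10423) x11395) x12043) x11863) x11883) x18441) x5321)
    (Nat.sub (Nat.sub (Nat.add (Nat.add (Nat.add (Nat.add (Nat.add (Nat.add (Nat.add C x16257) x10425) x11397) x12045) x11865) x11889) x11881) x11883) x5323)
    (Nat.sub (Nat.add (Nat.add (Nat.add (Nat.add (Nat.add (Nat.add (Nat.add C x11889) x16263) x10431) x11403) x12051) x11871) x11883) x5329)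
    (Nat.sub (Nat.add (Nat.add (Nat.add (Nat.add (Nat.add (Nat.add (Nat.add C (Nat.mul x11915 (nat_lit 2))) x16289) x10457) x11429) x12401) x11753) x11921) x18475)
    (Nat.sub (Nat.add (Nat.add (Nat.add (Nat.add (Nat.add (Nat.add (Nat.add (Nat.add (Nat.add (Nat.add C x11921) x16295) x10463) x11435) x12407) x11759) x11939) x11915) x11927) x11923) x18481)
    (Nat.sub (Nat.sub (Nat.add (Nat.add (Nat.add (Nat.add (Nat.add (Nat.add (Nat.add (Nat.add (Nat.add C x11923) x16297) x10465) x11437) x12409) x11761) x11941) x11929) x11921) x18483) x5363)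
    (Nat.sub (Nat.sub (Nat.add (Nat.add (Nat.add (Nat.add (Nat.add (Nat.add (Nat.add (Nat.add C x16301) x10469) x11441) x12413) x11765) x11945) x11921) x11929) (Nat.mul x11927 (nat_lit 2))) x18487)
    (Nat.sub (Nat.sub (Nat.add (Nat.add (Nat.add (Nat.add (Nat.add (Nat.add (Nat.add (Nat.add (Nat.add C x16303) x10471) x11443) x12415) x11767) x11947) x11923) x11927) x11931) x18489) x5369)
    (Nat.sub (Nat.add (Nat.add (Nat.add (Nat.add (Nat.add (Nat.add (Nat.add C x16305) x10473) x11445) x12417) x11769) x11949) x11929) x5371)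
    (Nat.sub (Nat.add (Nat.add (Nat.add (Nat.add (Nat.add (Nat.add (Nat.add (Nat.add (Nat.add C x16313) x10481) x11453) x12425) x11777) x11993) x11921) x11945) x11941) x18499)
    (Nat.sub (Nat.sub (Nat.sub (Nat.add (Nat.add (Nat.add (Nat.add (Nat.add (Nat.add (Nat.add (Nat.add (Nat.add C x16315) x10483) x11455) x12427) x11779) x11995) x11923) x11947) x11939) x11941) x18501) x5381)
    (Nat.sub (Nat.sub (Nat.add (Nat.add (Nat.add (Nat.add (Nat.add (Nat.add (Nat.add (Nat.add (Nat.add (Nat.add C x16319) x10487) x11459) x12431) x11783) x11999) x11927) x11963) x11939) x11947) x11945) x18505)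
    (Nat.sub (Nat.sub (Nat.add (Nat.add (Nat.add (Nat.add (Nat.add (Nat.add (Nat.add (Nat.add (Nat.add (Nat.add (Nat.add (Nat.add C x16321) x10489) x11461) x12433) x11785) x12001) x11929) x11965) x11941) x11953) x11945) x11949) x18507) x5387)
    (Nat.sub (Nat.sub (Nat.add (Nat.add (Nat.add (Nat.add (Nat.add (Nat.add (Nat.add (Nat.add (Nat.add (Nat.add C x16323) x10491) x11463) x12435) x11787) x12003) x11931) x11967) x11955) x11947) x11949) x5389)
    (Nat.sub (Nat.sub (Nat.sub (Nat.add (Nat.add (Nat.add (Nat.add (Nat.add (Nat.add (Nat.add (Nat.add (Nat.add C x16327) x10495) x11467) x12439) x11791) x12007) x11971) x11947) x11955) x11953) x18513) x5393)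
    (Nat.sub (Nat.add (Nat.add (Nat.add (Nat.add (Nat.add (Nat.add (Nat.add (Nat.add (Nat.add C x16329) x10497) x11469) x12441) x11793) x12009) x11973) x11949) x11953) x5395)
    (Nat.sub (Nat.sub (Nat.add (Nat.add (Nat.add (Nat.add (Nat.add (Nat.add (Nat.add (Nat.add C x16337) x10505) x11477) x12449) x11801) x12017) x11945) x11965) (Nat.mul x11963 (nat_lit 2))) x18523)
    (Nat.sub (Nat.sub (Nat.sub (Nat.add (Nat.add (Nat.add (Nat.add (Nat.add (Nat.add (Nat.add (Nat.add (Nat.add (Nat.add C x16339) x10507) x11479) x12451) x11803) x12019) x11947) x11971) x11963) x11967) (Nat.mul x11965 (nat_lit 2))) x18525) x5405)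
    (Nat.sub (Nat.sub (Nat.add (Nat.add (Nat.add (Nat.add (Nat.add (Nat.add (Nat.add (Nat.add (Nat.add C x16341) x10509) x11481) x12453) x11805) x12021) x11949) x11973) x11965) (Nat.mul x11967 (nat_lit 4))) x5407)
    (Nat.sub (Nat.sub (Nat.sub (Nat.add (Nat.add (Nat.add (Nat.add (Nat.add (Nat.add (Nat.add (Nat.add (Nat.add C x16345) x10513) x11485) x12457) x11809) x12025) x11953) x11965) x11973) x11971) x18531) x5411)
    (Nat.sub (Nat.sub (Nat.add (Nat.add (Nat.add (Nat.add (Nat.add (Nat.add (Nat.add (Nat.add (Nat.add (Nat.add C x16347) x10515) x11487) x12459) x11811) x12027) x11955) x11967) x11979) x11971) x11973) x5413)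
    (Nat.sub (Nat.add (Nat.add (Nat.add (Nat.add (Nat.add (Nat.add (Nat.add C x16353) x10521) x11493) x12465) x11817) x12033) x11973) x5419)
    (Nat.sub (Nat.add (Nat.add (Nat.add (Nat.add (Nat.add (Nat.add (Nat.add (Nat.add (Nat.add (Nat.add C x11993) x16367) x10535) x11507) x12479) x11831) x12155) x11939) x11999) x11995) x18553)
    (Nat.sub (Nat.sub (Nat.add (Nat.add (Nat.add (Nat.add (Nat.add (Nat.add (Nat.add (Nat.add (Nat.add C x16369) x10537) x11509) x12481) x11833) x12157) x11941) x12001) x11993) x18555) x5435)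
    (Nat.sub (Nat.sub (Nat.add (Nat.add (Nat.add (Nat.add (Nat.add (Nat.add (Nat.add (Nat.add (Nat.add (Nat.add C x16373) x10541) x11513) x12485) x11837) x12161) x11945) x12017) x11993) x12001) x11999) x18559)
    (Nat.sub (Nat.sub (Nat.add (Nat.add (Nat.add (Nat.add (Nat.add (Nat.add (Nat.add (Nat.add (Nat.add (Nat.add (Nat.add (Nat.add C x16375) x10543) x11515) x12487) x11839) x12163) x11947) x12019) x11995) x12007) x11999) x12003) x18561) x5441)
    (Nat.sub (Nat.sub (Nat.add (Nat.add (Nat.add (Nat.add (Nat.add (Nat.add (Nat.add (Nat.add (Nat.add (Nat.add C x16377) x10545) x11517) x12489) x11841) x12165) x11949) x12021) x12009) x12001) x12003) x5443)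
    (Nat.sub (Nat.sub (Nat.sub (Nat.add (Nat.add (Nat.add (Nat.add (Nat.add (Nat.add (Nat.add (Nat.add (Nat.add (Nat.add C x16381) x10549) x11521) x12493) x11845) x12169) x11953) x12025) x12001) x12009) (Nat.mul x12007 (nat_lit 2))) x18567) x5447)
    (Nat.sub (Nat.sub (Nat.add (Nat.add (Nat.add (Nat.add (Nat.add (Nat.add (Nat.add (Nat.add (Nat.add (Nat.add C x16383) x10551) x11523) x12495) x11847) x12171) x11955) x12027) x12003) x12007) x12009) x5449)
    (Nat.sub (Nat.add (Nat.add (Nat.add (Nat.add (Nat.add (Nat.add (Nat.add (Nat.add (Nat.add (Nat.add C x16391) x10559) x11531) x12503) x11855) x12179) x11963) x12071) x11999) x12019) x18577)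
    (Nat.sub (Nat.sub (Nat.add (Nat.add (Nat.add (Nat.add (Nat.add (Nat.add (Nat.add (Nat.add (Nat.add (Nat.add (Nat.add (Nat.add C x16393) x10561) x11533) x12505) x11857) x12181) x11965) x12073) x12001) x12025) x12017) x12021) x18579) x5459)
    (Nat.sub (Nat.sub (Nat.add (Nat.add (Nat.add (Nat.add (Nat.add (Nat.add (Nat.add (Nat.add (Nat.add (Nat.add (Nat.add C x16395) x10563) x11535) x12507) x11859) x12183) x11967) x12075) x12003) x12027) x12019) (Nat.mul x12021 (nat_lit 2))) x5461)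
    (Nat.sub (Nat.sub (Nat.add (Nat.add (Nat.add (Nat.add (Nat.add (Nat.add (Nat.add (Nat.add (Nat.add (Nat.add (Nat.add (Nat.add C x16399) x10567) x11539) x12511) x11863) x12187) x11971) x12079) x12007) x12043) x12019) x12027) x18585) x5465)
    (Nat.sub (Nat.add (Nat.add (Nat.add (Nat.add (Nat.add (Nat.add (Nat.add (Nat.add (Nat.add (Nat.add (Nat.add (Nat.add (Nat.add C x16401) x10569) x11541) x12513) x11865) x12189) x11973) x12081) x12009) x12045) x12021) x12033) x12025) x5467)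
    (Nat.sub (Nat.add (Nat.add (Nat.add (Nat.add (Nat.add (Nat.add (Nat.add (Nat.add (Nat.add (Nat.add C x16407) x10575) x11547) x12519) x11871) x12195) x11979) x12087) x12051) x12027) x5473)
    (Nat.sub (Nat.sub (Nat.add (Nat.add (Nat.add (Nat.add (Nat.add (Nat.add (Nat.add (Nat.add (Nat.add C x16417) x10585) x11557) x12529) x11881) x12205) x12097) x12025) x12045) x18603) x5483)
    (Nat.sub (Nat.sub (Nat.add (Nat.add (Nat.add (Nat.add (Nat.add (Nat.add (Nat.add (Nat.add (Nat.add (Nat.add C x16419) x10587) x11559) x12531) x11883) x12207) x12099) x12027) x12051) x12043) x12045) x5485)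
    (Nat.sub (Nat.add (Nat.add (Nat.add (Nat.add (Nat.add (Nat.add (Nat.add (Nat.add (Nat.add (Nat.add C x12051) x16425) x10593) x11565) x12537) x11889) x12213) x12105) x12033) x12045) x5491)
    (Nat.sub (Nat.add (Nat.add (Nat.add (Nat.add (Nat.add (Nat.add (Nat.add C x16445) x10613) x11585) x12557) x12233) x12017) x12073) x18631)
    (Nat.sub (Nat.sub (Nat.add (Nat.add (Nat.add (Nat.add (Nat.add (Nat.add (Nat.add (Nat.add (Nat.add C x16447) x10615) x11587) x12559) x12235) x12019) x12079) x12071) x12075) x18633) x5513)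
    (Nat.sub (Nat.sub (Nat.add (Nat.add (Nat.add (Nat.add (Nat.add (Nat.add (Nat.add (Nat.add C x16449) x10617) x11589) x12561) x12237) x12021) x12081) x12073) (Nat.mul x12075 (nat_lit 2))) x5515)
    (Nat.sub (Nat.sub (Nat.sub (Nat.add (Nat.add (Nat.add (Nat.add (Nat.add (Nat.add (Nat.add (Nat.add (Nat.add C x16453) x10621) x11593) x12565) x12241) x12025) x12097) x12073) x12081) x12079) x18639) x5519)
    (Nat.sub (Nat.sub (Nat.add (Nat.add (Nat.add (Nat.add (Nat.add (Nat.add (Nat.add (Nat.add (Nat.add (Nat.add C x16455) x10623) x11595) x12567) x12243) x12027) x12099) x12075) x12087) x12079) x12081) x5521)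
    (Nat.sub (Nat.sub (Nat.add (Nat.add (Nat.add (Nat.add (Nat.add (Nat.add (Nat.add (Nat.add C x16461) x10629) x11601) x12573) x12249) x12033) x12105) x12081) (Nat.mul x12087 (nat_lit 2))) x5527)
    (Nat.sub (Nat.sub (Nat.add (Nat.add (Nat.add (Nat.add (Nat.add (Nat.add (Nat.add (Nat.add (Nat.add C x12097) x16471) x10639) x11611) x12583) x12259) x12043) x12079) x12099) x18657) x5537)
    (Nat.sub (Nat.add (Nat.add (Nat.add (Nat.add (Nat.add (Nat.add (Nat.add (Nat.add (Nat.add C x16473) x10641) x11613) x12585) x12261) x12045) x12081) x12105) x12097) x5539)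
    (Nat.sub (Nat.add (Nat.add (Nat.add (Nat.add (Nat.add (Nat.add (Nat.add (Nat.add (Nat.add (Nat.add C x12105) x16479) x10647) x11619) x12591) x12267) x12051) x12087) x12123) x12099) x5545)
    (Nat.sub (Nat.add (Nat.add (Nat.add (Nat.add (Nat.add (Nat.add (Nat.add C (Nat.mul x12123 (nat_lit 2))) x16497) x10665) x11637) x12609) x12285) x12105) x5563)
    (Nat.sub (Nat.add (Nat.add (Nat.add (Nat.add (Nat.add (Nat.add (Nat.add C x12155) x16529) x10697) x12641) x11993) x12161) x12157) x18715)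
    (Nat.sub (Nat.sub (Nat.add (Nat.add (Nat.add (Nat.add (Nat.add (Nat.add C x16531) x10699) x12643) x11995) x12163) x12155) x18717) x5597)
    (Nat.sub (Nat.sub (Nat.add (Nat.add (Nat.add (Nat.add (Nat.add (Nat.add (Nat.add C x16535) x10703) x12647) x11999) x12179) x12155) x12163) x12161) x18721)
    (Nat.sub (Nat.sub (Nat.add (Nat.add (Nat.add (Nat.add (Nat.add (Nat.add (Nat.add (Nat.add (Nat.add C x16537) x10705) x12649) x12001) x12181) x12157) x12169) x12161) x12165) x18723) x5603)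
    (Nat.sub (Nat.sub (Nat.add (Nat.add (Nat.add (Nat.add (Nat.add (Nat.add (Nat.add C x16539) x10707) x12651) x12003) x12183) x12171) x12163) x12165) x5605)
    (Nat.sub (Nat.sub (Nat.sub (Nat.add (Nat.add (Nat.add (Nat.add (Nat.add (Nat.add (Nat.add C x16543) x10711) x12655) x12007) x12187) x12163) x12171) (Nat.mul x12169 (nat_lit 2))) x18729) x5609)
    (Nat.sub (Nat.sub (Nat.add (Nat.add (Nat.add (Nat.add (Nat.add (Nat.add (Nat.add C x16545) x10713) x12657) x12009) x12189) x12165) x12169) x12171) x5611)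
    (Nat.sub (Nat.sub (Nat.add (Nat.add (Nat.add (Nat.add (Nat.add (Nat.add (Nat.add C x16553) x10721) x12665) x12017) x12233) x12161) x12181) x12179) x18739)
    (Nat.sub (Nat.sub (Nat.sub (Nat.add (Nat.add (Nat.add (Nat.add (Nat.add (Nat.add (Nat.add (Nat.add (Nat.add C x16555) x10723) x12667) x12019) x12235) x12163) x12187) x12179) x12183) x12181) x18741) x5621)
    (Nat.sub (Nat.sub (Nat.add (Nat.add (Nat.add (Nat.add (Nat.add (Nat.add (Nat.add (Nat.add C x16557) x10725) x12669) x12021) x12237) x12165) x12189) x12181) (Nat.mul x12183 (nat_lit 3))) x5623)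
    (Nat.sub (Nat.sub (Nat.sub (Nat.add (Nat.add (Nat.add (Nat.add (Nat.add (Nat.add (Nat.add (Nat.add (Nat.add C x16561) x10729) x12673) x12025) x12241) x12169) x12205) x12181) x12189) x12187) x18747) x5627)
    (Nat.sub (Nat.sub (Nat.add (Nat.add (Nat.add (Nat.add (Nat.add (Nat.add (Nat.add (Nat.add (Nat.add (Nat.add C x16563) x10731) x12675) x12027) x12243) x12171) x12207) x12183) x12195) x12187) x12189) x5629)
    (Nat.sub (Nat.sub (Nat.add (Nat.add (Nat.add (Nat.add (Nat.add (Nat.add (Nat.add C x16569) x10737) x12681) x12033) x12249) x12213) x12189) x12195) x5635)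
    (Nat.sub (Nat.sub (Nat.sub (Nat.add (Nat.add (Nat.add (Nat.add (Nat.add (Nat.add (Nat.add C x16579) x10747) x12691) x12043) x12259) x12187) x12207) (Nat.mul x12205 (nat_lit 2))) x18765) x5645)
    (Nat.sub (Nat.sub (Nat.add (Nat.add (Nat.add (Nat.add (Nat.add (Nat.add (Nat.add (Nat.add C x16581) x10749) x12693) x12045) x12261) x12189) x12213) x12205) (Nat.mul x12207 (nat_lit 3))) x5647)
    (Nat.sub (Nat.sub (Nat.add (Nat.add (Nat.add (Nat.add (Nat.add (Nat.add (Nat.add C x16587) x10755) x12699) x12051) x12267) x12195) x12207) x12213) x5653)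
    (Nat.sub (Nat.add (Nat.add (Nat.add (Nat.add (Nat.add (Nat.add (Nat.add C x12233) x16607) x10775) x12719) x12071) x12179) x12235) x18793)
    (Nat.sub (Nat.sub (Nat.add (Nat.add (Nat.add (Nat.add (Nat.add (Nat.add (Nat.add (Nat.add (Nat.add C x12235) x16609) x10777) x12721) x12073) x12181) x12241) x12233) x12237) x18795) x5675)
    (Nat.sub (Nat.sub (Nat.add (Nat.add (Nat.add (Nat.add (Nat.add (Nat.add (Nat.add C x16611) x10779) x12723) x12075) x12183) x12243) x12235) x12237) x5677)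
    (Nat.sub (Nat.sub (Nat.add (Nat.add (Nat.add (Nat.add (Nat.add (Nat.add (Nat.add (Nat.add C x16615) x10783) x12727) x12079) x12187) x12259) x12235) x12243) x18801) x5681)
    (Nat.sub (Nat.add (Nat.add (Nat.add (Nat.add (Nat.add (Nat.add (Nat.add (Nat.add (Nat.add C x16617) x10785) x12729) x12081) x12189) x12261) x12237) x12249) x12241) x5683)
    (Nat.sub (Nat.sub (Nat.add (Nat.add (Nat.add (Nat.add (Nat.add (Nat.add (Nat.add C x16623) x10791) x12735) x12087) x12195) x12267) x12243) x12249) x5689)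
    (Nat.sub (Nat.sub (Nat.add (Nat.add (Nat.add (Nat.add (Nat.add (Nat.add (Nat.add (Nat.add (Nat.add C x12259) x16633) x10801) x12745) x12097) x12205) x12313) x12241) x12261) x18819) x5699)
    (Nat.sub (Nat.add (Nat.add (Nat.add (Nat.add (Nat.add (Nat.add (Nat.add (Nat.add (Nat.add C x16635) x10803) x12747) x12099) x12207) x12315) x12243) x12267) x12259) x5701)
    (Nat.sub (Nat.add (Nat.add (Nat.add (Nat.add (Nat.add (Nat.add (Nat.add (Nat.add (Nat.add (Nat.add C x12267) x16641) x10809) x12753) x12105) x12213) x12321) x12249) x12285) x12261) x5707)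
    (Nat.sub (Nat.add (Nat.add (Nat.add (Nat.add (Nat.add (Nat.add (Nat.add C x12285) x16659) x10827) x12771) x12123) x12339) x12267) x5725)
    (Nat.sub (Nat.sub (Nat.add (Nat.add (Nat.add (Nat.add (Nat.add (Nat.add C (Nat.mul x12313 (nat_lit 2))) x16687) x10855) x12799) x12259) x12315) x18873) x5753)
    (Nat.sub (Nat.add (Nat.add (Nat.add (Nat.add (Nat.add (Nat.add (Nat.add C x12315) x16689) x10857) x12801) x12261) x12321) x12313) x5755)
    (Nat.sub (Nat.add (Nat.add (Nat.add (Nat.add (Nat.add (Nat.add (Nat.add C x12321) x16695) x10863) x12807) x12267) x12339) x12315) x5761)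
    (Nat.sub (Nat.add (Nat.add (Nat.add (Nat.add (Nat.add (Nat.add C (Nat.mul x12339 (nat_lit 3))) x16713) x10881) x12825) x12285) x12321) x5779)
    (Nat.sub (Nat.add (Nat.add (Nat.add (Nat.add C (Nat.mul x12401 (nat_lit 3))) x16775) x11915) x12407) x18961)
    (Nat.sub (Nat.add (Nat.add (Nat.add (Nat.add (Nat.add (Nat.add (Nat.add C (Nat.mul x12407 (nat_lit 2))) x16781) x11921) x12425) x12401) x12413) x12409) x18967)
    (Nat.sub (Nat.sub (Nat.add (Nat.add (Nat.add (Nat.add (Nat.add (Nat.add C (Nat.mul x12409 (nat_lit 2))) x16783) x11923) x12427) x12415) x12407) x18969) x5849)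
    (Nat.sub (Nat.sub (Nat.add (Nat.add (Nat.add (Nat.add (Nat.add C x16787) x11927) x12431) x12407) x12415) x12413) x18973)
    (Nat.sub (Nat.sub (Nat.add (Nat.add (Nat.add (Nat.add (Nat.add (Nat.add (Nat.add C x12415) x16789) x11929) x12433) x12409) x12413) x12417) x18975) x5855)
    (Nat.sub (Nat.add (Nat.add (Nat.add (Nat.add (Nat.add C x12417) x16791) x11931) x12435) x12415) x5857)
    (Nat.sub (Nat.add (Nat.add (Nat.add (Nat.add (Nat.add (Nat.add (Nat.add C x12425) x16799) x11939) x12479) x12407) x12431) x12427) x18985)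
    (Nat.sub (Nat.sub (Nat.add (Nat.add (Nat.add (Nat.add (Nat.add (Nat.add C x16801) x11941) x12481) x12409) x12433) x12425) x18987) x5867)
    (Nat.sub (Nat.add (Nat.add (Nat.add (Nat.add (Nat.add (Nat.add (Nat.add C x16805) x11945) x12485) x12413) x12449) x12425) x12433) x18991)
    (Nat.sub (Nat.sub (Nat.add (Nat.add (Nat.add (Nat.add (Nat.add (Nat.add (Nat.add (Nat.add (Nat.add (Nat.add C x12433) x16807) x11947) x12487) x12415) x12451) x12427) x12439) x12431) x12435) x18993) x5873)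
    (Nat.sub (Nat.add (Nat.add (Nat.add (Nat.add (Nat.add (Nat.add (Nat.add C x16809) x11949) x12489) x12417) x12453) x12441) x12433) x5875)
    (Nat.sub (Nat.sub (Nat.add (Nat.add (Nat.add (Nat.add (Nat.add (Nat.add C x16813) x11953) x12493) x12457) x12433) x12441) x18999) x5879)
    (Nat.sub (Nat.add (Nat.add (Nat.add (Nat.add (Nat.add (Nat.add (Nat.add C x12441) x16815) x11955) x12495) x12459) x12435) x12439) x5881)
    (Nat.sub (Nat.sub (Nat.add (Nat.add (Nat.add (Nat.add (Nat.add C x16823) x11963) x12503) x12431) x12451) x12449) x19009)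
    (Nat.sub (Nat.sub (Nat.sub (Nat.add (Nat.add (Nat.add (Nat.add (Nat.add (Nat.add (Nat.add C x16825) x11965) x12505) x12433) x12457) x12449) x12453) x12451) x19011) x5891)
    (Nat.sub (Nat.sub (Nat.add (Nat.add (Nat.add (Nat.add (Nat.add (Nat.add C x16827) x11967) x12507) x12435) x12459) x12451) (Nat.mul x12453 (nat_lit 3))) x5893)
    (Nat.sub (Nat.sub (Nat.add (Nat.add (Nat.add (Nat.add (Nat.add (Nat.add C x16831) x11971) x12511) x12439) x12451) x12459) x19017) x5897)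
    (Nat.sub (Nat.add (Nat.add (Nat.add (Nat.add (Nat.add (Nat.add (Nat.add C x16833) x11973) x12513) x12441) x12453) x12465) x12457) x5899)
    (Nat.sub (Nat.add (Nat.add (Nat.add (Nat.add (Nat.add C x12465) x16839) x11979) x12519) x12459) x5905)
    (Nat.sub (Nat.add (Nat.add (Nat.add (Nat.add (Nat.add (Nat.add (Nat.add C x12479) x16853) x11993) x12641) x12425) x12485) x12481) x19039)
    (Nat.sub (Nat.sub (Nat.add (Nat.add (Nat.add (Nat.add (Nat.add (Nat.add C x16855) x11995) x12643) x12427) x12487) x12479) x19041) x5921)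
    (Nat.sub (Nat.sub (Nat.add (Nat.add (Nat.add (Nat.add (Nat.add (Nat.add (Nat.add C x16859) x11999) x12647) x12431) x12503) x12479) x12487) x12485) x19045)
    (Nat.sub (Nat.sub (Nat.add (Nat.add (Nat.add (Nat.add (Nat.add (Nat.add (Nat.add (Nat.add (Nat.add C x16861) x12001) x12649) x12433) x12505) x12481) x12493) x12485) x12489) x19047) x5927)
    (Nat.sub (Nat.sub (Nat.add (Nat.add (Nat.add (Nat.add (Nat.add (Nat.add (Nat.add C x16863) x12003) x12651) x12435) x12507) x12495) x12487) x12489) x5929)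
    (Nat.sub (Nat.sub (Nat.sub (Nat.add (Nat.add (Nat.add (Nat.add (Nat.add (Nat.add (Nat.add C x16867) x12007) x12655) x12439) x12511) x12487) x12495) (Nat.mul x12493 (nat_lit 2))) x19053) x5933)
    (Nat.sub (Nat.sub (Nat.add (Nat.add (Nat.add (Nat.add (Nat.add (Nat.add (Nat.add C x16869) x12009) x12657) x12441) x12513) x12489) x12493) x12495) x5935)
    (Nat.sub (Nat.add (Nat.add (Nat.add (Nat.add (Nat.add (Nat.add (Nat.add C x16877) x12017) x12665) x12449) x12557) x12485) x12505) x19063)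
    (Nat.sub (Nat.sub (Nat.add (Nat.add (Nat.add (Nat.add (Nat.add (Nat.add (Nat.add (Nat.add (Nat.add C x16879) x12019) x12667) x12451) x12559) x12487) x12511) x12503) x12507) x19065) x5945)
    (Nat.sub (Nat.sub (Nat.add (Nat.add (Nat.add (Nat.add (Nat.add (Nat.add (Nat.add (Nat.add C x16881) x12021) x12669) x12453) x12561) x12489) x12513) x12505) (Nat.mul x12507 (nat_lit 2))) x5947)
    (Nat.sub (Nat.sub (Nat.add (Nat.add (Nat.add (Nat.add (Nat.add (Nat.add (Nat.add (Nat.add (Nat.add C x16885) x12025) x12673) x12457) x12565) x12493) x12529) x12505) x12513) x19071) x5951)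
    (Nat.sub (Nat.add (Nat.add (Nat.add (Nat.add (Nat.add (Nat.add (Nat.add (Nat.add (Nat.add (Nat.add C x16887) x12027) x12675) x12459) x12567) x12495) x12531) x12507) x12519) x12511) x5953)
    (Nat.sub (Nat.add (Nat.add (Nat.add (Nat.add (Nat.add (Nat.add (Nat.add C x16893) x12033) x12681) x12465) x12573) x12537) x12513) x5959)
    (Nat.sub (Nat.sub (Nat.add (Nat.add (Nat.add (Nat.add (Nat.add (Nat.add C x16903) x12043) x12691) x12583) x12511) x12531) x19089) x5969)
    (Nat.sub (Nat.sub (Nat.add (Nat.add (Nat.add (Nat.add (Nat.add (Nat.add (Nat.add C x16905) x12045) x12693) x12585) x12513) x12537) x12529) x12531) x5971)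
    (Nat.sub (Nat.add (Nat.add (Nat.add (Nat.add (Nat.add (Nat.add (Nat.add C x12537) x16911) x12051) x12699) x12591) x12519) x12531) x5977)
    (Nat.sub (Nat.sub (Nat.add (Nat.add (Nat.add (Nat.add (Nat.add C x16931) x12071) x12719) x12503) x12559) x12557) x19117)
    (Nat.sub (Nat.sub (Nat.sub (Nat.add (Nat.add (Nat.add (Nat.add (Nat.add (Nat.add (Nat.add C x16933) x12073) x12721) x12505) x12565) x12557) x12561) x12559) x19119) x5999)
    (Nat.sub (Nat.sub (Nat.add (Nat.add (Nat.add (Nat.add (Nat.add (Nat.add C x16935) x12075) x12723) x12507) x12567) x12559) (Nat.mul x12561 (nat_lit 3))) x6001)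
    (Nat.sub (Nat.sub (Nat.sub (Nat.add (Nat.add (Nat.add (Nat.add (Nat.add (Nat.add (Nat.add C x16939) x12079) x12727) x12511) x12583) x12559) x12567) (Nat.mul x12565 (nat_lit 2))) x19125) x6005)
    (Nat.sub (Nat.sub (Nat.add (Nat.add (Nat.add (Nat.add (Nat.add (Nat.add (Nat.add (Nat.add C x16941) x12081) x12729) x12513) x12585) x12561) x12573) x12565) (Nat.mul x12567 (nat_lit 2))) x6007)
    (Nat.sub (Nat.sub (Nat.add (Nat.add (Nat.add (Nat.add (Nat.add (Nat.add C x16947) x12087) x12735) x12519) x12591) x12567) (Nat.mul x12573 (nat_lit 3))) x6013)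
    (Nat.sub (Nat.sub (Nat.add (Nat.add (Nat.add (Nat.add (Nat.add (Nat.add C x16957) x12097) x12745) x12529) x12565) x12585) x19143) x6023)
    (Nat.sub (Nat.sub (Nat.add (Nat.add (Nat.add (Nat.add (Nat.add (Nat.add (Nat.add C x16959) x12099) x12747) x12531) x12567) x12591) x12583) x12585) x6025)
    (Nat.sub (Nat.add (Nat.add (Nat.add (Nat.add (Nat.add (Nat.add (Nat.add C x16965) x12105) x12753) x12537) x12573) x12609) x12585) x6031)
    (Nat.sub (Nat.add (Nat.add (Nat.add (Nat.add (Nat.add C x12609) x16983) x12123) x12771) x12591) x6049)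
    (Nat.sub (Nat.add (Nat.add (Nat.add (Nat.add (Nat.add (Nat.add C (Nat.mul x12641 (nat_lit 3))) x17015) x12155) x12479) x12647) x12643) x19201)
    (Nat.sub (Nat.sub (Nat.add (Nat.add (Nat.add (Nat.add (Nat.add (Nat.add C (Nat.mul x12643 (nat_lit 2))) x17017) x12157) x12481) x12649) x12641) x19203) x6083)
    (Nat.sub (Nat.add (Nat.add (Nat.add (Nat.add (Nat.add (Nat.add (Nat.add C x12647) x17021) x12161) x12485) x12665) x12641) x12649) x19207)
    (Nat.sub (Nat.sub (Nat.add (Nat.add (Nat.add (Nat.add (Nat.add (Nat.add (Nat.add (Nat.add (Nat.add C (Nat.mul x12649 (nat_lit 2))) x17023) x12163) x12487) x12667) x12643) x12655) x12647) x12651) x19209) x6089)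
    (Nat.sub (Nat.add (Nat.add (Nat.add (Nat.add (Nat.add (Nat.add (Nat.add C x12651) x17025) x12165) x12489) x12669) x12657) x12649) x6091)
    (Nat.sub (Nat.sub (Nat.add (Nat.add (Nat.add (Nat.add (Nat.add (Nat.add C x17029) x12169) x12493) x12673) x12649) x12657) x19215) x6095)
    (Nat.sub (Nat.add (Nat.add (Nat.add (Nat.add (Nat.add (Nat.add (Nat.add C x12657) x17031) x12171) x12495) x12675) x12651) x12655) x6097)
    (Nat.sub (Nat.add (Nat.add (Nat.add (Nat.add (Nat.add (Nat.add (Nat.add C x12665) x17039) x12179) x12503) x12719) x12647) x12667) x19225)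
    (Nat.sub (Nat.sub (Nat.add (Nat.add (Nat.add (Nat.add (Nat.add (Nat.add (Nat.add (Nat.add (Nat.add C x12667) x17041) x12181) x12505) x12721) x12649) x12673) x12665) x12669) x19227) x6107)
    (Nat.sub (Nat.sub (Nat.add (Nat.add (Nat.add (Nat.add (Nat.add (Nat.add (Nat.add C x17043) x12183) x12507) x12723) x12651) x12675) x12667) x12669) x6109)
    (Nat.sub (Nat.sub (Nat.add (Nat.add (Nat.add (Nat.add (Nat.add (Nat.add (Nat.add (Nat.add (Nat.add C x12673) x17047) x12187) x12511) x12727) x12655) x12691) x12667) x12675) x19233) x6113)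
    (Nat.sub (Nat.add (Nat.add (Nat.add (Nat.add (Nat.add (Nat.add (Nat.add (Nat.add (Nat.add (Nat.add C x12675) x17049) x12189) x12513) x12729) x12657) x12693) x12669) x12681) x12673) x6115)
    (Nat.sub (Nat.add (Nat.add (Nat.add (Nat.add (Nat.add (Nat.add (Nat.add C x12681) x17055) x12195) x12519) x12735) x12699) x12675) x6121)
    (Nat.sub (Nat.sub (Nat.add (Nat.add (Nat.add (Nat.add (Nat.add (Nat.add C x17065) x12205) x12529) x12745) x12673) x12693) x19251) x6131)
    (Nat.sub (Nat.sub (Nat.add (Nat.add (Nat.add (Nat.add (Nat.add (Nat.add (Nat.add C x17067) x12207) x12531) x12747) x12675) x12699) x12691) x12693) x6133)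
    (Nat.sub (Nat.add (Nat.add (Nat.add (Nat.add (Nat.add (Nat.add (Nat.add C x12699) x17073) x12213) x12537) x12753) x12681) x12693) x6139)
    (Nat.sub (Nat.add (Nat.add (Nat.add (Nat.add (Nat.add (Nat.add (Nat.add C (Nat.mul x12719 (nat_lit 2))) x17093) x12233) x12557) x12881) x12665) x12721) x19279)
    (Nat.sub (Nat.sub (Nat.add (Nat.add (Nat.add (Nat.add (Nat.add (Nat.add (Nat.add (Nat.add (Nat.add C (Nat.mul x12721 (nat_lit 2))) x17095) x12235) x12559) x12883) x12667) x12727) x12719) x12723) x19281) x6161)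
    (Nat.sub (Nat.add (Nat.add (Nat.add (Nat.add (Nat.add (Nat.add (Nat.add C x17097) x12237) x12561) x12885) x12669) x12729) x12721) x6163)
    (Nat.sub (Nat.sub (Nat.add (Nat.add (Nat.add (Nat.add (Nat.add (Nat.add (Nat.add (Nat.add (Nat.add C x12727) x17101) x12241) x12565) x12889) x12673) x12745) x12721) x12729) x19287) x6167)
    (Nat.sub (Nat.add (Nat.add (Nat.add (Nat.add (Nat.add (Nat.add (Nat.add (Nat.add (Nat.add (Nat.add C x12729) x17103) x12243) x12567) x12891) x12675) x12747) x12723) x12735) x12727) x6169)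
    (Nat.sub (Nat.add (Nat.add (Nat.add (Nat.add (Nat.add (Nat.add (Nat.add C x17109) x12249) x12573) x12897) x12681) x12753) x12729) x6175)
    (Nat.sub (Nat.sub (Nat.add (Nat.add (Nat.add (Nat.add (Nat.add (Nat.add (Nat.add (Nat.add (Nat.add C (Nat.mul x12745 (nat_lit 2))) x17119) x12259) x12583) x12907) x12691) x12799) x12727) x12747) x19305) x6185)
    (Nat.sub (Nat.add (Nat.add (Nat.add (Nat.add (Nat.add (Nat.add (Nat.add (Nat.add (Nat.add (Nat.add C x12747) x17121) x12261) x12585) x12909) x12693) x12801) x12729) x12753) x12745) x6187)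
    (Nat.sub (Nat.add (Nat.add (Nat.add (Nat.add (Nat.add (Nat.add (Nat.add (Nat.add (Nat.add (Nat.add C (Nat.mul x12753 (nat_lit 2))) x17127) x12267) x12591) x12915) x12699) x12807) x12735) x12771) x12747) x6193)
    (Nat.sub (Nat.add (Nat.add (Nat.add (Nat.add (Nat.add (Nat.add (Nat.add C (Nat.mul x12771 (nat_lit 2))) x17145) x12285) x12609) x12933) x12825) x12753) x6211)
    (Nat.sub (Nat.sub (Nat.add (Nat.add (Nat.add (Nat.add (Nat.add (Nat.add C (Nat.mul x12799 (nat_lit 2))) x17173) x12313) x12961) x12745) x12801) x19359) x6239)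
    (Nat.sub (Nat.add (Nat.add (Nat.add (Nat.add (Nat.add (Nat.add (Nat.add C x12801) x17175) x12315) x12963) x12747) x12807) x12799) x6241)
    (Nat.sub (Nat.add (Nat.add (Nat.add (Nat.add (Nat.add (Nat.add (Nat.add C x12807) x17181) x12321) x12969) x12753) x12825) x12801) x6247)
    (Nat.sub (Nat.add (Nat.add (Nat.add (Nat.add (Nat.add (Nat.add C (Nat.mul x12825 (nat_lit 3))) x17199) x12339) x12987) x12771) x12807) x6265)
    (Nat.sub (Nat.add (Nat.add (Nat.add (Nat.add C (Nat.mul x12881 (nat_lit 3))) x17255) x12719) x12883) x19441)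
    (Nat.sub (Nat.sub (Nat.add (Nat.add (Nat.add (Nat.add (Nat.add (Nat.add C (Nat.mul x12883 (nat_lit 3))) x17257) x12721) x12889) x12881) x12885) x19443) x6323)
    (Nat.sub (Nat.add (Nat.add (Nat.add (Nat.add (Nat.add C x12885) x17259) x12723) x12891) x12883) x6325)
    (Nat.sub (Nat.sub (Nat.add (Nat.add (Nat.add (Nat.add (Nat.add (Nat.add C (Nat.mul x12889 (nat_lit 2))) x17263) x12727) x12907) x12883) x12891) x19449) x6329)
    (Nat.sub (Nat.add (Nat.add (Nat.add (Nat.add (Nat.add (Nat.add (Nat.add C (Nat.mul x12891 (nat_lit 2))) x17265) x12729) x12909) x12885) x12897) x12889) x6331)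
    (Nat.sub (Nat.add (Nat.add (Nat.add (Nat.add (Nat.add C x12897) x17271) x12735) x12915) x12891) x6337)
    (Nat.sub (Nat.sub (Nat.add (Nat.add (Nat.add (Nat.add (Nat.add (Nat.add C (Nat.mul x12907 (nat_lit 2))) x17281) x12745) x12961) x12889) x12909) x19467) x6347)
    (Nat.sub (Nat.add (Nat.add (Nat.add (Nat.add (Nat.add (Nat.add (Nat.add C x12909) x17283) x12747) x12963) x12891) x12915) x12907) x6349)
    (Nat.sub (Nat.add (Nat.add (Nat.add (Nat.add (Nat.add (Nat.add (Nat.add C (Nat.mul x12915 (nat_lit 2))) x17289) x12753) x12969) x12897) x12933) x12909) x6355)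
    (Nat.sub (Nat.add (Nat.add (Nat.add (Nat.add (Nat.add C x12933) x17307) x12771) x12987) x12915) x6373)
    (Nat.sub (Nat.sub (Nat.add (Nat.add (Nat.add (Nat.add (Nat.add C (Nat.mul x12961 (nat_lit 4))) x17335) x12799) x12907) x12963) x19521) x6401)
    (Nat.sub (Nat.add (Nat.add (Nat.add (Nat.add (Nat.add (Nat.add C (Nat.mul x12963 (nat_lit 3))) x17337) x12801) x12909) x12969) x12961) x6403)
    (Nat.sub (Nat.add (Nat.add (Nat.add (Nat.add (Nat.add (Nat.add C (Nat.mul x12969 (nat_lit 3))) x17343) x12807) x12915) x12987) x12963) x6409)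
    (Nat.sub (Nat.add (Nat.add (Nat.add (Nat.add (Nat.add (Nat.add C (Nat.mul x12987 (nat_lit 4))) x17361) x12825) x12933) x13041) x12969) x6427)
    (Nat.sub (Nat.add (Nat.add (Nat.add C (Nat.mul x13041 (nat_lit 5))) x17415) x12987) x6481)
    (Nat.add (Nat.add (Nat.add (Nat.add C (Nat.mul x13175 (nat_lit 5))) x8801) x13229) x13193)
    (Nat.add (Nat.add (Nat.add (Nat.add (Nat.add C (Nat.mul x13193 (nat_lit 3))) x8819) x13247) x13175) x13199)
    (Nat.add (Nat.add (Nat.add (Nat.add (Nat.add C (Nat.mul x13199 (nat_lit 3))) x8825) x13253) x13193) x13201)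
    (Nat.sub (Nat.add (Nat.add (Nat.add (Nat.add C (Nat.mul x13201 (nat_lit 3))) x8827) x13255) x13199) x6641)
    (Nat.add (Nat.add (Nat.add (Nat.add (Nat.add C (Nat.mul x13229 (nat_lit 3))) x8855) x13391) x13175) x13247)
    (Nat.add (Nat.add (Nat.add (Nat.add (Nat.add (Nat.add (Nat.add (Nat.add C (Nat.mul x13247 (nat_lit 3))) x8873) x13409) x13193) x13301) x13229) x13265) x13253)
    (Nat.add (Nat.add (Nat.add (Nat.add (Nat.add (Nat.add (Nat.add (Nat.add C (Nat.mul x13253 (nat_lit 2))) x8879) x13415) x13199) x13307) x13271) x13247) x13255)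
    (Nat.sub (Nat.add (Nat.add (Nat.add (Nat.add (Nat.add (Nat.add (Nat.add C (Nat.mul x13255 (nat_lit 2))) x8881) x13417) x13201) x13309) x13273) x13253) x6695)
    (Nat.add (Nat.add (Nat.add (Nat.add (Nat.add (Nat.add C x13265) x8891) x13427) x13319) x13247) x13271)
    (Nat.add (Nat.add (Nat.add (Nat.add (Nat.add (Nat.add (Nat.add (Nat.add C (Nat.mul x13271 (nat_lit 2))) x8897) x13433) x13325) x13253) x13265) x13277) x13273)
    (Nat.sub (Nat.add (Nat.add (Nat.add (Nat.add (Nat.add (Nat.add (Nat.add C x13273) x8899) x13435) x13327) x13255) x13279) x13271) x6713)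
    (Nat.add (Nat.add (Nat.add (Nat.add (Nat.add (Nat.add C x13277) x8903) x13439) x13331) x13271) x13279)
    (Nat.sub (Nat.add (Nat.add (Nat.add (Nat.add (Nat.add (Nat.add (Nat.add C (Nat.mul x13279 (nat_lit 2))) x8905) x13441) x13333) x13273) x13277) x13281) x6719)
    (Nat.sub (Nat.add (Nat.add (Nat.add (Nat.add (Nat.add C x13281) x8907) x13443) x13335) x13279) x6721)
    (Nat.add (Nat.add (Nat.add (Nat.add (Nat.add (Nat.add C x13301) x8927) x13463) x13247) x13319) x13307)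
    (Nat.sub (Nat.add (Nat.add (Nat.add (Nat.add (Nat.add (Nat.add C x8933) x13469) x13253) x13325) x13301) x13309) x13307)
    (Nat.sub (Nat.sub (Nat.add (Nat.add (Nat.add (Nat.add (Nat.add C x8935) x13471) x13255) x13327) x13307) x13309) x6749)
    (Nat.add (Nat.add (Nat.add (Nat.add (Nat.add (Nat.add C x13319) x8945) x13481) x13265) x13301) x13325)
    (Nat.add (Nat.add (Nat.add (Nat.add (Nat.add (Nat.add (Nat.add (Nat.add (Nat.add C x13325) x8951) x13487) x13271) x13307) x13343) x13319) x13331) x13327)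
    (Nat.sub (Nat.add (Nat.add (Nat.add (Nat.add (Nat.add (Nat.add (Nat.add C x8953) x13489) x13273) x13309) x13345) x13333) x13325) x6767)
    (Nat.sub (Nat.add (Nat.add (Nat.add (Nat.add (Nat.add (Nat.add C x8957) x13493) x13277) x13349) x13325) x13333) x13331)
    (Nat.sub (Nat.add (Nat.add (Nat.add (Nat.add (Nat.add (Nat.add (Nat.add C x8959) x13495) x13279) x13351) x13327) x13331) x13335) x6773)
    (Nat.sub (Nat.sub (Nat.add (Nat.add (Nat.add (Nat.add (Nat.add C x8961) x13497) x13281) x13353) x13333) x13335) x6775)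
    (Nat.add (Nat.add (Nat.add (Nat.add (Nat.add (Nat.add C x13343) x8969) x13505) x13325) x13349) x13345)
    (Nat.sub (Nat.sub (Nat.add (Nat.add (Nat.add (Nat.add (Nat.add C x8971) x13507) x13327) x13351) x13343) x13345) x6785)
    (Nat.add (Nat.add (Nat.add (Nat.add (Nat.add (Nat.add C x13349) x8975) x13511) x13331) x13343) x13351)
    (Nat.sub (Nat.add (Nat.add (Nat.add (Nat.add (Nat.add (Nat.add (Nat.add (Nat.add C x13351) x8977) x13513) x13333) x13345) x13357) x13349) x13353) x6791)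
    (Nat.sub (Nat.sub (Nat.add (Nat.add (Nat.add (Nat.add (Nat.add C x8979) x13515) x13335) x13359) x13351) x13353) x6793)
    (Nat.sub (Nat.add (Nat.add (Nat.add (Nat.add (Nat.add C x13357) x8983) x13519) x13351) x13359) x6797)
    (Nat.sub (Nat.add (Nat.add (Nat.add (Nat.add (Nat.add C x13359) x8985) x13521) x13353) x13357) x6799)
    (Nat.add (Nat.add (Nat.add (Nat.add (Nat.add C (Nat.mul x13391 (nat_lit 3))) x9017) x13877) x13229) x13409)
    (Nat.add (Nat.add (Nat.add (Nat.add (Nat.add (Nat.add (Nat.add (Nat.add C (Nat.mul x13409 (nat_lit 2))) x9035) x13895) x13247) x13463) x13391) x13427) x13415)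
    (Nat.add (Nat.add (Nat.add (Nat.add (Nat.add (Nat.add (Nat.add (Nat.add C x13415) x9041) x13901) x13253) x13469) x13433) x13409) x13417)
    (Nat.sub (Nat.add (Nat.add (Nat.add (Nat.add (Nat.add (Nat.add (Nat.add C x13417) x9043) x13903) x13255) x13471) x13435) x13415) x6857)
    (Nat.sub (Nat.add (Nat.add (Nat.add (Nat.add (Nat.add (Nat.add C x9053) x13913) x13265) x13481) x13409) x13433) x13427)
    (Nat.add (Nat.add (Nat.add (Nat.add (Nat.add (Nat.add (Nat.add (Nat.add C x9059) x13919) x13271) x13487) x13415) x13427) x13439) x13435)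
    (Nat.sub (Nat.sub (Nat.add (Nat.add (Nat.add (Nat.add (Nat.add (Nat.add (Nat.add C x9061) x13921) x13273) x13489) x13417) x13441) x13433) x13435) x6875)
    (Nat.sub (Nat.add (Nat.add (Nat.add (Nat.add (Nat.add (Nat.add C x9065) x13925) x13277) x13493) x13433) x13441) x13439)
    (Nat.sub (Nat.add (Nat.add (Nat.add (Nat.add (Nat.add (Nat.add (Nat.add C x9067) x13927) x13279) x13495) x13435) x13439) x13443) x6881)
    (Nat.sub (Nat.sub (Nat.add (Nat.add (Nat.add (Nat.add (Nat.add C x9069) x13929) x13281) x13497) x13441) x13443) x6883)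
    (Nat.add (Nat.add (Nat.add (Nat.add (Nat.add (Nat.add (Nat.add (Nat.add C (Nat.mul x13463 (nat_lit 2))) x9089) x13949) x13301) x13625) x13409) x13481) x13469)
    (Nat.add (Nat.add (Nat.add (Nat.add (Nat.add (Nat.add (Nat.add (Nat.add C x9095) x13955) x13307) x13631) x13415) x13487) x13463) x13471)
    (Nat.sub (Nat.add (Nat.add (Nat.add (Nat.add (Nat.add (Nat.add (Nat.add C x9097) x13957) x13309) x13633) x13417) x13489) x13469) x6911)
    (Nat.add (Nat.add (Nat.add (Nat.add (Nat.add (Nat.add (Nat.add (Nat.add (Nat.add C x13481) x9107) x13967) x13319) x13643) x13427) x13535) x13463) x13487)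
    (Nat.add (Nat.add (Nat.add (Nat.add (Nat.add (Nat.add (Nat.add (Nat.add (Nat.add (Nat.add (Nat.add (Nat.add C x13487) x9113) x13973) x13325) x13649) x13433) x13541) x13469) x13505) x13481) x13493) x13489)
    (Nat.sub (Nat.add (Nat.add (Nat.add (Nat.add (Nat.add (Nat.add (Nat.add (Nat.add (Nat.add (Nat.add C x9115) x13975) x13327) x13651) x13435) x13543) x13471) x13507) x13495) x13487) x6929)
    (Nat.sub (Nat.add (Nat.add (Nat.add (Nat.add (Nat.add (Nat.add (Nat.add (Nat.add (Nat.add C x9119) x13979) x13331) x13655) x13439) x13547) x13511) x13487) x13495) x13493)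
    (Nat.sub (Nat.add (Nat.add (Nat.add (Nat.add (Nat.add (Nat.add (Nat.add (Nat.add (Nat.add (Nat.add C x9121) x13981) x13333) x13657) x13441) x13549) x13513) x13489) x13493) x13497) x6935)
    (Nat.sub (Nat.sub (Nat.add (Nat.add (Nat.add (Nat.add (Nat.add (Nat.add (Nat.add (Nat.add C x9123) x13983) x13335) x13659) x13443) x13551) x13515) x13495) x13497) x6937)
    (Nat.add (Nat.add (Nat.add (Nat.add (Nat.add (Nat.add (Nat.add (Nat.add C x9131) x13991) x13343) x13667) x13559) x13487) x13511) x13507)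
    (Nat.sub (Nat.sub (Nat.add (Nat.add (Nat.add (Nat.add (Nat.add (Nat.add (Nat.add (Nat.add C x9133) x13993) x13345) x13669) x13561) x13489) x13513) x13505) (Nat.mul x13507 (nat_lit 2))) x6947)
    (Nat.add (Nat.add (Nat.add (Nat.add (Nat.add (Nat.add (Nat.add (Nat.add C x9137) x13997) x13349) x13673) x13565) x13493) x13505) x13513)
    (Nat.sub (Nat.add (Nat.add (Nat.add (Nat.add (Nat.add (Nat.add (Nat.add (Nat.add (Nat.add (Nat.add C x9139) x13999) x13351) x13675) x13567) x13495) x13507) x13519) x13511) x13515) x6953)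
    (Nat.sub (Nat.sub (Nat.add (Nat.add (Nat.add (Nat.add (Nat.add (Nat.add (Nat.add (Nat.add C x9141) x14001) x13353) x13677) x13569) x13497) x13521) x13513) (Nat.mul x13515 (nat_lit 2))) x6955)
    (Nat.sub (Nat.add (Nat.add (Nat.add (Nat.add (Nat.add (Nat.add (Nat.add C x9145) x14005) x13357) x13681) x13573) x13513) x13521) x6959)
    (Nat.sub (Nat.add (Nat.add (Nat.add (Nat.add (Nat.add (Nat.add (Nat.add C x9147) x14007) x13359) x13683) x13575) x13515) x13519) x6961)
    (Nat.add (Nat.add (Nat.add (Nat.add (Nat.add (Nat.add C x13535) x9161) x14021) x13697) x13481) x13541)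
    (Nat.add (Nat.add (Nat.add (Nat.add (Nat.add (Nat.add (Nat.add (Nat.add C x9167) x14027) x13703) x13487) x13559) x13535) x13547) x13543)
    (Nat.sub (Nat.sub (Nat.add (Nat.add (Nat.add (Nat.add (Nat.add (Nat.add (Nat.add C x9169) x14029) x13705) x13489) x13561) x13549) x13541) x13543) x6983)
    (Nat.sub (Nat.add (Nat.add (Nat.add (Nat.add (Nat.add (Nat.add (Nat.add C x9173) x14033) x13709) x13493) x13565) x13541) x13549) (Nat.mul x13547 (nat_lit 3)))
    (Nat.sub (Nat.sub (Nat.add (Nat.add (Nat.add (Nat.add (Nat.add (Nat.add (Nat.add (Nat.add C x9175) x14035) x13711) x13495) x13567) x13543) x13547) x13551) (Nat.mul x13549 (nat_lit 2))) x6989)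
    (Nat.sub (Nat.sub (Nat.add (Nat.add (Nat.add (Nat.add (Nat.add (Nat.add C x9177) x14037) x13713) x13497) x13569) x13549) (Nat.mul x13551 (nat_lit 3))) x6991)
    (Nat.add (Nat.add (Nat.add (Nat.add (Nat.add (Nat.add (Nat.add (Nat.add C x13559) x9185) x14045) x13721) x13505) x13541) x13565) x13561)
    (Nat.sub (Nat.sub (Nat.add (Nat.add (Nat.add (Nat.add (Nat.add (Nat.add (Nat.add C x9187) x14047) x13723) x13507) x13543) x13567) x13559) x13561) x7001)
    (Nat.add (Nat.add (Nat.add (Nat.add (Nat.add (Nat.add (Nat.add (Nat.add C x9191) x14051) x13727) x13511) x13547) x13583) x13559) x13567)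
    (Nat.sub (Nat.add (Nat.add (Nat.add (Nat.add (Nat.add (Nat.add (Nat.add (Nat.add (Nat.add (Nat.add C x9193) x14053) x13729) x13513) x13549) x13585) x13561) x13573) x13565) x13569) x7007)
    (Nat.sub (Nat.sub (Nat.add (Nat.add (Nat.add (Nat.add (Nat.add (Nat.add (Nat.add (Nat.add C x9195) x14055) x13731) x13515) x13551) x13587) x13575) x13567) (Nat.mul x13569 (nat_lit 2))) x7009)
    (Nat.sub (Nat.sub (Nat.add (Nat.add (Nat.add (Nat.add (Nat.add (Nat.add (Nat.add C x9199) x14059) x13735) x13519) x13591) x13567) x13575) x13573) x7013)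
    (Nat.sub (Nat.sub (Nat.add (Nat.add (Nat.add (Nat.add (Nat.add (Nat.add (Nat.add C x9201) x14061) x13737) x13521) x13593) x13569) x13573) x13575) x7015)
    (Nat.add (Nat.add (Nat.add (Nat.add (Nat.add (Nat.add C x13583) x9209) x14069) x13745) x13565) x13585)
    (Nat.sub (Nat.add (Nat.add (Nat.add (Nat.add (Nat.add (Nat.add (Nat.add C x9211) x14071) x13747) x13567) x13591) x13583) x13587) x7025)
    (Nat.sub (Nat.sub (Nat.add (Nat.add (Nat.add (Nat.add (Nat.add (Nat.add C x9213) x14073) x13749) x13569) x13593) x13585) (Nat.mul x13587 (nat_lit 3))) x7027)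
    (Nat.sub (Nat.add (Nat.add (Nat.add (Nat.add (Nat.add (Nat.add (Nat.add C x13591) x9217) x14077) x13753) x13573) x13585) x13593) x7031)
    (Nat.sub (Nat.add (Nat.add (Nat.add (Nat.add (Nat.add (Nat.add (Nat.add C x9219) x14079) x13755) x13575) x13587) x13599) x13591) x7033)
    (Nat.sub (Nat.add (Nat.add (Nat.add (Nat.add (Nat.add C x13599) x9225) x14085) x13761) x13593) x7039)
    (Nat.add (Nat.add (Nat.add (Nat.add (Nat.add (Nat.add C x13625) x9251) x14111) x13463) x13643) x13631)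
    (Nat.sub (Nat.add (Nat.add (Nat.add (Nat.add (Nat.add (Nat.add C x9257) x14117) x13469) x13649) x13625) x13633) x13631)
    (Nat.sub (Nat.sub (Nat.add (Nat.add (Nat.add (Nat.add (Nat.add C x9259) x14119) x13471) x13651) x13631) x13633) x7073)
    (Nat.sub (Nat.add (Nat.add (Nat.add (Nat.add (Nat.add (Nat.add C x9269) x14129) x13481) x13697) x13625) x13649) x13643)
    (Nat.sub (Nat.add (Nat.add (Nat.add (Nat.add (Nat.add (Nat.add (Nat.add (Nat.add (Nat.add C x9275) x14135) x13487) x13703) x13631) x13667) x13643) x13655) x13651) x13649)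
    (Nat.sub (Nat.sub (Nat.add (Nat.add (Nat.add (Nat.add (Nat.add (Nat.add (Nat.add (Nat.add C x9277) x14137) x13489) x13705) x13633) x13669) x13657) x13649) (Nat.mul x13651 (nat_lit 2))) x7091)
    (Nat.sub (Nat.add (Nat.add (Nat.add (Nat.add (Nat.add (Nat.add (Nat.add C x9281) x14141) x13493) x13709) x13673) x13649) x13657) (Nat.mul x13655 (nat_lit 3)))
    (Nat.sub (Nat.sub (Nat.add (Nat.add (Nat.add (Nat.add (Nat.add (Nat.add (Nat.add (Nat.add C x9283) x14143) x13495) x13711) x13675) x13651) x13655) x13659) (Nat.mul x13657 (nat_lit 2))) x7097)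
    (Nat.sub (Nat.sub (Nat.add (Nat.add (Nat.add (Nat.add (Nat.add (Nat.add C x9285) x14145) x13497) x13713) x13677) x13657) (Nat.mul x13659 (nat_lit 3))) x7099)
    (Nat.sub (Nat.add (Nat.add (Nat.add (Nat.add (Nat.add (Nat.add (Nat.add C x9293) x14153) x13505) x13721) x13649) x13673) x13669) (Nat.mul x13667 (nat_lit 3)))
    (Nat.sub (Nat.sub (Nat.add (Nat.add (Nat.add (Nat.add (Nat.add (Nat.add (Nat.add C x9295) x14155) x13507) x13723) x13651) x13675) x13667) (Nat.mul x13669 (nat_lit 5))) x7109)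
    (Nat.sub (Nat.add (Nat.add (Nat.add (Nat.add (Nat.add (Nat.add (Nat.add C x9299) x14159) x13511) x13727) x13655) x13667) x13675) (Nat.mul x13673 (nat_lit 3)))
    (Nat.sub (Nat.sub (Nat.add (Nat.add (Nat.add (Nat.add (Nat.add (Nat.add (Nat.add (Nat.add (Nat.add C x9301) x14161) x13513) x13729) x13657) x13669) x13681) x13673) x13677) (Nat.mul x13675 (nat_lit 3))) x7115)
    (Nat.sub (Nat.sub (Nat.add (Nat.add (Nat.add (Nat.add (Nat.add (Nat.add (Nat.add C x9303) x14163) x13515) x13731) x13659) x13683) x13675) (Nat.mul x13677 (nat_lit 5))) x7117)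
    (Nat.sub (Nat.sub (Nat.add (Nat.add (Nat.add (Nat.add (Nat.add (Nat.add C x9307) x14167) x13519) x13735) x13675) x13683) (Nat.mul x13681 (nat_lit 3))) x7121)
    (Nat.sub (Nat.sub (Nat.add (Nat.add (Nat.add (Nat.add (Nat.add (Nat.add C x9309) x14169) x13521) x13737) x13677) x13681) (Nat.mul x13683 (nat_lit 3))) x7123)
    (Nat.add (Nat.add (Nat.add (Nat.add (Nat.add (Nat.add C x13697) x9323) x14183) x13535) x13643) x13703)
    (Nat.add (Nat.add (Nat.add (Nat.add (Nat.add (Nat.add (Nat.add (Nat.add C x9329) x14189) x13541) x13649) x13721) x13697) x13709) x13705)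
    (Nat.sub (Nat.sub (Nat.add (Nat.add (Nat.add (Nat.add (Nat.add (Nat.add (Nat.add C x9331) x14191) x13543) x13651) x13723) x13711) x13703) x13705) x7145)
    (Nat.sub (Nat.add (Nat.add (Nat.add (Nat.add (Nat.add (Nat.add (Nat.add C x9335) x14195) x13547) x13655) x13727) x13703) x13711) (Nat.mul x13709 (nat_lit 3)))
    (Nat.sub (Nat.sub (Nat.add (Nat.add (Nat.add (Nat.add (Nat.add (Nat.add (Nat.add (Nat.add C x9337) x14197) x13549) x13657) x13729) x13705) x13709) x13713) (Nat.mul x13711 (nat_lit 2))) x7151)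
    (Nat.sub (Nat.sub (Nat.add (Nat.add (Nat.add (Nat.add (Nat.add (Nat.add C x9339) x14199) x13551) x13659) x13731) x13711) (Nat.mul x13713 (nat_lit 3))) x7153)
    (Nat.add (Nat.add (Nat.add (Nat.add (Nat.add (Nat.add (Nat.add (Nat.add C x9347) x14207) x13559) x13667) x13775) x13703) x13727) x13723)
    (Nat.sub (Nat.sub (Nat.add (Nat.add (Nat.add (Nat.add (Nat.add (Nat.add (Nat.add (Nat.add C x9349) x14209) x13561) x13669) x13777) x13705) x13729) x13721) (Nat.mul x13723 (nat_lit 2))) x7163)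
    (Nat.sub (Nat.add (Nat.add (Nat.add (Nat.add (Nat.add (Nat.add (Nat.add (Nat.add (Nat.add C x9353) x14213) x13565) x13673) x13781) x13709) x13745) x13721) x13729) x13727)
    (Nat.sub (Nat.sub (Nat.add (Nat.add (Nat.add (Nat.add (Nat.add (Nat.add (Nat.add (Nat.add (Nat.add (Nat.add (Nat.add C x9355) x14215) x13567) x13675) x13783) x13711) x13747) x13723) x13735) x13727) x13731) x13729) x7169)
    (Nat.sub (Nat.sub (Nat.add (Nat.add (Nat.add (Nat.add (Nat.add (Nat.add (Nat.add (Nat.add (Nat.add C x9357) x14217) x13569) x13677) x13785) x13713) x13749) x13737) x13729) (Nat.mul x13731 (nat_lit 3))) x7171)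
    (Nat.sub (Nat.sub (Nat.add (Nat.add (Nat.add (Nat.add (Nat.add (Nat.add (Nat.add (Nat.add C x9361) x14221) x13573) x13681) x13789) x13753) x13729) x13737) (Nat.mul x13735 (nat_lit 2))) x7175)
    (Nat.sub (Nat.sub (Nat.add (Nat.add (Nat.add (Nat.add (Nat.add (Nat.add (Nat.add (Nat.add C x9363) x14223) x13575) x13683) x13791) x13755) x13731) x13735) (Nat.mul x13737 (nat_lit 2))) x7177)
    (Nat.sub (Nat.add (Nat.add (Nat.add (Nat.add (Nat.add (Nat.add C x9371) x14231) x13583) x13799) x13727) x13747) x13745)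
    (Nat.sub (Nat.sub (Nat.add (Nat.add (Nat.add (Nat.add (Nat.add (Nat.add (Nat.add (Nat.add C x9373) x14233) x13585) x13801) x13729) x13753) x13745) x13749) (Nat.mul x13747 (nat_lit 2))) x7187)
    (Nat.sub (Nat.sub (Nat.add (Nat.add (Nat.add (Nat.add (Nat.add (Nat.add (Nat.add C x9375) x14235) x13587) x13803) x13731) x13755) x13747) (Nat.mul x13749 (nat_lit 5))) x7189)
    (Nat.sub (Nat.sub (Nat.add (Nat.add (Nat.add (Nat.add (Nat.add (Nat.add (Nat.add C x9379) x14239) x13591) x13807) x13735) x13747) x13755) x13753) x7193)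
    (Nat.sub (Nat.sub (Nat.add (Nat.add (Nat.add (Nat.add (Nat.add (Nat.add (Nat.add (Nat.add C x9381) x14241) x13593) x13809) x13737) x13749) x13761) x13753) (Nat.mul x13755 (nat_lit 2))) x7195)
    (Nat.sub (Nat.sub (Nat.add (Nat.add (Nat.add (Nat.add (Nat.add C x9387) x14247) x13599) x13815) x13755) x13761) x7201)
    (Nat.add (Nat.add (Nat.add (Nat.add (Nat.add (Nat.add C x13775) x9401) x14261) x13721) x13781) x13777)
    (Nat.sub (Nat.sub (Nat.add (Nat.add (Nat.add (Nat.add (Nat.add C x9403) x14263) x13723) x13783) x13775) x13777) x7217)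
    (Nat.sub (Nat.add (Nat.add (Nat.add (Nat.add (Nat.add (Nat.add C x9407) x14267) x13727) x13799) x13775) x13783) x13781)
    (Nat.sub (Nat.sub (Nat.add (Nat.add (Nat.add (Nat.add (Nat.add (Nat.add (Nat.add (Nat.add C x9409) x14269) x13729) x13801) x13777) x13789) x13781) x13785) x13783) x7223)
    (Nat.sub (Nat.sub (Nat.add (Nat.add (Nat.add (Nat.add (Nat.add (Nat.add C x9411) x14271) x13731) x13803) x13791) x13783) (Nat.mul x13785 (nat_lit 3))) x7225)
    (Nat.sub (Nat.sub (Nat.add (Nat.add (Nat.add (Nat.add (Nat.add (Nat.add C x9415) x14275) x13735) x13807) x13783) x13791) (Nat.mul x13789 (nat_lit 3))) x7229)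
    (Nat.sub (Nat.sub (Nat.add (Nat.add (Nat.add (Nat.add (Nat.add (Nat.add C x9417) x14277) x13737) x13809) x13785) x13789) (Nat.mul x13791 (nat_lit 3))) x7231)
    (Nat.add (Nat.add (Nat.add (Nat.add (Nat.add (Nat.add C x13799) x9425) x14285) x13745) x13781) x13801)
    (Nat.sub (Nat.add (Nat.add (Nat.add (Nat.add (Nat.add (Nat.add (Nat.add C x9427) x14287) x13747) x13783) x13807) x13799) x13803) x7241)
    (Nat.sub (Nat.sub (Nat.add (Nat.add (Nat.add (Nat.add (Nat.add (Nat.add C x9429) x14289) x13749) x13785) x13809) x13801) (Nat.mul x13803 (nat_lit 3))) x7243)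
    (Nat.sub (Nat.add (Nat.add (Nat.add (Nat.add (Nat.add (Nat.add (Nat.add C x9433) x14293) x13753) x13789) x13825) x13801) x13809) x7247)
    (Nat.sub (Nat.sub (Nat.add (Nat.add (Nat.add (Nat.add (Nat.add (Nat.add (Nat.add (Nat.add C x9435) x14295) x13755) x13791) x13827) x13803) x13815) x13807) x13809) x7249)
    (Nat.sub (Nat.sub (Nat.add (Nat.add (Nat.add (Nat.add (Nat.add C x9441) x14301) x13761) x13833) x13809) x13815) x7255)
    (Nat.sub (Nat.add (Nat.add (Nat.add (Nat.add (Nat.add C x13825) x9451) x14311) x13807) x13827) x7265)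
    (Nat.sub (Nat.sub (Nat.add (Nat.add (Nat.add (Nat.add (Nat.add C x9453) x14313) x13809) x13833) x13825) x13827) x7267)
    (Nat.sub (Nat.add (Nat.add (Nat.add (Nat.add (Nat.add C x13833) x9459) x14319) x13815) x13827) x7273)
    (Nat.add (Nat.add (Nat.add (Nat.add (Nat.add C (Nat.mul x13877 (nat_lit 3))) x9503) x15335) x13391) x13895)
    (Nat.add (Nat.add (Nat.add (Nat.add (Nat.add (Nat.add (Nat.add (Nat.add C (Nat.mul x13895 (nat_lit 2))) x9521) x15353) x13409) x13949) x13877) x13913) x13901)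
    (Nat.add (Nat.add (Nat.add (Nat.add (Nat.add (Nat.add (Nat.add (Nat.add C x13901) x9527) x15359) x13415) x13955) x13919) x13895) x13903)
    (Nat.sub (Nat.add (Nat.add (Nat.add (Nat.add (Nat.add (Nat.add (Nat.add C x13903) x9529) x15361) x13417) x13957) x13921) x13901) x7343)
    (Nat.sub (Nat.add (Nat.add (Nat.add (Nat.add (Nat.add (Nat.add C x9539) x15371) x13427) x13967) x13895) x13919) x13913)
    (Nat.add (Nat.add (Nat.add (Nat.add (Nat.add (Nat.add (Nat.add (Nat.add C x9545) x15377) x13433) x13973) x13901) x13913) x13925) x13921)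
    (Nat.sub (Nat.sub (Nat.add (Nat.add (Nat.add (Nat.add (Nat.add (Nat.add (Nat.add C x9547) x15379) x13435) x13975) x13903) x13927) x13919) x13921) x7361)
    (Nat.sub (Nat.add (Nat.add (Nat.add (Nat.add (Nat.add (Nat.add C x9551) x15383) x13439) x13979) x13919) x13927) x13925)
    (Nat.sub (Nat.add (Nat.add (Nat.add (Nat.add (Nat.add (Nat.add (Nat.add C x9553) x15385) x13441) x13981) x13921) x13925) x13929) x7367)
    (Nat.sub (Nat.sub (Nat.add (Nat.add (Nat.add (Nat.add (Nat.add C x9555) x15387) x13443) x13983) x13927) x13929) x7369)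
    (Nat.add (Nat.add (Nat.add (Nat.add (Nat.add (Nat.add (Nat.add (Nat.add C x13949) x9575) x15407) x13463) x14111) x13895) x13967) x13955)
    (Nat.sub (Nat.add (Nat.add (Nat.add (Nat.add (Nat.add (Nat.add (Nat.add (Nat.add C x9581) x15413) x13469) x14117) x13901) x13973) x13949) x13957) x13955)
    (Nat.sub (Nat.sub (Nat.add (Nat.add (Nat.add (Nat.add (Nat.add (Nat.add (Nat.add C x9583) x15415) x13471) x14119) x13903) x13975) x13955) x13957) x7397)
    (Nat.add (Nat.add (Nat.add (Nat.add (Nat.add (Nat.add (Nat.add (Nat.add C x9593) x15425) x13481) x14129) x13913) x14021) x13949) x13973)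
    (Nat.add (Nat.add (Nat.add (Nat.add (Nat.add (Nat.add (Nat.add (Nat.add (Nat.add (Nat.add (Nat.add C x9599) x15431) x13487) x14135) x13919) x14027) x13955) x13991) x13967) x13979) x13975)
    (Nat.sub (Nat.sub (Nat.add (Nat.add (Nat.add (Nat.add (Nat.add (Nat.add (Nat.add (Nat.add (Nat.add (Nat.add C x9601) x15433) x13489) x14137) x13921) x14029) x13957) x13993) x13981) x13973) x13975) x7415)
    (Nat.sub (Nat.add (Nat.add (Nat.add (Nat.add (Nat.add (Nat.add (Nat.add (Nat.add (Nat.add C x9605) x15437) x13493) x14141) x13925) x14033) x13997) x13973) x13981) (Nat.mul x13979 (nat_lit 2)))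
    (Nat.sub (Nat.sub (Nat.add (Nat.add (Nat.add (Nat.add (Nat.add (Nat.add (Nat.add (Nat.add (Nat.add (Nat.add C x9607) x15439) x13495) x14143) x13927) x14035) x13999) x13975) x13979) x13983) x13981) x7421)
    (Nat.sub (Nat.sub (Nat.add (Nat.add (Nat.add (Nat.add (Nat.add (Nat.add (Nat.add (Nat.add C x9609) x15441) x13497) x14145) x13929) x14037) x14001) x13981) (Nat.mul x13983 (nat_lit 2))) x7423)
    (Nat.sub (Nat.add (Nat.add (Nat.add (Nat.add (Nat.add (Nat.add (Nat.add (Nat.add C x9617) x15449) x13505) x14153) x14045) x13973) x13997) x13993) x13991)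
    (Nat.sub (Nat.sub (Nat.add (Nat.add (Nat.add (Nat.add (Nat.add (Nat.add (Nat.add (Nat.add C x9619) x15451) x13507) x14155) x14047) x13975) x13999) x13991) (Nat.mul x13993 (nat_lit 3))) x7433)
    (Nat.sub (Nat.add (Nat.add (Nat.add (Nat.add (Nat.add (Nat.add (Nat.add (Nat.add C x9623) x15455) x13511) x14159) x14051) x13979) x13991) x13999) x13997)
    (Nat.sub (Nat.sub (Nat.add (Nat.add (Nat.add (Nat.add (Nat.add (Nat.add (Nat.add (Nat.add (Nat.add (Nat.add C x9625) x15457) x13513) x14161) x14053) x13981) x13993) x14005) x13997) x14001) x13999) x7439)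
    (Nat.sub (Nat.sub (Nat.add (Nat.add (Nat.add (Nat.add (Nat.add (Nat.add (Nat.add (Nat.add C x9627) x15459) x13515) x14163) x14055) x13983) x14007) x13999) (Nat.mul x14001 (nat_lit 3))) x7441)
    (Nat.sub (Nat.sub (Nat.add (Nat.add (Nat.add (Nat.add (Nat.add (Nat.add (Nat.add C x9631) x15463) x13519) x14167) x14059) x13999) x14007) x14005) x7445)
    (Nat.sub (Nat.sub (Nat.add (Nat.add (Nat.add (Nat.add (Nat.add (Nat.add (Nat.add C x9633) x15465) x13521) x14169) x14061) x14001) x14005) x14007) x7447)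
    (Nat.sub (Nat.add (Nat.add (Nat.add (Nat.add (Nat.add (Nat.add C x9647) x15479) x13535) x14183) x13967) x14027) x14021)
    (Nat.sub (Nat.add (Nat.add (Nat.add (Nat.add (Nat.add (Nat.add (Nat.add (Nat.add (Nat.add C x9653) x15485) x13541) x14189) x13973) x14045) x14021) x14033) x14029) (Nat.mul x14027 (nat_lit 2)))
    (Nat.sub (Nat.sub (Nat.add (Nat.add (Nat.add (Nat.add (Nat.add (Nat.add (Nat.add (Nat.add C x9655) x15487) x13543) x14191) x13975) x14047) x14035) x14027) (Nat.mul x14029 (nat_lit 3))) x7469)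
    (Nat.sub (Nat.add (Nat.add (Nat.add (Nat.add (Nat.add (Nat.add (Nat.add (Nat.add C x9659) x15491) x13547) x14195) x13979) x14051) x14027) x14035) (Nat.mul x14033 (nat_lit 5)))
    (Nat.sub (Nat.sub (Nat.add (Nat.add (Nat.add (Nat.add (Nat.add (Nat.add (Nat.add (Nat.add (Nat.add C x9661) x15493) x13549) x14197) x13981) x14053) x14029) x14033) x14037) (Nat.mul x14035 (nat_lit 4))) x7475)
    (Nat.sub (Nat.sub (Nat.add (Nat.add (Nat.add (Nat.add (Nat.add (Nat.add (Nat.add C x9663) x15495) x13551) x14199) x13983) x14055) x14035) (Nat.mul x14037 (nat_lit 5))) x7477)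
    (Nat.sub (Nat.add (Nat.add (Nat.add (Nat.add (Nat.add (Nat.add (Nat.add (Nat.add C x9671) x15503) x13559) x14207) x13991) x14027) x14051) x14047) x14045)
    (Nat.sub (Nat.sub (Nat.add (Nat.add (Nat.add (Nat.add (Nat.add (Nat.add (Nat.add (Nat.add C x9673) x15505) x13561) x14209) x13993) x14029) x14053) x14045) (Nat.mul x14047 (nat_lit 3))) x7487)
    (Nat.sub (Nat.add (Nat.add (Nat.add (Nat.add (Nat.add (Nat.add (Nat.add (Nat.add (Nat.add C x9677) x15509) x13565) x14213) x13997) x14033) x14069) x14045) x14053) (Nat.mul x14051 (nat_lit 2)))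
    (Nat.sub (Nat.sub (Nat.add (Nat.add (Nat.add (Nat.add (Nat.add (Nat.add (Nat.add (Nat.add (Nat.add (Nat.add (Nat.add C x9679) x15511) x13567) x14215) x13999) x14035) x14071) x14047) x14059) x14051) x14055) (Nat.mul x14053 (nat_lit 2))) x7493)
    (Nat.sub (Nat.sub (Nat.add (Nat.add (Nat.add (Nat.add (Nat.add (Nat.add (Nat.add (Nat.add (Nat.add C x9681) x15513) x13569) x14217) x14001) x14037) x14073) x14061) x14053) (Nat.mul x14055 (nat_lit 4))) x7495)
    (Nat.sub (Nat.sub (Nat.add (Nat.add (Nat.add (Nat.add (Nat.add (Nat.add (Nat.add (Nat.add C x9685) x15517) x13573) x14221) x14005) x14077) x14053) x14061) (Nat.mul x14059 (nat_lit 3))) x7499)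
    (Nat.sub (Nat.sub (Nat.add (Nat.add (Nat.add (Nat.add (Nat.add (Nat.add (Nat.add (Nat.add C x9687) x15519) x13575) x14223) x14007) x14079) x14055) x14059) (Nat.mul x14061 (nat_lit 3))) x7501)
    (Nat.sub (Nat.add (Nat.add (Nat.add (Nat.add (Nat.add (Nat.add C x9695) x15527) x13583) x14231) x14051) x14071) x14069)
    (Nat.sub (Nat.sub (Nat.add (Nat.add (Nat.add (Nat.add (Nat.add (Nat.add (Nat.add (Nat.add C x9697) x15529) x13585) x14233) x14053) x14077) x14069) x14073) (Nat.mul x14071 (nat_lit 2))) x7511)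
    (Nat.sub (Nat.sub (Nat.add (Nat.add (Nat.add (Nat.add (Nat.add (Nat.add (Nat.add C x9699) x15531) x13587) x14235) x14055) x14079) x14071) (Nat.mul x14073 (nat_lit 5))) x7513)
    (Nat.sub (Nat.sub (Nat.add (Nat.add (Nat.add (Nat.add (Nat.add (Nat.add (Nat.add C x9703) x15535) x13591) x14239) x14059) x14071) x14079) x14077) x7517)
    (Nat.sub (Nat.sub (Nat.add (Nat.add (Nat.add (Nat.add (Nat.add (Nat.add (Nat.add (Nat.add C x9705) x15537) x13593) x14241) x14061) x14073) x14085) x14077) (Nat.mul x14079 (nat_lit 2))) x7519)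
    (Nat.sub (Nat.sub (Nat.add (Nat.add (Nat.add (Nat.add (Nat.add C x9711) x15543) x13599) x14247) x14079) x14085) x7525)
    (Nat.add (Nat.add (Nat.add (Nat.add (Nat.add (Nat.add (Nat.add (Nat.add C (Nat.mul x14111 (nat_lit 2))) x9737) x15569) x13625) x14597) x13949) x14129) x14117)
    (Nat.add (Nat.add (Nat.add (Nat.add (Nat.add (Nat.add (Nat.add (Nat.add C x9743) x15575) x13631) x14603) x13955) x14135) x14111) x14119)
    (Nat.sub (Nat.add (Nat.add (Nat.add (Nat.add (Nat.add (Nat.add (Nat.add C x9745) x15577) x13633) x14605) x13957) x14137) x14117) x7559)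
    (Nat.add (Nat.add (Nat.add (Nat.add (Nat.add (Nat.add (Nat.add (Nat.add C x9755) x15587) x13643) x14615) x13967) x14183) x14111) x14135)
    (Nat.add (Nat.add (Nat.add (Nat.add (Nat.add (Nat.add (Nat.add (Nat.add (Nat.add (Nat.add (Nat.add C x9761) x15593) x13649) x14621) x13973) x14189) x14117) x14153) x14129) x14141) x14137)
    (Nat.sub (Nat.sub (Nat.add (Nat.add (Nat.add (Nat.add (Nat.add (Nat.add (Nat.add (Nat.add (Nat.add (Nat.add C x9763) x15595) x13651) x14623) x13975) x14191) x14119) x14155) x14143) x14135) x14137) x7577)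
    (Nat.sub (Nat.add (Nat.add (Nat.add (Nat.add (Nat.add (Nat.add (Nat.add (Nat.add (Nat.add C x9767) x15599) x13655) x14627) x13979) x14195) x14159) x14135) x14143) (Nat.mul x14141 (nat_lit 2)))
    (Nat.sub (Nat.sub (Nat.add (Nat.add (Nat.add (Nat.add (Nat.add (Nat.add (Nat.add (Nat.add (Nat.add (Nat.add C x9769) x15601) x13657) x14629) x13981) x14197) x14161) x14137) x14141) x14145) x14143) x7583)
    (Nat.sub (Nat.sub (Nat.add (Nat.add (Nat.add (Nat.add (Nat.add (Nat.add (Nat.add (Nat.add C x9771) x15603) x13659) x14631) x13983) x14199) x14163) x14143) (Nat.mul x14145 (nat_lit 2))) x7585)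
    (Nat.sub (Nat.add (Nat.add (Nat.add (Nat.add (Nat.add (Nat.add (Nat.add (Nat.add (Nat.add C x9779) x15611) x13667) x14639) x13991) x14207) x14135) x14159) x14155) (Nat.mul x14153 (nat_lit 2)))
    (Nat.sub (Nat.sub (Nat.add (Nat.add (Nat.add (Nat.add (Nat.add (Nat.add (Nat.add (Nat.add (Nat.add C x9781) x15613) x13669) x14641) x13993) x14209) x14137) x14161) x14153) (Nat.mul x14155 (nat_lit 4))) x7595)
    (Nat.sub (Nat.add (Nat.add (Nat.add (Nat.add (Nat.add (Nat.add (Nat.add (Nat.add (Nat.add C x9785) x15617) x13673) x14645) x13997) x14213) x14141) x14153) x14161) (Nat.mul x14159 (nat_lit 2)))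
    (Nat.sub (Nat.sub (Nat.add (Nat.add (Nat.add (Nat.add (Nat.add (Nat.add (Nat.add (Nat.add (Nat.add (Nat.add (Nat.add C x9787) x15619) x13675) x14647) x13999) x14215) x14143) x14155) x14167) x14159) x14163) (Nat.mul x14161 (nat_lit 2))) x7601)
    (Nat.sub (Nat.sub (Nat.add (Nat.add (Nat.add (Nat.add (Nat.add (Nat.add (Nat.add (Nat.add (Nat.add C x9789) x15621) x13677) x14649) x14001) x14217) x14145) x14169) x14161) (Nat.mul x14163 (nat_lit 4))) x7603)
    (Nat.sub (Nat.sub (Nat.add (Nat.add (Nat.add (Nat.add (Nat.add (Nat.add (Nat.add (Nat.add C x9793) x15625) x13681) x14653) x14005) x14221) x14161) x14169) (Nat.mul x14167 (nat_lit 2))) x7607)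
    (Nat.sub (Nat.sub (Nat.add (Nat.add (Nat.add (Nat.add (Nat.add (Nat.add (Nat.add (Nat.add C x9795) x15627) x13683) x14655) x14007) x14223) x14163) x14167) (Nat.mul x14169 (nat_lit 2))) x7609)
    (Nat.add (Nat.add (Nat.add (Nat.add (Nat.add (Nat.add (Nat.add (Nat.add (Nat.add C x14183) x9809) x15641) x13697) x14669) x14021) x14345) x14129) x14189)
    (Nat.add (Nat.add (Nat.add (Nat.add (Nat.add (Nat.add (Nat.add (Nat.add (Nat.add (Nat.add (Nat.add C x9815) x15647) x13703) x14675) x14027) x14351) x14135) x14207) x14183) x14195) x14191)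
    (Nat.sub (Nat.sub (Nat.add (Nat.add (Nat.add (Nat.add (Nat.add (Nat.add (Nat.add (Nat.add (Nat.add (Nat.add C x9817) x15649) x13705) x14677) x14029) x14353) x14137) x14209) x14197) x14189) x14191) x7631)
    (Nat.sub (Nat.add (Nat.add (Nat.add (Nat.add (Nat.add (Nat.add (Nat.add (Nat.add (Nat.add (Nat.add C x9821) x15653) x13709) x14681) x14033) x14357) x14141) x14213) x14189) x14197) (Nat.mul x14195 (nat_lit 3)))
    (Nat.sub (Nat.sub (Nat.add (Nat.add (Nat.add (Nat.add (Nat.add (Nat.add (Nat.add (Nat.add (Nat.add (Nat.add (Nat.add C x9823) x15655) x13711) x14683) x14035) x14359) x14143) x14215) x14191) x14195) x14199) (Nat.mul x14197 (nat_lit 2))) x7637)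
    (Nat.sub (Nat.sub (Nat.add (Nat.add (Nat.add (Nat.add (Nat.add (Nat.add (Nat.add (Nat.add (Nat.add C x9825) x15657) x13713) x14685) x14037) x14361) x14145) x14217) x14197) (Nat.mul x14199 (nat_lit 3))) x7639)
    (Nat.add (Nat.add (Nat.add (Nat.add (Nat.add (Nat.add (Nat.add (Nat.add (Nat.add (Nat.add (Nat.add C x9833) x15665) x13721) x14693) x14045) x14369) x14153) x14261) x14189) x14213) x14209)
    (Nat.sub (Nat.sub (Nat.add (Nat.add (Nat.add (Nat.add (Nat.add (Nat.add (Nat.add (Nat.add (Nat.add (Nat.add (Nat.add C x9835) x15667) x13723) x14695) x14047) x14371) x14155) x14263) x14191) x14215) x14207) (Nat.mul x14209 (nat_lit 2))) x7649)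
    (Nat.sub (Nat.add (Nat.add (Nat.add (Nat.add (Nat.add (Nat.add (Nat.add (Nat.add (Nat.add (Nat.add (Nat.add (Nat.add C x9839) x15671) x13727) x14699) x14051) x14375) x14159) x14267) x14195) x14231) x14207) x14215) x14213)
    (Nat.sub (Nat.sub (Nat.add (Nat.add (Nat.add (Nat.add (Nat.add (Nat.add (Nat.add (Nat.add (Nat.add (Nat.add (Nat.add (Nat.add (Nat.add (Nat.add C x9841) x15673) x13729) x14701) x14053) x14377) x14161) x14269) x14197) x14233) x14209) x14221) x14213) x14217) x14215) x7655)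
    (Nat.sub (Nat.sub (Nat.add (Nat.add (Nat.add (Nat.add (Nat.add (Nat.add (Nat.add (Nat.add (Nat.add (Nat.add (Nat.add (Nat.add C x9843) x15675) x13731) x14703) x14055) x14379) x14163) x14271) x14199) x14235) x14223) x14215) (Nat.mul x14217 (nat_lit 3))) x7657)
    (Nat.sub (Nat.sub (Nat.add (Nat.add (Nat.add (Nat.add (Nat.add (Nat.add (Nat.add (Nat.add (Nat.add (Nat.add (Nat.add C x9847) x15679) x13735) x14707) x14059) x14383) x14167) x14275) x14239) x14215) x14223) (Nat.mul x14221 (nat_lit 2))) x7661)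
    (Nat.sub (Nat.sub (Nat.add (Nat.add (Nat.add (Nat.add (Nat.add (Nat.add (Nat.add (Nat.add (Nat.add (Nat.add (Nat.add C x9849) x15681) x13737) x14709) x14061) x14385) x14169) x14277) x14241) x14217) x14221) (Nat.mul x14223 (nat_lit 2))) x7663)
    (Nat.sub (Nat.add (Nat.add (Nat.add (Nat.add (Nat.add (Nat.add (Nat.add (Nat.add (Nat.add C x9857) x15689) x13745) x14717) x14069) x14393) x14285) x14213) x14233) x14231)
    (Nat.sub (Nat.sub (Nat.add (Nat.add (Nat.add (Nat.add (Nat.add (Nat.add (Nat.add (Nat.add (Nat.add (Nat.add (Nat.add C x9859) x15691) x13747) x14719) x14071) x14395) x14287) x14215) x14239) x14231) x14235) (Nat.mul x14233 (nat_lit 2))) x7673)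
    (Nat.sub (Nat.sub (Nat.add (Nat.add (Nat.add (Nat.add (Nat.add (Nat.add (Nat.add (Nat.add (Nat.add (Nat.add C x9861) x15693) x13749) x14721) x14073) x14397) x14289) x14217) x14241) x14233) (Nat.mul x14235 (nat_lit 5))) x7675)
    (Nat.sub (Nat.sub (Nat.add (Nat.add (Nat.add (Nat.add (Nat.add (Nat.add (Nat.add (Nat.add (Nat.add (Nat.add C x9865) x15697) x13753) x14725) x14077) x14401) x14293) x14221) x14233) x14241) x14239) x7679)
    (Nat.sub (Nat.sub (Nat.add (Nat.add (Nat.add (Nat.add (Nat.add (Nat.add (Nat.add (Nat.add (Nat.add (Nat.add (Nat.add C x9867) x15699) x13755) x14727) x14079) x14403) x14295) x14223) x14235) x14247) x14239) (Nat.mul x14241 (nat_lit 2))) x7681)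
    (Nat.sub (Nat.sub (Nat.add (Nat.add (Nat.add (Nat.add (Nat.add (Nat.add (Nat.add (Nat.add C x9873) x15705) x13761) x14733) x14085) x14409) x14301) x14241) x14247) x7687)
    (Nat.add (Nat.add (Nat.add (Nat.add (Nat.add (Nat.add (Nat.add (Nat.add C x9887) x15719) x13775) x14747) x14423) x14207) x14267) x14263)
    (Nat.sub (Nat.sub (Nat.add (Nat.add (Nat.add (Nat.add (Nat.add (Nat.add (Nat.add (Nat.add C x9889) x15721) x13777) x14749) x14425) x14209) x14269) x14261) (Nat.mul x14263 (nat_lit 2))) x7703)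
    (Nat.sub (Nat.add (Nat.add (Nat.add (Nat.add (Nat.add (Nat.add (Nat.add (Nat.add (Nat.add C x9893) x15725) x13781) x14753) x14429) x14213) x14285) x14261) x14269) (Nat.mul x14267 (nat_lit 2)))
    (Nat.sub (Nat.sub (Nat.add (Nat.add (Nat.add (Nat.add (Nat.add (Nat.add (Nat.add (Nat.add (Nat.add (Nat.add (Nat.add C x9895) x15727) x13783) x14755) x14431) x14215) x14287) x14263) x14275) x14267) x14271) (Nat.mul x14269 (nat_lit 2))) x7709)
    (Nat.sub (Nat.sub (Nat.add (Nat.add (Nat.add (Nat.add (Nat.add (Nat.add (Nat.add (Nat.add (Nat.add C x9897) x15729) x13785) x14757) x14433) x14217) x14289) x14277) x14269) (Nat.mul x14271 (nat_lit 4))) x7711)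
    (Nat.sub (Nat.sub (Nat.add (Nat.add (Nat.add (Nat.add (Nat.add (Nat.add (Nat.add (Nat.add (Nat.add C x9901) x15733) x13789) x14761) x14437) x14221) x14293) x14269) x14277) (Nat.mul x14275 (nat_lit 4))) x7715)
    (Nat.sub (Nat.sub (Nat.add (Nat.add (Nat.add (Nat.add (Nat.add (Nat.add (Nat.add (Nat.add (Nat.add C x9903) x15735) x13791) x14763) x14439) x14223) x14295) x14271) x14275) (Nat.mul x14277 (nat_lit 4))) x7717)
    (Nat.add (Nat.add (Nat.add (Nat.add (Nat.add (Nat.add (Nat.add (Nat.add C x9911) x15743) x13799) x14771) x14447) x14231) x14267) x14287)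
    (Nat.sub (Nat.sub (Nat.add (Nat.add (Nat.add (Nat.add (Nat.add (Nat.add (Nat.add (Nat.add (Nat.add (Nat.add C x9913) x15745) x13801) x14773) x14449) x14233) x14269) x14293) x14285) x14289) x14287) x7727)
    (Nat.sub (Nat.sub (Nat.add (Nat.add (Nat.add (Nat.add (Nat.add (Nat.add (Nat.add (Nat.add (Nat.add C x9915) x15747) x13803) x14775) x14451) x14235) x14271) x14295) x14287) (Nat.mul x14289 (nat_lit 4))) x7729)
    (Nat.sub (Nat.sub (Nat.add (Nat.add (Nat.add (Nat.add (Nat.add (Nat.add (Nat.add (Nat.add (Nat.add (Nat.add C x9919) x15751) x13807) x14779) x14455) x14239) x14275) x14311) x14287) x14295) x14293) x7733)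
    (Nat.sub (Nat.sub (Nat.add (Nat.add (Nat.add (Nat.add (Nat.add (Nat.add (Nat.add (Nat.add (Nat.add (Nat.add (Nat.add C x9921) x15753) x13809) x14781) x14457) x14241) x14277) x14313) x14289) x14301) x14293) (Nat.mul x14295 (nat_lit 2))) x7735)
    (Nat.sub (Nat.sub (Nat.add (Nat.add (Nat.add (Nat.add (Nat.add (Nat.add (Nat.add (Nat.add C x9927) x15759) x13815) x14787) x14463) x14247) x14319) x14295) (Nat.mul x14301 (nat_lit 2))) x7741)
    (Nat.sub (Nat.add (Nat.add (Nat.add (Nat.add (Nat.add (Nat.add (Nat.add C x9937) x15769) x13825) x14797) x14473) x14293) x14313) x7751)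
    (Nat.sub (Nat.sub (Nat.add (Nat.add (Nat.add (Nat.add (Nat.add (Nat.add (Nat.add (Nat.add C x9939) x15771) x13827) x14799) x14475) x14295) x14319) x14311) (Nat.mul x14313 (nat_lit 2))) x7753)
    (Nat.sub (Nat.add (Nat.add (Nat.add (Nat.add (Nat.add (Nat.add (Nat.add C x9945) x15777) x13833) x14805) x14481) x14301) x14313) x7759)
    (Nat.add (Nat.add (Nat.add (Nat.add (Nat.add (Nat.add C x14345) x9971) x15803) x14831) x14183) x14351)
    (Nat.add (Nat.add (Nat.add (Nat.add (Nat.add (Nat.add (Nat.add (Nat.add C x9977) x15809) x14837) x14189) x14369) x14345) x14357) x14353)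
    (Nat.sub (Nat.sub (Nat.add (Nat.add (Nat.add (Nat.add (Nat.add (Nat.add (Nat.add C x9979) x15811) x14839) x14191) x14371) x14359) x14351) x14353) x7793)
    (Nat.sub (Nat.add (Nat.add (Nat.add (Nat.add (Nat.add (Nat.add (Nat.add C x9983) x15815) x14843) x14195) x14375) x14351) x14359) (Nat.mul x14357 (nat_lit 3)))
    (Nat.sub (Nat.sub (Nat.add (Nat.add (Nat.add (Nat.add (Nat.add (Nat.add (Nat.add (Nat.add C x9985) x15817) x14845) x14197) x14377) x14353) x14357) x14361) (Nat.mul x14359 (nat_lit 2))) x7799)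
    (Nat.sub (Nat.sub (Nat.add (Nat.add (Nat.add (Nat.add (Nat.add (Nat.add C x9987) x15819) x14847) x14199) x14379) x14359) (Nat.mul x14361 (nat_lit 3))) x7801)
    (Nat.sub (Nat.add (Nat.add (Nat.add (Nat.add (Nat.add (Nat.add (Nat.add (Nat.add C x9995) x15827) x14855) x14207) x14423) x14351) x14375) x14371) x14369)
    (Nat.sub (Nat.sub (Nat.add (Nat.add (Nat.add (Nat.add (Nat.add (Nat.add (Nat.add (Nat.add C x9997) x15829) x14857) x14209) x14425) x14353) x14377) x14369) (Nat.mul x14371 (nat_lit 3))) x7811)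
    (Nat.sub (Nat.add (Nat.add (Nat.add (Nat.add (Nat.add (Nat.add (Nat.add (Nat.add (Nat.add C x10001) x15833) x14861) x14213) x14429) x14357) x14393) x14369) x14377) (Nat.mul x14375 (nat_lit 2)))
    (Nat.sub (Nat.sub (Nat.add (Nat.add (Nat.add (Nat.add (Nat.add (Nat.add (Nat.add (Nat.add (Nat.add (Nat.add (Nat.add C x10003) x15835) x14863) x14215) x14431) x14359) x14395) x14371) x14383) x14375) x14379) (Nat.mul x14377 (nat_lit 2))) x7817)
    (Nat.sub (Nat.sub (Nat.add (Nat.add (Nat.add (Nat.add (Nat.add (Nat.add (Nat.add (Nat.add (Nat.add C x10005) x15837) x14865) x14217) x14433) x14361) x14397) x14385) x14377) (Nat.mul x14379 (nat_lit 4))) x7819)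
    (Nat.sub (Nat.sub (Nat.add (Nat.add (Nat.add (Nat.add (Nat.add (Nat.add (Nat.add (Nat.add C x10009) x15841) x14869) x14221) x14437) x14401) x14377) x14385) (Nat.mul x14383 (nat_lit 3))) x7823)
    (Nat.sub (Nat.sub (Nat.add (Nat.add (Nat.add (Nat.add (Nat.add (Nat.add (Nat.add (Nat.add C x10011) x15843) x14871) x14223) x14439) x14403) x14379) x14383) (Nat.mul x14385 (nat_lit 3))) x7825)
    (Nat.sub (Nat.add (Nat.add (Nat.add (Nat.add (Nat.add (Nat.add (Nat.add C x10019) x15851) x14879) x14231) x14447) x14375) x14395) (Nat.mul x14393 (nat_lit 3)))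
    (Nat.sub (Nat.sub (Nat.add (Nat.add (Nat.add (Nat.add (Nat.add (Nat.add (Nat.add (Nat.add (Nat.add C x10021) x15853) x14881) x14233) x14449) x14377) x14401) x14393) x14397) (Nat.mul x14395 (nat_lit 4))) x7835)
    (Nat.sub (Nat.sub (Nat.add (Nat.add (Nat.add (Nat.add (Nat.add (Nat.add (Nat.add (Nat.add C x10023) x15855) x14883) x14235) x14451) x14379) x14403) x14395) (Nat.mul x14397 (nat_lit 7))) x7837)
    (Nat.sub (Nat.sub (Nat.add (Nat.add (Nat.add (Nat.add (Nat.add (Nat.add (Nat.add (Nat.add C x10027) x15859) x14887) x14239) x14455) x14383) x14395) x14403) (Nat.mul x14401 (nat_lit 3))) x7841)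
    (Nat.sub (Nat.sub (Nat.add (Nat.add (Nat.add (Nat.add (Nat.add (Nat.add (Nat.add (Nat.add (Nat.add C x10029) x15861) x14889) x14241) x14457) x14385) x14397) x14409) x14401) (Nat.mul x14403 (nat_lit 4))) x7843)
    (Nat.sub (Nat.sub (Nat.add (Nat.add (Nat.add (Nat.add (Nat.add (Nat.add C x10035) x15867) x14895) x14247) x14463) x14403) (Nat.mul x14409 (nat_lit 3))) x7849)
    (Nat.add (Nat.add (Nat.add (Nat.add (Nat.add (Nat.add (Nat.add (Nat.add C x14423) x10049) x15881) x14909) x14261) x14369) x14429) x14425)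
    (Nat.sub (Nat.sub (Nat.add (Nat.add (Nat.add (Nat.add (Nat.add (Nat.add (Nat.add C x10051) x15883) x14911) x14263) x14371) x14431) x14423) x14425) x7865)
    (Nat.sub (Nat.add (Nat.add (Nat.add (Nat.add (Nat.add (Nat.add (Nat.add (Nat.add C x10055) x15887) x14915) x14267) x14375) x14447) x14423) x14431) x14429)
    (Nat.sub (Nat.sub (Nat.add (Nat.add (Nat.add (Nat.add (Nat.add (Nat.add (Nat.add (Nat.add (Nat.add (Nat.add C x10057) x15889) x14917) x14269) x14377) x14449) x14425) x14437) x14429) x14433) x14431) x7871)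
    (Nat.sub (Nat.sub (Nat.add (Nat.add (Nat.add (Nat.add (Nat.add (Nat.add (Nat.add (Nat.add C x10059) x15891) x14919) x14271) x14379) x14451) x14439) x14431) (Nat.mul x14433 (nat_lit 3))) x7873)
    (Nat.sub (Nat.sub (Nat.add (Nat.add (Nat.add (Nat.add (Nat.add (Nat.add (Nat.add (Nat.add C x10063) x15895) x14923) x14275) x14383) x14455) x14431) x14439) (Nat.mul x14437 (nat_lit 3))) x7877)
    (Nat.sub (Nat.sub (Nat.add (Nat.add (Nat.add (Nat.add (Nat.add (Nat.add (Nat.add (Nat.add C x10065) x15897) x14925) x14277) x14385) x14457) x14433) x14437) (Nat.mul x14439 (nat_lit 3))) x7879)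
    (Nat.add (Nat.add (Nat.add (Nat.add (Nat.add (Nat.add (Nat.add (Nat.add C x10073) x15905) x14933) x14285) x14393) x14501) x14429) x14449)
    (Nat.sub (Nat.sub (Nat.add (Nat.add (Nat.add (Nat.add (Nat.add (Nat.add (Nat.add (Nat.add (Nat.add (Nat.add C x10075) x15907) x14935) x14287) x14395) x14503) x14431) x14455) x14447) x14451) x14449) x7889)
    (Nat.sub (Nat.sub (Nat.add (Nat.add (Nat.add (Nat.add (Nat.add (Nat.add (Nat.add (Nat.add (Nat.add C x10077) x15909) x14937) x14289) x14397) x14505) x14433) x14457) x14449) (Nat.mul x14451 (nat_lit 4))) x7891)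
    (Nat.sub (Nat.sub (Nat.add (Nat.add (Nat.add (Nat.add (Nat.add (Nat.add (Nat.add (Nat.add (Nat.add (Nat.add C x10081) x15913) x14941) x14293) x14401) x14509) x14437) x14473) x14449) x14457) x14455) x7895)
    (Nat.sub (Nat.sub (Nat.add (Nat.add (Nat.add (Nat.add (Nat.add (Nat.add (Nat.add (Nat.add (Nat.add (Nat.add (Nat.add C x10083) x15915) x14943) x14295) x14403) x14511) x14439) x14475) x14451) x14463) x14455) (Nat.mul x14457 (nat_lit 2))) x7897)
    (Nat.sub (Nat.sub (Nat.add (Nat.add (Nat.add (Nat.add (Nat.add (Nat.add (Nat.add (Nat.add C x10089) x15921) x14949) x14301) x14409) x14517) x14481) x14457) (Nat.mul x14463 (nat_lit 2))) x7903)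
    (Nat.sub (Nat.sub (Nat.add (Nat.add (Nat.add (Nat.add (Nat.add (Nat.add (Nat.add C x10099) x15931) x14959) x14311) x14527) x14455) x14475) x14473) x7913)
    (Nat.sub (Nat.sub (Nat.add (Nat.add (Nat.add (Nat.add (Nat.add (Nat.add (Nat.add (Nat.add C x10101) x15933) x14961) x14313) x14529) x14457) x14481) x14473) (Nat.mul x14475 (nat_lit 3))) x7915)
    (Nat.sub (Nat.sub (Nat.add (Nat.add (Nat.add (Nat.add (Nat.add (Nat.add (Nat.add C x10107) x15939) x14967) x14319) x14535) x14463) x14475) x14481) x7921)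
    (Nat.add (Nat.add (Nat.add (Nat.add (Nat.add (Nat.add C x14501) x10127) x15959) x14987) x14447) x14503)
    (Nat.sub (Nat.add (Nat.add (Nat.add (Nat.add (Nat.add (Nat.add (Nat.add C x10129) x15961) x14989) x14449) x14509) x14501) x14505) x7943)
    (Nat.sub (Nat.sub (Nat.add (Nat.add (Nat.add (Nat.add (Nat.add (Nat.add C x10131) x15963) x14991) x14451) x14511) x14503) (Nat.mul x14505 (nat_lit 3))) x7945)
    (Nat.sub (Nat.sub (Nat.add (Nat.add (Nat.add (Nat.add (Nat.add (Nat.add (Nat.add C x10135) x15967) x14995) x14455) x14527) x14503) x14511) x14509) x7949)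
    (Nat.sub (Nat.sub (Nat.add (Nat.add (Nat.add (Nat.add (Nat.add (Nat.add (Nat.add (Nat.add C x10137) x15969) x14997) x14457) x14529) x14505) x14517) x14509) (Nat.mul x14511 (nat_lit 2))) x7951)
    (Nat.sub (Nat.sub (Nat.add (Nat.add (Nat.add (Nat.add (Nat.add (Nat.add C x10143) x15975) x15003) x14463) x14535) x14511) (Nat.mul x14517 (nat_lit 3))) x7957)
    (Nat.sub (Nat.add (Nat.add (Nat.add (Nat.add (Nat.add (Nat.add (Nat.add C x14527) x10153) x15985) x15013) x14473) x14509) x14529) x7967)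
    (Nat.sub (Nat.sub (Nat.add (Nat.add (Nat.add (Nat.add (Nat.add (Nat.add (Nat.add C x10155) x15987) x15015) x14475) x14511) x14535) x14527) x14529) x7969)
    (Nat.sub (Nat.add (Nat.add (Nat.add (Nat.add (Nat.add (Nat.add (Nat.add C x10161) x15993) x15021) x14481) x14517) x14553) x14529) x7975)
    (Nat.sub (Nat.add (Nat.add (Nat.add (Nat.add (Nat.add C x14553) x10179) x16011) x15039) x14535) x7993)
    (Nat.add (Nat.add (Nat.add (Nat.add (Nat.add (Nat.add C x14597) x10223) x16055) x14111) x14615) x14603)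
    (Nat.sub (Nat.add (Nat.add (Nat.add (Nat.add (Nat.add (Nat.add C x10229) x16061) x14117) x14621) x14597) x14605) x14603)
    (Nat.sub (Nat.sub (Nat.add (Nat.add (Nat.add (Nat.add (Nat.add C x10231) x16063) x14119) x14623) x14603) x14605) x8045)
    (Nat.sub (Nat.add (Nat.add (Nat.add (Nat.add (Nat.add (Nat.add C x10241) x16073) x14129) x14669) x14597) x14621) x14615)
    (Nat.sub (Nat.add (Nat.add (Nat.add (Nat.add (Nat.add (Nat.add (Nat.add (Nat.add (Nat.add C x10247) x16079) x14135) x14675) x14603) x14639) x14615) x14627) x14623) x14621)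
    (Nat.sub (Nat.sub (Nat.add (Nat.add (Nat.add (Nat.add (Nat.add (Nat.add (Nat.add (Nat.add C x10249) x16081) x14137) x14677) x14605) x14641) x14629) x14621) (Nat.mul x14623 (nat_lit 2))) x8063)
    (Nat.sub (Nat.add (Nat.add (Nat.add (Nat.add (Nat.add (Nat.add (Nat.add C x10253) x16085) x14141) x14681) x14645) x14621) x14629) (Nat.mul x14627 (nat_lit 3)))
    (Nat.sub (Nat.sub (Nat.add (Nat.add (Nat.add (Nat.add (Nat.add (Nat.add (Nat.add (Nat.add C x10255) x16087) x14143) x14683) x14647) x14623) x14627) x14631) (Nat.mul x14629 (nat_lit 2))) x8069)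
    (Nat.sub (Nat.sub (Nat.add (Nat.add (Nat.add (Nat.add (Nat.add (Nat.add C x10257) x16089) x14145) x14685) x14649) x14629) (Nat.mul x14631 (nat_lit 3))) x8071)
    (Nat.sub (Nat.add (Nat.add (Nat.add (Nat.add (Nat.add (Nat.add (Nat.add C x10265) x16097) x14153) x14693) x14621) x14645) x14641) (Nat.mul x14639 (nat_lit 3)))
    (Nat.sub (Nat.sub (Nat.add (Nat.add (Nat.add (Nat.add (Nat.add (Nat.add (Nat.add C x10267) x16099) x14155) x14695) x14623) x14647) x14639) (Nat.mul x14641 (nat_lit 5))) x8081)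
    (Nat.sub (Nat.add (Nat.add (Nat.add (Nat.add (Nat.add (Nat.add (Nat.add C x10271) x16103) x14159) x14699) x14627) x14639) x14647) (Nat.mul x14645 (nat_lit 3)))
    (Nat.sub (Nat.sub (Nat.add (Nat.add (Nat.add (Nat.add (Nat.add (Nat.add (Nat.add (Nat.add (Nat.add C x10273) x16105) x14161) x14701) x14629) x14641) x14653) x14645) x14649) (Nat.mul x14647 (nat_lit 3))) x8087)
    (Nat.sub (Nat.sub (Nat.add (Nat.add (Nat.add (Nat.add (Nat.add (Nat.add (Nat.add C x10275) x16107) x14163) x14703) x14631) x14655) x14647) (Nat.mul x14649 (nat_lit 5))) x8089)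
    (Nat.sub (Nat.sub (Nat.add (Nat.add (Nat.add (Nat.add (Nat.add (Nat.add C x10279) x16111) x14167) x14707) x14647) x14655) (Nat.mul x14653 (nat_lit 3))) x8093)
    (Nat.sub (Nat.sub (Nat.add (Nat.add (Nat.add (Nat.add (Nat.add (Nat.add C x10281) x16113) x14169) x14709) x14649) x14653) (Nat.mul x14655 (nat_lit 3))) x8095)
    (Nat.sub (Nat.add (Nat.add (Nat.add (Nat.add (Nat.add (Nat.add C x10295) x16127) x14183) x14831) x14615) x14675) x14669)
    (Nat.sub (Nat.add (Nat.add (Nat.add (Nat.add (Nat.add (Nat.add (Nat.add (Nat.add (Nat.add C x10301) x16133) x14189) x14837) x14621) x14693) x14669) x14681) x14677) (Nat.mul x14675 (nat_lit 2)))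
    (Nat.sub (Nat.sub (Nat.add (Nat.add (Nat.add (Nat.add (Nat.add (Nat.add (Nat.add (Nat.add C x10303) x16135) x14191) x14839) x14623) x14695) x14683) x14675) (Nat.mul x14677 (nat_lit 3))) x8117)
    (Nat.sub (Nat.add (Nat.add (Nat.add (Nat.add (Nat.add (Nat.add (Nat.add (Nat.add C x10307) x16139) x14195) x14843) x14627) x14699) x14675) x14683) (Nat.mul x14681 (nat_lit 5)))
    (Nat.sub (Nat.sub (Nat.add (Nat.add (Nat.add (Nat.add (Nat.add (Nat.add (Nat.add (Nat.add (Nat.add C x10309) x16141) x14197) x14845) x14629) x14701) x14677) x14681) x14685) (Nat.mul x14683 (nat_lit 4))) x8123)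
    (Nat.sub (Nat.sub (Nat.add (Nat.add (Nat.add (Nat.add (Nat.add (Nat.add (Nat.add C x10311) x16143) x14199) x14847) x14631) x14703) x14683) (Nat.mul x14685 (nat_lit 5))) x8125)
    (Nat.sub (Nat.add (Nat.add (Nat.add (Nat.add (Nat.add (Nat.add (Nat.add (Nat.add (Nat.add C x10319) x16151) x14207) x14855) x14639) x14747) x14675) x14699) x14695) (Nat.mul x14693 (nat_lit 2)))
    (Nat.sub (Nat.sub (Nat.add (Nat.add (Nat.add (Nat.add (Nat.add (Nat.add (Nat.add (Nat.add (Nat.add C x10321) x16153) x14209) x14857) x14641) x14749) x14677) x14701) x14693) (Nat.mul x14695 (nat_lit 4))) x8135)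
    (Nat.sub (Nat.add (Nat.add (Nat.add (Nat.add (Nat.add (Nat.add (Nat.add (Nat.add (Nat.add (Nat.add C x10325) x16157) x14213) x14861) x14645) x14753) x14681) x14717) x14693) x14701) (Nat.mul x14699 (nat_lit 3)))
    (Nat.sub (Nat.sub (Nat.add (Nat.add (Nat.add (Nat.add (Nat.add (Nat.add (Nat.add (Nat.add (Nat.add (Nat.add (Nat.add (Nat.add C x10327) x16159) x14215) x14863) x14647) x14755) x14683) x14719) x14695) x14707) x14699) x14703) (Nat.mul x14701 (nat_lit 3))) x8141)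
    (Nat.sub (Nat.sub (Nat.add (Nat.add (Nat.add (Nat.add (Nat.add (Nat.add (Nat.add (Nat.add (Nat.add (Nat.add C x10329) x16161) x14217) x14865) x14649) x14757) x14685) x14721) x14709) x14701) (Nat.mul x14703 (nat_lit 5))) x8143)
    (Nat.sub (Nat.sub (Nat.add (Nat.add (Nat.add (Nat.add (Nat.add (Nat.add (Nat.add (Nat.add (Nat.add C x10333) x16165) x14221) x14869) x14653) x14761) x14725) x14701) x14709) (Nat.mul x14707 (nat_lit 4))) x8147)
    (Nat.sub (Nat.sub (Nat.add (Nat.add (Nat.add (Nat.add (Nat.add (Nat.add (Nat.add (Nat.add (Nat.add C x10335) x16167) x14223) x14871) x14655) x14763) x14727) x14703) x14707) (Nat.mul x14709 (nat_lit 4))) x8149)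
    (Nat.sub (Nat.add (Nat.add (Nat.add (Nat.add (Nat.add (Nat.add (Nat.add C x10343) x16175) x14231) x14879) x14771) x14699) x14719) (Nat.mul x14717 (nat_lit 3)))
    (Nat.sub (Nat.sub (Nat.add (Nat.add (Nat.add (Nat.add (Nat.add (Nat.add (Nat.add (Nat.add (Nat.add C x10345) x16177) x14233) x14881) x14773) x14701) x14725) x14717) x14721) (Nat.mul x14719 (nat_lit 4))) x8159)
    (Nat.sub (Nat.sub (Nat.add (Nat.add (Nat.add (Nat.add (Nat.add (Nat.add (Nat.add (Nat.add C x10347) x16179) x14235) x14883) x14775) x14703) x14727) x14719) (Nat.mul x14721 (nat_lit 7))) x8161)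
    (Nat.sub (Nat.sub (Nat.add (Nat.add (Nat.add (Nat.add (Nat.add (Nat.add (Nat.add (Nat.add C x10351) x16183) x14239) x14887) x14779) x14707) x14719) x14727) (Nat.mul x14725 (nat_lit 3))) x8165)
    (Nat.sub (Nat.sub (Nat.add (Nat.add (Nat.add (Nat.add (Nat.add (Nat.add (Nat.add (Nat.add (Nat.add C x10353) x16185) x14241) x14889) x14781) x14709) x14721) x14733) x14725) (Nat.mul x14727 (nat_lit 4))) x8167)
    (Nat.sub (Nat.sub (Nat.add (Nat.add (Nat.add (Nat.add (Nat.add (Nat.add C x10359) x16191) x14247) x14895) x14787) x14727) (Nat.mul x14733 (nat_lit 3))) x8173)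
    (Nat.sub (Nat.add (Nat.add (Nat.add (Nat.add (Nat.add (Nat.add (Nat.add C x10373) x16205) x14261) x14909) x14693) x14753) x14749) (Nat.mul x14747 (nat_lit 3)))
    (Nat.sub (Nat.sub (Nat.add (Nat.add (Nat.add (Nat.add (Nat.add (Nat.add (Nat.add C x10375) x16207) x14263) x14911) x14695) x14755) x14747) (Nat.mul x14749 (nat_lit 5))) x8189)
    (Nat.sub (Nat.add (Nat.add (Nat.add (Nat.add (Nat.add (Nat.add (Nat.add (Nat.add C x10379) x16211) x14267) x14915) x14699) x14771) x14747) x14755) (Nat.mul x14753 (nat_lit 5)))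
    (Nat.sub (Nat.sub (Nat.add (Nat.add (Nat.add (Nat.add (Nat.add (Nat.add (Nat.add (Nat.add (Nat.add (Nat.add C x10381) x16213) x14269) x14917) x14701) x14773) x14749) x14761) x14753) x14757) (Nat.mul x14755 (nat_lit 5))) x8195)
    (Nat.sub (Nat.sub (Nat.add (Nat.add (Nat.add (Nat.add (Nat.add (Nat.add (Nat.add (Nat.add C x10383) x16215) x14271) x14919) x14703) x14775) x14763) x14755) (Nat.mul x14757 (nat_lit 7))) x8197)
    (Nat.sub (Nat.sub (Nat.add (Nat.add (Nat.add (Nat.add (Nat.add (Nat.add (Nat.add (Nat.add C x10387) x16219) x14275) x14923) x14707) x14779) x14755) x14763) (Nat.mul x14761 (nat_lit 7))) x8201)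
    (Nat.sub (Nat.sub (Nat.add (Nat.add (Nat.add (Nat.add (Nat.add (Nat.add (Nat.add (Nat.add C x10389) x16221) x14277) x14925) x14709) x14781) x14757) x14761) (Nat.mul x14763 (nat_lit 7))) x8203)
    (Nat.sub (Nat.add (Nat.add (Nat.add (Nat.add (Nat.add (Nat.add (Nat.add C x10397) x16229) x14285) x14933) x14717) x14753) x14773) (Nat.mul x14771 (nat_lit 3)))
    (Nat.sub (Nat.sub (Nat.add (Nat.add (Nat.add (Nat.add (Nat.add (Nat.add (Nat.add (Nat.add (Nat.add C x10399) x16231) x14287) x14935) x14719) x14755) x14779) x14771) x14775) (Nat.mul x14773 (nat_lit 4))) x8213)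
    (Nat.sub (Nat.sub (Nat.add (Nat.add (Nat.add (Nat.add (Nat.add (Nat.add (Nat.add (Nat.add C x10401) x16233) x14289) x14937) x14721) x14757) x14781) x14773) (Nat.mul x14775 (nat_lit 7))) x8215)
    (Nat.sub (Nat.sub (Nat.add (Nat.add (Nat.add (Nat.add (Nat.add (Nat.add (Nat.add (Nat.add (Nat.add C x10405) x16237) x14293) x14941) x14725) x14761) x14797) x14773) x14781) (Nat.mul x14779 (nat_lit 4))) x8219)
    (Nat.sub (Nat.sub (Nat.add (Nat.add (Nat.add (Nat.add (Nat.add (Nat.add (Nat.add (Nat.add (Nat.add (Nat.add C x10407) x16239) x14295) x14943) x14727) x14763) x14799) x14775) x14787) x14779) (Nat.mul x14781 (nat_lit 5))) x8221)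
    (Nat.sub (Nat.sub (Nat.add (Nat.add (Nat.add (Nat.add (Nat.add (Nat.add (Nat.add C x10413) x16245) x14301) x14949) x14733) x14805) x14781) (Nat.mul x14787 (nat_lit 5))) x8227)
    (Nat.sub (Nat.sub (Nat.add (Nat.add (Nat.add (Nat.add (Nat.add (Nat.add C x10423) x16255) x14311) x14959) x14779) x14799) (Nat.mul x14797 (nat_lit 3))) x8237)
    (Nat.sub (Nat.sub (Nat.add (Nat.add (Nat.add (Nat.add (Nat.add (Nat.add (Nat.add C x10425) x16257) x14313) x14961) x14781) x14805) x14797) (Nat.mul x14799 (nat_lit 5))) x8239)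
    (Nat.sub (Nat.sub (Nat.add (Nat.add (Nat.add (Nat.add (Nat.add (Nat.add C x10431) x16263) x14319) x14967) x14787) x14799) (Nat.mul x14805 (nat_lit 3))) x8245)
    (Nat.add (Nat.add (Nat.add (Nat.add (Nat.add (Nat.add C x14831) x10457) x16289) x14345) x14669) x14837)
    (Nat.add (Nat.add (Nat.add (Nat.add (Nat.add (Nat.add (Nat.add (Nat.add C x10463) x16295) x14351) x14675) x14855) x14831) x14843) x14839)
    (Nat.sub (Nat.sub (Nat.add (Nat.add (Nat.add (Nat.add (Nat.add (Nat.add (Nat.add C x10465) x16297) x14353) x14677) x14857) x14845) x14837) x14839) x8279)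
    (Nat.sub (Nat.add (Nat.add (Nat.add (Nat.add (Nat.add (Nat.add (Nat.add C x10469) x16301) x14357) x14681) x14861) x14837) x14845) (Nat.mul x14843 (nat_lit 3)))
    (Nat.sub (Nat.sub (Nat.add (Nat.add (Nat.add (Nat.add (Nat.add (Nat.add (Nat.add (Nat.add C x10471) x16303) x14359) x14683) x14863) x14839) x14843) x14847) (Nat.mul x14845 (nat_lit 2))) x8285)
    (Nat.sub (Nat.sub (Nat.add (Nat.add (Nat.add (Nat.add (Nat.add (Nat.add C x10473) x16305) x14361) x14685) x14865) x14845) (Nat.mul x14847 (nat_lit 3))) x8287)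
    (Nat.sub (Nat.add (Nat.add (Nat.add (Nat.add (Nat.add (Nat.add (Nat.add (Nat.add C x10481) x16313) x14369) x14693) x14909) x14837) x14861) x14857) x14855)
    (Nat.sub (Nat.sub (Nat.add (Nat.add (Nat.add (Nat.add (Nat.add (Nat.add (Nat.add (Nat.add C x10483) x16315) x14371) x14695) x14911) x14839) x14863) x14855) (Nat.mul x14857 (nat_lit 3))) x8297)
    (Nat.sub (Nat.add (Nat.add (Nat.add (Nat.add (Nat.add (Nat.add (Nat.add (Nat.add (Nat.add C x10487) x16319) x14375) x14699) x14915) x14843) x14879) x14855) x14863) (Nat.mul x14861 (nat_lit 2)))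
    (Nat.sub (Nat.sub (Nat.add (Nat.add (Nat.add (Nat.add (Nat.add (Nat.add (Nat.add (Nat.add (Nat.add (Nat.add (Nat.add C x10489) x16321) x14377) x14701) x14917) x14845) x14881) x14857) x14869) x14861) x14865) (Nat.mul x14863 (nat_lit 2))) x8303)
    (Nat.sub (Nat.sub (Nat.add (Nat.add (Nat.add (Nat.add (Nat.add (Nat.add (Nat.add (Nat.add (Nat.add C x10491) x16323) x14379) x14703) x14919) x14847) x14883) x14871) x14863) (Nat.mul x14865 (nat_lit 4))) x8305)
    (Nat.sub (Nat.sub (Nat.add (Nat.add (Nat.add (Nat.add (Nat.add (Nat.add (Nat.add (Nat.add C x10495) x16327) x14383) x14707) x14923) x14887) x14863) x14871) (Nat.mul x14869 (nat_lit 3))) x8309)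
    (Nat.sub (Nat.sub (Nat.add (Nat.add (Nat.add (Nat.add (Nat.add (Nat.add (Nat.add (Nat.add C x10497) x16329) x14385) x14709) x14925) x14889) x14865) x14869) (Nat.mul x14871 (nat_lit 3))) x8311)
    (Nat.sub (Nat.add (Nat.add (Nat.add (Nat.add (Nat.add (Nat.add (Nat.add C x10505) x16337) x14393) x14717) x14933) x14861) x14881) (Nat.mul x14879 (nat_lit 3)))
    (Nat.sub (Nat.sub (Nat.add (Nat.add (Nat.add (Nat.add (Nat.add (Nat.add (Nat.add (Nat.add (Nat.add C x10507) x16339) x14395) x14719) x14935) x14863) x14887) x14879) x14883) (Nat.mul x14881 (nat_lit 4))) x8321)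
    (Nat.sub (Nat.sub (Nat.add (Nat.add (Nat.add (Nat.add (Nat.add (Nat.add (Nat.add (Nat.add C x10509) x16341) x14397) x14721) x14937) x14865) x14889) x14881) (Nat.mul x14883 (nat_lit 7))) x8323)
    (Nat.sub (Nat.sub (Nat.add (Nat.add (Nat.add (Nat.add (Nat.add (Nat.add (Nat.add (Nat.add C x10513) x16345) x14401) x14725) x14941) x14869) x14881) x14889) (Nat.mul x14887 (nat_lit 3))) x8327)
    (Nat.sub (Nat.sub (Nat.add (Nat.add (Nat.add (Nat.add (Nat.add (Nat.add (Nat.add (Nat.add (Nat.add C x10515) x16347) x14403) x14727) x14943) x14871) x14883) x14895) x14887) (Nat.mul x14889 (nat_lit 4))) x8329)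
    (Nat.sub (Nat.sub (Nat.add (Nat.add (Nat.add (Nat.add (Nat.add (Nat.add C x10521) x16353) x14409) x14733) x14949) x14889) (Nat.mul x14895 (nat_lit 3))) x8335)
    (Nat.add (Nat.add (Nat.add (Nat.add (Nat.add (Nat.add (Nat.add (Nat.add C x10535) x16367) x14423) x14747) x15071) x14855) x14915) x14911)
    (Nat.sub (Nat.sub (Nat.add (Nat.add (Nat.add (Nat.add (Nat.add (Nat.add (Nat.add (Nat.add C x10537) x16369) x14425) x14749) x15073) x14857) x14917) x14909) (Nat.mul x14911 (nat_lit 2))) x8351)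
    (Nat.sub (Nat.add (Nat.add (Nat.add (Nat.add (Nat.add (Nat.add (Nat.add (Nat.add (Nat.add C x10541) x16373) x14429) x14753) x15077) x14861) x14933) x14909) x14917) (Nat.mul x14915 (nat_lit 2)))
    (Nat.sub (Nat.sub (Nat.add (Nat.add (Nat.add (Nat.add (Nat.add (Nat.add (Nat.add (Nat.add (Nat.add (Nat.add (Nat.add C x10543) x16375) x14431) x14755) x15079) x14863) x14935) x14911) x14923) x14915) x14919) (Nat.mul x14917 (nat_lit 2))) x8357)
    (Nat.sub (Nat.sub (Nat.add (Nat.add (Nat.add (Nat.add (Nat.add (Nat.add (Nat.add (Nat.add (Nat.add C x10545) x16377) x14433) x14757) x15081) x14865) x14937) x14925) x14917) (Nat.mul x14919 (nat_lit 4))) x8359)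
    (Nat.sub (Nat.sub (Nat.add (Nat.add (Nat.add (Nat.add (Nat.add (Nat.add (Nat.add (Nat.add (Nat.add C x10549) x16381) x14437) x14761) x15085) x14869) x14941) x14917) x14925) (Nat.mul x14923 (nat_lit 4))) x8363)
    (Nat.sub (Nat.sub (Nat.add (Nat.add (Nat.add (Nat.add (Nat.add (Nat.add (Nat.add (Nat.add (Nat.add C x10551) x16383) x14439) x14763) x15087) x14871) x14943) x14919) x14923) (Nat.mul x14925 (nat_lit 4))) x8365)
    (Nat.sub (Nat.add (Nat.add (Nat.add (Nat.add (Nat.add (Nat.add (Nat.add (Nat.add (Nat.add C x10559) x16391) x14447) x14771) x15095) x14879) x14987) x14915) x14935) x14933)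
    (Nat.sub (Nat.sub (Nat.add (Nat.add (Nat.add (Nat.add (Nat.add (Nat.add (Nat.add (Nat.add (Nat.add (Nat.add (Nat.add C x10561) x16393) x14449) x14773) x15097) x14881) x14989) x14917) x14941) x14933) x14937) (Nat.mul x14935 (nat_lit 2))) x8375)
    (Nat.sub (Nat.sub (Nat.add (Nat.add (Nat.add (Nat.add (Nat.add (Nat.add (Nat.add (Nat.add (Nat.add (Nat.add C x10563) x16395) x14451) x14775) x15099) x14883) x14991) x14919) x14943) x14935) (Nat.mul x14937 (nat_lit 5))) x8377)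
    (Nat.sub (Nat.sub (Nat.add (Nat.add (Nat.add (Nat.add (Nat.add (Nat.add (Nat.add (Nat.add (Nat.add (Nat.add (Nat.add C x10567) x16399) x14455) x14779) x15103) x14887) x14995) x14923) x14959) x14935) x14943) (Nat.mul x14941 (nat_lit 2))) x8381)
    (Nat.sub (Nat.sub (Nat.add (Nat.add (Nat.add (Nat.add (Nat.add (Nat.add (Nat.add (Nat.add (Nat.add (Nat.add (Nat.add (Nat.add C x10569) x16401) x14457) x14781) x15105) x14889) x14997) x14925) x14961) x14937) x14949) x14941) (Nat.mul x14943 (nat_lit 3))) x8383)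
    (Nat.sub (Nat.sub (Nat.add (Nat.add (Nat.add (Nat.add (Nat.add (Nat.add (Nat.add (Nat.add (Nat.add C x10575) x16407) x14463) x14787) x15111) x14895) x15003) x14967) x14943) (Nat.mul x14949 (nat_lit 3))) x8389)
    (Nat.sub (Nat.sub (Nat.add (Nat.add (Nat.add (Nat.add (Nat.add (Nat.add (Nat.add (Nat.add C x10585) x16417) x14473) x14797) x15121) x15013) x14941) x14961) (Nat.mul x14959 (nat_lit 2))) x8399)
    (Nat.sub (Nat.sub (Nat.add (Nat.add (Nat.add (Nat.add (Nat.add (Nat.add (Nat.add (Nat.add (Nat.add C x10587) x16419) x14475) x14799) x15123) x15015) x14943) x14967) x14959) (Nat.mul x14961 (nat_lit 4))) x8401)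
    (Nat.sub (Nat.sub (Nat.add (Nat.add (Nat.add (Nat.add (Nat.add (Nat.add (Nat.add (Nat.add C x10593) x16425) x14481) x14805) x15129) x15021) x14949) x14961) (Nat.mul x14967 (nat_lit 2))) x8407)
    (Nat.sub (Nat.add (Nat.add (Nat.add (Nat.add (Nat.add (Nat.add C x10613) x16445) x14501) x15149) x14933) x14989) x14987)
    (Nat.sub (Nat.sub (Nat.add (Nat.add (Nat.add (Nat.add (Nat.add (Nat.add (Nat.add (Nat.add C x10615) x16447) x14503) x15151) x14935) x14995) x14987) x14991) (Nat.mul x14989 (nat_lit 2))) x8429)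
    (Nat.sub (Nat.sub (Nat.add (Nat.add (Nat.add (Nat.add (Nat.add (Nat.add (Nat.add C x10617) x16449) x14505) x15153) x14937) x14997) x14989) (Nat.mul x14991 (nat_lit 5))) x8431)
    (Nat.sub (Nat.sub (Nat.add (Nat.add (Nat.add (Nat.add (Nat.add (Nat.add (Nat.add (Nat.add C x10621) x16453) x14509) x15157) x14941) x15013) x14989) x14997) (Nat.mul x14995 (nat_lit 3))) x8435)
    (Nat.sub (Nat.sub (Nat.add (Nat.add (Nat.add (Nat.add (Nat.add (Nat.add (Nat.add (Nat.add (Nat.add C x10623) x16455) x14511) x15159) x14943) x15015) x14991) x15003) x14995) (Nat.mul x14997 (nat_lit 4))) x8437)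
    (Nat.sub (Nat.sub (Nat.add (Nat.add (Nat.add (Nat.add (Nat.add (Nat.add (Nat.add C x10629) x16461) x14517) x15165) x14949) x15021) x14997) (Nat.mul x15003 (nat_lit 5))) x8443)
    (Nat.sub (Nat.sub (Nat.add (Nat.add (Nat.add (Nat.add (Nat.add (Nat.add (Nat.add C x10639) x16471) x14527) x15175) x14959) x14995) x15015) x15013) x8453)
    (Nat.sub (Nat.sub (Nat.add (Nat.add (Nat.add (Nat.add (Nat.add (Nat.add (Nat.add (Nat.add C x10641) x16473) x14529) x15177) x14961) x14997) x15021) x15013) (Nat.mul x15015 (nat_lit 3))) x8455)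
    (Nat.sub (Nat.sub (Nat.add (Nat.add (Nat.add (Nat.add (Nat.add (Nat.add (Nat.add (Nat.add C x10647) x16479) x14535) x15183) x14967) x15003) x15039) x15015) (Nat.mul x15021 (nat_lit 2))) x8461)
    (Nat.sub (Nat.sub (Nat.add (Nat.add (Nat.add (Nat.add (Nat.add C x10665) x16497) x14553) x15201) x15021) x15039) x8479)
    (Nat.add (Nat.add (Nat.add (Nat.add (Nat.add (Nat.add C x15071) x10697) x16529) x14909) x15077) x15073)
    (Nat.sub (Nat.sub (Nat.add (Nat.add (Nat.add (Nat.add (Nat.add C x10699) x16531) x14911) x15079) x15071) x15073) x8513)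
    (Nat.sub (Nat.add (Nat.add (Nat.add (Nat.add (Nat.add (Nat.add C x10703) x16535) x14915) x15095) x15071) x15079) x15077)
    (Nat.sub (Nat.sub (Nat.add (Nat.add (Nat.add (Nat.add (Nat.add (Nat.add (Nat.add (Nat.add C x10705) x16537) x14917) x15097) x15073) x15085) x15077) x15081) x15079) x8519)
    (Nat.sub (Nat.sub (Nat.add (Nat.add (Nat.add (Nat.add (Nat.add (Nat.add C x10707) x16539) x14919) x15099) x15087) x15079) (Nat.mul x15081 (nat_lit 3))) x8521)
    (Nat.sub (Nat.sub (Nat.add (Nat.add (Nat.add (Nat.add (Nat.add (Nat.add C x10711) x16543) x14923) x15103) x15079) x15087) (Nat.mul x15085 (nat_lit 3))) x8525)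
    (Nat.sub (Nat.sub (Nat.add (Nat.add (Nat.add (Nat.add (Nat.add (Nat.add C x10713) x16545) x14925) x15105) x15081) x15085) (Nat.mul x15087 (nat_lit 3))) x8527)
    (Nat.sub (Nat.add (Nat.add (Nat.add (Nat.add (Nat.add (Nat.add C x10721) x16553) x14933) x15149) x15077) x15097) x15095)
    (Nat.sub (Nat.sub (Nat.add (Nat.add (Nat.add (Nat.add (Nat.add (Nat.add (Nat.add (Nat.add C x10723) x16555) x14935) x15151) x15079) x15103) x15095) x15099) (Nat.mul x15097 (nat_lit 2))) x8537)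
    (Nat.sub (Nat.sub (Nat.add (Nat.add (Nat.add (Nat.add (Nat.add (Nat.add (Nat.add C x10725) x16557) x14937) x15153) x15081) x15105) x15097) (Nat.mul x15099 (nat_lit 5))) x8539)
    (Nat.sub (Nat.sub (Nat.add (Nat.add (Nat.add (Nat.add (Nat.add (Nat.add (Nat.add (Nat.add C x10729) x16561) x14941) x15157) x15085) x15121) x15097) x15105) (Nat.mul x15103 (nat_lit 2))) x8543)
    (Nat.sub (Nat.sub (Nat.add (Nat.add (Nat.add (Nat.add (Nat.add (Nat.add (Nat.add (Nat.add (Nat.add C x10731) x16563) x14943) x15159) x15087) x15123) x15099) x15111) x15103) (Nat.mul x15105 (nat_lit 3))) x8545)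
    (Nat.sub (Nat.sub (Nat.add (Nat.add (Nat.add (Nat.add (Nat.add (Nat.add C x10737) x16569) x14949) x15165) x15129) x15105) (Nat.mul x15111 (nat_lit 3))) x8551)
    (Nat.sub (Nat.sub (Nat.add (Nat.add (Nat.add (Nat.add (Nat.add (Nat.add C x10747) x16579) x14959) x15175) x15103) x15123) (Nat.mul x15121 (nat_lit 3))) x8561)
    (Nat.sub (Nat.sub (Nat.add (Nat.add (Nat.add (Nat.add (Nat.add (Nat.add (Nat.add C x10749) x16581) x14961) x15177) x15105) x15129) x15121) (Nat.mul x15123 (nat_lit 5))) x8563)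
    (Nat.sub (Nat.sub (Nat.add (Nat.add (Nat.add (Nat.add (Nat.add (Nat.add C x10755) x16587) x14967) x15183) x15111) x15123) (Nat.mul x15129 (nat_lit 3))) x8569)
    (Nat.add (Nat.add (Nat.add (Nat.add (Nat.add (Nat.add C x15149) x10775) x16607) x14987) x15095) x15151)
    (Nat.sub (Nat.add (Nat.add (Nat.add (Nat.add (Nat.add (Nat.add (Nat.add C x10777) x16609) x14989) x15097) x15157) x15149) x15153) x8591)
    (Nat.sub (Nat.sub (Nat.add (Nat.add (Nat.add (Nat.add (Nat.add (Nat.add C x10779) x16611) x14991) x15099) x15159) x15151) (Nat.mul x15153 (nat_lit 3))) x8593)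
    (Nat.sub (Nat.sub (Nat.add (Nat.add (Nat.add (Nat.add (Nat.add (Nat.add (Nat.add C x10783) x16615) x14995) x15103) x15175) x15151) x15159) x15157) x8597)
    (Nat.sub (Nat.sub (Nat.add (Nat.add (Nat.add (Nat.add (Nat.add (Nat.add (Nat.add (Nat.add C x10785) x16617) x14997) x15105) x15177) x15153) x15165) x15157) (Nat.mul x15159 (nat_lit 2))) x8599)
    (Nat.sub (Nat.sub (Nat.add (Nat.add (Nat.add (Nat.add (Nat.add (Nat.add C x10791) x16623) x15003) x15111) x15183) x15159) (Nat.mul x15165 (nat_lit 3))) x8605)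
    (Nat.sub (Nat.add (Nat.add (Nat.add (Nat.add (Nat.add (Nat.add (Nat.add C x10801) x16633) x15013) x15121) x15229) x15157) x15177) x8615)
    (Nat.sub (Nat.sub (Nat.add (Nat.add (Nat.add (Nat.add (Nat.add (Nat.add (Nat.add (Nat.add C x10803) x16635) x15015) x15123) x15231) x15159) x15183) x15175) (Nat.mul x15177 (nat_lit 2))) x8617)
    (Nat.sub (Nat.sub (Nat.add (Nat.add (Nat.add (Nat.add (Nat.add (Nat.add (Nat.add (Nat.add C x10809) x16641) x15021) x15129) x15237) x15165) x15201) x15177) x15183) x8623)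
    (Nat.sub (Nat.sub (Nat.add (Nat.add (Nat.add (Nat.add (Nat.add C x10827) x16659) x15039) x15255) x15183) x15201) x8641)
    (Nat.sub (Nat.add (Nat.add (Nat.add (Nat.add (Nat.add C x15229) x10855) x16687) x15175) x15231) x8669)
    (Nat.sub (Nat.sub (Nat.add (Nat.add (Nat.add (Nat.add (Nat.add C x10857) x16689) x15177) x15237) x15229) x15231) x8671)
    (Nat.sub (Nat.sub (Nat.add (Nat.add (Nat.add (Nat.add (Nat.add C x10863) x16695) x15183) x15255) x15231) x15237) x8677)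
    (Nat.sub (Nat.add (Nat.add (Nat.add (Nat.add (Nat.add C x15255) x10881) x16713) x15201) x15237) x8695)
    (Nat.add (Nat.add (Nat.add (Nat.add C (Nat.mul x15335 (nat_lit 5))) x10961) x13877) x15353)
    (Nat.add (Nat.add (Nat.add (Nat.add (Nat.add (Nat.add (Nat.add C (Nat.mul x15353 (nat_lit 4))) x10979) x13895) x15407) x15335) x15371) x15359)
    (Nat.add (Nat.add (Nat.add (Nat.add (Nat.add (Nat.add (Nat.add C (Nat.mul x15359 (nat_lit 3))) x10985) x13901) x15413) x15377) x15353) x15361)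
    (Nat.sub (Nat.add (Nat.add (Nat.add (Nat.add (Nat.add (Nat.add C (Nat.mul x15361 (nat_lit 3))) x10987) x13903) x15415) x15379) x15359) x8801)
    (Nat.add (Nat.add (Nat.add (Nat.add (Nat.add (Nat.add C x15371) x10997) x13913) x15425) x15353) x15377)
    (Nat.add (Nat.add (Nat.add (Nat.add (Nat.add (Nat.add (Nat.add (Nat.add C (Nat.mul x15377 (nat_lit 2))) x11003) x13919) x15431) x15359) x15371) x15383) x15379)
    (Nat.sub (Nat.add (Nat.add (Nat.add (Nat.add (Nat.add (Nat.add (Nat.add C x15379) x11005) x13921) x15433) x15361) x15385) x15377) x8819)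
    (Nat.add (Nat.add (Nat.add (Nat.add (Nat.add (Nat.add C x15383) x11009) x13925) x15437) x15377) x15385)
    (Nat.sub (Nat.add (Nat.add (Nat.add (Nat.add (Nat.add (Nat.add (Nat.add C (Nat.mul x15385 (nat_lit 2))) x11011) x13927) x15439) x15379) x15383) x15387) x8825)
    (Nat.sub (Nat.add (Nat.add (Nat.add (Nat.add (Nat.add C x15387) x11013) x13929) x15441) x15385) x8827)
    (Nat.add (Nat.add (Nat.add (Nat.add (Nat.add (Nat.add (Nat.add C (Nat.mul x15407 (nat_lit 3))) x11033) x13949) x15569) x15353) x15425) x15413)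
    (Nat.add (Nat.add (Nat.add (Nat.add (Nat.add (Nat.add (Nat.add (Nat.add C x15413) x11039) x13955) x15575) x15359) x15431) x15407) x15415)
    (Nat.sub (Nat.add (Nat.add (Nat.add (Nat.add (Nat.add (Nat.add (Nat.add C x15415) x11041) x13957) x15577) x15361) x15433) x15413) x8855)
    (Nat.add (Nat.add (Nat.add (Nat.add (Nat.add (Nat.add (Nat.add (Nat.add C (Nat.mul x15425 (nat_lit 2))) x11051) x13967) x15587) x15371) x15479) x15407) x15431)
    (Nat.add (Nat.add (Nat.add (Nat.add (Nat.add (Nat.add (Nat.add (Nat.add (Nat.add (Nat.add (Nat.add C (Nat.mul x15431 (nat_lit 2))) x11057) x13973) x15593) x15377) x15485) x15413) x15449) x15425) x15437) x15433)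
    (Nat.sub (Nat.add (Nat.add (Nat.add (Nat.add (Nat.add (Nat.add (Nat.add (Nat.add (Nat.add (Nat.add C x15433) x11059) x13975) x15595) x15379) x15487) x15415) x15451) x15439) x15431) x8873)
    (Nat.add (Nat.add (Nat.add (Nat.add (Nat.add (Nat.add (Nat.add (Nat.add C x11063) x13979) x15599) x15383) x15491) x15455) x15431) x15439)
    (Nat.sub (Nat.add (Nat.add (Nat.add (Nat.add (Nat.add (Nat.add (Nat.add (Nat.add (Nat.add (Nat.add C x15439) x11065) x13981) x15601) x15385) x15493) x15457) x15433) x15437) x15441) x8879)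
    (Nat.sub (Nat.add (Nat.add (Nat.add (Nat.add (Nat.add (Nat.add (Nat.add C x11067) x13983) x15603) x15387) x15495) x15459) x15439) x8881)
    (Nat.add (Nat.add (Nat.add (Nat.add (Nat.add (Nat.add (Nat.add (Nat.add C x15449) x11075) x13991) x15611) x15503) x15431) x15455) x15451)
    (Nat.sub (Nat.sub (Nat.add (Nat.add (Nat.add (Nat.add (Nat.add (Nat.add (Nat.add C x11077) x13993) x15613) x15505) x15433) x15457) x15449) x15451) x8891)
    (Nat.add (Nat.add (Nat.add (Nat.add (Nat.add (Nat.add (Nat.add (Nat.add C x15455) x11081) x13997) x15617) x15509) x15437) x15449) x15457)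
    (Nat.sub (Nat.add (Nat.add (Nat.add (Nat.add (Nat.add (Nat.add (Nat.add (Nat.add (Nat.add (Nat.add C x15457) x11083) x13999) x15619) x15511) x15439) x15451) x15463) x15455) x15459) x8897)
    (Nat.sub (Nat.sub (Nat.add (Nat.add (Nat.add (Nat.add (Nat.add (Nat.add (Nat.add C x11085) x14001) x15621) x15513) x15441) x15465) x15457) x15459) x8899)
    (Nat.sub (Nat.add (Nat.add (Nat.add (Nat.add (Nat.add (Nat.add (Nat.add C x15463) x11089) x14005) x15625) x15517) x15457) x15465) x8903)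
    (Nat.sub (Nat.add (Nat.add (Nat.add (Nat.add (Nat.add (Nat.add (Nat.add C x15465) x11091) x14007) x15627) x15519) x15459) x15463) x8905)
    (Nat.add (Nat.add (Nat.add (Nat.add (Nat.add (Nat.add C x15479) x11105) x14021) x15641) x15425) x15485)
    (Nat.add (Nat.add (Nat.add (Nat.add (Nat.add (Nat.add (Nat.add (Nat.add C x11111) x14027) x15647) x15431) x15503) x15479) x15491) x15487)
    (Nat.sub (Nat.sub (Nat.add (Nat.add (Nat.add (Nat.add (Nat.add (Nat.add (Nat.add C x11113) x14029) x15649) x15433) x15505) x15493) x15485) x15487) x8927)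
    (Nat.sub (Nat.add (Nat.add (Nat.add (Nat.add (Nat.add (Nat.add (Nat.add C x11117) x14033) x15653) x15437) x15509) x15485) x15493) (Nat.mul x15491 (nat_lit 3)))
    (Nat.sub (Nat.sub (Nat.add (Nat.add (Nat.add (Nat.add (Nat.add (Nat.add (Nat.add (Nat.add C x11119) x14035) x15655) x15439) x15511) x15487) x15491) x15495) (Nat.mul x15493 (nat_lit 2))) x8933)
    (Nat.sub (Nat.sub (Nat.add (Nat.add (Nat.add (Nat.add (Nat.add (Nat.add C x11121) x14037) x15657) x15441) x15513) x15493) (Nat.mul x15495 (nat_lit 3))) x8935)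
    (Nat.add (Nat.add (Nat.add (Nat.add (Nat.add (Nat.add (Nat.add (Nat.add C x15503) x11129) x14045) x15665) x15449) x15485) x15509) x15505)
    (Nat.sub (Nat.sub (Nat.add (Nat.add (Nat.add (Nat.add (Nat.add (Nat.add (Nat.add C x11131) x14047) x15667) x15451) x15487) x15511) x15503) x15505) x8945)
    (Nat.add (Nat.add (Nat.add (Nat.add (Nat.add (Nat.add (Nat.add (Nat.add C x11135) x14051) x15671) x15455) x15491) x15527) x15503) x15511)
    (Nat.sub (Nat.add (Nat.add (Nat.add (Nat.add (Nat.add (Nat.add (Nat.add (Nat.add (Nat.add (Nat.add C x11137) x14053) x15673) x15457) x15493) x15529) x15505) x15517) x15509) x15513) x8951)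
    (Nat.sub (Nat.sub (Nat.add (Nat.add (Nat.add (Nat.add (Nat.add (Nat.add (Nat.add (Nat.add C x11139) x14055) x15675) x15459) x15495) x15531) x15519) x15511) (Nat.mul x15513 (nat_lit 2))) x8953)
    (Nat.sub (Nat.sub (Nat.add (Nat.add (Nat.add (Nat.add (Nat.add (Nat.add (Nat.add C x11143) x14059) x15679) x15463) x15535) x15511) x15519) x15517) x8957)
    (Nat.sub (Nat.sub (Nat.add (Nat.add (Nat.add (Nat.add (Nat.add (Nat.add (Nat.add C x11145) x14061) x15681) x15465) x15537) x15513) x15517) x15519) x8959)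
    (Nat.add (Nat.add (Nat.add (Nat.add (Nat.add (Nat.add C x15527) x11153) x14069) x15689) x15509) x15529)
    (Nat.sub (Nat.add (Nat.add (Nat.add (Nat.add (Nat.add (Nat.add (Nat.add C x11155) x14071) x15691) x15511) x15535) x15527) x15531) x8969)
    (Nat.sub (Nat.sub (Nat.add (Nat.add (Nat.add (Nat.add (Nat.add (Nat.add C x11157) x14073) x15693) x15513) x15537) x15529) (Nat.mul x15531 (nat_lit 3))) x8971)
    (Nat.sub (Nat.add (Nat.add (Nat.add (Nat.add (Nat.add (Nat.add (Nat.add C x15535) x11161) x14077) x15697) x15517) x15529) x15537) x8975)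
    (Nat.sub (Nat.add (Nat.add (Nat.add (Nat.add (Nat.add (Nat.add (Nat.add C x11163) x14079) x15699) x15519) x15531) x15543) x15535) x8977)
    (Nat.sub (Nat.add (Nat.add (Nat.add (Nat.add (Nat.add C x15543) x11169) x14085) x15705) x15537) x8983)
    (Nat.add (Nat.add (Nat.add (Nat.add (Nat.add (Nat.add (Nat.add C (Nat.mul x15569 (nat_lit 3))) x11195) x14111) x16055) x15407) x15587) x15575)
    (Nat.add (Nat.add (Nat.add (Nat.add (Nat.add (Nat.add (Nat.add (Nat.add C x15575) x11201) x14117) x16061) x15413) x15593) x15569) x15577)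
    (Nat.sub (Nat.add (Nat.add (Nat.add (Nat.add (Nat.add (Nat.add (Nat.add C x15577) x11203) x14119) x16063) x15415) x15595) x15575) x9017)
    (Nat.add (Nat.add (Nat.add (Nat.add (Nat.add (Nat.add (Nat.add (Nat.add C x15587) x11213) x14129) x16073) x15425) x15641) x15569) x15593)
    (Nat.add (Nat.add (Nat.add (Nat.add (Nat.add (Nat.add (Nat.add (Nat.add (Nat.add (Nat.add (Nat.add C x15593) x11219) x14135) x16079) x15431) x15647) x15575) x15611) x15587) x15599) x15595)
    (Nat.sub (Nat.add (Nat.add (Nat.add (Nat.add (Nat.add (Nat.add (Nat.add (Nat.add (Nat.add C x11221) x14137) x16081) x15433) x15649) x15577) x15613) x15601) x15593) x9035)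
    (Nat.sub (Nat.add (Nat.add (Nat.add (Nat.add (Nat.add (Nat.add (Nat.add (Nat.add C x11225) x14141) x16085) x15437) x15653) x15617) x15593) x15601) x15599)
    (Nat.sub (Nat.add (Nat.add (Nat.add (Nat.add (Nat.add (Nat.add (Nat.add (Nat.add (Nat.add C x11227) x14143) x16087) x15439) x15655) x15619) x15595) x15599) x15603) x9041)
    (Nat.sub (Nat.sub (Nat.add (Nat.add (Nat.add (Nat.add (Nat.add (Nat.add (Nat.add C x11229) x14145) x16089) x15441) x15657) x15621) x15601) x15603) x9043)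
    (Nat.sub (Nat.add (Nat.add (Nat.add (Nat.add (Nat.add (Nat.add (Nat.add (Nat.add C x11237) x14153) x16097) x15449) x15665) x15593) x15617) x15613) x15611)
    (Nat.sub (Nat.sub (Nat.add (Nat.add (Nat.add (Nat.add (Nat.add (Nat.add (Nat.add (Nat.add C x11239) x14155) x16099) x15451) x15667) x15595) x15619) x15611) (Nat.mul x15613 (nat_lit 3))) x9053)
    (Nat.sub (Nat.add (Nat.add (Nat.add (Nat.add (Nat.add (Nat.add (Nat.add (Nat.add C x11243) x14159) x16103) x15455) x15671) x15599) x15611) x15619) x15617)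
    (Nat.sub (Nat.sub (Nat.add (Nat.add (Nat.add (Nat.add (Nat.add (Nat.add (Nat.add (Nat.add (Nat.add (Nat.add C x11245) x14161) x16105) x15457) x15673) x15601) x15613) x15625) x15617) x15621) x15619) x9059)
    (Nat.sub (Nat.sub (Nat.add (Nat.add (Nat.add (Nat.add (Nat.add (Nat.add (Nat.add (Nat.add C x11247) x14163) x16107) x15459) x15675) x15603) x15627) x15619) (Nat.mul x15621 (nat_lit 3))) x9061)
    (Nat.sub (Nat.sub (Nat.add (Nat.add (Nat.add (Nat.add (Nat.add (Nat.add (Nat.add C x11251) x14167) x16111) x15463) x15679) x15619) x15627) x15625) x9065)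
    (Nat.sub (Nat.sub (Nat.add (Nat.add (Nat.add (Nat.add (Nat.add (Nat.add (Nat.add C x11253) x14169) x16113) x15465) x15681) x15621) x15625) x15627) x9067)
    (Nat.add (Nat.add (Nat.add (Nat.add (Nat.add (Nat.add (Nat.add (Nat.add C (Nat.mul x15641 (nat_lit 2))) x11267) x14183) x16127) x15479) x15803) x15587) x15647)
    (Nat.add (Nat.add (Nat.add (Nat.add (Nat.add (Nat.add (Nat.add (Nat.add (Nat.add (Nat.add (Nat.add C x15647) x11273) x14189) x16133) x15485) x15809) x15593) x15665) x15641) x15653) x15649)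
    (Nat.sub (Nat.add (Nat.add (Nat.add (Nat.add (Nat.add (Nat.add (Nat.add (Nat.add (Nat.add C x11275) x14191) x16135) x15487) x15811) x15595) x15667) x15655) x15647) x9089)
    (Nat.sub (Nat.add (Nat.add (Nat.add (Nat.add (Nat.add (Nat.add (Nat.add (Nat.add (Nat.add C x11279) x14195) x16139) x15491) x15815) x15599) x15671) x15647) x15655) (Nat.mul x15653 (nat_lit 2)))
    (Nat.sub (Nat.sub (Nat.add (Nat.add (Nat.add (Nat.add (Nat.add (Nat.add (Nat.add (Nat.add (Nat.add (Nat.add C x11281) x14197) x16141) x15493) x15817) x15601) x15673) x15649) x15653) x15657) x15655) x9095)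
    (Nat.sub (Nat.sub (Nat.add (Nat.add (Nat.add (Nat.add (Nat.add (Nat.add (Nat.add (Nat.add C x11283) x14199) x16143) x15495) x15819) x15603) x15675) x15655) (Nat.mul x15657 (nat_lit 2))) x9097)
    (Nat.add (Nat.add (Nat.add (Nat.add (Nat.add (Nat.add (Nat.add (Nat.add (Nat.add (Nat.add (Nat.add C x15665) x11291) x14207) x16151) x15503) x15827) x15611) x15719) x15647) x15671) x15667)
    (Nat.sub (Nat.sub (Nat.add (Nat.add (Nat.add (Nat.add (Nat.add (Nat.add (Nat.add (Nat.add (Nat.add (Nat.add C x11293) x14209) x16153) x15505) x15829) x15613) x15721) x15649) x15673) x15665) x15667) x9107)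
    (Nat.add (Nat.add (Nat.add (Nat.add (Nat.add (Nat.add (Nat.add (Nat.add (Nat.add (Nat.add (Nat.add C x11297) x14213) x16157) x15509) x15833) x15617) x15725) x15653) x15689) x15665) x15673)
    (Nat.sub (Nat.add (Nat.add (Nat.add (Nat.add (Nat.add (Nat.add (Nat.add (Nat.add (Nat.add (Nat.add (Nat.add (Nat.add (Nat.add C x11299) x14215) x16159) x15511) x15835) x15619) x15727) x15655) x15691) x15667) x15679) x15671) x15675) x9113)
    (Nat.sub (Nat.sub (Nat.add (Nat.add (Nat.add (Nat.add (Nat.add (Nat.add (Nat.add (Nat.add (Nat.add (Nat.add (Nat.add C x11301) x14217) x16161) x15513) x15837) x15621) x15729) x15657) x15693) x15681) x15673) (Nat.mul x15675 (nat_lit 2))) x9115)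
    (Nat.sub (Nat.sub (Nat.add (Nat.add (Nat.add (Nat.add (Nat.add (Nat.add (Nat.add (Nat.add (Nat.add (Nat.add C x11305) x14221) x16165) x15517) x15841) x15625) x15733) x15697) x15673) x15681) x15679) x9119)
    (Nat.sub (Nat.sub (Nat.add (Nat.add (Nat.add (Nat.add (Nat.add (Nat.add (Nat.add (Nat.add (Nat.add (Nat.add C x11307) x14223) x16167) x15519) x15843) x15627) x15735) x15699) x15675) x15679) x15681) x9121)
    (Nat.add (Nat.add (Nat.add (Nat.add (Nat.add (Nat.add (Nat.add (Nat.add C x11315) x14231) x16175) x15527) x15851) x15743) x15671) x15691)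
    (Nat.sub (Nat.sub (Nat.add (Nat.add (Nat.add (Nat.add (Nat.add (Nat.add (Nat.add (Nat.add (Nat.add (Nat.add C x11317) x14233) x16177) x15529) x15853) x15745) x15673) x15697) x15689) x15693) x15691) x9131)
    (Nat.sub (Nat.sub (Nat.add (Nat.add (Nat.add (Nat.add (Nat.add (Nat.add (Nat.add (Nat.add (Nat.add C x11319) x14235) x16179) x15531) x15855) x15747) x15675) x15699) x15691) (Nat.mul x15693 (nat_lit 4))) x9133)
    (Nat.sub (Nat.add (Nat.add (Nat.add (Nat.add (Nat.add (Nat.add (Nat.add (Nat.add (Nat.add C x11323) x14239) x16183) x15535) x15859) x15751) x15679) x15691) x15699) x9137)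
    (Nat.sub (Nat.sub (Nat.add (Nat.add (Nat.add (Nat.add (Nat.add (Nat.add (Nat.add (Nat.add (Nat.add (Nat.add C x11325) x14241) x16185) x15537) x15861) x15753) x15681) x15693) x15705) x15697) x15699) x9139)
    (Nat.sub (Nat.add (Nat.add (Nat.add (Nat.add (Nat.add (Nat.add (Nat.add C x11331) x14247) x16191) x15543) x15867) x15759) x15699) x9145)
    (Nat.add (Nat.add (Nat.add (Nat.add (Nat.add (Nat.add (Nat.add (Nat.add C x15719) x11345) x14261) x16205) x15881) x15665) x15725) x15721)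
    (Nat.sub (Nat.sub (Nat.add (Nat.add (Nat.add (Nat.add (Nat.add (Nat.add (Nat.add C x11347) x14263) x16207) x15883) x15667) x15727) x15719) x15721) x9161)
    (Nat.sub (Nat.add (Nat.add (Nat.add (Nat.add (Nat.add (Nat.add (Nat.add (Nat.add C x11351) x14267) x16211) x15887) x15671) x15743) x15719) x15727) x15725)
    (Nat.sub (Nat.sub (Nat.add (Nat.add (Nat.add (Nat.add (Nat.add (Nat.add (Nat.add (Nat.add (Nat.add (Nat.add C x11353) x14269) x16213) x15889) x15673) x15745) x15721) x15733) x15725) x15729) x15727) x9167)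
    (Nat.sub (Nat.sub (Nat.add (Nat.add (Nat.add (Nat.add (Nat.add (Nat.add (Nat.add (Nat.add C x11355) x14271) x16215) x15891) x15675) x15747) x15735) x15727) (Nat.mul x15729 (nat_lit 3))) x9169)
    (Nat.sub (Nat.sub (Nat.add (Nat.add (Nat.add (Nat.add (Nat.add (Nat.add (Nat.add (Nat.add C x11359) x14275) x16219) x15895) x15679) x15751) x15727) x15735) (Nat.mul x15733 (nat_lit 3))) x9173)
    (Nat.sub (Nat.sub (Nat.add (Nat.add (Nat.add (Nat.add (Nat.add (Nat.add (Nat.add (Nat.add C x11361) x14277) x16221) x15897) x15681) x15753) x15729) x15733) (Nat.mul x15735 (nat_lit 3))) x9175)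
    (Nat.add (Nat.add (Nat.add (Nat.add (Nat.add (Nat.add (Nat.add (Nat.add C x15743) x11369) x14285) x16229) x15905) x15689) x15725) x15745)
    (Nat.sub (Nat.add (Nat.add (Nat.add (Nat.add (Nat.add (Nat.add (Nat.add (Nat.add (Nat.add C x11371) x14287) x16231) x15907) x15691) x15727) x15751) x15743) x15747) x9185)
    (Nat.sub (Nat.sub (Nat.add (Nat.add (Nat.add (Nat.add (Nat.add (Nat.add (Nat.add (Nat.add C x11373) x14289) x16233) x15909) x15693) x15729) x15753) x15745) (Nat.mul x15747 (nat_lit 3))) x9187)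
    (Nat.sub (Nat.add (Nat.add (Nat.add (Nat.add (Nat.add (Nat.add (Nat.add (Nat.add (Nat.add C x11377) x14293) x16237) x15913) x15697) x15733) x15769) x15745) x15753) x9191)
    (Nat.sub (Nat.sub (Nat.add (Nat.add (Nat.add (Nat.add (Nat.add (Nat.add (Nat.add (Nat.add (Nat.add (Nat.add C x11379) x14295) x16239) x15915) x15699) x15735) x15771) x15747) x15759) x15751) x15753) x9193)
    (Nat.sub (Nat.sub (Nat.add (Nat.add (Nat.add (Nat.add (Nat.add (Nat.add (Nat.add C x11385) x14301) x16245) x15921) x15705) x15777) x15753) x15759) x9199)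
    (Nat.sub (Nat.add (Nat.add (Nat.add (Nat.add (Nat.add (Nat.add (Nat.add C x15769) x11395) x14311) x16255) x15931) x15751) x15771) x9209)
    (Nat.sub (Nat.sub (Nat.add (Nat.add (Nat.add (Nat.add (Nat.add (Nat.add (Nat.add C x11397) x14313) x16257) x15933) x15753) x15777) x15769) x15771) x9211)
    (Nat.sub (Nat.add (Nat.add (Nat.add (Nat.add (Nat.add (Nat.add (Nat.add C x15777) x11403) x14319) x16263) x15939) x15759) x15771) x9217)
    (Nat.add (Nat.add (Nat.add (Nat.add (Nat.add (Nat.add C x15803) x11429) x14345) x16289) x15641) x15809)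
    (Nat.add (Nat.add (Nat.add (Nat.add (Nat.add (Nat.add (Nat.add (Nat.add C x11435) x14351) x16295) x15647) x15827) x15803) x15815) x15811)
    (Nat.sub (Nat.sub (Nat.add (Nat.add (Nat.add (Nat.add (Nat.add (Nat.add (Nat.add C x11437) x14353) x16297) x15649) x15829) x15817) x15809) x15811) x9251)
    (Nat.sub (Nat.add (Nat.add (Nat.add (Nat.add (Nat.add (Nat.add (Nat.add C x11441) x14357) x16301) x15653) x15833) x15809) x15817) (Nat.mul x15815 (nat_lit 3)))
    (Nat.sub (Nat.sub (Nat.add (Nat.add (Nat.add (Nat.add (Nat.add (Nat.add (Nat.add (Nat.add C x11443) x14359) x16303) x15655) x15835) x15811) x15815) x15819) (Nat.mul x15817 (nat_lit 2))) x9257)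
    (Nat.sub (Nat.sub (Nat.add (Nat.add (Nat.add (Nat.add (Nat.add (Nat.add C x11445) x14361) x16305) x15657) x15837) x15817) (Nat.mul x15819 (nat_lit 3))) x9259)
    (Nat.sub (Nat.add (Nat.add (Nat.add (Nat.add (Nat.add (Nat.add (Nat.add (Nat.add C x11453) x14369) x16313) x15665) x15881) x15809) x15833) x15829) x15827)
    (Nat.sub (Nat.sub (Nat.add (Nat.add (Nat.add (Nat.add (Nat.add (Nat.add (Nat.add (Nat.add C x11455) x14371) x16315) x15667) x15883) x15811) x15835) x15827) (Nat.mul x15829 (nat_lit 3))) x9269)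
    (Nat.sub (Nat.add (Nat.add (Nat.add (Nat.add (Nat.add (Nat.add (Nat.add (Nat.add (Nat.add C x11459) x14375) x16319) x15671) x15887) x15815) x15851) x15827) x15835) (Nat.mul x15833 (nat_lit 2)))
    (Nat.sub (Nat.sub (Nat.add (Nat.add (Nat.add (Nat.add (Nat.add (Nat.add (Nat.add (Nat.add (Nat.add (Nat.add (Nat.add C x11461) x14377) x16321) x15673) x15889) x15817) x15853) x15829) x15841) x15833) x15837) (Nat.mul x15835 (nat_lit 2))) x9275)
    (Nat.sub (Nat.sub (Nat.add (Nat.add (Nat.add (Nat.add (Nat.add (Nat.add (Nat.add (Nat.add (Nat.add C x11463) x14379) x16323) x15675) x15891) x15819) x15855) x15843) x15835) (Nat.mul x15837 (nat_lit 4))) x9277)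
    (Nat.sub (Nat.sub (Nat.add (Nat.add (Nat.add (Nat.add (Nat.add (Nat.add (Nat.add (Nat.add C x11467) x14383) x16327) x15679) x15895) x15859) x15835) x15843) (Nat.mul x15841 (nat_lit 3))) x9281)
    (Nat.sub (Nat.sub (Nat.add (Nat.add (Nat.add (Nat.add (Nat.add (Nat.add (Nat.add (Nat.add C x11469) x14385) x16329) x15681) x15897) x15861) x15837) x15841) (Nat.mul x15843 (nat_lit 3))) x9283)
    (Nat.sub (Nat.add (Nat.add (Nat.add (Nat.add (Nat.add (Nat.add (Nat.add C x11477) x14393) x16337) x15689) x15905) x15833) x15853) (Nat.mul x15851 (nat_lit 3)))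
    (Nat.sub (Nat.sub (Nat.add (Nat.add (Nat.add (Nat.add (Nat.add (Nat.add (Nat.add (Nat.add (Nat.add C x11479) x14395) x16339) x15691) x15907) x15835) x15859) x15851) x15855) (Nat.mul x15853 (nat_lit 4))) x9293)
    (Nat.sub (Nat.sub (Nat.add (Nat.add (Nat.add (Nat.add (Nat.add (Nat.add (Nat.add (Nat.add C x11481) x14397) x16341) x15693) x15909) x15837) x15861) x15853) (Nat.mul x15855 (nat_lit 7))) x9295)
    (Nat.sub (Nat.sub (Nat.add (Nat.add (Nat.add (Nat.add (Nat.add (Nat.add (Nat.add (Nat.add C x11485) x14401) x16345) x15697) x15913) x15841) x15853) x15861) (Nat.mul x15859 (nat_lit 3))) x9299)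
    (Nat.sub (Nat.sub (Nat.add (Nat.add (Nat.add (Nat.add (Nat.add (Nat.add (Nat.add (Nat.add (Nat.add C x11487) x14403) x16347) x15699) x15915) x15843) x15855) x15867) x15859) (Nat.mul x15861 (nat_lit 4))) x9301)
    (Nat.sub (Nat.sub (Nat.add (Nat.add (Nat.add (Nat.add (Nat.add (Nat.add C x11493) x14409) x16353) x15705) x15921) x15861) (Nat.mul x15867 (nat_lit 3))) x9307)
    (Nat.add (Nat.add (Nat.add (Nat.add (Nat.add (Nat.add (Nat.add (Nat.add C x15881) x11507) x14423) x16367) x15719) x15827) x15887) x15883)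
    (Nat.sub (Nat.sub (Nat.add (Nat.add (Nat.add (Nat.add (Nat.add (Nat.add (Nat.add C x11509) x14425) x16369) x15721) x15829) x15889) x15881) x15883) x9323)
    (Nat.sub (Nat.add (Nat.add (Nat.add (Nat.add (Nat.add (Nat.add (Nat.add (Nat.add C x11513) x14429) x16373) x15725) x15833) x15905) x15881) x15889) x15887)
    (Nat.sub (Nat.sub (Nat.add (Nat.add (Nat.add (Nat.add (Nat.add (Nat.add (Nat.add (Nat.add (Nat.add (Nat.add C x11515) x14431) x16375) x15727) x15835) x15907) x15883) x15895) x15887) x15891) x15889) x9329)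
    (Nat.sub (Nat.sub (Nat.add (Nat.add (Nat.add (Nat.add (Nat.add (Nat.add (Nat.add (Nat.add C x11517) x14433) x16377) x15729) x15837) x15909) x15897) x15889) (Nat.mul x15891 (nat_lit 3))) x9331)
    (Nat.sub (Nat.sub (Nat.add (Nat.add (Nat.add (Nat.add (Nat.add (Nat.add (Nat.add (Nat.add C x11521) x14437) x16381) x15733) x15841) x15913) x15889) x15897) (Nat.mul x15895 (nat_lit 3))) x9335)
    (Nat.sub (Nat.sub (Nat.add (Nat.add (Nat.add (Nat.add (Nat.add (Nat.add (Nat.add (Nat.add C x11523) x14439) x16383) x15735) x15843) x15915) x15891) x15895) (Nat.mul x15897 (nat_lit 3))) x9337)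
    (Nat.add (Nat.add (Nat.add (Nat.add (Nat.add (Nat.add (Nat.add (Nat.add C x11531) x14447) x16391) x15743) x15851) x15959) x15887) x15907)
    (Nat.sub (Nat.sub (Nat.add (Nat.add (Nat.add (Nat.add (Nat.add (Nat.add (Nat.add (Nat.add (Nat.add (Nat.add C x11533) x14449) x16393) x15745) x15853) x15961) x15889) x15913) x15905) x15909) x15907) x9347)
    (Nat.sub (Nat.sub (Nat.add (Nat.add (Nat.add (Nat.add (Nat.add (Nat.add (Nat.add (Nat.add (Nat.add C x11535) x14451) x16395) x15747) x15855) x15963) x15891) x15915) x15907) (Nat.mul x15909 (nat_lit 4))) x9349)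
    (Nat.sub (Nat.sub (Nat.add (Nat.add (Nat.add (Nat.add (Nat.add (Nat.add (Nat.add (Nat.add (Nat.add (Nat.add C x11539) x14455) x16399) x15751) x15859) x15967) x15895) x15931) x15907) x15915) x15913) x9353)
    (Nat.sub (Nat.sub (Nat.add (Nat.add (Nat.add (Nat.add (Nat.add (Nat.add (Nat.add (Nat.add (Nat.add (Nat.add (Nat.add C x11541) x14457) x16401) x15753) x15861) x15969) x15897) x15933) x15909) x15921) x15913) (Nat.mul x15915 (nat_lit 2))) x9355)
    (Nat.sub (Nat.sub (Nat.add (Nat.add (Nat.add (Nat.add (Nat.add (Nat.add (Nat.add (Nat.add C x11547) x14463) x16407) x15759) x15867) x15975) x15939) x15915) (Nat.mul x15921 (nat_lit 2))) x9361)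
    (Nat.sub (Nat.sub (Nat.add (Nat.add (Nat.add (Nat.add (Nat.add (Nat.add (Nat.add C x11557) x14473) x16417) x15769) x15985) x15913) x15933) x15931) x9371)
    (Nat.sub (Nat.sub (Nat.add (Nat.add (Nat.add (Nat.add (Nat.add (Nat.add (Nat.add (Nat.add C x11559) x14475) x16419) x15771) x15987) x15915) x15939) x15931) (Nat.mul x15933 (nat_lit 3))) x9373)
    (Nat.sub (Nat.sub (Nat.add (Nat.add (Nat.add (Nat.add (Nat.add (Nat.add (Nat.add C x11565) x14481) x16425) x15777) x15993) x15921) x15933) x15939) x9379)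
    (Nat.add (Nat.add (Nat.add (Nat.add (Nat.add (Nat.add C x15959) x11585) x14501) x16445) x15905) x15961)
    (Nat.sub (Nat.add (Nat.add (Nat.add (Nat.add (Nat.add (Nat.add (Nat.add C x11587) x14503) x16447) x15907) x15967) x15959) x15963) x9401)
    (Nat.sub (Nat.sub (Nat.add (Nat.add (Nat.add (Nat.add (Nat.add (Nat.add C x11589) x14505) x16449) x15909) x15969) x15961) (Nat.mul x15963 (nat_lit 3))) x9403)
    (Nat.sub (Nat.sub (Nat.add (Nat.add (Nat.add (Nat.add (Nat.add (Nat.add (Nat.add C x11593) x14509) x16453) x15913) x15985) x15961) x15969) x15967) x9407)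
    (Nat.sub (Nat.sub (Nat.add (Nat.add (Nat.add (Nat.add (Nat.add (Nat.add (Nat.add (Nat.add C x11595) x14511) x16455) x15915) x15987) x15963) x15975) x15967) (Nat.mul x15969 (nat_lit 2))) x9409)
    (Nat.sub (Nat.sub (Nat.add (Nat.add (Nat.add (Nat.add (Nat.add (Nat.add C x11601) x14517) x16461) x15921) x15993) x15969) (Nat.mul x15975 (nat_lit 3))) x9415)
    (Nat.sub (Nat.add (Nat.add (Nat.add (Nat.add (Nat.add (Nat.add (Nat.add C x15985) x11611) x14527) x16471) x15931) x15967) x15987) x9425)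
    (Nat.sub (Nat.sub (Nat.add (Nat.add (Nat.add (Nat.add (Nat.add (Nat.add (Nat.add C x11613) x14529) x16473) x15933) x15969) x15993) x15985) x15987) x9427)
    (Nat.sub (Nat.add (Nat.add (Nat.add (Nat.add (Nat.add (Nat.add (Nat.add C x11619) x14535) x16479) x15939) x15975) x16011) x15987) x9433)
    (Nat.sub (Nat.add (Nat.add (Nat.add (Nat.add (Nat.add C x16011) x11637) x14553) x16497) x15993) x9451)
    (Nat.add (Nat.add (Nat.add (Nat.add (Nat.add (Nat.add (Nat.add C (Nat.mul x16055 (nat_lit 4))) x11681) x14597) x17513) x15569) x16073) x16061)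
    (Nat.add (Nat.add (Nat.add (Nat.add (Nat.add (Nat.add (Nat.add (Nat.add C (Nat.mul x16061 (nat_lit 2))) x11687) x14603) x17519) x15575) x16079) x16055) x16063)
    (Nat.sub (Nat.add (Nat.add (Nat.add (Nat.add (Nat.add (Nat.add (Nat.add C (Nat.mul x16063 (nat_lit 2))) x11689) x14605) x17521) x15577) x16081) x16061) x9503)
    (Nat.add (Nat.add (Nat.add (Nat.add (Nat.add (Nat.add (Nat.add (Nat.add C (Nat.mul x16073 (nat_lit 2))) x11699) x14615) x17531) x15587) x16127) x16055) x16079)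
    (Nat.add (Nat.add (Nat.add (Nat.add (Nat.add (Nat.add (Nat.add (Nat.add (Nat.add (Nat.add (Nat.add C (Nat.mul x16079 (nat_lit 2))) x11705) x14621) x17537) x15593) x16133) x16061) x16097) x16073) x16085) x16081)
    (Nat.sub (Nat.add (Nat.add (Nat.add (Nat.add (Nat.add (Nat.add (Nat.add (Nat.add (Nat.add (Nat.add C x16081) x11707) x14623) x17539) x15595) x16135) x16063) x16099) x16087) x16079) x9521)
    (Nat.add (Nat.add (Nat.add (Nat.add (Nat.add (Nat.add (Nat.add (Nat.add C x11711) x14627) x17543) x15599) x16139) x16103) x16079) x16087)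
    (Nat.sub (Nat.add (Nat.add (Nat.add (Nat.add (Nat.add (Nat.add (Nat.add (Nat.add (Nat.add (Nat.add C x16087) x11713) x14629) x17545) x15601) x16141) x16105) x16081) x16085) x16089) x9527)
    (Nat.sub (Nat.add (Nat.add (Nat.add (Nat.add (Nat.add (Nat.add (Nat.add C x11715) x14631) x17547) x15603) x16143) x16107) x16087) x9529)
    (Nat.add (Nat.add (Nat.add (Nat.add (Nat.add (Nat.add (Nat.add (Nat.add C x11723) x14639) x17555) x15611) x16151) x16079) x16103) x16099)
    (Nat.sub (Nat.sub (Nat.add (Nat.add (Nat.add (Nat.add (Nat.add (Nat.add (Nat.add (Nat.add C x11725) x14641) x17557) x15613) x16153) x16081) x16105) x16097) (Nat.mul x16099 (nat_lit 2))) x9539)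
    (Nat.add (Nat.add (Nat.add (Nat.add (Nat.add (Nat.add (Nat.add (Nat.add C x11729) x14645) x17561) x15617) x16157) x16085) x16097) x16105)
    (Nat.sub (Nat.add (Nat.add (Nat.add (Nat.add (Nat.add (Nat.add (Nat.add (Nat.add (Nat.add (Nat.add C x11731) x14647) x17563) x15619) x16159) x16087) x16099) x16111) x16103) x16107) x9545)
    (Nat.sub (Nat.sub (Nat.add (Nat.add (Nat.add (Nat.add (Nat.add (Nat.add (Nat.add (Nat.add C x11733) x14649) x17565) x15621) x16161) x16089) x16113) x16105) (Nat.mul x16107 (nat_lit 2))) x9547)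
    (Nat.sub (Nat.add (Nat.add (Nat.add (Nat.add (Nat.add (Nat.add (Nat.add C x11737) x14653) x17569) x15625) x16165) x16105) x16113) x9551)
    (Nat.sub (Nat.add (Nat.add (Nat.add (Nat.add (Nat.add (Nat.add (Nat.add C x11739) x14655) x17571) x15627) x16167) x16107) x16111) x9553)
    (Nat.add (Nat.add (Nat.add (Nat.add (Nat.add (Nat.add (Nat.add (Nat.add C (Nat.mul x16127 (nat_lit 2))) x11753) x14669) x17585) x15641) x16289) x16073) x16133)
    (Nat.add (Nat.add (Nat.add (Nat.add (Nat.add (Nat.add (Nat.add (Nat.add (Nat.add (Nat.add (Nat.add C x16133) x11759) x14675) x17591) x15647) x16295) x16079) x16151) x16127) x16139) x16135)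
    (Nat.sub (Nat.add (Nat.add (Nat.add (Nat.add (Nat.add (Nat.add (Nat.add (Nat.add (Nat.add C x11761) x14677) x17593) x15649) x16297) x16081) x16153) x16141) x16133) x9575)
    (Nat.sub (Nat.add (Nat.add (Nat.add (Nat.add (Nat.add (Nat.add (Nat.add (Nat.add (Nat.add C x11765) x14681) x17597) x15653) x16301) x16085) x16157) x16133) x16141) (Nat.mul x16139 (nat_lit 2)))
    (Nat.sub (Nat.sub (Nat.add (Nat.add (Nat.add (Nat.add (Nat.add (Nat.add (Nat.add (Nat.add (Nat.add (Nat.add C x11767) x14683) x17599) x15655) x16303) x16087) x16159) x16135) x16139) x16143) x16141) x9581)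
    (Nat.sub (Nat.sub (Nat.add (Nat.add (Nat.add (Nat.add (Nat.add (Nat.add (Nat.add (Nat.add C x11769) x14685) x17601) x15657) x16305) x16089) x16161) x16141) (Nat.mul x16143 (nat_lit 2))) x9583)
    (Nat.add (Nat.add (Nat.add (Nat.add (Nat.add (Nat.add (Nat.add (Nat.add (Nat.add (Nat.add (Nat.add C x16151) x11777) x14693) x17609) x15665) x16313) x16097) x16205) x16133) x16157) x16153)
    (Nat.sub (Nat.sub (Nat.add (Nat.add (Nat.add (Nat.add (Nat.add (Nat.add (Nat.add (Nat.add (Nat.add (Nat.add C x11779) x14695) x17611) x15667) x16315) x16099) x16207) x16135) x16159) x16151) x16153) x9593)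
    (Nat.add (Nat.add (Nat.add (Nat.add (Nat.add (Nat.add (Nat.add (Nat.add (Nat.add (Nat.add (Nat.add C x11783) x14699) x17615) x15671) x16319) x16103) x16211) x16139) x16175) x16151) x16159)
    (Nat.sub (Nat.add (Nat.add (Nat.add (Nat.add (Nat.add (Nat.add (Nat.add (Nat.add (Nat.add (Nat.add (Nat.add (Nat.add (Nat.add C x11785) x14701) x17617) x15673) x16321) x16105) x16213) x16141) x16177) x16153) x16165) x16157) x16161) x9599)
    (Nat.sub (Nat.sub (Nat.add (Nat.add (Nat.add (Nat.add (Nat.add (Nat.add (Nat.add (Nat.add (Nat.add (Nat.add (Nat.add C x11787) x14703) x17619) x15675) x16323) x16107) x16215) x16143) x16179) x16167) x16159) (Nat.mul x16161 (nat_lit 2))) x9601)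
    (Nat.sub (Nat.sub (Nat.add (Nat.add (Nat.add (Nat.add (Nat.add (Nat.add (Nat.add (Nat.add (Nat.add (Nat.add C x11791) x14707) x17623) x15679) x16327) x16111) x16219) x16183) x16159) x16167) x16165) x9605)
    (Nat.sub (Nat.sub (Nat.add (Nat.add (Nat.add (Nat.add (Nat.add (Nat.add (Nat.add (Nat.add (Nat.add (Nat.add C x11793) x14709) x17625) x15681) x16329) x16113) x16221) x16185) x16161) x16165) x16167) x9607)
    (Nat.add (Nat.add (Nat.add (Nat.add (Nat.add (Nat.add (Nat.add (Nat.add C x11801) x14717) x17633) x15689) x16337) x16229) x16157) x16177)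
    (Nat.sub (Nat.sub (Nat.add (Nat.add (Nat.add (Nat.add (Nat.add (Nat.add (Nat.add (Nat.add (Nat.add (Nat.add C x11803) x14719) x17635) x15691) x16339) x16231) x16159) x16183) x16175) x16179) x16177) x9617)
    (Nat.sub (Nat.sub (Nat.add (Nat.add (Nat.add (Nat.add (Nat.add (Nat.add (Nat.add (Nat.add (Nat.add C x11805) x14721) x17637) x15693) x16341) x16233) x16161) x16185) x16177) (Nat.mul x16179 (nat_lit 4))) x9619)
    (Nat.sub (Nat.add (Nat.add (Nat.add (Nat.add (Nat.add (Nat.add (Nat.add (Nat.add (Nat.add C x11809) x14725) x17641) x15697) x16345) x16237) x16165) x16177) x16185) x9623)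
    (Nat.sub (Nat.sub (Nat.add (Nat.add (Nat.add (Nat.add (Nat.add (Nat.add (Nat.add (Nat.add (Nat.add (Nat.add C x11811) x14727) x17643) x15699) x16347) x16239) x16167) x16179) x16191) x16183) x16185) x9625)
    (Nat.sub (Nat.add (Nat.add (Nat.add (Nat.add (Nat.add (Nat.add (Nat.add C x11817) x14733) x17649) x15705) x16353) x16245) x16185) x9631)
    (Nat.add (Nat.add (Nat.add (Nat.add (Nat.add (Nat.add (Nat.add (Nat.add C x11831) x14747) x17663) x15719) x16367) x16151) x16211) x16207)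
    (Nat.sub (Nat.sub (Nat.add (Nat.add (Nat.add (Nat.add (Nat.add (Nat.add (Nat.add (Nat.add C x11833) x14749) x17665) x15721) x16369) x16153) x16213) x16205) (Nat.mul x16207 (nat_lit 2))) x9647)
    (Nat.sub (Nat.add (Nat.add (Nat.add (Nat.add (Nat.add (Nat.add (Nat.add (Nat.add (Nat.add C x11837) x14753) x17669) x15725) x16373) x16157) x16229) x16205) x16213) (Nat.mul x16211 (nat_lit 2)))
    (Nat.sub (Nat.sub (Nat.add (Nat.add (Nat.add (Nat.add (Nat.add (Nat.add (Nat.add (Nat.add (Nat.add (Nat.add (Nat.add C x11839) x14755) x17671) x15727) x16375) x16159) x16231) x16207) x16219) x16211) x16215) (Nat.mul x16213 (nat_lit 2))) x9653)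
    (Nat.sub (Nat.sub (Nat.add (Nat.add (Nat.add (Nat.add (Nat.add (Nat.add (Nat.add (Nat.add (Nat.add C x11841) x14757) x17673) x15729) x16377) x16161) x16233) x16221) x16213) (Nat.mul x16215 (nat_lit 4))) x9655)
    (Nat.sub (Nat.sub (Nat.add (Nat.add (Nat.add (Nat.add (Nat.add (Nat.add (Nat.add (Nat.add (Nat.add C x11845) x14761) x17677) x15733) x16381) x16165) x16237) x16213) x16221) (Nat.mul x16219 (nat_lit 4))) x9659)
    (Nat.sub (Nat.sub (Nat.add (Nat.add (Nat.add (Nat.add (Nat.add (Nat.add (Nat.add (Nat.add (Nat.add C x11847) x14763) x17679) x15735) x16383) x16167) x16239) x16215) x16219) (Nat.mul x16221 (nat_lit 4))) x9661)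
    (Nat.add (Nat.add (Nat.add (Nat.add (Nat.add (Nat.add (Nat.add (Nat.add C x11855) x14771) x17687) x15743) x16391) x16175) x16211) x16231)
    (Nat.sub (Nat.sub (Nat.add (Nat.add (Nat.add (Nat.add (Nat.add (Nat.add (Nat.add (Nat.add (Nat.add (Nat.add C x11857) x14773) x17689) x15745) x16393) x16177) x16213) x16237) x16229) x16233) x16231) x9671)
    (Nat.sub (Nat.sub (Nat.add (Nat.add (Nat.add (Nat.add (Nat.add (Nat.add (Nat.add (Nat.add (Nat.add C x11859) x14775) x17691) x15747) x16395) x16179) x16215) x16239) x16231) (Nat.mul x16233 (nat_lit 4))) x9673)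
    (Nat.sub (Nat.sub (Nat.add (Nat.add (Nat.add (Nat.add (Nat.add (Nat.add (Nat.add (Nat.add (Nat.add (Nat.add C x11863) x14779) x17695) x15751) x16399) x16183) x16219) x16255) x16231) x16239) x16237) x9677)
    (Nat.sub (Nat.sub (Nat.add (Nat.add (Nat.add (Nat.add (Nat.add (Nat.add (Nat.add (Nat.add (Nat.add (Nat.add (Nat.add C x11865) x14781) x17697) x15753) x16401) x16185) x16221) x16257) x16233) x16245) x16237) (Nat.mul x16239 (nat_lit 2))) x9679)
    (Nat.sub (Nat.sub (Nat.add (Nat.add (Nat.add (Nat.add (Nat.add (Nat.add (Nat.add (Nat.add C x11871) x14787) x17703) x15759) x16407) x16191) x16263) x16239) (Nat.mul x16245 (nat_lit 2))) x9685)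
    (Nat.sub (Nat.add (Nat.add (Nat.add (Nat.add (Nat.add (Nat.add (Nat.add C x11881) x14797) x17713) x15769) x16417) x16237) x16257) x9695)
    (Nat.sub (Nat.sub (Nat.add (Nat.add (Nat.add (Nat.add (Nat.add (Nat.add (Nat.add (Nat.add C x11883) x14799) x17715) x15771) x16419) x16239) x16263) x16255) (Nat.mul x16257 (nat_lit 2))) x9697)
    (Nat.sub (Nat.add (Nat.add (Nat.add (Nat.add (Nat.add (Nat.add (Nat.add C x11889) x14805) x17721) x15777) x16425) x16245) x16257) x9703)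
    (Nat.add (Nat.add (Nat.add (Nat.add (Nat.add (Nat.add (Nat.add (Nat.add C (Nat.mul x16289 (nat_lit 3))) x11915) x14831) x17747) x15803) x16775) x16127) x16295)
    (Nat.add (Nat.add (Nat.add (Nat.add (Nat.add (Nat.add (Nat.add (Nat.add (Nat.add (Nat.add (Nat.add C (Nat.mul x16295 (nat_lit 2))) x11921) x14837) x17753) x15809) x16781) x16133) x16313) x16289) x16301) x16297)
    (Nat.sub (Nat.add (Nat.add (Nat.add (Nat.add (Nat.add (Nat.add (Nat.add (Nat.add (Nat.add (Nat.add C x16297) x11923) x14839) x17755) x15811) x16783) x16135) x16315) x16303) x16295) x9737)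
    (Nat.sub (Nat.add (Nat.add (Nat.add (Nat.add (Nat.add (Nat.add (Nat.add (Nat.add (Nat.add C x11927) x14843) x17759) x15815) x16787) x16139) x16319) x16295) x16303) x16301)
    (Nat.sub (Nat.add (Nat.add (Nat.add (Nat.add (Nat.add (Nat.add (Nat.add (Nat.add (Nat.add (Nat.add C x11929) x14845) x17761) x15817) x16789) x16141) x16321) x16297) x16301) x16305) x9743)
    (Nat.sub (Nat.sub (Nat.add (Nat.add (Nat.add (Nat.add (Nat.add (Nat.add (Nat.add (Nat.add C x11931) x14847) x17763) x15819) x16791) x16143) x16323) x16303) x16305) x9745)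
    (Nat.add (Nat.add (Nat.add (Nat.add (Nat.add (Nat.add (Nat.add (Nat.add (Nat.add (Nat.add (Nat.add C x16313) x11939) x14855) x17771) x15827) x16799) x16151) x16367) x16295) x16319) x16315)
    (Nat.sub (Nat.sub (Nat.add (Nat.add (Nat.add (Nat.add (Nat.add (Nat.add (Nat.add (Nat.add (Nat.add (Nat.add C x11941) x14857) x17773) x15829) x16801) x16153) x16369) x16297) x16321) x16313) x16315) x9755)
    (Nat.add (Nat.add (Nat.add (Nat.add (Nat.add (Nat.add (Nat.add (Nat.add (Nat.add (Nat.add (Nat.add C x11945) x14861) x17777) x15833) x16805) x16157) x16373) x16301) x16337) x16313) x16321)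
    (Nat.sub (Nat.add (Nat.add (Nat.add (Nat.add (Nat.add (Nat.add (Nat.add (Nat.add (Nat.add (Nat.add (Nat.add (Nat.add (Nat.add C x11947) x14863) x17779) x15835) x16807) x16159) x16375) x16303) x16339) x16315) x16327) x16319) x16323) x9761)
    (Nat.sub (Nat.sub (Nat.add (Nat.add (Nat.add (Nat.add (Nat.add (Nat.add (Nat.add (Nat.add (Nat.add (Nat.add (Nat.add C x11949) x14865) x17781) x15837) x16809) x16161) x16377) x16305) x16341) x16329) x16321) (Nat.mul x16323 (nat_lit 2))) x9763)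
    (Nat.sub (Nat.sub (Nat.add (Nat.add (Nat.add (Nat.add (Nat.add (Nat.add (Nat.add (Nat.add (Nat.add (Nat.add C x11953) x14869) x17785) x15841) x16813) x16165) x16381) x16345) x16321) x16329) x16327) x9767)
    (Nat.sub (Nat.sub (Nat.add (Nat.add (Nat.add (Nat.add (Nat.add (Nat.add (Nat.add (Nat.add (Nat.add (Nat.add C x11955) x14871) x17787) x15843) x16815) x16167) x16383) x16347) x16323) x16327) x16329) x9769)
    (Nat.sub (Nat.add (Nat.add (Nat.add (Nat.add (Nat.add (Nat.add (Nat.add (Nat.add (Nat.add C x11963) x14879) x17795) x15851) x16823) x16175) x16391) x16319) x16339) x16337)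
    (Nat.sub (Nat.sub (Nat.add (Nat.add (Nat.add (Nat.add (Nat.add (Nat.add (Nat.add (Nat.add (Nat.add (Nat.add (Nat.add C x11965) x14881) x17797) x15853) x16825) x16177) x16393) x16321) x16345) x16337) x16341) (Nat.mul x16339 (nat_lit 2))) x9779)
    (Nat.sub (Nat.sub (Nat.add (Nat.add (Nat.add (Nat.add (Nat.add (Nat.add (Nat.add (Nat.add (Nat.add (Nat.add C x11967) x14883) x17799) x15855) x16827) x16179) x16395) x16323) x16347) x16339) (Nat.mul x16341 (nat_lit 5))) x9781)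
    (Nat.sub (Nat.sub (Nat.add (Nat.add (Nat.add (Nat.add (Nat.add (Nat.add (Nat.add (Nat.add (Nat.add (Nat.add C x11971) x14887) x17803) x15859) x16831) x16183) x16399) x16327) x16339) x16347) x16345) x9785)
    (Nat.sub (Nat.sub (Nat.add (Nat.add (Nat.add (Nat.add (Nat.add (Nat.add (Nat.add (Nat.add (Nat.add (Nat.add (Nat.add C x11973) x14889) x17805) x15861) x16833) x16185) x16401) x16329) x16341) x16353) x16345) (Nat.mul x16347 (nat_lit 2))) x9787)
    (Nat.sub (Nat.sub (Nat.add (Nat.add (Nat.add (Nat.add (Nat.add (Nat.add (Nat.add (Nat.add C x11979) x14895) x17811) x15867) x16839) x16191) x16407) x16347) x16353) x9793)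
    (Nat.add (Nat.add (Nat.add (Nat.add (Nat.add (Nat.add (Nat.add (Nat.add (Nat.add (Nat.add (Nat.add C (Nat.mul x16367 (nat_lit 2))) x11993) x14909) x17825) x15881) x16853) x16205) x16529) x16313) x16373) x16369)
    (Nat.sub (Nat.add (Nat.add (Nat.add (Nat.add (Nat.add (Nat.add (Nat.add (Nat.add (Nat.add (Nat.add C x11995) x14911) x17827) x15883) x16855) x16207) x16531) x16315) x16375) x16367) x9809)
    (Nat.add (Nat.add (Nat.add (Nat.add (Nat.add (Nat.add (Nat.add (Nat.add (Nat.add (Nat.add (Nat.add C x11999) x14915) x17831) x15887) x16859) x16211) x16535) x16319) x16391) x16367) x16375)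
    (Nat.sub (Nat.add (Nat.add (Nat.add (Nat.add (Nat.add (Nat.add (Nat.add (Nat.add (Nat.add (Nat.add (Nat.add (Nat.add (Nat.add C x12001) x14917) x17833) x15889) x16861) x16213) x16537) x16321) x16393) x16369) x16381) x16373) x16377) x9815)
    (Nat.sub (Nat.sub (Nat.add (Nat.add (Nat.add (Nat.add (Nat.add (Nat.add (Nat.add (Nat.add (Nat.add (Nat.add (Nat.add C x12003) x14919) x17835) x15891) x16863) x16215) x16539) x16323) x16395) x16383) x16375) (Nat.mul x16377 (nat_lit 2))) x9817)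
    (Nat.sub (Nat.sub (Nat.add (Nat.add (Nat.add (Nat.add (Nat.add (Nat.add (Nat.add (Nat.add (Nat.add (Nat.add (Nat.add C x12007) x14923) x17839) x15895) x16867) x16219) x16543) x16327) x16399) x16375) x16383) (Nat.mul x16381 (nat_lit 2))) x9821)
    (Nat.sub (Nat.sub (Nat.add (Nat.add (Nat.add (Nat.add (Nat.add (Nat.add (Nat.add (Nat.add (Nat.add (Nat.add (Nat.add C x12009) x14925) x17841) x15897) x16869) x16221) x16545) x16329) x16401) x16377) x16381) (Nat.mul x16383 (nat_lit 2))) x9823)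
    (Nat.add (Nat.add (Nat.add (Nat.add (Nat.add (Nat.add (Nat.add (Nat.add (Nat.add (Nat.add (Nat.add (Nat.add C x16391) x12017) x14933) x17849) x15905) x16877) x16229) x16553) x16337) x16445) x16373) x16393)
    (Nat.sub (Nat.add (Nat.add (Nat.add (Nat.add (Nat.add (Nat.add (Nat.add (Nat.add (Nat.add (Nat.add (Nat.add (Nat.add (Nat.add C x12019) x14935) x17851) x15907) x16879) x16231) x16555) x16339) x16447) x16375) x16399) x16391) x16395) x9833)
    (Nat.sub (Nat.sub (Nat.add (Nat.add (Nat.add (Nat.add (Nat.add (Nat.add (Nat.add (Nat.add (Nat.add (Nat.add (Nat.add (Nat.add C x12021) x14937) x17853) x15909) x16881) x16233) x16557) x16341) x16449) x16377) x16401) x16393) (Nat.mul x16395 (nat_lit 3))) x9835)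
    (Nat.sub (Nat.add (Nat.add (Nat.add (Nat.add (Nat.add (Nat.add (Nat.add (Nat.add (Nat.add (Nat.add (Nat.add (Nat.add (Nat.add C x12025) x14941) x17857) x15913) x16885) x16237) x16561) x16345) x16453) x16381) x16417) x16393) x16401) x9839)
    (Nat.sub (Nat.sub (Nat.add (Nat.add (Nat.add (Nat.add (Nat.add (Nat.add (Nat.add (Nat.add (Nat.add (Nat.add (Nat.add (Nat.add (Nat.add (Nat.add C x12027) x14943) x17859) x15915) x16887) x16239) x16563) x16347) x16455) x16383) x16419) x16395) x16407) x16399) x16401) x9841)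
    (Nat.sub (Nat.sub (Nat.add (Nat.add (Nat.add (Nat.add (Nat.add (Nat.add (Nat.add (Nat.add (Nat.add (Nat.add (Nat.add C x12033) x14949) x17865) x15921) x16893) x16245) x16569) x16353) x16461) x16425) x16401) x16407) x9847)
    (Nat.sub (Nat.add (Nat.add (Nat.add (Nat.add (Nat.add (Nat.add (Nat.add (Nat.add (Nat.add (Nat.add C x12043) x14959) x17875) x15931) x16903) x16255) x16579) x16471) x16399) x16419) x9857)
    (Nat.sub (Nat.sub (Nat.add (Nat.add (Nat.add (Nat.add (Nat.add (Nat.add (Nat.add (Nat.add (Nat.add (Nat.add (Nat.add C x12045) x14961) x17877) x15933) x16905) x16257) x16581) x16473) x16401) x16425) x16417) (Nat.mul x16419 (nat_lit 2))) x9859)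
    (Nat.sub (Nat.add (Nat.add (Nat.add (Nat.add (Nat.add (Nat.add (Nat.add (Nat.add (Nat.add (Nat.add C x12051) x14967) x17883) x15939) x16911) x16263) x16587) x16479) x16407) x16419) x9865)
    (Nat.add (Nat.add (Nat.add (Nat.add (Nat.add (Nat.add (Nat.add (Nat.add (Nat.add C x16445) x12071) x14987) x17903) x15959) x16931) x16607) x16391) x16447)
    (Nat.sub (Nat.add (Nat.add (Nat.add (Nat.add (Nat.add (Nat.add (Nat.add (Nat.add (Nat.add (Nat.add C x12073) x14989) x17905) x15961) x16933) x16609) x16393) x16453) x16445) x16449) x9887)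
    (Nat.sub (Nat.sub (Nat.add (Nat.add (Nat.add (Nat.add (Nat.add (Nat.add (Nat.add (Nat.add (Nat.add C x12075) x14991) x17907) x15963) x16935) x16611) x16395) x16455) x16447) (Nat.mul x16449 (nat_lit 3))) x9889)
    (Nat.sub (Nat.sub (Nat.add (Nat.add (Nat.add (Nat.add (Nat.add (Nat.add (Nat.add (Nat.add (Nat.add (Nat.add C x12079) x14995) x17911) x15967) x16939) x16615) x16399) x16471) x16447) x16455) x16453) x9893)
    (Nat.sub (Nat.sub (Nat.add (Nat.add (Nat.add (Nat.add (Nat.add (Nat.add (Nat.add (Nat.add (Nat.add (Nat.add (Nat.add C x12081) x14997) x17913) x15969) x16941) x16617) x16401) x16473) x16449) x16461) x16453) (Nat.mul x16455 (nat_lit 2))) x9895)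
    (Nat.sub (Nat.sub (Nat.add (Nat.add (Nat.add (Nat.add (Nat.add (Nat.add (Nat.add (Nat.add (Nat.add C x12087) x15003) x17919) x15975) x16947) x16623) x16407) x16479) x16455) (Nat.mul x16461 (nat_lit 3))) x9901)
    (Nat.sub (Nat.add (Nat.add (Nat.add (Nat.add (Nat.add (Nat.add (Nat.add (Nat.add (Nat.add (Nat.add C x16471) x12097) x15013) x17929) x15985) x16957) x16633) x16417) x16453) x16473) x9911)
    (Nat.sub (Nat.sub (Nat.add (Nat.add (Nat.add (Nat.add (Nat.add (Nat.add (Nat.add (Nat.add (Nat.add (Nat.add C x12099) x15015) x17931) x15987) x16959) x16635) x16419) x16455) x16479) x16471) x16473) x9913)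
    (Nat.sub (Nat.add (Nat.add (Nat.add (Nat.add (Nat.add (Nat.add (Nat.add (Nat.add (Nat.add (Nat.add C x12105) x15021) x17937) x15993) x16965) x16641) x16425) x16461) x16497) x16473) x9919)
    (Nat.sub (Nat.add (Nat.add (Nat.add (Nat.add (Nat.add (Nat.add (Nat.add (Nat.add C x16497) x12123) x15039) x17955) x16011) x16983) x16659) x16479) x9937)
    (Nat.add (Nat.add (Nat.add (Nat.add (Nat.add (Nat.add (Nat.add (Nat.add C (Nat.mul x16529 (nat_lit 2))) x12155) x15071) x17987) x17015) x16367) x16535) x16531)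
    (Nat.sub (Nat.add (Nat.add (Nat.add (Nat.add (Nat.add (Nat.add (Nat.add C x12157) x15073) x17989) x17017) x16369) x16537) x16529) x9971)
    (Nat.add (Nat.add (Nat.add (Nat.add (Nat.add (Nat.add (Nat.add (Nat.add C x12161) x15077) x17993) x17021) x16373) x16553) x16529) x16537)
    (Nat.sub (Nat.add (Nat.add (Nat.add (Nat.add (Nat.add (Nat.add (Nat.add (Nat.add (Nat.add (Nat.add C x12163) x15079) x17995) x17023) x16375) x16555) x16531) x16543) x16535) x16539) x9977)
    (Nat.sub (Nat.sub (Nat.add (Nat.add (Nat.add (Nat.add (Nat.add (Nat.add (Nat.add (Nat.add C x12165) x15081) x17997) x17025) x16377) x16557) x16545) x16537) (Nat.mul x16539 (nat_lit 2))) x9979)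
    (Nat.sub (Nat.sub (Nat.add (Nat.add (Nat.add (Nat.add (Nat.add (Nat.add (Nat.add (Nat.add C x12169) x15085) x18001) x17029) x16381) x16561) x16537) x16545) (Nat.mul x16543 (nat_lit 2))) x9983)
    (Nat.sub (Nat.sub (Nat.add (Nat.add (Nat.add (Nat.add (Nat.add (Nat.add (Nat.add (Nat.add C x12171) x15087) x18003) x17031) x16383) x16563) x16539) x16543) (Nat.mul x16545 (nat_lit 2))) x9985)
    (Nat.add (Nat.add (Nat.add (Nat.add (Nat.add (Nat.add (Nat.add (Nat.add C x12179) x15095) x18011) x17039) x16391) x16607) x16535) x16555)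
    (Nat.sub (Nat.sub (Nat.add (Nat.add (Nat.add (Nat.add (Nat.add (Nat.add (Nat.add (Nat.add (Nat.add (Nat.add C x12181) x15097) x18013) x17041) x16393) x16609) x16537) x16561) x16553) x16557) x16555) x9995)
    (Nat.sub (Nat.sub (Nat.add (Nat.add (Nat.add (Nat.add (Nat.add (Nat.add (Nat.add (Nat.add (Nat.add C x12183) x15099) x18015) x17043) x16395) x16611) x16539) x16563) x16555) (Nat.mul x16557 (nat_lit 4))) x9997)
    (Nat.sub (Nat.sub (Nat.add (Nat.add (Nat.add (Nat.add (Nat.add (Nat.add (Nat.add (Nat.add (Nat.add (Nat.add C x12187) x15103) x18019) x17047) x16399) x16615) x16543) x16579) x16555) x16563) x16561) x10001)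
    (Nat.sub (Nat.sub (Nat.add (Nat.add (Nat.add (Nat.add (Nat.add (Nat.add (Nat.add (Nat.add (Nat.add (Nat.add (Nat.add C x12189) x15105) x18021) x17049) x16401) x16617) x16545) x16581) x16557) x16569) x16561) (Nat.mul x16563 (nat_lit 2))) x10003)
    (Nat.sub (Nat.sub (Nat.add (Nat.add (Nat.add (Nat.add (Nat.add (Nat.add (Nat.add (Nat.add C x12195) x15111) x18027) x17055) x16407) x16623) x16587) x16563) (Nat.mul x16569 (nat_lit 2))) x10009)
    (Nat.sub (Nat.sub (Nat.add (Nat.add (Nat.add (Nat.add (Nat.add (Nat.add (Nat.add (Nat.add C x12205) x15121) x18037) x17065) x16417) x16633) x16561) x16581) (Nat.mul x16579 (nat_lit 2))) x10019)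
    (Nat.sub (Nat.sub (Nat.add (Nat.add (Nat.add (Nat.add (Nat.add (Nat.add (Nat.add (Nat.add (Nat.add C x12207) x15123) x18039) x17067) x16419) x16635) x16563) x16587) x16579) (Nat.mul x16581 (nat_lit 4))) x10021)
    (Nat.sub (Nat.sub (Nat.add (Nat.add (Nat.add (Nat.add (Nat.add (Nat.add (Nat.add (Nat.add C x12213) x15129) x18045) x17073) x16425) x16641) x16569) x16581) (Nat.mul x16587 (nat_lit 2))) x10027)
    (Nat.add (Nat.add (Nat.add (Nat.add (Nat.add (Nat.add (Nat.add (Nat.add C (Nat.mul x16607 (nat_lit 2))) x12233) x15149) x18065) x17093) x16445) x16553) x16609)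
    (Nat.sub (Nat.add (Nat.add (Nat.add (Nat.add (Nat.add (Nat.add (Nat.add (Nat.add (Nat.add (Nat.add C x16609) x12235) x15151) x18067) x17095) x16447) x16555) x16615) x16607) x16611) x10049)
    (Nat.sub (Nat.sub (Nat.add (Nat.add (Nat.add (Nat.add (Nat.add (Nat.add (Nat.add (Nat.add C x12237) x15153) x18069) x17097) x16449) x16557) x16617) x16609) (Nat.mul x16611 (nat_lit 2))) x10051)
    (Nat.sub (Nat.add (Nat.add (Nat.add (Nat.add (Nat.add (Nat.add (Nat.add (Nat.add (Nat.add C x12241) x15157) x18073) x17101) x16453) x16561) x16633) x16609) x16617) x10055)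
    (Nat.sub (Nat.sub (Nat.add (Nat.add (Nat.add (Nat.add (Nat.add (Nat.add (Nat.add (Nat.add (Nat.add (Nat.add C x12243) x15159) x18075) x17103) x16455) x16563) x16635) x16611) x16623) x16615) x16617) x10057)
    (Nat.sub (Nat.sub (Nat.add (Nat.add (Nat.add (Nat.add (Nat.add (Nat.add (Nat.add (Nat.add C x12249) x15165) x18081) x17109) x16461) x16569) x16641) x16617) (Nat.mul x16623 (nat_lit 2))) x10063)
    (Nat.sub (Nat.add (Nat.add (Nat.add (Nat.add (Nat.add (Nat.add (Nat.add (Nat.add (Nat.add (Nat.add C x16633) x12259) x15175) x18091) x17119) x16471) x16579) x16687) x16615) x16635) x10073)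
    (Nat.sub (Nat.sub (Nat.add (Nat.add (Nat.add (Nat.add (Nat.add (Nat.add (Nat.add (Nat.add (Nat.add (Nat.add C x12261) x15177) x18093) x17121) x16473) x16581) x16689) x16617) x16641) x16633) x16635) x10075)
    (Nat.sub (Nat.add (Nat.add (Nat.add (Nat.add (Nat.add (Nat.add (Nat.add (Nat.add (Nat.add (Nat.add C x12267) x15183) x18099) x17127) x16479) x16587) x16695) x16623) x16659) x16635) x10081)
    (Nat.sub (Nat.add (Nat.add (Nat.add (Nat.add (Nat.add (Nat.add (Nat.add C x12285) x15201) x18117) x17145) x16497) x16713) x16641) x10099)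
    (Nat.sub (Nat.add (Nat.add (Nat.add (Nat.add (Nat.add (Nat.add (Nat.add C (Nat.mul x16687 (nat_lit 2))) x12313) x15229) x18145) x17173) x16633) x16689) x10127)
    (Nat.sub (Nat.add (Nat.add (Nat.add (Nat.add (Nat.add (Nat.add (Nat.add C x12315) x15231) x18147) x17175) x16635) x16695) x16687) x10129)
    (Nat.sub (Nat.add (Nat.add (Nat.add (Nat.add (Nat.add (Nat.add (Nat.add C x12321) x15237) x18153) x17181) x16641) x16713) x16689) x10135)
    (Nat.sub (Nat.add (Nat.add (Nat.add (Nat.add (Nat.add (Nat.add (Nat.add C (Nat.mul x16713 (nat_lit 2))) x12339) x15255) x18171) x17199) x16659) x16695) x10153)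
    (Nat.add (Nat.add (Nat.add (Nat.add (Nat.add C (Nat.mul x16775 (nat_lit 3))) x12401) x18233) x16289) x16781)
    (Nat.add (Nat.add (Nat.add (Nat.add (Nat.add (Nat.add (Nat.add (Nat.add C (Nat.mul x16781 (nat_lit 2))) x12407) x18239) x16295) x16799) x16775) x16787) x16783)
    (Nat.sub (Nat.add (Nat.add (Nat.add (Nat.add (Nat.add (Nat.add (Nat.add C x16783) x12409) x18241) x16297) x16801) x16789) x16781) x10223)
    (Nat.sub (Nat.add (Nat.add (Nat.add (Nat.add (Nat.add (Nat.add C x12413) x18245) x16301) x16805) x16781) x16789) x16787)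
    (Nat.sub (Nat.add (Nat.add (Nat.add (Nat.add (Nat.add (Nat.add (Nat.add C x12415) x18247) x16303) x16807) x16783) x16787) x16791) x10229)
    (Nat.sub (Nat.sub (Nat.add (Nat.add (Nat.add (Nat.add (Nat.add C x12417) x18249) x16305) x16809) x16789) x16791) x10231)
    (Nat.add (Nat.add (Nat.add (Nat.add (Nat.add (Nat.add (Nat.add (Nat.add C x16799) x12425) x18257) x16313) x16853) x16781) x16805) x16801)
    (Nat.sub (Nat.sub (Nat.add (Nat.add (Nat.add (Nat.add (Nat.add (Nat.add (Nat.add C x12427) x18259) x16315) x16855) x16783) x16807) x16799) x16801) x10241)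
    (Nat.add (Nat.add (Nat.add (Nat.add (Nat.add (Nat.add (Nat.add (Nat.add C x12431) x18263) x16319) x16859) x16787) x16823) x16799) x16807)
    (Nat.sub (Nat.add (Nat.add (Nat.add (Nat.add (Nat.add (Nat.add (Nat.add (Nat.add (Nat.add (Nat.add C x12433) x18265) x16321) x16861) x16789) x16825) x16801) x16813) x16805) x16809) x10247)
    (Nat.sub (Nat.sub (Nat.add (Nat.add (Nat.add (Nat.add (Nat.add (Nat.add (Nat.add (Nat.add C x12435) x18267) x16323) x16863) x16791) x16827) x16815) x16807) (Nat.mul x16809 (nat_lit 2))) x10249)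
    (Nat.sub (Nat.sub (Nat.add (Nat.add (Nat.add (Nat.add (Nat.add (Nat.add (Nat.add C x12439) x18271) x16327) x16867) x16831) x16807) x16815) x16813) x10253)
    (Nat.sub (Nat.sub (Nat.add (Nat.add (Nat.add (Nat.add (Nat.add (Nat.add (Nat.add C x12441) x18273) x16329) x16869) x16833) x16809) x16813) x16815) x10255)
    (Nat.sub (Nat.add (Nat.add (Nat.add (Nat.add (Nat.add (Nat.add C x12449) x18281) x16337) x16877) x16805) x16825) x16823)
    (Nat.sub (Nat.sub (Nat.add (Nat.add (Nat.add (Nat.add (Nat.add (Nat.add (Nat.add (Nat.add C x12451) x18283) x16339) x16879) x16807) x16831) x16823) x16827) (Nat.mul x16825 (nat_lit 2))) x10265)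
    (Nat.sub (Nat.sub (Nat.add (Nat.add (Nat.add (Nat.add (Nat.add (Nat.add (Nat.add C x12453) x18285) x16341) x16881) x16809) x16833) x16825) (Nat.mul x16827 (nat_lit 5))) x10267)
    (Nat.sub (Nat.sub (Nat.add (Nat.add (Nat.add (Nat.add (Nat.add (Nat.add (Nat.add C x12457) x18289) x16345) x16885) x16813) x16825) x16833) x16831) x10271)
    (Nat.sub (Nat.sub (Nat.add (Nat.add (Nat.add (Nat.add (Nat.add (Nat.add (Nat.add (Nat.add C x12459) x18291) x16347) x16887) x16815) x16827) x16839) x16831) (Nat.mul x16833 (nat_lit 2))) x10273)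
    (Nat.sub (Nat.sub (Nat.add (Nat.add (Nat.add (Nat.add (Nat.add C x12465) x18297) x16353) x16893) x16833) x16839) x10279)
    (Nat.add (Nat.add (Nat.add (Nat.add (Nat.add (Nat.add (Nat.add (Nat.add C x16853) x12479) x18311) x16367) x17015) x16799) x16859) x16855)
    (Nat.sub (Nat.sub (Nat.add (Nat.add (Nat.add (Nat.add (Nat.add (Nat.add (Nat.add C x12481) x18313) x16369) x17017) x16801) x16861) x16853) x16855) x10295)
    (Nat.sub (Nat.add (Nat.add (Nat.add (Nat.add (Nat.add (Nat.add (Nat.add (Nat.add C x12485) x18317) x16373) x17021) x16805) x16877) x16853) x16861) x16859)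
    (Nat.sub (Nat.sub (Nat.add (Nat.add (Nat.add (Nat.add (Nat.add (Nat.add (Nat.add (Nat.add (Nat.add (Nat.add C x12487) x18319) x16375) x17023) x16807) x16879) x16855) x16867) x16859) x16863) x16861) x10301)
    (Nat.sub (Nat.sub (Nat.add (Nat.add (Nat.add (Nat.add (Nat.add (Nat.add (Nat.add (Nat.add C x12489) x18321) x16377) x17025) x16809) x16881) x16869) x16861) (Nat.mul x16863 (nat_lit 3))) x10303)
    (Nat.sub (Nat.sub (Nat.add (Nat.add (Nat.add (Nat.add (Nat.add (Nat.add (Nat.add (Nat.add C x12493) x18325) x16381) x17029) x16813) x16885) x16861) x16869) (Nat.mul x16867 (nat_lit 3))) x10307)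
    (Nat.sub (Nat.sub (Nat.add (Nat.add (Nat.add (Nat.add (Nat.add (Nat.add (Nat.add (Nat.add C x12495) x18327) x16383) x17031) x16815) x16887) x16863) x16867) (Nat.mul x16869 (nat_lit 3))) x10309)
    (Nat.add (Nat.add (Nat.add (Nat.add (Nat.add (Nat.add (Nat.add (Nat.add C x12503) x18335) x16391) x17039) x16823) x16931) x16859) x16879)
    (Nat.sub (Nat.sub (Nat.add (Nat.add (Nat.add (Nat.add (Nat.add (Nat.add (Nat.add (Nat.add (Nat.add (Nat.add C x12505) x18337) x16393) x17041) x16825) x16933) x16861) x16885) x16877) x16881) x16879) x10319)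
    (Nat.sub (Nat.sub (Nat.add (Nat.add (Nat.add (Nat.add (Nat.add (Nat.add (Nat.add (Nat.add (Nat.add C x12507) x18339) x16395) x17043) x16827) x16935) x16863) x16887) x16879) (Nat.mul x16881 (nat_lit 4))) x10321)
    (Nat.sub (Nat.sub (Nat.add (Nat.add (Nat.add (Nat.add (Nat.add (Nat.add (Nat.add (Nat.add (Nat.add (Nat.add C x12511) x18343) x16399) x17047) x16831) x16939) x16867) x16903) x16879) x16887) x16885) x10325)
    (Nat.sub (Nat.sub (Nat.add (Nat.add (Nat.add (Nat.add (Nat.add (Nat.add (Nat.add (Nat.add (Nat.add (Nat.add (Nat.add C x12513) x18345) x16401) x17049) x16833) x16941) x16869) x16905) x16881) x16893) x16885) (Nat.mul x16887 (nat_lit 2))) x10327)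
    (Nat.sub (Nat.sub (Nat.add (Nat.add (Nat.add (Nat.add (Nat.add (Nat.add (Nat.add (Nat.add C x12519) x18351) x16407) x17055) x16839) x16947) x16911) x16887) (Nat.mul x16893 (nat_lit 2))) x10333)
    (Nat.sub (Nat.sub (Nat.add (Nat.add (Nat.add (Nat.add (Nat.add (Nat.add (Nat.add C x12529) x18361) x16417) x17065) x16957) x16885) x16905) x16903) x10343)
    (Nat.sub (Nat.sub (Nat.add (Nat.add (Nat.add (Nat.add (Nat.add (Nat.add (Nat.add (Nat.add C x12531) x18363) x16419) x17067) x16959) x16887) x16911) x16903) (Nat.mul x16905 (nat_lit 3))) x10345)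
    (Nat.sub (Nat.sub (Nat.add (Nat.add (Nat.add (Nat.add (Nat.add (Nat.add (Nat.add C x12537) x18369) x16425) x17073) x16965) x16893) x16905) x16911) x10351)
    (Nat.sub (Nat.add (Nat.add (Nat.add (Nat.add (Nat.add (Nat.add C x12557) x18389) x16445) x17093) x16877) x16933) x16931)
    (Nat.sub (Nat.sub (Nat.add (Nat.add (Nat.add (Nat.add (Nat.add (Nat.add (Nat.add (Nat.add C x12559) x18391) x16447) x17095) x16879) x16939) x16931) x16935) (Nat.mul x16933 (nat_lit 2))) x10373)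
    (Nat.sub (Nat.sub (Nat.add (Nat.add (Nat.add (Nat.add (Nat.add (Nat.add (Nat.add C x12561) x18393) x16449) x17097) x16881) x16941) x16933) (Nat.mul x16935 (nat_lit 5))) x10375)
    (Nat.sub (Nat.sub (Nat.add (Nat.add (Nat.add (Nat.add (Nat.add (Nat.add (Nat.add (Nat.add C x12565) x18397) x16453) x17101) x16885) x16957) x16933) x16941) (Nat.mul x16939 (nat_lit 3))) x10379)
    (Nat.sub (Nat.sub (Nat.add (Nat.add (Nat.add (Nat.add (Nat.add (Nat.add (Nat.add (Nat.add (Nat.add C x12567) x18399) x16455) x17103) x16887) x16959) x16935) x16947) x16939) (Nat.mul x16941 (nat_lit 4))) x10381)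
    (Nat.sub (Nat.sub (Nat.add (Nat.add (Nat.add (Nat.add (Nat.add (Nat.add (Nat.add C x12573) x18405) x16461) x17109) x16893) x16965) x16941) (Nat.mul x16947 (nat_lit 5))) x10387)
    (Nat.sub (Nat.sub (Nat.add (Nat.add (Nat.add (Nat.add (Nat.add (Nat.add (Nat.add C x12583) x18415) x16471) x17119) x16903) x16939) x16959) x16957) x10397)
    (Nat.sub (Nat.sub (Nat.add (Nat.add (Nat.add (Nat.add (Nat.add (Nat.add (Nat.add (Nat.add C x12585) x18417) x16473) x17121) x16905) x16941) x16965) x16957) (Nat.mul x16959 (nat_lit 3))) x10399)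
    (Nat.sub (Nat.sub (Nat.add (Nat.add (Nat.add (Nat.add (Nat.add (Nat.add (Nat.add (Nat.add C x12591) x18423) x16479) x17127) x16911) x16947) x16983) x16959) (Nat.mul x16965 (nat_lit 2))) x10405)
    (Nat.sub (Nat.sub (Nat.add (Nat.add (Nat.add (Nat.add (Nat.add C x12609) x18441) x16497) x17145) x16965) x16983) x10423)
    (Nat.add (Nat.add (Nat.add (Nat.add (Nat.add (Nat.add (Nat.add C (Nat.mul x17015 (nat_lit 3))) x12641) x18473) x16529) x16853) x17021) x17017)
    (Nat.sub (Nat.add (Nat.add (Nat.add (Nat.add (Nat.add (Nat.add (Nat.add C x17017) x12643) x18475) x16531) x16855) x17023) x17015) x10457)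
    (Nat.add (Nat.add (Nat.add (Nat.add (Nat.add (Nat.add (Nat.add (Nat.add C x17021) x12647) x18479) x16535) x16859) x17039) x17015) x17023)
    (Nat.sub (Nat.add (Nat.add (Nat.add (Nat.add (Nat.add (Nat.add (Nat.add (Nat.add (Nat.add (Nat.add C x17023) x12649) x18481) x16537) x16861) x17041) x17017) x17029) x17021) x17025) x10463)
    (Nat.sub (Nat.sub (Nat.add (Nat.add (Nat.add (Nat.add (Nat.add (Nat.add (Nat.add C x12651) x18483) x16539) x16863) x17043) x17031) x17023) x17025) x10465)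
    (Nat.sub (Nat.sub (Nat.add (Nat.add (Nat.add (Nat.add (Nat.add (Nat.add (Nat.add C x12655) x18487) x16543) x16867) x17047) x17023) x17031) x17029) x10469)
    (Nat.sub (Nat.sub (Nat.add (Nat.add (Nat.add (Nat.add (Nat.add (Nat.add (Nat.add C x12657) x18489) x16545) x16869) x17049) x17025) x17029) x17031) x10471)
    (Nat.add (Nat.add (Nat.add (Nat.add (Nat.add (Nat.add (Nat.add (Nat.add C x17039) x12665) x18497) x16553) x16877) x17093) x17021) x17041)
    (Nat.sub (Nat.add (Nat.add (Nat.add (Nat.add (Nat.add (Nat.add (Nat.add (Nat.add (Nat.add C x12667) x18499) x16555) x16879) x17095) x17023) x17047) x17039) x17043) x10481)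
    (Nat.sub (Nat.sub (Nat.add (Nat.add (Nat.add (Nat.add (Nat.add (Nat.add (Nat.add (Nat.add C x12669) x18501) x16557) x16881) x17097) x17025) x17049) x17041) (Nat.mul x17043 (nat_lit 3))) x10483)
    (Nat.sub (Nat.add (Nat.add (Nat.add (Nat.add (Nat.add (Nat.add (Nat.add (Nat.add (Nat.add C x12673) x18505) x16561) x16885) x17101) x17029) x17065) x17041) x17049) x10487)
    (Nat.sub (Nat.sub (Nat.add (Nat.add (Nat.add (Nat.add (Nat.add (Nat.add (Nat.add (Nat.add (Nat.add (Nat.add C x12675) x18507) x16563) x16887) x17103) x17031) x17067) x17043) x17055) x17047) x17049) x10489)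
    (Nat.sub (Nat.sub (Nat.add (Nat.add (Nat.add (Nat.add (Nat.add (Nat.add (Nat.add C x12681) x18513) x16569) x16893) x17109) x17073) x17049) x17055) x10495)
    (Nat.sub (Nat.sub (Nat.add (Nat.add (Nat.add (Nat.add (Nat.add (Nat.add (Nat.add C x12691) x18523) x16579) x16903) x17119) x17047) x17067) x17065) x10505)
    (Nat.sub (Nat.sub (Nat.add (Nat.add (Nat.add (Nat.add (Nat.add (Nat.add (Nat.add (Nat.add C x12693) x18525) x16581) x16905) x17121) x17049) x17073) x17065) (Nat.mul x17067 (nat_lit 3))) x10507)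
    (Nat.sub (Nat.sub (Nat.add (Nat.add (Nat.add (Nat.add (Nat.add (Nat.add (Nat.add C x12699) x18531) x16587) x16911) x17127) x17055) x17067) x17073) x10513)
    (Nat.add (Nat.add (Nat.add (Nat.add (Nat.add (Nat.add (Nat.add (Nat.add C (Nat.mul x17093 (nat_lit 2))) x12719) x18551) x16607) x16931) x17255) x17039) x17095)
    (Nat.sub (Nat.add (Nat.add (Nat.add (Nat.add (Nat.add (Nat.add (Nat.add (Nat.add (Nat.add (Nat.add C x17095) x12721) x18553) x16609) x16933) x17257) x17041) x17101) x17093) x17097) x10535)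
    (Nat.sub (Nat.sub (Nat.add (Nat.add (Nat.add (Nat.add (Nat.add (Nat.add (Nat.add (Nat.add C x12723) x18555) x16611) x16935) x17259) x17043) x17103) x17095) (Nat.mul x17097 (nat_lit 2))) x10537)
    (Nat.sub (Nat.add (Nat.add (Nat.add (Nat.add (Nat.add (Nat.add (Nat.add (Nat.add (Nat.add C x12727) x18559) x16615) x16939) x17263) x17047) x17119) x17095) x17103) x10541)
    (Nat.sub (Nat.sub (Nat.add (Nat.add (Nat.add (Nat.add (Nat.add (Nat.add (Nat.add (Nat.add (Nat.add (Nat.add C x12729) x18561) x16617) x16941) x17265) x17049) x17121) x17097) x17109) x17101) x17103) x10543)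
    (Nat.sub (Nat.sub (Nat.add (Nat.add (Nat.add (Nat.add (Nat.add (Nat.add (Nat.add (Nat.add C x12735) x18567) x16623) x16947) x17271) x17055) x17127) x17103) (Nat.mul x17109 (nat_lit 2))) x10549)
    (Nat.sub (Nat.add (Nat.add (Nat.add (Nat.add (Nat.add (Nat.add (Nat.add (Nat.add (Nat.add (Nat.add C x17119) x12745) x18577) x16633) x16957) x17281) x17065) x17173) x17101) x17121) x10559)
    (Nat.sub (Nat.sub (Nat.add (Nat.add (Nat.add (Nat.add (Nat.add (Nat.add (Nat.add (Nat.add (Nat.add (Nat.add C x12747) x18579) x16635) x16959) x17283) x17067) x17175) x17103) x17127) x17119) x17121) x10561)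
    (Nat.sub (Nat.add (Nat.add (Nat.add (Nat.add (Nat.add (Nat.add (Nat.add (Nat.add (Nat.add (Nat.add C x12753) x18585) x16641) x16965) x17289) x17073) x17181) x17109) x17145) x17121) x10567)
    (Nat.sub (Nat.add (Nat.add (Nat.add (Nat.add (Nat.add (Nat.add (Nat.add C x12771) x18603) x16659) x16983) x17307) x17199) x17127) x10585)
    (Nat.sub (Nat.add (Nat.add (Nat.add (Nat.add (Nat.add (Nat.add (Nat.add C x17173) x12799) x18631) x16687) x17335) x17119) x17175) x10613)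
    (Nat.sub (Nat.sub (Nat.add (Nat.add (Nat.add (Nat.add (Nat.add (Nat.add (Nat.add C x12801) x18633) x16689) x17337) x17121) x17181) x17173) x17175) x10615)
    (Nat.sub (Nat.sub (Nat.add (Nat.add (Nat.add (Nat.add (Nat.add (Nat.add (Nat.add C x12807) x18639) x16695) x17343) x17127) x17199) x17175) x17181) x10621)
    (Nat.sub (Nat.add (Nat.add (Nat.add (Nat.add (Nat.add (Nat.add (Nat.add C x17199) x12825) x18657) x16713) x17361) x17145) x17181) x10639)
    (Nat.add (Nat.add (Nat.add (Nat.add (Nat.add C (Nat.mul x17255 (nat_lit 3))) x12881) x18713) x17093) x17257)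
    (Nat.sub (Nat.add (Nat.add (Nat.add (Nat.add (Nat.add (Nat.add (Nat.add C (Nat.mul x17257 (nat_lit 2))) x12883) x18715) x17095) x17263) x17255) x17259) x10697)
    (Nat.sub (Nat.sub (Nat.add (Nat.add (Nat.add (Nat.add (Nat.add C x12885) x18717) x17097) x17265) x17257) x17259) x10699)
    (Nat.sub (Nat.add (Nat.add (Nat.add (Nat.add (Nat.add (Nat.add (Nat.add C x17263) x12889) x18721) x17101) x17281) x17257) x17265) x10703)
    (Nat.sub (Nat.add (Nat.add (Nat.add (Nat.add (Nat.add (Nat.add (Nat.add C x12891) x18723) x17103) x17283) x17259) x17271) x17263) x10705)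
    (Nat.sub (Nat.sub (Nat.add (Nat.add (Nat.add (Nat.add (Nat.add C x12897) x18729) x17109) x17289) x17265) x17271) x10711)
    (Nat.sub (Nat.add (Nat.add (Nat.add (Nat.add (Nat.add (Nat.add (Nat.add C x17281) x12907) x18739) x17119) x17335) x17263) x17283) x10721)
    (Nat.sub (Nat.sub (Nat.add (Nat.add (Nat.add (Nat.add (Nat.add (Nat.add (Nat.add C x12909) x18741) x17121) x17337) x17265) x17289) x17281) x17283) x10723)
    (Nat.sub (Nat.add (Nat.add (Nat.add (Nat.add (Nat.add (Nat.add (Nat.add C x12915) x18747) x17127) x17343) x17271) x17307) x17283) x10729)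
    (Nat.sub (Nat.sub (Nat.add (Nat.add (Nat.add (Nat.add (Nat.add C x12933) x18765) x17145) x17361) x17289) x17307) x10747)
    (Nat.sub (Nat.add (Nat.add (Nat.add (Nat.add (Nat.add (Nat.add C (Nat.mul x17335 (nat_lit 3))) x12961) x18793) x17173) x17281) x17337) x10775)
    (Nat.sub (Nat.add (Nat.add (Nat.add (Nat.add (Nat.add (Nat.add (Nat.add C x17337) x12963) x18795) x17175) x17283) x17343) x17335) x10777)
    (Nat.sub (Nat.add (Nat.add (Nat.add (Nat.add (Nat.add (Nat.add (Nat.add C x17343) x12969) x18801) x17181) x17289) x17361) x17337) x10783)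
    (Nat.sub (Nat.add (Nat.add (Nat.add (Nat.add (Nat.add (Nat.add (Nat.add C (Nat.mul x17361 (nat_lit 2))) x12987) x18819) x17199) x17307) x17415) x17343) x10801)
    (Nat.sub (Nat.add (Nat.add (Nat.add (Nat.add C (Nat.mul x17415 (nat_lit 3))) x13041) x18873) x17361) x10855)
    (Nat.add (Nat.add (Nat.add (Nat.add C (Nat.mul x17513 (nat_lit 5))) x16055) x17531) x17519)
    (Nat.add (Nat.add (Nat.add (Nat.add (Nat.add C (Nat.mul x17519 (nat_lit 3))) x16061) x17537) x17513) x17521)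
    (Nat.sub (Nat.add (Nat.add (Nat.add (Nat.add C (Nat.mul x17521 (nat_lit 3))) x16063) x17539) x17519) x10961)
    (Nat.add (Nat.add (Nat.add (Nat.add (Nat.add C (Nat.mul x17531 (nat_lit 3))) x16073) x17585) x17513) x17537)
    (Nat.add (Nat.add (Nat.add (Nat.add (Nat.add (Nat.add (Nat.add (Nat.add C (Nat.mul x17537 (nat_lit 3))) x16079) x17591) x17519) x17555) x17531) x17543) x17539)
    (Nat.sub (Nat.add (Nat.add (Nat.add (Nat.add (Nat.add (Nat.add (Nat.add C (Nat.mul x17539 (nat_lit 2))) x16081) x17593) x17521) x17557) x17545) x17537) x10979)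
    (Nat.add (Nat.add (Nat.add (Nat.add (Nat.add (Nat.add C x17543) x16085) x17597) x17561) x17537) x17545)
    (Nat.sub (Nat.add (Nat.add (Nat.add (Nat.add (Nat.add (Nat.add (Nat.add C (Nat.mul x17545 (nat_lit 2))) x16087) x17599) x17563) x17539) x17543) x17547) x10985)
    (Nat.sub (Nat.add (Nat.add (Nat.add (Nat.add (Nat.add C x17547) x16089) x17601) x17565) x17545) x10987)
    (Nat.add (Nat.add (Nat.add (Nat.add (Nat.add (Nat.add C x17555) x16097) x17609) x17537) x17561) x17557)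
    (Nat.sub (Nat.sub (Nat.add (Nat.add (Nat.add (Nat.add (Nat.add C x16099) x17611) x17539) x17563) x17555) x17557) x10997)
    (Nat.add (Nat.add (Nat.add (Nat.add (Nat.add (Nat.add C x17561) x16103) x17615) x17543) x17555) x17563)
    (Nat.sub (Nat.add (Nat.add (Nat.add (Nat.add (Nat.add (Nat.add (Nat.add (Nat.add C x17563) x16105) x17617) x17545) x17557) x17569) x17561) x17565) x11003)
    (Nat.sub (Nat.sub (Nat.add (Nat.add (Nat.add (Nat.add (Nat.add C x16107) x17619) x17547) x17571) x17563) x17565) x11005)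
    (Nat.sub (Nat.add (Nat.add (Nat.add (Nat.add (Nat.add C x17569) x16111) x17623) x17563) x17571) x11009)
    (Nat.sub (Nat.add (Nat.add (Nat.add (Nat.add (Nat.add C x17571) x16113) x17625) x17565) x17569) x11011)
    (Nat.add (Nat.add (Nat.add (Nat.add (Nat.add C (Nat.mul x17585 (nat_lit 3))) x16127) x17747) x17531) x17591)
    (Nat.add (Nat.add (Nat.add (Nat.add (Nat.add (Nat.add (Nat.add (Nat.add C (Nat.mul x17591 (nat_lit 2))) x16133) x17753) x17537) x17609) x17585) x17597) x17593)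
    (Nat.sub (Nat.add (Nat.add (Nat.add (Nat.add (Nat.add (Nat.add (Nat.add C x17593) x16135) x17755) x17539) x17611) x17599) x17591) x11033)
    (Nat.sub (Nat.add (Nat.add (Nat.add (Nat.add (Nat.add (Nat.add C x16139) x17759) x17543) x17615) x17591) x17599) x17597)
    (Nat.sub (Nat.add (Nat.add (Nat.add (Nat.add (Nat.add (Nat.add (Nat.add C x16141) x17761) x17545) x17617) x17593) x17597) x17601) x11039)
    (Nat.sub (Nat.sub (Nat.add (Nat.add (Nat.add (Nat.add (Nat.add C x16143) x17763) x17547) x17619) x17599) x17601) x11041)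
    (Nat.add (Nat.add (Nat.add (Nat.add (Nat.add (Nat.add (Nat.add (Nat.add C (Nat.mul x17609 (nat_lit 2))) x16151) x17771) x17555) x17663) x17591) x17615) x17611)
    (Nat.sub (Nat.add (Nat.add (Nat.add (Nat.add (Nat.add (Nat.add (Nat.add C x16153) x17773) x17557) x17665) x17593) x17617) x17609) x11051)
    (Nat.add (Nat.add (Nat.add (Nat.add (Nat.add (Nat.add (Nat.add (Nat.add (Nat.add C x17615) x16157) x17777) x17561) x17669) x17597) x17633) x17609) x17617)
    (Nat.sub (Nat.add (Nat.add (Nat.add (Nat.add (Nat.add (Nat.add (Nat.add (Nat.add (Nat.add (Nat.add (Nat.add C x17617) x16159) x17779) x17563) x17671) x17599) x17635) x17611) x17623) x17615) x17619) x11057)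
    (Nat.sub (Nat.sub (Nat.add (Nat.add (Nat.add (Nat.add (Nat.add (Nat.add (Nat.add (Nat.add C x16161) x17781) x17565) x17673) x17601) x17637) x17625) x17617) x17619) x11059)
    (Nat.sub (Nat.add (Nat.add (Nat.add (Nat.add (Nat.add (Nat.add (Nat.add C x16165) x17785) x17569) x17677) x17641) x17617) x17625) x11063)
    (Nat.sub (Nat.add (Nat.add (Nat.add (Nat.add (Nat.add (Nat.add (Nat.add C x16167) x17787) x17571) x17679) x17643) x17619) x17623) x11065)
    (Nat.add (Nat.add (Nat.add (Nat.add (Nat.add (Nat.add C x17633) x16175) x17795) x17687) x17615) x17635)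
    (Nat.sub (Nat.add (Nat.add (Nat.add (Nat.add (Nat.add (Nat.add (Nat.add C x16177) x17797) x17689) x17617) x17641) x17633) x17637) x11075)
    (Nat.sub (Nat.sub (Nat.add (Nat.add (Nat.add (Nat.add (Nat.add (Nat.add C x16179) x17799) x17691) x17619) x17643) x17635) (Nat.mul x17637 (nat_lit 3))) x11077)
    (Nat.sub (Nat.add (Nat.add (Nat.add (Nat.add (Nat.add (Nat.add (Nat.add C x17641) x16183) x17803) x17695) x17623) x17635) x17643) x11081)
    (Nat.sub (Nat.add (Nat.add (Nat.add (Nat.add (Nat.add (Nat.add (Nat.add C x16185) x17805) x17697) x17625) x17637) x17649) x17641) x11083)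
    (Nat.sub (Nat.add (Nat.add (Nat.add (Nat.add (Nat.add C x17649) x16191) x17811) x17703) x17643) x11089)
    (Nat.add (Nat.add (Nat.add (Nat.add (Nat.add (Nat.add C x17663) x16205) x17825) x17609) x17669) x17665)
    (Nat.sub (Nat.sub (Nat.add (Nat.add (Nat.add (Nat.add (Nat.add C x16207) x17827) x17611) x17671) x17663) x17665) x11105)
    (Nat.sub (Nat.add (Nat.add (Nat.add (Nat.add (Nat.add (Nat.add C x16211) x17831) x17615) x17687) x17663) x17671) x17669)
    (Nat.sub (Nat.sub (Nat.add (Nat.add (Nat.add (Nat.add (Nat.add (Nat.add (Nat.add (Nat.add C x16213) x17833) x17617) x17689) x17665) x17677) x17669) x17673) x17671) x11111)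
    (Nat.sub (Nat.sub (Nat.add (Nat.add (Nat.add (Nat.add (Nat.add (Nat.add C x16215) x17835) x17619) x17691) x17679) x17671) (Nat.mul x17673 (nat_lit 3))) x11113)
    (Nat.sub (Nat.sub (Nat.add (Nat.add (Nat.add (Nat.add (Nat.add (Nat.add C x16219) x17839) x17623) x17695) x17671) x17679) (Nat.mul x17677 (nat_lit 3))) x11117)
    (Nat.sub (Nat.sub (Nat.add (Nat.add (Nat.add (Nat.add (Nat.add (Nat.add C x16221) x17841) x17625) x17697) x17673) x17677) (Nat.mul x17679 (nat_lit 3))) x11119)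
    (Nat.add (Nat.add (Nat.add (Nat.add (Nat.add (Nat.add C x17687) x16229) x17849) x17633) x17669) x17689)
    (Nat.sub (Nat.add (Nat.add (Nat.add (Nat.add (Nat.add (Nat.add (Nat.add C x16231) x17851) x17635) x17671) x17695) x17687) x17691) x11129)
    (Nat.sub (Nat.sub (Nat.add (Nat.add (Nat.add (Nat.add (Nat.add (Nat.add C x16233) x17853) x17637) x17673) x17697) x17689) (Nat.mul x17691 (nat_lit 3))) x11131)
    (Nat.sub (Nat.add (Nat.add (Nat.add (Nat.add (Nat.add (Nat.add (Nat.add C x16237) x17857) x17641) x17677) x17713) x17689) x17697) x11135)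
    (Nat.sub (Nat.sub (Nat.add (Nat.add (Nat.add (Nat.add (Nat.add (Nat.add (Nat.add (Nat.add C x16239) x17859) x17643) x17679) x17715) x17691) x17703) x17695) x17697) x11137)
    (Nat.sub (Nat.sub (Nat.add (Nat.add (Nat.add (Nat.add (Nat.add C x16245) x17865) x17649) x17721) x17697) x17703) x11143)
    (Nat.sub (Nat.add (Nat.add (Nat.add (Nat.add (Nat.add C x17713) x16255) x17875) x17695) x17715) x11153)
    (Nat.sub (Nat.sub (Nat.add (Nat.add (Nat.add (Nat.add (Nat.add C x16257) x17877) x17697) x17721) x17713) x17715) x11155)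
    (Nat.sub (Nat.add (Nat.add (Nat.add (Nat.add (Nat.add C x17721) x16263) x17883) x17703) x17715) x11161)
    (Nat.add (Nat.add (Nat.add (Nat.add (Nat.add C (Nat.mul x17747 (nat_lit 3))) x16289) x18233) x17585) x17753)
    (Nat.add (Nat.add (Nat.add (Nat.add (Nat.add (Nat.add (Nat.add (Nat.add C (Nat.mul x17753 (nat_lit 2))) x16295) x18239) x17591) x17771) x17747) x17759) x17755)
    (Nat.sub (Nat.add (Nat.add (Nat.add (Nat.add (Nat.add (Nat.add (Nat.add C x17755) x16297) x18241) x17593) x17773) x17761) x17753) x11195)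
    (Nat.sub (Nat.add (Nat.add (Nat.add (Nat.add (Nat.add (Nat.add C x16301) x18245) x17597) x17777) x17753) x17761) x17759)
    (Nat.sub (Nat.add (Nat.add (Nat.add (Nat.add (Nat.add (Nat.add (Nat.add C x16303) x18247) x17599) x17779) x17755) x17759) x17763) x11201)
    (Nat.sub (Nat.sub (Nat.add (Nat.add (Nat.add (Nat.add (Nat.add C x16305) x18249) x17601) x17781) x17761) x17763) x11203)
    (Nat.add (Nat.add (Nat.add (Nat.add (Nat.add (Nat.add (Nat.add (Nat.add C x17771) x16313) x18257) x17609) x17825) x17753) x17777) x17773)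
    (Nat.sub (Nat.sub (Nat.add (Nat.add (Nat.add (Nat.add (Nat.add (Nat.add (Nat.add C x16315) x18259) x17611) x17827) x17755) x17779) x17771) x17773) x11213)
    (Nat.add (Nat.add (Nat.add (Nat.add (Nat.add (Nat.add (Nat.add (Nat.add C x16319) x18263) x17615) x17831) x17759) x17795) x17771) x17779)
    (Nat.sub (Nat.add (Nat.add (Nat.add (Nat.add (Nat.add (Nat.add (Nat.add (Nat.add (Nat.add (Nat.add C x16321) x18265) x17617) x17833) x17761) x17797) x17773) x17785) x17777) x17781) x11219)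
    (Nat.sub (Nat.sub (Nat.add (Nat.add (Nat.add (Nat.add (Nat.add (Nat.add (Nat.add (Nat.add C x16323) x18267) x17619) x17835) x17763) x17799) x17787) x17779) (Nat.mul x17781 (nat_lit 2))) x11221)
    (Nat.sub (Nat.sub (Nat.add (Nat.add (Nat.add (Nat.add (Nat.add (Nat.add (Nat.add C x16327) x18271) x17623) x17839) x17803) x17779) x17787) x17785) x11225)
    (Nat.sub (Nat.sub (Nat.add (Nat.add (Nat.add (Nat.add (Nat.add (Nat.add (Nat.add C x16329) x18273) x17625) x17841) x17805) x17781) x17785) x17787) x11227)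
    (Nat.sub (Nat.add (Nat.add (Nat.add (Nat.add (Nat.add (Nat.add C x16337) x18281) x17633) x17849) x17777) x17797) x17795)
    (Nat.sub (Nat.sub (Nat.add (Nat.add (Nat.add (Nat.add (Nat.add (Nat.add (Nat.add (Nat.add C x16339) x18283) x17635) x17851) x17779) x17803) x17795) x17799) (Nat.mul x17797 (nat_lit 2))) x11237)
    (Nat.sub (Nat.sub (Nat.add (Nat.add (Nat.add (Nat.add (Nat.add (Nat.add (Nat.add C x16341) x18285) x17637) x17853) x17781) x17805) x17797) (Nat.mul x17799 (nat_lit 5))) x11239)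
    (Nat.sub (Nat.sub (Nat.add (Nat.add (Nat.add (Nat.add (Nat.add (Nat.add (Nat.add C x16345) x18289) x17641) x17857) x17785) x17797) x17805) x17803) x11243)
    (Nat.sub (Nat.sub (Nat.add (Nat.add (Nat.add (Nat.add (Nat.add (Nat.add (Nat.add (Nat.add C x16347) x18291) x17643) x17859) x17787) x17799) x17811) x17803) (Nat.mul x17805 (nat_lit 2))) x11245)
    (Nat.sub (Nat.sub (Nat.add (Nat.add (Nat.add (Nat.add (Nat.add C x16353) x18297) x17649) x17865) x17805) x17811) x11251)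
    (Nat.add (Nat.add (Nat.add (Nat.add (Nat.add (Nat.add (Nat.add (Nat.add C (Nat.mul x17825 (nat_lit 2))) x16367) x18311) x17663) x17987) x17771) x17831) x17827)
    (Nat.sub (Nat.add (Nat.add (Nat.add (Nat.add (Nat.add (Nat.add (Nat.add C x16369) x18313) x17665) x17989) x17773) x17833) x17825) x11267)
    (Nat.add (Nat.add (Nat.add (Nat.add (Nat.add (Nat.add (Nat.add (Nat.add C x16373) x18317) x17669) x17993) x17777) x17849) x17825) x17833)
    (Nat.sub (Nat.add (Nat.add (Nat.add (Nat.add (Nat.add (Nat.add (Nat.add (Nat.add (Nat.add (Nat.add C x16375) x18319) x17671) x17995) x17779) x17851) x17827) x17839) x17831) x17835) x11273)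
    (Nat.sub (Nat.sub (Nat.add (Nat.add (Nat.add (Nat.add (Nat.add (Nat.add (Nat.add (Nat.add C x16377) x18321) x17673) x17997) x17781) x17853) x17841) x17833) (Nat.mul x17835 (nat_lit 2))) x11275)
    (Nat.sub (Nat.sub (Nat.add (Nat.add (Nat.add (Nat.add (Nat.add (Nat.add (Nat.add (Nat.add C x16381) x18325) x17677) x18001) x17785) x17857) x17833) x17841) (Nat.mul x17839 (nat_lit 2))) x11279)
    (Nat.sub (Nat.sub (Nat.add (Nat.add (Nat.add (Nat.add (Nat.add (Nat.add (Nat.add (Nat.add C x16383) x18327) x17679) x18003) x17787) x17859) x17835) x17839) (Nat.mul x17841 (nat_lit 2))) x11281)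
    (Nat.add (Nat.add (Nat.add (Nat.add (Nat.add (Nat.add (Nat.add (Nat.add (Nat.add C x17849) x16391) x18335) x17687) x18011) x17795) x17903) x17831) x17851)
    (Nat.sub (Nat.add (Nat.add (Nat.add (Nat.add (Nat.add (Nat.add (Nat.add (Nat.add (Nat.add (Nat.add C x16393) x18337) x17689) x18013) x17797) x17905) x17833) x17857) x17849) x17853) x11291)
    (Nat.sub (Nat.sub (Nat.add (Nat.add (Nat.add (Nat.add (Nat.add (Nat.add (Nat.add (Nat.add (Nat.add C x16395) x18339) x17691) x18015) x17799) x17907) x17835) x17859) x17851) (Nat.mul x17853 (nat_lit 3))) x11293)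
    (Nat.sub (Nat.add (Nat.add (Nat.add (Nat.add (Nat.add (Nat.add (Nat.add (Nat.add (Nat.add (Nat.add C x16399) x18343) x17695) x18019) x17803) x17911) x17839) x17875) x17851) x17859) x11297)
    (Nat.sub (Nat.sub (Nat.add (Nat.add (Nat.add (Nat.add (Nat.add (Nat.add (Nat.add (Nat.add (Nat.add (Nat.add (Nat.add C x16401) x18345) x17697) x18021) x17805) x17913) x17841) x17877) x17853) x17865) x17857) x17859) x11299)
    (Nat.sub (Nat.sub (Nat.add (Nat.add (Nat.add (Nat.add (Nat.add (Nat.add (Nat.add (Nat.add C x16407) x18351) x17703) x18027) x17811) x17919) x17883) x17859) x17865) x11305)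
    (Nat.sub (Nat.add (Nat.add (Nat.add (Nat.add (Nat.add (Nat.add (Nat.add C x16417) x18361) x17713) x18037) x17929) x17857) x17877) x11315)
    (Nat.sub (Nat.sub (Nat.add (Nat.add (Nat.add (Nat.add (Nat.add (Nat.add (Nat.add (Nat.add C x16419) x18363) x17715) x18039) x17931) x17859) x17883) x17875) (Nat.mul x17877 (nat_lit 2))) x11317)
    (Nat.sub (Nat.add (Nat.add (Nat.add (Nat.add (Nat.add (Nat.add (Nat.add C x16425) x18369) x17721) x18045) x17937) x17865) x17877) x11323)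
    (Nat.add (Nat.add (Nat.add (Nat.add (Nat.add (Nat.add C x17903) x16445) x18389) x18065) x17849) x17905)
    (Nat.sub (Nat.add (Nat.add (Nat.add (Nat.add (Nat.add (Nat.add (Nat.add C x16447) x18391) x18067) x17851) x17911) x17903) x17907) x11345)
    (Nat.sub (Nat.sub (Nat.add (Nat.add (Nat.add (Nat.add (Nat.add (Nat.add C x16449) x18393) x18069) x17853) x17913) x17905) (Nat.mul x17907 (nat_lit 3))) x11347)
    (Nat.sub (Nat.sub (Nat.add (Nat.add (Nat.add (Nat.add (Nat.add (Nat.add (Nat.add C x16453) x18397) x18073) x17857) x17929) x17905) x17913) x17911) x11351)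
    (Nat.sub (Nat.sub (Nat.add (Nat.add (Nat.add (Nat.add (Nat.add (Nat.add (Nat.add (Nat.add C x16455) x18399) x18075) x17859) x17931) x17907) x17919) x17911) (Nat.mul x17913 (nat_lit 2))) x11353)
    (Nat.sub (Nat.sub (Nat.add (Nat.add (Nat.add (Nat.add (Nat.add (Nat.add C x16461) x18405) x18081) x17865) x17937) x17913) (Nat.mul x17919 (nat_lit 3))) x11359)
    (Nat.sub (Nat.add (Nat.add (Nat.add (Nat.add (Nat.add (Nat.add (Nat.add C x17929) x16471) x18415) x18091) x17875) x17911) x17931) x11369)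
    (Nat.sub (Nat.sub (Nat.add (Nat.add (Nat.add (Nat.add (Nat.add (Nat.add (Nat.add C x16473) x18417) x18093) x17877) x17913) x17937) x17929) x17931) x11371)
    (Nat.sub (Nat.add (Nat.add (Nat.add (Nat.add (Nat.add (Nat.add (Nat.add C x16479) x18423) x18099) x17883) x17919) x17955) x17931) x11377)
    (Nat.sub (Nat.add (Nat.add (Nat.add (Nat.add (Nat.add C x17955) x16497) x18441) x18117) x17937) x11395)
    (Nat.add (Nat.add (Nat.add (Nat.add (Nat.add (Nat.add C x17987) x16529) x18473) x17825) x17993) x17989)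
    (Nat.sub (Nat.sub (Nat.add (Nat.add (Nat.add (Nat.add (Nat.add C x16531) x18475) x17827) x17995) x17987) x17989) x11429)
    (Nat.sub (Nat.add (Nat.add (Nat.add (Nat.add (Nat.add (Nat.add C x16535) x18479) x17831) x18011) x17987) x17995) x17993)
    (Nat.sub (Nat.sub (Nat.add (Nat.add (Nat.add (Nat.add (Nat.add (Nat.add (Nat.add (Nat.add C x16537) x18481) x17833) x18013) x17989) x18001) x17993) x17997) x17995) x11435)
    (Nat.sub (Nat.sub (Nat.add (Nat.add (Nat.add (Nat.add (Nat.add (Nat.add C x16539) x18483) x17835) x18015) x18003) x17995) (Nat.mul x17997 (nat_lit 3))) x11437)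
    (Nat.sub (Nat.sub (Nat.add (Nat.add (Nat.add (Nat.add (Nat.add (Nat.add C x16543) x18487) x17839) x18019) x17995) x18003) (Nat.mul x18001 (nat_lit 3))) x11441)
    (Nat.sub (Nat.sub (Nat.add (Nat.add (Nat.add (Nat.add (Nat.add (Nat.add C x16545) x18489) x17841) x18021) x17997) x18001) (Nat.mul x18003 (nat_lit 3))) x11443)
    (Nat.sub (Nat.add (Nat.add (Nat.add (Nat.add (Nat.add (Nat.add C x16553) x18497) x17849) x18065) x17993) x18013) x18011)
    (Nat.sub (Nat.sub (Nat.add (Nat.add (Nat.add (Nat.add (Nat.add (Nat.add (Nat.add (Nat.add C x16555) x18499) x17851) x18067) x17995) x18019) x18011) x18015) (Nat.mul x18013 (nat_lit 2))) x11453)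
    (Nat.sub (Nat.sub (Nat.add (Nat.add (Nat.add (Nat.add (Nat.add (Nat.add (Nat.add C x16557) x18501) x17853) x18069) x17997) x18021) x18013) (Nat.mul x18015 (nat_lit 5))) x11455)
    (Nat.sub (Nat.sub (Nat.add (Nat.add (Nat.add (Nat.add (Nat.add (Nat.add (Nat.add (Nat.add C x16561) x18505) x17857) x18073) x18001) x18037) x18013) x18021) (Nat.mul x18019 (nat_lit 2))) x11459)
    (Nat.sub (Nat.sub (Nat.add (Nat.add (Nat.add (Nat.add (Nat.add (Nat.add (Nat.add (Nat.add (Nat.add C x16563) x18507) x17859) x18075) x18003) x18039) x18015) x18027) x18019) (Nat.mul x18021 (nat_lit 3))) x11461)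
    (Nat.sub (Nat.sub (Nat.add (Nat.add (Nat.add (Nat.add (Nat.add (Nat.add C x16569) x18513) x17865) x18081) x18045) x18021) (Nat.mul x18027 (nat_lit 3))) x11467)
    (Nat.sub (Nat.sub (Nat.add (Nat.add (Nat.add (Nat.add (Nat.add (Nat.add C x16579) x18523) x17875) x18091) x18019) x18039) (Nat.mul x18037 (nat_lit 3))) x11477)
    (Nat.sub (Nat.sub (Nat.add (Nat.add (Nat.add (Nat.add (Nat.add (Nat.add (Nat.add C x16581) x18525) x17877) x18093) x18021) x18045) x18037) (Nat.mul x18039 (nat_lit 5))) x11479)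
    (Nat.sub (Nat.sub (Nat.add (Nat.add (Nat.add (Nat.add (Nat.add (Nat.add C x16587) x18531) x17883) x18099) x18027) x18039) (Nat.mul x18045 (nat_lit 3))) x11485)
    (Nat.add (Nat.add (Nat.add (Nat.add (Nat.add (Nat.add C x18065) x16607) x18551) x17903) x18011) x18067)
    (Nat.sub (Nat.add (Nat.add (Nat.add (Nat.add (Nat.add (Nat.add (Nat.add C x16609) x18553) x17905) x18013) x18073) x18065) x18069) x11507)
    (Nat.sub (Nat.sub (Nat.add (Nat.add (Nat.add (Nat.add (Nat.add (Nat.add C x16611) x18555) x17907) x18015) x18075) x18067) (Nat.mul x18069 (nat_lit 3))) x11509)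
    (Nat.sub (Nat.sub (Nat.add (Nat.add (Nat.add (Nat.add (Nat.add (Nat.add (Nat.add C x16615) x18559) x17911) x18019) x18091) x18067) x18075) x18073) x11513)
    (Nat.sub (Nat.sub (Nat.add (Nat.add (Nat.add (Nat.add (Nat.add (Nat.add (Nat.add (Nat.add C x16617) x18561) x17913) x18021) x18093) x18069) x18081) x18073) (Nat.mul x18075 (nat_lit 2))) x11515)
    (Nat.sub (Nat.sub (Nat.add (Nat.add (Nat.add (Nat.add (Nat.add (Nat.add C x16623) x18567) x17919) x18027) x18099) x18075) (Nat.mul x18081 (nat_lit 3))) x11521)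
    (Nat.sub (Nat.add (Nat.add (Nat.add (Nat.add (Nat.add (Nat.add (Nat.add C x16633) x18577) x17929) x18037) x18145) x18073) x18093) x11531)
    (Nat.sub (Nat.sub (Nat.add (Nat.add (Nat.add (Nat.add (Nat.add (Nat.add (Nat.add (Nat.add C x16635) x18579) x17931) x18039) x18147) x18075) x18099) x18091) (Nat.mul x18093 (nat_lit 2))) x11533)
    (Nat.sub (Nat.sub (Nat.add (Nat.add (Nat.add (Nat.add (Nat.add (Nat.add (Nat.add (Nat.add C x16641) x18585) x17937) x18045) x18153) x18081) x18117) x18093) x18099) x11539)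
    (Nat.sub (Nat.sub (Nat.add (Nat.add (Nat.add (Nat.add (Nat.add C x16659) x18603) x17955) x18171) x18099) x18117) x11557)
    (Nat.sub (Nat.add (Nat.add (Nat.add (Nat.add (Nat.add C x18145) x16687) x18631) x18091) x18147) x11585)
    (Nat.sub (Nat.sub (Nat.add (Nat.add (Nat.add (Nat.add (Nat.add C x16689) x18633) x18093) x18153) x18145) x18147) x11587)
    (Nat.sub (Nat.sub (Nat.add (Nat.add (Nat.add (Nat.add (Nat.add C x16695) x18639) x18099) x18171) x18147) x18153) x11593)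
    (Nat.sub (Nat.add (Nat.add (Nat.add (Nat.add (Nat.add C x18171) x16713) x18657) x18117) x18153) x11611)
    (Nat.add (Nat.add (Nat.add (Nat.add C (Nat.mul x18233 (nat_lit 5))) x16775) x17747) x18239)
    (Nat.add (Nat.add (Nat.add (Nat.add (Nat.add (Nat.add (Nat.add C (Nat.mul x18239 (nat_lit 4))) x16781) x17753) x18257) x18233) x18245) x18241)
    (Nat.sub (Nat.add (Nat.add (Nat.add (Nat.add (Nat.add (Nat.add C (Nat.mul x18241 (nat_lit 3))) x16783) x17755) x18259) x18247) x18239) x11681)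
    (Nat.add (Nat.add (Nat.add (Nat.add (Nat.add (Nat.add C x18245) x16787) x17759) x18263) x18239) x18247)
    (Nat.sub (Nat.add (Nat.add (Nat.add (Nat.add (Nat.add (Nat.add (Nat.add C (Nat.mul x18247 (nat_lit 2))) x16789) x17761) x18265) x18241) x18245) x18249) x11687)
    (Nat.sub (Nat.add (Nat.add (Nat.add (Nat.add (Nat.add C x18249) x16791) x17763) x18267) x18247) x11689)
    (Nat.add (Nat.add (Nat.add (Nat.add (Nat.add (Nat.add (Nat.add C (Nat.mul x18257 (nat_lit 3))) x16799) x17771) x18311) x18239) x18263) x18259)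
    (Nat.sub (Nat.add (Nat.add (Nat.add (Nat.add (Nat.add (Nat.add (Nat.add C x18259) x16801) x17773) x18313) x18241) x18265) x18257) x11699)
    (Nat.add (Nat.add (Nat.add (Nat.add (Nat.add (Nat.add (Nat.add (Nat.add C (Nat.mul x18263 (nat_lit 2))) x16805) x17777) x18317) x18245) x18281) x18257) x18265)
    (Nat.sub (Nat.add (Nat.add (Nat.add (Nat.add (Nat.add (Nat.add (Nat.add (Nat.add (Nat.add (Nat.add C (Nat.mul x18265 (nat_lit 2))) x16807) x17779) x18319) x18247) x18283) x18259) x18271) x18263) x18267) x11705)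
    (Nat.sub (Nat.add (Nat.add (Nat.add (Nat.add (Nat.add (Nat.add (Nat.add C x16809) x17781) x18321) x18249) x18285) x18273) x18265) x11707)
    (Nat.sub (Nat.add (Nat.add (Nat.add (Nat.add (Nat.add (Nat.add (Nat.add C x18271) x16813) x17785) x18325) x18289) x18265) x18273) x11711)
    (Nat.sub (Nat.add (Nat.add (Nat.add (Nat.add (Nat.add (Nat.add (Nat.add C x18273) x16815) x17787) x18327) x18291) x18267) x18271) x11713)
    (Nat.add (Nat.add (Nat.add (Nat.add (Nat.add (Nat.add C x18281) x16823) x17795) x18335) x18263) x18283)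
    (Nat.sub (Nat.add (Nat.add (Nat.add (Nat.add (Nat.add (Nat.add (Nat.add C x16825) x17797) x18337) x18265) x18289) x18281) x18285) x11723)
    (Nat.sub (Nat.sub (Nat.add (Nat.add (Nat.add (Nat.add (Nat.add (Nat.add C x16827) x17799) x18339) x18267) x18291) x18283) (Nat.mul x18285 (nat_lit 3))) x11725)
    (Nat.sub (Nat.add (Nat.add (Nat.add (Nat.add (Nat.add (Nat.add (Nat.add C x18289) x16831) x17803) x18343) x18271) x18283) x18291) x11729)
    (Nat.sub (Nat.add (Nat.add (Nat.add (Nat.add (Nat.add (Nat.add (Nat.add C x16833) x17805) x18345) x18273) x18285) x18297) x18289) x11731)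
    (Nat.sub (Nat.add (Nat.add (Nat.add (Nat.add (Nat.add C x18297) x16839) x17811) x18351) x18291) x11737)
    (Nat.add (Nat.add (Nat.add (Nat.add (Nat.add (Nat.add (Nat.add C (Nat.mul x18311 (nat_lit 3))) x16853) x17825) x18473) x18257) x18317) x18313)
    (Nat.sub (Nat.add (Nat.add (Nat.add (Nat.add (Nat.add (Nat.add (Nat.add C x18313) x16855) x17827) x18475) x18259) x18319) x18311) x11753)
    (Nat.add (Nat.add (Nat.add (Nat.add (Nat.add (Nat.add (Nat.add (Nat.add C x18317) x16859) x17831) x18479) x18263) x18335) x18311) x18319)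
    (Nat.sub (Nat.add (Nat.add (Nat.add (Nat.add (Nat.add (Nat.add (Nat.add (Nat.add (Nat.add (Nat.add C x18319) x16861) x17833) x18481) x18265) x18337) x18313) x18325) x18317) x18321) x11759)
    (Nat.sub (Nat.sub (Nat.add (Nat.add (Nat.add (Nat.add (Nat.add (Nat.add (Nat.add C x16863) x17835) x18483) x18267) x18339) x18327) x18319) x18321) x11761)
    (Nat.sub (Nat.sub (Nat.add (Nat.add (Nat.add (Nat.add (Nat.add (Nat.add (Nat.add C x16867) x17839) x18487) x18271) x18343) x18319) x18327) x18325) x11765)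
    (Nat.sub (Nat.sub (Nat.add (Nat.add (Nat.add (Nat.add (Nat.add (Nat.add (Nat.add C x16869) x17841) x18489) x18273) x18345) x18321) x18325) x18327) x11767)
    (Nat.add (Nat.add (Nat.add (Nat.add (Nat.add (Nat.add (Nat.add (Nat.add C (Nat.mul x18335 (nat_lit 2))) x16877) x17849) x18497) x18281) x18389) x18317) x18337)
    (Nat.sub (Nat.add (Nat.add (Nat.add (Nat.add (Nat.add (Nat.add (Nat.add (Nat.add (Nat.add (Nat.add C x18337) x16879) x17851) x18499) x18283) x18391) x18319) x18343) x18335) x18339) x11777)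
    (Nat.sub (Nat.sub (Nat.add (Nat.add (Nat.add (Nat.add (Nat.add (Nat.add (Nat.add (Nat.add C x16881) x17853) x18501) x18285) x18393) x18321) x18345) x18337) (Nat.mul x18339 (nat_lit 2))) x11779)
    (Nat.sub (Nat.add (Nat.add (Nat.add (Nat.add (Nat.add (Nat.add (Nat.add (Nat.add (Nat.add (Nat.add C x18343) x16885) x17857) x18505) x18289) x18397) x18325) x18361) x18337) x18345) x11783)
    (Nat.sub (Nat.add (Nat.add (Nat.add (Nat.add (Nat.add (Nat.add (Nat.add (Nat.add (Nat.add (Nat.add C x16887) x17859) x18507) x18291) x18399) x18327) x18363) x18339) x18351) x18343) x11785)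
    (Nat.sub (Nat.add (Nat.add (Nat.add (Nat.add (Nat.add (Nat.add (Nat.add C x16893) x17865) x18513) x18297) x18405) x18369) x18345) x11791)
    (Nat.sub (Nat.add (Nat.add (Nat.add (Nat.add (Nat.add (Nat.add (Nat.add C x18361) x16903) x17875) x18523) x18415) x18343) x18363) x11801)
    (Nat.sub (Nat.sub (Nat.add (Nat.add (Nat.add (Nat.add (Nat.add (Nat.add (Nat.add C x16905) x17877) x18525) x18417) x18345) x18369) x18361) x18363) x11803)
    (Nat.sub (Nat.add (Nat.add (Nat.add (Nat.add (Nat.add (Nat.add (Nat.add C x18369) x16911) x17883) x18531) x18423) x18351) x18363) x11809)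
    (Nat.add (Nat.add (Nat.add (Nat.add (Nat.add (Nat.add C x18389) x16931) x17903) x18551) x18335) x18391)
    (Nat.sub (Nat.add (Nat.add (Nat.add (Nat.add (Nat.add (Nat.add (Nat.add C x16933) x17905) x18553) x18337) x18397) x18389) x18393) x11831)
    (Nat.sub (Nat.sub (Nat.add (Nat.add (Nat.add (Nat.add (Nat.add (Nat.add C x16935) x17907) x18555) x18339) x18399) x18391) (Nat.mul x18393 (nat_lit 3))) x11833)
    (Nat.sub (Nat.sub (Nat.add (Nat.add (Nat.add (Nat.add (Nat.add (Nat.add (Nat.add C x16939) x17911) x18559) x18343) x18415) x18391) x18399) x18397) x11837)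
    (Nat.sub (Nat.sub (Nat.add (Nat.add (Nat.add (Nat.add (Nat.add (Nat.add (Nat.add (Nat.add C x16941) x17913) x18561) x18345) x18417) x18393) x18405) x18397) (Nat.mul x18399 (nat_lit 2))) x11839)
    (Nat.sub (Nat.sub (Nat.add (Nat.add (Nat.add (Nat.add (Nat.add (Nat.add C x16947) x17919) x18567) x18351) x18423) x18399) (Nat.mul x18405 (nat_lit 3))) x11845)
    (Nat.sub (Nat.add (Nat.add (Nat.add (Nat.add (Nat.add (Nat.add (Nat.add C x18415) x16957) x17929) x18577) x18361) x18397) x18417) x11855)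
    (Nat.sub (Nat.sub (Nat.add (Nat.add (Nat.add (Nat.add (Nat.add (Nat.add (Nat.add C x16959) x17931) x18579) x18363) x18399) x18423) x18415) x18417) x11857)
    (Nat.sub (Nat.add (Nat.add (Nat.add (Nat.add (Nat.add (Nat.add (Nat.add C x16965) x17937) x18585) x18369) x18405) x18441) x18417) x11863)
    (Nat.sub (Nat.add (Nat.add (Nat.add (Nat.add (Nat.add C x18441) x16983) x17955) x18603) x18423) x11881)
    (Nat.add (Nat.add (Nat.add (Nat.add (Nat.add (Nat.add (Nat.add C (Nat.mul x18473 (nat_lit 4))) x17015) x17987) x18959) x18311) x18479) x18475)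
    (Nat.sub (Nat.add (Nat.add (Nat.add (Nat.add (Nat.add (Nat.add (Nat.add C (Nat.mul x18475 (nat_lit 2))) x17017) x17989) x18961) x18313) x18481) x18473) x11915)
    (Nat.add (Nat.add (Nat.add (Nat.add (Nat.add (Nat.add (Nat.add (Nat.add C (Nat.mul x18479 (nat_lit 2))) x17021) x17993) x18965) x18317) x18497) x18473) x18481)
    (Nat.sub (Nat.add (Nat.add (Nat.add (Nat.add (Nat.add (Nat.add (Nat.add (Nat.add (Nat.add (Nat.add C (Nat.mul x18481 (nat_lit 2))) x17023) x17995) x18967) x18319) x18499) x18475) x18487) x18479) x18483) x11921)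
    (Nat.sub (Nat.add (Nat.add (Nat.add (Nat.add (Nat.add (Nat.add (Nat.add C x17025) x17997) x18969) x18321) x18501) x18489) x18481) x11923)
    (Nat.sub (Nat.add (Nat.add (Nat.add (Nat.add (Nat.add (Nat.add (Nat.add C x17029) x18001) x18973) x18325) x18505) x18481) x18489) x11927)
    (Nat.sub (Nat.add (Nat.add (Nat.add (Nat.add (Nat.add (Nat.add (Nat.add C x17031) x18003) x18975) x18327) x18507) x18483) x18487) x11929)
    (Nat.add (Nat.add (Nat.add (Nat.add (Nat.add (Nat.add (Nat.add (Nat.add C (Nat.mul x18497 (nat_lit 2))) x17039) x18011) x18983) x18335) x18551) x18479) x18499)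
    (Nat.sub (Nat.add (Nat.add (Nat.add (Nat.add (Nat.add (Nat.add (Nat.add (Nat.add (Nat.add (Nat.add C x18499) x17041) x18013) x18985) x18337) x18553) x18481) x18505) x18497) x18501) x11939)
    (Nat.sub (Nat.sub (Nat.add (Nat.add (Nat.add (Nat.add (Nat.add (Nat.add (Nat.add (Nat.add C x17043) x18015) x18987) x18339) x18555) x18483) x18507) x18499) (Nat.mul x18501 (nat_lit 2))) x11941)
    (Nat.sub (Nat.add (Nat.add (Nat.add (Nat.add (Nat.add (Nat.add (Nat.add (Nat.add (Nat.add (Nat.add C x18505) x17047) x18019) x18991) x18343) x18559) x18487) x18523) x18499) x18507) x11945)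
    (Nat.sub (Nat.add (Nat.add (Nat.add (Nat.add (Nat.add (Nat.add (Nat.add (Nat.add (Nat.add (Nat.add C x17049) x18021) x18993) x18345) x18561) x18489) x18525) x18501) x18513) x18505) x11947)
    (Nat.sub (Nat.add (Nat.add (Nat.add (Nat.add (Nat.add (Nat.add (Nat.add C x17055) x18027) x18999) x18351) x18567) x18531) x18507) x11953)
    (Nat.sub (Nat.add (Nat.add (Nat.add (Nat.add (Nat.add (Nat.add (Nat.add C x17065) x18037) x19009) x18361) x18577) x18505) x18525) x11963)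
    (Nat.sub (Nat.sub (Nat.add (Nat.add (Nat.add (Nat.add (Nat.add (Nat.add (Nat.add (Nat.add C x17067) x18039) x19011) x18363) x18579) x18507) x18531) x18523) (Nat.mul x18525 (nat_lit 2))) x11965)
    (Nat.sub (Nat.add (Nat.add (Nat.add (Nat.add (Nat.add (Nat.add (Nat.add C x17073) x18045) x19017) x18369) x18585) x18513) x18525) x11971)
    (Nat.add (Nat.add (Nat.add (Nat.add (Nat.add (Nat.add (Nat.add (Nat.add C (Nat.mul x18551 (nat_lit 3))) x17093) x18065) x19037) x18389) x18713) x18497) x18553)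
    (Nat.sub (Nat.add (Nat.add (Nat.add (Nat.add (Nat.add (Nat.add (Nat.add (Nat.add (Nat.add (Nat.add C (Nat.mul x18553 (nat_lit 2))) x17095) x18067) x19039) x18391) x18715) x18499) x18559) x18551) x18555) x11993)
    (Nat.sub (Nat.sub (Nat.add (Nat.add (Nat.add (Nat.add (Nat.add (Nat.add (Nat.add (Nat.add C x17097) x18069) x19041) x18393) x18717) x18501) x18561) x18553) x18555) x11995)
    (Nat.sub (Nat.add (Nat.add (Nat.add (Nat.add (Nat.add (Nat.add (Nat.add (Nat.add (Nat.add (Nat.add C x18559) x17101) x18073) x19045) x18397) x18721) x18505) x18577) x18553) x18561) x11999)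
    (Nat.sub (Nat.add (Nat.add (Nat.add (Nat.add (Nat.add (Nat.add (Nat.add (Nat.add (Nat.add (Nat.add C x17103) x18075) x19047) x18399) x18723) x18507) x18579) x18555) x18567) x18559) x12001)
    (Nat.sub (Nat.sub (Nat.add (Nat.add (Nat.add (Nat.add (Nat.add (Nat.add (Nat.add (Nat.add C x17109) x18081) x19053) x18405) x18729) x18513) x18585) x18561) x18567) x12007)
    (Nat.sub (Nat.add (Nat.add (Nat.add (Nat.add (Nat.add (Nat.add (Nat.add (Nat.add (Nat.add (Nat.add C (Nat.mul x18577 (nat_lit 2))) x17119) x18091) x19063) x18415) x18739) x18523) x18631) x18559) x18579) x12017)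
    (Nat.sub (Nat.add (Nat.add (Nat.add (Nat.add (Nat.add (Nat.add (Nat.add (Nat.add (Nat.add (Nat.add C x17121) x18093) x19065) x18417) x18741) x18525) x18633) x18561) x18585) x18577) x12019)
    (Nat.sub (Nat.add (Nat.add (Nat.add (Nat.add (Nat.add (Nat.add (Nat.add (Nat.add (Nat.add (Nat.add (Nat.add C x18585) x17127) x18099) x19071) x18423) x18747) x18531) x18639) x18567) x18603) x18579) x12025)
    (Nat.sub (Nat.add (Nat.add (Nat.add (Nat.add (Nat.add (Nat.add (Nat.add (Nat.add C x18603) x17145) x18117) x19089) x18441) x18765) x18657) x18585) x12043)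
    (Nat.sub (Nat.add (Nat.add (Nat.add (Nat.add (Nat.add (Nat.add (Nat.add C (Nat.mul x18631 (nat_lit 2))) x17173) x18145) x19117) x18793) x18577) x18633) x12071)
    (Nat.sub (Nat.add (Nat.add (Nat.add (Nat.add (Nat.add (Nat.add (Nat.add C x17175) x18147) x19119) x18795) x18579) x18639) x18631) x12073)
    (Nat.sub (Nat.add (Nat.add (Nat.add (Nat.add (Nat.add (Nat.add (Nat.add C x17181) x18153) x19125) x18801) x18585) x18657) x18633) x12079)
    (Nat.sub (Nat.add (Nat.add (Nat.add (Nat.add (Nat.add (Nat.add (Nat.add C (Nat.mul x18657 (nat_lit 2))) x17199) x18171) x19143) x18819) x18603) x18639) x12097)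
    (Nat.add (Nat.add (Nat.add (Nat.add (Nat.add C (Nat.mul x18713 (nat_lit 3))) x17255) x19199) x18551) x18715)
    (Nat.sub (Nat.add (Nat.add (Nat.add (Nat.add (Nat.add (Nat.add (Nat.add C (Nat.mul x18715 (nat_lit 2))) x17257) x19201) x18553) x18721) x18713) x18717) x12155)
    (Nat.sub (Nat.sub (Nat.add (Nat.add (Nat.add (Nat.add (Nat.add C x17259) x19203) x18555) x18723) x18715) x18717) x12157)
    (Nat.sub (Nat.add (Nat.add (Nat.add (Nat.add (Nat.add (Nat.add (Nat.add C x18721) x17263) x19207) x18559) x18739) x18715) x18723) x12161)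
    (Nat.sub (Nat.add (Nat.add (Nat.add (Nat.add (Nat.add (Nat.add (Nat.add C x17265) x19209) x18561) x18741) x18717) x18729) x18721) x12163)
    (Nat.sub (Nat.sub (Nat.add (Nat.add (Nat.add (Nat.add (Nat.add C x17271) x19215) x18567) x18747) x18723) x18729) x12169)
    (Nat.sub (Nat.add (Nat.add (Nat.add (Nat.add (Nat.add (Nat.add (Nat.add C x18739) x17281) x19225) x18577) x18793) x18721) x18741) x12179)
    (Nat.sub (Nat.sub (Nat.add (Nat.add (Nat.add (Nat.add (Nat.add (Nat.add (Nat.add C x17283) x19227) x18579) x18795) x18723) x18747) x18739) x18741) x12181)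
    (Nat.sub (Nat.add (Nat.add (Nat.add (Nat.add (Nat.add (Nat.add (Nat.add C x17289) x19233) x18585) x18801) x18729) x18765) x18741) x12187)
    (Nat.sub (Nat.sub (Nat.add (Nat.add (Nat.add (Nat.add (Nat.add C x17307) x19251) x18603) x18819) x18747) x18765) x12205)
    (Nat.sub (Nat.add (Nat.add (Nat.add (Nat.add (Nat.add (Nat.add C (Nat.mul x18793 (nat_lit 3))) x17335) x19279) x18631) x18739) x18795) x12233)
    (Nat.sub (Nat.add (Nat.add (Nat.add (Nat.add (Nat.add (Nat.add (Nat.add C x18795) x17337) x19281) x18633) x18741) x18801) x18793) x12235)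
    (Nat.sub (Nat.add (Nat.add (Nat.add (Nat.add (Nat.add (Nat.add (Nat.add C x18801) x17343) x19287) x18639) x18747) x18819) x18795) x12241)
    (Nat.sub (Nat.add (Nat.add (Nat.add (Nat.add (Nat.add (Nat.add (Nat.add C (Nat.mul x18819 (nat_lit 2))) x17361) x19305) x18657) x18765) x18873) x18801) x12259)
    (Nat.sub (Nat.add (Nat.add (Nat.add (Nat.add C (Nat.mul x18873 (nat_lit 3))) x17415) x19359) x18819) x12313)
    (Nat.add (Nat.add (Nat.add (Nat.add C (Nat.mul x18959 (nat_lit 5))) x18473) x18965) x18961)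
    (Nat.sub (Nat.add (Nat.add (Nat.add (Nat.add C (Nat.mul x18961 (nat_lit 3))) x18475) x18967) x18959) x12401)
    (Nat.add (Nat.add (Nat.add (Nat.add (Nat.add C (Nat.mul x18965 (nat_lit 3))) x18479) x18983) x18959) x18967)
    (Nat.sub (Nat.add (Nat.add (Nat.add (Nat.add (Nat.add (Nat.add (Nat.add C (Nat.mul x18967 (nat_lit 3))) x18481) x18985) x18961) x18973) x18965) x18969) x12407)
    (Nat.sub (Nat.add (Nat.add (Nat.add (Nat.add (Nat.add C x18969) x18483) x18987) x18975) x18967) x12409)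
    (Nat.sub (Nat.add (Nat.add (Nat.add (Nat.add (Nat.add C x18973) x18487) x18991) x18967) x18975) x12413)
    (Nat.sub (Nat.add (Nat.add (Nat.add (Nat.add (Nat.add C x18975) x18489) x18993) x18969) x18973) x12415)
    (Nat.add (Nat.add (Nat.add (Nat.add (Nat.add C (Nat.mul x18983 (nat_lit 3))) x18497) x19037) x18965) x18985)
    (Nat.sub (Nat.add (Nat.add (Nat.add (Nat.add (Nat.add (Nat.add (Nat.add C (Nat.mul x18985 (nat_lit 2))) x18499) x19039) x18967) x18991) x18983) x18987) x12425)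
    (Nat.sub (Nat.sub (Nat.add (Nat.add (Nat.add (Nat.add (Nat.add C x18501) x19041) x18969) x18993) x18985) x18987) x12427)
    (Nat.sub (Nat.add (Nat.add (Nat.add (Nat.add (Nat.add (Nat.add (Nat.add C (Nat.mul x18991 (nat_lit 2))) x18505) x19045) x18973) x19009) x18985) x18993) x12431)
    (Nat.sub (Nat.add (Nat.add (Nat.add (Nat.add (Nat.add (Nat.add (Nat.add (Nat.add C x18993) x18507) x19047) x18975) x19011) x18987) x18999) x18991) x12433)
    (Nat.sub (Nat.add (Nat.add (Nat.add (Nat.add (Nat.add C x18999) x18513) x19053) x19017) x18993) x12439)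
    (Nat.sub (Nat.add (Nat.add (Nat.add (Nat.add (Nat.add C x19009) x18523) x19063) x18991) x19011) x12449)
    (Nat.sub (Nat.sub (Nat.add (Nat.add (Nat.add (Nat.add (Nat.add C x18525) x19065) x18993) x19017) x19009) x19011) x12451)
    (Nat.sub (Nat.add (Nat.add (Nat.add (Nat.add (Nat.add C x19017) x18531) x19071) x18999) x19011) x12457)
    (Nat.add (Nat.add (Nat.add (Nat.add (Nat.add C (Nat.mul x19037 (nat_lit 3))) x18551) x19199) x18983) x19039)
    (Nat.sub (Nat.add (Nat.add (Nat.add (Nat.add (Nat.add (Nat.add (Nat.add C (Nat.mul x19039 (nat_lit 2))) x18553) x19201) x18985) x19045) x19037) x19041) x12479)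
    (Nat.sub (Nat.sub (Nat.add (Nat.add (Nat.add (Nat.add (Nat.add C x18555) x19203) x18987) x19047) x19039) x19041) x12481)
    (Nat.sub (Nat.add (Nat.add (Nat.add (Nat.add (Nat.add (Nat.add (Nat.add C x19045) x18559) x19207) x18991) x19063) x19039) x19047) x12485)
    (Nat.sub (Nat.add (Nat.add (Nat.add (Nat.add (Nat.add (Nat.add (Nat.add C x18561) x19209) x18993) x19065) x19041) x19053) x19045) x12487)
    (Nat.sub (Nat.sub (Nat.add (Nat.add (Nat.add (Nat.add (Nat.add C x18567) x19215) x18999) x19071) x19047) x19053) x12493)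
    (Nat.sub (Nat.add (Nat.add (Nat.add (Nat.add (Nat.add (Nat.add (Nat.add C (Nat.mul x19063 (nat_lit 2))) x18577) x19225) x19009) x19117) x19045) x19065) x12503)
    (Nat.sub (Nat.add (Nat.add (Nat.add (Nat.add (Nat.add (Nat.add (Nat.add C x18579) x19227) x19011) x19119) x19047) x19071) x19063) x12505)
    (Nat.sub (Nat.add (Nat.add (Nat.add (Nat.add (Nat.add (Nat.add (Nat.add (Nat.add C x19071) x18585) x19233) x19017) x19125) x19053) x19089) x19065) x12511)
    (Nat.sub (Nat.add (Nat.add (Nat.add (Nat.add (Nat.add C x19089) x18603) x19251) x19143) x19071) x12529)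
    (Nat.sub (Nat.add (Nat.add (Nat.add (Nat.add (Nat.add C x19117) x18631) x19279) x19063) x19119) x12557)
    (Nat.sub (Nat.sub (Nat.add (Nat.add (Nat.add (Nat.add (Nat.add C x18633) x19281) x19065) x19125) x19117) x19119) x12559)
    (Nat.sub (Nat.sub (Nat.add (Nat.add (Nat.add (Nat.add (Nat.add C x18639) x19287) x19071) x19143) x19119) x19125) x12565)
    (Nat.sub (Nat.add (Nat.add (Nat.add (Nat.add (Nat.add C x19143) x18657) x19305) x19089) x19125) x12583)
    (Nat.add (Nat.add (Nat.add (Nat.add C (Nat.mul x19199 (nat_lit 5))) x18713) x19037) x19201)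
    (Nat.sub (Nat.add (Nat.add (Nat.add (Nat.add (Nat.add (Nat.add C (Nat.mul x19201 (nat_lit 4))) x18715) x19039) x19207) x19199) x19203) x12641)
    (Nat.sub (Nat.add (Nat.add (Nat.add (Nat.add (Nat.add C x19203) x18717) x19041) x19209) x19201) x12643)
    (Nat.sub (Nat.add (Nat.add (Nat.add (Nat.add (Nat.add (Nat.add C (Nat.mul x19207 (nat_lit 3))) x18721) x19045) x19225) x19201) x19209) x12647)
    (Nat.sub (Nat.add (Nat.add (Nat.add (Nat.add (Nat.add (Nat.add (Nat.add C (Nat.mul x19209 (nat_lit 2))) x18723) x19047) x19227) x19203) x19215) x19207) x12649)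
    (Nat.sub (Nat.add (Nat.add (Nat.add (Nat.add (Nat.add C x19215) x18729) x19053) x19233) x19209) x12655)
    (Nat.sub (Nat.add (Nat.add (Nat.add (Nat.add (Nat.add (Nat.add C (Nat.mul x19225 (nat_lit 3))) x18739) x19063) x19279) x19207) x19227) x12665)
    (Nat.sub (Nat.add (Nat.add (Nat.add (Nat.add (Nat.add (Nat.add (Nat.add C x19227) x18741) x19065) x19281) x19209) x19233) x19225) x12667)
    (Nat.sub (Nat.add (Nat.add (Nat.add (Nat.add (Nat.add (Nat.add (Nat.add C (Nat.mul x19233 (nat_lit 2))) x18747) x19071) x19287) x19215) x19251) x19227) x12673)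
    (Nat.sub (Nat.add (Nat.add (Nat.add (Nat.add (Nat.add C x19251) x18765) x19089) x19305) x19233) x12691)
    (Nat.sub (Nat.add (Nat.add (Nat.add (Nat.add (Nat.add (Nat.add C (Nat.mul x19279 (nat_lit 4))) x18793) x19117) x19441) x19225) x19281) x12719)
    (Nat.sub (Nat.add (Nat.add (Nat.add (Nat.add (Nat.add (Nat.add (Nat.add C (Nat.mul x19281 (nat_lit 2))) x18795) x19119) x19443) x19227) x19287) x19279) x12721)
    (Nat.sub (Nat.add (Nat.add (Nat.add (Nat.add (Nat.add (Nat.add (Nat.add C (Nat.mul x19287 (nat_lit 2))) x18801) x19125) x19449) x19233) x19305) x19281) x12727)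
    (Nat.sub (Nat.add (Nat.add (Nat.add (Nat.add (Nat.add (Nat.add (Nat.add C (Nat.mul x19305 (nat_lit 3))) x18819) x19143) x19467) x19251) x19359) x19287) x12745)
    (Nat.sub (Nat.add (Nat.add (Nat.add (Nat.add C (Nat.mul x19359 (nat_lit 3))) x18873) x19521) x19305) x12799)
    (Nat.sub (Nat.add (Nat.add (Nat.add C (Nat.mul x19441 (nat_lit 5))) x19279) x19443) x12881)
    (Nat.sub (Nat.add (Nat.add (Nat.add (Nat.add C (Nat.mul x19443 (nat_lit 3))) x19281) x19449) x19441) x12883)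
    (Nat.sub (Nat.add (Nat.add (Nat.add (Nat.add C (Nat.mul x19449 (nat_lit 3))) x19287) x19467) x19443) x12889)
    (Nat.sub (Nat.add (Nat.add (Nat.add (Nat.add C (Nat.mul x19467 (nat_lit 3))) x19305) x19521) x19449) x12907)
    (Nat.sub (Nat.add (Nat.add (Nat.add C (Nat.mul x19521 (nat_lit 5))) x19359) x19467) x12961)

theorem ap_eq (x : Nat → Nat) (k : FnLL specs) : apLL (fun t => x t.cd) specs k = A9_9.ap x k :=
  Eq.refl (A9_9.ap x k)

theorem step_eq0 (e : Nat → Nat) (C p r : Nat) (k : FnLL specs) (x : Nat → Nat) :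
    A9_9.ap x (step e C p r k) = apLL (interp e C p r x) specs k :=
  Eq.refl (A9_9.ap x (step e C p r k))

theorem spec_ok : specOK 8 true A9_9.mask specs = true := by decide +kernel

theorem step_eq (e : Nat → Nat) (C p r : Nat) (k : A9_9.KK) (x : Nat → Nat) :
    A9_9.ap x (step e C p r k) = A9_9.ap (row 8 true A9_9.mask e C p r x) k :=
  ((step_eq0 e C p r k x).trans (apLL_row 8 true A9_9.mask specs spec_ok e C p r x k)).trans
    (ap_eq (row 8 true A9_9.mask e C p r x) k)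

end Vale.Agent.P348.G9_9_1
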