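import Vale.Agent.P348.G.AS10

set_option maxRecDepth 1000000
set_option maxHeartbeats 0
set_option linter.all false

namespace Vale.Agent.P348.G10_0_1

noncomputable def sp0 : List Spec :=
  [Spec.mk (nat_lit 0) (nat_lit 10) [] (nat_lit 0) [] true]

noncomputable def specs : List (List Spec) :=
    sp0 :: []

noncomputable def step (e : Nat → Nat) (C ap an : Nat) (k :
    Nat → Bool)
  (
    x0 : Nat) : Bool :=
  k
    (Nat.sub (Nat.add (Nat.add C (Nat.mul x0 (nat_lit 10))) (Nat.mul (e (nat_lit 0)) ap)) (Nat.mul (e (nat_lit 0)) an))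

theorem ap_eq (x : Nat → Nat) (k : FnLL specs) : apLL (fun t => x t.cd) specs k = A10_0.ap x k :=
  Eq.refl (A10_0.ap x k)

theorem step_eq0 (e : Nat → Nat) (C p r : Nat) (k : FnLL specs) (x : Nat → Nat) :
    A10_0.ap x (step e C p r k) = apLL (interp e C p r x) specs k :=
  Eq.refl (A10_0.ap x (step e C p r k))

theorem spec_ok : specOK 9 true A10_0.mask specs = true := by decide +kernel

theorem step_eq (e : Nat → Nat) (C p r : Nat) (k : A10_0.KK) (x : Nat → Nat) :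
    A10_0.ap x (step e C p r k) = A10_0.ap (row 9 true A10_0.mask e C p r x) k :=
  ((step_eq0 e C p r k x).trans (apLL_row 9 true A10_0.mask specs spec_ok e C p r x k)).trans
    (ap_eq (row 9 true A10_0.mask e C p r x) k)

end Vale.Agent.P348.G10_0_1

namespace Vale.Agent.P348.G10_1_1

noncomputable def sp0 : List Spec :=
  [Spec.mk (nat_lit 1) (nat_lit 8) [nat_lit 3] (nat_lit 0) [nat_lit 19683] true,
   Spec.mk (nat_lit 3) (nat_lit 8) [nat_lit 9, nat_lit 1] (nat_lit 0) [] false,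
   Spec.mk (nat_lit 9) (nat_lit 8) [nat_lit 27, nat_lit 3] (nat_lit 0) [] false,
   Spec.mk (nat_lit 27) (nat_lit 8) [nat_lit 81, nat_lit 9] (nat_lit 0) [] false,
   Spec.mk (nat_lit 81) (nat_lit 8) [nat_lit 243, nat_lit 27] (nat_lit 0) [] false,
   Spec.mk (nat_lit 243) (nat_lit 8) [nat_lit 729, nat_lit 81] (nat_lit 0) [] false,
   Spec.mk (nat_lit 729) (nat_lit 8) [nat_lit 2187, nat_lit 243] (nat_lit 0) [] false,
   Spec.mk (nat_lit 2187) (nat_lit 8) [nat_lit 6561, nat_lit 729] (nat_lit 0) [] false,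
   Spec.mk (nat_lit 6561) (nat_lit 8) [nat_lit 19683, nat_lit 2187] (nat_lit 0) [] false,
   Spec.mk (nat_lit 19683) (nat_lit 8) [nat_lit 6561] (nat_lit 0) [nat_lit 1] false]

noncomputable def specs : List (List Spec) :=
    sp0 :: []

noncomputable def step (e : Nat → Nat) (C ap an : Nat) (k :
    Nat → Nat → Nat → Nat → Nat → Nat → Nat → Nat → Nat → Nat → Bool)
  (
    x1 x3 x9 x27 x81 x243 x729 x2187 x6561 x19683 : Nat) : Bool :=
  k
    (Nat.sub (Nat.sub (Nat.add (Nat.add (Nat.add C (Nat.mul x1 (nat_lit 8))) x3) (Nat.mul (e (nat_lit 1)) ap)) x19683) (Nat.mul (e (nat_lit 1)) an))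
    (Nat.add (Nat.add (Nat.add C (Nat.mul x3 (nat_lit 8))) x9) x1)
    (Nat.add (Nat.add (Nat.add C (Nat.mul x9 (nat_lit 8))) x27) x3)
    (Nat.add (Nat.add (Nat.add C (Nat.mul x27 (nat_lit 8))) x81) x9)
    (Nat.add (Nat.add (Nat.add C (Nat.mul x81 (nat_lit 8))) x243) x27)
    (Nat.add (Nat.add (Nat.add C (Nat.mul x243 (nat_lit 8))) x729) x81)
    (Nat.add (Nat.add (Nat.add C (Nat.mul x729 (nat_lit 8))) x2187) x243)
    (Nat.add (Nat.add (Nat.add C (Nat.mul x2187 (nat_lit 8))) x6561) x729)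
    (Nat.add (Nat.add (Nat.add C (Nat.mul x6561 (nat_lit 8))) x19683) x2187)
    (Nat.sub (Nat.add (Nat.add C (Nat.mul x19683 (nat_lit 8))) x6561) x1)

theorem ap_eq (x : Nat → Nat) (k : FnLL specs) : apLL (fun t => x t.cd) specs k = A10_1.ap x k :=
  Eq.refl (A10_1.ap x k)

theorem step_eq0 (e : Nat → Nat) (C p r : Nat) (k : FnLL specs) (x : Nat → Nat) :
    A10_1.ap x (step e C p r k) = apLL (interp e C p r x) specs k :=
  Eq.refl (A10_1.ap x (step e C p r k))

theorem spec_ok : specOK 9 true A10_1.mask specs = true := by decide +kernel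

theorem step_eq (e : Nat → Nat) (C p r : Nat) (k : A10_1.KK) (x : Nat → Nat) :
    A10_1.ap x (step e C p r k) = A10_1.ap (row 9 true A10_1.mask e C p r x) k :=
  ((step_eq0 e C p r k x).trans (apLL_row 9 true A10_1.mask specs spec_ok e C p r x k)).trans
    (ap_eq (row 9 true A10_1.mask e C p r x) k)

end Vale.Agent.P348.G10_1_1

namespace Vale.Agent.P348.G10_2_1

noncomputable def sp0 : List Spec :=
  [Spec.mk (nat_lit 2) (nat_lit 6) [nat_lit 4] (nat_lit 0) [nat_lit 19684] true,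
   Spec.mk (nat_lit 4) (nat_lit 7) [nat_lit 10, nat_lit 2, nat_lit 6] (nat_lit 0) [nat_lit 19686] true,
   Spec.mk (nat_lit 6) (nat_lit 6) [nat_lit 12, nat_lit 4] (nat_lit 0) [] false,
   Spec.mk (nat_lit 10) (nat_lit 6) [nat_lit 28, nat_lit 4, nat_lit 12] (nat_lit 0) [nat_lit 19692] true,
   Spec.mk (nat_lit 12) (nat_lit 7) [nat_lit 30, nat_lit 6, nat_lit 18, nat_lit 10] (nat_lit 0) [] false,
   Spec.mk (nat_lit 18) (nat_lit 6) [nat_lit 36, nat_lit 12] (nat_lit 0) [] false,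
   Spec.mk (nat_lit 28) (nat_lit 6) [nat_lit 82, nat_lit 10, nat_lit 30] (nat_lit 0) [nat_lit 19710] true,
   Spec.mk (nat_lit 30) (nat_lit 6) [nat_lit 84, nat_lit 12, nat_lit 36, nat_lit 28] (nat_lit 0) [] false,
   Spec.mk (nat_lit 36) (nat_lit 7) [nat_lit 90, nat_lit 18, nat_lit 54, nat_lit 30] (nat_lit 0) [] false,
   Spec.mk (nat_lit 54) (nat_lit 6) [nat_lit 108, nat_lit 36] (nat_lit 0) [] false,
   Spec.mk (nat_lit 82) (nat_lit 6) [nat_lit 244, nat_lit 28, nat_lit 84] (nat_lit 0) [nat_lit 19764] true,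
   Spec.mk (nat_lit 84) (nat_lit 6) [nat_lit 246, nat_lit 30, nat_lit 90, nat_lit 82] (nat_lit 0) [] false,
   Spec.mk (nat_lit 90) (nat_lit 6) [nat_lit 252, nat_lit 36, nat_lit 108, nat_lit 84] (nat_lit 0) [] false,
   Spec.mk (nat_lit 108) (nat_lit 7) [nat_lit 270, nat_lit 54, nat_lit 162, nat_lit 90] (nat_lit 0) [] false,
   Spec.mk (nat_lit 162) (nat_lit 6) [nat_lit 324, nat_lit 108] (nat_lit 0) [] false,
   Spec.mk (nat_lit 244) (nat_lit 6) [nat_lit 730, nat_lit 82, nat_lit 246] (nat_lit 0) [nat_lit 19926] true,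
   Spec.mk (nat_lit 246) (nat_lit 6) [nat_lit 732, nat_lit 84, nat_lit 252, nat_lit 244] (nat_lit 0) [] false,
   Spec.mk (nat_lit 252) (nat_lit 6) [nat_lit 738, nat_lit 90, nat_lit 270, nat_lit 246] (nat_lit 0) [] false,
   Spec.mk (nat_lit 270) (nat_lit 6) [nat_lit 756, nat_lit 108, nat_lit 324, nat_lit 252] (nat_lit 0) [] false,
   Spec.mk (nat_lit 324) (nat_lit 7) [nat_lit 810, nat_lit 162, nat_lit 486, nat_lit 270] (nat_lit 0) [] false,
   Spec.mk (nat_lit 486) (nat_lit 6) [nat_lit 972, nat_lit 324] (nat_lit 0) [] false,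
   Spec.mk (nat_lit 730) (nat_lit 6) [nat_lit 2188, nat_lit 244, nat_lit 732] (nat_lit 0) [nat_lit 20412] false,
   Spec.mk (nat_lit 732) (nat_lit 6) [nat_lit 2190, nat_lit 246, nat_lit 738, nat_lit 730] (nat_lit 0) [] false,
   Spec.mk (nat_lit 738) (nat_lit 6) [nat_lit 2196, nat_lit 252, nat_lit 756, nat_lit 732] (nat_lit 0) [] false,
   Spec.mk (nat_lit 756) (nat_lit 6) [nat_lit 2214, nat_lit 270, nat_lit 810, nat_lit 738] (nat_lit 0) [] false,
   Spec.mk (nat_lit 810) (nat_lit 6) [nat_lit 2268, nat_lit 324, nat_lit 972, nat_lit 756] (nat_lit 0) [] false,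
   Spec.mk (nat_lit 972) (nat_lit 7) [nat_lit 2430, nat_lit 486, nat_lit 1458, nat_lit 810] (nat_lit 0) [] false,
   Spec.mk (nat_lit 1458) (nat_lit 6) [nat_lit 2916, nat_lit 972] (nat_lit 0) [] false,
   Spec.mk (nat_lit 2188) (nat_lit 6) [nat_lit 6562, nat_lit 730, nat_lit 2190] (nat_lit 0) [nat_lit 21870] false,
   Spec.mk (nat_lit 2190) (nat_lit 6) [nat_lit 6564, nat_lit 732, nat_lit 2196, nat_lit 2188] (nat_lit 0) [] false,
   Spec.mk (nat_lit 2196) (nat_lit 6) [nat_lit 6570, nat_lit 738, nat_lit 2214, nat_lit 2190] (nat_lit 0) [] false,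
   Spec.mk (nat_lit 2214) (nat_lit 6) [nat_lit 6588, nat_lit 756, nat_lit 2268, nat_lit 2196] (nat_lit 0) [] false,
   Spec.mk (nat_lit 2268) (nat_lit 6) [nat_lit 6642, nat_lit 810, nat_lit 2430, nat_lit 2214] (nat_lit 0) [] false,
   Spec.mk (nat_lit 2430) (nat_lit 6) [nat_lit 6804, nat_lit 972, nat_lit 2916, nat_lit 2268] (nat_lit 0) [] false,
   Spec.mk (nat_lit 2916) (nat_lit 7) [nat_lit 7290, nat_lit 1458, nat_lit 4374, nat_lit 2430] (nat_lit 0) [] false,
   Spec.mk (nat_lit 4374) (nat_lit 6) [nat_lit 8748, nat_lit 2916] (nat_lit 0) [] false,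
   Spec.mk (nat_lit 6562) (nat_lit 6) [nat_lit 19684, nat_lit 2188, nat_lit 6564] (nat_lit 0) [nat_lit 26244] false,
   Spec.mk (nat_lit 6564) (nat_lit 6) [nat_lit 19686, nat_lit 2190, nat_lit 6570, nat_lit 6562] (nat_lit 0) [] false,
   Spec.mk (nat_lit 6570) (nat_lit 6) [nat_lit 19692, nat_lit 2196, nat_lit 6588, nat_lit 6564] (nat_lit 0) [] false,
   Spec.mk (nat_lit 6588) (nat_lit 6) [nat_lit 19710, nat_lit 2214, nat_lit 6642, nat_lit 6570] (nat_lit 0) [] false,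
   Spec.mk (nat_lit 6642) (nat_lit 6) [nat_lit 19764, nat_lit 2268, nat_lit 6804, nat_lit 6588] (nat_lit 0) [] false,
   Spec.mk (nat_lit 6804) (nat_lit 6) [nat_lit 19926, nat_lit 2430, nat_lit 7290, nat_lit 6642] (nat_lit 0) [] false,
   Spec.mk (nat_lit 7290) (nat_lit 6) [nat_lit 20412, nat_lit 2916, nat_lit 8748, nat_lit 6804] (nat_lit 0) [] false,
   Spec.mk (nat_lit 8748) (nat_lit 7) [nat_lit 21870, nat_lit 4374, nat_lit 13122, nat_lit 7290] (nat_lit 0) [] false,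
   Spec.mk (nat_lit 13122) (nat_lit 6) [nat_lit 26244, nat_lit 8748] (nat_lit 0) [] false,
   Spec.mk (nat_lit 19684) (nat_lit 7) [nat_lit 6562, nat_lit 19686] (nat_lit 0) [nat_lit 39366, nat_lit 2] false,
   Spec.mk (nat_lit 19686) (nat_lit 6) [nat_lit 6564, nat_lit 19692, nat_lit 19684] (nat_lit 0) [nat_lit 4] false,
   Spec.mk (nat_lit 19692) (nat_lit 6) [nat_lit 6570, nat_lit 19710, nat_lit 19686] (nat_lit 0) [nat_lit 10] false,
   Spec.mk (nat_lit 19710) (nat_lit 6) [nat_lit 6588, nat_lit 19764, nat_lit 19692] (nat_lit 0) [nat_lit 28] false,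
   Spec.mk (nat_lit 19764) (nat_lit 6) [nat_lit 6642, nat_lit 19926, nat_lit 19710] (nat_lit 0) [nat_lit 82] false,
   Spec.mk (nat_lit 19926) (nat_lit 6) [nat_lit 6804, nat_lit 20412, nat_lit 19764] (nat_lit 0) [nat_lit 244] false,
   Spec.mk (nat_lit 20412) (nat_lit 6) [nat_lit 7290, nat_lit 21870, nat_lit 19926] (nat_lit 0) [nat_lit 730] false,
   Spec.mk (nat_lit 21870) (nat_lit 6) [nat_lit 8748, nat_lit 26244, nat_lit 20412] (nat_lit 0) [nat_lit 2188] false,
   Spec.mk (nat_lit 26244) (nat_lit 7) [nat_lit 13122, nat_lit 39366, nat_lit 21870] (nat_lit 0) [nat_lit 6562] false,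
   Spec.mk (nat_lit 39366) (nat_lit 6) [nat_lit 26244] (nat_lit 0) [nat_lit 19684] false]

noncomputable def specs : List (List Spec) :=
    sp0 :: []

noncomputable def step (e : Nat → Nat) (C ap an : Nat) (k :
    Nat → Nat → Nat → Nat → Nat → Nat → Nat → Nat → Nat → Nat → Nat → Nat → Nat → Nat → Nat → Nat →
    Nat → Nat → Nat → Nat → Nat → Nat → Nat → Nat → Nat → Nat → Nat → Nat → Nat → Nat → Nat → Nat →
    Nat → Nat → Nat → Nat → Nat → Nat → Nat → Nat → Nat → Nat → Nat → Nat → Nat → Nat → Nat → Nat →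
    Nat → Nat → Nat → Nat → Nat → Nat → Nat → Bool)
  (
    x2 x4 x6 x10 x12 x18 x28 x30 x36 x54 x82 x84 x90 x108 x162 x244 x246 x252 x270 x324 x486 x730
    x732 x738 x756 x810 x972 x1458 x2188 x2190 x2196 x2214 x2268 x2430 x2916 x4374 x6562 x6564
    x6570 x6588 x6642 x6804 x7290 x8748 x13122 x19684 x19686 x19692 x19710 x19764 x19926 x20412
    x21870 x26244 x39366 : Nat) : Bool :=
  k
    (Nat.sub (Nat.sub (Nat.add (Nat.add (Nat.add C (Nat.mul x2 (nat_lit 6))) x4) (Nat.mul (e (nat_lit 2)) ap)) x19684) (Nat.mul (e (nat_lit 2)) an))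
    (Nat.sub (Nat.sub (Nat.add (Nat.add (Nat.add (Nat.add (Nat.add C (Nat.mul x4 (nat_lit 7))) x10) x2) x6) (Nat.mul (e (nat_lit 4)) ap)) x19686) (Nat.mul (e (nat_lit 4)) an))
    (Nat.add (Nat.add (Nat.add C (Nat.mul x6 (nat_lit 6))) x12) x4)
    (Nat.sub (Nat.sub (Nat.add (Nat.add (Nat.add (Nat.add (Nat.add C (Nat.mul x10 (nat_lit 6))) x28) x4) x12) (Nat.mul (e (nat_lit 10)) ap)) x19692) (Nat.mul (e (nat_lit 10)) an))
    (Nat.add (Nat.add (Nat.add (Nat.add (Nat.add C (Nat.mul x12 (nat_lit 7))) x30) x6) x18) x10)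
    (Nat.add (Nat.add (Nat.add C (Nat.mul x18 (nat_lit 6))) x36) x12)
    (Nat.sub (Nat.sub (Nat.add (Nat.add (Nat.add (Nat.add (Nat.add C (Nat.mul x28 (nat_lit 6))) x82) x10) x30) (Nat.mul (e (nat_lit 28)) ap)) x19710) (Nat.mul (e (nat_lit 28)) an))
    (Nat.add (Nat.add (Nat.add (Nat.add (Nat.add C (Nat.mul x30 (nat_lit 6))) x84) x12) x36) x28)
    (Nat.add (Nat.add (Nat.add (Nat.add (Nat.add C (Nat.mul x36 (nat_lit 7))) x90) x18) x54) x30)
    (Nat.add (Nat.add (Nat.add C (Nat.mul x54 (nat_lit 6))) x108) x36)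
    (Nat.sub (Nat.sub (Nat.add (Nat.add (Nat.add (Nat.add (Nat.add C (Nat.mul x82 (nat_lit 6))) x244) x28) x84) (Nat.mul (e (nat_lit 82)) ap)) x19764) (Nat.mul (e (nat_lit 82)) an))
    (Nat.add (Nat.add (Nat.add (Nat.add (Nat.add C (Nat.mul x84 (nat_lit 6))) x246) x30) x90) x82)
    (Nat.add (Nat.add (Nat.add (Nat.add (Nat.add C (Nat.mul x90 (nat_lit 6))) x252) x36) x108) x84)
    (Nat.add (Nat.add (Nat.add (Nat.add (Nat.add C (Nat.mul x108 (nat_lit 7))) x270) x54) x162) x90)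
    (Nat.add (Nat.add (Nat.add C (Nat.mul x162 (nat_lit 6))) x324) x108)
    (Nat.sub (Nat.sub (Nat.add (Nat.add (Nat.add (Nat.add (Nat.add C (Nat.mul x244 (nat_lit 6))) x730) x82) x246) (Nat.mul (e (nat_lit 244)) ap)) x19926) (Nat.mul (e (nat_lit 244)) an))
    (Nat.add (Nat.add (Nat.add (Nat.add (Nat.add C (Nat.mul x246 (nat_lit 6))) x732) x84) x252) x244)
    (Nat.add (Nat.add (Nat.add (Nat.add (Nat.add C (Nat.mul x252 (nat_lit 6))) x738) x90) x270) x246)
    (Nat.add (Nat.add (Nat.add (Nat.add (Nat.add C (Nat.mul x270 (nat_lit 6))) x756) x108) x324) x252)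
    (Nat.add (Nat.add (Nat.add (Nat.add (Nat.add C (Nat.mul x324 (nat_lit 7))) x810) x162) x486) x270)
    (Nat.add (Nat.add (Nat.add C (Nat.mul x486 (nat_lit 6))) x972) x324)
    (Nat.sub (Nat.add (Nat.add (Nat.add (Nat.add C (Nat.mul x730 (nat_lit 6))) x2188) x244) x732) x20412)
    (Nat.add (Nat.add (Nat.add (Nat.add (Nat.add C (Nat.mul x732 (nat_lit 6))) x2190) x246) x738) x730)
    (Nat.add (Nat.add (Nat.add (Nat.add (Nat.add C (Nat.mul x738 (nat_lit 6))) x2196) x252) x756) x732)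
    (Nat.add (Nat.add (Nat.add (Nat.add (Nat.add C (Nat.mul x756 (nat_lit 6))) x2214) x270) x810) x738)
    (Nat.add (Nat.add (Nat.add (Nat.add (Nat.add C (Nat.mul x810 (nat_lit 6))) x2268) x324) x972) x756)
    (Nat.add (Nat.add (Nat.add (Nat.add (Nat.add C (Nat.mul x972 (nat_lit 7))) x2430) x486) x1458) x810)
    (Nat.add (Nat.add (Nat.add C (Nat.mul x1458 (nat_lit 6))) x2916) x972)
    (Nat.sub (Nat.add (Nat.add (Nat.add (Nat.add C (Nat.mul x2188 (nat_lit 6))) x6562) x730) x2190) x21870)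
    (Nat.add (Nat.add (Nat.add (Nat.add (Nat.add C (Nat.mul x2190 (nat_lit 6))) x6564) x732) x2196) x2188)
    (Nat.add (Nat.add (Nat.add (Nat.add (Nat.add C (Nat.mul x2196 (nat_lit 6))) x6570) x738) x2214) x2190)
    (Nat.add (Nat.add (Nat.add (Nat.add (Nat.add C (Nat.mul x2214 (nat_lit 6))) x6588) x756) x2268) x2196)
    (Nat.add (Nat.add (Nat.add (Nat.add (Nat.add C (Nat.mul x2268 (nat_lit 6))) x6642) x810) x2430) x2214)
    (Nat.add (Nat.add (Nat.add (Nat.add (Nat.add C (Nat.mul x2430 (nat_lit 6))) x6804) x972) x2916) x2268)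
    (Nat.add (Nat.add (Nat.add (Nat.add (Nat.add C (Nat.mul x2916 (nat_lit 7))) x7290) x1458) x4374) x2430)
    (Nat.add (Nat.add (Nat.add C (Nat.mul x4374 (nat_lit 6))) x8748) x2916)
    (Nat.sub (Nat.add (Nat.add (Nat.add (Nat.add C (Nat.mul x6562 (nat_lit 6))) x19684) x2188) x6564) x26244)
    (Nat.add (Nat.add (Nat.add (Nat.add (Nat.add C (Nat.mul x6564 (nat_lit 6))) x19686) x2190) x6570) x6562)
    (Nat.add (Nat.add (Nat.add (Nat.add (Nat.add C (Nat.mul x6570 (nat_lit 6))) x19692) x2196) x6588) x6564)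
    (Nat.add (Nat.add (Nat.add (Nat.add (Nat.add C (Nat.mul x6588 (nat_lit 6))) x19710) x2214) x6642) x6570)
    (Nat.add (Nat.add (Nat.add (Nat.add (Nat.add C (Nat.mul x6642 (nat_lit 6))) x19764) x2268) x6804) x6588)
    (Nat.add (Nat.add (Nat.add (Nat.add (Nat.add C (Nat.mul x6804 (nat_lit 6))) x19926) x2430) x7290) x6642)
    (Nat.add (Nat.add (Nat.add (Nat.add (Nat.add C (Nat.mul x7290 (nat_lit 6))) x20412) x2916) x8748) x6804)
    (Nat.add (Nat.add (Nat.add (Nat.add (Nat.add C (Nat.mul x8748 (nat_lit 7))) x21870) x4374) x13122) x7290)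
    (Nat.add (Nat.add (Nat.add C (Nat.mul x13122 (nat_lit 6))) x26244) x8748)
    (Nat.sub (Nat.sub (Nat.add (Nat.add (Nat.add C (Nat.mul x19684 (nat_lit 7))) x6562) x19686) x39366) x2)
    (Nat.sub (Nat.add (Nat.add (Nat.add (Nat.add C (Nat.mul x19686 (nat_lit 6))) x6564) x19692) x19684) x4)
    (Nat.sub (Nat.add (Nat.add (Nat.add (Nat.add C (Nat.mul x19692 (nat_lit 6))) x6570) x19710) x19686) x10)
    (Nat.sub (Nat.add (Nat.add (Nat.add (Nat.add C (Nat.mul x19710 (nat_lit 6))) x6588) x19764) x19692) x28)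
    (Nat.sub (Nat.add (Nat.add (Nat.add (Nat.add C (Nat.mul x19764 (nat_lit 6))) x6642) x19926) x19710) x82)
    (Nat.sub (Nat.add (Nat.add (Nat.add (Nat.add C (Nat.mul x19926 (nat_lit 6))) x6804) x20412) x19764) x244)
    (Nat.sub (Nat.add (Nat.add (Nat.add (Nat.add C (Nat.mul x20412 (nat_lit 6))) x7290) x21870) x19926) x730)
    (Nat.sub (Nat.add (Nat.add (Nat.add (Nat.add C (Nat.mul x21870 (nat_lit 6))) x8748) x26244) x20412) x2188)
    (Nat.sub (Nat.add (Nat.add (Nat.add (Nat.add C (Nat.mul x26244 (nat_lit 7))) x13122) x39366) x21870) x6562)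
    (Nat.sub (Nat.add (Nat.add C (Nat.mul x39366 (nat_lit 6))) x26244) x19684)

theorem ap_eq (x : Nat → Nat) (k : FnLL specs) : apLL (fun t => x t.cd) specs k = A10_2.ap x k :=
  Eq.refl (A10_2.ap x k)

theorem step_eq0 (e : Nat → Nat) (C p r : Nat) (k : FnLL specs) (x : Nat → Nat) :
    A10_2.ap x (step e C p r k) = apLL (interp e C p r x) specs k :=
  Eq.refl (A10_2.ap x (step e C p r k))

theorem spec_ok : specOK 9 true A10_2.mask specs = true := by decide +kernel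

theorem step_eq (e : Nat → Nat) (C p r : Nat) (k : A10_2.KK) (x : Nat → Nat) :
    A10_2.ap x (step e C p r k) = A10_2.ap (row 9 true A10_2.mask e C p r x) k :=
  ((step_eq0 e C p r k x).trans (apLL_row 9 true A10_2.mask specs spec_ok e C p r x k)).trans
    (ap_eq (row 9 true A10_2.mask e C p r x) k)

end Vale.Agent.P348.G10_2_1

namespace Vale.Agent.P348.G10_3_1

noncomputable def sp0 : List Spec :=
  [Spec.mk (nat_lit 5) (nat_lit 6) [nat_lit 11, nat_lit 7] (nat_lit 0) [nat_lit 19687] true,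
   Spec.mk (nat_lit 7) (nat_lit 6) [nat_lit 13, nat_lit 5] (nat_lit 0) [nat_lit 19689] false,
   Spec.mk (nat_lit 11) (nat_lit 4) [nat_lit 29, nat_lit 5, nat_lit 13] (nat_lit 0) [nat_lit 19693] true,
   Spec.mk (nat_lit 13) (nat_lit 6) [nat_lit 31, nat_lit 7, nat_lit 19, nat_lit 11, nat_lit 15] (nat_lit 0) [nat_lit 19695] true,
   Spec.mk (nat_lit 15) (nat_lit 6) [nat_lit 33, nat_lit 21, nat_lit 13] (nat_lit 0) [] false,
   Spec.mk (nat_lit 19) (nat_lit 4) [nat_lit 37, nat_lit 13, nat_lit 21] (nat_lit 0) [nat_lit 19701] false,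
   Spec.mk (nat_lit 21) (nat_lit 6) [nat_lit 39, nat_lit 15, nat_lit 19] (nat_lit 0) [] false,
   Spec.mk (nat_lit 29) (nat_lit 4) [nat_lit 83, nat_lit 11, nat_lit 31] (nat_lit 0) [nat_lit 19711] true,
   Spec.mk (nat_lit 31) (nat_lit 5) [nat_lit 85, nat_lit 13, nat_lit 37, nat_lit 29, nat_lit 33] (nat_lit 0) [nat_lit 19713] true,
   Spec.mk (nat_lit 33) (nat_lit 4) [nat_lit 87, nat_lit 15, nat_lit 39, nat_lit 31] (nat_lit 0) [] false,
   Spec.mk (nat_lit 37) (nat_lit 5) [nat_lit 91, nat_lit 19, nat_lit 55, nat_lit 31, nat_lit 39] (nat_lit 0) [nat_lit 19719] false,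
   Spec.mk (nat_lit 39) (nat_lit 6) [nat_lit 93, nat_lit 21, nat_lit 57, nat_lit 33, nat_lit 45, nat_lit 37] (nat_lit 0) [] false,
   Spec.mk (nat_lit 45) (nat_lit 6) [nat_lit 99, nat_lit 63, nat_lit 39] (nat_lit 0) [] false,
   Spec.mk (nat_lit 55) (nat_lit 4) [nat_lit 109, nat_lit 37, nat_lit 57] (nat_lit 0) [nat_lit 19737] false,
   Spec.mk (nat_lit 57) (nat_lit 4) [nat_lit 111, nat_lit 39, nat_lit 63, nat_lit 55] (nat_lit 0) [] false,
   Spec.mk (nat_lit 63) (nat_lit 6) [nat_lit 117, nat_lit 45, nat_lit 57] (nat_lit 0) [] false,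
   Spec.mk (nat_lit 83) (nat_lit 4) [nat_lit 245, nat_lit 29, nat_lit 85] (nat_lit 0) [nat_lit 19765] true,
   Spec.mk (nat_lit 85) (nat_lit 5) [nat_lit 247, nat_lit 31, nat_lit 91, nat_lit 83, nat_lit 87] (nat_lit 0) [nat_lit 19767] true,
   Spec.mk (nat_lit 87) (nat_lit 4) [nat_lit 249, nat_lit 33, nat_lit 93, nat_lit 85] (nat_lit 0) [] false,
   Spec.mk (nat_lit 91) (nat_lit 4) [nat_lit 253, nat_lit 37, nat_lit 109, nat_lit 85, nat_lit 93] (nat_lit 0) [nat_lit 19773] true,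
   Spec.mk (nat_lit 93) (nat_lit 5) [nat_lit 255, nat_lit 39, nat_lit 111, nat_lit 87, nat_lit 99, nat_lit 91] (nat_lit 0) [] false,
   Spec.mk (nat_lit 99) (nat_lit 4) [nat_lit 261, nat_lit 45, nat_lit 117, nat_lit 93] (nat_lit 0) [] false,
   Spec.mk (nat_lit 109) (nat_lit 5) [nat_lit 271, nat_lit 55, nat_lit 163, nat_lit 91, nat_lit 111] (nat_lit 0) [nat_lit 19791] false,
   Spec.mk (nat_lit 111) (nat_lit 5) [nat_lit 273, nat_lit 57, nat_lit 165, nat_lit 93, nat_lit 117, nat_lit 109] (nat_lit 0) [] false,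
   Spec.mk (nat_lit 117) (nat_lit 6) [nat_lit 279, nat_lit 63, nat_lit 171, nat_lit 99, nat_lit 135, nat_lit 111] (nat_lit 0) [] false,
   Spec.mk (nat_lit 135) (nat_lit 6) [nat_lit 297, nat_lit 189, nat_lit 117] (nat_lit 0) [] false,
   Spec.mk (nat_lit 163) (nat_lit 4) [nat_lit 325, nat_lit 109, nat_lit 165] (nat_lit 0) [nat_lit 19845] false,
   Spec.mk (nat_lit 165) (nat_lit 4) [nat_lit 327, nat_lit 111, nat_lit 171, nat_lit 163] (nat_lit 0) [] false,
   Spec.mk (nat_lit 171) (nat_lit 4) [nat_lit 333, nat_lit 117, nat_lit 189, nat_lit 165] (nat_lit 0) [] false,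
   Spec.mk (nat_lit 189) (nat_lit 6) [nat_lit 351, nat_lit 135, nat_lit 171] (nat_lit 0) [] false,
   Spec.mk (nat_lit 245) (nat_lit 4) [nat_lit 731, nat_lit 83, nat_lit 247] (nat_lit 0) [nat_lit 19927] true,
   Spec.mk (nat_lit 247) (nat_lit 5) [nat_lit 733, nat_lit 85, nat_lit 253, nat_lit 245, nat_lit 249] (nat_lit 0) [nat_lit 19929] true,
   Spec.mk (nat_lit 249) (nat_lit 4) [nat_lit 735, nat_lit 87, nat_lit 255, nat_lit 247] (nat_lit 0) [] false,
   Spec.mk (nat_lit 253) (nat_lit 4) [nat_lit 739, nat_lit 91, nat_lit 271, nat_lit 247, nat_lit 255] (nat_lit 0) [nat_lit 19935] true,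
   Spec.mk (nat_lit 255) (nat_lit 5) [nat_lit 741, nat_lit 93, nat_lit 273, nat_lit 249, nat_lit 261, nat_lit 253] (nat_lit 0) [] false,
   Spec.mk (nat_lit 261) (nat_lit 4) [nat_lit 747, nat_lit 99, nat_lit 279, nat_lit 255] (nat_lit 0) [] false,
   Spec.mk (nat_lit 271) (nat_lit 4) [nat_lit 757, nat_lit 109, nat_lit 325, nat_lit 253, nat_lit 273] (nat_lit 0) [nat_lit 19953] false,
   Spec.mk (nat_lit 273) (nat_lit 4) [nat_lit 759, nat_lit 111, nat_lit 327, nat_lit 255, nat_lit 279, nat_lit 271] (nat_lit 0) [] false,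
   Spec.mk (nat_lit 279) (nat_lit 5) [nat_lit 765, nat_lit 117, nat_lit 333, nat_lit 261, nat_lit 297, nat_lit 273] (nat_lit 0) [] false,
   Spec.mk (nat_lit 297) (nat_lit 4) [nat_lit 783, nat_lit 135, nat_lit 351, nat_lit 279] (nat_lit 0) [] false,
   Spec.mk (nat_lit 325) (nat_lit 5) [nat_lit 811, nat_lit 163, nat_lit 487, nat_lit 271, nat_lit 327] (nat_lit 0) [nat_lit 20007] false,
   Spec.mk (nat_lit 327) (nat_lit 5) [nat_lit 813, nat_lit 165, nat_lit 489, nat_lit 273, nat_lit 333, nat_lit 325] (nat_lit 0) [] false,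
   Spec.mk (nat_lit 333) (nat_lit 5) [nat_lit 819, nat_lit 171, nat_lit 495, nat_lit 279, nat_lit 351, nat_lit 327] (nat_lit 0) [] false,
   Spec.mk (nat_lit 351) (nat_lit 6) [nat_lit 837, nat_lit 189, nat_lit 513, nat_lit 297, nat_lit 405, nat_lit 333] (nat_lit 0) [] false,
   Spec.mk (nat_lit 405) (nat_lit 6) [nat_lit 891, nat_lit 567, nat_lit 351] (nat_lit 0) [] false,
   Spec.mk (nat_lit 487) (nat_lit 4) [nat_lit 973, nat_lit 325, nat_lit 489] (nat_lit 0) [nat_lit 20169] false,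
   Spec.mk (nat_lit 489) (nat_lit 4) [nat_lit 975, nat_lit 327, nat_lit 495, nat_lit 487] (nat_lit 0) [] false,
   Spec.mk (nat_lit 495) (nat_lit 4) [nat_lit 981, nat_lit 333, nat_lit 513, nat_lit 489] (nat_lit 0) [] false,
   Spec.mk (nat_lit 513) (nat_lit 4) [nat_lit 999, nat_lit 351, nat_lit 567, nat_lit 495] (nat_lit 0) [] false,
   Spec.mk (nat_lit 567) (nat_lit 6) [nat_lit 1053, nat_lit 405, nat_lit 513] (nat_lit 0) [] false,
   Spec.mk (nat_lit 731) (nat_lit 4) [nat_lit 2189, nat_lit 245, nat_lit 733] (nat_lit 0) [nat_lit 20413] false,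
   Spec.mk (nat_lit 733) (nat_lit 5) [nat_lit 2191, nat_lit 247, nat_lit 739, nat_lit 731, nat_lit 735] (nat_lit 0) [nat_lit 20415] false,
   Spec.mk (nat_lit 735) (nat_lit 4) [nat_lit 2193, nat_lit 249, nat_lit 741, nat_lit 733] (nat_lit 0) [] false,
   Spec.mk (nat_lit 739) (nat_lit 4) [nat_lit 2197, nat_lit 253, nat_lit 757, nat_lit 733, nat_lit 741] (nat_lit 0) [nat_lit 20421] true,
   Spec.mk (nat_lit 741) (nat_lit 5) [nat_lit 2199, nat_lit 255, nat_lit 759, nat_lit 735, nat_lit 747, nat_lit 739] (nat_lit 0) [] false,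
   Spec.mk (nat_lit 747) (nat_lit 4) [nat_lit 2205, nat_lit 261, nat_lit 765, nat_lit 741] (nat_lit 0) [] false,
   Spec.mk (nat_lit 757) (nat_lit 4) [nat_lit 2215, nat_lit 271, nat_lit 811, nat_lit 739, nat_lit 759] (nat_lit 0) [nat_lit 20439] true,
   Spec.mk (nat_lit 759) (nat_lit 4) [nat_lit 2217, nat_lit 273, nat_lit 813, nat_lit 741, nat_lit 765, nat_lit 757] (nat_lit 0) [] false,
   Spec.mk (nat_lit 765) (nat_lit 5) [nat_lit 2223, nat_lit 279, nat_lit 819, nat_lit 747, nat_lit 783, nat_lit 759] (nat_lit 0) [] false,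
   Spec.mk (nat_lit 783) (nat_lit 4) [nat_lit 2241, nat_lit 297, nat_lit 837, nat_lit 765] (nat_lit 0) [] false]

noncomputable def sp1 : List Spec :=
  [Spec.mk (nat_lit 811) (nat_lit 4) [nat_lit 2269, nat_lit 325, nat_lit 973, nat_lit 757, nat_lit 813] (nat_lit 0) [nat_lit 20493] false,
   Spec.mk (nat_lit 813) (nat_lit 4) [nat_lit 2271, nat_lit 327, nat_lit 975, nat_lit 759, nat_lit 819, nat_lit 811] (nat_lit 0) [] false,
   Spec.mk (nat_lit 819) (nat_lit 4) [nat_lit 2277, nat_lit 333, nat_lit 981, nat_lit 765, nat_lit 837, nat_lit 813] (nat_lit 0) [] false,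
   Spec.mk (nat_lit 837) (nat_lit 5) [nat_lit 2295, nat_lit 351, nat_lit 999, nat_lit 783, nat_lit 891, nat_lit 819] (nat_lit 0) [] false,
   Spec.mk (nat_lit 891) (nat_lit 4) [nat_lit 2349, nat_lit 405, nat_lit 1053, nat_lit 837] (nat_lit 0) [] false,
   Spec.mk (nat_lit 973) (nat_lit 5) [nat_lit 2431, nat_lit 487, nat_lit 1459, nat_lit 811, nat_lit 975] (nat_lit 0) [nat_lit 20655] false,
   Spec.mk (nat_lit 975) (nat_lit 5) [nat_lit 2433, nat_lit 489, nat_lit 1461, nat_lit 813, nat_lit 981, nat_lit 973] (nat_lit 0) [] false,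
   Spec.mk (nat_lit 981) (nat_lit 5) [nat_lit 2439, nat_lit 495, nat_lit 1467, nat_lit 819, nat_lit 999, nat_lit 975] (nat_lit 0) [] false,
   Spec.mk (nat_lit 999) (nat_lit 5) [nat_lit 2457, nat_lit 513, nat_lit 1485, nat_lit 837, nat_lit 1053, nat_lit 981] (nat_lit 0) [] false,
   Spec.mk (nat_lit 1053) (nat_lit 6) [nat_lit 2511, nat_lit 567, nat_lit 1539, nat_lit 891, nat_lit 1215, nat_lit 999] (nat_lit 0) [] false,
   Spec.mk (nat_lit 1215) (nat_lit 6) [nat_lit 2673, nat_lit 1701, nat_lit 1053] (nat_lit 0) [] false,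
   Spec.mk (nat_lit 1459) (nat_lit 4) [nat_lit 2917, nat_lit 973, nat_lit 1461] (nat_lit 0) [nat_lit 21141] false,
   Spec.mk (nat_lit 1461) (nat_lit 4) [nat_lit 2919, nat_lit 975, nat_lit 1467, nat_lit 1459] (nat_lit 0) [] false,
   Spec.mk (nat_lit 1467) (nat_lit 4) [nat_lit 2925, nat_lit 981, nat_lit 1485, nat_lit 1461] (nat_lit 0) [] false,
   Spec.mk (nat_lit 1485) (nat_lit 4) [nat_lit 2943, nat_lit 999, nat_lit 1539, nat_lit 1467] (nat_lit 0) [] false,
   Spec.mk (nat_lit 1539) (nat_lit 4) [nat_lit 2997, nat_lit 1053, nat_lit 1701, nat_lit 1485] (nat_lit 0) [] false,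
   Spec.mk (nat_lit 1701) (nat_lit 6) [nat_lit 3159, nat_lit 1215, nat_lit 1539] (nat_lit 0) [] false,
   Spec.mk (nat_lit 2189) (nat_lit 4) [nat_lit 6563, nat_lit 731, nat_lit 2191] (nat_lit 0) [nat_lit 21871] false,
   Spec.mk (nat_lit 2191) (nat_lit 5) [nat_lit 6565, nat_lit 733, nat_lit 2197, nat_lit 2189, nat_lit 2193] (nat_lit 0) [nat_lit 21873] false,
   Spec.mk (nat_lit 2193) (nat_lit 4) [nat_lit 6567, nat_lit 735, nat_lit 2199, nat_lit 2191] (nat_lit 0) [] false,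
   Spec.mk (nat_lit 2197) (nat_lit 4) [nat_lit 6571, nat_lit 739, nat_lit 2215, nat_lit 2191, nat_lit 2199] (nat_lit 0) [nat_lit 21879] false,
   Spec.mk (nat_lit 2199) (nat_lit 5) [nat_lit 6573, nat_lit 741, nat_lit 2217, nat_lit 2193, nat_lit 2205, nat_lit 2197] (nat_lit 0) [] false,
   Spec.mk (nat_lit 2205) (nat_lit 4) [nat_lit 6579, nat_lit 747, nat_lit 2223, nat_lit 2199] (nat_lit 0) [] false,
   Spec.mk (nat_lit 2215) (nat_lit 4) [nat_lit 6589, nat_lit 757, nat_lit 2269, nat_lit 2197, nat_lit 2217] (nat_lit 0) [nat_lit 21897] false,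
   Spec.mk (nat_lit 2217) (nat_lit 4) [nat_lit 6591, nat_lit 759, nat_lit 2271, nat_lit 2199, nat_lit 2223, nat_lit 2215] (nat_lit 0) [] false,
   Spec.mk (nat_lit 2223) (nat_lit 5) [nat_lit 6597, nat_lit 765, nat_lit 2277, nat_lit 2205, nat_lit 2241, nat_lit 2217] (nat_lit 0) [] false,
   Spec.mk (nat_lit 2241) (nat_lit 4) [nat_lit 6615, nat_lit 783, nat_lit 2295, nat_lit 2223] (nat_lit 0) [] false,
   Spec.mk (nat_lit 2269) (nat_lit 4) [nat_lit 6643, nat_lit 811, nat_lit 2431, nat_lit 2215, nat_lit 2271] (nat_lit 0) [nat_lit 21951] false,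
   Spec.mk (nat_lit 2271) (nat_lit 4) [nat_lit 6645, nat_lit 813, nat_lit 2433, nat_lit 2217, nat_lit 2277, nat_lit 2269] (nat_lit 0) [] false,
   Spec.mk (nat_lit 2277) (nat_lit 4) [nat_lit 6651, nat_lit 819, nat_lit 2439, nat_lit 2223, nat_lit 2295, nat_lit 2271] (nat_lit 0) [] false,
   Spec.mk (nat_lit 2295) (nat_lit 5) [nat_lit 6669, nat_lit 837, nat_lit 2457, nat_lit 2241, nat_lit 2349, nat_lit 2277] (nat_lit 0) [] false,
   Spec.mk (nat_lit 2349) (nat_lit 4) [nat_lit 6723, nat_lit 891, nat_lit 2511, nat_lit 2295] (nat_lit 0) [] false,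
   Spec.mk (nat_lit 2431) (nat_lit 4) [nat_lit 6805, nat_lit 973, nat_lit 2917, nat_lit 2269, nat_lit 2433] (nat_lit 0) [nat_lit 22113] false,
   Spec.mk (nat_lit 2433) (nat_lit 4) [nat_lit 6807, nat_lit 975, nat_lit 2919, nat_lit 2271, nat_lit 2439, nat_lit 2431] (nat_lit 0) [] false,
   Spec.mk (nat_lit 2439) (nat_lit 4) [nat_lit 6813, nat_lit 981, nat_lit 2925, nat_lit 2277, nat_lit 2457, nat_lit 2433] (nat_lit 0) [] false,
   Spec.mk (nat_lit 2457) (nat_lit 4) [nat_lit 6831, nat_lit 999, nat_lit 2943, nat_lit 2295, nat_lit 2511, nat_lit 2439] (nat_lit 0) [] false,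
   Spec.mk (nat_lit 2511) (nat_lit 5) [nat_lit 6885, nat_lit 1053, nat_lit 2997, nat_lit 2349, nat_lit 2673, nat_lit 2457] (nat_lit 0) [] false,
   Spec.mk (nat_lit 2673) (nat_lit 4) [nat_lit 7047, nat_lit 1215, nat_lit 3159, nat_lit 2511] (nat_lit 0) [] false,
   Spec.mk (nat_lit 2917) (nat_lit 5) [nat_lit 7291, nat_lit 1459, nat_lit 4375, nat_lit 2431, nat_lit 2919] (nat_lit 0) [nat_lit 22599] false,
   Spec.mk (nat_lit 2919) (nat_lit 5) [nat_lit 7293, nat_lit 1461, nat_lit 4377, nat_lit 2433, nat_lit 2925, nat_lit 2917] (nat_lit 0) [] false,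
   Spec.mk (nat_lit 2925) (nat_lit 5) [nat_lit 7299, nat_lit 1467, nat_lit 4383, nat_lit 2439, nat_lit 2943, nat_lit 2919] (nat_lit 0) [] false,
   Spec.mk (nat_lit 2943) (nat_lit 5) [nat_lit 7317, nat_lit 1485, nat_lit 4401, nat_lit 2457, nat_lit 2997, nat_lit 2925] (nat_lit 0) [] false,
   Spec.mk (nat_lit 2997) (nat_lit 5) [nat_lit 7371, nat_lit 1539, nat_lit 4455, nat_lit 2511, nat_lit 3159, nat_lit 2943] (nat_lit 0) [] false,
   Spec.mk (nat_lit 3159) (nat_lit 6) [nat_lit 7533, nat_lit 1701, nat_lit 4617, nat_lit 2673, nat_lit 3645, nat_lit 2997] (nat_lit 0) [] false,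
   Spec.mk (nat_lit 3645) (nat_lit 6) [nat_lit 8019, nat_lit 5103, nat_lit 3159] (nat_lit 0) [] false,
   Spec.mk (nat_lit 4375) (nat_lit 4) [nat_lit 8749, nat_lit 2917, nat_lit 4377] (nat_lit 0) [nat_lit 24057] false,
   Spec.mk (nat_lit 4377) (nat_lit 4) [nat_lit 8751, nat_lit 2919, nat_lit 4383, nat_lit 4375] (nat_lit 0) [] false,
   Spec.mk (nat_lit 4383) (nat_lit 4) [nat_lit 8757, nat_lit 2925, nat_lit 4401, nat_lit 4377] (nat_lit 0) [] false,
   Spec.mk (nat_lit 4401) (nat_lit 4) [nat_lit 8775, nat_lit 2943, nat_lit 4455, nat_lit 4383] (nat_lit 0) [] false,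
   Spec.mk (nat_lit 4455) (nat_lit 4) [nat_lit 8829, nat_lit 2997, nat_lit 4617, nat_lit 4401] (nat_lit 0) [] false,
   Spec.mk (nat_lit 4617) (nat_lit 4) [nat_lit 8991, nat_lit 3159, nat_lit 5103, nat_lit 4455] (nat_lit 0) [] false,
   Spec.mk (nat_lit 5103) (nat_lit 6) [nat_lit 9477, nat_lit 3645, nat_lit 4617] (nat_lit 0) [] false,
   Spec.mk (nat_lit 6563) (nat_lit 4) [nat_lit 19685, nat_lit 2189, nat_lit 6565] (nat_lit 0) [nat_lit 26245] false,
   Spec.mk (nat_lit 6565) (nat_lit 5) [nat_lit 19687, nat_lit 2191, nat_lit 6571, nat_lit 6563, nat_lit 6567] (nat_lit 0) [nat_lit 26247] false,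
   Spec.mk (nat_lit 6567) (nat_lit 4) [nat_lit 19689, nat_lit 2193, nat_lit 6573, nat_lit 6565] (nat_lit 0) [] false,
   Spec.mk (nat_lit 6571) (nat_lit 4) [nat_lit 19693, nat_lit 2197, nat_lit 6589, nat_lit 6565, nat_lit 6573] (nat_lit 0) [nat_lit 26253] false,
   Spec.mk (nat_lit 6573) (nat_lit 5) [nat_lit 19695, nat_lit 2199, nat_lit 6591, nat_lit 6567, nat_lit 6579, nat_lit 6571] (nat_lit 0) [] false,
   Spec.mk (nat_lit 6579) (nat_lit 4) [nat_lit 19701, nat_lit 2205, nat_lit 6597, nat_lit 6573] (nat_lit 0) [] false,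
   Spec.mk (nat_lit 6589) (nat_lit 4) [nat_lit 19711, nat_lit 2215, nat_lit 6643, nat_lit 6571, nat_lit 6591] (nat_lit 0) [nat_lit 26271] false,
   Spec.mk (nat_lit 6591) (nat_lit 4) [nat_lit 19713, nat_lit 2217, nat_lit 6645, nat_lit 6573, nat_lit 6597, nat_lit 6589] (nat_lit 0) [] false]

noncomputable def sp2 : List Spec :=
  [Spec.mk (nat_lit 6597) (nat_lit 5) [nat_lit 19719, nat_lit 2223, nat_lit 6651, nat_lit 6579, nat_lit 6615, nat_lit 6591] (nat_lit 0) [] false,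
   Spec.mk (nat_lit 6615) (nat_lit 4) [nat_lit 19737, nat_lit 2241, nat_lit 6669, nat_lit 6597] (nat_lit 0) [] false,
   Spec.mk (nat_lit 6643) (nat_lit 4) [nat_lit 19765, nat_lit 2269, nat_lit 6805, nat_lit 6589, nat_lit 6645] (nat_lit 0) [nat_lit 26325] false,
   Spec.mk (nat_lit 6645) (nat_lit 4) [nat_lit 19767, nat_lit 2271, nat_lit 6807, nat_lit 6591, nat_lit 6651, nat_lit 6643] (nat_lit 0) [] false,
   Spec.mk (nat_lit 6651) (nat_lit 4) [nat_lit 19773, nat_lit 2277, nat_lit 6813, nat_lit 6597, nat_lit 6669, nat_lit 6645] (nat_lit 0) [] false,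
   Spec.mk (nat_lit 6669) (nat_lit 5) [nat_lit 19791, nat_lit 2295, nat_lit 6831, nat_lit 6615, nat_lit 6723, nat_lit 6651] (nat_lit 0) [] false,
   Spec.mk (nat_lit 6723) (nat_lit 4) [nat_lit 19845, nat_lit 2349, nat_lit 6885, nat_lit 6669] (nat_lit 0) [] false,
   Spec.mk (nat_lit 6805) (nat_lit 4) [nat_lit 19927, nat_lit 2431, nat_lit 7291, nat_lit 6643, nat_lit 6807] (nat_lit 0) [nat_lit 26487] false,
   Spec.mk (nat_lit 6807) (nat_lit 4) [nat_lit 19929, nat_lit 2433, nat_lit 7293, nat_lit 6645, nat_lit 6813, nat_lit 6805] (nat_lit 0) [] false,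
   Spec.mk (nat_lit 6813) (nat_lit 4) [nat_lit 19935, nat_lit 2439, nat_lit 7299, nat_lit 6651, nat_lit 6831, nat_lit 6807] (nat_lit 0) [] false,
   Spec.mk (nat_lit 6831) (nat_lit 4) [nat_lit 19953, nat_lit 2457, nat_lit 7317, nat_lit 6669, nat_lit 6885, nat_lit 6813] (nat_lit 0) [] false,
   Spec.mk (nat_lit 6885) (nat_lit 5) [nat_lit 20007, nat_lit 2511, nat_lit 7371, nat_lit 6723, nat_lit 7047, nat_lit 6831] (nat_lit 0) [] false,
   Spec.mk (nat_lit 7047) (nat_lit 4) [nat_lit 20169, nat_lit 2673, nat_lit 7533, nat_lit 6885] (nat_lit 0) [] false,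
   Spec.mk (nat_lit 7291) (nat_lit 4) [nat_lit 20413, nat_lit 2917, nat_lit 8749, nat_lit 6805, nat_lit 7293] (nat_lit 0) [nat_lit 26973] false,
   Spec.mk (nat_lit 7293) (nat_lit 4) [nat_lit 20415, nat_lit 2919, nat_lit 8751, nat_lit 6807, nat_lit 7299, nat_lit 7291] (nat_lit 0) [] false,
   Spec.mk (nat_lit 7299) (nat_lit 4) [nat_lit 20421, nat_lit 2925, nat_lit 8757, nat_lit 6813, nat_lit 7317, nat_lit 7293] (nat_lit 0) [] false,
   Spec.mk (nat_lit 7317) (nat_lit 4) [nat_lit 20439, nat_lit 2943, nat_lit 8775, nat_lit 6831, nat_lit 7371, nat_lit 7299] (nat_lit 0) [] false,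
   Spec.mk (nat_lit 7371) (nat_lit 4) [nat_lit 20493, nat_lit 2997, nat_lit 8829, nat_lit 6885, nat_lit 7533, nat_lit 7317] (nat_lit 0) [] false,
   Spec.mk (nat_lit 7533) (nat_lit 5) [nat_lit 20655, nat_lit 3159, nat_lit 8991, nat_lit 7047, nat_lit 8019, nat_lit 7371] (nat_lit 0) [] false,
   Spec.mk (nat_lit 8019) (nat_lit 4) [nat_lit 21141, nat_lit 3645, nat_lit 9477, nat_lit 7533] (nat_lit 0) [] false,
   Spec.mk (nat_lit 8749) (nat_lit 5) [nat_lit 21871, nat_lit 4375, nat_lit 13123, nat_lit 7291, nat_lit 8751] (nat_lit 0) [nat_lit 28431] false,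
   Spec.mk (nat_lit 8751) (nat_lit 5) [nat_lit 21873, nat_lit 4377, nat_lit 13125, nat_lit 7293, nat_lit 8757, nat_lit 8749] (nat_lit 0) [] false,
   Spec.mk (nat_lit 8757) (nat_lit 5) [nat_lit 21879, nat_lit 4383, nat_lit 13131, nat_lit 7299, nat_lit 8775, nat_lit 8751] (nat_lit 0) [] false,
   Spec.mk (nat_lit 8775) (nat_lit 5) [nat_lit 21897, nat_lit 4401, nat_lit 13149, nat_lit 7317, nat_lit 8829, nat_lit 8757] (nat_lit 0) [] false,
   Spec.mk (nat_lit 8829) (nat_lit 5) [nat_lit 21951, nat_lit 4455, nat_lit 13203, nat_lit 7371, nat_lit 8991, nat_lit 8775] (nat_lit 0) [] false,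
   Spec.mk (nat_lit 8991) (nat_lit 5) [nat_lit 22113, nat_lit 4617, nat_lit 13365, nat_lit 7533, nat_lit 9477, nat_lit 8829] (nat_lit 0) [] false,
   Spec.mk (nat_lit 9477) (nat_lit 6) [nat_lit 22599, nat_lit 5103, nat_lit 13851, nat_lit 8019, nat_lit 10935, nat_lit 8991] (nat_lit 0) [] false,
   Spec.mk (nat_lit 10935) (nat_lit 6) [nat_lit 24057, nat_lit 15309, nat_lit 9477] (nat_lit 0) [] false,
   Spec.mk (nat_lit 13123) (nat_lit 4) [nat_lit 26245, nat_lit 8749, nat_lit 13125] (nat_lit 0) [nat_lit 32805] false,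
   Spec.mk (nat_lit 13125) (nat_lit 4) [nat_lit 26247, nat_lit 8751, nat_lit 13131, nat_lit 13123] (nat_lit 0) [] false,
   Spec.mk (nat_lit 13131) (nat_lit 4) [nat_lit 26253, nat_lit 8757, nat_lit 13149, nat_lit 13125] (nat_lit 0) [] false,
   Spec.mk (nat_lit 13149) (nat_lit 4) [nat_lit 26271, nat_lit 8775, nat_lit 13203, nat_lit 13131] (nat_lit 0) [] false,
   Spec.mk (nat_lit 13203) (nat_lit 4) [nat_lit 26325, nat_lit 8829, nat_lit 13365, nat_lit 13149] (nat_lit 0) [] false,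
   Spec.mk (nat_lit 13365) (nat_lit 4) [nat_lit 26487, nat_lit 8991, nat_lit 13851, nat_lit 13203] (nat_lit 0) [] false,
   Spec.mk (nat_lit 13851) (nat_lit 4) [nat_lit 26973, nat_lit 9477, nat_lit 15309, nat_lit 13365] (nat_lit 0) [] false,
   Spec.mk (nat_lit 15309) (nat_lit 6) [nat_lit 28431, nat_lit 10935, nat_lit 13851] (nat_lit 0) [] false,
   Spec.mk (nat_lit 19685) (nat_lit 6) [nat_lit 6563, nat_lit 19687] (nat_lit 0) [nat_lit 39367] false,
   Spec.mk (nat_lit 19687) (nat_lit 6) [nat_lit 6565, nat_lit 19693, nat_lit 19685, nat_lit 19689] (nat_lit 0) [nat_lit 39369, nat_lit 5] false,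
   Spec.mk (nat_lit 19689) (nat_lit 4) [nat_lit 6567, nat_lit 19695, nat_lit 19687] (nat_lit 0) [nat_lit 7] false,
   Spec.mk (nat_lit 19693) (nat_lit 5) [nat_lit 6571, nat_lit 19711, nat_lit 19687, nat_lit 19695] (nat_lit 0) [nat_lit 39375, nat_lit 11] false,
   Spec.mk (nat_lit 19695) (nat_lit 5) [nat_lit 6573, nat_lit 19713, nat_lit 19689, nat_lit 19701, nat_lit 19693] (nat_lit 0) [nat_lit 13] false,
   Spec.mk (nat_lit 19701) (nat_lit 4) [nat_lit 6579, nat_lit 19719, nat_lit 19695] (nat_lit 0) [nat_lit 19] false,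
   Spec.mk (nat_lit 19711) (nat_lit 5) [nat_lit 6589, nat_lit 19765, nat_lit 19693, nat_lit 19713] (nat_lit 0) [nat_lit 39393, nat_lit 29] false,
   Spec.mk (nat_lit 19713) (nat_lit 4) [nat_lit 6591, nat_lit 19767, nat_lit 19695, nat_lit 19719, nat_lit 19711] (nat_lit 0) [nat_lit 31] false,
   Spec.mk (nat_lit 19719) (nat_lit 5) [nat_lit 6597, nat_lit 19773, nat_lit 19701, nat_lit 19737, nat_lit 19713] (nat_lit 0) [nat_lit 37] false,
   Spec.mk (nat_lit 19737) (nat_lit 4) [nat_lit 6615, nat_lit 19791, nat_lit 19719] (nat_lit 0) [nat_lit 55] false,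
   Spec.mk (nat_lit 19765) (nat_lit 5) [nat_lit 6643, nat_lit 19927, nat_lit 19711, nat_lit 19767] (nat_lit 0) [nat_lit 39447, nat_lit 83] false,
   Spec.mk (nat_lit 19767) (nat_lit 4) [nat_lit 6645, nat_lit 19929, nat_lit 19713, nat_lit 19773, nat_lit 19765] (nat_lit 0) [nat_lit 85] false,
   Spec.mk (nat_lit 19773) (nat_lit 4) [nat_lit 6651, nat_lit 19935, nat_lit 19719, nat_lit 19791, nat_lit 19767] (nat_lit 0) [nat_lit 91] false,
   Spec.mk (nat_lit 19791) (nat_lit 5) [nat_lit 6669, nat_lit 19953, nat_lit 19737, nat_lit 19845, nat_lit 19773] (nat_lit 0) [nat_lit 109] false,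
   Spec.mk (nat_lit 19845) (nat_lit 4) [nat_lit 6723, nat_lit 20007, nat_lit 19791] (nat_lit 0) [nat_lit 163] false,
   Spec.mk (nat_lit 19927) (nat_lit 5) [nat_lit 6805, nat_lit 20413, nat_lit 19765, nat_lit 19929] (nat_lit 0) [nat_lit 39609, nat_lit 245] false,
   Spec.mk (nat_lit 19929) (nat_lit 4) [nat_lit 6807, nat_lit 20415, nat_lit 19767, nat_lit 19935, nat_lit 19927] (nat_lit 0) [nat_lit 247] false,
   Spec.mk (nat_lit 19935) (nat_lit 4) [nat_lit 6813, nat_lit 20421, nat_lit 19773, nat_lit 19953, nat_lit 19929] (nat_lit 0) [nat_lit 253] false,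
   Spec.mk (nat_lit 19953) (nat_lit 4) [nat_lit 6831, nat_lit 20439, nat_lit 19791, nat_lit 20007, nat_lit 19935] (nat_lit 0) [nat_lit 271] false,
   Spec.mk (nat_lit 20007) (nat_lit 5) [nat_lit 6885, nat_lit 20493, nat_lit 19845, nat_lit 20169, nat_lit 19953] (nat_lit 0) [nat_lit 325] false,
   Spec.mk (nat_lit 20169) (nat_lit 4) [nat_lit 7047, nat_lit 20655, nat_lit 20007] (nat_lit 0) [nat_lit 487] false,
   Spec.mk (nat_lit 20413) (nat_lit 5) [nat_lit 7291, nat_lit 21871, nat_lit 19927, nat_lit 20415] (nat_lit 0) [nat_lit 40095, nat_lit 731] false,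
   Spec.mk (nat_lit 20415) (nat_lit 4) [nat_lit 7293, nat_lit 21873, nat_lit 19929, nat_lit 20421, nat_lit 20413] (nat_lit 0) [nat_lit 733] false,
   Spec.mk (nat_lit 20421) (nat_lit 4) [nat_lit 7299, nat_lit 21879, nat_lit 19935, nat_lit 20439, nat_lit 20415] (nat_lit 0) [nat_lit 739] false]

noncomputable def sp3 : List Spec :=
  [Spec.mk (nat_lit 20439) (nat_lit 4) [nat_lit 7317, nat_lit 21897, nat_lit 19953, nat_lit 20493, nat_lit 20421] (nat_lit 0) [nat_lit 757] false,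
   Spec.mk (nat_lit 20493) (nat_lit 4) [nat_lit 7371, nat_lit 21951, nat_lit 20007, nat_lit 20655, nat_lit 20439] (nat_lit 0) [nat_lit 811] false,
   Spec.mk (nat_lit 20655) (nat_lit 5) [nat_lit 7533, nat_lit 22113, nat_lit 20169, nat_lit 21141, nat_lit 20493] (nat_lit 0) [nat_lit 973] false,
   Spec.mk (nat_lit 21141) (nat_lit 4) [nat_lit 8019, nat_lit 22599, nat_lit 20655] (nat_lit 0) [nat_lit 1459] false,
   Spec.mk (nat_lit 21871) (nat_lit 5) [nat_lit 8749, nat_lit 26245, nat_lit 20413, nat_lit 21873] (nat_lit 0) [nat_lit 41553, nat_lit 2189] false,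
   Spec.mk (nat_lit 21873) (nat_lit 4) [nat_lit 8751, nat_lit 26247, nat_lit 20415, nat_lit 21879, nat_lit 21871] (nat_lit 0) [nat_lit 2191] false,
   Spec.mk (nat_lit 21879) (nat_lit 4) [nat_lit 8757, nat_lit 26253, nat_lit 20421, nat_lit 21897, nat_lit 21873] (nat_lit 0) [nat_lit 2197] false,
   Spec.mk (nat_lit 21897) (nat_lit 4) [nat_lit 8775, nat_lit 26271, nat_lit 20439, nat_lit 21951, nat_lit 21879] (nat_lit 0) [nat_lit 2215] false,
   Spec.mk (nat_lit 21951) (nat_lit 4) [nat_lit 8829, nat_lit 26325, nat_lit 20493, nat_lit 22113, nat_lit 21897] (nat_lit 0) [nat_lit 2269] false,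
   Spec.mk (nat_lit 22113) (nat_lit 4) [nat_lit 8991, nat_lit 26487, nat_lit 20655, nat_lit 22599, nat_lit 21951] (nat_lit 0) [nat_lit 2431] false,
   Spec.mk (nat_lit 22599) (nat_lit 5) [nat_lit 9477, nat_lit 26973, nat_lit 21141, nat_lit 24057, nat_lit 22113] (nat_lit 0) [nat_lit 2917] false,
   Spec.mk (nat_lit 24057) (nat_lit 4) [nat_lit 10935, nat_lit 28431, nat_lit 22599] (nat_lit 0) [nat_lit 4375] false,
   Spec.mk (nat_lit 26245) (nat_lit 6) [nat_lit 13123, nat_lit 39367, nat_lit 21871, nat_lit 26247] (nat_lit 0) [nat_lit 45927, nat_lit 6563] false,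
   Spec.mk (nat_lit 26247) (nat_lit 5) [nat_lit 13125, nat_lit 39369, nat_lit 21873, nat_lit 26253, nat_lit 26245] (nat_lit 0) [nat_lit 6565] false,
   Spec.mk (nat_lit 26253) (nat_lit 5) [nat_lit 13131, nat_lit 39375, nat_lit 21879, nat_lit 26271, nat_lit 26247] (nat_lit 0) [nat_lit 6571] false,
   Spec.mk (nat_lit 26271) (nat_lit 5) [nat_lit 13149, nat_lit 39393, nat_lit 21897, nat_lit 26325, nat_lit 26253] (nat_lit 0) [nat_lit 6589] false,
   Spec.mk (nat_lit 26325) (nat_lit 5) [nat_lit 13203, nat_lit 39447, nat_lit 21951, nat_lit 26487, nat_lit 26271] (nat_lit 0) [nat_lit 6643] false,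
   Spec.mk (nat_lit 26487) (nat_lit 5) [nat_lit 13365, nat_lit 39609, nat_lit 22113, nat_lit 26973, nat_lit 26325] (nat_lit 0) [nat_lit 6805] false,
   Spec.mk (nat_lit 26973) (nat_lit 5) [nat_lit 13851, nat_lit 40095, nat_lit 22599, nat_lit 28431, nat_lit 26487] (nat_lit 0) [nat_lit 7291] false,
   Spec.mk (nat_lit 28431) (nat_lit 6) [nat_lit 15309, nat_lit 41553, nat_lit 24057, nat_lit 32805, nat_lit 26973] (nat_lit 0) [nat_lit 8749] false,
   Spec.mk (nat_lit 32805) (nat_lit 6) [nat_lit 45927, nat_lit 28431] (nat_lit 0) [nat_lit 13123] false,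
   Spec.mk (nat_lit 39367) (nat_lit 6) [nat_lit 26245, nat_lit 39369] (nat_lit 0) [nat_lit 19685] false,
   Spec.mk (nat_lit 39369) (nat_lit 4) [nat_lit 26247, nat_lit 39375, nat_lit 39367] (nat_lit 0) [nat_lit 19687] false,
   Spec.mk (nat_lit 39375) (nat_lit 4) [nat_lit 26253, nat_lit 39393, nat_lit 39369] (nat_lit 0) [nat_lit 19693] false,
   Spec.mk (nat_lit 39393) (nat_lit 4) [nat_lit 26271, nat_lit 39447, nat_lit 39375] (nat_lit 0) [nat_lit 19711] false,
   Spec.mk (nat_lit 39447) (nat_lit 4) [nat_lit 26325, nat_lit 39609, nat_lit 39393] (nat_lit 0) [nat_lit 19765] false,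
   Spec.mk (nat_lit 39609) (nat_lit 4) [nat_lit 26487, nat_lit 40095, nat_lit 39447] (nat_lit 0) [nat_lit 19927] false,
   Spec.mk (nat_lit 40095) (nat_lit 4) [nat_lit 26973, nat_lit 41553, nat_lit 39609] (nat_lit 0) [nat_lit 20413] false,
   Spec.mk (nat_lit 41553) (nat_lit 4) [nat_lit 28431, nat_lit 45927, nat_lit 40095] (nat_lit 0) [nat_lit 21871] false,
   Spec.mk (nat_lit 45927) (nat_lit 6) [nat_lit 32805, nat_lit 41553] (nat_lit 0) [nat_lit 26245] false]

noncomputable def specs : List (List Spec) :=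
    sp0 :: sp1 :: sp2 :: sp3 :: []

noncomputable def step (e : Nat → Nat) (C ap an : Nat) (k :
    Nat → Nat → Nat → Nat → Nat → Nat → Nat → Nat → Nat → Nat → Nat → Nat → Nat → Nat → Nat → Nat →
    Nat → Nat → Nat → Nat → Nat → Nat → Nat → Nat → Nat → Nat → Nat → Nat → Nat → Nat → Nat → Nat →
    Nat → Nat → Nat → Nat → Nat → Nat → Nat → Nat → Nat → Nat → Nat → Nat → Nat → Nat → Nat → Nat →
    Nat → Nat → Nat → Nat → Nat → Nat → Nat → Nat → Nat → Nat → Nat → Nat → Nat → Nat → Nat → Nat →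
    Nat → Nat → Nat → Nat → Nat → Nat → Nat → Nat → Nat → Nat → Nat → Nat → Nat → Nat → Nat → Nat →
    Nat → Nat → Nat → Nat → Nat → Nat → Nat → Nat → Nat → Nat → Nat → Nat → Nat → Nat → Nat → Nat →
    Nat → Nat → Nat → Nat → Nat → Nat → Nat → Nat → Nat → Nat → Nat → Nat → Nat → Nat → Nat → Nat →
    Nat → Nat → Nat → Nat → Nat → Nat → Nat → Nat → Nat → Nat → Nat → Nat → Nat → Nat → Nat → Nat →
    Nat → Nat → Nat → Nat → Nat → Nat → Nat → Nat → Nat → Nat → Nat → Nat → Nat → Nat → Nat → Nat →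
    Nat → Nat → Nat → Nat → Nat → Nat → Nat → Nat → Nat → Nat → Nat → Nat → Nat → Nat → Nat → Nat →
    Nat → Nat → Nat → Nat → Nat → Nat → Nat → Nat → Nat → Nat → Nat → Nat → Nat → Nat → Nat → Nat →
    Nat → Nat → Nat → Nat → Nat → Nat → Nat → Nat → Nat → Nat → Nat → Nat → Nat → Nat → Nat → Nat →
    Nat → Nat → Nat → Nat → Nat → Nat → Nat → Nat → Nat → Nat → Nat → Nat → Nat → Nat → Nat → Nat →
    Nat → Nat → Bool)
  (
    x5 x7 x11 x13 x15 x19 x21 x29 x31 x33 x37 x39 x45 x55 x57 x63 x83 x85 x87 x91 x93 x99 x109 x111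
    x117 x135 x163 x165 x171 x189 x245 x247 x249 x253 x255 x261 x271 x273 x279 x297 x325 x327 x333
    x351 x405 x487 x489 x495 x513 x567 x731 x733 x735 x739 x741 x747 x757 x759 x765 x783 x811 x813
    x819 x837 x891 x973 x975 x981 x999 x1053 x1215 x1459 x1461 x1467 x1485 x1539 x1701 x2189 x2191
    x2193 x2197 x2199 x2205 x2215 x2217 x2223 x2241 x2269 x2271 x2277 x2295 x2349 x2431 x2433 x2439
    x2457 x2511 x2673 x2917 x2919 x2925 x2943 x2997 x3159 x3645 x4375 x4377 x4383 x4401 x4455 x4617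
    x5103 x6563 x6565 x6567 x6571 x6573 x6579 x6589 x6591 x6597 x6615 x6643 x6645 x6651 x6669 x6723
    x6805 x6807 x6813 x6831 x6885 x7047 x7291 x7293 x7299 x7317 x7371 x7533 x8019 x8749 x8751 x8757
    x8775 x8829 x8991 x9477 x10935 x13123 x13125 x13131 x13149 x13203 x13365 x13851 x15309 x19685
    x19687 x19689 x19693 x19695 x19701 x19711 x19713 x19719 x19737 x19765 x19767 x19773 x19791
    x19845 x19927 x19929 x19935 x19953 x20007 x20169 x20413 x20415 x20421 x20439 x20493 x20655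
    x21141 x21871 x21873 x21879 x21897 x21951 x22113 x22599 x24057 x26245 x26247 x26253 x26271
    x26325 x26487 x26973 x28431 x32805 x39367 x39369 x39375 x39393 x39447 x39609 x40095 x41553
    x45927 : Nat) : Bool :=
  k
    (Nat.sub (Nat.sub (Nat.add (Nat.add (Nat.add (Nat.add C (Nat.mul x5 (nat_lit 6))) x11) x7) (Nat.mul (e (nat_lit 5)) ap)) x19687) (Nat.mul (e (nat_lit 5)) an))
    (Nat.sub (Nat.add (Nat.add (Nat.add C (Nat.mul x7 (nat_lit 6))) x13) x5) x19689)
    (Nat.sub (Nat.sub (Nat.add (Nat.add (Nat.add (Nat.add (Nat.add C (Nat.mul x11 (nat_lit 4))) x29) x5) x13) (Nat.mul (e (nat_lit 11)) ap)) x19693) (Nat.mul (e (nat_lit 11)) an))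
    (Nat.sub (Nat.sub (Nat.add (Nat.add (Nat.add (Nat.add (Nat.add (Nat.add (Nat.add C (Nat.mul x13 (nat_lit 6))) x31) x7) x19) x11) x15) (Nat.mul (e (nat_lit 13)) ap)) x19695) (Nat.mul (e (nat_lit 13)) an))
    (Nat.add (Nat.add (Nat.add (Nat.add C (Nat.mul x15 (nat_lit 6))) x33) x21) x13)
    (Nat.sub (Nat.add (Nat.add (Nat.add (Nat.add C (Nat.mul x19 (nat_lit 4))) x37) x13) x21) x19701)
    (Nat.add (Nat.add (Nat.add (Nat.add C (Nat.mul x21 (nat_lit 6))) x39) x15) x19)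
    (Nat.sub (Nat.sub (Nat.add (Nat.add (Nat.add (Nat.add (Nat.add C (Nat.mul x29 (nat_lit 4))) x83) x11) x31) (Nat.mul (e (nat_lit 29)) ap)) x19711) (Nat.mul (e (nat_lit 29)) an))
    (Nat.sub (Nat.sub (Nat.add (Nat.add (Nat.add (Nat.add (Nat.add (Nat.add (Nat.add C (Nat.mul x31 (nat_lit 5))) x85) x13) x37) x29) x33) (Nat.mul (e (nat_lit 31)) ap)) x19713) (Nat.mul (e (nat_lit 31)) an))
    (Nat.add (Nat.add (Nat.add (Nat.add (Nat.add C (Nat.mul x33 (nat_lit 4))) x87) x15) x39) x31)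
    (Nat.sub (Nat.add (Nat.add (Nat.add (Nat.add (Nat.add (Nat.add C (Nat.mul x37 (nat_lit 5))) x91) x19) x55) x31) x39) x19719)
    (Nat.add (Nat.add (Nat.add (Nat.add (Nat.add (Nat.add (Nat.add C (Nat.mul x39 (nat_lit 6))) x93) x21) x57) x33) x45) x37)
    (Nat.add (Nat.add (Nat.add (Nat.add C (Nat.mul x45 (nat_lit 6))) x99) x63) x39)
    (Nat.sub (Nat.add (Nat.add (Nat.add (Nat.add C (Nat.mul x55 (nat_lit 4))) x109) x37) x57) x19737)
    (Nat.add (Nat.add (Nat.add (Nat.add (Nat.add C (Nat.mul x57 (nat_lit 4))) x111) x39) x63) x55)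
    (Nat.add (Nat.add (Nat.add (Nat.add C (Nat.mul x63 (nat_lit 6))) x117) x45) x57)
    (Nat.sub (Nat.sub (Nat.add (Nat.add (Nat.add (Nat.add (Nat.add C (Nat.mul x83 (nat_lit 4))) x245) x29) x85) (Nat.mul (e (nat_lit 83)) ap)) x19765) (Nat.mul (e (nat_lit 83)) an))
    (Nat.sub (Nat.sub (Nat.add (Nat.add (Nat.add (Nat.add (Nat.add (Nat.add (Nat.add C (Nat.mul x85 (nat_lit 5))) x247) x31) x91) x83) x87) (Nat.mul (e (nat_lit 85)) ap)) x19767) (Nat.mul (e (nat_lit 85)) an))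
    (Nat.add (Nat.add (Nat.add (Nat.add (Nat.add C (Nat.mul x87 (nat_lit 4))) x249) x33) x93) x85)
    (Nat.sub (Nat.sub (Nat.add (Nat.add (Nat.add (Nat.add (Nat.add (Nat.add (Nat.add C (Nat.mul x91 (nat_lit 4))) x253) x37) x109) x85) x93) (Nat.mul (e (nat_lit 91)) ap)) x19773) (Nat.mul (e (nat_lit 91)) an))
    (Nat.add (Nat.add (Nat.add (Nat.add (Nat.add (Nat.add (Nat.add C (Nat.mul x93 (nat_lit 5))) x255) x39) x111) x87) x99) x91)
    (Nat.add (Nat.add (Nat.add (Nat.add (Nat.add C (Nat.mul x99 (nat_lit 4))) x261) x45) x117) x93)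
    (Nat.sub (Nat.add (Nat.add (Nat.add (Nat.add (Nat.add (Nat.add C (Nat.mul x109 (nat_lit 5))) x271) x55) x163) x91) x111) x19791)
    (Nat.add (Nat.add (Nat.add (Nat.add (Nat.add (Nat.add (Nat.add C (Nat.mul x111 (nat_lit 5))) x273) x57) x165) x93) x117) x109)
    (Nat.add (Nat.add (Nat.add (Nat.add (Nat.add (Nat.add (Nat.add C (Nat.mul x117 (nat_lit 6))) x279) x63) x171) x99) x135) x111)
    (Nat.add (Nat.add (Nat.add (Nat.add C (Nat.mul x135 (nat_lit 6))) x297) x189) x117)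
    (Nat.sub (Nat.add (Nat.add (Nat.add (Nat.add C (Nat.mul x163 (nat_lit 4))) x325) x109) x165) x19845)
    (Nat.add (Nat.add (Nat.add (Nat.add (Nat.add C (Nat.mul x165 (nat_lit 4))) x327) x111) x171) x163)
    (Nat.add (Nat.add (Nat.add (Nat.add (Nat.add C (Nat.mul x171 (nat_lit 4))) x333) x117) x189) x165)
    (Nat.add (Nat.add (Nat.add (Nat.add C (Nat.mul x189 (nat_lit 6))) x351) x135) x171)
    (Nat.sub (Nat.sub (Nat.add (Nat.add (Nat.add (Nat.add (Nat.add C (Nat.mul x245 (nat_lit 4))) x731) x83) x247) (Nat.mul (e (nat_lit 245)) ap)) x19927) (Nat.mul (e (nat_lit 245)) an))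
    (Nat.sub (Nat.sub (Nat.add (Nat.add (Nat.add (Nat.add (Nat.add (Nat.add (Nat.add C (Nat.mul x247 (nat_lit 5))) x733) x85) x253) x245) x249) (Nat.mul (e (nat_lit 247)) ap)) x19929) (Nat.mul (e (nat_lit 247)) an))
    (Nat.add (Nat.add (Nat.add (Nat.add (Nat.add C (Nat.mul x249 (nat_lit 4))) x735) x87) x255) x247)
    (Nat.sub (Nat.sub (Nat.add (Nat.add (Nat.add (Nat.add (Nat.add (Nat.add (Nat.add C (Nat.mul x253 (nat_lit 4))) x739) x91) x271) x247) x255) (Nat.mul (e (nat_lit 253)) ap)) x19935) (Nat.mul (e (nat_lit 253)) an))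
    (Nat.add (Nat.add (Nat.add (Nat.add (Nat.add (Nat.add (Nat.add C (Nat.mul x255 (nat_lit 5))) x741) x93) x273) x249) x261) x253)
    (Nat.add (Nat.add (Nat.add (Nat.add (Nat.add C (Nat.mul x261 (nat_lit 4))) x747) x99) x279) x255)
    (Nat.sub (Nat.add (Nat.add (Nat.add (Nat.add (Nat.add (Nat.add C (Nat.mul x271 (nat_lit 4))) x757) x109) x325) x253) x273) x19953)
    (Nat.add (Nat.add (Nat.add (Nat.add (Nat.add (Nat.add (Nat.add C (Nat.mul x273 (nat_lit 4))) x759) x111) x327) x255) x279) x271)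
    (Nat.add (Nat.add (Nat.add (Nat.add (Nat.add (Nat.add (Nat.add C (Nat.mul x279 (nat_lit 5))) x765) x117) x333) x261) x297) x273)
    (Nat.add (Nat.add (Nat.add (Nat.add (Nat.add C (Nat.mul x297 (nat_lit 4))) x783) x135) x351) x279)
    (Nat.sub (Nat.add (Nat.add (Nat.add (Nat.add (Nat.add (Nat.add C (Nat.mul x325 (nat_lit 5))) x811) x163) x487) x271) x327) x20007)
    (Nat.add (Nat.add (Nat.add (Nat.add (Nat.add (Nat.add (Nat.add C (Nat.mul x327 (nat_lit 5))) x813) x165) x489) x273) x333) x325)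
    (Nat.add (Nat.add (Nat.add (Nat.add (Nat.add (Nat.add (Nat.add C (Nat.mul x333 (nat_lit 5))) x819) x171) x495) x279) x351) x327)
    (Nat.add (Nat.add (Nat.add (Nat.add (Nat.add (Nat.add (Nat.add C (Nat.mul x351 (nat_lit 6))) x837) x189) x513) x297) x405) x333)
    (Nat.add (Nat.add (Nat.add (Nat.add C (Nat.mul x405 (nat_lit 6))) x891) x567) x351)
    (Nat.sub (Nat.add (Nat.add (Nat.add (Nat.add C (Nat.mul x487 (nat_lit 4))) x973) x325) x489) x20169)
    (Nat.add (Nat.add (Nat.add (Nat.add (Nat.add C (Nat.mul x489 (nat_lit 4))) x975) x327) x495) x487)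
    (Nat.add (Nat.add (Nat.add (Nat.add (Nat.add C (Nat.mul x495 (nat_lit 4))) x981) x333) x513) x489)
    (Nat.add (Nat.add (Nat.add (Nat.add (Nat.add C (Nat.mul x513 (nat_lit 4))) x999) x351) x567) x495)
    (Nat.add (Nat.add (Nat.add (Nat.add C (Nat.mul x567 (nat_lit 6))) x1053) x405) x513)
    (Nat.sub (Nat.add (Nat.add (Nat.add (Nat.add C (Nat.mul x731 (nat_lit 4))) x2189) x245) x733) x20413)
    (Nat.sub (Nat.add (Nat.add (Nat.add (Nat.add (Nat.add (Nat.add C (Nat.mul x733 (nat_lit 5))) x2191) x247) x739) x731) x735) x20415)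
    (Nat.add (Nat.add (Nat.add (Nat.add (Nat.add C (Nat.mul x735 (nat_lit 4))) x2193) x249) x741) x733)
    (Nat.sub (Nat.sub (Nat.add (Nat.add (Nat.add (Nat.add (Nat.add (Nat.add (Nat.add C (Nat.mul x739 (nat_lit 4))) x2197) x253) x757) x733) x741) (Nat.mul (e (nat_lit 739)) ap)) x20421) (Nat.mul (e (nat_lit 739)) an))
    (Nat.add (Nat.add (Nat.add (Nat.add (Nat.add (Nat.add (Nat.add C (Nat.mul x741 (nat_lit 5))) x2199) x255) x759) x735) x747) x739)
    (Nat.add (Nat.add (Nat.add (Nat.add (Nat.add C (Nat.mul x747 (nat_lit 4))) x2205) x261) x765) x741)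
    (Nat.sub (Nat.sub (Nat.add (Nat.add (Nat.add (Nat.add (Nat.add (Nat.add (Nat.add C (Nat.mul x757 (nat_lit 4))) x2215) x271) x811) x739) x759) (Nat.mul (e (nat_lit 757)) ap)) x20439) (Nat.mul (e (nat_lit 757)) an))
    (Nat.add (Nat.add (Nat.add (Nat.add (Nat.add (Nat.add (Nat.add C (Nat.mul x759 (nat_lit 4))) x2217) x273) x813) x741) x765) x757)
    (Nat.add (Nat.add (Nat.add (Nat.add (Nat.add (Nat.add (Nat.add C (Nat.mul x765 (nat_lit 5))) x2223) x279) x819) x747) x783) x759)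
    (Nat.add (Nat.add (Nat.add (Nat.add (Nat.add C (Nat.mul x783 (nat_lit 4))) x2241) x297) x837) x765)
    (Nat.sub (Nat.add (Nat.add (Nat.add (Nat.add (Nat.add (Nat.add C (Nat.mul x811 (nat_lit 4))) x2269) x325) x973) x757) x813) x20493)
    (Nat.add (Nat.add (Nat.add (Nat.add (Nat.add (Nat.add (Nat.add C (Nat.mul x813 (nat_lit 4))) x2271) x327) x975) x759) x819) x811)
    (Nat.add (Nat.add (Nat.add (Nat.add (Nat.add (Nat.add (Nat.add C (Nat.mul x819 (nat_lit 4))) x2277) x333) x981) x765) x837) x813)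
    (Nat.add (Nat.add (Nat.add (Nat.add (Nat.add (Nat.add (Nat.add C (Nat.mul x837 (nat_lit 5))) x2295) x351) x999) x783) x891) x819)
    (Nat.add (Nat.add (Nat.add (Nat.add (Nat.add C (Nat.mul x891 (nat_lit 4))) x2349) x405) x1053) x837)
    (Nat.sub (Nat.add (Nat.add (Nat.add (Nat.add (Nat.add (Nat.add C (Nat.mul x973 (nat_lit 5))) x2431) x487) x1459) x811) x975) x20655)
    (Nat.add (Nat.add (Nat.add (Nat.add (Nat.add (Nat.add (Nat.add C (Nat.mul x975 (nat_lit 5))) x2433) x489) x1461) x813) x981) x973)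
    (Nat.add (Nat.add (Nat.add (Nat.add (Nat.add (Nat.add (Nat.add C (Nat.mul x981 (nat_lit 5))) x2439) x495) x1467) x819) x999) x975)
    (Nat.add (Nat.add (Nat.add (Nat.add (Nat.add (Nat.add (Nat.add C (Nat.mul x999 (nat_lit 5))) x2457) x513) x1485) x837) x1053) x981)
    (Nat.add (Nat.add (Nat.add (Nat.add (Nat.add (Nat.add (Nat.add C (Nat.mul x1053 (nat_lit 6))) x2511) x567) x1539) x891) x1215) x999)
    (Nat.add (Nat.add (Nat.add (Nat.add C (Nat.mul x1215 (nat_lit 6))) x2673) x1701) x1053)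
    (Nat.sub (Nat.add (Nat.add (Nat.add (Nat.add C (Nat.mul x1459 (nat_lit 4))) x2917) x973) x1461) x21141)
    (Nat.add (Nat.add (Nat.add (Nat.add (Nat.add C (Nat.mul x1461 (nat_lit 4))) x2919) x975) x1467) x1459)
    (Nat.add (Nat.add (Nat.add (Nat.add (Nat.add C (Nat.mul x1467 (nat_lit 4))) x2925) x981) x1485) x1461)
    (Nat.add (Nat.add (Nat.add (Nat.add (Nat.add C (Nat.mul x1485 (nat_lit 4))) x2943) x999) x1539) x1467)
    (Nat.add (Nat.add (Nat.add (Nat.add (Nat.add C (Nat.mul x1539 (nat_lit 4))) x2997) x1053) x1701) x1485)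
    (Nat.add (Nat.add (Nat.add (Nat.add C (Nat.mul x1701 (nat_lit 6))) x3159) x1215) x1539)
    (Nat.sub (Nat.add (Nat.add (Nat.add (Nat.add C (Nat.mul x2189 (nat_lit 4))) x6563) x731) x2191) x21871)
    (Nat.sub (Nat.add (Nat.add (Nat.add (Nat.add (Nat.add (Nat.add C (Nat.mul x2191 (nat_lit 5))) x6565) x733) x2197) x2189) x2193) x21873)
    (Nat.add (Nat.add (Nat.add (Nat.add (Nat.add C (Nat.mul x2193 (nat_lit 4))) x6567) x735) x2199) x2191)
    (Nat.sub (Nat.add (Nat.add (Nat.add (Nat.add (Nat.add (Nat.add C (Nat.mul x2197 (nat_lit 4))) x6571) x739) x2215) x2191) x2199) x21879)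
    (Nat.add (Nat.add (Nat.add (Nat.add (Nat.add (Nat.add (Nat.add C (Nat.mul x2199 (nat_lit 5))) x6573) x741) x2217) x2193) x2205) x2197)
    (Nat.add (Nat.add (Nat.add (Nat.add (Nat.add C (Nat.mul x2205 (nat_lit 4))) x6579) x747) x2223) x2199)
    (Nat.sub (Nat.add (Nat.add (Nat.add (Nat.add (Nat.add (Nat.add C (Nat.mul x2215 (nat_lit 4))) x6589) x757) x2269) x2197) x2217) x21897)
    (Nat.add (Nat.add (Nat.add (Nat.add (Nat.add (Nat.add (Nat.add C (Nat.mul x2217 (nat_lit 4))) x6591) x759) x2271) x2199) x2223) x2215)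
    (Nat.add (Nat.add (Nat.add (Nat.add (Nat.add (Nat.add (Nat.add C (Nat.mul x2223 (nat_lit 5))) x6597) x765) x2277) x2205) x2241) x2217)
    (Nat.add (Nat.add (Nat.add (Nat.add (Nat.add C (Nat.mul x2241 (nat_lit 4))) x6615) x783) x2295) x2223)
    (Nat.sub (Nat.add (Nat.add (Nat.add (Nat.add (Nat.add (Nat.add C (Nat.mul x2269 (nat_lit 4))) x6643) x811) x2431) x2215) x2271) x21951)
    (Nat.add (Nat.add (Nat.add (Nat.add (Nat.add (Nat.add (Nat.add C (Nat.mul x2271 (nat_lit 4))) x6645) x813) x2433) x2217) x2277) x2269)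
    (Nat.add (Nat.add (Nat.add (Nat.add (Nat.add (Nat.add (Nat.add C (Nat.mul x2277 (nat_lit 4))) x6651) x819) x2439) x2223) x2295) x2271)
    (Nat.add (Nat.add (Nat.add (Nat.add (Nat.add (Nat.add (Nat.add C (Nat.mul x2295 (nat_lit 5))) x6669) x837) x2457) x2241) x2349) x2277)
    (Nat.add (Nat.add (Nat.add (Nat.add (Nat.add C (Nat.mul x2349 (nat_lit 4))) x6723) x891) x2511) x2295)
    (Nat.sub (Nat.add (Nat.add (Nat.add (Nat.add (Nat.add (Nat.add C (Nat.mul x2431 (nat_lit 4))) x6805) x973) x2917) x2269) x2433) x22113)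
    (Nat.add (Nat.add (Nat.add (Nat.add (Nat.add (Nat.add (Nat.add C (Nat.mul x2433 (nat_lit 4))) x6807) x975) x2919) x2271) x2439) x2431)
    (Nat.add (Nat.add (Nat.add (Nat.add (Nat.add (Nat.add (Nat.add C (Nat.mul x2439 (nat_lit 4))) x6813) x981) x2925) x2277) x2457) x2433)
    (Nat.add (Nat.add (Nat.add (Nat.add (Nat.add (Nat.add (Nat.add C (Nat.mul x2457 (nat_lit 4))) x6831) x999) x2943) x2295) x2511) x2439)
    (Nat.add (Nat.add (Nat.add (Nat.add (Nat.add (Nat.add (Nat.add C (Nat.mul x2511 (nat_lit 5))) x6885) x1053) x2997) x2349) x2673) x2457)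
    (Nat.add (Nat.add (Nat.add (Nat.add (Nat.add C (Nat.mul x2673 (nat_lit 4))) x7047) x1215) x3159) x2511)
    (Nat.sub (Nat.add (Nat.add (Nat.add (Nat.add (Nat.add (Nat.add C (Nat.mul x2917 (nat_lit 5))) x7291) x1459) x4375) x2431) x2919) x22599)
    (Nat.add (Nat.add (Nat.add (Nat.add (Nat.add (Nat.add (Nat.add C (Nat.mul x2919 (nat_lit 5))) x7293) x1461) x4377) x2433) x2925) x2917)
    (Nat.add (Nat.add (Nat.add (Nat.add (Nat.add (Nat.add (Nat.add C (Nat.mul x2925 (nat_lit 5))) x7299) x1467) x4383) x2439) x2943) x2919)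
    (Nat.add (Nat.add (Nat.add (Nat.add (Nat.add (Nat.add (Nat.add C (Nat.mul x2943 (nat_lit 5))) x7317) x1485) x4401) x2457) x2997) x2925)
    (Nat.add (Nat.add (Nat.add (Nat.add (Nat.add (Nat.add (Nat.add C (Nat.mul x2997 (nat_lit 5))) x7371) x1539) x4455) x2511) x3159) x2943)
    (Nat.add (Nat.add (Nat.add (Nat.add (Nat.add (Nat.add (Nat.add C (Nat.mul x3159 (nat_lit 6))) x7533) x1701) x4617) x2673) x3645) x2997)
    (Nat.add (Nat.add (Nat.add (Nat.add C (Nat.mul x3645 (nat_lit 6))) x8019) x5103) x3159)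
    (Nat.sub (Nat.add (Nat.add (Nat.add (Nat.add C (Nat.mul x4375 (nat_lit 4))) x8749) x2917) x4377) x24057)
    (Nat.add (Nat.add (Nat.add (Nat.add (Nat.add C (Nat.mul x4377 (nat_lit 4))) x8751) x2919) x4383) x4375)
    (Nat.add (Nat.add (Nat.add (Nat.add (Nat.add C (Nat.mul x4383 (nat_lit 4))) x8757) x2925) x4401) x4377)
    (Nat.add (Nat.add (Nat.add (Nat.add (Nat.add C (Nat.mul x4401 (nat_lit 4))) x8775) x2943) x4455) x4383)
    (Nat.add (Nat.add (Nat.add (Nat.add (Nat.add C (Nat.mul x4455 (nat_lit 4))) x8829) x2997) x4617) x4401)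
    (Nat.add (Nat.add (Nat.add (Nat.add (Nat.add C (Nat.mul x4617 (nat_lit 4))) x8991) x3159) x5103) x4455)
    (Nat.add (Nat.add (Nat.add (Nat.add C (Nat.mul x5103 (nat_lit 6))) x9477) x3645) x4617)
    (Nat.sub (Nat.add (Nat.add (Nat.add (Nat.add C (Nat.mul x6563 (nat_lit 4))) x19685) x2189) x6565) x26245)
    (Nat.sub (Nat.add (Nat.add (Nat.add (Nat.add (Nat.add (Nat.add C (Nat.mul x6565 (nat_lit 5))) x19687) x2191) x6571) x6563) x6567) x26247)
    (Nat.add (Nat.add (Nat.add (Nat.add (Nat.add C (Nat.mul x6567 (nat_lit 4))) x19689) x2193) x6573) x6565)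
    (Nat.sub (Nat.add (Nat.add (Nat.add (Nat.add (Nat.add (Nat.add C (Nat.mul x6571 (nat_lit 4))) x19693) x2197) x6589) x6565) x6573) x26253)
    (Nat.add (Nat.add (Nat.add (Nat.add (Nat.add (Nat.add (Nat.add C (Nat.mul x6573 (nat_lit 5))) x19695) x2199) x6591) x6567) x6579) x6571)
    (Nat.add (Nat.add (Nat.add (Nat.add (Nat.add C (Nat.mul x6579 (nat_lit 4))) x19701) x2205) x6597) x6573)
    (Nat.sub (Nat.add (Nat.add (Nat.add (Nat.add (Nat.add (Nat.add C (Nat.mul x6589 (nat_lit 4))) x19711) x2215) x6643) x6571) x6591) x26271)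
    (Nat.add (Nat.add (Nat.add (Nat.add (Nat.add (Nat.add (Nat.add C (Nat.mul x6591 (nat_lit 4))) x19713) x2217) x6645) x6573) x6597) x6589)
    (Nat.add (Nat.add (Nat.add (Nat.add (Nat.add (Nat.add (Nat.add C (Nat.mul x6597 (nat_lit 5))) x19719) x2223) x6651) x6579) x6615) x6591)
    (Nat.add (Nat.add (Nat.add (Nat.add (Nat.add C (Nat.mul x6615 (nat_lit 4))) x19737) x2241) x6669) x6597)
    (Nat.sub (Nat.add (Nat.add (Nat.add (Nat.add (Nat.add (Nat.add C (Nat.mul x6643 (nat_lit 4))) x19765) x2269) x6805) x6589) x6645) x26325)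
    (Nat.add (Nat.add (Nat.add (Nat.add (Nat.add (Nat.add (Nat.add C (Nat.mul x6645 (nat_lit 4))) x19767) x2271) x6807) x6591) x6651) x6643)
    (Nat.add (Nat.add (Nat.add (Nat.add (Nat.add (Nat.add (Nat.add C (Nat.mul x6651 (nat_lit 4))) x19773) x2277) x6813) x6597) x6669) x6645)
    (Nat.add (Nat.add (Nat.add (Nat.add (Nat.add (Nat.add (Nat.add C (Nat.mul x6669 (nat_lit 5))) x19791) x2295) x6831) x6615) x6723) x6651)
    (Nat.add (Nat.add (Nat.add (Nat.add (Nat.add C (Nat.mul x6723 (nat_lit 4))) x19845) x2349) x6885) x6669)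
    (Nat.sub (Nat.add (Nat.add (Nat.add (Nat.add (Nat.add (Nat.add C (Nat.mul x6805 (nat_lit 4))) x19927) x2431) x7291) x6643) x6807) x26487)
    (Nat.add (Nat.add (Nat.add (Nat.add (Nat.add (Nat.add (Nat.add C (Nat.mul x6807 (nat_lit 4))) x19929) x2433) x7293) x6645) x6813) x6805)
    (Nat.add (Nat.add (Nat.add (Nat.add (Nat.add (Nat.add (Nat.add C (Nat.mul x6813 (nat_lit 4))) x19935) x2439) x7299) x6651) x6831) x6807)
    (Nat.add (Nat.add (Nat.add (Nat.add (Nat.add (Nat.add (Nat.add C (Nat.mul x6831 (nat_lit 4))) x19953) x2457) x7317) x6669) x6885) x6813)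
    (Nat.add (Nat.add (Nat.add (Nat.add (Nat.add (Nat.add (Nat.add C (Nat.mul x6885 (nat_lit 5))) x20007) x2511) x7371) x6723) x7047) x6831)
    (Nat.add (Nat.add (Nat.add (Nat.add (Nat.add C (Nat.mul x7047 (nat_lit 4))) x20169) x2673) x7533) x6885)
    (Nat.sub (Nat.add (Nat.add (Nat.add (Nat.add (Nat.add (Nat.add C (Nat.mul x7291 (nat_lit 4))) x20413) x2917) x8749) x6805) x7293) x26973)
    (Nat.add (Nat.add (Nat.add (Nat.add (Nat.add (Nat.add (Nat.add C (Nat.mul x7293 (nat_lit 4))) x20415) x2919) x8751) x6807) x7299) x7291)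
    (Nat.add (Nat.add (Nat.add (Nat.add (Nat.add (Nat.add (Nat.add C (Nat.mul x7299 (nat_lit 4))) x20421) x2925) x8757) x6813) x7317) x7293)
    (Nat.add (Nat.add (Nat.add (Nat.add (Nat.add (Nat.add (Nat.add C (Nat.mul x7317 (nat_lit 4))) x20439) x2943) x8775) x6831) x7371) x7299)
    (Nat.add (Nat.add (Nat.add (Nat.add (Nat.add (Nat.add (Nat.add C (Nat.mul x7371 (nat_lit 4))) x20493) x2997) x8829) x6885) x7533) x7317)
    (Nat.add (Nat.add (Nat.add (Nat.add (Nat.add (Nat.add (Nat.add C (Nat.mul x7533 (nat_lit 5))) x20655) x3159) x8991) x7047) x8019) x7371)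
    (Nat.add (Nat.add (Nat.add (Nat.add (Nat.add C (Nat.mul x8019 (nat_lit 4))) x21141) x3645) x9477) x7533)
    (Nat.sub (Nat.add (Nat.add (Nat.add (Nat.add (Nat.add (Nat.add C (Nat.mul x8749 (nat_lit 5))) x21871) x4375) x13123) x7291) x8751) x28431)
    (Nat.add (Nat.add (Nat.add (Nat.add (Nat.add (Nat.add (Nat.add C (Nat.mul x8751 (nat_lit 5))) x21873) x4377) x13125) x7293) x8757) x8749)
    (Nat.add (Nat.add (Nat.add (Nat.add (Nat.add (Nat.add (Nat.add C (Nat.mul x8757 (nat_lit 5))) x21879) x4383) x13131) x7299) x8775) x8751)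
    (Nat.add (Nat.add (Nat.add (Nat.add (Nat.add (Nat.add (Nat.add C (Nat.mul x8775 (nat_lit 5))) x21897) x4401) x13149) x7317) x8829) x8757)
    (Nat.add (Nat.add (Nat.add (Nat.add (Nat.add (Nat.add (Nat.add C (Nat.mul x8829 (nat_lit 5))) x21951) x4455) x13203) x7371) x8991) x8775)
    (Nat.add (Nat.add (Nat.add (Nat.add (Nat.add (Nat.add (Nat.add C (Nat.mul x8991 (nat_lit 5))) x22113) x4617) x13365) x7533) x9477) x8829)
    (Nat.add (Nat.add (Nat.add (Nat.add (Nat.add (Nat.add (Nat.add C (Nat.mul x9477 (nat_lit 6))) x22599) x5103) x13851) x8019) x10935) x8991)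
    (Nat.add (Nat.add (Nat.add (Nat.add C (Nat.mul x10935 (nat_lit 6))) x24057) x15309) x9477)
    (Nat.sub (Nat.add (Nat.add (Nat.add (Nat.add C (Nat.mul x13123 (nat_lit 4))) x26245) x8749) x13125) x32805)
    (Nat.add (Nat.add (Nat.add (Nat.add (Nat.add C (Nat.mul x13125 (nat_lit 4))) x26247) x8751) x13131) x13123)
    (Nat.add (Nat.add (Nat.add (Nat.add (Nat.add C (Nat.mul x13131 (nat_lit 4))) x26253) x8757) x13149) x13125)
    (Nat.add (Nat.add (Nat.add (Nat.add (Nat.add C (Nat.mul x13149 (nat_lit 4))) x26271) x8775) x13203) x13131)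
    (Nat.add (Nat.add (Nat.add (Nat.add (Nat.add C (Nat.mul x13203 (nat_lit 4))) x26325) x8829) x13365) x13149)
    (Nat.add (Nat.add (Nat.add (Nat.add (Nat.add C (Nat.mul x13365 (nat_lit 4))) x26487) x8991) x13851) x13203)
    (Nat.add (Nat.add (Nat.add (Nat.add (Nat.add C (Nat.mul x13851 (nat_lit 4))) x26973) x9477) x15309) x13365)
    (Nat.add (Nat.add (Nat.add (Nat.add C (Nat.mul x15309 (nat_lit 6))) x28431) x10935) x13851)
    (Nat.sub (Nat.add (Nat.add (Nat.add C (Nat.mul x19685 (nat_lit 6))) x6563) x19687) x39367)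
    (Nat.sub (Nat.sub (Nat.add (Nat.add (Nat.add (Nat.add (Nat.add C (Nat.mul x19687 (nat_lit 6))) x6565) x19693) x19685) x19689) x39369) x5)
    (Nat.sub (Nat.add (Nat.add (Nat.add (Nat.add C (Nat.mul x19689 (nat_lit 4))) x6567) x19695) x19687) x7)
    (Nat.sub (Nat.sub (Nat.add (Nat.add (Nat.add (Nat.add (Nat.add C (Nat.mul x19693 (nat_lit 5))) x6571) x19711) x19687) x19695) x39375) x11)
    (Nat.sub (Nat.add (Nat.add (Nat.add (Nat.add (Nat.add (Nat.add C (Nat.mul x19695 (nat_lit 5))) x6573) x19713) x19689) x19701) x19693) x13)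
    (Nat.sub (Nat.add (Nat.add (Nat.add (Nat.add C (Nat.mul x19701 (nat_lit 4))) x6579) x19719) x19695) x19)
    (Nat.sub (Nat.sub (Nat.add (Nat.add (Nat.add (Nat.add (Nat.add C (Nat.mul x19711 (nat_lit 5))) x6589) x19765) x19693) x19713) x39393) x29)
    (Nat.sub (Nat.add (Nat.add (Nat.add (Nat.add (Nat.add (Nat.add C (Nat.mul x19713 (nat_lit 4))) x6591) x19767) x19695) x19719) x19711) x31)
    (Nat.sub (Nat.add (Nat.add (Nat.add (Nat.add (Nat.add (Nat.add C (Nat.mul x19719 (nat_lit 5))) x6597) x19773) x19701) x19737) x19713) x37)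
    (Nat.sub (Nat.add (Nat.add (Nat.add (Nat.add C (Nat.mul x19737 (nat_lit 4))) x6615) x19791) x19719) x55)
    (Nat.sub (Nat.sub (Nat.add (Nat.add (Nat.add (Nat.add (Nat.add C (Nat.mul x19765 (nat_lit 5))) x6643) x19927) x19711) x19767) x39447) x83)
    (Nat.sub (Nat.add (Nat.add (Nat.add (Nat.add (Nat.add (Nat.add C (Nat.mul x19767 (nat_lit 4))) x6645) x19929) x19713) x19773) x19765) x85)
    (Nat.sub (Nat.add (Nat.add (Nat.add (Nat.add (Nat.add (Nat.add C (Nat.mul x19773 (nat_lit 4))) x6651) x19935) x19719) x19791) x19767) x91)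
    (Nat.sub (Nat.add (Nat.add (Nat.add (Nat.add (Nat.add (Nat.add C (Nat.mul x19791 (nat_lit 5))) x6669) x19953) x19737) x19845) x19773) x109)
    (Nat.sub (Nat.add (Nat.add (Nat.add (Nat.add C (Nat.mul x19845 (nat_lit 4))) x6723) x20007) x19791) x163)
    (Nat.sub (Nat.sub (Nat.add (Nat.add (Nat.add (Nat.add (Nat.add C (Nat.mul x19927 (nat_lit 5))) x6805) x20413) x19765) x19929) x39609) x245)
    (Nat.sub (Nat.add (Nat.add (Nat.add (Nat.add (Nat.add (Nat.add C (Nat.mul x19929 (nat_lit 4))) x6807) x20415) x19767) x19935) x19927) x247)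
    (Nat.sub (Nat.add (Nat.add (Nat.add (Nat.add (Nat.add (Nat.add C (Nat.mul x19935 (nat_lit 4))) x6813) x20421) x19773) x19953) x19929) x253)
    (Nat.sub (Nat.add (Nat.add (Nat.add (Nat.add (Nat.add (Nat.add C (Nat.mul x19953 (nat_lit 4))) x6831) x20439) x19791) x20007) x19935) x271)
    (Nat.sub (Nat.add (Nat.add (Nat.add (Nat.add (Nat.add (Nat.add C (Nat.mul x20007 (nat_lit 5))) x6885) x20493) x19845) x20169) x19953) x325)
    (Nat.sub (Nat.add (Nat.add (Nat.add (Nat.add C (Nat.mul x20169 (nat_lit 4))) x7047) x20655) x20007) x487)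
    (Nat.sub (Nat.sub (Nat.add (Nat.add (Nat.add (Nat.add (Nat.add C (Nat.mul x20413 (nat_lit 5))) x7291) x21871) x19927) x20415) x40095) x731)
    (Nat.sub (Nat.add (Nat.add (Nat.add (Nat.add (Nat.add (Nat.add C (Nat.mul x20415 (nat_lit 4))) x7293) x21873) x19929) x20421) x20413) x733)
    (Nat.sub (Nat.add (Nat.add (Nat.add (Nat.add (Nat.add (Nat.add C (Nat.mul x20421 (nat_lit 4))) x7299) x21879) x19935) x20439) x20415) x739)
    (Nat.sub (Nat.add (Nat.add (Nat.add (Nat.add (Nat.add (Nat.add C (Nat.mul x20439 (nat_lit 4))) x7317) x21897) x19953) x20493) x20421) x757)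
    (Nat.sub (Nat.add (Nat.add (Nat.add (Nat.add (Nat.add (Nat.add C (Nat.mul x20493 (nat_lit 4))) x7371) x21951) x20007) x20655) x20439) x811)
    (Nat.sub (Nat.add (Nat.add (Nat.add (Nat.add (Nat.add (Nat.add C (Nat.mul x20655 (nat_lit 5))) x7533) x22113) x20169) x21141) x20493) x973)
    (Nat.sub (Nat.add (Nat.add (Nat.add (Nat.add C (Nat.mul x21141 (nat_lit 4))) x8019) x22599) x20655) x1459)
    (Nat.sub (Nat.sub (Nat.add (Nat.add (Nat.add (Nat.add (Nat.add C (Nat.mul x21871 (nat_lit 5))) x8749) x26245) x20413) x21873) x41553) x2189)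
    (Nat.sub (Nat.add (Nat.add (Nat.add (Nat.add (Nat.add (Nat.add C (Nat.mul x21873 (nat_lit 4))) x8751) x26247) x20415) x21879) x21871) x2191)
    (Nat.sub (Nat.add (Nat.add (Nat.add (Nat.add (Nat.add (Nat.add C (Nat.mul x21879 (nat_lit 4))) x8757) x26253) x20421) x21897) x21873) x2197)
    (Nat.sub (Nat.add (Nat.add (Nat.add (Nat.add (Nat.add (Nat.add C (Nat.mul x21897 (nat_lit 4))) x8775) x26271) x20439) x21951) x21879) x2215)
    (Nat.sub (Nat.add (Nat.add (Nat.add (Nat.add (Nat.add (Nat.add C (Nat.mul x21951 (nat_lit 4))) x8829) x26325) x20493) x22113) x21897) x2269)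
    (Nat.sub (Nat.add (Nat.add (Nat.add (Nat.add (Nat.add (Nat.add C (Nat.mul x22113 (nat_lit 4))) x8991) x26487) x20655) x22599) x21951) x2431)
    (Nat.sub (Nat.add (Nat.add (Nat.add (Nat.add (Nat.add (Nat.add C (Nat.mul x22599 (nat_lit 5))) x9477) x26973) x21141) x24057) x22113) x2917)
    (Nat.sub (Nat.add (Nat.add (Nat.add (Nat.add C (Nat.mul x24057 (nat_lit 4))) x10935) x28431) x22599) x4375)
    (Nat.sub (Nat.sub (Nat.add (Nat.add (Nat.add (Nat.add (Nat.add C (Nat.mul x26245 (nat_lit 6))) x13123) x39367) x21871) x26247) x45927) x6563)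
    (Nat.sub (Nat.add (Nat.add (Nat.add (Nat.add (Nat.add (Nat.add C (Nat.mul x26247 (nat_lit 5))) x13125) x39369) x21873) x26253) x26245) x6565)
    (Nat.sub (Nat.add (Nat.add (Nat.add (Nat.add (Nat.add (Nat.add C (Nat.mul x26253 (nat_lit 5))) x13131) x39375) x21879) x26271) x26247) x6571)
    (Nat.sub (Nat.add (Nat.add (Nat.add (Nat.add (Nat.add (Nat.add C (Nat.mul x26271 (nat_lit 5))) x13149) x39393) x21897) x26325) x26253) x6589)
    (Nat.sub (Nat.add (Nat.add (Nat.add (Nat.add (Nat.add (Nat.add C (Nat.mul x26325 (nat_lit 5))) x13203) x39447) x21951) x26487) x26271) x6643)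
    (Nat.sub (Nat.add (Nat.add (Nat.add (Nat.add (Nat.add (Nat.add C (Nat.mul x26487 (nat_lit 5))) x13365) x39609) x22113) x26973) x26325) x6805)
    (Nat.sub (Nat.add (Nat.add (Nat.add (Nat.add (Nat.add (Nat.add C (Nat.mul x26973 (nat_lit 5))) x13851) x40095) x22599) x28431) x26487) x7291)
    (Nat.sub (Nat.add (Nat.add (Nat.add (Nat.add (Nat.add (Nat.add C (Nat.mul x28431 (nat_lit 6))) x15309) x41553) x24057) x32805) x26973) x8749)
    (Nat.sub (Nat.add (Nat.add (Nat.add C (Nat.mul x32805 (nat_lit 6))) x45927) x28431) x13123)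
    (Nat.sub (Nat.add (Nat.add (Nat.add C (Nat.mul x39367 (nat_lit 6))) x26245) x39369) x19685)
    (Nat.sub (Nat.add (Nat.add (Nat.add (Nat.add C (Nat.mul x39369 (nat_lit 4))) x26247) x39375) x39367) x19687)
    (Nat.sub (Nat.add (Nat.add (Nat.add (Nat.add C (Nat.mul x39375 (nat_lit 4))) x26253) x39393) x39369) x19693)
    (Nat.sub (Nat.add (Nat.add (Nat.add (Nat.add C (Nat.mul x39393 (nat_lit 4))) x26271) x39447) x39375) x19711)
    (Nat.sub (Nat.add (Nat.add (Nat.add (Nat.add C (Nat.mul x39447 (nat_lit 4))) x26325) x39609) x39393) x19765)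
    (Nat.sub (Nat.add (Nat.add (Nat.add (Nat.add C (Nat.mul x39609 (nat_lit 4))) x26487) x40095) x39447) x19927)
    (Nat.sub (Nat.add (Nat.add (Nat.add (Nat.add C (Nat.mul x40095 (nat_lit 4))) x26973) x41553) x39609) x20413)
    (Nat.sub (Nat.add (Nat.add (Nat.add (Nat.add C (Nat.mul x41553 (nat_lit 4))) x28431) x45927) x40095) x21871)
    (Nat.sub (Nat.add (Nat.add (Nat.add C (Nat.mul x45927 (nat_lit 6))) x32805) x41553) x26245)

theorem ap_eq (x : Nat → Nat) (k : FnLL specs) : apLL (fun t => x t.cd) specs k = A10_3.ap x k :=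
  Eq.refl (A10_3.ap x k)

theorem step_eq0 (e : Nat → Nat) (C p r : Nat) (k : FnLL specs) (x : Nat → Nat) :
    A10_3.ap x (step e C p r k) = apLL (interp e C p r x) specs k :=
  Eq.refl (A10_3.ap x (step e C p r k))

theorem spec_ok : specOK 9 true A10_3.mask specs = true := by decide +kernel

theorem step_eq (e : Nat → Nat) (C p r : Nat) (k : A10_3.KK) (x : Nat → Nat) :
    A10_3.ap x (step e C p r k) = A10_3.ap (row 9 true A10_3.mask e C p r x) k :=
  ((step_eq0 e C p r k x).trans (apLL_row 9 true A10_3.mask specs spec_ok e C p r x k)).trans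
    (ap_eq (row 9 true A10_3.mask e C p r x) k)

end Vale.Agent.P348.G10_3_1

namespace Vale.Agent.P348.G10_4_1

noncomputable def sp0 : List Spec :=
  [Spec.mk (nat_lit 8) (nat_lit 6) [nat_lit 14] (nat_lit 0) [nat_lit 19690] true,
   Spec.mk (nat_lit 14) (nat_lit 5) [nat_lit 32, nat_lit 8, nat_lit 20, nat_lit 16] (nat_lit 0) [nat_lit 19696] true,
   Spec.mk (nat_lit 16) (nat_lit 6) [nat_lit 34, nat_lit 22, nat_lit 14] (nat_lit 0) [nat_lit 19698] true,
   Spec.mk (nat_lit 20) (nat_lit 2) [nat_lit 38, nat_lit 14, nat_lit 22] (nat_lit 0) [nat_lit 19702] true,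
   Spec.mk (nat_lit 22) (nat_lit 5) [nat_lit 40, nat_lit 16, nat_lit 20, nat_lit 24] (nat_lit 0) [nat_lit 19704] false,
   Spec.mk (nat_lit 24) (nat_lit 6) [nat_lit 42, nat_lit 22] (nat_lit 0) [] false,
   Spec.mk (nat_lit 32) (nat_lit 4) [nat_lit 86, nat_lit 14, nat_lit 38, nat_lit 34] (nat_lit 0) [nat_lit 19714] true,
   Spec.mk (nat_lit 34) (nat_lit 4) [nat_lit 88, nat_lit 16, nat_lit 40, nat_lit 32] (nat_lit 0) [nat_lit 19716] true,
   Spec.mk (nat_lit 38) (nat_lit 3) [nat_lit 92, nat_lit 20, nat_lit 56, nat_lit 32, nat_lit 40] (nat_lit 0) [nat_lit 19720] true,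
   Spec.mk (nat_lit 40) (nat_lit 5) [nat_lit 94, nat_lit 22, nat_lit 58, nat_lit 34, nat_lit 46, nat_lit 38, nat_lit 42] (nat_lit 0) [nat_lit 19722] true,
   Spec.mk (nat_lit 42) (nat_lit 5) [nat_lit 96, nat_lit 24, nat_lit 60, nat_lit 48, nat_lit 40] (nat_lit 0) [] false,
   Spec.mk (nat_lit 46) (nat_lit 4) [nat_lit 100, nat_lit 64, nat_lit 40, nat_lit 48] (nat_lit 0) [nat_lit 19728] false,
   Spec.mk (nat_lit 48) (nat_lit 6) [nat_lit 102, nat_lit 66, nat_lit 42, nat_lit 46] (nat_lit 0) [] false,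
   Spec.mk (nat_lit 56) (nat_lit 2) [nat_lit 110, nat_lit 38, nat_lit 58] (nat_lit 0) [nat_lit 19738] true,
   Spec.mk (nat_lit 58) (nat_lit 3) [nat_lit 112, nat_lit 40, nat_lit 64, nat_lit 56, nat_lit 60] (nat_lit 0) [nat_lit 19740] false,
   Spec.mk (nat_lit 60) (nat_lit 2) [nat_lit 114, nat_lit 42, nat_lit 66, nat_lit 58] (nat_lit 0) [] false,
   Spec.mk (nat_lit 64) (nat_lit 4) [nat_lit 118, nat_lit 46, nat_lit 58, nat_lit 66] (nat_lit 0) [nat_lit 19746] false,
   Spec.mk (nat_lit 66) (nat_lit 5) [nat_lit 120, nat_lit 48, nat_lit 60, nat_lit 72, nat_lit 64] (nat_lit 0) [] false,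
   Spec.mk (nat_lit 72) (nat_lit 6) [nat_lit 126, nat_lit 66] (nat_lit 0) [] false,
   Spec.mk (nat_lit 86) (nat_lit 4) [nat_lit 248, nat_lit 32, nat_lit 92, nat_lit 88] (nat_lit 0) [nat_lit 19768] true,
   Spec.mk (nat_lit 88) (nat_lit 4) [nat_lit 250, nat_lit 34, nat_lit 94, nat_lit 86] (nat_lit 0) [nat_lit 19770] true,
   Spec.mk (nat_lit 92) (nat_lit 2) [nat_lit 254, nat_lit 38, nat_lit 110, nat_lit 86, nat_lit 94] (nat_lit 0) [nat_lit 19774] true,
   Spec.mk (nat_lit 94) (nat_lit 4) [nat_lit 256, nat_lit 40, nat_lit 112, nat_lit 88, nat_lit 100, nat_lit 92, nat_lit 96] (nat_lit 0) [nat_lit 19776] true,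
   Spec.mk (nat_lit 96) (nat_lit 4) [nat_lit 258, nat_lit 42, nat_lit 114, nat_lit 102, nat_lit 94] (nat_lit 0) [] false,
   Spec.mk (nat_lit 100) (nat_lit 2) [nat_lit 262, nat_lit 46, nat_lit 118, nat_lit 94, nat_lit 102] (nat_lit 0) [nat_lit 19782] true,
   Spec.mk (nat_lit 102) (nat_lit 4) [nat_lit 264, nat_lit 48, nat_lit 120, nat_lit 96, nat_lit 100] (nat_lit 0) [] false,
   Spec.mk (nat_lit 110) (nat_lit 3) [nat_lit 272, nat_lit 56, nat_lit 164, nat_lit 92, nat_lit 112] (nat_lit 0) [nat_lit 19792] true,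
   Spec.mk (nat_lit 112) (nat_lit 4) [nat_lit 274, nat_lit 58, nat_lit 166, nat_lit 94, nat_lit 118, nat_lit 110, nat_lit 114] (nat_lit 0) [nat_lit 19794] true,
   Spec.mk (nat_lit 114) (nat_lit 3) [nat_lit 276, nat_lit 60, nat_lit 168, nat_lit 96, nat_lit 120, nat_lit 112] (nat_lit 0) [] false,
   Spec.mk (nat_lit 118) (nat_lit 4) [nat_lit 280, nat_lit 64, nat_lit 172, nat_lit 100, nat_lit 136, nat_lit 112, nat_lit 120] (nat_lit 0) [nat_lit 19800] false,
   Spec.mk (nat_lit 120) (nat_lit 5) [nat_lit 282, nat_lit 66, nat_lit 174, nat_lit 102, nat_lit 138, nat_lit 114, nat_lit 126, nat_lit 118] (nat_lit 0) [] false,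
   Spec.mk (nat_lit 126) (nat_lit 5) [nat_lit 288, nat_lit 72, nat_lit 180, nat_lit 144, nat_lit 120] (nat_lit 0) [] false,
   Spec.mk (nat_lit 136) (nat_lit 4) [nat_lit 298, nat_lit 190, nat_lit 118, nat_lit 138] (nat_lit 0) [nat_lit 19818] false,
   Spec.mk (nat_lit 138) (nat_lit 4) [nat_lit 300, nat_lit 192, nat_lit 120, nat_lit 144, nat_lit 136] (nat_lit 0) [] false,
   Spec.mk (nat_lit 144) (nat_lit 6) [nat_lit 306, nat_lit 198, nat_lit 126, nat_lit 138] (nat_lit 0) [] false,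
   Spec.mk (nat_lit 164) (nat_lit 2) [nat_lit 326, nat_lit 110, nat_lit 166] (nat_lit 0) [nat_lit 19846] true,
   Spec.mk (nat_lit 166) (nat_lit 3) [nat_lit 328, nat_lit 112, nat_lit 172, nat_lit 164, nat_lit 168] (nat_lit 0) [nat_lit 19848] false,
   Spec.mk (nat_lit 168) (nat_lit 2) [nat_lit 330, nat_lit 114, nat_lit 174, nat_lit 166] (nat_lit 0) [] false,
   Spec.mk (nat_lit 172) (nat_lit 2) [nat_lit 334, nat_lit 118, nat_lit 190, nat_lit 166, nat_lit 174] (nat_lit 0) [nat_lit 19854] false,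
   Spec.mk (nat_lit 174) (nat_lit 3) [nat_lit 336, nat_lit 120, nat_lit 192, nat_lit 168, nat_lit 180, nat_lit 172] (nat_lit 0) [] false,
   Spec.mk (nat_lit 180) (nat_lit 2) [nat_lit 342, nat_lit 126, nat_lit 198, nat_lit 174] (nat_lit 0) [] false,
   Spec.mk (nat_lit 190) (nat_lit 4) [nat_lit 352, nat_lit 136, nat_lit 172, nat_lit 192] (nat_lit 0) [nat_lit 19872] false,
   Spec.mk (nat_lit 192) (nat_lit 4) [nat_lit 354, nat_lit 138, nat_lit 174, nat_lit 198, nat_lit 190] (nat_lit 0) [] false,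
   Spec.mk (nat_lit 198) (nat_lit 5) [nat_lit 360, nat_lit 144, nat_lit 180, nat_lit 216, nat_lit 192] (nat_lit 0) [] false,
   Spec.mk (nat_lit 216) (nat_lit 6) [nat_lit 378, nat_lit 198] (nat_lit 0) [] false,
   Spec.mk (nat_lit 248) (nat_lit 4) [nat_lit 734, nat_lit 86, nat_lit 254, nat_lit 250] (nat_lit 0) [nat_lit 19930] true,
   Spec.mk (nat_lit 250) (nat_lit 4) [nat_lit 736, nat_lit 88, nat_lit 256, nat_lit 248] (nat_lit 0) [nat_lit 19932] true,
   Spec.mk (nat_lit 254) (nat_lit 2) [nat_lit 740, nat_lit 92, nat_lit 272, nat_lit 248, nat_lit 256] (nat_lit 0) [nat_lit 19936] true,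
   Spec.mk (nat_lit 256) (nat_lit 4) [nat_lit 742, nat_lit 94, nat_lit 274, nat_lit 250, nat_lit 262, nat_lit 254, nat_lit 258] (nat_lit 0) [nat_lit 19938] true,
   Spec.mk (nat_lit 258) (nat_lit 4) [nat_lit 744, nat_lit 96, nat_lit 276, nat_lit 264, nat_lit 256] (nat_lit 0) [] false,
   Spec.mk (nat_lit 262) (nat_lit 2) [nat_lit 748, nat_lit 100, nat_lit 280, nat_lit 256, nat_lit 264] (nat_lit 0) [nat_lit 19944] true,
   Spec.mk (nat_lit 264) (nat_lit 4) [nat_lit 750, nat_lit 102, nat_lit 282, nat_lit 258, nat_lit 262] (nat_lit 0) [] false,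
   Spec.mk (nat_lit 272) (nat_lit 2) [nat_lit 758, nat_lit 110, nat_lit 326, nat_lit 254, nat_lit 274] (nat_lit 0) [nat_lit 19954] true,
   Spec.mk (nat_lit 274) (nat_lit 3) [nat_lit 760, nat_lit 112, nat_lit 328, nat_lit 256, nat_lit 280, nat_lit 272, nat_lit 276] (nat_lit 0) [nat_lit 19956] true,
   Spec.mk (nat_lit 276) (nat_lit 2) [nat_lit 762, nat_lit 114, nat_lit 330, nat_lit 258, nat_lit 282, nat_lit 274] (nat_lit 0) [] false,
   Spec.mk (nat_lit 280) (nat_lit 3) [nat_lit 766, nat_lit 118, nat_lit 334, nat_lit 262, nat_lit 298, nat_lit 274, nat_lit 282] (nat_lit 0) [nat_lit 19962] true,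
   Spec.mk (nat_lit 282) (nat_lit 4) [nat_lit 768, nat_lit 120, nat_lit 336, nat_lit 264, nat_lit 300, nat_lit 276, nat_lit 288, nat_lit 280] (nat_lit 0) [] false,
   Spec.mk (nat_lit 288) (nat_lit 4) [nat_lit 774, nat_lit 126, nat_lit 342, nat_lit 306, nat_lit 282] (nat_lit 0) [] false,
   Spec.mk (nat_lit 298) (nat_lit 2) [nat_lit 784, nat_lit 136, nat_lit 352, nat_lit 280, nat_lit 300] (nat_lit 0) [nat_lit 19980] false,
   Spec.mk (nat_lit 300) (nat_lit 2) [nat_lit 786, nat_lit 138, nat_lit 354, nat_lit 282, nat_lit 306, nat_lit 298] (nat_lit 0) [] false]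

noncomputable def sp1 : List Spec :=
  [Spec.mk (nat_lit 306) (nat_lit 4) [nat_lit 792, nat_lit 144, nat_lit 360, nat_lit 288, nat_lit 300] (nat_lit 0) [] false,
   Spec.mk (nat_lit 326) (nat_lit 3) [nat_lit 812, nat_lit 164, nat_lit 488, nat_lit 272, nat_lit 328] (nat_lit 0) [nat_lit 20008] true,
   Spec.mk (nat_lit 328) (nat_lit 4) [nat_lit 814, nat_lit 166, nat_lit 490, nat_lit 274, nat_lit 334, nat_lit 326, nat_lit 330] (nat_lit 0) [nat_lit 20010] true,
   Spec.mk (nat_lit 330) (nat_lit 3) [nat_lit 816, nat_lit 168, nat_lit 492, nat_lit 276, nat_lit 336, nat_lit 328] (nat_lit 0) [] false,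
   Spec.mk (nat_lit 334) (nat_lit 3) [nat_lit 820, nat_lit 172, nat_lit 496, nat_lit 280, nat_lit 352, nat_lit 328, nat_lit 336] (nat_lit 0) [nat_lit 20016] false,
   Spec.mk (nat_lit 336) (nat_lit 4) [nat_lit 822, nat_lit 174, nat_lit 498, nat_lit 282, nat_lit 354, nat_lit 330, nat_lit 342, nat_lit 334] (nat_lit 0) [] false,
   Spec.mk (nat_lit 342) (nat_lit 3) [nat_lit 828, nat_lit 180, nat_lit 504, nat_lit 288, nat_lit 360, nat_lit 336] (nat_lit 0) [] false,
   Spec.mk (nat_lit 352) (nat_lit 4) [nat_lit 838, nat_lit 190, nat_lit 514, nat_lit 298, nat_lit 406, nat_lit 334, nat_lit 354] (nat_lit 0) [nat_lit 20034] false,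
   Spec.mk (nat_lit 354) (nat_lit 4) [nat_lit 840, nat_lit 192, nat_lit 516, nat_lit 300, nat_lit 408, nat_lit 336, nat_lit 360, nat_lit 352] (nat_lit 0) [] false,
   Spec.mk (nat_lit 360) (nat_lit 5) [nat_lit 846, nat_lit 198, nat_lit 522, nat_lit 306, nat_lit 414, nat_lit 342, nat_lit 378, nat_lit 354] (nat_lit 0) [] false,
   Spec.mk (nat_lit 378) (nat_lit 5) [nat_lit 864, nat_lit 216, nat_lit 540, nat_lit 432, nat_lit 360] (nat_lit 0) [] false,
   Spec.mk (nat_lit 406) (nat_lit 4) [nat_lit 892, nat_lit 568, nat_lit 352, nat_lit 408] (nat_lit 0) [nat_lit 20088] false,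
   Spec.mk (nat_lit 408) (nat_lit 4) [nat_lit 894, nat_lit 570, nat_lit 354, nat_lit 414, nat_lit 406] (nat_lit 0) [] false,
   Spec.mk (nat_lit 414) (nat_lit 4) [nat_lit 900, nat_lit 576, nat_lit 360, nat_lit 432, nat_lit 408] (nat_lit 0) [] false,
   Spec.mk (nat_lit 432) (nat_lit 6) [nat_lit 918, nat_lit 594, nat_lit 378, nat_lit 414] (nat_lit 0) [] false,
   Spec.mk (nat_lit 488) (nat_lit 2) [nat_lit 974, nat_lit 326, nat_lit 490] (nat_lit 0) [nat_lit 20170] true,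
   Spec.mk (nat_lit 490) (nat_lit 3) [nat_lit 976, nat_lit 328, nat_lit 496, nat_lit 488, nat_lit 492] (nat_lit 0) [nat_lit 20172] false,
   Spec.mk (nat_lit 492) (nat_lit 2) [nat_lit 978, nat_lit 330, nat_lit 498, nat_lit 490] (nat_lit 0) [] false,
   Spec.mk (nat_lit 496) (nat_lit 2) [nat_lit 982, nat_lit 334, nat_lit 514, nat_lit 490, nat_lit 498] (nat_lit 0) [nat_lit 20178] false,
   Spec.mk (nat_lit 498) (nat_lit 3) [nat_lit 984, nat_lit 336, nat_lit 516, nat_lit 492, nat_lit 504, nat_lit 496] (nat_lit 0) [] false,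
   Spec.mk (nat_lit 504) (nat_lit 2) [nat_lit 990, nat_lit 342, nat_lit 522, nat_lit 498] (nat_lit 0) [] false,
   Spec.mk (nat_lit 514) (nat_lit 2) [nat_lit 1000, nat_lit 352, nat_lit 568, nat_lit 496, nat_lit 516] (nat_lit 0) [nat_lit 20196] false,
   Spec.mk (nat_lit 516) (nat_lit 2) [nat_lit 1002, nat_lit 354, nat_lit 570, nat_lit 498, nat_lit 522, nat_lit 514] (nat_lit 0) [] false,
   Spec.mk (nat_lit 522) (nat_lit 3) [nat_lit 1008, nat_lit 360, nat_lit 576, nat_lit 504, nat_lit 540, nat_lit 516] (nat_lit 0) [] false,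
   Spec.mk (nat_lit 540) (nat_lit 2) [nat_lit 1026, nat_lit 378, nat_lit 594, nat_lit 522] (nat_lit 0) [] false,
   Spec.mk (nat_lit 568) (nat_lit 4) [nat_lit 1054, nat_lit 406, nat_lit 514, nat_lit 570] (nat_lit 0) [nat_lit 20250] false,
   Spec.mk (nat_lit 570) (nat_lit 4) [nat_lit 1056, nat_lit 408, nat_lit 516, nat_lit 576, nat_lit 568] (nat_lit 0) [] false,
   Spec.mk (nat_lit 576) (nat_lit 4) [nat_lit 1062, nat_lit 414, nat_lit 522, nat_lit 594, nat_lit 570] (nat_lit 0) [] false,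
   Spec.mk (nat_lit 594) (nat_lit 5) [nat_lit 1080, nat_lit 432, nat_lit 540, nat_lit 648, nat_lit 576] (nat_lit 0) [] false,
   Spec.mk (nat_lit 648) (nat_lit 6) [nat_lit 1134, nat_lit 594] (nat_lit 0) [] false,
   Spec.mk (nat_lit 734) (nat_lit 4) [nat_lit 2192, nat_lit 248, nat_lit 740, nat_lit 736] (nat_lit 0) [nat_lit 20416] false,
   Spec.mk (nat_lit 736) (nat_lit 4) [nat_lit 2194, nat_lit 250, nat_lit 742, nat_lit 734] (nat_lit 0) [nat_lit 20418] false,
   Spec.mk (nat_lit 740) (nat_lit 2) [nat_lit 2198, nat_lit 254, nat_lit 758, nat_lit 734, nat_lit 742] (nat_lit 0) [nat_lit 20422] true,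
   Spec.mk (nat_lit 742) (nat_lit 4) [nat_lit 2200, nat_lit 256, nat_lit 760, nat_lit 736, nat_lit 748, nat_lit 740, nat_lit 744] (nat_lit 0) [nat_lit 20424] true,
   Spec.mk (nat_lit 744) (nat_lit 4) [nat_lit 2202, nat_lit 258, nat_lit 762, nat_lit 750, nat_lit 742] (nat_lit 0) [] false,
   Spec.mk (nat_lit 748) (nat_lit 2) [nat_lit 2206, nat_lit 262, nat_lit 766, nat_lit 742, nat_lit 750] (nat_lit 0) [nat_lit 20430] false,
   Spec.mk (nat_lit 750) (nat_lit 4) [nat_lit 2208, nat_lit 264, nat_lit 768, nat_lit 744, nat_lit 748] (nat_lit 0) [] false,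
   Spec.mk (nat_lit 758) (nat_lit 2) [nat_lit 2216, nat_lit 272, nat_lit 812, nat_lit 740, nat_lit 760] (nat_lit 0) [nat_lit 20440] true,
   Spec.mk (nat_lit 760) (nat_lit 3) [nat_lit 2218, nat_lit 274, nat_lit 814, nat_lit 742, nat_lit 766, nat_lit 758, nat_lit 762] (nat_lit 0) [nat_lit 20442] true,
   Spec.mk (nat_lit 762) (nat_lit 2) [nat_lit 2220, nat_lit 276, nat_lit 816, nat_lit 744, nat_lit 768, nat_lit 760] (nat_lit 0) [] false,
   Spec.mk (nat_lit 766) (nat_lit 3) [nat_lit 2224, nat_lit 280, nat_lit 820, nat_lit 748, nat_lit 784, nat_lit 760, nat_lit 768] (nat_lit 0) [nat_lit 20448] true,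
   Spec.mk (nat_lit 768) (nat_lit 4) [nat_lit 2226, nat_lit 282, nat_lit 822, nat_lit 750, nat_lit 786, nat_lit 762, nat_lit 774, nat_lit 766] (nat_lit 0) [] false,
   Spec.mk (nat_lit 774) (nat_lit 4) [nat_lit 2232, nat_lit 288, nat_lit 828, nat_lit 792, nat_lit 768] (nat_lit 0) [] false,
   Spec.mk (nat_lit 784) (nat_lit 2) [nat_lit 2242, nat_lit 298, nat_lit 838, nat_lit 766, nat_lit 786] (nat_lit 0) [nat_lit 20466] true,
   Spec.mk (nat_lit 786) (nat_lit 2) [nat_lit 2244, nat_lit 300, nat_lit 840, nat_lit 768, nat_lit 792, nat_lit 784] (nat_lit 0) [] false,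
   Spec.mk (nat_lit 792) (nat_lit 4) [nat_lit 2250, nat_lit 306, nat_lit 846, nat_lit 774, nat_lit 786] (nat_lit 0) [] false,
   Spec.mk (nat_lit 812) (nat_lit 2) [nat_lit 2270, nat_lit 326, nat_lit 974, nat_lit 758, nat_lit 814] (nat_lit 0) [nat_lit 20494] true,
   Spec.mk (nat_lit 814) (nat_lit 3) [nat_lit 2272, nat_lit 328, nat_lit 976, nat_lit 760, nat_lit 820, nat_lit 812, nat_lit 816] (nat_lit 0) [nat_lit 20496] true,
   Spec.mk (nat_lit 816) (nat_lit 2) [nat_lit 2274, nat_lit 330, nat_lit 978, nat_lit 762, nat_lit 822, nat_lit 814] (nat_lit 0) [] false,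
   Spec.mk (nat_lit 820) (nat_lit 2) [nat_lit 2278, nat_lit 334, nat_lit 982, nat_lit 766, nat_lit 838, nat_lit 814, nat_lit 822] (nat_lit 0) [nat_lit 20502] true,
   Spec.mk (nat_lit 822) (nat_lit 3) [nat_lit 2280, nat_lit 336, nat_lit 984, nat_lit 768, nat_lit 840, nat_lit 816, nat_lit 828, nat_lit 820] (nat_lit 0) [] false,
   Spec.mk (nat_lit 828) (nat_lit 2) [nat_lit 2286, nat_lit 342, nat_lit 990, nat_lit 774, nat_lit 846, nat_lit 822] (nat_lit 0) [] false,
   Spec.mk (nat_lit 838) (nat_lit 3) [nat_lit 2296, nat_lit 352, nat_lit 1000, nat_lit 784, nat_lit 892, nat_lit 820, nat_lit 840] (nat_lit 0) [nat_lit 20520] false,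
   Spec.mk (nat_lit 840) (nat_lit 3) [nat_lit 2298, nat_lit 354, nat_lit 1002, nat_lit 786, nat_lit 894, nat_lit 822, nat_lit 846, nat_lit 838] (nat_lit 0) [] false,
   Spec.mk (nat_lit 846) (nat_lit 4) [nat_lit 2304, nat_lit 360, nat_lit 1008, nat_lit 792, nat_lit 900, nat_lit 828, nat_lit 864, nat_lit 840] (nat_lit 0) [] false,
   Spec.mk (nat_lit 864) (nat_lit 4) [nat_lit 2322, nat_lit 378, nat_lit 1026, nat_lit 918, nat_lit 846] (nat_lit 0) [] false,
   Spec.mk (nat_lit 892) (nat_lit 2) [nat_lit 2350, nat_lit 406, nat_lit 1054, nat_lit 838, nat_lit 894] (nat_lit 0) [nat_lit 20574] false,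
   Spec.mk (nat_lit 894) (nat_lit 2) [nat_lit 2352, nat_lit 408, nat_lit 1056, nat_lit 840, nat_lit 900, nat_lit 892] (nat_lit 0) [] false,
   Spec.mk (nat_lit 900) (nat_lit 2) [nat_lit 2358, nat_lit 414, nat_lit 1062, nat_lit 846, nat_lit 918, nat_lit 894] (nat_lit 0) [] false,
   Spec.mk (nat_lit 918) (nat_lit 4) [nat_lit 2376, nat_lit 432, nat_lit 1080, nat_lit 864, nat_lit 900] (nat_lit 0) [] false]

noncomputable def sp2 : List Spec :=
  [Spec.mk (nat_lit 974) (nat_lit 3) [nat_lit 2432, nat_lit 488, nat_lit 1460, nat_lit 812, nat_lit 976] (nat_lit 0) [nat_lit 20656] false,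
   Spec.mk (nat_lit 976) (nat_lit 4) [nat_lit 2434, nat_lit 490, nat_lit 1462, nat_lit 814, nat_lit 982, nat_lit 974, nat_lit 978] (nat_lit 0) [nat_lit 20658] true,
   Spec.mk (nat_lit 978) (nat_lit 3) [nat_lit 2436, nat_lit 492, nat_lit 1464, nat_lit 816, nat_lit 984, nat_lit 976] (nat_lit 0) [] false,
   Spec.mk (nat_lit 982) (nat_lit 3) [nat_lit 2440, nat_lit 496, nat_lit 1468, nat_lit 820, nat_lit 1000, nat_lit 976, nat_lit 984] (nat_lit 0) [nat_lit 20664] false,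
   Spec.mk (nat_lit 984) (nat_lit 4) [nat_lit 2442, nat_lit 498, nat_lit 1470, nat_lit 822, nat_lit 1002, nat_lit 978, nat_lit 990, nat_lit 982] (nat_lit 0) [] false,
   Spec.mk (nat_lit 990) (nat_lit 3) [nat_lit 2448, nat_lit 504, nat_lit 1476, nat_lit 828, nat_lit 1008, nat_lit 984] (nat_lit 0) [] false,
   Spec.mk (nat_lit 1000) (nat_lit 3) [nat_lit 2458, nat_lit 514, nat_lit 1486, nat_lit 838, nat_lit 1054, nat_lit 982, nat_lit 1002] (nat_lit 0) [nat_lit 20682] false,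
   Spec.mk (nat_lit 1002) (nat_lit 3) [nat_lit 2460, nat_lit 516, nat_lit 1488, nat_lit 840, nat_lit 1056, nat_lit 984, nat_lit 1008, nat_lit 1000] (nat_lit 0) [] false,
   Spec.mk (nat_lit 1008) (nat_lit 4) [nat_lit 2466, nat_lit 522, nat_lit 1494, nat_lit 846, nat_lit 1062, nat_lit 990, nat_lit 1026, nat_lit 1002] (nat_lit 0) [] false,
   Spec.mk (nat_lit 1026) (nat_lit 3) [nat_lit 2484, nat_lit 540, nat_lit 1512, nat_lit 864, nat_lit 1080, nat_lit 1008] (nat_lit 0) [] false,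
   Spec.mk (nat_lit 1054) (nat_lit 4) [nat_lit 2512, nat_lit 568, nat_lit 1540, nat_lit 892, nat_lit 1216, nat_lit 1000, nat_lit 1056] (nat_lit 0) [nat_lit 20736] false,
   Spec.mk (nat_lit 1056) (nat_lit 4) [nat_lit 2514, nat_lit 570, nat_lit 1542, nat_lit 894, nat_lit 1218, nat_lit 1002, nat_lit 1062, nat_lit 1054] (nat_lit 0) [] false,
   Spec.mk (nat_lit 1062) (nat_lit 4) [nat_lit 2520, nat_lit 576, nat_lit 1548, nat_lit 900, nat_lit 1224, nat_lit 1008, nat_lit 1080, nat_lit 1056] (nat_lit 0) [] false,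
   Spec.mk (nat_lit 1080) (nat_lit 5) [nat_lit 2538, nat_lit 594, nat_lit 1566, nat_lit 918, nat_lit 1242, nat_lit 1026, nat_lit 1134, nat_lit 1062] (nat_lit 0) [] false,
   Spec.mk (nat_lit 1134) (nat_lit 5) [nat_lit 2592, nat_lit 648, nat_lit 1620, nat_lit 1296, nat_lit 1080] (nat_lit 0) [] false,
   Spec.mk (nat_lit 1216) (nat_lit 4) [nat_lit 2674, nat_lit 1702, nat_lit 1054, nat_lit 1218] (nat_lit 0) [nat_lit 20898] false,
   Spec.mk (nat_lit 1218) (nat_lit 4) [nat_lit 2676, nat_lit 1704, nat_lit 1056, nat_lit 1224, nat_lit 1216] (nat_lit 0) [] false,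
   Spec.mk (nat_lit 1224) (nat_lit 4) [nat_lit 2682, nat_lit 1710, nat_lit 1062, nat_lit 1242, nat_lit 1218] (nat_lit 0) [] false,
   Spec.mk (nat_lit 1242) (nat_lit 4) [nat_lit 2700, nat_lit 1728, nat_lit 1080, nat_lit 1296, nat_lit 1224] (nat_lit 0) [] false,
   Spec.mk (nat_lit 1296) (nat_lit 6) [nat_lit 2754, nat_lit 1782, nat_lit 1134, nat_lit 1242] (nat_lit 0) [] false,
   Spec.mk (nat_lit 1460) (nat_lit 2) [nat_lit 2918, nat_lit 974, nat_lit 1462] (nat_lit 0) [nat_lit 21142] false,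
   Spec.mk (nat_lit 1462) (nat_lit 3) [nat_lit 2920, nat_lit 976, nat_lit 1468, nat_lit 1460, nat_lit 1464] (nat_lit 0) [nat_lit 21144] false,
   Spec.mk (nat_lit 1464) (nat_lit 2) [nat_lit 2922, nat_lit 978, nat_lit 1470, nat_lit 1462] (nat_lit 0) [] false,
   Spec.mk (nat_lit 1468) (nat_lit 2) [nat_lit 2926, nat_lit 982, nat_lit 1486, nat_lit 1462, nat_lit 1470] (nat_lit 0) [nat_lit 21150] false,
   Spec.mk (nat_lit 1470) (nat_lit 3) [nat_lit 2928, nat_lit 984, nat_lit 1488, nat_lit 1464, nat_lit 1476, nat_lit 1468] (nat_lit 0) [] false,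
   Spec.mk (nat_lit 1476) (nat_lit 2) [nat_lit 2934, nat_lit 990, nat_lit 1494, nat_lit 1470] (nat_lit 0) [] false,
   Spec.mk (nat_lit 1486) (nat_lit 2) [nat_lit 2944, nat_lit 1000, nat_lit 1540, nat_lit 1468, nat_lit 1488] (nat_lit 0) [nat_lit 21168] false,
   Spec.mk (nat_lit 1488) (nat_lit 2) [nat_lit 2946, nat_lit 1002, nat_lit 1542, nat_lit 1470, nat_lit 1494, nat_lit 1486] (nat_lit 0) [] false,
   Spec.mk (nat_lit 1494) (nat_lit 3) [nat_lit 2952, nat_lit 1008, nat_lit 1548, nat_lit 1476, nat_lit 1512, nat_lit 1488] (nat_lit 0) [] false,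
   Spec.mk (nat_lit 1512) (nat_lit 2) [nat_lit 2970, nat_lit 1026, nat_lit 1566, nat_lit 1494] (nat_lit 0) [] false,
   Spec.mk (nat_lit 1540) (nat_lit 2) [nat_lit 2998, nat_lit 1054, nat_lit 1702, nat_lit 1486, nat_lit 1542] (nat_lit 0) [nat_lit 21222] false,
   Spec.mk (nat_lit 1542) (nat_lit 2) [nat_lit 3000, nat_lit 1056, nat_lit 1704, nat_lit 1488, nat_lit 1548, nat_lit 1540] (nat_lit 0) [] false,
   Spec.mk (nat_lit 1548) (nat_lit 2) [nat_lit 3006, nat_lit 1062, nat_lit 1710, nat_lit 1494, nat_lit 1566, nat_lit 1542] (nat_lit 0) [] false,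
   Spec.mk (nat_lit 1566) (nat_lit 3) [nat_lit 3024, nat_lit 1080, nat_lit 1728, nat_lit 1512, nat_lit 1620, nat_lit 1548] (nat_lit 0) [] false,
   Spec.mk (nat_lit 1620) (nat_lit 2) [nat_lit 3078, nat_lit 1134, nat_lit 1782, nat_lit 1566] (nat_lit 0) [] false,
   Spec.mk (nat_lit 1702) (nat_lit 4) [nat_lit 3160, nat_lit 1216, nat_lit 1540, nat_lit 1704] (nat_lit 0) [nat_lit 21384] false,
   Spec.mk (nat_lit 1704) (nat_lit 4) [nat_lit 3162, nat_lit 1218, nat_lit 1542, nat_lit 1710, nat_lit 1702] (nat_lit 0) [] false,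
   Spec.mk (nat_lit 1710) (nat_lit 4) [nat_lit 3168, nat_lit 1224, nat_lit 1548, nat_lit 1728, nat_lit 1704] (nat_lit 0) [] false,
   Spec.mk (nat_lit 1728) (nat_lit 4) [nat_lit 3186, nat_lit 1242, nat_lit 1566, nat_lit 1782, nat_lit 1710] (nat_lit 0) [] false,
   Spec.mk (nat_lit 1782) (nat_lit 5) [nat_lit 3240, nat_lit 1296, nat_lit 1620, nat_lit 1944, nat_lit 1728] (nat_lit 0) [] false,
   Spec.mk (nat_lit 1944) (nat_lit 6) [nat_lit 3402, nat_lit 1782] (nat_lit 0) [] false,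
   Spec.mk (nat_lit 2192) (nat_lit 4) [nat_lit 6566, nat_lit 734, nat_lit 2198, nat_lit 2194] (nat_lit 0) [nat_lit 21874] false,
   Spec.mk (nat_lit 2194) (nat_lit 4) [nat_lit 6568, nat_lit 736, nat_lit 2200, nat_lit 2192] (nat_lit 0) [nat_lit 21876] false,
   Spec.mk (nat_lit 2198) (nat_lit 2) [nat_lit 6572, nat_lit 740, nat_lit 2216, nat_lit 2192, nat_lit 2200] (nat_lit 0) [nat_lit 21880] false,
   Spec.mk (nat_lit 2200) (nat_lit 4) [nat_lit 6574, nat_lit 742, nat_lit 2218, nat_lit 2194, nat_lit 2206, nat_lit 2198, nat_lit 2202] (nat_lit 0) [nat_lit 21882] false,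
   Spec.mk (nat_lit 2202) (nat_lit 4) [nat_lit 6576, nat_lit 744, nat_lit 2220, nat_lit 2208, nat_lit 2200] (nat_lit 0) [] false,
   Spec.mk (nat_lit 2206) (nat_lit 2) [nat_lit 6580, nat_lit 748, nat_lit 2224, nat_lit 2200, nat_lit 2208] (nat_lit 0) [nat_lit 21888] false,
   Spec.mk (nat_lit 2208) (nat_lit 4) [nat_lit 6582, nat_lit 750, nat_lit 2226, nat_lit 2202, nat_lit 2206] (nat_lit 0) [] false,
   Spec.mk (nat_lit 2216) (nat_lit 2) [nat_lit 6590, nat_lit 758, nat_lit 2270, nat_lit 2198, nat_lit 2218] (nat_lit 0) [nat_lit 21898] false,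
   Spec.mk (nat_lit 2218) (nat_lit 3) [nat_lit 6592, nat_lit 760, nat_lit 2272, nat_lit 2200, nat_lit 2224, nat_lit 2216, nat_lit 2220] (nat_lit 0) [nat_lit 21900] false,
   Spec.mk (nat_lit 2220) (nat_lit 2) [nat_lit 6594, nat_lit 762, nat_lit 2274, nat_lit 2202, nat_lit 2226, nat_lit 2218] (nat_lit 0) [] false,
   Spec.mk (nat_lit 2224) (nat_lit 3) [nat_lit 6598, nat_lit 766, nat_lit 2278, nat_lit 2206, nat_lit 2242, nat_lit 2218, nat_lit 2226] (nat_lit 0) [nat_lit 21906] false,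
   Spec.mk (nat_lit 2226) (nat_lit 4) [nat_lit 6600, nat_lit 768, nat_lit 2280, nat_lit 2208, nat_lit 2244, nat_lit 2220, nat_lit 2232, nat_lit 2224] (nat_lit 0) [] false,
   Spec.mk (nat_lit 2232) (nat_lit 4) [nat_lit 6606, nat_lit 774, nat_lit 2286, nat_lit 2250, nat_lit 2226] (nat_lit 0) [] false,
   Spec.mk (nat_lit 2242) (nat_lit 2) [nat_lit 6616, nat_lit 784, nat_lit 2296, nat_lit 2224, nat_lit 2244] (nat_lit 0) [nat_lit 21924] false,
   Spec.mk (nat_lit 2244) (nat_lit 2) [nat_lit 6618, nat_lit 786, nat_lit 2298, nat_lit 2226, nat_lit 2250, nat_lit 2242] (nat_lit 0) [] false,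
   Spec.mk (nat_lit 2250) (nat_lit 4) [nat_lit 6624, nat_lit 792, nat_lit 2304, nat_lit 2232, nat_lit 2244] (nat_lit 0) [] false,
   Spec.mk (nat_lit 2270) (nat_lit 2) [nat_lit 6644, nat_lit 812, nat_lit 2432, nat_lit 2216, nat_lit 2272] (nat_lit 0) [nat_lit 21952] false,
   Spec.mk (nat_lit 2272) (nat_lit 3) [nat_lit 6646, nat_lit 814, nat_lit 2434, nat_lit 2218, nat_lit 2278, nat_lit 2270, nat_lit 2274] (nat_lit 0) [nat_lit 21954] true,
   Spec.mk (nat_lit 2274) (nat_lit 2) [nat_lit 6648, nat_lit 816, nat_lit 2436, nat_lit 2220, nat_lit 2280, nat_lit 2272] (nat_lit 0) [] false]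

noncomputable def sp3 : List Spec :=
  [Spec.mk (nat_lit 2278) (nat_lit 2) [nat_lit 6652, nat_lit 820, nat_lit 2440, nat_lit 2224, nat_lit 2296, nat_lit 2272, nat_lit 2280] (nat_lit 0) [nat_lit 21960] true,
   Spec.mk (nat_lit 2280) (nat_lit 3) [nat_lit 6654, nat_lit 822, nat_lit 2442, nat_lit 2226, nat_lit 2298, nat_lit 2274, nat_lit 2286, nat_lit 2278] (nat_lit 0) [] false,
   Spec.mk (nat_lit 2286) (nat_lit 2) [nat_lit 6660, nat_lit 828, nat_lit 2448, nat_lit 2232, nat_lit 2304, nat_lit 2280] (nat_lit 0) [] false,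
   Spec.mk (nat_lit 2296) (nat_lit 3) [nat_lit 6670, nat_lit 838, nat_lit 2458, nat_lit 2242, nat_lit 2350, nat_lit 2278, nat_lit 2298] (nat_lit 0) [nat_lit 21978] false,
   Spec.mk (nat_lit 2298) (nat_lit 3) [nat_lit 6672, nat_lit 840, nat_lit 2460, nat_lit 2244, nat_lit 2352, nat_lit 2280, nat_lit 2304, nat_lit 2296] (nat_lit 0) [] false,
   Spec.mk (nat_lit 2304) (nat_lit 4) [nat_lit 6678, nat_lit 846, nat_lit 2466, nat_lit 2250, nat_lit 2358, nat_lit 2286, nat_lit 2322, nat_lit 2298] (nat_lit 0) [] false,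
   Spec.mk (nat_lit 2322) (nat_lit 4) [nat_lit 6696, nat_lit 864, nat_lit 2484, nat_lit 2376, nat_lit 2304] (nat_lit 0) [] false,
   Spec.mk (nat_lit 2350) (nat_lit 2) [nat_lit 6724, nat_lit 892, nat_lit 2512, nat_lit 2296, nat_lit 2352] (nat_lit 0) [nat_lit 22032] false,
   Spec.mk (nat_lit 2352) (nat_lit 2) [nat_lit 6726, nat_lit 894, nat_lit 2514, nat_lit 2298, nat_lit 2358, nat_lit 2350] (nat_lit 0) [] false,
   Spec.mk (nat_lit 2358) (nat_lit 2) [nat_lit 6732, nat_lit 900, nat_lit 2520, nat_lit 2304, nat_lit 2376, nat_lit 2352] (nat_lit 0) [] false,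
   Spec.mk (nat_lit 2376) (nat_lit 4) [nat_lit 6750, nat_lit 918, nat_lit 2538, nat_lit 2322, nat_lit 2358] (nat_lit 0) [] false,
   Spec.mk (nat_lit 2432) (nat_lit 2) [nat_lit 6806, nat_lit 974, nat_lit 2918, nat_lit 2270, nat_lit 2434] (nat_lit 0) [nat_lit 22114] false,
   Spec.mk (nat_lit 2434) (nat_lit 3) [nat_lit 6808, nat_lit 976, nat_lit 2920, nat_lit 2272, nat_lit 2440, nat_lit 2432, nat_lit 2436] (nat_lit 0) [nat_lit 22116] false,
   Spec.mk (nat_lit 2436) (nat_lit 2) [nat_lit 6810, nat_lit 978, nat_lit 2922, nat_lit 2274, nat_lit 2442, nat_lit 2434] (nat_lit 0) [] false,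
   Spec.mk (nat_lit 2440) (nat_lit 2) [nat_lit 6814, nat_lit 982, nat_lit 2926, nat_lit 2278, nat_lit 2458, nat_lit 2434, nat_lit 2442] (nat_lit 0) [nat_lit 22122] true,
   Spec.mk (nat_lit 2442) (nat_lit 3) [nat_lit 6816, nat_lit 984, nat_lit 2928, nat_lit 2280, nat_lit 2460, nat_lit 2436, nat_lit 2448, nat_lit 2440] (nat_lit 0) [] false,
   Spec.mk (nat_lit 2448) (nat_lit 2) [nat_lit 6822, nat_lit 990, nat_lit 2934, nat_lit 2286, nat_lit 2466, nat_lit 2442] (nat_lit 0) [] false,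
   Spec.mk (nat_lit 2458) (nat_lit 2) [nat_lit 6832, nat_lit 1000, nat_lit 2944, nat_lit 2296, nat_lit 2512, nat_lit 2440, nat_lit 2460] (nat_lit 0) [nat_lit 22140] false,
   Spec.mk (nat_lit 2460) (nat_lit 2) [nat_lit 6834, nat_lit 1002, nat_lit 2946, nat_lit 2298, nat_lit 2514, nat_lit 2442, nat_lit 2466, nat_lit 2458] (nat_lit 0) [] false,
   Spec.mk (nat_lit 2466) (nat_lit 3) [nat_lit 6840, nat_lit 1008, nat_lit 2952, nat_lit 2304, nat_lit 2520, nat_lit 2448, nat_lit 2484, nat_lit 2460] (nat_lit 0) [] false,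
   Spec.mk (nat_lit 2484) (nat_lit 2) [nat_lit 6858, nat_lit 1026, nat_lit 2970, nat_lit 2322, nat_lit 2538, nat_lit 2466] (nat_lit 0) [] false,
   Spec.mk (nat_lit 2512) (nat_lit 3) [nat_lit 6886, nat_lit 1054, nat_lit 2998, nat_lit 2350, nat_lit 2674, nat_lit 2458, nat_lit 2514] (nat_lit 0) [nat_lit 22194] false,
   Spec.mk (nat_lit 2514) (nat_lit 3) [nat_lit 6888, nat_lit 1056, nat_lit 3000, nat_lit 2352, nat_lit 2676, nat_lit 2460, nat_lit 2520, nat_lit 2512] (nat_lit 0) [] false,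
   Spec.mk (nat_lit 2520) (nat_lit 3) [nat_lit 6894, nat_lit 1062, nat_lit 3006, nat_lit 2358, nat_lit 2682, nat_lit 2466, nat_lit 2538, nat_lit 2514] (nat_lit 0) [] false,
   Spec.mk (nat_lit 2538) (nat_lit 4) [nat_lit 6912, nat_lit 1080, nat_lit 3024, nat_lit 2376, nat_lit 2700, nat_lit 2484, nat_lit 2592, nat_lit 2520] (nat_lit 0) [] false,
   Spec.mk (nat_lit 2592) (nat_lit 4) [nat_lit 6966, nat_lit 1134, nat_lit 3078, nat_lit 2754, nat_lit 2538] (nat_lit 0) [] false,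
   Spec.mk (nat_lit 2674) (nat_lit 2) [nat_lit 7048, nat_lit 1216, nat_lit 3160, nat_lit 2512, nat_lit 2676] (nat_lit 0) [nat_lit 22356] false,
   Spec.mk (nat_lit 2676) (nat_lit 2) [nat_lit 7050, nat_lit 1218, nat_lit 3162, nat_lit 2514, nat_lit 2682, nat_lit 2674] (nat_lit 0) [] false,
   Spec.mk (nat_lit 2682) (nat_lit 2) [nat_lit 7056, nat_lit 1224, nat_lit 3168, nat_lit 2520, nat_lit 2700, nat_lit 2676] (nat_lit 0) [] false,
   Spec.mk (nat_lit 2700) (nat_lit 2) [nat_lit 7074, nat_lit 1242, nat_lit 3186, nat_lit 2538, nat_lit 2754, nat_lit 2682] (nat_lit 0) [] false,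
   Spec.mk (nat_lit 2754) (nat_lit 4) [nat_lit 7128, nat_lit 1296, nat_lit 3240, nat_lit 2592, nat_lit 2700] (nat_lit 0) [] false,
   Spec.mk (nat_lit 2918) (nat_lit 3) [nat_lit 7292, nat_lit 1460, nat_lit 4376, nat_lit 2432, nat_lit 2920] (nat_lit 0) [nat_lit 22600] false,
   Spec.mk (nat_lit 2920) (nat_lit 4) [nat_lit 7294, nat_lit 1462, nat_lit 4378, nat_lit 2434, nat_lit 2926, nat_lit 2918, nat_lit 2922] (nat_lit 0) [nat_lit 22602] false,
   Spec.mk (nat_lit 2922) (nat_lit 3) [nat_lit 7296, nat_lit 1464, nat_lit 4380, nat_lit 2436, nat_lit 2928, nat_lit 2920] (nat_lit 0) [] false,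
   Spec.mk (nat_lit 2926) (nat_lit 3) [nat_lit 7300, nat_lit 1468, nat_lit 4384, nat_lit 2440, nat_lit 2944, nat_lit 2920, nat_lit 2928] (nat_lit 0) [nat_lit 22608] false,
   Spec.mk (nat_lit 2928) (nat_lit 4) [nat_lit 7302, nat_lit 1470, nat_lit 4386, nat_lit 2442, nat_lit 2946, nat_lit 2922, nat_lit 2934, nat_lit 2926] (nat_lit 0) [] false,
   Spec.mk (nat_lit 2934) (nat_lit 3) [nat_lit 7308, nat_lit 1476, nat_lit 4392, nat_lit 2448, nat_lit 2952, nat_lit 2928] (nat_lit 0) [] false,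
   Spec.mk (nat_lit 2944) (nat_lit 3) [nat_lit 7318, nat_lit 1486, nat_lit 4402, nat_lit 2458, nat_lit 2998, nat_lit 2926, nat_lit 2946] (nat_lit 0) [nat_lit 22626] false,
   Spec.mk (nat_lit 2946) (nat_lit 3) [nat_lit 7320, nat_lit 1488, nat_lit 4404, nat_lit 2460, nat_lit 3000, nat_lit 2928, nat_lit 2952, nat_lit 2944] (nat_lit 0) [] false,
   Spec.mk (nat_lit 2952) (nat_lit 4) [nat_lit 7326, nat_lit 1494, nat_lit 4410, nat_lit 2466, nat_lit 3006, nat_lit 2934, nat_lit 2970, nat_lit 2946] (nat_lit 0) [] false,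
   Spec.mk (nat_lit 2970) (nat_lit 3) [nat_lit 7344, nat_lit 1512, nat_lit 4428, nat_lit 2484, nat_lit 3024, nat_lit 2952] (nat_lit 0) [] false,
   Spec.mk (nat_lit 2998) (nat_lit 3) [nat_lit 7372, nat_lit 1540, nat_lit 4456, nat_lit 2512, nat_lit 3160, nat_lit 2944, nat_lit 3000] (nat_lit 0) [nat_lit 22680] false,
   Spec.mk (nat_lit 3000) (nat_lit 3) [nat_lit 7374, nat_lit 1542, nat_lit 4458, nat_lit 2514, nat_lit 3162, nat_lit 2946, nat_lit 3006, nat_lit 2998] (nat_lit 0) [] false,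
   Spec.mk (nat_lit 3006) (nat_lit 3) [nat_lit 7380, nat_lit 1548, nat_lit 4464, nat_lit 2520, nat_lit 3168, nat_lit 2952, nat_lit 3024, nat_lit 3000] (nat_lit 0) [] false,
   Spec.mk (nat_lit 3024) (nat_lit 4) [nat_lit 7398, nat_lit 1566, nat_lit 4482, nat_lit 2538, nat_lit 3186, nat_lit 2970, nat_lit 3078, nat_lit 3006] (nat_lit 0) [] false,
   Spec.mk (nat_lit 3078) (nat_lit 3) [nat_lit 7452, nat_lit 1620, nat_lit 4536, nat_lit 2592, nat_lit 3240, nat_lit 3024] (nat_lit 0) [] false,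
   Spec.mk (nat_lit 3160) (nat_lit 4) [nat_lit 7534, nat_lit 1702, nat_lit 4618, nat_lit 2674, nat_lit 3646, nat_lit 2998, nat_lit 3162] (nat_lit 0) [nat_lit 22842] false,
   Spec.mk (nat_lit 3162) (nat_lit 4) [nat_lit 7536, nat_lit 1704, nat_lit 4620, nat_lit 2676, nat_lit 3648, nat_lit 3000, nat_lit 3168, nat_lit 3160] (nat_lit 0) [] false,
   Spec.mk (nat_lit 3168) (nat_lit 4) [nat_lit 7542, nat_lit 1710, nat_lit 4626, nat_lit 2682, nat_lit 3654, nat_lit 3006, nat_lit 3186, nat_lit 3162] (nat_lit 0) [] false,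
   Spec.mk (nat_lit 3186) (nat_lit 4) [nat_lit 7560, nat_lit 1728, nat_lit 4644, nat_lit 2700, nat_lit 3672, nat_lit 3024, nat_lit 3240, nat_lit 3168] (nat_lit 0) [] false,
   Spec.mk (nat_lit 3240) (nat_lit 5) [nat_lit 7614, nat_lit 1782, nat_lit 4698, nat_lit 2754, nat_lit 3726, nat_lit 3078, nat_lit 3402, nat_lit 3186] (nat_lit 0) [] false,
   Spec.mk (nat_lit 3402) (nat_lit 5) [nat_lit 7776, nat_lit 1944, nat_lit 4860, nat_lit 3888, nat_lit 3240] (nat_lit 0) [] false,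
   Spec.mk (nat_lit 3646) (nat_lit 4) [nat_lit 8020, nat_lit 5104, nat_lit 3160, nat_lit 3648] (nat_lit 0) [nat_lit 23328] false,
   Spec.mk (nat_lit 3648) (nat_lit 4) [nat_lit 8022, nat_lit 5106, nat_lit 3162, nat_lit 3654, nat_lit 3646] (nat_lit 0) [] false,
   Spec.mk (nat_lit 3654) (nat_lit 4) [nat_lit 8028, nat_lit 5112, nat_lit 3168, nat_lit 3672, nat_lit 3648] (nat_lit 0) [] false,
   Spec.mk (nat_lit 3672) (nat_lit 4) [nat_lit 8046, nat_lit 5130, nat_lit 3186, nat_lit 3726, nat_lit 3654] (nat_lit 0) [] false,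
   Spec.mk (nat_lit 3726) (nat_lit 4) [nat_lit 8100, nat_lit 5184, nat_lit 3240, nat_lit 3888, nat_lit 3672] (nat_lit 0) [] false,
   Spec.mk (nat_lit 3888) (nat_lit 6) [nat_lit 8262, nat_lit 5346, nat_lit 3402, nat_lit 3726] (nat_lit 0) [] false,
   Spec.mk (nat_lit 4376) (nat_lit 2) [nat_lit 8750, nat_lit 2918, nat_lit 4378] (nat_lit 0) [nat_lit 24058] false,
   Spec.mk (nat_lit 4378) (nat_lit 3) [nat_lit 8752, nat_lit 2920, nat_lit 4384, nat_lit 4376, nat_lit 4380] (nat_lit 0) [nat_lit 24060] false]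

noncomputable def sp4 : List Spec :=
  [Spec.mk (nat_lit 4380) (nat_lit 2) [nat_lit 8754, nat_lit 2922, nat_lit 4386, nat_lit 4378] (nat_lit 0) [] false,
   Spec.mk (nat_lit 4384) (nat_lit 2) [nat_lit 8758, nat_lit 2926, nat_lit 4402, nat_lit 4378, nat_lit 4386] (nat_lit 0) [nat_lit 24066] false,
   Spec.mk (nat_lit 4386) (nat_lit 3) [nat_lit 8760, nat_lit 2928, nat_lit 4404, nat_lit 4380, nat_lit 4392, nat_lit 4384] (nat_lit 0) [] false,
   Spec.mk (nat_lit 4392) (nat_lit 2) [nat_lit 8766, nat_lit 2934, nat_lit 4410, nat_lit 4386] (nat_lit 0) [] false,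
   Spec.mk (nat_lit 4402) (nat_lit 2) [nat_lit 8776, nat_lit 2944, nat_lit 4456, nat_lit 4384, nat_lit 4404] (nat_lit 0) [nat_lit 24084] false,
   Spec.mk (nat_lit 4404) (nat_lit 2) [nat_lit 8778, nat_lit 2946, nat_lit 4458, nat_lit 4386, nat_lit 4410, nat_lit 4402] (nat_lit 0) [] false,
   Spec.mk (nat_lit 4410) (nat_lit 3) [nat_lit 8784, nat_lit 2952, nat_lit 4464, nat_lit 4392, nat_lit 4428, nat_lit 4404] (nat_lit 0) [] false,
   Spec.mk (nat_lit 4428) (nat_lit 2) [nat_lit 8802, nat_lit 2970, nat_lit 4482, nat_lit 4410] (nat_lit 0) [] false,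
   Spec.mk (nat_lit 4456) (nat_lit 2) [nat_lit 8830, nat_lit 2998, nat_lit 4618, nat_lit 4402, nat_lit 4458] (nat_lit 0) [nat_lit 24138] false,
   Spec.mk (nat_lit 4458) (nat_lit 2) [nat_lit 8832, nat_lit 3000, nat_lit 4620, nat_lit 4404, nat_lit 4464, nat_lit 4456] (nat_lit 0) [] false,
   Spec.mk (nat_lit 4464) (nat_lit 2) [nat_lit 8838, nat_lit 3006, nat_lit 4626, nat_lit 4410, nat_lit 4482, nat_lit 4458] (nat_lit 0) [] false,
   Spec.mk (nat_lit 4482) (nat_lit 3) [nat_lit 8856, nat_lit 3024, nat_lit 4644, nat_lit 4428, nat_lit 4536, nat_lit 4464] (nat_lit 0) [] false,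
   Spec.mk (nat_lit 4536) (nat_lit 2) [nat_lit 8910, nat_lit 3078, nat_lit 4698, nat_lit 4482] (nat_lit 0) [] false,
   Spec.mk (nat_lit 4618) (nat_lit 2) [nat_lit 8992, nat_lit 3160, nat_lit 5104, nat_lit 4456, nat_lit 4620] (nat_lit 0) [nat_lit 24300] false,
   Spec.mk (nat_lit 4620) (nat_lit 2) [nat_lit 8994, nat_lit 3162, nat_lit 5106, nat_lit 4458, nat_lit 4626, nat_lit 4618] (nat_lit 0) [] false,
   Spec.mk (nat_lit 4626) (nat_lit 2) [nat_lit 9000, nat_lit 3168, nat_lit 5112, nat_lit 4464, nat_lit 4644, nat_lit 4620] (nat_lit 0) [] false,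
   Spec.mk (nat_lit 4644) (nat_lit 2) [nat_lit 9018, nat_lit 3186, nat_lit 5130, nat_lit 4482, nat_lit 4698, nat_lit 4626] (nat_lit 0) [] false,
   Spec.mk (nat_lit 4698) (nat_lit 3) [nat_lit 9072, nat_lit 3240, nat_lit 5184, nat_lit 4536, nat_lit 4860, nat_lit 4644] (nat_lit 0) [] false,
   Spec.mk (nat_lit 4860) (nat_lit 2) [nat_lit 9234, nat_lit 3402, nat_lit 5346, nat_lit 4698] (nat_lit 0) [] false,
   Spec.mk (nat_lit 5104) (nat_lit 4) [nat_lit 9478, nat_lit 3646, nat_lit 4618, nat_lit 5106] (nat_lit 0) [nat_lit 24786] false,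
   Spec.mk (nat_lit 5106) (nat_lit 4) [nat_lit 9480, nat_lit 3648, nat_lit 4620, nat_lit 5112, nat_lit 5104] (nat_lit 0) [] false,
   Spec.mk (nat_lit 5112) (nat_lit 4) [nat_lit 9486, nat_lit 3654, nat_lit 4626, nat_lit 5130, nat_lit 5106] (nat_lit 0) [] false,
   Spec.mk (nat_lit 5130) (nat_lit 4) [nat_lit 9504, nat_lit 3672, nat_lit 4644, nat_lit 5184, nat_lit 5112] (nat_lit 0) [] false,
   Spec.mk (nat_lit 5184) (nat_lit 4) [nat_lit 9558, nat_lit 3726, nat_lit 4698, nat_lit 5346, nat_lit 5130] (nat_lit 0) [] false,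
   Spec.mk (nat_lit 5346) (nat_lit 5) [nat_lit 9720, nat_lit 3888, nat_lit 4860, nat_lit 5832, nat_lit 5184] (nat_lit 0) [] false,
   Spec.mk (nat_lit 5832) (nat_lit 6) [nat_lit 10206, nat_lit 5346] (nat_lit 0) [] false,
   Spec.mk (nat_lit 6566) (nat_lit 4) [nat_lit 19688, nat_lit 2192, nat_lit 6572, nat_lit 6568] (nat_lit 0) [nat_lit 26248] false,
   Spec.mk (nat_lit 6568) (nat_lit 4) [nat_lit 19690, nat_lit 2194, nat_lit 6574, nat_lit 6566] (nat_lit 0) [nat_lit 26250] false,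
   Spec.mk (nat_lit 6572) (nat_lit 2) [nat_lit 19694, nat_lit 2198, nat_lit 6590, nat_lit 6566, nat_lit 6574] (nat_lit 0) [nat_lit 26254] false,
   Spec.mk (nat_lit 6574) (nat_lit 4) [nat_lit 19696, nat_lit 2200, nat_lit 6592, nat_lit 6568, nat_lit 6580, nat_lit 6572, nat_lit 6576] (nat_lit 0) [nat_lit 26256] false,
   Spec.mk (nat_lit 6576) (nat_lit 4) [nat_lit 19698, nat_lit 2202, nat_lit 6594, nat_lit 6582, nat_lit 6574] (nat_lit 0) [] false,
   Spec.mk (nat_lit 6580) (nat_lit 2) [nat_lit 19702, nat_lit 2206, nat_lit 6598, nat_lit 6574, nat_lit 6582] (nat_lit 0) [nat_lit 26262] false,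
   Spec.mk (nat_lit 6582) (nat_lit 4) [nat_lit 19704, nat_lit 2208, nat_lit 6600, nat_lit 6576, nat_lit 6580] (nat_lit 0) [] false,
   Spec.mk (nat_lit 6590) (nat_lit 2) [nat_lit 19712, nat_lit 2216, nat_lit 6644, nat_lit 6572, nat_lit 6592] (nat_lit 0) [nat_lit 26272] false,
   Spec.mk (nat_lit 6592) (nat_lit 3) [nat_lit 19714, nat_lit 2218, nat_lit 6646, nat_lit 6574, nat_lit 6598, nat_lit 6590, nat_lit 6594] (nat_lit 0) [nat_lit 26274] false,
   Spec.mk (nat_lit 6594) (nat_lit 2) [nat_lit 19716, nat_lit 2220, nat_lit 6648, nat_lit 6576, nat_lit 6600, nat_lit 6592] (nat_lit 0) [] false,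
   Spec.mk (nat_lit 6598) (nat_lit 3) [nat_lit 19720, nat_lit 2224, nat_lit 6652, nat_lit 6580, nat_lit 6616, nat_lit 6592, nat_lit 6600] (nat_lit 0) [nat_lit 26280] false,
   Spec.mk (nat_lit 6600) (nat_lit 4) [nat_lit 19722, nat_lit 2226, nat_lit 6654, nat_lit 6582, nat_lit 6618, nat_lit 6594, nat_lit 6606, nat_lit 6598] (nat_lit 0) [] false,
   Spec.mk (nat_lit 6606) (nat_lit 4) [nat_lit 19728, nat_lit 2232, nat_lit 6660, nat_lit 6624, nat_lit 6600] (nat_lit 0) [] false,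
   Spec.mk (nat_lit 6616) (nat_lit 2) [nat_lit 19738, nat_lit 2242, nat_lit 6670, nat_lit 6598, nat_lit 6618] (nat_lit 0) [nat_lit 26298] false,
   Spec.mk (nat_lit 6618) (nat_lit 2) [nat_lit 19740, nat_lit 2244, nat_lit 6672, nat_lit 6600, nat_lit 6624, nat_lit 6616] (nat_lit 0) [] false,
   Spec.mk (nat_lit 6624) (nat_lit 4) [nat_lit 19746, nat_lit 2250, nat_lit 6678, nat_lit 6606, nat_lit 6618] (nat_lit 0) [] false,
   Spec.mk (nat_lit 6644) (nat_lit 2) [nat_lit 19766, nat_lit 2270, nat_lit 6806, nat_lit 6590, nat_lit 6646] (nat_lit 0) [nat_lit 26326] false,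
   Spec.mk (nat_lit 6646) (nat_lit 3) [nat_lit 19768, nat_lit 2272, nat_lit 6808, nat_lit 6592, nat_lit 6652, nat_lit 6644, nat_lit 6648] (nat_lit 0) [nat_lit 26328] false,
   Spec.mk (nat_lit 6648) (nat_lit 2) [nat_lit 19770, nat_lit 2274, nat_lit 6810, nat_lit 6594, nat_lit 6654, nat_lit 6646] (nat_lit 0) [] false,
   Spec.mk (nat_lit 6652) (nat_lit 2) [nat_lit 19774, nat_lit 2278, nat_lit 6814, nat_lit 6598, nat_lit 6670, nat_lit 6646, nat_lit 6654] (nat_lit 0) [nat_lit 26334] false,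
   Spec.mk (nat_lit 6654) (nat_lit 3) [nat_lit 19776, nat_lit 2280, nat_lit 6816, nat_lit 6600, nat_lit 6672, nat_lit 6648, nat_lit 6660, nat_lit 6652] (nat_lit 0) [] false,
   Spec.mk (nat_lit 6660) (nat_lit 2) [nat_lit 19782, nat_lit 2286, nat_lit 6822, nat_lit 6606, nat_lit 6678, nat_lit 6654] (nat_lit 0) [] false,
   Spec.mk (nat_lit 6670) (nat_lit 3) [nat_lit 19792, nat_lit 2296, nat_lit 6832, nat_lit 6616, nat_lit 6724, nat_lit 6652, nat_lit 6672] (nat_lit 0) [nat_lit 26352] false,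
   Spec.mk (nat_lit 6672) (nat_lit 3) [nat_lit 19794, nat_lit 2298, nat_lit 6834, nat_lit 6618, nat_lit 6726, nat_lit 6654, nat_lit 6678, nat_lit 6670] (nat_lit 0) [] false,
   Spec.mk (nat_lit 6678) (nat_lit 4) [nat_lit 19800, nat_lit 2304, nat_lit 6840, nat_lit 6624, nat_lit 6732, nat_lit 6660, nat_lit 6696, nat_lit 6672] (nat_lit 0) [] false,
   Spec.mk (nat_lit 6696) (nat_lit 4) [nat_lit 19818, nat_lit 2322, nat_lit 6858, nat_lit 6750, nat_lit 6678] (nat_lit 0) [] false,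
   Spec.mk (nat_lit 6724) (nat_lit 2) [nat_lit 19846, nat_lit 2350, nat_lit 6886, nat_lit 6670, nat_lit 6726] (nat_lit 0) [nat_lit 26406] false,
   Spec.mk (nat_lit 6726) (nat_lit 2) [nat_lit 19848, nat_lit 2352, nat_lit 6888, nat_lit 6672, nat_lit 6732, nat_lit 6724] (nat_lit 0) [] false,
   Spec.mk (nat_lit 6732) (nat_lit 2) [nat_lit 19854, nat_lit 2358, nat_lit 6894, nat_lit 6678, nat_lit 6750, nat_lit 6726] (nat_lit 0) [] false,
   Spec.mk (nat_lit 6750) (nat_lit 4) [nat_lit 19872, nat_lit 2376, nat_lit 6912, nat_lit 6696, nat_lit 6732] (nat_lit 0) [] false,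
   Spec.mk (nat_lit 6806) (nat_lit 2) [nat_lit 19928, nat_lit 2432, nat_lit 7292, nat_lit 6644, nat_lit 6808] (nat_lit 0) [nat_lit 26488] false,
   Spec.mk (nat_lit 6808) (nat_lit 3) [nat_lit 19930, nat_lit 2434, nat_lit 7294, nat_lit 6646, nat_lit 6814, nat_lit 6806, nat_lit 6810] (nat_lit 0) [nat_lit 26490] false,
   Spec.mk (nat_lit 6810) (nat_lit 2) [nat_lit 19932, nat_lit 2436, nat_lit 7296, nat_lit 6648, nat_lit 6816, nat_lit 6808] (nat_lit 0) [] false,
   Spec.mk (nat_lit 6814) (nat_lit 2) [nat_lit 19936, nat_lit 2440, nat_lit 7300, nat_lit 6652, nat_lit 6832, nat_lit 6808, nat_lit 6816] (nat_lit 0) [nat_lit 26496] false]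

noncomputable def sp5 : List Spec :=
  [Spec.mk (nat_lit 6816) (nat_lit 3) [nat_lit 19938, nat_lit 2442, nat_lit 7302, nat_lit 6654, nat_lit 6834, nat_lit 6810, nat_lit 6822, nat_lit 6814] (nat_lit 0) [] false,
   Spec.mk (nat_lit 6822) (nat_lit 2) [nat_lit 19944, nat_lit 2448, nat_lit 7308, nat_lit 6660, nat_lit 6840, nat_lit 6816] (nat_lit 0) [] false,
   Spec.mk (nat_lit 6832) (nat_lit 2) [nat_lit 19954, nat_lit 2458, nat_lit 7318, nat_lit 6670, nat_lit 6886, nat_lit 6814, nat_lit 6834] (nat_lit 0) [nat_lit 26514] false,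
   Spec.mk (nat_lit 6834) (nat_lit 2) [nat_lit 19956, nat_lit 2460, nat_lit 7320, nat_lit 6672, nat_lit 6888, nat_lit 6816, nat_lit 6840, nat_lit 6832] (nat_lit 0) [] false,
   Spec.mk (nat_lit 6840) (nat_lit 3) [nat_lit 19962, nat_lit 2466, nat_lit 7326, nat_lit 6678, nat_lit 6894, nat_lit 6822, nat_lit 6858, nat_lit 6834] (nat_lit 0) [] false,
   Spec.mk (nat_lit 6858) (nat_lit 2) [nat_lit 19980, nat_lit 2484, nat_lit 7344, nat_lit 6696, nat_lit 6912, nat_lit 6840] (nat_lit 0) [] false,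
   Spec.mk (nat_lit 6886) (nat_lit 3) [nat_lit 20008, nat_lit 2512, nat_lit 7372, nat_lit 6724, nat_lit 7048, nat_lit 6832, nat_lit 6888] (nat_lit 0) [nat_lit 26568] false,
   Spec.mk (nat_lit 6888) (nat_lit 3) [nat_lit 20010, nat_lit 2514, nat_lit 7374, nat_lit 6726, nat_lit 7050, nat_lit 6834, nat_lit 6894, nat_lit 6886] (nat_lit 0) [] false,
   Spec.mk (nat_lit 6894) (nat_lit 3) [nat_lit 20016, nat_lit 2520, nat_lit 7380, nat_lit 6732, nat_lit 7056, nat_lit 6840, nat_lit 6912, nat_lit 6888] (nat_lit 0) [] false,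
   Spec.mk (nat_lit 6912) (nat_lit 4) [nat_lit 20034, nat_lit 2538, nat_lit 7398, nat_lit 6750, nat_lit 7074, nat_lit 6858, nat_lit 6966, nat_lit 6894] (nat_lit 0) [] false,
   Spec.mk (nat_lit 6966) (nat_lit 4) [nat_lit 20088, nat_lit 2592, nat_lit 7452, nat_lit 7128, nat_lit 6912] (nat_lit 0) [] false,
   Spec.mk (nat_lit 7048) (nat_lit 2) [nat_lit 20170, nat_lit 2674, nat_lit 7534, nat_lit 6886, nat_lit 7050] (nat_lit 0) [nat_lit 26730] false,
   Spec.mk (nat_lit 7050) (nat_lit 2) [nat_lit 20172, nat_lit 2676, nat_lit 7536, nat_lit 6888, nat_lit 7056, nat_lit 7048] (nat_lit 0) [] false,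
   Spec.mk (nat_lit 7056) (nat_lit 2) [nat_lit 20178, nat_lit 2682, nat_lit 7542, nat_lit 6894, nat_lit 7074, nat_lit 7050] (nat_lit 0) [] false,
   Spec.mk (nat_lit 7074) (nat_lit 2) [nat_lit 20196, nat_lit 2700, nat_lit 7560, nat_lit 6912, nat_lit 7128, nat_lit 7056] (nat_lit 0) [] false,
   Spec.mk (nat_lit 7128) (nat_lit 4) [nat_lit 20250, nat_lit 2754, nat_lit 7614, nat_lit 6966, nat_lit 7074] (nat_lit 0) [] false,
   Spec.mk (nat_lit 7292) (nat_lit 2) [nat_lit 20414, nat_lit 2918, nat_lit 8750, nat_lit 6806, nat_lit 7294] (nat_lit 0) [nat_lit 26974] false,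
   Spec.mk (nat_lit 7294) (nat_lit 3) [nat_lit 20416, nat_lit 2920, nat_lit 8752, nat_lit 6808, nat_lit 7300, nat_lit 7292, nat_lit 7296] (nat_lit 0) [nat_lit 26976] false,
   Spec.mk (nat_lit 7296) (nat_lit 2) [nat_lit 20418, nat_lit 2922, nat_lit 8754, nat_lit 6810, nat_lit 7302, nat_lit 7294] (nat_lit 0) [] false,
   Spec.mk (nat_lit 7300) (nat_lit 2) [nat_lit 20422, nat_lit 2926, nat_lit 8758, nat_lit 6814, nat_lit 7318, nat_lit 7294, nat_lit 7302] (nat_lit 0) [nat_lit 26982] false,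
   Spec.mk (nat_lit 7302) (nat_lit 3) [nat_lit 20424, nat_lit 2928, nat_lit 8760, nat_lit 6816, nat_lit 7320, nat_lit 7296, nat_lit 7308, nat_lit 7300] (nat_lit 0) [] false,
   Spec.mk (nat_lit 7308) (nat_lit 2) [nat_lit 20430, nat_lit 2934, nat_lit 8766, nat_lit 6822, nat_lit 7326, nat_lit 7302] (nat_lit 0) [] false,
   Spec.mk (nat_lit 7318) (nat_lit 2) [nat_lit 20440, nat_lit 2944, nat_lit 8776, nat_lit 6832, nat_lit 7372, nat_lit 7300, nat_lit 7320] (nat_lit 0) [nat_lit 27000] false,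
   Spec.mk (nat_lit 7320) (nat_lit 2) [nat_lit 20442, nat_lit 2946, nat_lit 8778, nat_lit 6834, nat_lit 7374, nat_lit 7302, nat_lit 7326, nat_lit 7318] (nat_lit 0) [] false,
   Spec.mk (nat_lit 7326) (nat_lit 3) [nat_lit 20448, nat_lit 2952, nat_lit 8784, nat_lit 6840, nat_lit 7380, nat_lit 7308, nat_lit 7344, nat_lit 7320] (nat_lit 0) [] false,
   Spec.mk (nat_lit 7344) (nat_lit 2) [nat_lit 20466, nat_lit 2970, nat_lit 8802, nat_lit 6858, nat_lit 7398, nat_lit 7326] (nat_lit 0) [] false,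
   Spec.mk (nat_lit 7372) (nat_lit 2) [nat_lit 20494, nat_lit 2998, nat_lit 8830, nat_lit 6886, nat_lit 7534, nat_lit 7318, nat_lit 7374] (nat_lit 0) [nat_lit 27054] false,
   Spec.mk (nat_lit 7374) (nat_lit 2) [nat_lit 20496, nat_lit 3000, nat_lit 8832, nat_lit 6888, nat_lit 7536, nat_lit 7320, nat_lit 7380, nat_lit 7372] (nat_lit 0) [] false,
   Spec.mk (nat_lit 7380) (nat_lit 2) [nat_lit 20502, nat_lit 3006, nat_lit 8838, nat_lit 6894, nat_lit 7542, nat_lit 7326, nat_lit 7398, nat_lit 7374] (nat_lit 0) [] false,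
   Spec.mk (nat_lit 7398) (nat_lit 3) [nat_lit 20520, nat_lit 3024, nat_lit 8856, nat_lit 6912, nat_lit 7560, nat_lit 7344, nat_lit 7452, nat_lit 7380] (nat_lit 0) [] false,
   Spec.mk (nat_lit 7452) (nat_lit 2) [nat_lit 20574, nat_lit 3078, nat_lit 8910, nat_lit 6966, nat_lit 7614, nat_lit 7398] (nat_lit 0) [] false,
   Spec.mk (nat_lit 7534) (nat_lit 3) [nat_lit 20656, nat_lit 3160, nat_lit 8992, nat_lit 7048, nat_lit 8020, nat_lit 7372, nat_lit 7536] (nat_lit 0) [nat_lit 27216] false,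
   Spec.mk (nat_lit 7536) (nat_lit 3) [nat_lit 20658, nat_lit 3162, nat_lit 8994, nat_lit 7050, nat_lit 8022, nat_lit 7374, nat_lit 7542, nat_lit 7534] (nat_lit 0) [] false,
   Spec.mk (nat_lit 7542) (nat_lit 3) [nat_lit 20664, nat_lit 3168, nat_lit 9000, nat_lit 7056, nat_lit 8028, nat_lit 7380, nat_lit 7560, nat_lit 7536] (nat_lit 0) [] false,
   Spec.mk (nat_lit 7560) (nat_lit 3) [nat_lit 20682, nat_lit 3186, nat_lit 9018, nat_lit 7074, nat_lit 8046, nat_lit 7398, nat_lit 7614, nat_lit 7542] (nat_lit 0) [] false,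
   Spec.mk (nat_lit 7614) (nat_lit 4) [nat_lit 20736, nat_lit 3240, nat_lit 9072, nat_lit 7128, nat_lit 8100, nat_lit 7452, nat_lit 7776, nat_lit 7560] (nat_lit 0) [] false,
   Spec.mk (nat_lit 7776) (nat_lit 4) [nat_lit 20898, nat_lit 3402, nat_lit 9234, nat_lit 8262, nat_lit 7614] (nat_lit 0) [] false,
   Spec.mk (nat_lit 8020) (nat_lit 2) [nat_lit 21142, nat_lit 3646, nat_lit 9478, nat_lit 7534, nat_lit 8022] (nat_lit 0) [nat_lit 27702] false,
   Spec.mk (nat_lit 8022) (nat_lit 2) [nat_lit 21144, nat_lit 3648, nat_lit 9480, nat_lit 7536, nat_lit 8028, nat_lit 8020] (nat_lit 0) [] false,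
   Spec.mk (nat_lit 8028) (nat_lit 2) [nat_lit 21150, nat_lit 3654, nat_lit 9486, nat_lit 7542, nat_lit 8046, nat_lit 8022] (nat_lit 0) [] false,
   Spec.mk (nat_lit 8046) (nat_lit 2) [nat_lit 21168, nat_lit 3672, nat_lit 9504, nat_lit 7560, nat_lit 8100, nat_lit 8028] (nat_lit 0) [] false,
   Spec.mk (nat_lit 8100) (nat_lit 2) [nat_lit 21222, nat_lit 3726, nat_lit 9558, nat_lit 7614, nat_lit 8262, nat_lit 8046] (nat_lit 0) [] false,
   Spec.mk (nat_lit 8262) (nat_lit 4) [nat_lit 21384, nat_lit 3888, nat_lit 9720, nat_lit 7776, nat_lit 8100] (nat_lit 0) [] false,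
   Spec.mk (nat_lit 8750) (nat_lit 3) [nat_lit 21872, nat_lit 4376, nat_lit 13124, nat_lit 7292, nat_lit 8752] (nat_lit 0) [nat_lit 28432] false,
   Spec.mk (nat_lit 8752) (nat_lit 4) [nat_lit 21874, nat_lit 4378, nat_lit 13126, nat_lit 7294, nat_lit 8758, nat_lit 8750, nat_lit 8754] (nat_lit 0) [nat_lit 28434] false,
   Spec.mk (nat_lit 8754) (nat_lit 3) [nat_lit 21876, nat_lit 4380, nat_lit 13128, nat_lit 7296, nat_lit 8760, nat_lit 8752] (nat_lit 0) [] false,
   Spec.mk (nat_lit 8758) (nat_lit 3) [nat_lit 21880, nat_lit 4384, nat_lit 13132, nat_lit 7300, nat_lit 8776, nat_lit 8752, nat_lit 8760] (nat_lit 0) [nat_lit 28440] false,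
   Spec.mk (nat_lit 8760) (nat_lit 4) [nat_lit 21882, nat_lit 4386, nat_lit 13134, nat_lit 7302, nat_lit 8778, nat_lit 8754, nat_lit 8766, nat_lit 8758] (nat_lit 0) [] false,
   Spec.mk (nat_lit 8766) (nat_lit 3) [nat_lit 21888, nat_lit 4392, nat_lit 13140, nat_lit 7308, nat_lit 8784, nat_lit 8760] (nat_lit 0) [] false,
   Spec.mk (nat_lit 8776) (nat_lit 3) [nat_lit 21898, nat_lit 4402, nat_lit 13150, nat_lit 7318, nat_lit 8830, nat_lit 8758, nat_lit 8778] (nat_lit 0) [nat_lit 28458] false,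
   Spec.mk (nat_lit 8778) (nat_lit 3) [nat_lit 21900, nat_lit 4404, nat_lit 13152, nat_lit 7320, nat_lit 8832, nat_lit 8760, nat_lit 8784, nat_lit 8776] (nat_lit 0) [] false,
   Spec.mk (nat_lit 8784) (nat_lit 4) [nat_lit 21906, nat_lit 4410, nat_lit 13158, nat_lit 7326, nat_lit 8838, nat_lit 8766, nat_lit 8802, nat_lit 8778] (nat_lit 0) [] false,
   Spec.mk (nat_lit 8802) (nat_lit 3) [nat_lit 21924, nat_lit 4428, nat_lit 13176, nat_lit 7344, nat_lit 8856, nat_lit 8784] (nat_lit 0) [] false,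
   Spec.mk (nat_lit 8830) (nat_lit 3) [nat_lit 21952, nat_lit 4456, nat_lit 13204, nat_lit 7372, nat_lit 8992, nat_lit 8776, nat_lit 8832] (nat_lit 0) [nat_lit 28512] false,
   Spec.mk (nat_lit 8832) (nat_lit 3) [nat_lit 21954, nat_lit 4458, nat_lit 13206, nat_lit 7374, nat_lit 8994, nat_lit 8778, nat_lit 8838, nat_lit 8830] (nat_lit 0) [] false,
   Spec.mk (nat_lit 8838) (nat_lit 3) [nat_lit 21960, nat_lit 4464, nat_lit 13212, nat_lit 7380, nat_lit 9000, nat_lit 8784, nat_lit 8856, nat_lit 8832] (nat_lit 0) [] false,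
   Spec.mk (nat_lit 8856) (nat_lit 4) [nat_lit 21978, nat_lit 4482, nat_lit 13230, nat_lit 7398, nat_lit 9018, nat_lit 8802, nat_lit 8910, nat_lit 8838] (nat_lit 0) [] false,
   Spec.mk (nat_lit 8910) (nat_lit 3) [nat_lit 22032, nat_lit 4536, nat_lit 13284, nat_lit 7452, nat_lit 9072, nat_lit 8856] (nat_lit 0) [] false,
   Spec.mk (nat_lit 8992) (nat_lit 3) [nat_lit 22114, nat_lit 4618, nat_lit 13366, nat_lit 7534, nat_lit 9478, nat_lit 8830, nat_lit 8994] (nat_lit 0) [nat_lit 28674] false,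
   Spec.mk (nat_lit 8994) (nat_lit 3) [nat_lit 22116, nat_lit 4620, nat_lit 13368, nat_lit 7536, nat_lit 9480, nat_lit 8832, nat_lit 9000, nat_lit 8992] (nat_lit 0) [] false]

noncomputable def sp6 : List Spec :=
  [Spec.mk (nat_lit 9000) (nat_lit 3) [nat_lit 22122, nat_lit 4626, nat_lit 13374, nat_lit 7542, nat_lit 9486, nat_lit 8838, nat_lit 9018, nat_lit 8994] (nat_lit 0) [] false,
   Spec.mk (nat_lit 9018) (nat_lit 3) [nat_lit 22140, nat_lit 4644, nat_lit 13392, nat_lit 7560, nat_lit 9504, nat_lit 8856, nat_lit 9072, nat_lit 9000] (nat_lit 0) [] false,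
   Spec.mk (nat_lit 9072) (nat_lit 4) [nat_lit 22194, nat_lit 4698, nat_lit 13446, nat_lit 7614, nat_lit 9558, nat_lit 8910, nat_lit 9234, nat_lit 9018] (nat_lit 0) [] false,
   Spec.mk (nat_lit 9234) (nat_lit 3) [nat_lit 22356, nat_lit 4860, nat_lit 13608, nat_lit 7776, nat_lit 9720, nat_lit 9072] (nat_lit 0) [] false,
   Spec.mk (nat_lit 9478) (nat_lit 4) [nat_lit 22600, nat_lit 5104, nat_lit 13852, nat_lit 8020, nat_lit 10936, nat_lit 8992, nat_lit 9480] (nat_lit 0) [nat_lit 29160] false,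
   Spec.mk (nat_lit 9480) (nat_lit 4) [nat_lit 22602, nat_lit 5106, nat_lit 13854, nat_lit 8022, nat_lit 10938, nat_lit 8994, nat_lit 9486, nat_lit 9478] (nat_lit 0) [] false,
   Spec.mk (nat_lit 9486) (nat_lit 4) [nat_lit 22608, nat_lit 5112, nat_lit 13860, nat_lit 8028, nat_lit 10944, nat_lit 9000, nat_lit 9504, nat_lit 9480] (nat_lit 0) [] false,
   Spec.mk (nat_lit 9504) (nat_lit 4) [nat_lit 22626, nat_lit 5130, nat_lit 13878, nat_lit 8046, nat_lit 10962, nat_lit 9018, nat_lit 9558, nat_lit 9486] (nat_lit 0) [] false,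
   Spec.mk (nat_lit 9558) (nat_lit 4) [nat_lit 22680, nat_lit 5184, nat_lit 13932, nat_lit 8100, nat_lit 11016, nat_lit 9072, nat_lit 9720, nat_lit 9504] (nat_lit 0) [] false,
   Spec.mk (nat_lit 9720) (nat_lit 5) [nat_lit 22842, nat_lit 5346, nat_lit 14094, nat_lit 8262, nat_lit 11178, nat_lit 9234, nat_lit 10206, nat_lit 9558] (nat_lit 0) [] false,
   Spec.mk (nat_lit 10206) (nat_lit 5) [nat_lit 23328, nat_lit 5832, nat_lit 14580, nat_lit 11664, nat_lit 9720] (nat_lit 0) [] false,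
   Spec.mk (nat_lit 10936) (nat_lit 4) [nat_lit 24058, nat_lit 15310, nat_lit 9478, nat_lit 10938] (nat_lit 0) [nat_lit 30618] false,
   Spec.mk (nat_lit 10938) (nat_lit 4) [nat_lit 24060, nat_lit 15312, nat_lit 9480, nat_lit 10944, nat_lit 10936] (nat_lit 0) [] false,
   Spec.mk (nat_lit 10944) (nat_lit 4) [nat_lit 24066, nat_lit 15318, nat_lit 9486, nat_lit 10962, nat_lit 10938] (nat_lit 0) [] false,
   Spec.mk (nat_lit 10962) (nat_lit 4) [nat_lit 24084, nat_lit 15336, nat_lit 9504, nat_lit 11016, nat_lit 10944] (nat_lit 0) [] false,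
   Spec.mk (nat_lit 11016) (nat_lit 4) [nat_lit 24138, nat_lit 15390, nat_lit 9558, nat_lit 11178, nat_lit 10962] (nat_lit 0) [] false,
   Spec.mk (nat_lit 11178) (nat_lit 4) [nat_lit 24300, nat_lit 15552, nat_lit 9720, nat_lit 11664, nat_lit 11016] (nat_lit 0) [] false,
   Spec.mk (nat_lit 11664) (nat_lit 6) [nat_lit 24786, nat_lit 16038, nat_lit 10206, nat_lit 11178] (nat_lit 0) [] false,
   Spec.mk (nat_lit 13124) (nat_lit 2) [nat_lit 26246, nat_lit 8750, nat_lit 13126] (nat_lit 0) [nat_lit 32806] false,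
   Spec.mk (nat_lit 13126) (nat_lit 3) [nat_lit 26248, nat_lit 8752, nat_lit 13132, nat_lit 13124, nat_lit 13128] (nat_lit 0) [nat_lit 32808] false,
   Spec.mk (nat_lit 13128) (nat_lit 2) [nat_lit 26250, nat_lit 8754, nat_lit 13134, nat_lit 13126] (nat_lit 0) [] false,
   Spec.mk (nat_lit 13132) (nat_lit 2) [nat_lit 26254, nat_lit 8758, nat_lit 13150, nat_lit 13126, nat_lit 13134] (nat_lit 0) [nat_lit 32814] false,
   Spec.mk (nat_lit 13134) (nat_lit 3) [nat_lit 26256, nat_lit 8760, nat_lit 13152, nat_lit 13128, nat_lit 13140, nat_lit 13132] (nat_lit 0) [] false,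
   Spec.mk (nat_lit 13140) (nat_lit 2) [nat_lit 26262, nat_lit 8766, nat_lit 13158, nat_lit 13134] (nat_lit 0) [] false,
   Spec.mk (nat_lit 13150) (nat_lit 2) [nat_lit 26272, nat_lit 8776, nat_lit 13204, nat_lit 13132, nat_lit 13152] (nat_lit 0) [nat_lit 32832] false,
   Spec.mk (nat_lit 13152) (nat_lit 2) [nat_lit 26274, nat_lit 8778, nat_lit 13206, nat_lit 13134, nat_lit 13158, nat_lit 13150] (nat_lit 0) [] false,
   Spec.mk (nat_lit 13158) (nat_lit 3) [nat_lit 26280, nat_lit 8784, nat_lit 13212, nat_lit 13140, nat_lit 13176, nat_lit 13152] (nat_lit 0) [] false,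
   Spec.mk (nat_lit 13176) (nat_lit 2) [nat_lit 26298, nat_lit 8802, nat_lit 13230, nat_lit 13158] (nat_lit 0) [] false,
   Spec.mk (nat_lit 13204) (nat_lit 2) [nat_lit 26326, nat_lit 8830, nat_lit 13366, nat_lit 13150, nat_lit 13206] (nat_lit 0) [nat_lit 32886] false,
   Spec.mk (nat_lit 13206) (nat_lit 2) [nat_lit 26328, nat_lit 8832, nat_lit 13368, nat_lit 13152, nat_lit 13212, nat_lit 13204] (nat_lit 0) [] false,
   Spec.mk (nat_lit 13212) (nat_lit 2) [nat_lit 26334, nat_lit 8838, nat_lit 13374, nat_lit 13158, nat_lit 13230, nat_lit 13206] (nat_lit 0) [] false,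
   Spec.mk (nat_lit 13230) (nat_lit 3) [nat_lit 26352, nat_lit 8856, nat_lit 13392, nat_lit 13176, nat_lit 13284, nat_lit 13212] (nat_lit 0) [] false,
   Spec.mk (nat_lit 13284) (nat_lit 2) [nat_lit 26406, nat_lit 8910, nat_lit 13446, nat_lit 13230] (nat_lit 0) [] false,
   Spec.mk (nat_lit 13366) (nat_lit 2) [nat_lit 26488, nat_lit 8992, nat_lit 13852, nat_lit 13204, nat_lit 13368] (nat_lit 0) [nat_lit 33048] false,
   Spec.mk (nat_lit 13368) (nat_lit 2) [nat_lit 26490, nat_lit 8994, nat_lit 13854, nat_lit 13206, nat_lit 13374, nat_lit 13366] (nat_lit 0) [] false,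
   Spec.mk (nat_lit 13374) (nat_lit 2) [nat_lit 26496, nat_lit 9000, nat_lit 13860, nat_lit 13212, nat_lit 13392, nat_lit 13368] (nat_lit 0) [] false,
   Spec.mk (nat_lit 13392) (nat_lit 2) [nat_lit 26514, nat_lit 9018, nat_lit 13878, nat_lit 13230, nat_lit 13446, nat_lit 13374] (nat_lit 0) [] false,
   Spec.mk (nat_lit 13446) (nat_lit 3) [nat_lit 26568, nat_lit 9072, nat_lit 13932, nat_lit 13284, nat_lit 13608, nat_lit 13392] (nat_lit 0) [] false,
   Spec.mk (nat_lit 13608) (nat_lit 2) [nat_lit 26730, nat_lit 9234, nat_lit 14094, nat_lit 13446] (nat_lit 0) [] false,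
   Spec.mk (nat_lit 13852) (nat_lit 2) [nat_lit 26974, nat_lit 9478, nat_lit 15310, nat_lit 13366, nat_lit 13854] (nat_lit 0) [nat_lit 33534] false,
   Spec.mk (nat_lit 13854) (nat_lit 2) [nat_lit 26976, nat_lit 9480, nat_lit 15312, nat_lit 13368, nat_lit 13860, nat_lit 13852] (nat_lit 0) [] false,
   Spec.mk (nat_lit 13860) (nat_lit 2) [nat_lit 26982, nat_lit 9486, nat_lit 15318, nat_lit 13374, nat_lit 13878, nat_lit 13854] (nat_lit 0) [] false,
   Spec.mk (nat_lit 13878) (nat_lit 2) [nat_lit 27000, nat_lit 9504, nat_lit 15336, nat_lit 13392, nat_lit 13932, nat_lit 13860] (nat_lit 0) [] false,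
   Spec.mk (nat_lit 13932) (nat_lit 2) [nat_lit 27054, nat_lit 9558, nat_lit 15390, nat_lit 13446, nat_lit 14094, nat_lit 13878] (nat_lit 0) [] false,
   Spec.mk (nat_lit 14094) (nat_lit 3) [nat_lit 27216, nat_lit 9720, nat_lit 15552, nat_lit 13608, nat_lit 14580, nat_lit 13932] (nat_lit 0) [] false,
   Spec.mk (nat_lit 14580) (nat_lit 2) [nat_lit 27702, nat_lit 10206, nat_lit 16038, nat_lit 14094] (nat_lit 0) [] false,
   Spec.mk (nat_lit 15310) (nat_lit 4) [nat_lit 28432, nat_lit 10936, nat_lit 13852, nat_lit 15312] (nat_lit 0) [nat_lit 34992] false,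
   Spec.mk (nat_lit 15312) (nat_lit 4) [nat_lit 28434, nat_lit 10938, nat_lit 13854, nat_lit 15318, nat_lit 15310] (nat_lit 0) [] false,
   Spec.mk (nat_lit 15318) (nat_lit 4) [nat_lit 28440, nat_lit 10944, nat_lit 13860, nat_lit 15336, nat_lit 15312] (nat_lit 0) [] false,
   Spec.mk (nat_lit 15336) (nat_lit 4) [nat_lit 28458, nat_lit 10962, nat_lit 13878, nat_lit 15390, nat_lit 15318] (nat_lit 0) [] false,
   Spec.mk (nat_lit 15390) (nat_lit 4) [nat_lit 28512, nat_lit 11016, nat_lit 13932, nat_lit 15552, nat_lit 15336] (nat_lit 0) [] false,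
   Spec.mk (nat_lit 15552) (nat_lit 4) [nat_lit 28674, nat_lit 11178, nat_lit 14094, nat_lit 16038, nat_lit 15390] (nat_lit 0) [] false,
   Spec.mk (nat_lit 16038) (nat_lit 5) [nat_lit 29160, nat_lit 11664, nat_lit 14580, nat_lit 17496, nat_lit 15552] (nat_lit 0) [] false,
   Spec.mk (nat_lit 17496) (nat_lit 6) [nat_lit 30618, nat_lit 16038] (nat_lit 0) [] false,
   Spec.mk (nat_lit 19688) (nat_lit 6) [nat_lit 6566, nat_lit 19694, nat_lit 19690] (nat_lit 0) [nat_lit 39370] false,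
   Spec.mk (nat_lit 19690) (nat_lit 5) [nat_lit 6568, nat_lit 19696, nat_lit 19688] (nat_lit 0) [nat_lit 39372, nat_lit 8] false,
   Spec.mk (nat_lit 19694) (nat_lit 4) [nat_lit 6572, nat_lit 19712, nat_lit 19688, nat_lit 19696] (nat_lit 0) [nat_lit 39376] false,
   Spec.mk (nat_lit 19696) (nat_lit 5) [nat_lit 6574, nat_lit 19714, nat_lit 19690, nat_lit 19702, nat_lit 19694, nat_lit 19698] (nat_lit 0) [nat_lit 39378, nat_lit 14] false,
   Spec.mk (nat_lit 19698) (nat_lit 4) [nat_lit 6576, nat_lit 19716, nat_lit 19704, nat_lit 19696] (nat_lit 0) [nat_lit 16] false,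
   Spec.mk (nat_lit 19702) (nat_lit 3) [nat_lit 6580, nat_lit 19720, nat_lit 19696, nat_lit 19704] (nat_lit 0) [nat_lit 39384, nat_lit 20] false]

noncomputable def sp7 : List Spec :=
  [Spec.mk (nat_lit 19704) (nat_lit 4) [nat_lit 6582, nat_lit 19722, nat_lit 19698, nat_lit 19702] (nat_lit 0) [nat_lit 22] false,
   Spec.mk (nat_lit 19712) (nat_lit 4) [nat_lit 6590, nat_lit 19766, nat_lit 19694, nat_lit 19714] (nat_lit 0) [nat_lit 39394] false,
   Spec.mk (nat_lit 19714) (nat_lit 4) [nat_lit 6592, nat_lit 19768, nat_lit 19696, nat_lit 19720, nat_lit 19712, nat_lit 19716] (nat_lit 0) [nat_lit 39396, nat_lit 32] false,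
   Spec.mk (nat_lit 19716) (nat_lit 2) [nat_lit 6594, nat_lit 19770, nat_lit 19698, nat_lit 19722, nat_lit 19714] (nat_lit 0) [nat_lit 34] false,
   Spec.mk (nat_lit 19720) (nat_lit 4) [nat_lit 6598, nat_lit 19774, nat_lit 19702, nat_lit 19738, nat_lit 19714, nat_lit 19722] (nat_lit 0) [nat_lit 39402, nat_lit 38] false,
   Spec.mk (nat_lit 19722) (nat_lit 4) [nat_lit 6600, nat_lit 19776, nat_lit 19704, nat_lit 19740, nat_lit 19716, nat_lit 19728, nat_lit 19720] (nat_lit 0) [nat_lit 40] false,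
   Spec.mk (nat_lit 19728) (nat_lit 4) [nat_lit 6606, nat_lit 19782, nat_lit 19746, nat_lit 19722] (nat_lit 0) [nat_lit 46] false,
   Spec.mk (nat_lit 19738) (nat_lit 3) [nat_lit 6616, nat_lit 19792, nat_lit 19720, nat_lit 19740] (nat_lit 0) [nat_lit 39420, nat_lit 56] false,
   Spec.mk (nat_lit 19740) (nat_lit 2) [nat_lit 6618, nat_lit 19794, nat_lit 19722, nat_lit 19746, nat_lit 19738] (nat_lit 0) [nat_lit 58] false,
   Spec.mk (nat_lit 19746) (nat_lit 4) [nat_lit 6624, nat_lit 19800, nat_lit 19728, nat_lit 19740] (nat_lit 0) [nat_lit 64] false,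
   Spec.mk (nat_lit 19766) (nat_lit 4) [nat_lit 6644, nat_lit 19928, nat_lit 19712, nat_lit 19768] (nat_lit 0) [nat_lit 39448] false,
   Spec.mk (nat_lit 19768) (nat_lit 4) [nat_lit 6646, nat_lit 19930, nat_lit 19714, nat_lit 19774, nat_lit 19766, nat_lit 19770] (nat_lit 0) [nat_lit 39450, nat_lit 86] false,
   Spec.mk (nat_lit 19770) (nat_lit 2) [nat_lit 6648, nat_lit 19932, nat_lit 19716, nat_lit 19776, nat_lit 19768] (nat_lit 0) [nat_lit 88] false,
   Spec.mk (nat_lit 19774) (nat_lit 3) [nat_lit 6652, nat_lit 19936, nat_lit 19720, nat_lit 19792, nat_lit 19768, nat_lit 19776] (nat_lit 0) [nat_lit 39456, nat_lit 92] false,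
   Spec.mk (nat_lit 19776) (nat_lit 3) [nat_lit 6654, nat_lit 19938, nat_lit 19722, nat_lit 19794, nat_lit 19770, nat_lit 19782, nat_lit 19774] (nat_lit 0) [nat_lit 94] false,
   Spec.mk (nat_lit 19782) (nat_lit 2) [nat_lit 6660, nat_lit 19944, nat_lit 19728, nat_lit 19800, nat_lit 19776] (nat_lit 0) [nat_lit 100] false,
   Spec.mk (nat_lit 19792) (nat_lit 4) [nat_lit 6670, nat_lit 19954, nat_lit 19738, nat_lit 19846, nat_lit 19774, nat_lit 19794] (nat_lit 0) [nat_lit 39474, nat_lit 110] false,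
   Spec.mk (nat_lit 19794) (nat_lit 3) [nat_lit 6672, nat_lit 19956, nat_lit 19740, nat_lit 19848, nat_lit 19776, nat_lit 19800, nat_lit 19792] (nat_lit 0) [nat_lit 112] false,
   Spec.mk (nat_lit 19800) (nat_lit 4) [nat_lit 6678, nat_lit 19962, nat_lit 19746, nat_lit 19854, nat_lit 19782, nat_lit 19818, nat_lit 19794] (nat_lit 0) [nat_lit 118] false,
   Spec.mk (nat_lit 19818) (nat_lit 4) [nat_lit 6696, nat_lit 19980, nat_lit 19872, nat_lit 19800] (nat_lit 0) [nat_lit 136] false,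
   Spec.mk (nat_lit 19846) (nat_lit 3) [nat_lit 6724, nat_lit 20008, nat_lit 19792, nat_lit 19848] (nat_lit 0) [nat_lit 39528, nat_lit 164] false,
   Spec.mk (nat_lit 19848) (nat_lit 2) [nat_lit 6726, nat_lit 20010, nat_lit 19794, nat_lit 19854, nat_lit 19846] (nat_lit 0) [nat_lit 166] false,
   Spec.mk (nat_lit 19854) (nat_lit 2) [nat_lit 6732, nat_lit 20016, nat_lit 19800, nat_lit 19872, nat_lit 19848] (nat_lit 0) [nat_lit 172] false,
   Spec.mk (nat_lit 19872) (nat_lit 4) [nat_lit 6750, nat_lit 20034, nat_lit 19818, nat_lit 19854] (nat_lit 0) [nat_lit 190] false,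
   Spec.mk (nat_lit 19928) (nat_lit 4) [nat_lit 6806, nat_lit 20414, nat_lit 19766, nat_lit 19930] (nat_lit 0) [nat_lit 39610] false,
   Spec.mk (nat_lit 19930) (nat_lit 4) [nat_lit 6808, nat_lit 20416, nat_lit 19768, nat_lit 19936, nat_lit 19928, nat_lit 19932] (nat_lit 0) [nat_lit 39612, nat_lit 248] false,
   Spec.mk (nat_lit 19932) (nat_lit 2) [nat_lit 6810, nat_lit 20418, nat_lit 19770, nat_lit 19938, nat_lit 19930] (nat_lit 0) [nat_lit 250] false,
   Spec.mk (nat_lit 19936) (nat_lit 3) [nat_lit 6814, nat_lit 20422, nat_lit 19774, nat_lit 19954, nat_lit 19930, nat_lit 19938] (nat_lit 0) [nat_lit 39618, nat_lit 254] false,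
   Spec.mk (nat_lit 19938) (nat_lit 3) [nat_lit 6816, nat_lit 20424, nat_lit 19776, nat_lit 19956, nat_lit 19932, nat_lit 19944, nat_lit 19936] (nat_lit 0) [nat_lit 256] false,
   Spec.mk (nat_lit 19944) (nat_lit 2) [nat_lit 6822, nat_lit 20430, nat_lit 19782, nat_lit 19962, nat_lit 19938] (nat_lit 0) [nat_lit 262] false,
   Spec.mk (nat_lit 19954) (nat_lit 3) [nat_lit 6832, nat_lit 20440, nat_lit 19792, nat_lit 20008, nat_lit 19936, nat_lit 19956] (nat_lit 0) [nat_lit 39636, nat_lit 272] false,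
   Spec.mk (nat_lit 19956) (nat_lit 2) [nat_lit 6834, nat_lit 20442, nat_lit 19794, nat_lit 20010, nat_lit 19938, nat_lit 19962, nat_lit 19954] (nat_lit 0) [nat_lit 274] false,
   Spec.mk (nat_lit 19962) (nat_lit 3) [nat_lit 6840, nat_lit 20448, nat_lit 19800, nat_lit 20016, nat_lit 19944, nat_lit 19980, nat_lit 19956] (nat_lit 0) [nat_lit 280] false,
   Spec.mk (nat_lit 19980) (nat_lit 2) [nat_lit 6858, nat_lit 20466, nat_lit 19818, nat_lit 20034, nat_lit 19962] (nat_lit 0) [nat_lit 298] false,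
   Spec.mk (nat_lit 20008) (nat_lit 4) [nat_lit 6886, nat_lit 20494, nat_lit 19846, nat_lit 20170, nat_lit 19954, nat_lit 20010] (nat_lit 0) [nat_lit 39690, nat_lit 326] false,
   Spec.mk (nat_lit 20010) (nat_lit 3) [nat_lit 6888, nat_lit 20496, nat_lit 19848, nat_lit 20172, nat_lit 19956, nat_lit 20016, nat_lit 20008] (nat_lit 0) [nat_lit 328] false,
   Spec.mk (nat_lit 20016) (nat_lit 3) [nat_lit 6894, nat_lit 20502, nat_lit 19854, nat_lit 20178, nat_lit 19962, nat_lit 20034, nat_lit 20010] (nat_lit 0) [nat_lit 334] false,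
   Spec.mk (nat_lit 20034) (nat_lit 4) [nat_lit 6912, nat_lit 20520, nat_lit 19872, nat_lit 20196, nat_lit 19980, nat_lit 20088, nat_lit 20016] (nat_lit 0) [nat_lit 352] false,
   Spec.mk (nat_lit 20088) (nat_lit 4) [nat_lit 6966, nat_lit 20574, nat_lit 20250, nat_lit 20034] (nat_lit 0) [nat_lit 406] false,
   Spec.mk (nat_lit 20170) (nat_lit 3) [nat_lit 7048, nat_lit 20656, nat_lit 20008, nat_lit 20172] (nat_lit 0) [nat_lit 39852, nat_lit 488] false,
   Spec.mk (nat_lit 20172) (nat_lit 2) [nat_lit 7050, nat_lit 20658, nat_lit 20010, nat_lit 20178, nat_lit 20170] (nat_lit 0) [nat_lit 490] false,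
   Spec.mk (nat_lit 20178) (nat_lit 2) [nat_lit 7056, nat_lit 20664, nat_lit 20016, nat_lit 20196, nat_lit 20172] (nat_lit 0) [nat_lit 496] false,
   Spec.mk (nat_lit 20196) (nat_lit 2) [nat_lit 7074, nat_lit 20682, nat_lit 20034, nat_lit 20250, nat_lit 20178] (nat_lit 0) [nat_lit 514] false,
   Spec.mk (nat_lit 20250) (nat_lit 4) [nat_lit 7128, nat_lit 20736, nat_lit 20088, nat_lit 20196] (nat_lit 0) [nat_lit 568] false,
   Spec.mk (nat_lit 20414) (nat_lit 4) [nat_lit 7292, nat_lit 21872, nat_lit 19928, nat_lit 20416] (nat_lit 0) [nat_lit 40096] false,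
   Spec.mk (nat_lit 20416) (nat_lit 4) [nat_lit 7294, nat_lit 21874, nat_lit 19930, nat_lit 20422, nat_lit 20414, nat_lit 20418] (nat_lit 0) [nat_lit 40098, nat_lit 734] false,
   Spec.mk (nat_lit 20418) (nat_lit 2) [nat_lit 7296, nat_lit 21876, nat_lit 19932, nat_lit 20424, nat_lit 20416] (nat_lit 0) [nat_lit 736] false,
   Spec.mk (nat_lit 20422) (nat_lit 3) [nat_lit 7300, nat_lit 21880, nat_lit 19936, nat_lit 20440, nat_lit 20416, nat_lit 20424] (nat_lit 0) [nat_lit 40104, nat_lit 740] false,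
   Spec.mk (nat_lit 20424) (nat_lit 3) [nat_lit 7302, nat_lit 21882, nat_lit 19938, nat_lit 20442, nat_lit 20418, nat_lit 20430, nat_lit 20422] (nat_lit 0) [nat_lit 742] false,
   Spec.mk (nat_lit 20430) (nat_lit 2) [nat_lit 7308, nat_lit 21888, nat_lit 19944, nat_lit 20448, nat_lit 20424] (nat_lit 0) [nat_lit 748] false,
   Spec.mk (nat_lit 20440) (nat_lit 3) [nat_lit 7318, nat_lit 21898, nat_lit 19954, nat_lit 20494, nat_lit 20422, nat_lit 20442] (nat_lit 0) [nat_lit 40122, nat_lit 758] false,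
   Spec.mk (nat_lit 20442) (nat_lit 2) [nat_lit 7320, nat_lit 21900, nat_lit 19956, nat_lit 20496, nat_lit 20424, nat_lit 20448, nat_lit 20440] (nat_lit 0) [nat_lit 760] false,
   Spec.mk (nat_lit 20448) (nat_lit 3) [nat_lit 7326, nat_lit 21906, nat_lit 19962, nat_lit 20502, nat_lit 20430, nat_lit 20466, nat_lit 20442] (nat_lit 0) [nat_lit 766] false,
   Spec.mk (nat_lit 20466) (nat_lit 2) [nat_lit 7344, nat_lit 21924, nat_lit 19980, nat_lit 20520, nat_lit 20448] (nat_lit 0) [nat_lit 784] false,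
   Spec.mk (nat_lit 20494) (nat_lit 3) [nat_lit 7372, nat_lit 21952, nat_lit 20008, nat_lit 20656, nat_lit 20440, nat_lit 20496] (nat_lit 0) [nat_lit 40176, nat_lit 812] false,
   Spec.mk (nat_lit 20496) (nat_lit 2) [nat_lit 7374, nat_lit 21954, nat_lit 20010, nat_lit 20658, nat_lit 20442, nat_lit 20502, nat_lit 20494] (nat_lit 0) [nat_lit 814] false,
   Spec.mk (nat_lit 20502) (nat_lit 2) [nat_lit 7380, nat_lit 21960, nat_lit 20016, nat_lit 20664, nat_lit 20448, nat_lit 20520, nat_lit 20496] (nat_lit 0) [nat_lit 820] false,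
   Spec.mk (nat_lit 20520) (nat_lit 3) [nat_lit 7398, nat_lit 21978, nat_lit 20034, nat_lit 20682, nat_lit 20466, nat_lit 20574, nat_lit 20502] (nat_lit 0) [nat_lit 838] false,
   Spec.mk (nat_lit 20574) (nat_lit 2) [nat_lit 7452, nat_lit 22032, nat_lit 20088, nat_lit 20736, nat_lit 20520] (nat_lit 0) [nat_lit 892] false,
   Spec.mk (nat_lit 20656) (nat_lit 4) [nat_lit 7534, nat_lit 22114, nat_lit 20170, nat_lit 21142, nat_lit 20494, nat_lit 20658] (nat_lit 0) [nat_lit 40338, nat_lit 974] false]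

noncomputable def sp8 : List Spec :=
  [Spec.mk (nat_lit 20658) (nat_lit 3) [nat_lit 7536, nat_lit 22116, nat_lit 20172, nat_lit 21144, nat_lit 20496, nat_lit 20664, nat_lit 20656] (nat_lit 0) [nat_lit 976] false,
   Spec.mk (nat_lit 20664) (nat_lit 3) [nat_lit 7542, nat_lit 22122, nat_lit 20178, nat_lit 21150, nat_lit 20502, nat_lit 20682, nat_lit 20658] (nat_lit 0) [nat_lit 982] false,
   Spec.mk (nat_lit 20682) (nat_lit 3) [nat_lit 7560, nat_lit 22140, nat_lit 20196, nat_lit 21168, nat_lit 20520, nat_lit 20736, nat_lit 20664] (nat_lit 0) [nat_lit 1000] false,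
   Spec.mk (nat_lit 20736) (nat_lit 4) [nat_lit 7614, nat_lit 22194, nat_lit 20250, nat_lit 21222, nat_lit 20574, nat_lit 20898, nat_lit 20682] (nat_lit 0) [nat_lit 1054] false,
   Spec.mk (nat_lit 20898) (nat_lit 4) [nat_lit 7776, nat_lit 22356, nat_lit 21384, nat_lit 20736] (nat_lit 0) [nat_lit 1216] false,
   Spec.mk (nat_lit 21142) (nat_lit 3) [nat_lit 8020, nat_lit 22600, nat_lit 20656, nat_lit 21144] (nat_lit 0) [nat_lit 40824, nat_lit 1460] false,
   Spec.mk (nat_lit 21144) (nat_lit 2) [nat_lit 8022, nat_lit 22602, nat_lit 20658, nat_lit 21150, nat_lit 21142] (nat_lit 0) [nat_lit 1462] false,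
   Spec.mk (nat_lit 21150) (nat_lit 2) [nat_lit 8028, nat_lit 22608, nat_lit 20664, nat_lit 21168, nat_lit 21144] (nat_lit 0) [nat_lit 1468] false,
   Spec.mk (nat_lit 21168) (nat_lit 2) [nat_lit 8046, nat_lit 22626, nat_lit 20682, nat_lit 21222, nat_lit 21150] (nat_lit 0) [nat_lit 1486] false,
   Spec.mk (nat_lit 21222) (nat_lit 2) [nat_lit 8100, nat_lit 22680, nat_lit 20736, nat_lit 21384, nat_lit 21168] (nat_lit 0) [nat_lit 1540] false,
   Spec.mk (nat_lit 21384) (nat_lit 4) [nat_lit 8262, nat_lit 22842, nat_lit 20898, nat_lit 21222] (nat_lit 0) [nat_lit 1702] false,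
   Spec.mk (nat_lit 21872) (nat_lit 4) [nat_lit 8750, nat_lit 26246, nat_lit 20414, nat_lit 21874] (nat_lit 0) [nat_lit 41554] false,
   Spec.mk (nat_lit 21874) (nat_lit 4) [nat_lit 8752, nat_lit 26248, nat_lit 20416, nat_lit 21880, nat_lit 21872, nat_lit 21876] (nat_lit 0) [nat_lit 41556, nat_lit 2192] false,
   Spec.mk (nat_lit 21876) (nat_lit 2) [nat_lit 8754, nat_lit 26250, nat_lit 20418, nat_lit 21882, nat_lit 21874] (nat_lit 0) [nat_lit 2194] false,
   Spec.mk (nat_lit 21880) (nat_lit 3) [nat_lit 8758, nat_lit 26254, nat_lit 20422, nat_lit 21898, nat_lit 21874, nat_lit 21882] (nat_lit 0) [nat_lit 41562, nat_lit 2198] false,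
   Spec.mk (nat_lit 21882) (nat_lit 3) [nat_lit 8760, nat_lit 26256, nat_lit 20424, nat_lit 21900, nat_lit 21876, nat_lit 21888, nat_lit 21880] (nat_lit 0) [nat_lit 2200] false,
   Spec.mk (nat_lit 21888) (nat_lit 2) [nat_lit 8766, nat_lit 26262, nat_lit 20430, nat_lit 21906, nat_lit 21882] (nat_lit 0) [nat_lit 2206] false,
   Spec.mk (nat_lit 21898) (nat_lit 3) [nat_lit 8776, nat_lit 26272, nat_lit 20440, nat_lit 21952, nat_lit 21880, nat_lit 21900] (nat_lit 0) [nat_lit 41580, nat_lit 2216] false,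
   Spec.mk (nat_lit 21900) (nat_lit 2) [nat_lit 8778, nat_lit 26274, nat_lit 20442, nat_lit 21954, nat_lit 21882, nat_lit 21906, nat_lit 21898] (nat_lit 0) [nat_lit 2218] false,
   Spec.mk (nat_lit 21906) (nat_lit 3) [nat_lit 8784, nat_lit 26280, nat_lit 20448, nat_lit 21960, nat_lit 21888, nat_lit 21924, nat_lit 21900] (nat_lit 0) [nat_lit 2224] false,
   Spec.mk (nat_lit 21924) (nat_lit 2) [nat_lit 8802, nat_lit 26298, nat_lit 20466, nat_lit 21978, nat_lit 21906] (nat_lit 0) [nat_lit 2242] false,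
   Spec.mk (nat_lit 21952) (nat_lit 3) [nat_lit 8830, nat_lit 26326, nat_lit 20494, nat_lit 22114, nat_lit 21898, nat_lit 21954] (nat_lit 0) [nat_lit 41634, nat_lit 2270] false,
   Spec.mk (nat_lit 21954) (nat_lit 2) [nat_lit 8832, nat_lit 26328, nat_lit 20496, nat_lit 22116, nat_lit 21900, nat_lit 21960, nat_lit 21952] (nat_lit 0) [nat_lit 2272] false,
   Spec.mk (nat_lit 21960) (nat_lit 2) [nat_lit 8838, nat_lit 26334, nat_lit 20502, nat_lit 22122, nat_lit 21906, nat_lit 21978, nat_lit 21954] (nat_lit 0) [nat_lit 2278] false,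
   Spec.mk (nat_lit 21978) (nat_lit 3) [nat_lit 8856, nat_lit 26352, nat_lit 20520, nat_lit 22140, nat_lit 21924, nat_lit 22032, nat_lit 21960] (nat_lit 0) [nat_lit 2296] false,
   Spec.mk (nat_lit 22032) (nat_lit 2) [nat_lit 8910, nat_lit 26406, nat_lit 20574, nat_lit 22194, nat_lit 21978] (nat_lit 0) [nat_lit 2350] false,
   Spec.mk (nat_lit 22114) (nat_lit 3) [nat_lit 8992, nat_lit 26488, nat_lit 20656, nat_lit 22600, nat_lit 21952, nat_lit 22116] (nat_lit 0) [nat_lit 41796, nat_lit 2432] false,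
   Spec.mk (nat_lit 22116) (nat_lit 2) [nat_lit 8994, nat_lit 26490, nat_lit 20658, nat_lit 22602, nat_lit 21954, nat_lit 22122, nat_lit 22114] (nat_lit 0) [nat_lit 2434] false,
   Spec.mk (nat_lit 22122) (nat_lit 2) [nat_lit 9000, nat_lit 26496, nat_lit 20664, nat_lit 22608, nat_lit 21960, nat_lit 22140, nat_lit 22116] (nat_lit 0) [nat_lit 2440] false,
   Spec.mk (nat_lit 22140) (nat_lit 2) [nat_lit 9018, nat_lit 26514, nat_lit 20682, nat_lit 22626, nat_lit 21978, nat_lit 22194, nat_lit 22122] (nat_lit 0) [nat_lit 2458] false,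
   Spec.mk (nat_lit 22194) (nat_lit 3) [nat_lit 9072, nat_lit 26568, nat_lit 20736, nat_lit 22680, nat_lit 22032, nat_lit 22356, nat_lit 22140] (nat_lit 0) [nat_lit 2512] false,
   Spec.mk (nat_lit 22356) (nat_lit 2) [nat_lit 9234, nat_lit 26730, nat_lit 20898, nat_lit 22842, nat_lit 22194] (nat_lit 0) [nat_lit 2674] false,
   Spec.mk (nat_lit 22600) (nat_lit 4) [nat_lit 9478, nat_lit 26974, nat_lit 21142, nat_lit 24058, nat_lit 22114, nat_lit 22602] (nat_lit 0) [nat_lit 42282, nat_lit 2918] false,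
   Spec.mk (nat_lit 22602) (nat_lit 3) [nat_lit 9480, nat_lit 26976, nat_lit 21144, nat_lit 24060, nat_lit 22116, nat_lit 22608, nat_lit 22600] (nat_lit 0) [nat_lit 2920] false,
   Spec.mk (nat_lit 22608) (nat_lit 3) [nat_lit 9486, nat_lit 26982, nat_lit 21150, nat_lit 24066, nat_lit 22122, nat_lit 22626, nat_lit 22602] (nat_lit 0) [nat_lit 2926] false,
   Spec.mk (nat_lit 22626) (nat_lit 3) [nat_lit 9504, nat_lit 27000, nat_lit 21168, nat_lit 24084, nat_lit 22140, nat_lit 22680, nat_lit 22608] (nat_lit 0) [nat_lit 2944] false,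
   Spec.mk (nat_lit 22680) (nat_lit 3) [nat_lit 9558, nat_lit 27054, nat_lit 21222, nat_lit 24138, nat_lit 22194, nat_lit 22842, nat_lit 22626] (nat_lit 0) [nat_lit 2998] false,
   Spec.mk (nat_lit 22842) (nat_lit 4) [nat_lit 9720, nat_lit 27216, nat_lit 21384, nat_lit 24300, nat_lit 22356, nat_lit 23328, nat_lit 22680] (nat_lit 0) [nat_lit 3160] false,
   Spec.mk (nat_lit 23328) (nat_lit 4) [nat_lit 10206, nat_lit 27702, nat_lit 24786, nat_lit 22842] (nat_lit 0) [nat_lit 3646] false,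
   Spec.mk (nat_lit 24058) (nat_lit 3) [nat_lit 10936, nat_lit 28432, nat_lit 22600, nat_lit 24060] (nat_lit 0) [nat_lit 43740, nat_lit 4376] false,
   Spec.mk (nat_lit 24060) (nat_lit 2) [nat_lit 10938, nat_lit 28434, nat_lit 22602, nat_lit 24066, nat_lit 24058] (nat_lit 0) [nat_lit 4378] false,
   Spec.mk (nat_lit 24066) (nat_lit 2) [nat_lit 10944, nat_lit 28440, nat_lit 22608, nat_lit 24084, nat_lit 24060] (nat_lit 0) [nat_lit 4384] false,
   Spec.mk (nat_lit 24084) (nat_lit 2) [nat_lit 10962, nat_lit 28458, nat_lit 22626, nat_lit 24138, nat_lit 24066] (nat_lit 0) [nat_lit 4402] false,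
   Spec.mk (nat_lit 24138) (nat_lit 2) [nat_lit 11016, nat_lit 28512, nat_lit 22680, nat_lit 24300, nat_lit 24084] (nat_lit 0) [nat_lit 4456] false,
   Spec.mk (nat_lit 24300) (nat_lit 2) [nat_lit 11178, nat_lit 28674, nat_lit 22842, nat_lit 24786, nat_lit 24138] (nat_lit 0) [nat_lit 4618] false,
   Spec.mk (nat_lit 24786) (nat_lit 4) [nat_lit 11664, nat_lit 29160, nat_lit 23328, nat_lit 24300] (nat_lit 0) [nat_lit 5104] false,
   Spec.mk (nat_lit 26246) (nat_lit 5) [nat_lit 13124, nat_lit 39368, nat_lit 21872, nat_lit 26248] (nat_lit 0) [nat_lit 45928] false,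
   Spec.mk (nat_lit 26248) (nat_lit 5) [nat_lit 13126, nat_lit 39370, nat_lit 21874, nat_lit 26254, nat_lit 26246, nat_lit 26250] (nat_lit 0) [nat_lit 45930, nat_lit 6566] false,
   Spec.mk (nat_lit 26250) (nat_lit 3) [nat_lit 13128, nat_lit 39372, nat_lit 21876, nat_lit 26256, nat_lit 26248] (nat_lit 0) [nat_lit 6568] false,
   Spec.mk (nat_lit 26254) (nat_lit 4) [nat_lit 13132, nat_lit 39376, nat_lit 21880, nat_lit 26272, nat_lit 26248, nat_lit 26256] (nat_lit 0) [nat_lit 45936, nat_lit 6572] false,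
   Spec.mk (nat_lit 26256) (nat_lit 4) [nat_lit 13134, nat_lit 39378, nat_lit 21882, nat_lit 26274, nat_lit 26250, nat_lit 26262, nat_lit 26254] (nat_lit 0) [nat_lit 6574] false,
   Spec.mk (nat_lit 26262) (nat_lit 3) [nat_lit 13140, nat_lit 39384, nat_lit 21888, nat_lit 26280, nat_lit 26256] (nat_lit 0) [nat_lit 6580] false,
   Spec.mk (nat_lit 26272) (nat_lit 4) [nat_lit 13150, nat_lit 39394, nat_lit 21898, nat_lit 26326, nat_lit 26254, nat_lit 26274] (nat_lit 0) [nat_lit 45954, nat_lit 6590] false,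
   Spec.mk (nat_lit 26274) (nat_lit 3) [nat_lit 13152, nat_lit 39396, nat_lit 21900, nat_lit 26328, nat_lit 26256, nat_lit 26280, nat_lit 26272] (nat_lit 0) [nat_lit 6592] false,
   Spec.mk (nat_lit 26280) (nat_lit 4) [nat_lit 13158, nat_lit 39402, nat_lit 21906, nat_lit 26334, nat_lit 26262, nat_lit 26298, nat_lit 26274] (nat_lit 0) [nat_lit 6598] false,
   Spec.mk (nat_lit 26298) (nat_lit 3) [nat_lit 13176, nat_lit 39420, nat_lit 21924, nat_lit 26352, nat_lit 26280] (nat_lit 0) [nat_lit 6616] false,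
   Spec.mk (nat_lit 26326) (nat_lit 4) [nat_lit 13204, nat_lit 39448, nat_lit 21952, nat_lit 26488, nat_lit 26272, nat_lit 26328] (nat_lit 0) [nat_lit 46008, nat_lit 6644] false,
   Spec.mk (nat_lit 26328) (nat_lit 3) [nat_lit 13206, nat_lit 39450, nat_lit 21954, nat_lit 26490, nat_lit 26274, nat_lit 26334, nat_lit 26326] (nat_lit 0) [nat_lit 6646] false,
   Spec.mk (nat_lit 26334) (nat_lit 3) [nat_lit 13212, nat_lit 39456, nat_lit 21960, nat_lit 26496, nat_lit 26280, nat_lit 26352, nat_lit 26328] (nat_lit 0) [nat_lit 6652] false,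
   Spec.mk (nat_lit 26352) (nat_lit 4) [nat_lit 13230, nat_lit 39474, nat_lit 21978, nat_lit 26514, nat_lit 26298, nat_lit 26406, nat_lit 26334] (nat_lit 0) [nat_lit 6670] false]

noncomputable def sp9 : List Spec :=
  [Spec.mk (nat_lit 26406) (nat_lit 3) [nat_lit 13284, nat_lit 39528, nat_lit 22032, nat_lit 26568, nat_lit 26352] (nat_lit 0) [nat_lit 6724] false,
   Spec.mk (nat_lit 26488) (nat_lit 4) [nat_lit 13366, nat_lit 39610, nat_lit 22114, nat_lit 26974, nat_lit 26326, nat_lit 26490] (nat_lit 0) [nat_lit 46170, nat_lit 6806] false,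
   Spec.mk (nat_lit 26490) (nat_lit 3) [nat_lit 13368, nat_lit 39612, nat_lit 22116, nat_lit 26976, nat_lit 26328, nat_lit 26496, nat_lit 26488] (nat_lit 0) [nat_lit 6808] false,
   Spec.mk (nat_lit 26496) (nat_lit 3) [nat_lit 13374, nat_lit 39618, nat_lit 22122, nat_lit 26982, nat_lit 26334, nat_lit 26514, nat_lit 26490] (nat_lit 0) [nat_lit 6814] false,
   Spec.mk (nat_lit 26514) (nat_lit 3) [nat_lit 13392, nat_lit 39636, nat_lit 22140, nat_lit 27000, nat_lit 26352, nat_lit 26568, nat_lit 26496] (nat_lit 0) [nat_lit 6832] false,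
   Spec.mk (nat_lit 26568) (nat_lit 4) [nat_lit 13446, nat_lit 39690, nat_lit 22194, nat_lit 27054, nat_lit 26406, nat_lit 26730, nat_lit 26514] (nat_lit 0) [nat_lit 6886] false,
   Spec.mk (nat_lit 26730) (nat_lit 3) [nat_lit 13608, nat_lit 39852, nat_lit 22356, nat_lit 27216, nat_lit 26568] (nat_lit 0) [nat_lit 7048] false,
   Spec.mk (nat_lit 26974) (nat_lit 4) [nat_lit 13852, nat_lit 40096, nat_lit 22600, nat_lit 28432, nat_lit 26488, nat_lit 26976] (nat_lit 0) [nat_lit 46656, nat_lit 7292] false,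
   Spec.mk (nat_lit 26976) (nat_lit 3) [nat_lit 13854, nat_lit 40098, nat_lit 22602, nat_lit 28434, nat_lit 26490, nat_lit 26982, nat_lit 26974] (nat_lit 0) [nat_lit 7294] false,
   Spec.mk (nat_lit 26982) (nat_lit 3) [nat_lit 13860, nat_lit 40104, nat_lit 22608, nat_lit 28440, nat_lit 26496, nat_lit 27000, nat_lit 26976] (nat_lit 0) [nat_lit 7300] false,
   Spec.mk (nat_lit 27000) (nat_lit 3) [nat_lit 13878, nat_lit 40122, nat_lit 22626, nat_lit 28458, nat_lit 26514, nat_lit 27054, nat_lit 26982] (nat_lit 0) [nat_lit 7318] false,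
   Spec.mk (nat_lit 27054) (nat_lit 3) [nat_lit 13932, nat_lit 40176, nat_lit 22680, nat_lit 28512, nat_lit 26568, nat_lit 27216, nat_lit 27000] (nat_lit 0) [nat_lit 7372] false,
   Spec.mk (nat_lit 27216) (nat_lit 4) [nat_lit 14094, nat_lit 40338, nat_lit 22842, nat_lit 28674, nat_lit 26730, nat_lit 27702, nat_lit 27054] (nat_lit 0) [nat_lit 7534] false,
   Spec.mk (nat_lit 27702) (nat_lit 3) [nat_lit 14580, nat_lit 40824, nat_lit 23328, nat_lit 29160, nat_lit 27216] (nat_lit 0) [nat_lit 8020] false,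
   Spec.mk (nat_lit 28432) (nat_lit 5) [nat_lit 15310, nat_lit 41554, nat_lit 24058, nat_lit 32806, nat_lit 26974, nat_lit 28434] (nat_lit 0) [nat_lit 48114, nat_lit 8750] false,
   Spec.mk (nat_lit 28434) (nat_lit 4) [nat_lit 15312, nat_lit 41556, nat_lit 24060, nat_lit 32808, nat_lit 26976, nat_lit 28440, nat_lit 28432] (nat_lit 0) [nat_lit 8752] false,
   Spec.mk (nat_lit 28440) (nat_lit 4) [nat_lit 15318, nat_lit 41562, nat_lit 24066, nat_lit 32814, nat_lit 26982, nat_lit 28458, nat_lit 28434] (nat_lit 0) [nat_lit 8758] false,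
   Spec.mk (nat_lit 28458) (nat_lit 4) [nat_lit 15336, nat_lit 41580, nat_lit 24084, nat_lit 32832, nat_lit 27000, nat_lit 28512, nat_lit 28440] (nat_lit 0) [nat_lit 8776] false,
   Spec.mk (nat_lit 28512) (nat_lit 4) [nat_lit 15390, nat_lit 41634, nat_lit 24138, nat_lit 32886, nat_lit 27054, nat_lit 28674, nat_lit 28458] (nat_lit 0) [nat_lit 8830] false,
   Spec.mk (nat_lit 28674) (nat_lit 4) [nat_lit 15552, nat_lit 41796, nat_lit 24300, nat_lit 33048, nat_lit 27216, nat_lit 29160, nat_lit 28512] (nat_lit 0) [nat_lit 8992] false,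
   Spec.mk (nat_lit 29160) (nat_lit 5) [nat_lit 16038, nat_lit 42282, nat_lit 24786, nat_lit 33534, nat_lit 27702, nat_lit 30618, nat_lit 28674] (nat_lit 0) [nat_lit 9478] false,
   Spec.mk (nat_lit 30618) (nat_lit 5) [nat_lit 17496, nat_lit 43740, nat_lit 34992, nat_lit 29160] (nat_lit 0) [nat_lit 10936] false,
   Spec.mk (nat_lit 32806) (nat_lit 5) [nat_lit 45928, nat_lit 28432, nat_lit 32808] (nat_lit 0) [nat_lit 52488, nat_lit 13124] false,
   Spec.mk (nat_lit 32808) (nat_lit 4) [nat_lit 45930, nat_lit 28434, nat_lit 32814, nat_lit 32806] (nat_lit 0) [nat_lit 13126] false,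
   Spec.mk (nat_lit 32814) (nat_lit 4) [nat_lit 45936, nat_lit 28440, nat_lit 32832, nat_lit 32808] (nat_lit 0) [nat_lit 13132] false,
   Spec.mk (nat_lit 32832) (nat_lit 4) [nat_lit 45954, nat_lit 28458, nat_lit 32886, nat_lit 32814] (nat_lit 0) [nat_lit 13150] false,
   Spec.mk (nat_lit 32886) (nat_lit 4) [nat_lit 46008, nat_lit 28512, nat_lit 33048, nat_lit 32832] (nat_lit 0) [nat_lit 13204] false,
   Spec.mk (nat_lit 33048) (nat_lit 4) [nat_lit 46170, nat_lit 28674, nat_lit 33534, nat_lit 32886] (nat_lit 0) [nat_lit 13366] false,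
   Spec.mk (nat_lit 33534) (nat_lit 4) [nat_lit 46656, nat_lit 29160, nat_lit 34992, nat_lit 33048] (nat_lit 0) [nat_lit 13852] false,
   Spec.mk (nat_lit 34992) (nat_lit 6) [nat_lit 48114, nat_lit 30618, nat_lit 33534] (nat_lit 0) [nat_lit 15310] false,
   Spec.mk (nat_lit 39368) (nat_lit 6) [nat_lit 26246, nat_lit 39370] (nat_lit 0) [] false,
   Spec.mk (nat_lit 39370) (nat_lit 5) [nat_lit 26248, nat_lit 39376, nat_lit 39368, nat_lit 39372] (nat_lit 0) [nat_lit 19688] false,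
   Spec.mk (nat_lit 39372) (nat_lit 2) [nat_lit 26250, nat_lit 39378, nat_lit 39370] (nat_lit 0) [nat_lit 19690] false,
   Spec.mk (nat_lit 39376) (nat_lit 4) [nat_lit 26254, nat_lit 39394, nat_lit 39370, nat_lit 39378] (nat_lit 0) [nat_lit 19694] false,
   Spec.mk (nat_lit 39378) (nat_lit 3) [nat_lit 26256, nat_lit 39396, nat_lit 39372, nat_lit 39384, nat_lit 39376] (nat_lit 0) [nat_lit 19696] false,
   Spec.mk (nat_lit 39384) (nat_lit 2) [nat_lit 26262, nat_lit 39402, nat_lit 39378] (nat_lit 0) [nat_lit 19702] false,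
   Spec.mk (nat_lit 39394) (nat_lit 4) [nat_lit 26272, nat_lit 39448, nat_lit 39376, nat_lit 39396] (nat_lit 0) [nat_lit 19712] false,
   Spec.mk (nat_lit 39396) (nat_lit 2) [nat_lit 26274, nat_lit 39450, nat_lit 39378, nat_lit 39402, nat_lit 39394] (nat_lit 0) [nat_lit 19714] false,
   Spec.mk (nat_lit 39402) (nat_lit 3) [nat_lit 26280, nat_lit 39456, nat_lit 39384, nat_lit 39420, nat_lit 39396] (nat_lit 0) [nat_lit 19720] false,
   Spec.mk (nat_lit 39420) (nat_lit 2) [nat_lit 26298, nat_lit 39474, nat_lit 39402] (nat_lit 0) [nat_lit 19738] false,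
   Spec.mk (nat_lit 39448) (nat_lit 4) [nat_lit 26326, nat_lit 39610, nat_lit 39394, nat_lit 39450] (nat_lit 0) [nat_lit 19766] false,
   Spec.mk (nat_lit 39450) (nat_lit 2) [nat_lit 26328, nat_lit 39612, nat_lit 39396, nat_lit 39456, nat_lit 39448] (nat_lit 0) [nat_lit 19768] false,
   Spec.mk (nat_lit 39456) (nat_lit 2) [nat_lit 26334, nat_lit 39618, nat_lit 39402, nat_lit 39474, nat_lit 39450] (nat_lit 0) [nat_lit 19774] false,
   Spec.mk (nat_lit 39474) (nat_lit 3) [nat_lit 26352, nat_lit 39636, nat_lit 39420, nat_lit 39528, nat_lit 39456] (nat_lit 0) [nat_lit 19792] false,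
   Spec.mk (nat_lit 39528) (nat_lit 2) [nat_lit 26406, nat_lit 39690, nat_lit 39474] (nat_lit 0) [nat_lit 19846] false,
   Spec.mk (nat_lit 39610) (nat_lit 4) [nat_lit 26488, nat_lit 40096, nat_lit 39448, nat_lit 39612] (nat_lit 0) [nat_lit 19928] false,
   Spec.mk (nat_lit 39612) (nat_lit 2) [nat_lit 26490, nat_lit 40098, nat_lit 39450, nat_lit 39618, nat_lit 39610] (nat_lit 0) [nat_lit 19930] false,
   Spec.mk (nat_lit 39618) (nat_lit 2) [nat_lit 26496, nat_lit 40104, nat_lit 39456, nat_lit 39636, nat_lit 39612] (nat_lit 0) [nat_lit 19936] false,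
   Spec.mk (nat_lit 39636) (nat_lit 2) [nat_lit 26514, nat_lit 40122, nat_lit 39474, nat_lit 39690, nat_lit 39618] (nat_lit 0) [nat_lit 19954] false,
   Spec.mk (nat_lit 39690) (nat_lit 3) [nat_lit 26568, nat_lit 40176, nat_lit 39528, nat_lit 39852, nat_lit 39636] (nat_lit 0) [nat_lit 20008] false,
   Spec.mk (nat_lit 39852) (nat_lit 2) [nat_lit 26730, nat_lit 40338, nat_lit 39690] (nat_lit 0) [nat_lit 20170] false,
   Spec.mk (nat_lit 40096) (nat_lit 4) [nat_lit 26974, nat_lit 41554, nat_lit 39610, nat_lit 40098] (nat_lit 0) [nat_lit 20414] false,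
   Spec.mk (nat_lit 40098) (nat_lit 2) [nat_lit 26976, nat_lit 41556, nat_lit 39612, nat_lit 40104, nat_lit 40096] (nat_lit 0) [nat_lit 20416] false,
   Spec.mk (nat_lit 40104) (nat_lit 2) [nat_lit 26982, nat_lit 41562, nat_lit 39618, nat_lit 40122, nat_lit 40098] (nat_lit 0) [nat_lit 20422] false,
   Spec.mk (nat_lit 40122) (nat_lit 2) [nat_lit 27000, nat_lit 41580, nat_lit 39636, nat_lit 40176, nat_lit 40104] (nat_lit 0) [nat_lit 20440] false,
   Spec.mk (nat_lit 40176) (nat_lit 2) [nat_lit 27054, nat_lit 41634, nat_lit 39690, nat_lit 40338, nat_lit 40122] (nat_lit 0) [nat_lit 20494] false,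
   Spec.mk (nat_lit 40338) (nat_lit 3) [nat_lit 27216, nat_lit 41796, nat_lit 39852, nat_lit 40824, nat_lit 40176] (nat_lit 0) [nat_lit 20656] false,
   Spec.mk (nat_lit 40824) (nat_lit 2) [nat_lit 27702, nat_lit 42282, nat_lit 40338] (nat_lit 0) [nat_lit 21142] false,
   Spec.mk (nat_lit 41554) (nat_lit 4) [nat_lit 28432, nat_lit 45928, nat_lit 40096, nat_lit 41556] (nat_lit 0) [nat_lit 21872] false,
   Spec.mk (nat_lit 41556) (nat_lit 2) [nat_lit 28434, nat_lit 45930, nat_lit 40098, nat_lit 41562, nat_lit 41554] (nat_lit 0) [nat_lit 21874] false]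

noncomputable def sp10 : List Spec :=
  [Spec.mk (nat_lit 41562) (nat_lit 2) [nat_lit 28440, nat_lit 45936, nat_lit 40104, nat_lit 41580, nat_lit 41556] (nat_lit 0) [nat_lit 21880] false,
   Spec.mk (nat_lit 41580) (nat_lit 2) [nat_lit 28458, nat_lit 45954, nat_lit 40122, nat_lit 41634, nat_lit 41562] (nat_lit 0) [nat_lit 21898] false,
   Spec.mk (nat_lit 41634) (nat_lit 2) [nat_lit 28512, nat_lit 46008, nat_lit 40176, nat_lit 41796, nat_lit 41580] (nat_lit 0) [nat_lit 21952] false,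
   Spec.mk (nat_lit 41796) (nat_lit 2) [nat_lit 28674, nat_lit 46170, nat_lit 40338, nat_lit 42282, nat_lit 41634] (nat_lit 0) [nat_lit 22114] false,
   Spec.mk (nat_lit 42282) (nat_lit 3) [nat_lit 29160, nat_lit 46656, nat_lit 40824, nat_lit 43740, nat_lit 41796] (nat_lit 0) [nat_lit 22600] false,
   Spec.mk (nat_lit 43740) (nat_lit 2) [nat_lit 30618, nat_lit 48114, nat_lit 42282] (nat_lit 0) [nat_lit 24058] false,
   Spec.mk (nat_lit 45928) (nat_lit 6) [nat_lit 32806, nat_lit 41554, nat_lit 45930] (nat_lit 0) [nat_lit 26246] false,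
   Spec.mk (nat_lit 45930) (nat_lit 4) [nat_lit 32808, nat_lit 41556, nat_lit 45936, nat_lit 45928] (nat_lit 0) [nat_lit 26248] false,
   Spec.mk (nat_lit 45936) (nat_lit 4) [nat_lit 32814, nat_lit 41562, nat_lit 45954, nat_lit 45930] (nat_lit 0) [nat_lit 26254] false,
   Spec.mk (nat_lit 45954) (nat_lit 4) [nat_lit 32832, nat_lit 41580, nat_lit 46008, nat_lit 45936] (nat_lit 0) [nat_lit 26272] false,
   Spec.mk (nat_lit 46008) (nat_lit 4) [nat_lit 32886, nat_lit 41634, nat_lit 46170, nat_lit 45954] (nat_lit 0) [nat_lit 26326] false,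
   Spec.mk (nat_lit 46170) (nat_lit 4) [nat_lit 33048, nat_lit 41796, nat_lit 46656, nat_lit 46008] (nat_lit 0) [nat_lit 26488] false,
   Spec.mk (nat_lit 46656) (nat_lit 4) [nat_lit 33534, nat_lit 42282, nat_lit 48114, nat_lit 46170] (nat_lit 0) [nat_lit 26974] false,
   Spec.mk (nat_lit 48114) (nat_lit 5) [nat_lit 34992, nat_lit 43740, nat_lit 52488, nat_lit 46656] (nat_lit 0) [nat_lit 28432] false,
   Spec.mk (nat_lit 52488) (nat_lit 6) [nat_lit 48114] (nat_lit 0) [nat_lit 32806] false]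

noncomputable def specs : List (List Spec) :=
    sp0 :: sp1 :: sp2 :: sp3 :: sp4 :: sp5 :: sp6 :: sp7 :: sp8 :: sp9 :: sp10 :: []

noncomputable def step (e : Nat → Nat) (C ap an : Nat) (k :
    Nat → Nat → Nat → Nat → Nat → Nat → Nat → Nat → Nat → Nat → Nat → Nat → Nat → Nat → Nat → Nat →
    Nat → Nat → Nat → Nat → Nat → Nat → Nat → Nat → Nat → Nat → Nat → Nat → Nat → Nat → Nat → Nat →
    Nat → Nat → Nat → Nat → Nat → Nat → Nat → Nat → Nat → Nat → Nat → Nat → Nat → Nat → Nat → Nat →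
    Nat → Nat → Nat → Nat → Nat → Nat → Nat → Nat → Nat → Nat → Nat → Nat → Nat → Nat → Nat → Nat →
    Nat → Nat → Nat → Nat → Nat → Nat → Nat → Nat → Nat → Nat → Nat → Nat → Nat → Nat → Nat → Nat →
    Nat → Nat → Nat → Nat → Nat → Nat → Nat → Nat → Nat → Nat → Nat → Nat → Nat → Nat → Nat → Nat →
    Nat → Nat → Nat → Nat → Nat → Nat → Nat → Nat → Nat → Nat → Nat → Nat → Nat → Nat → Nat → Nat →
    Nat → Nat → Nat → Nat → Nat → Nat → Nat → Nat → Nat → Nat → Nat → Nat → Nat → Nat → Nat → Nat →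
    Nat → Nat → Nat → Nat → Nat → Nat → Nat → Nat → Nat → Nat → Nat → Nat → Nat → Nat → Nat → Nat →
    Nat → Nat → Nat → Nat → Nat → Nat → Nat → Nat → Nat → Nat → Nat → Nat → Nat → Nat → Nat → Nat →
    Nat → Nat → Nat → Nat → Nat → Nat → Nat → Nat → Nat → Nat → Nat → Nat → Nat → Nat → Nat → Nat →
    Nat → Nat → Nat → Nat → Nat → Nat → Nat → Nat → Nat → Nat → Nat → Nat → Nat → Nat → Nat → Nat →
    Nat → Nat → Nat → Nat → Nat → Nat → Nat → Nat → Nat → Nat → Nat → Nat → Nat → Nat → Nat → Nat →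
    Nat → Nat → Nat → Nat → Nat → Nat → Nat → Nat → Nat → Nat → Nat → Nat → Nat → Nat → Nat → Nat →
    Nat → Nat → Nat → Nat → Nat → Nat → Nat → Nat → Nat → Nat → Nat → Nat → Nat → Nat → Nat → Nat →
    Nat → Nat → Nat → Nat → Nat → Nat → Nat → Nat → Nat → Nat → Nat → Nat → Nat → Nat → Nat → Nat →
    Nat → Nat → Nat → Nat → Nat → Nat → Nat → Nat → Nat → Nat → Nat → Nat → Nat → Nat → Nat → Nat →
    Nat → Nat → Nat → Nat → Nat → Nat → Nat → Nat → Nat → Nat → Nat → Nat → Nat → Nat → Nat → Nat →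
    Nat → Nat → Nat → Nat → Nat → Nat → Nat → Nat → Nat → Nat → Nat → Nat → Nat → Nat → Nat → Nat →
    Nat → Nat → Nat → Nat → Nat → Nat → Nat → Nat → Nat → Nat → Nat → Nat → Nat → Nat → Nat → Nat →
    Nat → Nat → Nat → Nat → Nat → Nat → Nat → Nat → Nat → Nat → Nat → Nat → Nat → Nat → Nat → Nat →
    Nat → Nat → Nat → Nat → Nat → Nat → Nat → Nat → Nat → Nat → Nat → Nat → Nat → Nat → Nat → Nat →
    Nat → Nat → Nat → Nat → Nat → Nat → Nat → Nat → Nat → Nat → Nat → Nat → Nat → Nat → Nat → Nat →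
    Nat → Nat → Nat → Nat → Nat → Nat → Nat → Nat → Nat → Nat → Nat → Nat → Nat → Nat → Nat → Nat →
    Nat → Nat → Nat → Nat → Nat → Nat → Nat → Nat → Nat → Nat → Nat → Nat → Nat → Nat → Nat → Nat →
    Nat → Nat → Nat → Nat → Nat → Nat → Nat → Nat → Nat → Nat → Nat → Nat → Nat → Nat → Nat → Nat →
    Nat → Nat → Nat → Nat → Nat → Nat → Nat → Nat → Nat → Nat → Nat → Nat → Nat → Nat → Nat → Nat →
    Nat → Nat → Nat → Nat → Nat → Nat → Nat → Nat → Nat → Nat → Nat → Nat → Nat → Nat → Nat → Nat →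
    Nat → Nat → Nat → Nat → Nat → Nat → Nat → Nat → Nat → Nat → Nat → Nat → Nat → Nat → Nat → Nat →
    Nat → Nat → Nat → Nat → Nat → Nat → Nat → Nat → Nat → Nat → Nat → Nat → Nat → Nat → Nat → Nat →
    Nat → Nat → Nat → Nat → Nat → Nat → Nat → Nat → Nat → Nat → Nat → Nat → Nat → Nat → Nat → Nat →
    Nat → Nat → Nat → Nat → Nat → Nat → Nat → Nat → Nat → Nat → Nat → Nat → Nat → Nat → Nat → Nat →
    Nat → Nat → Nat → Nat → Nat → Nat → Nat → Nat → Nat → Nat → Nat → Nat → Nat → Nat → Nat → Nat →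
    Nat → Nat → Nat → Nat → Nat → Nat → Nat → Nat → Nat → Nat → Nat → Nat → Nat → Nat → Nat → Nat →
    Nat → Nat → Nat → Nat → Nat → Nat → Nat → Nat → Nat → Nat → Nat → Nat → Nat → Nat → Nat → Nat →
    Nat → Nat → Nat → Nat → Nat → Nat → Nat → Nat → Nat → Nat → Nat → Nat → Nat → Nat → Nat → Nat →
    Nat → Nat → Nat → Nat → Nat → Nat → Nat → Nat → Nat → Nat → Nat → Nat → Nat → Nat → Nat → Nat →
    Nat → Nat → Nat → Nat → Nat → Nat → Nat → Nat → Nat → Nat → Nat → Nat → Nat → Nat → Nat → Nat →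
    Nat → Nat → Nat → Nat → Nat → Nat → Nat → Bool)
  (
    x8 x14 x16 x20 x22 x24 x32 x34 x38 x40 x42 x46 x48 x56 x58 x60 x64 x66 x72 x86 x88 x92 x94 x96
    x100 x102 x110 x112 x114 x118 x120 x126 x136 x138 x144 x164 x166 x168 x172 x174 x180 x190 x192
    x198 x216 x248 x250 x254 x256 x258 x262 x264 x272 x274 x276 x280 x282 x288 x298 x300 x306 x326
    x328 x330 x334 x336 x342 x352 x354 x360 x378 x406 x408 x414 x432 x488 x490 x492 x496 x498 x504
    x514 x516 x522 x540 x568 x570 x576 x594 x648 x734 x736 x740 x742 x744 x748 x750 x758 x760 x762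
    x766 x768 x774 x784 x786 x792 x812 x814 x816 x820 x822 x828 x838 x840 x846 x864 x892 x894 x900
    x918 x974 x976 x978 x982 x984 x990 x1000 x1002 x1008 x1026 x1054 x1056 x1062 x1080 x1134 x1216
    x1218 x1224 x1242 x1296 x1460 x1462 x1464 x1468 x1470 x1476 x1486 x1488 x1494 x1512 x1540 x1542
    x1548 x1566 x1620 x1702 x1704 x1710 x1728 x1782 x1944 x2192 x2194 x2198 x2200 x2202 x2206 x2208
    x2216 x2218 x2220 x2224 x2226 x2232 x2242 x2244 x2250 x2270 x2272 x2274 x2278 x2280 x2286 x2296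
    x2298 x2304 x2322 x2350 x2352 x2358 x2376 x2432 x2434 x2436 x2440 x2442 x2448 x2458 x2460 x2466
    x2484 x2512 x2514 x2520 x2538 x2592 x2674 x2676 x2682 x2700 x2754 x2918 x2920 x2922 x2926 x2928
    x2934 x2944 x2946 x2952 x2970 x2998 x3000 x3006 x3024 x3078 x3160 x3162 x3168 x3186 x3240 x3402
    x3646 x3648 x3654 x3672 x3726 x3888 x4376 x4378 x4380 x4384 x4386 x4392 x4402 x4404 x4410 x4428
    x4456 x4458 x4464 x4482 x4536 x4618 x4620 x4626 x4644 x4698 x4860 x5104 x5106 x5112 x5130 x5184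
    x5346 x5832 x6566 x6568 x6572 x6574 x6576 x6580 x6582 x6590 x6592 x6594 x6598 x6600 x6606 x6616
    x6618 x6624 x6644 x6646 x6648 x6652 x6654 x6660 x6670 x6672 x6678 x6696 x6724 x6726 x6732 x6750
    x6806 x6808 x6810 x6814 x6816 x6822 x6832 x6834 x6840 x6858 x6886 x6888 x6894 x6912 x6966 x7048
    x7050 x7056 x7074 x7128 x7292 x7294 x7296 x7300 x7302 x7308 x7318 x7320 x7326 x7344 x7372 x7374
    x7380 x7398 x7452 x7534 x7536 x7542 x7560 x7614 x7776 x8020 x8022 x8028 x8046 x8100 x8262 x8750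
    x8752 x8754 x8758 x8760 x8766 x8776 x8778 x8784 x8802 x8830 x8832 x8838 x8856 x8910 x8992 x8994
    x9000 x9018 x9072 x9234 x9478 x9480 x9486 x9504 x9558 x9720 x10206 x10936 x10938 x10944 x10962
    x11016 x11178 x11664 x13124 x13126 x13128 x13132 x13134 x13140 x13150 x13152 x13158 x13176
    x13204 x13206 x13212 x13230 x13284 x13366 x13368 x13374 x13392 x13446 x13608 x13852 x13854
    x13860 x13878 x13932 x14094 x14580 x15310 x15312 x15318 x15336 x15390 x15552 x16038 x17496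
    x19688 x19690 x19694 x19696 x19698 x19702 x19704 x19712 x19714 x19716 x19720 x19722 x19728
    x19738 x19740 x19746 x19766 x19768 x19770 x19774 x19776 x19782 x19792 x19794 x19800 x19818
    x19846 x19848 x19854 x19872 x19928 x19930 x19932 x19936 x19938 x19944 x19954 x19956 x19962
    x19980 x20008 x20010 x20016 x20034 x20088 x20170 x20172 x20178 x20196 x20250 x20414 x20416
    x20418 x20422 x20424 x20430 x20440 x20442 x20448 x20466 x20494 x20496 x20502 x20520 x20574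
    x20656 x20658 x20664 x20682 x20736 x20898 x21142 x21144 x21150 x21168 x21222 x21384 x21872
    x21874 x21876 x21880 x21882 x21888 x21898 x21900 x21906 x21924 x21952 x21954 x21960 x21978
    x22032 x22114 x22116 x22122 x22140 x22194 x22356 x22600 x22602 x22608 x22626 x22680 x22842
    x23328 x24058 x24060 x24066 x24084 x24138 x24300 x24786 x26246 x26248 x26250 x26254 x26256
    x26262 x26272 x26274 x26280 x26298 x26326 x26328 x26334 x26352 x26406 x26488 x26490 x26496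
    x26514 x26568 x26730 x26974 x26976 x26982 x27000 x27054 x27216 x27702 x28432 x28434 x28440
    x28458 x28512 x28674 x29160 x30618 x32806 x32808 x32814 x32832 x32886 x33048 x33534 x34992
    x39368 x39370 x39372 x39376 x39378 x39384 x39394 x39396 x39402 x39420 x39448 x39450 x39456
    x39474 x39528 x39610 x39612 x39618 x39636 x39690 x39852 x40096 x40098 x40104 x40122 x40176
    x40338 x40824 x41554 x41556 x41562 x41580 x41634 x41796 x42282 x43740 x45928 x45930 x45936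
    x45954 x46008 x46170 x46656 x48114 x52488 : Nat) : Bool :=
  k
    (Nat.sub (Nat.sub (Nat.add (Nat.add (Nat.add C (Nat.mul x8 (nat_lit 6))) x14) (Nat.mul (e (nat_lit 8)) ap)) x19690) (Nat.mul (e (nat_lit 8)) an))
    (Nat.sub (Nat.sub (Nat.add (Nat.add (Nat.add (Nat.add (Nat.add (Nat.add C (Nat.mul x14 (nat_lit 5))) x32) x8) x20) x16) (Nat.mul (e (nat_lit 14)) ap)) x19696) (Nat.mul (e (nat_lit 14)) an))
    (Nat.sub (Nat.sub (Nat.add (Nat.add (Nat.add (Nat.add (Nat.add C (Nat.mul x16 (nat_lit 6))) x34) x22) x14) (Nat.mul (e (nat_lit 16)) ap)) x19698) (Nat.mul (e (nat_lit 16)) an))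
    (Nat.sub (Nat.sub (Nat.add (Nat.add (Nat.add (Nat.add (Nat.add C (Nat.mul x20 (nat_lit 2))) x38) x14) x22) (Nat.mul (e (nat_lit 20)) ap)) x19702) (Nat.mul (e (nat_lit 20)) an))
    (Nat.sub (Nat.add (Nat.add (Nat.add (Nat.add (Nat.add C (Nat.mul x22 (nat_lit 5))) x40) x16) x20) x24) x19704)
    (Nat.add (Nat.add (Nat.add C (Nat.mul x24 (nat_lit 6))) x42) x22)
    (Nat.sub (Nat.sub (Nat.add (Nat.add (Nat.add (Nat.add (Nat.add (Nat.add C (Nat.mul x32 (nat_lit 4))) x86) x14) x38) x34) (Nat.mul (e (nat_lit 32)) ap)) x19714) (Nat.mul (e (nat_lit 32)) an))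
    (Nat.sub (Nat.sub (Nat.add (Nat.add (Nat.add (Nat.add (Nat.add (Nat.add C (Nat.mul x34 (nat_lit 4))) x88) x16) x40) x32) (Nat.mul (e (nat_lit 34)) ap)) x19716) (Nat.mul (e (nat_lit 34)) an))
    (Nat.sub (Nat.sub (Nat.add (Nat.add (Nat.add (Nat.add (Nat.add (Nat.add (Nat.add C (Nat.mul x38 (nat_lit 3))) x92) x20) x56) x32) x40) (Nat.mul (e (nat_lit 38)) ap)) x19720) (Nat.mul (e (nat_lit 38)) an))
    (Nat.sub (Nat.sub (Nat.add (Nat.add (Nat.add (Nat.add (Nat.add (Nat.add (Nat.add (Nat.add (Nat.add C (Nat.mul x40 (nat_lit 5))) x94) x22) x58) x34) x46) x38) x42) (Nat.mul (e (nat_lit 40)) ap)) x19722) (Nat.mul (e (nat_lit 40)) an))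
    (Nat.add (Nat.add (Nat.add (Nat.add (Nat.add (Nat.add C (Nat.mul x42 (nat_lit 5))) x96) x24) x60) x48) x40)
    (Nat.sub (Nat.add (Nat.add (Nat.add (Nat.add (Nat.add C (Nat.mul x46 (nat_lit 4))) x100) x64) x40) x48) x19728)
    (Nat.add (Nat.add (Nat.add (Nat.add (Nat.add C (Nat.mul x48 (nat_lit 6))) x102) x66) x42) x46)
    (Nat.sub (Nat.sub (Nat.add (Nat.add (Nat.add (Nat.add (Nat.add C (Nat.mul x56 (nat_lit 2))) x110) x38) x58) (Nat.mul (e (nat_lit 56)) ap)) x19738) (Nat.mul (e (nat_lit 56)) an))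
    (Nat.sub (Nat.add (Nat.add (Nat.add (Nat.add (Nat.add (Nat.add C (Nat.mul x58 (nat_lit 3))) x112) x40) x64) x56) x60) x19740)
    (Nat.add (Nat.add (Nat.add (Nat.add (Nat.add C (Nat.mul x60 (nat_lit 2))) x114) x42) x66) x58)
    (Nat.sub (Nat.add (Nat.add (Nat.add (Nat.add (Nat.add C (Nat.mul x64 (nat_lit 4))) x118) x46) x58) x66) x19746)
    (Nat.add (Nat.add (Nat.add (Nat.add (Nat.add (Nat.add C (Nat.mul x66 (nat_lit 5))) x120) x48) x60) x72) x64)
    (Nat.add (Nat.add (Nat.add C (Nat.mul x72 (nat_lit 6))) x126) x66)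
    (Nat.sub (Nat.sub (Nat.add (Nat.add (Nat.add (Nat.add (Nat.add (Nat.add C (Nat.mul x86 (nat_lit 4))) x248) x32) x92) x88) (Nat.mul (e (nat_lit 86)) ap)) x19768) (Nat.mul (e (nat_lit 86)) an))
    (Nat.sub (Nat.sub (Nat.add (Nat.add (Nat.add (Nat.add (Nat.add (Nat.add C (Nat.mul x88 (nat_lit 4))) x250) x34) x94) x86) (Nat.mul (e (nat_lit 88)) ap)) x19770) (Nat.mul (e (nat_lit 88)) an))
    (Nat.sub (Nat.sub (Nat.add (Nat.add (Nat.add (Nat.add (Nat.add (Nat.add (Nat.add C (Nat.mul x92 (nat_lit 2))) x254) x38) x110) x86) x94) (Nat.mul (e (nat_lit 92)) ap)) x19774) (Nat.mul (e (nat_lit 92)) an))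
    (Nat.sub (Nat.sub (Nat.add (Nat.add (Nat.add (Nat.add (Nat.add (Nat.add (Nat.add (Nat.add (Nat.add C (Nat.mul x94 (nat_lit 4))) x256) x40) x112) x88) x100) x92) x96) (Nat.mul (e (nat_lit 94)) ap)) x19776) (Nat.mul (e (nat_lit 94)) an))
    (Nat.add (Nat.add (Nat.add (Nat.add (Nat.add (Nat.add C (Nat.mul x96 (nat_lit 4))) x258) x42) x114) x102) x94)
    (Nat.sub (Nat.sub (Nat.add (Nat.add (Nat.add (Nat.add (Nat.add (Nat.add (Nat.add C (Nat.mul x100 (nat_lit 2))) x262) x46) x118) x94) x102) (Nat.mul (e (nat_lit 100)) ap)) x19782) (Nat.mul (e (nat_lit 100)) an))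
    (Nat.add (Nat.add (Nat.add (Nat.add (Nat.add (Nat.add C (Nat.mul x102 (nat_lit 4))) x264) x48) x120) x96) x100)
    (Nat.sub (Nat.sub (Nat.add (Nat.add (Nat.add (Nat.add (Nat.add (Nat.add (Nat.add C (Nat.mul x110 (nat_lit 3))) x272) x56) x164) x92) x112) (Nat.mul (e (nat_lit 110)) ap)) x19792) (Nat.mul (e (nat_lit 110)) an))
    (Nat.sub (Nat.sub (Nat.add (Nat.add (Nat.add (Nat.add (Nat.add (Nat.add (Nat.add (Nat.add (Nat.add C (Nat.mul x112 (nat_lit 4))) x274) x58) x166) x94) x118) x110) x114) (Nat.mul (e (nat_lit 112)) ap)) x19794) (Nat.mul (e (nat_lit 112)) an))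
    (Nat.add (Nat.add (Nat.add (Nat.add (Nat.add (Nat.add (Nat.add C (Nat.mul x114 (nat_lit 3))) x276) x60) x168) x96) x120) x112)
    (Nat.sub (Nat.add (Nat.add (Nat.add (Nat.add (Nat.add (Nat.add (Nat.add (Nat.add C (Nat.mul x118 (nat_lit 4))) x280) x64) x172) x100) x136) x112) x120) x19800)
    (Nat.add (Nat.add (Nat.add (Nat.add (Nat.add (Nat.add (Nat.add (Nat.add (Nat.add C (Nat.mul x120 (nat_lit 5))) x282) x66) x174) x102) x138) x114) x126) x118)
    (Nat.add (Nat.add (Nat.add (Nat.add (Nat.add (Nat.add C (Nat.mul x126 (nat_lit 5))) x288) x72) x180) x144) x120)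
    (Nat.sub (Nat.add (Nat.add (Nat.add (Nat.add (Nat.add C (Nat.mul x136 (nat_lit 4))) x298) x190) x118) x138) x19818)
    (Nat.add (Nat.add (Nat.add (Nat.add (Nat.add (Nat.add C (Nat.mul x138 (nat_lit 4))) x300) x192) x120) x144) x136)
    (Nat.add (Nat.add (Nat.add (Nat.add (Nat.add C (Nat.mul x144 (nat_lit 6))) x306) x198) x126) x138)
    (Nat.sub (Nat.sub (Nat.add (Nat.add (Nat.add (Nat.add (Nat.add C (Nat.mul x164 (nat_lit 2))) x326) x110) x166) (Nat.mul (e (nat_lit 164)) ap)) x19846) (Nat.mul (e (nat_lit 164)) an))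
    (Nat.sub (Nat.add (Nat.add (Nat.add (Nat.add (Nat.add (Nat.add C (Nat.mul x166 (nat_lit 3))) x328) x112) x172) x164) x168) x19848)
    (Nat.add (Nat.add (Nat.add (Nat.add (Nat.add C (Nat.mul x168 (nat_lit 2))) x330) x114) x174) x166)
    (Nat.sub (Nat.add (Nat.add (Nat.add (Nat.add (Nat.add (Nat.add C (Nat.mul x172 (nat_lit 2))) x334) x118) x190) x166) x174) x19854)
    (Nat.add (Nat.add (Nat.add (Nat.add (Nat.add (Nat.add (Nat.add C (Nat.mul x174 (nat_lit 3))) x336) x120) x192) x168) x180) x172)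
    (Nat.add (Nat.add (Nat.add (Nat.add (Nat.add C (Nat.mul x180 (nat_lit 2))) x342) x126) x198) x174)
    (Nat.sub (Nat.add (Nat.add (Nat.add (Nat.add (Nat.add C (Nat.mul x190 (nat_lit 4))) x352) x136) x172) x192) x19872)
    (Nat.add (Nat.add (Nat.add (Nat.add (Nat.add (Nat.add C (Nat.mul x192 (nat_lit 4))) x354) x138) x174) x198) x190)
    (Nat.add (Nat.add (Nat.add (Nat.add (Nat.add (Nat.add C (Nat.mul x198 (nat_lit 5))) x360) x144) x180) x216) x192)
    (Nat.add (Nat.add (Nat.add C (Nat.mul x216 (nat_lit 6))) x378) x198)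
    (Nat.sub (Nat.sub (Nat.add (Nat.add (Nat.add (Nat.add (Nat.add (Nat.add C (Nat.mul x248 (nat_lit 4))) x734) x86) x254) x250) (Nat.mul (e (nat_lit 248)) ap)) x19930) (Nat.mul (e (nat_lit 248)) an))
    (Nat.sub (Nat.sub (Nat.add (Nat.add (Nat.add (Nat.add (Nat.add (Nat.add C (Nat.mul x250 (nat_lit 4))) x736) x88) x256) x248) (Nat.mul (e (nat_lit 250)) ap)) x19932) (Nat.mul (e (nat_lit 250)) an))
    (Nat.sub (Nat.sub (Nat.add (Nat.add (Nat.add (Nat.add (Nat.add (Nat.add (Nat.add C (Nat.mul x254 (nat_lit 2))) x740) x92) x272) x248) x256) (Nat.mul (e (nat_lit 254)) ap)) x19936) (Nat.mul (e (nat_lit 254)) an))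
    (Nat.sub (Nat.sub (Nat.add (Nat.add (Nat.add (Nat.add (Nat.add (Nat.add (Nat.add (Nat.add (Nat.add C (Nat.mul x256 (nat_lit 4))) x742) x94) x274) x250) x262) x254) x258) (Nat.mul (e (nat_lit 256)) ap)) x19938) (Nat.mul (e (nat_lit 256)) an))
    (Nat.add (Nat.add (Nat.add (Nat.add (Nat.add (Nat.add C (Nat.mul x258 (nat_lit 4))) x744) x96) x276) x264) x256)
    (Nat.sub (Nat.sub (Nat.add (Nat.add (Nat.add (Nat.add (Nat.add (Nat.add (Nat.add C (Nat.mul x262 (nat_lit 2))) x748) x100) x280) x256) x264) (Nat.mul (e (nat_lit 262)) ap)) x19944) (Nat.mul (e (nat_lit 262)) an))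
    (Nat.add (Nat.add (Nat.add (Nat.add (Nat.add (Nat.add C (Nat.mul x264 (nat_lit 4))) x750) x102) x282) x258) x262)
    (Nat.sub (Nat.sub (Nat.add (Nat.add (Nat.add (Nat.add (Nat.add (Nat.add (Nat.add C (Nat.mul x272 (nat_lit 2))) x758) x110) x326) x254) x274) (Nat.mul (e (nat_lit 272)) ap)) x19954) (Nat.mul (e (nat_lit 272)) an))
    (Nat.sub (Nat.sub (Nat.add (Nat.add (Nat.add (Nat.add (Nat.add (Nat.add (Nat.add (Nat.add (Nat.add C (Nat.mul x274 (nat_lit 3))) x760) x112) x328) x256) x280) x272) x276) (Nat.mul (e (nat_lit 274)) ap)) x19956) (Nat.mul (e (nat_lit 274)) an))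
    (Nat.add (Nat.add (Nat.add (Nat.add (Nat.add (Nat.add (Nat.add C (Nat.mul x276 (nat_lit 2))) x762) x114) x330) x258) x282) x274)
    (Nat.sub (Nat.sub (Nat.add (Nat.add (Nat.add (Nat.add (Nat.add (Nat.add (Nat.add (Nat.add (Nat.add C (Nat.mul x280 (nat_lit 3))) x766) x118) x334) x262) x298) x274) x282) (Nat.mul (e (nat_lit 280)) ap)) x19962) (Nat.mul (e (nat_lit 280)) an))
    (Nat.add (Nat.add (Nat.add (Nat.add (Nat.add (Nat.add (Nat.add (Nat.add (Nat.add C (Nat.mul x282 (nat_lit 4))) x768) x120) x336) x264) x300) x276) x288) x280)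
    (Nat.add (Nat.add (Nat.add (Nat.add (Nat.add (Nat.add C (Nat.mul x288 (nat_lit 4))) x774) x126) x342) x306) x282)
    (Nat.sub (Nat.add (Nat.add (Nat.add (Nat.add (Nat.add (Nat.add C (Nat.mul x298 (nat_lit 2))) x784) x136) x352) x280) x300) x19980)
    (Nat.add (Nat.add (Nat.add (Nat.add (Nat.add (Nat.add (Nat.add C (Nat.mul x300 (nat_lit 2))) x786) x138) x354) x282) x306) x298)
    (Nat.add (Nat.add (Nat.add (Nat.add (Nat.add (Nat.add C (Nat.mul x306 (nat_lit 4))) x792) x144) x360) x288) x300)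
    (Nat.sub (Nat.sub (Nat.add (Nat.add (Nat.add (Nat.add (Nat.add (Nat.add (Nat.add C (Nat.mul x326 (nat_lit 3))) x812) x164) x488) x272) x328) (Nat.mul (e (nat_lit 326)) ap)) x20008) (Nat.mul (e (nat_lit 326)) an))
    (Nat.sub (Nat.sub (Nat.add (Nat.add (Nat.add (Nat.add (Nat.add (Nat.add (Nat.add (Nat.add (Nat.add C (Nat.mul x328 (nat_lit 4))) x814) x166) x490) x274) x334) x326) x330) (Nat.mul (e (nat_lit 328)) ap)) x20010) (Nat.mul (e (nat_lit 328)) an))
    (Nat.add (Nat.add (Nat.add (Nat.add (Nat.add (Nat.add (Nat.add C (Nat.mul x330 (nat_lit 3))) x816) x168) x492) x276) x336) x328)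
    (Nat.sub (Nat.add (Nat.add (Nat.add (Nat.add (Nat.add (Nat.add (Nat.add (Nat.add C (Nat.mul x334 (nat_lit 3))) x820) x172) x496) x280) x352) x328) x336) x20016)
    (Nat.add (Nat.add (Nat.add (Nat.add (Nat.add (Nat.add (Nat.add (Nat.add (Nat.add C (Nat.mul x336 (nat_lit 4))) x822) x174) x498) x282) x354) x330) x342) x334)
    (Nat.add (Nat.add (Nat.add (Nat.add (Nat.add (Nat.add (Nat.add C (Nat.mul x342 (nat_lit 3))) x828) x180) x504) x288) x360) x336)
    (Nat.sub (Nat.add (Nat.add (Nat.add (Nat.add (Nat.add (Nat.add (Nat.add (Nat.add C (Nat.mul x352 (nat_lit 4))) x838) x190) x514) x298) x406) x334) x354) x20034)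
    (Nat.add (Nat.add (Nat.add (Nat.add (Nat.add (Nat.add (Nat.add (Nat.add (Nat.add C (Nat.mul x354 (nat_lit 4))) x840) x192) x516) x300) x408) x336) x360) x352)
    (Nat.add (Nat.add (Nat.add (Nat.add (Nat.add (Nat.add (Nat.add (Nat.add (Nat.add C (Nat.mul x360 (nat_lit 5))) x846) x198) x522) x306) x414) x342) x378) x354)
    (Nat.add (Nat.add (Nat.add (Nat.add (Nat.add (Nat.add C (Nat.mul x378 (nat_lit 5))) x864) x216) x540) x432) x360)
    (Nat.sub (Nat.add (Nat.add (Nat.add (Nat.add (Nat.add C (Nat.mul x406 (nat_lit 4))) x892) x568) x352) x408) x20088)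
    (Nat.add (Nat.add (Nat.add (Nat.add (Nat.add (Nat.add C (Nat.mul x408 (nat_lit 4))) x894) x570) x354) x414) x406)
    (Nat.add (Nat.add (Nat.add (Nat.add (Nat.add (Nat.add C (Nat.mul x414 (nat_lit 4))) x900) x576) x360) x432) x408)
    (Nat.add (Nat.add (Nat.add (Nat.add (Nat.add C (Nat.mul x432 (nat_lit 6))) x918) x594) x378) x414)
    (Nat.sub (Nat.sub (Nat.add (Nat.add (Nat.add (Nat.add (Nat.add C (Nat.mul x488 (nat_lit 2))) x974) x326) x490) (Nat.mul (e (nat_lit 488)) ap)) x20170) (Nat.mul (e (nat_lit 488)) an))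
    (Nat.sub (Nat.add (Nat.add (Nat.add (Nat.add (Nat.add (Nat.add C (Nat.mul x490 (nat_lit 3))) x976) x328) x496) x488) x492) x20172)
    (Nat.add (Nat.add (Nat.add (Nat.add (Nat.add C (Nat.mul x492 (nat_lit 2))) x978) x330) x498) x490)
    (Nat.sub (Nat.add (Nat.add (Nat.add (Nat.add (Nat.add (Nat.add C (Nat.mul x496 (nat_lit 2))) x982) x334) x514) x490) x498) x20178)
    (Nat.add (Nat.add (Nat.add (Nat.add (Nat.add (Nat.add (Nat.add C (Nat.mul x498 (nat_lit 3))) x984) x336) x516) x492) x504) x496)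
    (Nat.add (Nat.add (Nat.add (Nat.add (Nat.add C (Nat.mul x504 (nat_lit 2))) x990) x342) x522) x498)
    (Nat.sub (Nat.add (Nat.add (Nat.add (Nat.add (Nat.add (Nat.add C (Nat.mul x514 (nat_lit 2))) x1000) x352) x568) x496) x516) x20196)
    (Nat.add (Nat.add (Nat.add (Nat.add (Nat.add (Nat.add (Nat.add C (Nat.mul x516 (nat_lit 2))) x1002) x354) x570) x498) x522) x514)
    (Nat.add (Nat.add (Nat.add (Nat.add (Nat.add (Nat.add (Nat.add C (Nat.mul x522 (nat_lit 3))) x1008) x360) x576) x504) x540) x516)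
    (Nat.add (Nat.add (Nat.add (Nat.add (Nat.add C (Nat.mul x540 (nat_lit 2))) x1026) x378) x594) x522)
    (Nat.sub (Nat.add (Nat.add (Nat.add (Nat.add (Nat.add C (Nat.mul x568 (nat_lit 4))) x1054) x406) x514) x570) x20250)
    (Nat.add (Nat.add (Nat.add (Nat.add (Nat.add (Nat.add C (Nat.mul x570 (nat_lit 4))) x1056) x408) x516) x576) x568)
    (Nat.add (Nat.add (Nat.add (Nat.add (Nat.add (Nat.add C (Nat.mul x576 (nat_lit 4))) x1062) x414) x522) x594) x570)
    (Nat.add (Nat.add (Nat.add (Nat.add (Nat.add (Nat.add C (Nat.mul x594 (nat_lit 5))) x1080) x432) x540) x648) x576)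
    (Nat.add (Nat.add (Nat.add C (Nat.mul x648 (nat_lit 6))) x1134) x594)
    (Nat.sub (Nat.add (Nat.add (Nat.add (Nat.add (Nat.add C (Nat.mul x734 (nat_lit 4))) x2192) x248) x740) x736) x20416)
    (Nat.sub (Nat.add (Nat.add (Nat.add (Nat.add (Nat.add C (Nat.mul x736 (nat_lit 4))) x2194) x250) x742) x734) x20418)
    (Nat.sub (Nat.sub (Nat.add (Nat.add (Nat.add (Nat.add (Nat.add (Nat.add (Nat.add C (Nat.mul x740 (nat_lit 2))) x2198) x254) x758) x734) x742) (Nat.mul (e (nat_lit 740)) ap)) x20422) (Nat.mul (e (nat_lit 740)) an))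
    (Nat.sub (Nat.sub (Nat.add (Nat.add (Nat.add (Nat.add (Nat.add (Nat.add (Nat.add (Nat.add (Nat.add C (Nat.mul x742 (nat_lit 4))) x2200) x256) x760) x736) x748) x740) x744) (Nat.mul (e (nat_lit 742)) ap)) x20424) (Nat.mul (e (nat_lit 742)) an))
    (Nat.add (Nat.add (Nat.add (Nat.add (Nat.add (Nat.add C (Nat.mul x744 (nat_lit 4))) x2202) x258) x762) x750) x742)
    (Nat.sub (Nat.add (Nat.add (Nat.add (Nat.add (Nat.add (Nat.add C (Nat.mul x748 (nat_lit 2))) x2206) x262) x766) x742) x750) x20430)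
    (Nat.add (Nat.add (Nat.add (Nat.add (Nat.add (Nat.add C (Nat.mul x750 (nat_lit 4))) x2208) x264) x768) x744) x748)
    (Nat.sub (Nat.sub (Nat.add (Nat.add (Nat.add (Nat.add (Nat.add (Nat.add (Nat.add C (Nat.mul x758 (nat_lit 2))) x2216) x272) x812) x740) x760) (Nat.mul (e (nat_lit 758)) ap)) x20440) (Nat.mul (e (nat_lit 758)) an))
    (Nat.sub (Nat.sub (Nat.add (Nat.add (Nat.add (Nat.add (Nat.add (Nat.add (Nat.add (Nat.add (Nat.add C (Nat.mul x760 (nat_lit 3))) x2218) x274) x814) x742) x766) x758) x762) (Nat.mul (e (nat_lit 760)) ap)) x20442) (Nat.mul (e (nat_lit 760)) an))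
    (Nat.add (Nat.add (Nat.add (Nat.add (Nat.add (Nat.add (Nat.add C (Nat.mul x762 (nat_lit 2))) x2220) x276) x816) x744) x768) x760)
    (Nat.sub (Nat.sub (Nat.add (Nat.add (Nat.add (Nat.add (Nat.add (Nat.add (Nat.add (Nat.add (Nat.add C (Nat.mul x766 (nat_lit 3))) x2224) x280) x820) x748) x784) x760) x768) (Nat.mul (e (nat_lit 766)) ap)) x20448) (Nat.mul (e (nat_lit 766)) an))
    (Nat.add (Nat.add (Nat.add (Nat.add (Nat.add (Nat.add (Nat.add (Nat.add (Nat.add C (Nat.mul x768 (nat_lit 4))) x2226) x282) x822) x750) x786) x762) x774) x766)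
    (Nat.add (Nat.add (Nat.add (Nat.add (Nat.add (Nat.add C (Nat.mul x774 (nat_lit 4))) x2232) x288) x828) x792) x768)
    (Nat.sub (Nat.sub (Nat.add (Nat.add (Nat.add (Nat.add (Nat.add (Nat.add (Nat.add C (Nat.mul x784 (nat_lit 2))) x2242) x298) x838) x766) x786) (Nat.mul (e (nat_lit 784)) ap)) x20466) (Nat.mul (e (nat_lit 784)) an))
    (Nat.add (Nat.add (Nat.add (Nat.add (Nat.add (Nat.add (Nat.add C (Nat.mul x786 (nat_lit 2))) x2244) x300) x840) x768) x792) x784)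
    (Nat.add (Nat.add (Nat.add (Nat.add (Nat.add (Nat.add C (Nat.mul x792 (nat_lit 4))) x2250) x306) x846) x774) x786)
    (Nat.sub (Nat.sub (Nat.add (Nat.add (Nat.add (Nat.add (Nat.add (Nat.add (Nat.add C (Nat.mul x812 (nat_lit 2))) x2270) x326) x974) x758) x814) (Nat.mul (e (nat_lit 812)) ap)) x20494) (Nat.mul (e (nat_lit 812)) an))
    (Nat.sub (Nat.sub (Nat.add (Nat.add (Nat.add (Nat.add (Nat.add (Nat.add (Nat.add (Nat.add (Nat.add C (Nat.mul x814 (nat_lit 3))) x2272) x328) x976) x760) x820) x812) x816) (Nat.mul (e (nat_lit 814)) ap)) x20496) (Nat.mul (e (nat_lit 814)) an))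
    (Nat.add (Nat.add (Nat.add (Nat.add (Nat.add (Nat.add (Nat.add C (Nat.mul x816 (nat_lit 2))) x2274) x330) x978) x762) x822) x814)
    (Nat.sub (Nat.sub (Nat.add (Nat.add (Nat.add (Nat.add (Nat.add (Nat.add (Nat.add (Nat.add (Nat.add C (Nat.mul x820 (nat_lit 2))) x2278) x334) x982) x766) x838) x814) x822) (Nat.mul (e (nat_lit 820)) ap)) x20502) (Nat.mul (e (nat_lit 820)) an))
    (Nat.add (Nat.add (Nat.add (Nat.add (Nat.add (Nat.add (Nat.add (Nat.add (Nat.add C (Nat.mul x822 (nat_lit 3))) x2280) x336) x984) x768) x840) x816) x828) x820)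
    (Nat.add (Nat.add (Nat.add (Nat.add (Nat.add (Nat.add (Nat.add C (Nat.mul x828 (nat_lit 2))) x2286) x342) x990) x774) x846) x822)
    (Nat.sub (Nat.add (Nat.add (Nat.add (Nat.add (Nat.add (Nat.add (Nat.add (Nat.add C (Nat.mul x838 (nat_lit 3))) x2296) x352) x1000) x784) x892) x820) x840) x20520)
    (Nat.add (Nat.add (Nat.add (Nat.add (Nat.add (Nat.add (Nat.add (Nat.add (Nat.add C (Nat.mul x840 (nat_lit 3))) x2298) x354) x1002) x786) x894) x822) x846) x838)
    (Nat.add (Nat.add (Nat.add (Nat.add (Nat.add (Nat.add (Nat.add (Nat.add (Nat.add C (Nat.mul x846 (nat_lit 4))) x2304) x360) x1008) x792) x900) x828) x864) x840)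
    (Nat.add (Nat.add (Nat.add (Nat.add (Nat.add (Nat.add C (Nat.mul x864 (nat_lit 4))) x2322) x378) x1026) x918) x846)
    (Nat.sub (Nat.add (Nat.add (Nat.add (Nat.add (Nat.add (Nat.add C (Nat.mul x892 (nat_lit 2))) x2350) x406) x1054) x838) x894) x20574)
    (Nat.add (Nat.add (Nat.add (Nat.add (Nat.add (Nat.add (Nat.add C (Nat.mul x894 (nat_lit 2))) x2352) x408) x1056) x840) x900) x892)
    (Nat.add (Nat.add (Nat.add (Nat.add (Nat.add (Nat.add (Nat.add C (Nat.mul x900 (nat_lit 2))) x2358) x414) x1062) x846) x918) x894)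
    (Nat.add (Nat.add (Nat.add (Nat.add (Nat.add (Nat.add C (Nat.mul x918 (nat_lit 4))) x2376) x432) x1080) x864) x900)
    (Nat.sub (Nat.add (Nat.add (Nat.add (Nat.add (Nat.add (Nat.add C (Nat.mul x974 (nat_lit 3))) x2432) x488) x1460) x812) x976) x20656)
    (Nat.sub (Nat.sub (Nat.add (Nat.add (Nat.add (Nat.add (Nat.add (Nat.add (Nat.add (Nat.add (Nat.add C (Nat.mul x976 (nat_lit 4))) x2434) x490) x1462) x814) x982) x974) x978) (Nat.mul (e (nat_lit 976)) ap)) x20658) (Nat.mul (e (nat_lit 976)) an))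
    (Nat.add (Nat.add (Nat.add (Nat.add (Nat.add (Nat.add (Nat.add C (Nat.mul x978 (nat_lit 3))) x2436) x492) x1464) x816) x984) x976)
    (Nat.sub (Nat.add (Nat.add (Nat.add (Nat.add (Nat.add (Nat.add (Nat.add (Nat.add C (Nat.mul x982 (nat_lit 3))) x2440) x496) x1468) x820) x1000) x976) x984) x20664)
    (Nat.add (Nat.add (Nat.add (Nat.add (Nat.add (Nat.add (Nat.add (Nat.add (Nat.add C (Nat.mul x984 (nat_lit 4))) x2442) x498) x1470) x822) x1002) x978) x990) x982)
    (Nat.add (Nat.add (Nat.add (Nat.add (Nat.add (Nat.add (Nat.add C (Nat.mul x990 (nat_lit 3))) x2448) x504) x1476) x828) x1008) x984)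
    (Nat.sub (Nat.add (Nat.add (Nat.add (Nat.add (Nat.add (Nat.add (Nat.add (Nat.add C (Nat.mul x1000 (nat_lit 3))) x2458) x514) x1486) x838) x1054) x982) x1002) x20682)
    (Nat.add (Nat.add (Nat.add (Nat.add (Nat.add (Nat.add (Nat.add (Nat.add (Nat.add C (Nat.mul x1002 (nat_lit 3))) x2460) x516) x1488) x840) x1056) x984) x1008) x1000)
    (Nat.add (Nat.add (Nat.add (Nat.add (Nat.add (Nat.add (Nat.add (Nat.add (Nat.add C (Nat.mul x1008 (nat_lit 4))) x2466) x522) x1494) x846) x1062) x990) x1026) x1002)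
    (Nat.add (Nat.add (Nat.add (Nat.add (Nat.add (Nat.add (Nat.add C (Nat.mul x1026 (nat_lit 3))) x2484) x540) x1512) x864) x1080) x1008)
    (Nat.sub (Nat.add (Nat.add (Nat.add (Nat.add (Nat.add (Nat.add (Nat.add (Nat.add C (Nat.mul x1054 (nat_lit 4))) x2512) x568) x1540) x892) x1216) x1000) x1056) x20736)
    (Nat.add (Nat.add (Nat.add (Nat.add (Nat.add (Nat.add (Nat.add (Nat.add (Nat.add C (Nat.mul x1056 (nat_lit 4))) x2514) x570) x1542) x894) x1218) x1002) x1062) x1054)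
    (Nat.add (Nat.add (Nat.add (Nat.add (Nat.add (Nat.add (Nat.add (Nat.add (Nat.add C (Nat.mul x1062 (nat_lit 4))) x2520) x576) x1548) x900) x1224) x1008) x1080) x1056)
    (Nat.add (Nat.add (Nat.add (Nat.add (Nat.add (Nat.add (Nat.add (Nat.add (Nat.add C (Nat.mul x1080 (nat_lit 5))) x2538) x594) x1566) x918) x1242) x1026) x1134) x1062)
    (Nat.add (Nat.add (Nat.add (Nat.add (Nat.add (Nat.add C (Nat.mul x1134 (nat_lit 5))) x2592) x648) x1620) x1296) x1080)
    (Nat.sub (Nat.add (Nat.add (Nat.add (Nat.add (Nat.add C (Nat.mul x1216 (nat_lit 4))) x2674) x1702) x1054) x1218) x20898)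
    (Nat.add (Nat.add (Nat.add (Nat.add (Nat.add (Nat.add C (Nat.mul x1218 (nat_lit 4))) x2676) x1704) x1056) x1224) x1216)
    (Nat.add (Nat.add (Nat.add (Nat.add (Nat.add (Nat.add C (Nat.mul x1224 (nat_lit 4))) x2682) x1710) x1062) x1242) x1218)
    (Nat.add (Nat.add (Nat.add (Nat.add (Nat.add (Nat.add C (Nat.mul x1242 (nat_lit 4))) x2700) x1728) x1080) x1296) x1224)
    (Nat.add (Nat.add (Nat.add (Nat.add (Nat.add C (Nat.mul x1296 (nat_lit 6))) x2754) x1782) x1134) x1242)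
    (Nat.sub (Nat.add (Nat.add (Nat.add (Nat.add C (Nat.mul x1460 (nat_lit 2))) x2918) x974) x1462) x21142)
    (Nat.sub (Nat.add (Nat.add (Nat.add (Nat.add (Nat.add (Nat.add C (Nat.mul x1462 (nat_lit 3))) x2920) x976) x1468) x1460) x1464) x21144)
    (Nat.add (Nat.add (Nat.add (Nat.add (Nat.add C (Nat.mul x1464 (nat_lit 2))) x2922) x978) x1470) x1462)
    (Nat.sub (Nat.add (Nat.add (Nat.add (Nat.add (Nat.add (Nat.add C (Nat.mul x1468 (nat_lit 2))) x2926) x982) x1486) x1462) x1470) x21150)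
    (Nat.add (Nat.add (Nat.add (Nat.add (Nat.add (Nat.add (Nat.add C (Nat.mul x1470 (nat_lit 3))) x2928) x984) x1488) x1464) x1476) x1468)
    (Nat.add (Nat.add (Nat.add (Nat.add (Nat.add C (Nat.mul x1476 (nat_lit 2))) x2934) x990) x1494) x1470)
    (Nat.sub (Nat.add (Nat.add (Nat.add (Nat.add (Nat.add (Nat.add C (Nat.mul x1486 (nat_lit 2))) x2944) x1000) x1540) x1468) x1488) x21168)
    (Nat.add (Nat.add (Nat.add (Nat.add (Nat.add (Nat.add (Nat.add C (Nat.mul x1488 (nat_lit 2))) x2946) x1002) x1542) x1470) x1494) x1486)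
    (Nat.add (Nat.add (Nat.add (Nat.add (Nat.add (Nat.add (Nat.add C (Nat.mul x1494 (nat_lit 3))) x2952) x1008) x1548) x1476) x1512) x1488)
    (Nat.add (Nat.add (Nat.add (Nat.add (Nat.add C (Nat.mul x1512 (nat_lit 2))) x2970) x1026) x1566) x1494)
    (Nat.sub (Nat.add (Nat.add (Nat.add (Nat.add (Nat.add (Nat.add C (Nat.mul x1540 (nat_lit 2))) x2998) x1054) x1702) x1486) x1542) x21222)
    (Nat.add (Nat.add (Nat.add (Nat.add (Nat.add (Nat.add (Nat.add C (Nat.mul x1542 (nat_lit 2))) x3000) x1056) x1704) x1488) x1548) x1540)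
    (Nat.add (Nat.add (Nat.add (Nat.add (Nat.add (Nat.add (Nat.add C (Nat.mul x1548 (nat_lit 2))) x3006) x1062) x1710) x1494) x1566) x1542)
    (Nat.add (Nat.add (Nat.add (Nat.add (Nat.add (Nat.add (Nat.add C (Nat.mul x1566 (nat_lit 3))) x3024) x1080) x1728) x1512) x1620) x1548)
    (Nat.add (Nat.add (Nat.add (Nat.add (Nat.add C (Nat.mul x1620 (nat_lit 2))) x3078) x1134) x1782) x1566)
    (Nat.sub (Nat.add (Nat.add (Nat.add (Nat.add (Nat.add C (Nat.mul x1702 (nat_lit 4))) x3160) x1216) x1540) x1704) x21384)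
    (Nat.add (Nat.add (Nat.add (Nat.add (Nat.add (Nat.add C (Nat.mul x1704 (nat_lit 4))) x3162) x1218) x1542) x1710) x1702)
    (Nat.add (Nat.add (Nat.add (Nat.add (Nat.add (Nat.add C (Nat.mul x1710 (nat_lit 4))) x3168) x1224) x1548) x1728) x1704)
    (Nat.add (Nat.add (Nat.add (Nat.add (Nat.add (Nat.add C (Nat.mul x1728 (nat_lit 4))) x3186) x1242) x1566) x1782) x1710)
    (Nat.add (Nat.add (Nat.add (Nat.add (Nat.add (Nat.add C (Nat.mul x1782 (nat_lit 5))) x3240) x1296) x1620) x1944) x1728)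
    (Nat.add (Nat.add (Nat.add C (Nat.mul x1944 (nat_lit 6))) x3402) x1782)
    (Nat.sub (Nat.add (Nat.add (Nat.add (Nat.add (Nat.add C (Nat.mul x2192 (nat_lit 4))) x6566) x734) x2198) x2194) x21874)
    (Nat.sub (Nat.add (Nat.add (Nat.add (Nat.add (Nat.add C (Nat.mul x2194 (nat_lit 4))) x6568) x736) x2200) x2192) x21876)
    (Nat.sub (Nat.add (Nat.add (Nat.add (Nat.add (Nat.add (Nat.add C (Nat.mul x2198 (nat_lit 2))) x6572) x740) x2216) x2192) x2200) x21880)
    (Nat.sub (Nat.add (Nat.add (Nat.add (Nat.add (Nat.add (Nat.add (Nat.add (Nat.add C (Nat.mul x2200 (nat_lit 4))) x6574) x742) x2218) x2194) x2206) x2198) x2202) x21882)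
    (Nat.add (Nat.add (Nat.add (Nat.add (Nat.add (Nat.add C (Nat.mul x2202 (nat_lit 4))) x6576) x744) x2220) x2208) x2200)
    (Nat.sub (Nat.add (Nat.add (Nat.add (Nat.add (Nat.add (Nat.add C (Nat.mul x2206 (nat_lit 2))) x6580) x748) x2224) x2200) x2208) x21888)
    (Nat.add (Nat.add (Nat.add (Nat.add (Nat.add (Nat.add C (Nat.mul x2208 (nat_lit 4))) x6582) x750) x2226) x2202) x2206)
    (Nat.sub (Nat.add (Nat.add (Nat.add (Nat.add (Nat.add (Nat.add C (Nat.mul x2216 (nat_lit 2))) x6590) x758) x2270) x2198) x2218) x21898)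
    (Nat.sub (Nat.add (Nat.add (Nat.add (Nat.add (Nat.add (Nat.add (Nat.add (Nat.add C (Nat.mul x2218 (nat_lit 3))) x6592) x760) x2272) x2200) x2224) x2216) x2220) x21900)
    (Nat.add (Nat.add (Nat.add (Nat.add (Nat.add (Nat.add (Nat.add C (Nat.mul x2220 (nat_lit 2))) x6594) x762) x2274) x2202) x2226) x2218)
    (Nat.sub (Nat.add (Nat.add (Nat.add (Nat.add (Nat.add (Nat.add (Nat.add (Nat.add C (Nat.mul x2224 (nat_lit 3))) x6598) x766) x2278) x2206) x2242) x2218) x2226) x21906)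
    (Nat.add (Nat.add (Nat.add (Nat.add (Nat.add (Nat.add (Nat.add (Nat.add (Nat.add C (Nat.mul x2226 (nat_lit 4))) x6600) x768) x2280) x2208) x2244) x2220) x2232) x2224)
    (Nat.add (Nat.add (Nat.add (Nat.add (Nat.add (Nat.add C (Nat.mul x2232 (nat_lit 4))) x6606) x774) x2286) x2250) x2226)
    (Nat.sub (Nat.add (Nat.add (Nat.add (Nat.add (Nat.add (Nat.add C (Nat.mul x2242 (nat_lit 2))) x6616) x784) x2296) x2224) x2244) x21924)
    (Nat.add (Nat.add (Nat.add (Nat.add (Nat.add (Nat.add (Nat.add C (Nat.mul x2244 (nat_lit 2))) x6618) x786) x2298) x2226) x2250) x2242)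
    (Nat.add (Nat.add (Nat.add (Nat.add (Nat.add (Nat.add C (Nat.mul x2250 (nat_lit 4))) x6624) x792) x2304) x2232) x2244)
    (Nat.sub (Nat.add (Nat.add (Nat.add (Nat.add (Nat.add (Nat.add C (Nat.mul x2270 (nat_lit 2))) x6644) x812) x2432) x2216) x2272) x21952)
    (Nat.sub (Nat.sub (Nat.add (Nat.add (Nat.add (Nat.add (Nat.add (Nat.add (Nat.add (Nat.add (Nat.add C (Nat.mul x2272 (nat_lit 3))) x6646) x814) x2434) x2218) x2278) x2270) x2274) (Nat.mul (e (nat_lit 2272)) ap)) x21954) (Nat.mul (e (nat_lit 2272)) an))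
    (Nat.add (Nat.add (Nat.add (Nat.add (Nat.add (Nat.add (Nat.add C (Nat.mul x2274 (nat_lit 2))) x6648) x816) x2436) x2220) x2280) x2272)
    (Nat.sub (Nat.sub (Nat.add (Nat.add (Nat.add (Nat.add (Nat.add (Nat.add (Nat.add (Nat.add (Nat.add C (Nat.mul x2278 (nat_lit 2))) x6652) x820) x2440) x2224) x2296) x2272) x2280) (Nat.mul (e (nat_lit 2278)) ap)) x21960) (Nat.mul (e (nat_lit 2278)) an))
    (Nat.add (Nat.add (Nat.add (Nat.add (Nat.add (Nat.add (Nat.add (Nat.add (Nat.add C (Nat.mul x2280 (nat_lit 3))) x6654) x822) x2442) x2226) x2298) x2274) x2286) x2278)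
    (Nat.add (Nat.add (Nat.add (Nat.add (Nat.add (Nat.add (Nat.add C (Nat.mul x2286 (nat_lit 2))) x6660) x828) x2448) x2232) x2304) x2280)
    (Nat.sub (Nat.add (Nat.add (Nat.add (Nat.add (Nat.add (Nat.add (Nat.add (Nat.add C (Nat.mul x2296 (nat_lit 3))) x6670) x838) x2458) x2242) x2350) x2278) x2298) x21978)
    (Nat.add (Nat.add (Nat.add (Nat.add (Nat.add (Nat.add (Nat.add (Nat.add (Nat.add C (Nat.mul x2298 (nat_lit 3))) x6672) x840) x2460) x2244) x2352) x2280) x2304) x2296)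
    (Nat.add (Nat.add (Nat.add (Nat.add (Nat.add (Nat.add (Nat.add (Nat.add (Nat.add C (Nat.mul x2304 (nat_lit 4))) x6678) x846) x2466) x2250) x2358) x2286) x2322) x2298)
    (Nat.add (Nat.add (Nat.add (Nat.add (Nat.add (Nat.add C (Nat.mul x2322 (nat_lit 4))) x6696) x864) x2484) x2376) x2304)
    (Nat.sub (Nat.add (Nat.add (Nat.add (Nat.add (Nat.add (Nat.add C (Nat.mul x2350 (nat_lit 2))) x6724) x892) x2512) x2296) x2352) x22032)
    (Nat.add (Nat.add (Nat.add (Nat.add (Nat.add (Nat.add (Nat.add C (Nat.mul x2352 (nat_lit 2))) x6726) x894) x2514) x2298) x2358) x2350)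
    (Nat.add (Nat.add (Nat.add (Nat.add (Nat.add (Nat.add (Nat.add C (Nat.mul x2358 (nat_lit 2))) x6732) x900) x2520) x2304) x2376) x2352)
    (Nat.add (Nat.add (Nat.add (Nat.add (Nat.add (Nat.add C (Nat.mul x2376 (nat_lit 4))) x6750) x918) x2538) x2322) x2358)
    (Nat.sub (Nat.add (Nat.add (Nat.add (Nat.add (Nat.add (Nat.add C (Nat.mul x2432 (nat_lit 2))) x6806) x974) x2918) x2270) x2434) x22114)
    (Nat.sub (Nat.add (Nat.add (Nat.add (Nat.add (Nat.add (Nat.add (Nat.add (Nat.add C (Nat.mul x2434 (nat_lit 3))) x6808) x976) x2920) x2272) x2440) x2432) x2436) x22116)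
    (Nat.add (Nat.add (Nat.add (Nat.add (Nat.add (Nat.add (Nat.add C (Nat.mul x2436 (nat_lit 2))) x6810) x978) x2922) x2274) x2442) x2434)
    (Nat.sub (Nat.sub (Nat.add (Nat.add (Nat.add (Nat.add (Nat.add (Nat.add (Nat.add (Nat.add (Nat.add C (Nat.mul x2440 (nat_lit 2))) x6814) x982) x2926) x2278) x2458) x2434) x2442) (Nat.mul (e (nat_lit 2440)) ap)) x22122) (Nat.mul (e (nat_lit 2440)) an))
    (Nat.add (Nat.add (Nat.add (Nat.add (Nat.add (Nat.add (Nat.add (Nat.add (Nat.add C (Nat.mul x2442 (nat_lit 3))) x6816) x984) x2928) x2280) x2460) x2436) x2448) x2440)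
    (Nat.add (Nat.add (Nat.add (Nat.add (Nat.add (Nat.add (Nat.add C (Nat.mul x2448 (nat_lit 2))) x6822) x990) x2934) x2286) x2466) x2442)
    (Nat.sub (Nat.add (Nat.add (Nat.add (Nat.add (Nat.add (Nat.add (Nat.add (Nat.add C (Nat.mul x2458 (nat_lit 2))) x6832) x1000) x2944) x2296) x2512) x2440) x2460) x22140)
    (Nat.add (Nat.add (Nat.add (Nat.add (Nat.add (Nat.add (Nat.add (Nat.add (Nat.add C (Nat.mul x2460 (nat_lit 2))) x6834) x1002) x2946) x2298) x2514) x2442) x2466) x2458)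
    (Nat.add (Nat.add (Nat.add (Nat.add (Nat.add (Nat.add (Nat.add (Nat.add (Nat.add C (Nat.mul x2466 (nat_lit 3))) x6840) x1008) x2952) x2304) x2520) x2448) x2484) x2460)
    (Nat.add (Nat.add (Nat.add (Nat.add (Nat.add (Nat.add (Nat.add C (Nat.mul x2484 (nat_lit 2))) x6858) x1026) x2970) x2322) x2538) x2466)
    (Nat.sub (Nat.add (Nat.add (Nat.add (Nat.add (Nat.add (Nat.add (Nat.add (Nat.add C (Nat.mul x2512 (nat_lit 3))) x6886) x1054) x2998) x2350) x2674) x2458) x2514) x22194)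
    (Nat.add (Nat.add (Nat.add (Nat.add (Nat.add (Nat.add (Nat.add (Nat.add (Nat.add C (Nat.mul x2514 (nat_lit 3))) x6888) x1056) x3000) x2352) x2676) x2460) x2520) x2512)
    (Nat.add (Nat.add (Nat.add (Nat.add (Nat.add (Nat.add (Nat.add (Nat.add (Nat.add C (Nat.mul x2520 (nat_lit 3))) x6894) x1062) x3006) x2358) x2682) x2466) x2538) x2514)
    (Nat.add (Nat.add (Nat.add (Nat.add (Nat.add (Nat.add (Nat.add (Nat.add (Nat.add C (Nat.mul x2538 (nat_lit 4))) x6912) x1080) x3024) x2376) x2700) x2484) x2592) x2520)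
    (Nat.add (Nat.add (Nat.add (Nat.add (Nat.add (Nat.add C (Nat.mul x2592 (nat_lit 4))) x6966) x1134) x3078) x2754) x2538)
    (Nat.sub (Nat.add (Nat.add (Nat.add (Nat.add (Nat.add (Nat.add C (Nat.mul x2674 (nat_lit 2))) x7048) x1216) x3160) x2512) x2676) x22356)
    (Nat.add (Nat.add (Nat.add (Nat.add (Nat.add (Nat.add (Nat.add C (Nat.mul x2676 (nat_lit 2))) x7050) x1218) x3162) x2514) x2682) x2674)
    (Nat.add (Nat.add (Nat.add (Nat.add (Nat.add (Nat.add (Nat.add C (Nat.mul x2682 (nat_lit 2))) x7056) x1224) x3168) x2520) x2700) x2676)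
    (Nat.add (Nat.add (Nat.add (Nat.add (Nat.add (Nat.add (Nat.add C (Nat.mul x2700 (nat_lit 2))) x7074) x1242) x3186) x2538) x2754) x2682)
    (Nat.add (Nat.add (Nat.add (Nat.add (Nat.add (Nat.add C (Nat.mul x2754 (nat_lit 4))) x7128) x1296) x3240) x2592) x2700)
    (Nat.sub (Nat.add (Nat.add (Nat.add (Nat.add (Nat.add (Nat.add C (Nat.mul x2918 (nat_lit 3))) x7292) x1460) x4376) x2432) x2920) x22600)
    (Nat.sub (Nat.add (Nat.add (Nat.add (Nat.add (Nat.add (Nat.add (Nat.add (Nat.add C (Nat.mul x2920 (nat_lit 4))) x7294) x1462) x4378) x2434) x2926) x2918) x2922) x22602)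
    (Nat.add (Nat.add (Nat.add (Nat.add (Nat.add (Nat.add (Nat.add C (Nat.mul x2922 (nat_lit 3))) x7296) x1464) x4380) x2436) x2928) x2920)
    (Nat.sub (Nat.add (Nat.add (Nat.add (Nat.add (Nat.add (Nat.add (Nat.add (Nat.add C (Nat.mul x2926 (nat_lit 3))) x7300) x1468) x4384) x2440) x2944) x2920) x2928) x22608)
    (Nat.add (Nat.add (Nat.add (Nat.add (Nat.add (Nat.add (Nat.add (Nat.add (Nat.add C (Nat.mul x2928 (nat_lit 4))) x7302) x1470) x4386) x2442) x2946) x2922) x2934) x2926)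
    (Nat.add (Nat.add (Nat.add (Nat.add (Nat.add (Nat.add (Nat.add C (Nat.mul x2934 (nat_lit 3))) x7308) x1476) x4392) x2448) x2952) x2928)
    (Nat.sub (Nat.add (Nat.add (Nat.add (Nat.add (Nat.add (Nat.add (Nat.add (Nat.add C (Nat.mul x2944 (nat_lit 3))) x7318) x1486) x4402) x2458) x2998) x2926) x2946) x22626)
    (Nat.add (Nat.add (Nat.add (Nat.add (Nat.add (Nat.add (Nat.add (Nat.add (Nat.add C (Nat.mul x2946 (nat_lit 3))) x7320) x1488) x4404) x2460) x3000) x2928) x2952) x2944)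
    (Nat.add (Nat.add (Nat.add (Nat.add (Nat.add (Nat.add (Nat.add (Nat.add (Nat.add C (Nat.mul x2952 (nat_lit 4))) x7326) x1494) x4410) x2466) x3006) x2934) x2970) x2946)
    (Nat.add (Nat.add (Nat.add (Nat.add (Nat.add (Nat.add (Nat.add C (Nat.mul x2970 (nat_lit 3))) x7344) x1512) x4428) x2484) x3024) x2952)
    (Nat.sub (Nat.add (Nat.add (Nat.add (Nat.add (Nat.add (Nat.add (Nat.add (Nat.add C (Nat.mul x2998 (nat_lit 3))) x7372) x1540) x4456) x2512) x3160) x2944) x3000) x22680)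
    (Nat.add (Nat.add (Nat.add (Nat.add (Nat.add (Nat.add (Nat.add (Nat.add (Nat.add C (Nat.mul x3000 (nat_lit 3))) x7374) x1542) x4458) x2514) x3162) x2946) x3006) x2998)
    (Nat.add (Nat.add (Nat.add (Nat.add (Nat.add (Nat.add (Nat.add (Nat.add (Nat.add C (Nat.mul x3006 (nat_lit 3))) x7380) x1548) x4464) x2520) x3168) x2952) x3024) x3000)
    (Nat.add (Nat.add (Nat.add (Nat.add (Nat.add (Nat.add (Nat.add (Nat.add (Nat.add C (Nat.mul x3024 (nat_lit 4))) x7398) x1566) x4482) x2538) x3186) x2970) x3078) x3006)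
    (Nat.add (Nat.add (Nat.add (Nat.add (Nat.add (Nat.add (Nat.add C (Nat.mul x3078 (nat_lit 3))) x7452) x1620) x4536) x2592) x3240) x3024)
    (Nat.sub (Nat.add (Nat.add (Nat.add (Nat.add (Nat.add (Nat.add (Nat.add (Nat.add C (Nat.mul x3160 (nat_lit 4))) x7534) x1702) x4618) x2674) x3646) x2998) x3162) x22842)
    (Nat.add (Nat.add (Nat.add (Nat.add (Nat.add (Nat.add (Nat.add (Nat.add (Nat.add C (Nat.mul x3162 (nat_lit 4))) x7536) x1704) x4620) x2676) x3648) x3000) x3168) x3160)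
    (Nat.add (Nat.add (Nat.add (Nat.add (Nat.add (Nat.add (Nat.add (Nat.add (Nat.add C (Nat.mul x3168 (nat_lit 4))) x7542) x1710) x4626) x2682) x3654) x3006) x3186) x3162)
    (Nat.add (Nat.add (Nat.add (Nat.add (Nat.add (Nat.add (Nat.add (Nat.add (Nat.add C (Nat.mul x3186 (nat_lit 4))) x7560) x1728) x4644) x2700) x3672) x3024) x3240) x3168)
    (Nat.add (Nat.add (Nat.add (Nat.add (Nat.add (Nat.add (Nat.add (Nat.add (Nat.add C (Nat.mul x3240 (nat_lit 5))) x7614) x1782) x4698) x2754) x3726) x3078) x3402) x3186)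
    (Nat.add (Nat.add (Nat.add (Nat.add (Nat.add (Nat.add C (Nat.mul x3402 (nat_lit 5))) x7776) x1944) x4860) x3888) x3240)
    (Nat.sub (Nat.add (Nat.add (Nat.add (Nat.add (Nat.add C (Nat.mul x3646 (nat_lit 4))) x8020) x5104) x3160) x3648) x23328)
    (Nat.add (Nat.add (Nat.add (Nat.add (Nat.add (Nat.add C (Nat.mul x3648 (nat_lit 4))) x8022) x5106) x3162) x3654) x3646)
    (Nat.add (Nat.add (Nat.add (Nat.add (Nat.add (Nat.add C (Nat.mul x3654 (nat_lit 4))) x8028) x5112) x3168) x3672) x3648)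
    (Nat.add (Nat.add (Nat.add (Nat.add (Nat.add (Nat.add C (Nat.mul x3672 (nat_lit 4))) x8046) x5130) x3186) x3726) x3654)
    (Nat.add (Nat.add (Nat.add (Nat.add (Nat.add (Nat.add C (Nat.mul x3726 (nat_lit 4))) x8100) x5184) x3240) x3888) x3672)
    (Nat.add (Nat.add (Nat.add (Nat.add (Nat.add C (Nat.mul x3888 (nat_lit 6))) x8262) x5346) x3402) x3726)
    (Nat.sub (Nat.add (Nat.add (Nat.add (Nat.add C (Nat.mul x4376 (nat_lit 2))) x8750) x2918) x4378) x24058)
    (Nat.sub (Nat.add (Nat.add (Nat.add (Nat.add (Nat.add (Nat.add C (Nat.mul x4378 (nat_lit 3))) x8752) x2920) x4384) x4376) x4380) x24060)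
    (Nat.add (Nat.add (Nat.add (Nat.add (Nat.add C (Nat.mul x4380 (nat_lit 2))) x8754) x2922) x4386) x4378)
    (Nat.sub (Nat.add (Nat.add (Nat.add (Nat.add (Nat.add (Nat.add C (Nat.mul x4384 (nat_lit 2))) x8758) x2926) x4402) x4378) x4386) x24066)
    (Nat.add (Nat.add (Nat.add (Nat.add (Nat.add (Nat.add (Nat.add C (Nat.mul x4386 (nat_lit 3))) x8760) x2928) x4404) x4380) x4392) x4384)
    (Nat.add (Nat.add (Nat.add (Nat.add (Nat.add C (Nat.mul x4392 (nat_lit 2))) x8766) x2934) x4410) x4386)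
    (Nat.sub (Nat.add (Nat.add (Nat.add (Nat.add (Nat.add (Nat.add C (Nat.mul x4402 (nat_lit 2))) x8776) x2944) x4456) x4384) x4404) x24084)
    (Nat.add (Nat.add (Nat.add (Nat.add (Nat.add (Nat.add (Nat.add C (Nat.mul x4404 (nat_lit 2))) x8778) x2946) x4458) x4386) x4410) x4402)
    (Nat.add (Nat.add (Nat.add (Nat.add (Nat.add (Nat.add (Nat.add C (Nat.mul x4410 (nat_lit 3))) x8784) x2952) x4464) x4392) x4428) x4404)
    (Nat.add (Nat.add (Nat.add (Nat.add (Nat.add C (Nat.mul x4428 (nat_lit 2))) x8802) x2970) x4482) x4410)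
    (Nat.sub (Nat.add (Nat.add (Nat.add (Nat.add (Nat.add (Nat.add C (Nat.mul x4456 (nat_lit 2))) x8830) x2998) x4618) x4402) x4458) x24138)
    (Nat.add (Nat.add (Nat.add (Nat.add (Nat.add (Nat.add (Nat.add C (Nat.mul x4458 (nat_lit 2))) x8832) x3000) x4620) x4404) x4464) x4456)
    (Nat.add (Nat.add (Nat.add (Nat.add (Nat.add (Nat.add (Nat.add C (Nat.mul x4464 (nat_lit 2))) x8838) x3006) x4626) x4410) x4482) x4458)
    (Nat.add (Nat.add (Nat.add (Nat.add (Nat.add (Nat.add (Nat.add C (Nat.mul x4482 (nat_lit 3))) x8856) x3024) x4644) x4428) x4536) x4464)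
    (Nat.add (Nat.add (Nat.add (Nat.add (Nat.add C (Nat.mul x4536 (nat_lit 2))) x8910) x3078) x4698) x4482)
    (Nat.sub (Nat.add (Nat.add (Nat.add (Nat.add (Nat.add (Nat.add C (Nat.mul x4618 (nat_lit 2))) x8992) x3160) x5104) x4456) x4620) x24300)
    (Nat.add (Nat.add (Nat.add (Nat.add (Nat.add (Nat.add (Nat.add C (Nat.mul x4620 (nat_lit 2))) x8994) x3162) x5106) x4458) x4626) x4618)
    (Nat.add (Nat.add (Nat.add (Nat.add (Nat.add (Nat.add (Nat.add C (Nat.mul x4626 (nat_lit 2))) x9000) x3168) x5112) x4464) x4644) x4620)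
    (Nat.add (Nat.add (Nat.add (Nat.add (Nat.add (Nat.add (Nat.add C (Nat.mul x4644 (nat_lit 2))) x9018) x3186) x5130) x4482) x4698) x4626)
    (Nat.add (Nat.add (Nat.add (Nat.add (Nat.add (Nat.add (Nat.add C (Nat.mul x4698 (nat_lit 3))) x9072) x3240) x5184) x4536) x4860) x4644)
    (Nat.add (Nat.add (Nat.add (Nat.add (Nat.add C (Nat.mul x4860 (nat_lit 2))) x9234) x3402) x5346) x4698)
    (Nat.sub (Nat.add (Nat.add (Nat.add (Nat.add (Nat.add C (Nat.mul x5104 (nat_lit 4))) x9478) x3646) x4618) x5106) x24786)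
    (Nat.add (Nat.add (Nat.add (Nat.add (Nat.add (Nat.add C (Nat.mul x5106 (nat_lit 4))) x9480) x3648) x4620) x5112) x5104)
    (Nat.add (Nat.add (Nat.add (Nat.add (Nat.add (Nat.add C (Nat.mul x5112 (nat_lit 4))) x9486) x3654) x4626) x5130) x5106)
    (Nat.add (Nat.add (Nat.add (Nat.add (Nat.add (Nat.add C (Nat.mul x5130 (nat_lit 4))) x9504) x3672) x4644) x5184) x5112)
    (Nat.add (Nat.add (Nat.add (Nat.add (Nat.add (Nat.add C (Nat.mul x5184 (nat_lit 4))) x9558) x3726) x4698) x5346) x5130)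
    (Nat.add (Nat.add (Nat.add (Nat.add (Nat.add (Nat.add C (Nat.mul x5346 (nat_lit 5))) x9720) x3888) x4860) x5832) x5184)
    (Nat.add (Nat.add (Nat.add C (Nat.mul x5832 (nat_lit 6))) x10206) x5346)
    (Nat.sub (Nat.add (Nat.add (Nat.add (Nat.add (Nat.add C (Nat.mul x6566 (nat_lit 4))) x19688) x2192) x6572) x6568) x26248)
    (Nat.sub (Nat.add (Nat.add (Nat.add (Nat.add (Nat.add C (Nat.mul x6568 (nat_lit 4))) x19690) x2194) x6574) x6566) x26250)
    (Nat.sub (Nat.add (Nat.add (Nat.add (Nat.add (Nat.add (Nat.add C (Nat.mul x6572 (nat_lit 2))) x19694) x2198) x6590) x6566) x6574) x26254)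
    (Nat.sub (Nat.add (Nat.add (Nat.add (Nat.add (Nat.add (Nat.add (Nat.add (Nat.add C (Nat.mul x6574 (nat_lit 4))) x19696) x2200) x6592) x6568) x6580) x6572) x6576) x26256)
    (Nat.add (Nat.add (Nat.add (Nat.add (Nat.add (Nat.add C (Nat.mul x6576 (nat_lit 4))) x19698) x2202) x6594) x6582) x6574)
    (Nat.sub (Nat.add (Nat.add (Nat.add (Nat.add (Nat.add (Nat.add C (Nat.mul x6580 (nat_lit 2))) x19702) x2206) x6598) x6574) x6582) x26262)
    (Nat.add (Nat.add (Nat.add (Nat.add (Nat.add (Nat.add C (Nat.mul x6582 (nat_lit 4))) x19704) x2208) x6600) x6576) x6580)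
    (Nat.sub (Nat.add (Nat.add (Nat.add (Nat.add (Nat.add (Nat.add C (Nat.mul x6590 (nat_lit 2))) x19712) x2216) x6644) x6572) x6592) x26272)
    (Nat.sub (Nat.add (Nat.add (Nat.add (Nat.add (Nat.add (Nat.add (Nat.add (Nat.add C (Nat.mul x6592 (nat_lit 3))) x19714) x2218) x6646) x6574) x6598) x6590) x6594) x26274)
    (Nat.add (Nat.add (Nat.add (Nat.add (Nat.add (Nat.add (Nat.add C (Nat.mul x6594 (nat_lit 2))) x19716) x2220) x6648) x6576) x6600) x6592)
    (Nat.sub (Nat.add (Nat.add (Nat.add (Nat.add (Nat.add (Nat.add (Nat.add (Nat.add C (Nat.mul x6598 (nat_lit 3))) x19720) x2224) x6652) x6580) x6616) x6592) x6600) x26280)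
    (Nat.add (Nat.add (Nat.add (Nat.add (Nat.add (Nat.add (Nat.add (Nat.add (Nat.add C (Nat.mul x6600 (nat_lit 4))) x19722) x2226) x6654) x6582) x6618) x6594) x6606) x6598)
    (Nat.add (Nat.add (Nat.add (Nat.add (Nat.add (Nat.add C (Nat.mul x6606 (nat_lit 4))) x19728) x2232) x6660) x6624) x6600)
    (Nat.sub (Nat.add (Nat.add (Nat.add (Nat.add (Nat.add (Nat.add C (Nat.mul x6616 (nat_lit 2))) x19738) x2242) x6670) x6598) x6618) x26298)
    (Nat.add (Nat.add (Nat.add (Nat.add (Nat.add (Nat.add (Nat.add C (Nat.mul x6618 (nat_lit 2))) x19740) x2244) x6672) x6600) x6624) x6616)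
    (Nat.add (Nat.add (Nat.add (Nat.add (Nat.add (Nat.add C (Nat.mul x6624 (nat_lit 4))) x19746) x2250) x6678) x6606) x6618)
    (Nat.sub (Nat.add (Nat.add (Nat.add (Nat.add (Nat.add (Nat.add C (Nat.mul x6644 (nat_lit 2))) x19766) x2270) x6806) x6590) x6646) x26326)
    (Nat.sub (Nat.add (Nat.add (Nat.add (Nat.add (Nat.add (Nat.add (Nat.add (Nat.add C (Nat.mul x6646 (nat_lit 3))) x19768) x2272) x6808) x6592) x6652) x6644) x6648) x26328)
    (Nat.add (Nat.add (Nat.add (Nat.add (Nat.add (Nat.add (Nat.add C (Nat.mul x6648 (nat_lit 2))) x19770) x2274) x6810) x6594) x6654) x6646)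
    (Nat.sub (Nat.add (Nat.add (Nat.add (Nat.add (Nat.add (Nat.add (Nat.add (Nat.add C (Nat.mul x6652 (nat_lit 2))) x19774) x2278) x6814) x6598) x6670) x6646) x6654) x26334)
    (Nat.add (Nat.add (Nat.add (Nat.add (Nat.add (Nat.add (Nat.add (Nat.add (Nat.add C (Nat.mul x6654 (nat_lit 3))) x19776) x2280) x6816) x6600) x6672) x6648) x6660) x6652)
    (Nat.add (Nat.add (Nat.add (Nat.add (Nat.add (Nat.add (Nat.add C (Nat.mul x6660 (nat_lit 2))) x19782) x2286) x6822) x6606) x6678) x6654)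
    (Nat.sub (Nat.add (Nat.add (Nat.add (Nat.add (Nat.add (Nat.add (Nat.add (Nat.add C (Nat.mul x6670 (nat_lit 3))) x19792) x2296) x6832) x6616) x6724) x6652) x6672) x26352)
    (Nat.add (Nat.add (Nat.add (Nat.add (Nat.add (Nat.add (Nat.add (Nat.add (Nat.add C (Nat.mul x6672 (nat_lit 3))) x19794) x2298) x6834) x6618) x6726) x6654) x6678) x6670)
    (Nat.add (Nat.add (Nat.add (Nat.add (Nat.add (Nat.add (Nat.add (Nat.add (Nat.add C (Nat.mul x6678 (nat_lit 4))) x19800) x2304) x6840) x6624) x6732) x6660) x6696) x6672)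
    (Nat.add (Nat.add (Nat.add (Nat.add (Nat.add (Nat.add C (Nat.mul x6696 (nat_lit 4))) x19818) x2322) x6858) x6750) x6678)
    (Nat.sub (Nat.add (Nat.add (Nat.add (Nat.add (Nat.add (Nat.add C (Nat.mul x6724 (nat_lit 2))) x19846) x2350) x6886) x6670) x6726) x26406)
    (Nat.add (Nat.add (Nat.add (Nat.add (Nat.add (Nat.add (Nat.add C (Nat.mul x6726 (nat_lit 2))) x19848) x2352) x6888) x6672) x6732) x6724)
    (Nat.add (Nat.add (Nat.add (Nat.add (Nat.add (Nat.add (Nat.add C (Nat.mul x6732 (nat_lit 2))) x19854) x2358) x6894) x6678) x6750) x6726)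
    (Nat.add (Nat.add (Nat.add (Nat.add (Nat.add (Nat.add C (Nat.mul x6750 (nat_lit 4))) x19872) x2376) x6912) x6696) x6732)
    (Nat.sub (Nat.add (Nat.add (Nat.add (Nat.add (Nat.add (Nat.add C (Nat.mul x6806 (nat_lit 2))) x19928) x2432) x7292) x6644) x6808) x26488)
    (Nat.sub (Nat.add (Nat.add (Nat.add (Nat.add (Nat.add (Nat.add (Nat.add (Nat.add C (Nat.mul x6808 (nat_lit 3))) x19930) x2434) x7294) x6646) x6814) x6806) x6810) x26490)
    (Nat.add (Nat.add (Nat.add (Nat.add (Nat.add (Nat.add (Nat.add C (Nat.mul x6810 (nat_lit 2))) x19932) x2436) x7296) x6648) x6816) x6808)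
    (Nat.sub (Nat.add (Nat.add (Nat.add (Nat.add (Nat.add (Nat.add (Nat.add (Nat.add C (Nat.mul x6814 (nat_lit 2))) x19936) x2440) x7300) x6652) x6832) x6808) x6816) x26496)
    (Nat.add (Nat.add (Nat.add (Nat.add (Nat.add (Nat.add (Nat.add (Nat.add (Nat.add C (Nat.mul x6816 (nat_lit 3))) x19938) x2442) x7302) x6654) x6834) x6810) x6822) x6814)
    (Nat.add (Nat.add (Nat.add (Nat.add (Nat.add (Nat.add (Nat.add C (Nat.mul x6822 (nat_lit 2))) x19944) x2448) x7308) x6660) x6840) x6816)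
    (Nat.sub (Nat.add (Nat.add (Nat.add (Nat.add (Nat.add (Nat.add (Nat.add (Nat.add C (Nat.mul x6832 (nat_lit 2))) x19954) x2458) x7318) x6670) x6886) x6814) x6834) x26514)
    (Nat.add (Nat.add (Nat.add (Nat.add (Nat.add (Nat.add (Nat.add (Nat.add (Nat.add C (Nat.mul x6834 (nat_lit 2))) x19956) x2460) x7320) x6672) x6888) x6816) x6840) x6832)
    (Nat.add (Nat.add (Nat.add (Nat.add (Nat.add (Nat.add (Nat.add (Nat.add (Nat.add C (Nat.mul x6840 (nat_lit 3))) x19962) x2466) x7326) x6678) x6894) x6822) x6858) x6834)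
    (Nat.add (Nat.add (Nat.add (Nat.add (Nat.add (Nat.add (Nat.add C (Nat.mul x6858 (nat_lit 2))) x19980) x2484) x7344) x6696) x6912) x6840)
    (Nat.sub (Nat.add (Nat.add (Nat.add (Nat.add (Nat.add (Nat.add (Nat.add (Nat.add C (Nat.mul x6886 (nat_lit 3))) x20008) x2512) x7372) x6724) x7048) x6832) x6888) x26568)
    (Nat.add (Nat.add (Nat.add (Nat.add (Nat.add (Nat.add (Nat.add (Nat.add (Nat.add C (Nat.mul x6888 (nat_lit 3))) x20010) x2514) x7374) x6726) x7050) x6834) x6894) x6886)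
    (Nat.add (Nat.add (Nat.add (Nat.add (Nat.add (Nat.add (Nat.add (Nat.add (Nat.add C (Nat.mul x6894 (nat_lit 3))) x20016) x2520) x7380) x6732) x7056) x6840) x6912) x6888)
    (Nat.add (Nat.add (Nat.add (Nat.add (Nat.add (Nat.add (Nat.add (Nat.add (Nat.add C (Nat.mul x6912 (nat_lit 4))) x20034) x2538) x7398) x6750) x7074) x6858) x6966) x6894)
    (Nat.add (Nat.add (Nat.add (Nat.add (Nat.add (Nat.add C (Nat.mul x6966 (nat_lit 4))) x20088) x2592) x7452) x7128) x6912)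
    (Nat.sub (Nat.add (Nat.add (Nat.add (Nat.add (Nat.add (Nat.add C (Nat.mul x7048 (nat_lit 2))) x20170) x2674) x7534) x6886) x7050) x26730)
    (Nat.add (Nat.add (Nat.add (Nat.add (Nat.add (Nat.add (Nat.add C (Nat.mul x7050 (nat_lit 2))) x20172) x2676) x7536) x6888) x7056) x7048)
    (Nat.add (Nat.add (Nat.add (Nat.add (Nat.add (Nat.add (Nat.add C (Nat.mul x7056 (nat_lit 2))) x20178) x2682) x7542) x6894) x7074) x7050)
    (Nat.add (Nat.add (Nat.add (Nat.add (Nat.add (Nat.add (Nat.add C (Nat.mul x7074 (nat_lit 2))) x20196) x2700) x7560) x6912) x7128) x7056)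
    (Nat.add (Nat.add (Nat.add (Nat.add (Nat.add (Nat.add C (Nat.mul x7128 (nat_lit 4))) x20250) x2754) x7614) x6966) x7074)
    (Nat.sub (Nat.add (Nat.add (Nat.add (Nat.add (Nat.add (Nat.add C (Nat.mul x7292 (nat_lit 2))) x20414) x2918) x8750) x6806) x7294) x26974)
    (Nat.sub (Nat.add (Nat.add (Nat.add (Nat.add (Nat.add (Nat.add (Nat.add (Nat.add C (Nat.mul x7294 (nat_lit 3))) x20416) x2920) x8752) x6808) x7300) x7292) x7296) x26976)
    (Nat.add (Nat.add (Nat.add (Nat.add (Nat.add (Nat.add (Nat.add C (Nat.mul x7296 (nat_lit 2))) x20418) x2922) x8754) x6810) x7302) x7294)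
    (Nat.sub (Nat.add (Nat.add (Nat.add (Nat.add (Nat.add (Nat.add (Nat.add (Nat.add C (Nat.mul x7300 (nat_lit 2))) x20422) x2926) x8758) x6814) x7318) x7294) x7302) x26982)
    (Nat.add (Nat.add (Nat.add (Nat.add (Nat.add (Nat.add (Nat.add (Nat.add (Nat.add C (Nat.mul x7302 (nat_lit 3))) x20424) x2928) x8760) x6816) x7320) x7296) x7308) x7300)
    (Nat.add (Nat.add (Nat.add (Nat.add (Nat.add (Nat.add (Nat.add C (Nat.mul x7308 (nat_lit 2))) x20430) x2934) x8766) x6822) x7326) x7302)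
    (Nat.sub (Nat.add (Nat.add (Nat.add (Nat.add (Nat.add (Nat.add (Nat.add (Nat.add C (Nat.mul x7318 (nat_lit 2))) x20440) x2944) x8776) x6832) x7372) x7300) x7320) x27000)
    (Nat.add (Nat.add (Nat.add (Nat.add (Nat.add (Nat.add (Nat.add (Nat.add (Nat.add C (Nat.mul x7320 (nat_lit 2))) x20442) x2946) x8778) x6834) x7374) x7302) x7326) x7318)
    (Nat.add (Nat.add (Nat.add (Nat.add (Nat.add (Nat.add (Nat.add (Nat.add (Nat.add C (Nat.mul x7326 (nat_lit 3))) x20448) x2952) x8784) x6840) x7380) x7308) x7344) x7320)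
    (Nat.add (Nat.add (Nat.add (Nat.add (Nat.add (Nat.add (Nat.add C (Nat.mul x7344 (nat_lit 2))) x20466) x2970) x8802) x6858) x7398) x7326)
    (Nat.sub (Nat.add (Nat.add (Nat.add (Nat.add (Nat.add (Nat.add (Nat.add (Nat.add C (Nat.mul x7372 (nat_lit 2))) x20494) x2998) x8830) x6886) x7534) x7318) x7374) x27054)
    (Nat.add (Nat.add (Nat.add (Nat.add (Nat.add (Nat.add (Nat.add (Nat.add (Nat.add C (Nat.mul x7374 (nat_lit 2))) x20496) x3000) x8832) x6888) x7536) x7320) x7380) x7372)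
    (Nat.add (Nat.add (Nat.add (Nat.add (Nat.add (Nat.add (Nat.add (Nat.add (Nat.add C (Nat.mul x7380 (nat_lit 2))) x20502) x3006) x8838) x6894) x7542) x7326) x7398) x7374)
    (Nat.add (Nat.add (Nat.add (Nat.add (Nat.add (Nat.add (Nat.add (Nat.add (Nat.add C (Nat.mul x7398 (nat_lit 3))) x20520) x3024) x8856) x6912) x7560) x7344) x7452) x7380)
    (Nat.add (Nat.add (Nat.add (Nat.add (Nat.add (Nat.add (Nat.add C (Nat.mul x7452 (nat_lit 2))) x20574) x3078) x8910) x6966) x7614) x7398)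
    (Nat.sub (Nat.add (Nat.add (Nat.add (Nat.add (Nat.add (Nat.add (Nat.add (Nat.add C (Nat.mul x7534 (nat_lit 3))) x20656) x3160) x8992) x7048) x8020) x7372) x7536) x27216)
    (Nat.add (Nat.add (Nat.add (Nat.add (Nat.add (Nat.add (Nat.add (Nat.add (Nat.add C (Nat.mul x7536 (nat_lit 3))) x20658) x3162) x8994) x7050) x8022) x7374) x7542) x7534)
    (Nat.add (Nat.add (Nat.add (Nat.add (Nat.add (Nat.add (Nat.add (Nat.add (Nat.add C (Nat.mul x7542 (nat_lit 3))) x20664) x3168) x9000) x7056) x8028) x7380) x7560) x7536)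
    (Nat.add (Nat.add (Nat.add (Nat.add (Nat.add (Nat.add (Nat.add (Nat.add (Nat.add C (Nat.mul x7560 (nat_lit 3))) x20682) x3186) x9018) x7074) x8046) x7398) x7614) x7542)
    (Nat.add (Nat.add (Nat.add (Nat.add (Nat.add (Nat.add (Nat.add (Nat.add (Nat.add C (Nat.mul x7614 (nat_lit 4))) x20736) x3240) x9072) x7128) x8100) x7452) x7776) x7560)
    (Nat.add (Nat.add (Nat.add (Nat.add (Nat.add (Nat.add C (Nat.mul x7776 (nat_lit 4))) x20898) x3402) x9234) x8262) x7614)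
    (Nat.sub (Nat.add (Nat.add (Nat.add (Nat.add (Nat.add (Nat.add C (Nat.mul x8020 (nat_lit 2))) x21142) x3646) x9478) x7534) x8022) x27702)
    (Nat.add (Nat.add (Nat.add (Nat.add (Nat.add (Nat.add (Nat.add C (Nat.mul x8022 (nat_lit 2))) x21144) x3648) x9480) x7536) x8028) x8020)
    (Nat.add (Nat.add (Nat.add (Nat.add (Nat.add (Nat.add (Nat.add C (Nat.mul x8028 (nat_lit 2))) x21150) x3654) x9486) x7542) x8046) x8022)
    (Nat.add (Nat.add (Nat.add (Nat.add (Nat.add (Nat.add (Nat.add C (Nat.mul x8046 (nat_lit 2))) x21168) x3672) x9504) x7560) x8100) x8028)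
    (Nat.add (Nat.add (Nat.add (Nat.add (Nat.add (Nat.add (Nat.add C (Nat.mul x8100 (nat_lit 2))) x21222) x3726) x9558) x7614) x8262) x8046)
    (Nat.add (Nat.add (Nat.add (Nat.add (Nat.add (Nat.add C (Nat.mul x8262 (nat_lit 4))) x21384) x3888) x9720) x7776) x8100)
    (Nat.sub (Nat.add (Nat.add (Nat.add (Nat.add (Nat.add (Nat.add C (Nat.mul x8750 (nat_lit 3))) x21872) x4376) x13124) x7292) x8752) x28432)
    (Nat.sub (Nat.add (Nat.add (Nat.add (Nat.add (Nat.add (Nat.add (Nat.add (Nat.add C (Nat.mul x8752 (nat_lit 4))) x21874) x4378) x13126) x7294) x8758) x8750) x8754) x28434)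
    (Nat.add (Nat.add (Nat.add (Nat.add (Nat.add (Nat.add (Nat.add C (Nat.mul x8754 (nat_lit 3))) x21876) x4380) x13128) x7296) x8760) x8752)
    (Nat.sub (Nat.add (Nat.add (Nat.add (Nat.add (Nat.add (Nat.add (Nat.add (Nat.add C (Nat.mul x8758 (nat_lit 3))) x21880) x4384) x13132) x7300) x8776) x8752) x8760) x28440)
    (Nat.add (Nat.add (Nat.add (Nat.add (Nat.add (Nat.add (Nat.add (Nat.add (Nat.add C (Nat.mul x8760 (nat_lit 4))) x21882) x4386) x13134) x7302) x8778) x8754) x8766) x8758)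
    (Nat.add (Nat.add (Nat.add (Nat.add (Nat.add (Nat.add (Nat.add C (Nat.mul x8766 (nat_lit 3))) x21888) x4392) x13140) x7308) x8784) x8760)
    (Nat.sub (Nat.add (Nat.add (Nat.add (Nat.add (Nat.add (Nat.add (Nat.add (Nat.add C (Nat.mul x8776 (nat_lit 3))) x21898) x4402) x13150) x7318) x8830) x8758) x8778) x28458)
    (Nat.add (Nat.add (Nat.add (Nat.add (Nat.add (Nat.add (Nat.add (Nat.add (Nat.add C (Nat.mul x8778 (nat_lit 3))) x21900) x4404) x13152) x7320) x8832) x8760) x8784) x8776)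
    (Nat.add (Nat.add (Nat.add (Nat.add (Nat.add (Nat.add (Nat.add (Nat.add (Nat.add C (Nat.mul x8784 (nat_lit 4))) x21906) x4410) x13158) x7326) x8838) x8766) x8802) x8778)
    (Nat.add (Nat.add (Nat.add (Nat.add (Nat.add (Nat.add (Nat.add C (Nat.mul x8802 (nat_lit 3))) x21924) x4428) x13176) x7344) x8856) x8784)
    (Nat.sub (Nat.add (Nat.add (Nat.add (Nat.add (Nat.add (Nat.add (Nat.add (Nat.add C (Nat.mul x8830 (nat_lit 3))) x21952) x4456) x13204) x7372) x8992) x8776) x8832) x28512)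
    (Nat.add (Nat.add (Nat.add (Nat.add (Nat.add (Nat.add (Nat.add (Nat.add (Nat.add C (Nat.mul x8832 (nat_lit 3))) x21954) x4458) x13206) x7374) x8994) x8778) x8838) x8830)
    (Nat.add (Nat.add (Nat.add (Nat.add (Nat.add (Nat.add (Nat.add (Nat.add (Nat.add C (Nat.mul x8838 (nat_lit 3))) x21960) x4464) x13212) x7380) x9000) x8784) x8856) x8832)
    (Nat.add (Nat.add (Nat.add (Nat.add (Nat.add (Nat.add (Nat.add (Nat.add (Nat.add C (Nat.mul x8856 (nat_lit 4))) x21978) x4482) x13230) x7398) x9018) x8802) x8910) x8838)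
    (Nat.add (Nat.add (Nat.add (Nat.add (Nat.add (Nat.add (Nat.add C (Nat.mul x8910 (nat_lit 3))) x22032) x4536) x13284) x7452) x9072) x8856)
    (Nat.sub (Nat.add (Nat.add (Nat.add (Nat.add (Nat.add (Nat.add (Nat.add (Nat.add C (Nat.mul x8992 (nat_lit 3))) x22114) x4618) x13366) x7534) x9478) x8830) x8994) x28674)
    (Nat.add (Nat.add (Nat.add (Nat.add (Nat.add (Nat.add (Nat.add (Nat.add (Nat.add C (Nat.mul x8994 (nat_lit 3))) x22116) x4620) x13368) x7536) x9480) x8832) x9000) x8992)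
    (Nat.add (Nat.add (Nat.add (Nat.add (Nat.add (Nat.add (Nat.add (Nat.add (Nat.add C (Nat.mul x9000 (nat_lit 3))) x22122) x4626) x13374) x7542) x9486) x8838) x9018) x8994)
    (Nat.add (Nat.add (Nat.add (Nat.add (Nat.add (Nat.add (Nat.add (Nat.add (Nat.add C (Nat.mul x9018 (nat_lit 3))) x22140) x4644) x13392) x7560) x9504) x8856) x9072) x9000)
    (Nat.add (Nat.add (Nat.add (Nat.add (Nat.add (Nat.add (Nat.add (Nat.add (Nat.add C (Nat.mul x9072 (nat_lit 4))) x22194) x4698) x13446) x7614) x9558) x8910) x9234) x9018)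
    (Nat.add (Nat.add (Nat.add (Nat.add (Nat.add (Nat.add (Nat.add C (Nat.mul x9234 (nat_lit 3))) x22356) x4860) x13608) x7776) x9720) x9072)
    (Nat.sub (Nat.add (Nat.add (Nat.add (Nat.add (Nat.add (Nat.add (Nat.add (Nat.add C (Nat.mul x9478 (nat_lit 4))) x22600) x5104) x13852) x8020) x10936) x8992) x9480) x29160)
    (Nat.add (Nat.add (Nat.add (Nat.add (Nat.add (Nat.add (Nat.add (Nat.add (Nat.add C (Nat.mul x9480 (nat_lit 4))) x22602) x5106) x13854) x8022) x10938) x8994) x9486) x9478)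
    (Nat.add (Nat.add (Nat.add (Nat.add (Nat.add (Nat.add (Nat.add (Nat.add (Nat.add C (Nat.mul x9486 (nat_lit 4))) x22608) x5112) x13860) x8028) x10944) x9000) x9504) x9480)
    (Nat.add (Nat.add (Nat.add (Nat.add (Nat.add (Nat.add (Nat.add (Nat.add (Nat.add C (Nat.mul x9504 (nat_lit 4))) x22626) x5130) x13878) x8046) x10962) x9018) x9558) x9486)
    (Nat.add (Nat.add (Nat.add (Nat.add (Nat.add (Nat.add (Nat.add (Nat.add (Nat.add C (Nat.mul x9558 (nat_lit 4))) x22680) x5184) x13932) x8100) x11016) x9072) x9720) x9504)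
    (Nat.add (Nat.add (Nat.add (Nat.add (Nat.add (Nat.add (Nat.add (Nat.add (Nat.add C (Nat.mul x9720 (nat_lit 5))) x22842) x5346) x14094) x8262) x11178) x9234) x10206) x9558)
    (Nat.add (Nat.add (Nat.add (Nat.add (Nat.add (Nat.add C (Nat.mul x10206 (nat_lit 5))) x23328) x5832) x14580) x11664) x9720)
    (Nat.sub (Nat.add (Nat.add (Nat.add (Nat.add (Nat.add C (Nat.mul x10936 (nat_lit 4))) x24058) x15310) x9478) x10938) x30618)
    (Nat.add (Nat.add (Nat.add (Nat.add (Nat.add (Nat.add C (Nat.mul x10938 (nat_lit 4))) x24060) x15312) x9480) x10944) x10936)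
    (Nat.add (Nat.add (Nat.add (Nat.add (Nat.add (Nat.add C (Nat.mul x10944 (nat_lit 4))) x24066) x15318) x9486) x10962) x10938)
    (Nat.add (Nat.add (Nat.add (Nat.add (Nat.add (Nat.add C (Nat.mul x10962 (nat_lit 4))) x24084) x15336) x9504) x11016) x10944)
    (Nat.add (Nat.add (Nat.add (Nat.add (Nat.add (Nat.add C (Nat.mul x11016 (nat_lit 4))) x24138) x15390) x9558) x11178) x10962)
    (Nat.add (Nat.add (Nat.add (Nat.add (Nat.add (Nat.add C (Nat.mul x11178 (nat_lit 4))) x24300) x15552) x9720) x11664) x11016)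
    (Nat.add (Nat.add (Nat.add (Nat.add (Nat.add C (Nat.mul x11664 (nat_lit 6))) x24786) x16038) x10206) x11178)
    (Nat.sub (Nat.add (Nat.add (Nat.add (Nat.add C (Nat.mul x13124 (nat_lit 2))) x26246) x8750) x13126) x32806)
    (Nat.sub (Nat.add (Nat.add (Nat.add (Nat.add (Nat.add (Nat.add C (Nat.mul x13126 (nat_lit 3))) x26248) x8752) x13132) x13124) x13128) x32808)
    (Nat.add (Nat.add (Nat.add (Nat.add (Nat.add C (Nat.mul x13128 (nat_lit 2))) x26250) x8754) x13134) x13126)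
    (Nat.sub (Nat.add (Nat.add (Nat.add (Nat.add (Nat.add (Nat.add C (Nat.mul x13132 (nat_lit 2))) x26254) x8758) x13150) x13126) x13134) x32814)
    (Nat.add (Nat.add (Nat.add (Nat.add (Nat.add (Nat.add (Nat.add C (Nat.mul x13134 (nat_lit 3))) x26256) x8760) x13152) x13128) x13140) x13132)
    (Nat.add (Nat.add (Nat.add (Nat.add (Nat.add C (Nat.mul x13140 (nat_lit 2))) x26262) x8766) x13158) x13134)
    (Nat.sub (Nat.add (Nat.add (Nat.add (Nat.add (Nat.add (Nat.add C (Nat.mul x13150 (nat_lit 2))) x26272) x8776) x13204) x13132) x13152) x32832)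
    (Nat.add (Nat.add (Nat.add (Nat.add (Nat.add (Nat.add (Nat.add C (Nat.mul x13152 (nat_lit 2))) x26274) x8778) x13206) x13134) x13158) x13150)
    (Nat.add (Nat.add (Nat.add (Nat.add (Nat.add (Nat.add (Nat.add C (Nat.mul x13158 (nat_lit 3))) x26280) x8784) x13212) x13140) x13176) x13152)
    (Nat.add (Nat.add (Nat.add (Nat.add (Nat.add C (Nat.mul x13176 (nat_lit 2))) x26298) x8802) x13230) x13158)
    (Nat.sub (Nat.add (Nat.add (Nat.add (Nat.add (Nat.add (Nat.add C (Nat.mul x13204 (nat_lit 2))) x26326) x8830) x13366) x13150) x13206) x32886)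
    (Nat.add (Nat.add (Nat.add (Nat.add (Nat.add (Nat.add (Nat.add C (Nat.mul x13206 (nat_lit 2))) x26328) x8832) x13368) x13152) x13212) x13204)
    (Nat.add (Nat.add (Nat.add (Nat.add (Nat.add (Nat.add (Nat.add C (Nat.mul x13212 (nat_lit 2))) x26334) x8838) x13374) x13158) x13230) x13206)
    (Nat.add (Nat.add (Nat.add (Nat.add (Nat.add (Nat.add (Nat.add C (Nat.mul x13230 (nat_lit 3))) x26352) x8856) x13392) x13176) x13284) x13212)
    (Nat.add (Nat.add (Nat.add (Nat.add (Nat.add C (Nat.mul x13284 (nat_lit 2))) x26406) x8910) x13446) x13230)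
    (Nat.sub (Nat.add (Nat.add (Nat.add (Nat.add (Nat.add (Nat.add C (Nat.mul x13366 (nat_lit 2))) x26488) x8992) x13852) x13204) x13368) x33048)
    (Nat.add (Nat.add (Nat.add (Nat.add (Nat.add (Nat.add (Nat.add C (Nat.mul x13368 (nat_lit 2))) x26490) x8994) x13854) x13206) x13374) x13366)
    (Nat.add (Nat.add (Nat.add (Nat.add (Nat.add (Nat.add (Nat.add C (Nat.mul x13374 (nat_lit 2))) x26496) x9000) x13860) x13212) x13392) x13368)
    (Nat.add (Nat.add (Nat.add (Nat.add (Nat.add (Nat.add (Nat.add C (Nat.mul x13392 (nat_lit 2))) x26514) x9018) x13878) x13230) x13446) x13374)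
    (Nat.add (Nat.add (Nat.add (Nat.add (Nat.add (Nat.add (Nat.add C (Nat.mul x13446 (nat_lit 3))) x26568) x9072) x13932) x13284) x13608) x13392)
    (Nat.add (Nat.add (Nat.add (Nat.add (Nat.add C (Nat.mul x13608 (nat_lit 2))) x26730) x9234) x14094) x13446)
    (Nat.sub (Nat.add (Nat.add (Nat.add (Nat.add (Nat.add (Nat.add C (Nat.mul x13852 (nat_lit 2))) x26974) x9478) x15310) x13366) x13854) x33534)
    (Nat.add (Nat.add (Nat.add (Nat.add (Nat.add (Nat.add (Nat.add C (Nat.mul x13854 (nat_lit 2))) x26976) x9480) x15312) x13368) x13860) x13852)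
    (Nat.add (Nat.add (Nat.add (Nat.add (Nat.add (Nat.add (Nat.add C (Nat.mul x13860 (nat_lit 2))) x26982) x9486) x15318) x13374) x13878) x13854)
    (Nat.add (Nat.add (Nat.add (Nat.add (Nat.add (Nat.add (Nat.add C (Nat.mul x13878 (nat_lit 2))) x27000) x9504) x15336) x13392) x13932) x13860)
    (Nat.add (Nat.add (Nat.add (Nat.add (Nat.add (Nat.add (Nat.add C (Nat.mul x13932 (nat_lit 2))) x27054) x9558) x15390) x13446) x14094) x13878)
    (Nat.add (Nat.add (Nat.add (Nat.add (Nat.add (Nat.add (Nat.add C (Nat.mul x14094 (nat_lit 3))) x27216) x9720) x15552) x13608) x14580) x13932)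
    (Nat.add (Nat.add (Nat.add (Nat.add (Nat.add C (Nat.mul x14580 (nat_lit 2))) x27702) x10206) x16038) x14094)
    (Nat.sub (Nat.add (Nat.add (Nat.add (Nat.add (Nat.add C (Nat.mul x15310 (nat_lit 4))) x28432) x10936) x13852) x15312) x34992)
    (Nat.add (Nat.add (Nat.add (Nat.add (Nat.add (Nat.add C (Nat.mul x15312 (nat_lit 4))) x28434) x10938) x13854) x15318) x15310)
    (Nat.add (Nat.add (Nat.add (Nat.add (Nat.add (Nat.add C (Nat.mul x15318 (nat_lit 4))) x28440) x10944) x13860) x15336) x15312)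
    (Nat.add (Nat.add (Nat.add (Nat.add (Nat.add (Nat.add C (Nat.mul x15336 (nat_lit 4))) x28458) x10962) x13878) x15390) x15318)
    (Nat.add (Nat.add (Nat.add (Nat.add (Nat.add (Nat.add C (Nat.mul x15390 (nat_lit 4))) x28512) x11016) x13932) x15552) x15336)
    (Nat.add (Nat.add (Nat.add (Nat.add (Nat.add (Nat.add C (Nat.mul x15552 (nat_lit 4))) x28674) x11178) x14094) x16038) x15390)
    (Nat.add (Nat.add (Nat.add (Nat.add (Nat.add (Nat.add C (Nat.mul x16038 (nat_lit 5))) x29160) x11664) x14580) x17496) x15552)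
    (Nat.add (Nat.add (Nat.add C (Nat.mul x17496 (nat_lit 6))) x30618) x16038)
    (Nat.sub (Nat.add (Nat.add (Nat.add (Nat.add C (Nat.mul x19688 (nat_lit 6))) x6566) x19694) x19690) x39370)
    (Nat.sub (Nat.sub (Nat.add (Nat.add (Nat.add (Nat.add C (Nat.mul x19690 (nat_lit 5))) x6568) x19696) x19688) x39372) x8)
    (Nat.sub (Nat.add (Nat.add (Nat.add (Nat.add (Nat.add C (Nat.mul x19694 (nat_lit 4))) x6572) x19712) x19688) x19696) x39376)
    (Nat.sub (Nat.sub (Nat.add (Nat.add (Nat.add (Nat.add (Nat.add (Nat.add (Nat.add C (Nat.mul x19696 (nat_lit 5))) x6574) x19714) x19690) x19702) x19694) x19698) x39378) x14)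
    (Nat.sub (Nat.add (Nat.add (Nat.add (Nat.add (Nat.add C (Nat.mul x19698 (nat_lit 4))) x6576) x19716) x19704) x19696) x16)
    (Nat.sub (Nat.sub (Nat.add (Nat.add (Nat.add (Nat.add (Nat.add C (Nat.mul x19702 (nat_lit 3))) x6580) x19720) x19696) x19704) x39384) x20)
    (Nat.sub (Nat.add (Nat.add (Nat.add (Nat.add (Nat.add C (Nat.mul x19704 (nat_lit 4))) x6582) x19722) x19698) x19702) x22)
    (Nat.sub (Nat.add (Nat.add (Nat.add (Nat.add (Nat.add C (Nat.mul x19712 (nat_lit 4))) x6590) x19766) x19694) x19714) x39394)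
    (Nat.sub (Nat.sub (Nat.add (Nat.add (Nat.add (Nat.add (Nat.add (Nat.add (Nat.add C (Nat.mul x19714 (nat_lit 4))) x6592) x19768) x19696) x19720) x19712) x19716) x39396) x32)
    (Nat.sub (Nat.add (Nat.add (Nat.add (Nat.add (Nat.add (Nat.add C (Nat.mul x19716 (nat_lit 2))) x6594) x19770) x19698) x19722) x19714) x34)
    (Nat.sub (Nat.sub (Nat.add (Nat.add (Nat.add (Nat.add (Nat.add (Nat.add (Nat.add C (Nat.mul x19720 (nat_lit 4))) x6598) x19774) x19702) x19738) x19714) x19722) x39402) x38)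
    (Nat.sub (Nat.add (Nat.add (Nat.add (Nat.add (Nat.add (Nat.add (Nat.add (Nat.add C (Nat.mul x19722 (nat_lit 4))) x6600) x19776) x19704) x19740) x19716) x19728) x19720) x40)
    (Nat.sub (Nat.add (Nat.add (Nat.add (Nat.add (Nat.add C (Nat.mul x19728 (nat_lit 4))) x6606) x19782) x19746) x19722) x46)
    (Nat.sub (Nat.sub (Nat.add (Nat.add (Nat.add (Nat.add (Nat.add C (Nat.mul x19738 (nat_lit 3))) x6616) x19792) x19720) x19740) x39420) x56)
    (Nat.sub (Nat.add (Nat.add (Nat.add (Nat.add (Nat.add (Nat.add C (Nat.mul x19740 (nat_lit 2))) x6618) x19794) x19722) x19746) x19738) x58)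
    (Nat.sub (Nat.add (Nat.add (Nat.add (Nat.add (Nat.add C (Nat.mul x19746 (nat_lit 4))) x6624) x19800) x19728) x19740) x64)
    (Nat.sub (Nat.add (Nat.add (Nat.add (Nat.add (Nat.add C (Nat.mul x19766 (nat_lit 4))) x6644) x19928) x19712) x19768) x39448)
    (Nat.sub (Nat.sub (Nat.add (Nat.add (Nat.add (Nat.add (Nat.add (Nat.add (Nat.add C (Nat.mul x19768 (nat_lit 4))) x6646) x19930) x19714) x19774) x19766) x19770) x39450) x86)
    (Nat.sub (Nat.add (Nat.add (Nat.add (Nat.add (Nat.add (Nat.add C (Nat.mul x19770 (nat_lit 2))) x6648) x19932) x19716) x19776) x19768) x88)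
    (Nat.sub (Nat.sub (Nat.add (Nat.add (Nat.add (Nat.add (Nat.add (Nat.add (Nat.add C (Nat.mul x19774 (nat_lit 3))) x6652) x19936) x19720) x19792) x19768) x19776) x39456) x92)
    (Nat.sub (Nat.add (Nat.add (Nat.add (Nat.add (Nat.add (Nat.add (Nat.add (Nat.add C (Nat.mul x19776 (nat_lit 3))) x6654) x19938) x19722) x19794) x19770) x19782) x19774) x94)
    (Nat.sub (Nat.add (Nat.add (Nat.add (Nat.add (Nat.add (Nat.add C (Nat.mul x19782 (nat_lit 2))) x6660) x19944) x19728) x19800) x19776) x100)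
    (Nat.sub (Nat.sub (Nat.add (Nat.add (Nat.add (Nat.add (Nat.add (Nat.add (Nat.add C (Nat.mul x19792 (nat_lit 4))) x6670) x19954) x19738) x19846) x19774) x19794) x39474) x110)
    (Nat.sub (Nat.add (Nat.add (Nat.add (Nat.add (Nat.add (Nat.add (Nat.add (Nat.add C (Nat.mul x19794 (nat_lit 3))) x6672) x19956) x19740) x19848) x19776) x19800) x19792) x112)
    (Nat.sub (Nat.add (Nat.add (Nat.add (Nat.add (Nat.add (Nat.add (Nat.add (Nat.add C (Nat.mul x19800 (nat_lit 4))) x6678) x19962) x19746) x19854) x19782) x19818) x19794) x118)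
    (Nat.sub (Nat.add (Nat.add (Nat.add (Nat.add (Nat.add C (Nat.mul x19818 (nat_lit 4))) x6696) x19980) x19872) x19800) x136)
    (Nat.sub (Nat.sub (Nat.add (Nat.add (Nat.add (Nat.add (Nat.add C (Nat.mul x19846 (nat_lit 3))) x6724) x20008) x19792) x19848) x39528) x164)
    (Nat.sub (Nat.add (Nat.add (Nat.add (Nat.add (Nat.add (Nat.add C (Nat.mul x19848 (nat_lit 2))) x6726) x20010) x19794) x19854) x19846) x166)
    (Nat.sub (Nat.add (Nat.add (Nat.add (Nat.add (Nat.add (Nat.add C (Nat.mul x19854 (nat_lit 2))) x6732) x20016) x19800) x19872) x19848) x172)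
    (Nat.sub (Nat.add (Nat.add (Nat.add (Nat.add (Nat.add C (Nat.mul x19872 (nat_lit 4))) x6750) x20034) x19818) x19854) x190)
    (Nat.sub (Nat.add (Nat.add (Nat.add (Nat.add (Nat.add C (Nat.mul x19928 (nat_lit 4))) x6806) x20414) x19766) x19930) x39610)
    (Nat.sub (Nat.sub (Nat.add (Nat.add (Nat.add (Nat.add (Nat.add (Nat.add (Nat.add C (Nat.mul x19930 (nat_lit 4))) x6808) x20416) x19768) x19936) x19928) x19932) x39612) x248)
    (Nat.sub (Nat.add (Nat.add (Nat.add (Nat.add (Nat.add (Nat.add C (Nat.mul x19932 (nat_lit 2))) x6810) x20418) x19770) x19938) x19930) x250)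
    (Nat.sub (Nat.sub (Nat.add (Nat.add (Nat.add (Nat.add (Nat.add (Nat.add (Nat.add C (Nat.mul x19936 (nat_lit 3))) x6814) x20422) x19774) x19954) x19930) x19938) x39618) x254)
    (Nat.sub (Nat.add (Nat.add (Nat.add (Nat.add (Nat.add (Nat.add (Nat.add (Nat.add C (Nat.mul x19938 (nat_lit 3))) x6816) x20424) x19776) x19956) x19932) x19944) x19936) x256)
    (Nat.sub (Nat.add (Nat.add (Nat.add (Nat.add (Nat.add (Nat.add C (Nat.mul x19944 (nat_lit 2))) x6822) x20430) x19782) x19962) x19938) x262)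
    (Nat.sub (Nat.sub (Nat.add (Nat.add (Nat.add (Nat.add (Nat.add (Nat.add (Nat.add C (Nat.mul x19954 (nat_lit 3))) x6832) x20440) x19792) x20008) x19936) x19956) x39636) x272)
    (Nat.sub (Nat.add (Nat.add (Nat.add (Nat.add (Nat.add (Nat.add (Nat.add (Nat.add C (Nat.mul x19956 (nat_lit 2))) x6834) x20442) x19794) x20010) x19938) x19962) x19954) x274)
    (Nat.sub (Nat.add (Nat.add (Nat.add (Nat.add (Nat.add (Nat.add (Nat.add (Nat.add C (Nat.mul x19962 (nat_lit 3))) x6840) x20448) x19800) x20016) x19944) x19980) x19956) x280)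
    (Nat.sub (Nat.add (Nat.add (Nat.add (Nat.add (Nat.add (Nat.add C (Nat.mul x19980 (nat_lit 2))) x6858) x20466) x19818) x20034) x19962) x298)
    (Nat.sub (Nat.sub (Nat.add (Nat.add (Nat.add (Nat.add (Nat.add (Nat.add (Nat.add C (Nat.mul x20008 (nat_lit 4))) x6886) x20494) x19846) x20170) x19954) x20010) x39690) x326)
    (Nat.sub (Nat.add (Nat.add (Nat.add (Nat.add (Nat.add (Nat.add (Nat.add (Nat.add C (Nat.mul x20010 (nat_lit 3))) x6888) x20496) x19848) x20172) x19956) x20016) x20008) x328)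
    (Nat.sub (Nat.add (Nat.add (Nat.add (Nat.add (Nat.add (Nat.add (Nat.add (Nat.add C (Nat.mul x20016 (nat_lit 3))) x6894) x20502) x19854) x20178) x19962) x20034) x20010) x334)
    (Nat.sub (Nat.add (Nat.add (Nat.add (Nat.add (Nat.add (Nat.add (Nat.add (Nat.add C (Nat.mul x20034 (nat_lit 4))) x6912) x20520) x19872) x20196) x19980) x20088) x20016) x352)
    (Nat.sub (Nat.add (Nat.add (Nat.add (Nat.add (Nat.add C (Nat.mul x20088 (nat_lit 4))) x6966) x20574) x20250) x20034) x406)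
    (Nat.sub (Nat.sub (Nat.add (Nat.add (Nat.add (Nat.add (Nat.add C (Nat.mul x20170 (nat_lit 3))) x7048) x20656) x20008) x20172) x39852) x488)
    (Nat.sub (Nat.add (Nat.add (Nat.add (Nat.add (Nat.add (Nat.add C (Nat.mul x20172 (nat_lit 2))) x7050) x20658) x20010) x20178) x20170) x490)
    (Nat.sub (Nat.add (Nat.add (Nat.add (Nat.add (Nat.add (Nat.add C (Nat.mul x20178 (nat_lit 2))) x7056) x20664) x20016) x20196) x20172) x496)
    (Nat.sub (Nat.add (Nat.add (Nat.add (Nat.add (Nat.add (Nat.add C (Nat.mul x20196 (nat_lit 2))) x7074) x20682) x20034) x20250) x20178) x514)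
    (Nat.sub (Nat.add (Nat.add (Nat.add (Nat.add (Nat.add C (Nat.mul x20250 (nat_lit 4))) x7128) x20736) x20088) x20196) x568)
    (Nat.sub (Nat.add (Nat.add (Nat.add (Nat.add (Nat.add C (Nat.mul x20414 (nat_lit 4))) x7292) x21872) x19928) x20416) x40096)
    (Nat.sub (Nat.sub (Nat.add (Nat.add (Nat.add (Nat.add (Nat.add (Nat.add (Nat.add C (Nat.mul x20416 (nat_lit 4))) x7294) x21874) x19930) x20422) x20414) x20418) x40098) x734)
    (Nat.sub (Nat.add (Nat.add (Nat.add (Nat.add (Nat.add (Nat.add C (Nat.mul x20418 (nat_lit 2))) x7296) x21876) x19932) x20424) x20416) x736)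
    (Nat.sub (Nat.sub (Nat.add (Nat.add (Nat.add (Nat.add (Nat.add (Nat.add (Nat.add C (Nat.mul x20422 (nat_lit 3))) x7300) x21880) x19936) x20440) x20416) x20424) x40104) x740)
    (Nat.sub (Nat.add (Nat.add (Nat.add (Nat.add (Nat.add (Nat.add (Nat.add (Nat.add C (Nat.mul x20424 (nat_lit 3))) x7302) x21882) x19938) x20442) x20418) x20430) x20422) x742)
    (Nat.sub (Nat.add (Nat.add (Nat.add (Nat.add (Nat.add (Nat.add C (Nat.mul x20430 (nat_lit 2))) x7308) x21888) x19944) x20448) x20424) x748)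
    (Nat.sub (Nat.sub (Nat.add (Nat.add (Nat.add (Nat.add (Nat.add (Nat.add (Nat.add C (Nat.mul x20440 (nat_lit 3))) x7318) x21898) x19954) x20494) x20422) x20442) x40122) x758)
    (Nat.sub (Nat.add (Nat.add (Nat.add (Nat.add (Nat.add (Nat.add (Nat.add (Nat.add C (Nat.mul x20442 (nat_lit 2))) x7320) x21900) x19956) x20496) x20424) x20448) x20440) x760)
    (Nat.sub (Nat.add (Nat.add (Nat.add (Nat.add (Nat.add (Nat.add (Nat.add (Nat.add C (Nat.mul x20448 (nat_lit 3))) x7326) x21906) x19962) x20502) x20430) x20466) x20442) x766)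
    (Nat.sub (Nat.add (Nat.add (Nat.add (Nat.add (Nat.add (Nat.add C (Nat.mul x20466 (nat_lit 2))) x7344) x21924) x19980) x20520) x20448) x784)
    (Nat.sub (Nat.sub (Nat.add (Nat.add (Nat.add (Nat.add (Nat.add (Nat.add (Nat.add C (Nat.mul x20494 (nat_lit 3))) x7372) x21952) x20008) x20656) x20440) x20496) x40176) x812)
    (Nat.sub (Nat.add (Nat.add (Nat.add (Nat.add (Nat.add (Nat.add (Nat.add (Nat.add C (Nat.mul x20496 (nat_lit 2))) x7374) x21954) x20010) x20658) x20442) x20502) x20494) x814)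
    (Nat.sub (Nat.add (Nat.add (Nat.add (Nat.add (Nat.add (Nat.add (Nat.add (Nat.add C (Nat.mul x20502 (nat_lit 2))) x7380) x21960) x20016) x20664) x20448) x20520) x20496) x820)
    (Nat.sub (Nat.add (Nat.add (Nat.add (Nat.add (Nat.add (Nat.add (Nat.add (Nat.add C (Nat.mul x20520 (nat_lit 3))) x7398) x21978) x20034) x20682) x20466) x20574) x20502) x838)
    (Nat.sub (Nat.add (Nat.add (Nat.add (Nat.add (Nat.add (Nat.add C (Nat.mul x20574 (nat_lit 2))) x7452) x22032) x20088) x20736) x20520) x892)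
    (Nat.sub (Nat.sub (Nat.add (Nat.add (Nat.add (Nat.add (Nat.add (Nat.add (Nat.add C (Nat.mul x20656 (nat_lit 4))) x7534) x22114) x20170) x21142) x20494) x20658) x40338) x974)
    (Nat.sub (Nat.add (Nat.add (Nat.add (Nat.add (Nat.add (Nat.add (Nat.add (Nat.add C (Nat.mul x20658 (nat_lit 3))) x7536) x22116) x20172) x21144) x20496) x20664) x20656) x976)
    (Nat.sub (Nat.add (Nat.add (Nat.add (Nat.add (Nat.add (Nat.add (Nat.add (Nat.add C (Nat.mul x20664 (nat_lit 3))) x7542) x22122) x20178) x21150) x20502) x20682) x20658) x982)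
    (Nat.sub (Nat.add (Nat.add (Nat.add (Nat.add (Nat.add (Nat.add (Nat.add (Nat.add C (Nat.mul x20682 (nat_lit 3))) x7560) x22140) x20196) x21168) x20520) x20736) x20664) x1000)
    (Nat.sub (Nat.add (Nat.add (Nat.add (Nat.add (Nat.add (Nat.add (Nat.add (Nat.add C (Nat.mul x20736 (nat_lit 4))) x7614) x22194) x20250) x21222) x20574) x20898) x20682) x1054)
    (Nat.sub (Nat.add (Nat.add (Nat.add (Nat.add (Nat.add C (Nat.mul x20898 (nat_lit 4))) x7776) x22356) x21384) x20736) x1216)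
    (Nat.sub (Nat.sub (Nat.add (Nat.add (Nat.add (Nat.add (Nat.add C (Nat.mul x21142 (nat_lit 3))) x8020) x22600) x20656) x21144) x40824) x1460)
    (Nat.sub (Nat.add (Nat.add (Nat.add (Nat.add (Nat.add (Nat.add C (Nat.mul x21144 (nat_lit 2))) x8022) x22602) x20658) x21150) x21142) x1462)
    (Nat.sub (Nat.add (Nat.add (Nat.add (Nat.add (Nat.add (Nat.add C (Nat.mul x21150 (nat_lit 2))) x8028) x22608) x20664) x21168) x21144) x1468)
    (Nat.sub (Nat.add (Nat.add (Nat.add (Nat.add (Nat.add (Nat.add C (Nat.mul x21168 (nat_lit 2))) x8046) x22626) x20682) x21222) x21150) x1486)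
    (Nat.sub (Nat.add (Nat.add (Nat.add (Nat.add (Nat.add (Nat.add C (Nat.mul x21222 (nat_lit 2))) x8100) x22680) x20736) x21384) x21168) x1540)
    (Nat.sub (Nat.add (Nat.add (Nat.add (Nat.add (Nat.add C (Nat.mul x21384 (nat_lit 4))) x8262) x22842) x20898) x21222) x1702)
    (Nat.sub (Nat.add (Nat.add (Nat.add (Nat.add (Nat.add C (Nat.mul x21872 (nat_lit 4))) x8750) x26246) x20414) x21874) x41554)
    (Nat.sub (Nat.sub (Nat.add (Nat.add (Nat.add (Nat.add (Nat.add (Nat.add (Nat.add C (Nat.mul x21874 (nat_lit 4))) x8752) x26248) x20416) x21880) x21872) x21876) x41556) x2192)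
    (Nat.sub (Nat.add (Nat.add (Nat.add (Nat.add (Nat.add (Nat.add C (Nat.mul x21876 (nat_lit 2))) x8754) x26250) x20418) x21882) x21874) x2194)
    (Nat.sub (Nat.sub (Nat.add (Nat.add (Nat.add (Nat.add (Nat.add (Nat.add (Nat.add C (Nat.mul x21880 (nat_lit 3))) x8758) x26254) x20422) x21898) x21874) x21882) x41562) x2198)
    (Nat.sub (Nat.add (Nat.add (Nat.add (Nat.add (Nat.add (Nat.add (Nat.add (Nat.add C (Nat.mul x21882 (nat_lit 3))) x8760) x26256) x20424) x21900) x21876) x21888) x21880) x2200)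
    (Nat.sub (Nat.add (Nat.add (Nat.add (Nat.add (Nat.add (Nat.add C (Nat.mul x21888 (nat_lit 2))) x8766) x26262) x20430) x21906) x21882) x2206)
    (Nat.sub (Nat.sub (Nat.add (Nat.add (Nat.add (Nat.add (Nat.add (Nat.add (Nat.add C (Nat.mul x21898 (nat_lit 3))) x8776) x26272) x20440) x21952) x21880) x21900) x41580) x2216)
    (Nat.sub (Nat.add (Nat.add (Nat.add (Nat.add (Nat.add (Nat.add (Nat.add (Nat.add C (Nat.mul x21900 (nat_lit 2))) x8778) x26274) x20442) x21954) x21882) x21906) x21898) x2218)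
    (Nat.sub (Nat.add (Nat.add (Nat.add (Nat.add (Nat.add (Nat.add (Nat.add (Nat.add C (Nat.mul x21906 (nat_lit 3))) x8784) x26280) x20448) x21960) x21888) x21924) x21900) x2224)
    (Nat.sub (Nat.add (Nat.add (Nat.add (Nat.add (Nat.add (Nat.add C (Nat.mul x21924 (nat_lit 2))) x8802) x26298) x20466) x21978) x21906) x2242)
    (Nat.sub (Nat.sub (Nat.add (Nat.add (Nat.add (Nat.add (Nat.add (Nat.add (Nat.add C (Nat.mul x21952 (nat_lit 3))) x8830) x26326) x20494) x22114) x21898) x21954) x41634) x2270)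
    (Nat.sub (Nat.add (Nat.add (Nat.add (Nat.add (Nat.add (Nat.add (Nat.add (Nat.add C (Nat.mul x21954 (nat_lit 2))) x8832) x26328) x20496) x22116) x21900) x21960) x21952) x2272)
    (Nat.sub (Nat.add (Nat.add (Nat.add (Nat.add (Nat.add (Nat.add (Nat.add (Nat.add C (Nat.mul x21960 (nat_lit 2))) x8838) x26334) x20502) x22122) x21906) x21978) x21954) x2278)
    (Nat.sub (Nat.add (Nat.add (Nat.add (Nat.add (Nat.add (Nat.add (Nat.add (Nat.add C (Nat.mul x21978 (nat_lit 3))) x8856) x26352) x20520) x22140) x21924) x22032) x21960) x2296)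
    (Nat.sub (Nat.add (Nat.add (Nat.add (Nat.add (Nat.add (Nat.add C (Nat.mul x22032 (nat_lit 2))) x8910) x26406) x20574) x22194) x21978) x2350)
    (Nat.sub (Nat.sub (Nat.add (Nat.add (Nat.add (Nat.add (Nat.add (Nat.add (Nat.add C (Nat.mul x22114 (nat_lit 3))) x8992) x26488) x20656) x22600) x21952) x22116) x41796) x2432)
    (Nat.sub (Nat.add (Nat.add (Nat.add (Nat.add (Nat.add (Nat.add (Nat.add (Nat.add C (Nat.mul x22116 (nat_lit 2))) x8994) x26490) x20658) x22602) x21954) x22122) x22114) x2434)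
    (Nat.sub (Nat.add (Nat.add (Nat.add (Nat.add (Nat.add (Nat.add (Nat.add (Nat.add C (Nat.mul x22122 (nat_lit 2))) x9000) x26496) x20664) x22608) x21960) x22140) x22116) x2440)
    (Nat.sub (Nat.add (Nat.add (Nat.add (Nat.add (Nat.add (Nat.add (Nat.add (Nat.add C (Nat.mul x22140 (nat_lit 2))) x9018) x26514) x20682) x22626) x21978) x22194) x22122) x2458)
    (Nat.sub (Nat.add (Nat.add (Nat.add (Nat.add (Nat.add (Nat.add (Nat.add (Nat.add C (Nat.mul x22194 (nat_lit 3))) x9072) x26568) x20736) x22680) x22032) x22356) x22140) x2512)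
    (Nat.sub (Nat.add (Nat.add (Nat.add (Nat.add (Nat.add (Nat.add C (Nat.mul x22356 (nat_lit 2))) x9234) x26730) x20898) x22842) x22194) x2674)
    (Nat.sub (Nat.sub (Nat.add (Nat.add (Nat.add (Nat.add (Nat.add (Nat.add (Nat.add C (Nat.mul x22600 (nat_lit 4))) x9478) x26974) x21142) x24058) x22114) x22602) x42282) x2918)
    (Nat.sub (Nat.add (Nat.add (Nat.add (Nat.add (Nat.add (Nat.add (Nat.add (Nat.add C (Nat.mul x22602 (nat_lit 3))) x9480) x26976) x21144) x24060) x22116) x22608) x22600) x2920)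
    (Nat.sub (Nat.add (Nat.add (Nat.add (Nat.add (Nat.add (Nat.add (Nat.add (Nat.add C (Nat.mul x22608 (nat_lit 3))) x9486) x26982) x21150) x24066) x22122) x22626) x22602) x2926)
    (Nat.sub (Nat.add (Nat.add (Nat.add (Nat.add (Nat.add (Nat.add (Nat.add (Nat.add C (Nat.mul x22626 (nat_lit 3))) x9504) x27000) x21168) x24084) x22140) x22680) x22608) x2944)
    (Nat.sub (Nat.add (Nat.add (Nat.add (Nat.add (Nat.add (Nat.add (Nat.add (Nat.add C (Nat.mul x22680 (nat_lit 3))) x9558) x27054) x21222) x24138) x22194) x22842) x22626) x2998)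
    (Nat.sub (Nat.add (Nat.add (Nat.add (Nat.add (Nat.add (Nat.add (Nat.add (Nat.add C (Nat.mul x22842 (nat_lit 4))) x9720) x27216) x21384) x24300) x22356) x23328) x22680) x3160)
    (Nat.sub (Nat.add (Nat.add (Nat.add (Nat.add (Nat.add C (Nat.mul x23328 (nat_lit 4))) x10206) x27702) x24786) x22842) x3646)
    (Nat.sub (Nat.sub (Nat.add (Nat.add (Nat.add (Nat.add (Nat.add C (Nat.mul x24058 (nat_lit 3))) x10936) x28432) x22600) x24060) x43740) x4376)
    (Nat.sub (Nat.add (Nat.add (Nat.add (Nat.add (Nat.add (Nat.add C (Nat.mul x24060 (nat_lit 2))) x10938) x28434) x22602) x24066) x24058) x4378)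
    (Nat.sub (Nat.add (Nat.add (Nat.add (Nat.add (Nat.add (Nat.add C (Nat.mul x24066 (nat_lit 2))) x10944) x28440) x22608) x24084) x24060) x4384)
    (Nat.sub (Nat.add (Nat.add (Nat.add (Nat.add (Nat.add (Nat.add C (Nat.mul x24084 (nat_lit 2))) x10962) x28458) x22626) x24138) x24066) x4402)
    (Nat.sub (Nat.add (Nat.add (Nat.add (Nat.add (Nat.add (Nat.add C (Nat.mul x24138 (nat_lit 2))) x11016) x28512) x22680) x24300) x24084) x4456)
    (Nat.sub (Nat.add (Nat.add (Nat.add (Nat.add (Nat.add (Nat.add C (Nat.mul x24300 (nat_lit 2))) x11178) x28674) x22842) x24786) x24138) x4618)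
    (Nat.sub (Nat.add (Nat.add (Nat.add (Nat.add (Nat.add C (Nat.mul x24786 (nat_lit 4))) x11664) x29160) x23328) x24300) x5104)
    (Nat.sub (Nat.add (Nat.add (Nat.add (Nat.add (Nat.add C (Nat.mul x26246 (nat_lit 5))) x13124) x39368) x21872) x26248) x45928)
    (Nat.sub (Nat.sub (Nat.add (Nat.add (Nat.add (Nat.add (Nat.add (Nat.add (Nat.add C (Nat.mul x26248 (nat_lit 5))) x13126) x39370) x21874) x26254) x26246) x26250) x45930) x6566)
    (Nat.sub (Nat.add (Nat.add (Nat.add (Nat.add (Nat.add (Nat.add C (Nat.mul x26250 (nat_lit 3))) x13128) x39372) x21876) x26256) x26248) x6568)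
    (Nat.sub (Nat.sub (Nat.add (Nat.add (Nat.add (Nat.add (Nat.add (Nat.add (Nat.add C (Nat.mul x26254 (nat_lit 4))) x13132) x39376) x21880) x26272) x26248) x26256) x45936) x6572)
    (Nat.sub (Nat.add (Nat.add (Nat.add (Nat.add (Nat.add (Nat.add (Nat.add (Nat.add C (Nat.mul x26256 (nat_lit 4))) x13134) x39378) x21882) x26274) x26250) x26262) x26254) x6574)
    (Nat.sub (Nat.add (Nat.add (Nat.add (Nat.add (Nat.add (Nat.add C (Nat.mul x26262 (nat_lit 3))) x13140) x39384) x21888) x26280) x26256) x6580)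
    (Nat.sub (Nat.sub (Nat.add (Nat.add (Nat.add (Nat.add (Nat.add (Nat.add (Nat.add C (Nat.mul x26272 (nat_lit 4))) x13150) x39394) x21898) x26326) x26254) x26274) x45954) x6590)
    (Nat.sub (Nat.add (Nat.add (Nat.add (Nat.add (Nat.add (Nat.add (Nat.add (Nat.add C (Nat.mul x26274 (nat_lit 3))) x13152) x39396) x21900) x26328) x26256) x26280) x26272) x6592)
    (Nat.sub (Nat.add (Nat.add (Nat.add (Nat.add (Nat.add (Nat.add (Nat.add (Nat.add C (Nat.mul x26280 (nat_lit 4))) x13158) x39402) x21906) x26334) x26262) x26298) x26274) x6598)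
    (Nat.sub (Nat.add (Nat.add (Nat.add (Nat.add (Nat.add (Nat.add C (Nat.mul x26298 (nat_lit 3))) x13176) x39420) x21924) x26352) x26280) x6616)
    (Nat.sub (Nat.sub (Nat.add (Nat.add (Nat.add (Nat.add (Nat.add (Nat.add (Nat.add C (Nat.mul x26326 (nat_lit 4))) x13204) x39448) x21952) x26488) x26272) x26328) x46008) x6644)
    (Nat.sub (Nat.add (Nat.add (Nat.add (Nat.add (Nat.add (Nat.add (Nat.add (Nat.add C (Nat.mul x26328 (nat_lit 3))) x13206) x39450) x21954) x26490) x26274) x26334) x26326) x6646)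
    (Nat.sub (Nat.add (Nat.add (Nat.add (Nat.add (Nat.add (Nat.add (Nat.add (Nat.add C (Nat.mul x26334 (nat_lit 3))) x13212) x39456) x21960) x26496) x26280) x26352) x26328) x6652)
    (Nat.sub (Nat.add (Nat.add (Nat.add (Nat.add (Nat.add (Nat.add (Nat.add (Nat.add C (Nat.mul x26352 (nat_lit 4))) x13230) x39474) x21978) x26514) x26298) x26406) x26334) x6670)
    (Nat.sub (Nat.add (Nat.add (Nat.add (Nat.add (Nat.add (Nat.add C (Nat.mul x26406 (nat_lit 3))) x13284) x39528) x22032) x26568) x26352) x6724)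
    (Nat.sub (Nat.sub (Nat.add (Nat.add (Nat.add (Nat.add (Nat.add (Nat.add (Nat.add C (Nat.mul x26488 (nat_lit 4))) x13366) x39610) x22114) x26974) x26326) x26490) x46170) x6806)
    (Nat.sub (Nat.add (Nat.add (Nat.add (Nat.add (Nat.add (Nat.add (Nat.add (Nat.add C (Nat.mul x26490 (nat_lit 3))) x13368) x39612) x22116) x26976) x26328) x26496) x26488) x6808)
    (Nat.sub (Nat.add (Nat.add (Nat.add (Nat.add (Nat.add (Nat.add (Nat.add (Nat.add C (Nat.mul x26496 (nat_lit 3))) x13374) x39618) x22122) x26982) x26334) x26514) x26490) x6814)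
    (Nat.sub (Nat.add (Nat.add (Nat.add (Nat.add (Nat.add (Nat.add (Nat.add (Nat.add C (Nat.mul x26514 (nat_lit 3))) x13392) x39636) x22140) x27000) x26352) x26568) x26496) x6832)
    (Nat.sub (Nat.add (Nat.add (Nat.add (Nat.add (Nat.add (Nat.add (Nat.add (Nat.add C (Nat.mul x26568 (nat_lit 4))) x13446) x39690) x22194) x27054) x26406) x26730) x26514) x6886)
    (Nat.sub (Nat.add (Nat.add (Nat.add (Nat.add (Nat.add (Nat.add C (Nat.mul x26730 (nat_lit 3))) x13608) x39852) x22356) x27216) x26568) x7048)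
    (Nat.sub (Nat.sub (Nat.add (Nat.add (Nat.add (Nat.add (Nat.add (Nat.add (Nat.add C (Nat.mul x26974 (nat_lit 4))) x13852) x40096) x22600) x28432) x26488) x26976) x46656) x7292)
    (Nat.sub (Nat.add (Nat.add (Nat.add (Nat.add (Nat.add (Nat.add (Nat.add (Nat.add C (Nat.mul x26976 (nat_lit 3))) x13854) x40098) x22602) x28434) x26490) x26982) x26974) x7294)
    (Nat.sub (Nat.add (Nat.add (Nat.add (Nat.add (Nat.add (Nat.add (Nat.add (Nat.add C (Nat.mul x26982 (nat_lit 3))) x13860) x40104) x22608) x28440) x26496) x27000) x26976) x7300)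
    (Nat.sub (Nat.add (Nat.add (Nat.add (Nat.add (Nat.add (Nat.add (Nat.add (Nat.add C (Nat.mul x27000 (nat_lit 3))) x13878) x40122) x22626) x28458) x26514) x27054) x26982) x7318)
    (Nat.sub (Nat.add (Nat.add (Nat.add (Nat.add (Nat.add (Nat.add (Nat.add (Nat.add C (Nat.mul x27054 (nat_lit 3))) x13932) x40176) x22680) x28512) x26568) x27216) x27000) x7372)
    (Nat.sub (Nat.add (Nat.add (Nat.add (Nat.add (Nat.add (Nat.add (Nat.add (Nat.add C (Nat.mul x27216 (nat_lit 4))) x14094) x40338) x22842) x28674) x26730) x27702) x27054) x7534)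
    (Nat.sub (Nat.add (Nat.add (Nat.add (Nat.add (Nat.add (Nat.add C (Nat.mul x27702 (nat_lit 3))) x14580) x40824) x23328) x29160) x27216) x8020)
    (Nat.sub (Nat.sub (Nat.add (Nat.add (Nat.add (Nat.add (Nat.add (Nat.add (Nat.add C (Nat.mul x28432 (nat_lit 5))) x15310) x41554) x24058) x32806) x26974) x28434) x48114) x8750)
    (Nat.sub (Nat.add (Nat.add (Nat.add (Nat.add (Nat.add (Nat.add (Nat.add (Nat.add C (Nat.mul x28434 (nat_lit 4))) x15312) x41556) x24060) x32808) x26976) x28440) x28432) x8752)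
    (Nat.sub (Nat.add (Nat.add (Nat.add (Nat.add (Nat.add (Nat.add (Nat.add (Nat.add C (Nat.mul x28440 (nat_lit 4))) x15318) x41562) x24066) x32814) x26982) x28458) x28434) x8758)
    (Nat.sub (Nat.add (Nat.add (Nat.add (Nat.add (Nat.add (Nat.add (Nat.add (Nat.add C (Nat.mul x28458 (nat_lit 4))) x15336) x41580) x24084) x32832) x27000) x28512) x28440) x8776)
    (Nat.sub (Nat.add (Nat.add (Nat.add (Nat.add (Nat.add (Nat.add (Nat.add (Nat.add C (Nat.mul x28512 (nat_lit 4))) x15390) x41634) x24138) x32886) x27054) x28674) x28458) x8830)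
    (Nat.sub (Nat.add (Nat.add (Nat.add (Nat.add (Nat.add (Nat.add (Nat.add (Nat.add C (Nat.mul x28674 (nat_lit 4))) x15552) x41796) x24300) x33048) x27216) x29160) x28512) x8992)
    (Nat.sub (Nat.add (Nat.add (Nat.add (Nat.add (Nat.add (Nat.add (Nat.add (Nat.add C (Nat.mul x29160 (nat_lit 5))) x16038) x42282) x24786) x33534) x27702) x30618) x28674) x9478)
    (Nat.sub (Nat.add (Nat.add (Nat.add (Nat.add (Nat.add C (Nat.mul x30618 (nat_lit 5))) x17496) x43740) x34992) x29160) x10936)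
    (Nat.sub (Nat.sub (Nat.add (Nat.add (Nat.add (Nat.add C (Nat.mul x32806 (nat_lit 5))) x45928) x28432) x32808) x52488) x13124)
    (Nat.sub (Nat.add (Nat.add (Nat.add (Nat.add (Nat.add C (Nat.mul x32808 (nat_lit 4))) x45930) x28434) x32814) x32806) x13126)
    (Nat.sub (Nat.add (Nat.add (Nat.add (Nat.add (Nat.add C (Nat.mul x32814 (nat_lit 4))) x45936) x28440) x32832) x32808) x13132)
    (Nat.sub (Nat.add (Nat.add (Nat.add (Nat.add (Nat.add C (Nat.mul x32832 (nat_lit 4))) x45954) x28458) x32886) x32814) x13150)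
    (Nat.sub (Nat.add (Nat.add (Nat.add (Nat.add (Nat.add C (Nat.mul x32886 (nat_lit 4))) x46008) x28512) x33048) x32832) x13204)
    (Nat.sub (Nat.add (Nat.add (Nat.add (Nat.add (Nat.add C (Nat.mul x33048 (nat_lit 4))) x46170) x28674) x33534) x32886) x13366)
    (Nat.sub (Nat.add (Nat.add (Nat.add (Nat.add (Nat.add C (Nat.mul x33534 (nat_lit 4))) x46656) x29160) x34992) x33048) x13852)
    (Nat.sub (Nat.add (Nat.add (Nat.add (Nat.add C (Nat.mul x34992 (nat_lit 6))) x48114) x30618) x33534) x15310)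
    (Nat.add (Nat.add (Nat.add C (Nat.mul x39368 (nat_lit 6))) x26246) x39370)
    (Nat.sub (Nat.add (Nat.add (Nat.add (Nat.add (Nat.add C (Nat.mul x39370 (nat_lit 5))) x26248) x39376) x39368) x39372) x19688)
    (Nat.sub (Nat.add (Nat.add (Nat.add (Nat.add C (Nat.mul x39372 (nat_lit 2))) x26250) x39378) x39370) x19690)
    (Nat.sub (Nat.add (Nat.add (Nat.add (Nat.add (Nat.add C (Nat.mul x39376 (nat_lit 4))) x26254) x39394) x39370) x39378) x19694)
    (Nat.sub (Nat.add (Nat.add (Nat.add (Nat.add (Nat.add (Nat.add C (Nat.mul x39378 (nat_lit 3))) x26256) x39396) x39372) x39384) x39376) x19696)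
    (Nat.sub (Nat.add (Nat.add (Nat.add (Nat.add C (Nat.mul x39384 (nat_lit 2))) x26262) x39402) x39378) x19702)
    (Nat.sub (Nat.add (Nat.add (Nat.add (Nat.add (Nat.add C (Nat.mul x39394 (nat_lit 4))) x26272) x39448) x39376) x39396) x19712)
    (Nat.sub (Nat.add (Nat.add (Nat.add (Nat.add (Nat.add (Nat.add C (Nat.mul x39396 (nat_lit 2))) x26274) x39450) x39378) x39402) x39394) x19714)
    (Nat.sub (Nat.add (Nat.add (Nat.add (Nat.add (Nat.add (Nat.add C (Nat.mul x39402 (nat_lit 3))) x26280) x39456) x39384) x39420) x39396) x19720)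
    (Nat.sub (Nat.add (Nat.add (Nat.add (Nat.add C (Nat.mul x39420 (nat_lit 2))) x26298) x39474) x39402) x19738)
    (Nat.sub (Nat.add (Nat.add (Nat.add (Nat.add (Nat.add C (Nat.mul x39448 (nat_lit 4))) x26326) x39610) x39394) x39450) x19766)
    (Nat.sub (Nat.add (Nat.add (Nat.add (Nat.add (Nat.add (Nat.add C (Nat.mul x39450 (nat_lit 2))) x26328) x39612) x39396) x39456) x39448) x19768)
    (Nat.sub (Nat.add (Nat.add (Nat.add (Nat.add (Nat.add (Nat.add C (Nat.mul x39456 (nat_lit 2))) x26334) x39618) x39402) x39474) x39450) x19774)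
    (Nat.sub (Nat.add (Nat.add (Nat.add (Nat.add (Nat.add (Nat.add C (Nat.mul x39474 (nat_lit 3))) x26352) x39636) x39420) x39528) x39456) x19792)
    (Nat.sub (Nat.add (Nat.add (Nat.add (Nat.add C (Nat.mul x39528 (nat_lit 2))) x26406) x39690) x39474) x19846)
    (Nat.sub (Nat.add (Nat.add (Nat.add (Nat.add (Nat.add C (Nat.mul x39610 (nat_lit 4))) x26488) x40096) x39448) x39612) x19928)
    (Nat.sub (Nat.add (Nat.add (Nat.add (Nat.add (Nat.add (Nat.add C (Nat.mul x39612 (nat_lit 2))) x26490) x40098) x39450) x39618) x39610) x19930)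
    (Nat.sub (Nat.add (Nat.add (Nat.add (Nat.add (Nat.add (Nat.add C (Nat.mul x39618 (nat_lit 2))) x26496) x40104) x39456) x39636) x39612) x19936)
    (Nat.sub (Nat.add (Nat.add (Nat.add (Nat.add (Nat.add (Nat.add C (Nat.mul x39636 (nat_lit 2))) x26514) x40122) x39474) x39690) x39618) x19954)
    (Nat.sub (Nat.add (Nat.add (Nat.add (Nat.add (Nat.add (Nat.add C (Nat.mul x39690 (nat_lit 3))) x26568) x40176) x39528) x39852) x39636) x20008)
    (Nat.sub (Nat.add (Nat.add (Nat.add (Nat.add C (Nat.mul x39852 (nat_lit 2))) x26730) x40338) x39690) x20170)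
    (Nat.sub (Nat.add (Nat.add (Nat.add (Nat.add (Nat.add C (Nat.mul x40096 (nat_lit 4))) x26974) x41554) x39610) x40098) x20414)
    (Nat.sub (Nat.add (Nat.add (Nat.add (Nat.add (Nat.add (Nat.add C (Nat.mul x40098 (nat_lit 2))) x26976) x41556) x39612) x40104) x40096) x20416)
    (Nat.sub (Nat.add (Nat.add (Nat.add (Nat.add (Nat.add (Nat.add C (Nat.mul x40104 (nat_lit 2))) x26982) x41562) x39618) x40122) x40098) x20422)
    (Nat.sub (Nat.add (Nat.add (Nat.add (Nat.add (Nat.add (Nat.add C (Nat.mul x40122 (nat_lit 2))) x27000) x41580) x39636) x40176) x40104) x20440)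
    (Nat.sub (Nat.add (Nat.add (Nat.add (Nat.add (Nat.add (Nat.add C (Nat.mul x40176 (nat_lit 2))) x27054) x41634) x39690) x40338) x40122) x20494)
    (Nat.sub (Nat.add (Nat.add (Nat.add (Nat.add (Nat.add (Nat.add C (Nat.mul x40338 (nat_lit 3))) x27216) x41796) x39852) x40824) x40176) x20656)
    (Nat.sub (Nat.add (Nat.add (Nat.add (Nat.add C (Nat.mul x40824 (nat_lit 2))) x27702) x42282) x40338) x21142)
    (Nat.sub (Nat.add (Nat.add (Nat.add (Nat.add (Nat.add C (Nat.mul x41554 (nat_lit 4))) x28432) x45928) x40096) x41556) x21872)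
    (Nat.sub (Nat.add (Nat.add (Nat.add (Nat.add (Nat.add (Nat.add C (Nat.mul x41556 (nat_lit 2))) x28434) x45930) x40098) x41562) x41554) x21874)
    (Nat.sub (Nat.add (Nat.add (Nat.add (Nat.add (Nat.add (Nat.add C (Nat.mul x41562 (nat_lit 2))) x28440) x45936) x40104) x41580) x41556) x21880)
    (Nat.sub (Nat.add (Nat.add (Nat.add (Nat.add (Nat.add (Nat.add C (Nat.mul x41580 (nat_lit 2))) x28458) x45954) x40122) x41634) x41562) x21898)
    (Nat.sub (Nat.add (Nat.add (Nat.add (Nat.add (Nat.add (Nat.add C (Nat.mul x41634 (nat_lit 2))) x28512) x46008) x40176) x41796) x41580) x21952)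
    (Nat.sub (Nat.add (Nat.add (Nat.add (Nat.add (Nat.add (Nat.add C (Nat.mul x41796 (nat_lit 2))) x28674) x46170) x40338) x42282) x41634) x22114)
    (Nat.sub (Nat.add (Nat.add (Nat.add (Nat.add (Nat.add (Nat.add C (Nat.mul x42282 (nat_lit 3))) x29160) x46656) x40824) x43740) x41796) x22600)
    (Nat.sub (Nat.add (Nat.add (Nat.add (Nat.add C (Nat.mul x43740 (nat_lit 2))) x30618) x48114) x42282) x24058)
    (Nat.sub (Nat.add (Nat.add (Nat.add (Nat.add C (Nat.mul x45928 (nat_lit 6))) x32806) x41554) x45930) x26246)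
    (Nat.sub (Nat.add (Nat.add (Nat.add (Nat.add (Nat.add C (Nat.mul x45930 (nat_lit 4))) x32808) x41556) x45936) x45928) x26248)
    (Nat.sub (Nat.add (Nat.add (Nat.add (Nat.add (Nat.add C (Nat.mul x45936 (nat_lit 4))) x32814) x41562) x45954) x45930) x26254)
    (Nat.sub (Nat.add (Nat.add (Nat.add (Nat.add (Nat.add C (Nat.mul x45954 (nat_lit 4))) x32832) x41580) x46008) x45936) x26272)
    (Nat.sub (Nat.add (Nat.add (Nat.add (Nat.add (Nat.add C (Nat.mul x46008 (nat_lit 4))) x32886) x41634) x46170) x45954) x26326)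
    (Nat.sub (Nat.add (Nat.add (Nat.add (Nat.add (Nat.add C (Nat.mul x46170 (nat_lit 4))) x33048) x41796) x46656) x46008) x26488)
    (Nat.sub (Nat.add (Nat.add (Nat.add (Nat.add (Nat.add C (Nat.mul x46656 (nat_lit 4))) x33534) x42282) x48114) x46170) x26974)
    (Nat.sub (Nat.add (Nat.add (Nat.add (Nat.add (Nat.add C (Nat.mul x48114 (nat_lit 5))) x34992) x43740) x52488) x46656) x28432)
    (Nat.sub (Nat.add (Nat.add C (Nat.mul x52488 (nat_lit 6))) x48114) x32806)

theorem ap_eq (x : Nat → Nat) (k : FnLL specs) : apLL (fun t => x t.cd) specs k = A10_4.ap x k :=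
  Eq.refl (A10_4.ap x k)

theorem step_eq0 (e : Nat → Nat) (C p r : Nat) (k : FnLL specs) (x : Nat → Nat) :
    A10_4.ap x (step e C p r k) = apLL (interp e C p r x) specs k :=
  Eq.refl (A10_4.ap x (step e C p r k))

theorem spec_ok : specOK 9 true A10_4.mask specs = true := by decide +kernel

theorem step_eq (e : Nat → Nat) (C p r : Nat) (k : A10_4.KK) (x : Nat → Nat) :
    A10_4.ap x (step e C p r k) = A10_4.ap (row 9 true A10_4.mask e C p r x) k :=
  ((step_eq0 e C p r k x).trans (apLL_row 9 true A10_4.mask specs spec_ok e C p r x k)).trans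
    (ap_eq (row 9 true A10_4.mask e C p r x) k)

end Vale.Agent.P348.G10_4_1
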