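import Vale.Agent.P348.G.AS4

set_option maxRecDepth 1000000
set_option maxHeartbeats 0
set_option linter.all false

namespace Vale.Agent.P348.G4_0_1

noncomputable def sp0 : List Spec :=
  [Spec.mk (nat_lit 0) (nat_lit 4) [] (nat_lit 0) [] true]

noncomputable def specs : List (List Spec) :=
    sp0 :: []

noncomputable def step (e : Nat → Nat) (C ap an : Nat) (k :
    Nat → Bool)
  (
    x0 : Nat) : Bool :=
  k
    (Nat.sub (Nat.add (Nat.add C (Nat.mul x0 (nat_lit 4))) (Nat.mul (e (nat_lit 0)) ap)) (Nat.mul (e (nat_lit 0)) an))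

theorem ap_eq (x : Nat → Nat) (k : FnLL specs) : apLL (fun t => x t.cd) specs k = A4_0.ap x k :=
  Eq.refl (A4_0.ap x k)

theorem step_eq0 (e : Nat → Nat) (C p r : Nat) (k : FnLL specs) (x : Nat → Nat) :
    A4_0.ap x (step e C p r k) = apLL (interp e C p r x) specs k :=
  Eq.refl (A4_0.ap x (step e C p r k))

theorem spec_ok : specOK 3 true A4_0.mask specs = true := by decide +kernel

theorem step_eq (e : Nat → Nat) (C p r : Nat) (k : A4_0.KK) (x : Nat → Nat) :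
    A4_0.ap x (step e C p r k) = A4_0.ap (row 3 true A4_0.mask e C p r x) k :=
  ((step_eq0 e C p r k x).trans (apLL_row 3 true A4_0.mask specs spec_ok e C p r x k)).trans
    (ap_eq (row 3 true A4_0.mask e C p r x) k)

end Vale.Agent.P348.G4_0_1

namespace Vale.Agent.P348.G4_1_1

noncomputable def sp0 : List Spec :=
  [Spec.mk (nat_lit 1) (nat_lit 2) [nat_lit 3] (nat_lit 0) [nat_lit 27] true,
   Spec.mk (nat_lit 3) (nat_lit 2) [nat_lit 9, nat_lit 1] (nat_lit 0) [] false,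
   Spec.mk (nat_lit 9) (nat_lit 2) [nat_lit 27, nat_lit 3] (nat_lit 0) [] false,
   Spec.mk (nat_lit 27) (nat_lit 2) [nat_lit 9] (nat_lit 0) [nat_lit 1] false]

noncomputable def specs : List (List Spec) :=
    sp0 :: []

noncomputable def step (e : Nat → Nat) (C ap an : Nat) (k :
    Nat → Nat → Nat → Nat → Bool)
  (
    x1 x3 x9 x27 : Nat) : Bool :=
  k
    (Nat.sub (Nat.sub (Nat.add (Nat.add (Nat.add C (Nat.mul x1 (nat_lit 2))) x3) (Nat.mul (e (nat_lit 1)) ap)) x27) (Nat.mul (e (nat_lit 1)) an))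
    (Nat.add (Nat.add (Nat.add C (Nat.mul x3 (nat_lit 2))) x9) x1)
    (Nat.add (Nat.add (Nat.add C (Nat.mul x9 (nat_lit 2))) x27) x3)
    (Nat.sub (Nat.add (Nat.add C (Nat.mul x27 (nat_lit 2))) x9) x1)

theorem ap_eq (x : Nat → Nat) (k : FnLL specs) : apLL (fun t => x t.cd) specs k = A4_1.ap x k :=
  Eq.refl (A4_1.ap x k)

theorem step_eq0 (e : Nat → Nat) (C p r : Nat) (k : FnLL specs) (x : Nat → Nat) :
    A4_1.ap x (step e C p r k) = apLL (interp e C p r x) specs k :=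
  Eq.refl (A4_1.ap x (step e C p r k))

theorem spec_ok : specOK 3 true A4_1.mask specs = true := by decide +kernel

theorem step_eq (e : Nat → Nat) (C p r : Nat) (k : A4_1.KK) (x : Nat → Nat) :
    A4_1.ap x (step e C p r k) = A4_1.ap (row 3 true A4_1.mask e C p r x) k :=
  ((step_eq0 e C p r k x).trans (apLL_row 3 true A4_1.mask specs spec_ok e C p r x k)).trans
    (ap_eq (row 3 true A4_1.mask e C p r x) k)

end Vale.Agent.P348.G4_1_1

namespace Vale.Agent.P348.G4_2_1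

noncomputable def sp0 : List Spec :=
  [Spec.mk (nat_lit 2) (nat_lit 0) [nat_lit 4] (nat_lit 0) [nat_lit 28] true,
   Spec.mk (nat_lit 4) (nat_lit 1) [nat_lit 10, nat_lit 2, nat_lit 6] (nat_lit 0) [nat_lit 30] true,
   Spec.mk (nat_lit 6) (nat_lit 0) [nat_lit 12, nat_lit 4] (nat_lit 0) [] false,
   Spec.mk (nat_lit 10) (nat_lit 0) [nat_lit 28, nat_lit 4, nat_lit 12] (nat_lit 0) [nat_lit 36] true,
   Spec.mk (nat_lit 12) (nat_lit 1) [nat_lit 30, nat_lit 6, nat_lit 18, nat_lit 10] (nat_lit 0) [] false,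
   Spec.mk (nat_lit 18) (nat_lit 0) [nat_lit 36, nat_lit 12] (nat_lit 0) [] false,
   Spec.mk (nat_lit 28) (nat_lit 1) [nat_lit 10, nat_lit 30] (nat_lit 0) [nat_lit 54, nat_lit 2] false,
   Spec.mk (nat_lit 30) (nat_lit 0) [nat_lit 12, nat_lit 36, nat_lit 28] (nat_lit 0) [nat_lit 4] false,
   Spec.mk (nat_lit 36) (nat_lit 1) [nat_lit 18, nat_lit 54, nat_lit 30] (nat_lit 0) [nat_lit 10] false,
   Spec.mk (nat_lit 54) (nat_lit 0) [nat_lit 36] (nat_lit 0) [nat_lit 28] false]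

noncomputable def specs : List (List Spec) :=
    sp0 :: []

noncomputable def step (e : Nat → Nat) (C ap an : Nat) (k :
    Nat → Nat → Nat → Nat → Nat → Nat → Nat → Nat → Nat → Nat → Bool)
  (
    x2 x4 x6 x10 x12 x18 x28 x30 x36 x54 : Nat) : Bool :=
  k
    (Nat.sub (Nat.sub (Nat.add (Nat.add C x4) (Nat.mul (e (nat_lit 2)) ap)) x28) (Nat.mul (e (nat_lit 2)) an))
    (Nat.sub (Nat.sub (Nat.add (Nat.add (Nat.add (Nat.add (Nat.add C x4) x10) x2) x6) (Nat.mul (e (nat_lit 4)) ap)) x30) (Nat.mul (e (nat_lit 4)) an))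
    (Nat.add (Nat.add C x12) x4)
    (Nat.sub (Nat.sub (Nat.add (Nat.add (Nat.add (Nat.add C x28) x4) x12) (Nat.mul (e (nat_lit 10)) ap)) x36) (Nat.mul (e (nat_lit 10)) an))
    (Nat.add (Nat.add (Nat.add (Nat.add (Nat.add C x12) x30) x6) x18) x10)
    (Nat.add (Nat.add C x36) x12)
    (Nat.sub (Nat.sub (Nat.add (Nat.add (Nat.add C x28) x10) x30) x54) x2)
    (Nat.sub (Nat.add (Nat.add (Nat.add C x12) x36) x28) x4)
    (Nat.sub (Nat.add (Nat.add (Nat.add (Nat.add C x36) x18) x54) x30) x10)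
    (Nat.sub (Nat.add C x36) x28)

theorem ap_eq (x : Nat → Nat) (k : FnLL specs) : apLL (fun t => x t.cd) specs k = A4_2.ap x k :=
  Eq.refl (A4_2.ap x k)

theorem step_eq0 (e : Nat → Nat) (C p r : Nat) (k : FnLL specs) (x : Nat → Nat) :
    A4_2.ap x (step e C p r k) = apLL (interp e C p r x) specs k :=
  Eq.refl (A4_2.ap x (step e C p r k))

theorem spec_ok : specOK 3 true A4_2.mask specs = true := by decide +kernel

theorem step_eq (e : Nat → Nat) (C p r : Nat) (k : A4_2.KK) (x : Nat → Nat) :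
    A4_2.ap x (step e C p r k) = A4_2.ap (row 3 true A4_2.mask e C p r x) k :=
  ((step_eq0 e C p r k x).trans (apLL_row 3 true A4_2.mask specs spec_ok e C p r x k)).trans
    (ap_eq (row 3 true A4_2.mask e C p r x) k)

end Vale.Agent.P348.G4_2_1

namespace Vale.Agent.P348.G4_3_1

noncomputable def sp0 : List Spec :=
  [Spec.mk (nat_lit 5) (nat_lit 0) [nat_lit 11, nat_lit 7] (nat_lit 0) [nat_lit 31] true,
   Spec.mk (nat_lit 7) (nat_lit 0) [nat_lit 13, nat_lit 5] (nat_lit 0) [nat_lit 33] false,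
   Spec.mk (nat_lit 11) (nat_lit 0) [nat_lit 29, nat_lit 5, nat_lit 13] (nat_lit 2) [nat_lit 37] true,
   Spec.mk (nat_lit 13) (nat_lit 0) [nat_lit 31, nat_lit 7, nat_lit 19, nat_lit 11, nat_lit 15] (nat_lit 0) [nat_lit 39] true,
   Spec.mk (nat_lit 15) (nat_lit 0) [nat_lit 33, nat_lit 21, nat_lit 13] (nat_lit 0) [] false,
   Spec.mk (nat_lit 19) (nat_lit 0) [nat_lit 37, nat_lit 13, nat_lit 21] (nat_lit 2) [nat_lit 45] false,
   Spec.mk (nat_lit 21) (nat_lit 0) [nat_lit 39, nat_lit 15, nat_lit 19] (nat_lit 0) [] false,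
   Spec.mk (nat_lit 29) (nat_lit 0) [nat_lit 11, nat_lit 31] (nat_lit 0) [nat_lit 55] false,
   Spec.mk (nat_lit 31) (nat_lit 0) [nat_lit 13, nat_lit 37, nat_lit 29, nat_lit 33] (nat_lit 0) [nat_lit 57, nat_lit 5] false,
   Spec.mk (nat_lit 33) (nat_lit 0) [nat_lit 15, nat_lit 39, nat_lit 31] (nat_lit 2) [nat_lit 7] false,
   Spec.mk (nat_lit 37) (nat_lit 0) [nat_lit 19, nat_lit 55, nat_lit 31, nat_lit 39] (nat_lit 0) [nat_lit 63, nat_lit 11] false,
   Spec.mk (nat_lit 39) (nat_lit 0) [nat_lit 21, nat_lit 57, nat_lit 33, nat_lit 45, nat_lit 37] (nat_lit 0) [nat_lit 13] false,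
   Spec.mk (nat_lit 45) (nat_lit 0) [nat_lit 63, nat_lit 39] (nat_lit 0) [nat_lit 19] false,
   Spec.mk (nat_lit 55) (nat_lit 0) [nat_lit 37, nat_lit 57] (nat_lit 0) [nat_lit 29] false,
   Spec.mk (nat_lit 57) (nat_lit 0) [nat_lit 39, nat_lit 63, nat_lit 55] (nat_lit 2) [nat_lit 31] false,
   Spec.mk (nat_lit 63) (nat_lit 0) [nat_lit 45, nat_lit 57] (nat_lit 0) [nat_lit 37] false]

noncomputable def specs : List (List Spec) :=
    sp0 :: []

noncomputable def step (e : Nat → Nat) (C ap an : Nat) (k :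
    Nat → Nat → Nat → Nat → Nat → Nat → Nat → Nat → Nat → Nat → Nat → Nat → Nat → Nat → Nat → Nat →
    Bool)
  (
    x5 x7 x11 x13 x15 x19 x21 x29 x31 x33 x37 x39 x45 x55 x57 x63 : Nat) : Bool :=
  k
    (Nat.sub (Nat.sub (Nat.add (Nat.add (Nat.add C x11) x7) (Nat.mul (e (nat_lit 5)) ap)) x31) (Nat.mul (e (nat_lit 5)) an))
    (Nat.sub (Nat.add (Nat.add C x13) x5) x33)
    (Nat.sub (Nat.sub (Nat.sub (Nat.add (Nat.add (Nat.add (Nat.add C x29) x5) x13) (Nat.mul (e (nat_lit 11)) ap)) (Nat.mul x11 (nat_lit 2))) x37) (Nat.mul (e (nat_lit 11)) an))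
    (Nat.sub (Nat.sub (Nat.add (Nat.add (Nat.add (Nat.add (Nat.add (Nat.add C x31) x7) x19) x11) x15) (Nat.mul (e (nat_lit 13)) ap)) x39) (Nat.mul (e (nat_lit 13)) an))
    (Nat.add (Nat.add (Nat.add C x33) x21) x13)
    (Nat.sub (Nat.sub (Nat.add (Nat.add (Nat.add C x37) x13) x21) (Nat.mul x19 (nat_lit 2))) x45)
    (Nat.add (Nat.add (Nat.add C x39) x15) x19) (Nat.sub (Nat.add (Nat.add C x11) x31) x55)
    (Nat.sub (Nat.sub (Nat.add (Nat.add (Nat.add (Nat.add C x13) x37) x29) x33) x57) x5)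
    (Nat.sub (Nat.sub (Nat.add (Nat.add (Nat.add C x15) x39) x31) (Nat.mul x33 (nat_lit 2))) x7)
    (Nat.sub (Nat.sub (Nat.add (Nat.add (Nat.add (Nat.add C x19) x55) x31) x39) x63) x11)
    (Nat.sub (Nat.add (Nat.add (Nat.add (Nat.add (Nat.add C x21) x57) x33) x45) x37) x13)
    (Nat.sub (Nat.add (Nat.add C x63) x39) x19) (Nat.sub (Nat.add (Nat.add C x37) x57) x29)
    (Nat.sub (Nat.sub (Nat.add (Nat.add (Nat.add C x39) x63) x55) (Nat.mul x57 (nat_lit 2))) x31)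
    (Nat.sub (Nat.add (Nat.add C x45) x57) x37)

theorem ap_eq (x : Nat → Nat) (k : FnLL specs) : apLL (fun t => x t.cd) specs k = A4_3.ap x k :=
  Eq.refl (A4_3.ap x k)

theorem step_eq0 (e : Nat → Nat) (C p r : Nat) (k : FnLL specs) (x : Nat → Nat) :
    A4_3.ap x (step e C p r k) = apLL (interp e C p r x) specs k :=
  Eq.refl (A4_3.ap x (step e C p r k))

theorem spec_ok : specOK 3 true A4_3.mask specs = true := by decide +kernel

theorem step_eq (e : Nat → Nat) (C p r : Nat) (k : A4_3.KK) (x : Nat → Nat) :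
    A4_3.ap x (step e C p r k) = A4_3.ap (row 3 true A4_3.mask e C p r x) k :=
  ((step_eq0 e C p r k x).trans (apLL_row 3 true A4_3.mask specs spec_ok e C p r x k)).trans
    (ap_eq (row 3 true A4_3.mask e C p r x) k)

end Vale.Agent.P348.G4_3_1

namespace Vale.Agent.P348.G4_4_1

noncomputable def sp0 : List Spec :=
  [Spec.mk (nat_lit 8) (nat_lit 0) [nat_lit 14] (nat_lit 0) [nat_lit 34] true,
   Spec.mk (nat_lit 14) (nat_lit 0) [nat_lit 32, nat_lit 8, nat_lit 20, nat_lit 16] (nat_lit 1) [nat_lit 40] true,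
   Spec.mk (nat_lit 16) (nat_lit 0) [nat_lit 34, nat_lit 22, nat_lit 14] (nat_lit 0) [nat_lit 42] true,
   Spec.mk (nat_lit 20) (nat_lit 0) [nat_lit 38, nat_lit 14, nat_lit 22] (nat_lit 4) [nat_lit 46] true,
   Spec.mk (nat_lit 22) (nat_lit 0) [nat_lit 40, nat_lit 16, nat_lit 20, nat_lit 24] (nat_lit 1) [nat_lit 48] false,
   Spec.mk (nat_lit 24) (nat_lit 0) [nat_lit 42, nat_lit 22] (nat_lit 0) [] false,
   Spec.mk (nat_lit 32) (nat_lit 0) [nat_lit 14, nat_lit 38, nat_lit 34] (nat_lit 0) [nat_lit 58] false,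
   Spec.mk (nat_lit 34) (nat_lit 0) [nat_lit 16, nat_lit 40, nat_lit 32] (nat_lit 1) [nat_lit 60, nat_lit 8] false,
   Spec.mk (nat_lit 38) (nat_lit 0) [nat_lit 20, nat_lit 56, nat_lit 32, nat_lit 40] (nat_lit 1) [nat_lit 64] false,
   Spec.mk (nat_lit 40) (nat_lit 0) [nat_lit 22, nat_lit 58, nat_lit 34, nat_lit 46, nat_lit 38, nat_lit 42] (nat_lit 0) [nat_lit 66, nat_lit 14] true,
   Spec.mk (nat_lit 42) (nat_lit 0) [nat_lit 24, nat_lit 60, nat_lit 48, nat_lit 40] (nat_lit 1) [nat_lit 16] false,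
   Spec.mk (nat_lit 46) (nat_lit 0) [nat_lit 64, nat_lit 40, nat_lit 48] (nat_lit 1) [nat_lit 72, nat_lit 20] false,
   Spec.mk (nat_lit 48) (nat_lit 0) [nat_lit 66, nat_lit 42, nat_lit 46] (nat_lit 0) [nat_lit 22] false,
   Spec.mk (nat_lit 56) (nat_lit 0) [nat_lit 38, nat_lit 58] (nat_lit 0) [] false,
   Spec.mk (nat_lit 58) (nat_lit 0) [nat_lit 40, nat_lit 64, nat_lit 56, nat_lit 60] (nat_lit 1) [nat_lit 32] false,
   Spec.mk (nat_lit 60) (nat_lit 0) [nat_lit 42, nat_lit 66, nat_lit 58] (nat_lit 4) [nat_lit 34] false,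
   Spec.mk (nat_lit 64) (nat_lit 0) [nat_lit 46, nat_lit 58, nat_lit 66] (nat_lit 0) [nat_lit 38] false,
   Spec.mk (nat_lit 66) (nat_lit 0) [nat_lit 48, nat_lit 60, nat_lit 72, nat_lit 64] (nat_lit 1) [nat_lit 40] false,
   Spec.mk (nat_lit 72) (nat_lit 0) [nat_lit 66] (nat_lit 0) [nat_lit 46] false]

noncomputable def specs : List (List Spec) :=
    sp0 :: []

noncomputable def step (e : Nat → Nat) (C ap an : Nat) (k :
    Nat → Nat → Nat → Nat → Nat → Nat → Nat → Nat → Nat → Nat → Nat → Nat → Nat → Nat → Nat → Nat →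
    Nat → Nat → Nat → Bool)
  (
    x8 x14 x16 x20 x22 x24 x32 x34 x38 x40 x42 x46 x48 x56 x58 x60 x64 x66 x72 : Nat) : Bool :=
  k
    (Nat.sub (Nat.sub (Nat.add (Nat.add C x14) (Nat.mul (e (nat_lit 8)) ap)) x34) (Nat.mul (e (nat_lit 8)) an))
    (Nat.sub (Nat.sub (Nat.sub (Nat.add (Nat.add (Nat.add (Nat.add (Nat.add C x32) x8) x20) x16) (Nat.mul (e (nat_lit 14)) ap)) x14) x40) (Nat.mul (e (nat_lit 14)) an))
    (Nat.sub (Nat.sub (Nat.add (Nat.add (Nat.add (Nat.add C x34) x22) x14) (Nat.mul (e (nat_lit 16)) ap)) x42) (Nat.mul (e (nat_lit 16)) an))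
    (Nat.sub (Nat.sub (Nat.sub (Nat.add (Nat.add (Nat.add (Nat.add C x38) x14) x22) (Nat.mul (e (nat_lit 20)) ap)) (Nat.mul x20 (nat_lit 4))) x46) (Nat.mul (e (nat_lit 20)) an))
    (Nat.sub (Nat.sub (Nat.add (Nat.add (Nat.add (Nat.add C x40) x16) x20) x24) x22) x48)
    (Nat.add (Nat.add C x42) x22) (Nat.sub (Nat.add (Nat.add (Nat.add C x14) x38) x34) x58)
    (Nat.sub (Nat.sub (Nat.sub (Nat.add (Nat.add (Nat.add C x16) x40) x32) x34) x60) x8)
    (Nat.sub (Nat.sub (Nat.add (Nat.add (Nat.add (Nat.add C x20) x56) x32) x40) x38) x64)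
    (Nat.sub (Nat.sub (Nat.sub (Nat.add (Nat.add (Nat.add (Nat.add (Nat.add (Nat.add (Nat.add C x22) x58) x34) x46) x38) x42) (Nat.mul (e (nat_lit 40)) ap)) x66) x14) (Nat.mul (e (nat_lit 40)) an))
    (Nat.sub (Nat.sub (Nat.add (Nat.add (Nat.add (Nat.add C x24) x60) x48) x40) x42) x16)
    (Nat.sub (Nat.sub (Nat.sub (Nat.add (Nat.add (Nat.add C x64) x40) x48) x46) x72) x20)
    (Nat.sub (Nat.add (Nat.add (Nat.add C x66) x42) x46) x22) (Nat.add (Nat.add C x38) x58)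
    (Nat.sub (Nat.sub (Nat.add (Nat.add (Nat.add (Nat.add C x40) x64) x56) x60) x58) x32)
    (Nat.sub (Nat.sub (Nat.add (Nat.add (Nat.add C x42) x66) x58) (Nat.mul x60 (nat_lit 4))) x34)
    (Nat.sub (Nat.add (Nat.add (Nat.add C x46) x58) x66) x38)
    (Nat.sub (Nat.sub (Nat.add (Nat.add (Nat.add (Nat.add C x48) x60) x72) x64) x66) x40)
    (Nat.sub (Nat.add C x66) x46)

theorem ap_eq (x : Nat → Nat) (k : FnLL specs) : apLL (fun t => x t.cd) specs k = A4_4.ap x k :=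
  Eq.refl (A4_4.ap x k)

theorem step_eq0 (e : Nat → Nat) (C p r : Nat) (k : FnLL specs) (x : Nat → Nat) :
    A4_4.ap x (step e C p r k) = apLL (interp e C p r x) specs k :=
  Eq.refl (A4_4.ap x (step e C p r k))

theorem spec_ok : specOK 3 true A4_4.mask specs = true := by decide +kernel

theorem step_eq (e : Nat → Nat) (C p r : Nat) (k : A4_4.KK) (x : Nat → Nat) :
    A4_4.ap x (step e C p r k) = A4_4.ap (row 3 true A4_4.mask e C p r x) k :=
  ((step_eq0 e C p r k x).trans (apLL_row 3 true A4_4.mask specs spec_ok e C p r x k)).trans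
    (ap_eq (row 3 true A4_4.mask e C p r x) k)

end Vale.Agent.P348.G4_4_1
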