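import Vale.Agent.P348.G.AS5

set_option maxRecDepth 1000000
set_option maxHeartbeats 0
set_option linter.all false

namespace Vale.Agent.P348.G5_0_0

noncomputable def sp0 : List Spec :=
  [Spec.mk (nat_lit 0) (nat_lit 5) [] (nat_lit 0) [] true]

noncomputable def specs : List (List Spec) :=
    sp0 :: []

noncomputable def step (e : Nat → Nat) (C ap an : Nat) (k :
    Nat → Bool)
  (
    x0 : Nat) : Bool :=
  k
    (Nat.sub (Nat.add (Nat.add C (Nat.mul x0 (nat_lit 5))) (Nat.mul (e (nat_lit 0)) ap)) (Nat.mul (e (nat_lit 0)) an))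

theorem ap_eq (x : Nat → Nat) (k : FnLL specs) : apLL (fun t => x t.cd) specs k = A5_0.ap x k :=
  Eq.refl (A5_0.ap x k)

theorem step_eq0 (e : Nat → Nat) (C p r : Nat) (k : FnLL specs) (x : Nat → Nat) :
    A5_0.ap x (step e C p r k) = apLL (interp e C p r x) specs k :=
  Eq.refl (A5_0.ap x (step e C p r k))

theorem spec_ok : specOK 4 false A5_0.mask specs = true := by decide +kernel

theorem step_eq (e : Nat → Nat) (C p r : Nat) (k : A5_0.KK) (x : Nat → Nat) :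
    A5_0.ap x (step e C p r k) = A5_0.ap (row 4 false A5_0.mask e C p r x) k :=
  ((step_eq0 e C p r k x).trans (apLL_row 4 false A5_0.mask specs spec_ok e C p r x k)).trans
    (ap_eq (row 4 false A5_0.mask e C p r x) k)

end Vale.Agent.P348.G5_0_0

namespace Vale.Agent.P348.G5_1_0

noncomputable def sp0 : List Spec :=
  [Spec.mk (nat_lit 1) (nat_lit 3) [nat_lit 3, nat_lit 81] (nat_lit 0) [] true,
   Spec.mk (nat_lit 3) (nat_lit 3) [nat_lit 9, nat_lit 1] (nat_lit 0) [] false,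
   Spec.mk (nat_lit 9) (nat_lit 3) [nat_lit 27, nat_lit 3] (nat_lit 0) [] false,
   Spec.mk (nat_lit 27) (nat_lit 3) [nat_lit 81, nat_lit 9] (nat_lit 0) [] false,
   Spec.mk (nat_lit 81) (nat_lit 3) [nat_lit 27, nat_lit 1] (nat_lit 0) [] false]

noncomputable def specs : List (List Spec) :=
    sp0 :: []

noncomputable def step (e : Nat → Nat) (C ap an : Nat) (k :
    Nat → Nat → Nat → Nat → Nat → Bool)
  (
    x1 x3 x9 x27 x81 : Nat) : Bool :=
  k
    (Nat.sub (Nat.add (Nat.add (Nat.add (Nat.add C (Nat.mul x1 (nat_lit 3))) x3) x81) (Nat.mul (e (nat_lit 1)) ap)) (Nat.mul (e (nat_lit 1)) an))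
    (Nat.add (Nat.add (Nat.add C (Nat.mul x3 (nat_lit 3))) x9) x1)
    (Nat.add (Nat.add (Nat.add C (Nat.mul x9 (nat_lit 3))) x27) x3)
    (Nat.add (Nat.add (Nat.add C (Nat.mul x27 (nat_lit 3))) x81) x9)
    (Nat.add (Nat.add (Nat.add C (Nat.mul x81 (nat_lit 3))) x27) x1)

theorem ap_eq (x : Nat → Nat) (k : FnLL specs) : apLL (fun t => x t.cd) specs k = A5_1.ap x k :=
  Eq.refl (A5_1.ap x k)

theorem step_eq0 (e : Nat → Nat) (C p r : Nat) (k : FnLL specs) (x : Nat → Nat) :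
    A5_1.ap x (step e C p r k) = apLL (interp e C p r x) specs k :=
  Eq.refl (A5_1.ap x (step e C p r k))

theorem spec_ok : specOK 4 false A5_1.mask specs = true := by decide +kernel

theorem step_eq (e : Nat → Nat) (C p r : Nat) (k : A5_1.KK) (x : Nat → Nat) :
    A5_1.ap x (step e C p r k) = A5_1.ap (row 4 false A5_1.mask e C p r x) k :=
  ((step_eq0 e C p r k x).trans (apLL_row 4 false A5_1.mask specs spec_ok e C p r x k)).trans
    (ap_eq (row 4 false A5_1.mask e C p r x) k)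

end Vale.Agent.P348.G5_1_0

namespace Vale.Agent.P348.G5_2_0

noncomputable def sp0 : List Spec :=
  [Spec.mk (nat_lit 2) (nat_lit 1) [nat_lit 4, nat_lit 82] (nat_lit 0) [] true,
   Spec.mk (nat_lit 4) (nat_lit 2) [nat_lit 10, nat_lit 2, nat_lit 6, nat_lit 84] (nat_lit 0) [] true,
   Spec.mk (nat_lit 6) (nat_lit 1) [nat_lit 12, nat_lit 4] (nat_lit 0) [] false,
   Spec.mk (nat_lit 10) (nat_lit 1) [nat_lit 28, nat_lit 4, nat_lit 12, nat_lit 90] (nat_lit 0) [] true,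
   Spec.mk (nat_lit 12) (nat_lit 2) [nat_lit 30, nat_lit 6, nat_lit 18, nat_lit 10] (nat_lit 0) [] false,
   Spec.mk (nat_lit 18) (nat_lit 1) [nat_lit 36, nat_lit 12] (nat_lit 0) [] false,
   Spec.mk (nat_lit 28) (nat_lit 1) [nat_lit 82, nat_lit 10, nat_lit 30, nat_lit 108] (nat_lit 0) [] false,
   Spec.mk (nat_lit 30) (nat_lit 1) [nat_lit 84, nat_lit 12, nat_lit 36, nat_lit 28] (nat_lit 0) [] false,
   Spec.mk (nat_lit 36) (nat_lit 2) [nat_lit 90, nat_lit 18, nat_lit 54, nat_lit 30] (nat_lit 0) [] false,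
   Spec.mk (nat_lit 54) (nat_lit 1) [nat_lit 108, nat_lit 36] (nat_lit 0) [] false,
   Spec.mk (nat_lit 82) (nat_lit 2) [nat_lit 28, nat_lit 84, nat_lit 162, nat_lit 2] (nat_lit 0) [] false,
   Spec.mk (nat_lit 84) (nat_lit 1) [nat_lit 30, nat_lit 90, nat_lit 82, nat_lit 4] (nat_lit 0) [] false,
   Spec.mk (nat_lit 90) (nat_lit 1) [nat_lit 36, nat_lit 108, nat_lit 84, nat_lit 10] (nat_lit 0) [] false,
   Spec.mk (nat_lit 108) (nat_lit 2) [nat_lit 54, nat_lit 162, nat_lit 90, nat_lit 28] (nat_lit 0) [] false,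
   Spec.mk (nat_lit 162) (nat_lit 1) [nat_lit 108, nat_lit 82] (nat_lit 0) [] false]

noncomputable def specs : List (List Spec) :=
    sp0 :: []

noncomputable def step (e : Nat → Nat) (C ap an : Nat) (k :
    Nat → Nat → Nat → Nat → Nat → Nat → Nat → Nat → Nat → Nat → Nat → Nat → Nat → Nat → Nat → Bool)
  (
    x2 x4 x6 x10 x12 x18 x28 x30 x36 x54 x82 x84 x90 x108 x162 : Nat) : Bool :=
  k
    (Nat.sub (Nat.add (Nat.add (Nat.add (Nat.add C x2) x4) x82) (Nat.mul (e (nat_lit 2)) ap)) (Nat.mul (e (nat_lit 2)) an))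
    (Nat.sub (Nat.add (Nat.add (Nat.add (Nat.add (Nat.add (Nat.add C (Nat.mul x4 (nat_lit 2))) x10) x2) x6) x84) (Nat.mul (e (nat_lit 4)) ap)) (Nat.mul (e (nat_lit 4)) an))
    (Nat.add (Nat.add (Nat.add C x6) x12) x4)
    (Nat.sub (Nat.add (Nat.add (Nat.add (Nat.add (Nat.add (Nat.add C x10) x28) x4) x12) x90) (Nat.mul (e (nat_lit 10)) ap)) (Nat.mul (e (nat_lit 10)) an))
    (Nat.add (Nat.add (Nat.add (Nat.add (Nat.add C (Nat.mul x12 (nat_lit 2))) x30) x6) x18) x10)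
    (Nat.add (Nat.add (Nat.add C x18) x36) x12)
    (Nat.add (Nat.add (Nat.add (Nat.add (Nat.add C x28) x82) x10) x30) x108)
    (Nat.add (Nat.add (Nat.add (Nat.add (Nat.add C x30) x84) x12) x36) x28)
    (Nat.add (Nat.add (Nat.add (Nat.add (Nat.add C (Nat.mul x36 (nat_lit 2))) x90) x18) x54) x30)
    (Nat.add (Nat.add (Nat.add C x54) x108) x36)
    (Nat.add (Nat.add (Nat.add (Nat.add (Nat.add C (Nat.mul x82 (nat_lit 2))) x28) x84) x162) x2)
    (Nat.add (Nat.add (Nat.add (Nat.add (Nat.add C x84) x30) x90) x82) x4)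
    (Nat.add (Nat.add (Nat.add (Nat.add (Nat.add C x90) x36) x108) x84) x10)
    (Nat.add (Nat.add (Nat.add (Nat.add (Nat.add C (Nat.mul x108 (nat_lit 2))) x54) x162) x90) x28)
    (Nat.add (Nat.add (Nat.add C x162) x108) x82)

theorem ap_eq (x : Nat → Nat) (k : FnLL specs) : apLL (fun t => x t.cd) specs k = A5_2.ap x k :=
  Eq.refl (A5_2.ap x k)

theorem step_eq0 (e : Nat → Nat) (C p r : Nat) (k : FnLL specs) (x : Nat → Nat) :
    A5_2.ap x (step e C p r k) = apLL (interp e C p r x) specs k :=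
  Eq.refl (A5_2.ap x (step e C p r k))

theorem spec_ok : specOK 4 false A5_2.mask specs = true := by decide +kernel

theorem step_eq (e : Nat → Nat) (C p r : Nat) (k : A5_2.KK) (x : Nat → Nat) :
    A5_2.ap x (step e C p r k) = A5_2.ap (row 4 false A5_2.mask e C p r x) k :=
  ((step_eq0 e C p r k x).trans (apLL_row 4 false A5_2.mask specs spec_ok e C p r x k)).trans
    (ap_eq (row 4 false A5_2.mask e C p r x) k)

end Vale.Agent.P348.G5_2_0

namespace Vale.Agent.P348.G5_3_0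

noncomputable def sp0 : List Spec :=
  [Spec.mk (nat_lit 5) (nat_lit 1) [nat_lit 11, nat_lit 7, nat_lit 85] (nat_lit 0) [] true,
   Spec.mk (nat_lit 7) (nat_lit 1) [nat_lit 13, nat_lit 5, nat_lit 87] (nat_lit 0) [] false,
   Spec.mk (nat_lit 11) (nat_lit 0) [nat_lit 29, nat_lit 5, nat_lit 13, nat_lit 91] (nat_lit 1) [] true,
   Spec.mk (nat_lit 13) (nat_lit 1) [nat_lit 31, nat_lit 7, nat_lit 19, nat_lit 11, nat_lit 15, nat_lit 93] (nat_lit 0) [] true,
   Spec.mk (nat_lit 15) (nat_lit 1) [nat_lit 33, nat_lit 21, nat_lit 13] (nat_lit 0) [] false,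
   Spec.mk (nat_lit 19) (nat_lit 0) [nat_lit 37, nat_lit 13, nat_lit 21, nat_lit 99] (nat_lit 1) [] false,
   Spec.mk (nat_lit 21) (nat_lit 1) [nat_lit 39, nat_lit 15, nat_lit 19] (nat_lit 0) [] false,
   Spec.mk (nat_lit 29) (nat_lit 0) [nat_lit 83, nat_lit 11, nat_lit 31, nat_lit 109] (nat_lit 1) [] false,
   Spec.mk (nat_lit 31) (nat_lit 0) [nat_lit 85, nat_lit 13, nat_lit 37, nat_lit 29, nat_lit 33, nat_lit 111] (nat_lit 0) [] true,
   Spec.mk (nat_lit 33) (nat_lit 0) [nat_lit 87, nat_lit 15, nat_lit 39, nat_lit 31] (nat_lit 1) [] false,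
   Spec.mk (nat_lit 37) (nat_lit 0) [nat_lit 91, nat_lit 19, nat_lit 55, nat_lit 31, nat_lit 39, nat_lit 117] (nat_lit 0) [] false,
   Spec.mk (nat_lit 39) (nat_lit 1) [nat_lit 93, nat_lit 21, nat_lit 57, nat_lit 33, nat_lit 45, nat_lit 37] (nat_lit 0) [] false,
   Spec.mk (nat_lit 45) (nat_lit 1) [nat_lit 99, nat_lit 63, nat_lit 39] (nat_lit 0) [] false,
   Spec.mk (nat_lit 55) (nat_lit 0) [nat_lit 109, nat_lit 37, nat_lit 57, nat_lit 135] (nat_lit 1) [] false,
   Spec.mk (nat_lit 57) (nat_lit 0) [nat_lit 111, nat_lit 39, nat_lit 63, nat_lit 55] (nat_lit 1) [] false,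
   Spec.mk (nat_lit 63) (nat_lit 1) [nat_lit 117, nat_lit 45, nat_lit 57] (nat_lit 0) [] false,
   Spec.mk (nat_lit 83) (nat_lit 1) [nat_lit 29, nat_lit 85, nat_lit 163] (nat_lit 0) [] false,
   Spec.mk (nat_lit 85) (nat_lit 1) [nat_lit 31, nat_lit 91, nat_lit 83, nat_lit 87, nat_lit 165, nat_lit 5] (nat_lit 0) [] false,
   Spec.mk (nat_lit 87) (nat_lit 0) [nat_lit 33, nat_lit 93, nat_lit 85, nat_lit 7] (nat_lit 1) [] false,
   Spec.mk (nat_lit 91) (nat_lit 0) [nat_lit 37, nat_lit 109, nat_lit 85, nat_lit 93, nat_lit 171, nat_lit 11] (nat_lit 0) [] false,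
   Spec.mk (nat_lit 93) (nat_lit 0) [nat_lit 39, nat_lit 111, nat_lit 87, nat_lit 99, nat_lit 91, nat_lit 13] (nat_lit 0) [] false,
   Spec.mk (nat_lit 99) (nat_lit 0) [nat_lit 45, nat_lit 117, nat_lit 93, nat_lit 19] (nat_lit 1) [] false,
   Spec.mk (nat_lit 109) (nat_lit 1) [nat_lit 55, nat_lit 163, nat_lit 91, nat_lit 111, nat_lit 189, nat_lit 29] (nat_lit 0) [] false,
   Spec.mk (nat_lit 111) (nat_lit 0) [nat_lit 57, nat_lit 165, nat_lit 93, nat_lit 117, nat_lit 109, nat_lit 31] (nat_lit 0) [] false,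
   Spec.mk (nat_lit 117) (nat_lit 1) [nat_lit 63, nat_lit 171, nat_lit 99, nat_lit 135, nat_lit 111, nat_lit 37] (nat_lit 0) [] false,
   Spec.mk (nat_lit 135) (nat_lit 1) [nat_lit 189, nat_lit 117, nat_lit 55] (nat_lit 0) [] false,
   Spec.mk (nat_lit 163) (nat_lit 1) [nat_lit 109, nat_lit 165, nat_lit 83] (nat_lit 0) [] false,
   Spec.mk (nat_lit 165) (nat_lit 0) [nat_lit 111, nat_lit 171, nat_lit 163, nat_lit 85] (nat_lit 1) [] false,
   Spec.mk (nat_lit 171) (nat_lit 0) [nat_lit 117, nat_lit 189, nat_lit 165, nat_lit 91] (nat_lit 1) [] false,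
   Spec.mk (nat_lit 189) (nat_lit 1) [nat_lit 135, nat_lit 171, nat_lit 109] (nat_lit 0) [] false]

noncomputable def specs : List (List Spec) :=
    sp0 :: []

noncomputable def step (e : Nat → Nat) (C ap an : Nat) (k :
    Nat → Nat → Nat → Nat → Nat → Nat → Nat → Nat → Nat → Nat → Nat → Nat → Nat → Nat → Nat → Nat →
    Nat → Nat → Nat → Nat → Nat → Nat → Nat → Nat → Nat → Nat → Nat → Nat → Nat → Nat → Bool)
  (
    x5 x7 x11 x13 x15 x19 x21 x29 x31 x33 x37 x39 x45 x55 x57 x63 x83 x85 x87 x91 x93 x99 x109 x111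
    x117 x135 x163 x165 x171 x189 : Nat) : Bool :=
  k
    (Nat.sub (Nat.add (Nat.add (Nat.add (Nat.add (Nat.add C x5) x11) x7) x85) (Nat.mul (e (nat_lit 5)) ap)) (Nat.mul (e (nat_lit 5)) an))
    (Nat.add (Nat.add (Nat.add (Nat.add C x7) x13) x5) x87)
    (Nat.sub (Nat.sub (Nat.add (Nat.add (Nat.add (Nat.add (Nat.add C x29) x5) x13) x91) (Nat.mul (e (nat_lit 11)) ap)) x11) (Nat.mul (e (nat_lit 11)) an))
    (Nat.sub (Nat.add (Nat.add (Nat.add (Nat.add (Nat.add (Nat.add (Nat.add (Nat.add C x13) x31) x7) x19) x11) x15) x93) (Nat.mul (e (nat_lit 13)) ap)) (Nat.mul (e (nat_lit 13)) an))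
    (Nat.add (Nat.add (Nat.add (Nat.add C x15) x33) x21) x13)
    (Nat.sub (Nat.add (Nat.add (Nat.add (Nat.add C x37) x13) x21) x99) x19)
    (Nat.add (Nat.add (Nat.add (Nat.add C x21) x39) x15) x19)
    (Nat.sub (Nat.add (Nat.add (Nat.add (Nat.add C x83) x11) x31) x109) x29)
    (Nat.sub (Nat.add (Nat.add (Nat.add (Nat.add (Nat.add (Nat.add (Nat.add C x85) x13) x37) x29) x33) x111) (Nat.mul (e (nat_lit 31)) ap)) (Nat.mul (e (nat_lit 31)) an))
    (Nat.sub (Nat.add (Nat.add (Nat.add (Nat.add C x87) x15) x39) x31) x33)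
    (Nat.add (Nat.add (Nat.add (Nat.add (Nat.add (Nat.add C x91) x19) x55) x31) x39) x117)
    (Nat.add (Nat.add (Nat.add (Nat.add (Nat.add (Nat.add (Nat.add C x39) x93) x21) x57) x33) x45) x37)
    (Nat.add (Nat.add (Nat.add (Nat.add C x45) x99) x63) x39)
    (Nat.sub (Nat.add (Nat.add (Nat.add (Nat.add C x109) x37) x57) x135) x55)
    (Nat.sub (Nat.add (Nat.add (Nat.add (Nat.add C x111) x39) x63) x55) x57)
    (Nat.add (Nat.add (Nat.add (Nat.add C x63) x117) x45) x57)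
    (Nat.add (Nat.add (Nat.add (Nat.add C x83) x29) x85) x163)
    (Nat.add (Nat.add (Nat.add (Nat.add (Nat.add (Nat.add (Nat.add C x85) x31) x91) x83) x87) x165) x5)
    (Nat.sub (Nat.add (Nat.add (Nat.add (Nat.add C x33) x93) x85) x7) x87)
    (Nat.add (Nat.add (Nat.add (Nat.add (Nat.add (Nat.add C x37) x109) x85) x93) x171) x11)
    (Nat.add (Nat.add (Nat.add (Nat.add (Nat.add (Nat.add C x39) x111) x87) x99) x91) x13)
    (Nat.sub (Nat.add (Nat.add (Nat.add (Nat.add C x45) x117) x93) x19) x99)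
    (Nat.add (Nat.add (Nat.add (Nat.add (Nat.add (Nat.add (Nat.add C x109) x55) x163) x91) x111) x189) x29)
    (Nat.add (Nat.add (Nat.add (Nat.add (Nat.add (Nat.add C x57) x165) x93) x117) x109) x31)
    (Nat.add (Nat.add (Nat.add (Nat.add (Nat.add (Nat.add (Nat.add C x117) x63) x171) x99) x135) x111) x37)
    (Nat.add (Nat.add (Nat.add (Nat.add C x135) x189) x117) x55)
    (Nat.add (Nat.add (Nat.add (Nat.add C x163) x109) x165) x83)
    (Nat.sub (Nat.add (Nat.add (Nat.add (Nat.add C x111) x171) x163) x85) x165)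
    (Nat.sub (Nat.add (Nat.add (Nat.add (Nat.add C x117) x189) x165) x91) x171)
    (Nat.add (Nat.add (Nat.add (Nat.add C x189) x135) x171) x109)

theorem ap_eq (x : Nat → Nat) (k : FnLL specs) : apLL (fun t => x t.cd) specs k = A5_3.ap x k :=
  Eq.refl (A5_3.ap x k)

theorem step_eq0 (e : Nat → Nat) (C p r : Nat) (k : FnLL specs) (x : Nat → Nat) :
    A5_3.ap x (step e C p r k) = apLL (interp e C p r x) specs k :=
  Eq.refl (A5_3.ap x (step e C p r k))

theorem spec_ok : specOK 4 false A5_3.mask specs = true := by decide +kernel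

theorem step_eq (e : Nat → Nat) (C p r : Nat) (k : A5_3.KK) (x : Nat → Nat) :
    A5_3.ap x (step e C p r k) = A5_3.ap (row 4 false A5_3.mask e C p r x) k :=
  ((step_eq0 e C p r k x).trans (apLL_row 4 false A5_3.mask specs spec_ok e C p r x k)).trans
    (ap_eq (row 4 false A5_3.mask e C p r x) k)

end Vale.Agent.P348.G5_3_0

namespace Vale.Agent.P348.G5_4_0

noncomputable def sp0 : List Spec :=
  [Spec.mk (nat_lit 8) (nat_lit 1) [nat_lit 14, nat_lit 88] (nat_lit 0) [] true,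
   Spec.mk (nat_lit 14) (nat_lit 0) [nat_lit 32, nat_lit 8, nat_lit 20, nat_lit 16, nat_lit 94] (nat_lit 0) [] true,
   Spec.mk (nat_lit 16) (nat_lit 1) [nat_lit 34, nat_lit 22, nat_lit 14, nat_lit 96] (nat_lit 0) [] true,
   Spec.mk (nat_lit 20) (nat_lit 0) [nat_lit 38, nat_lit 14, nat_lit 22, nat_lit 100] (nat_lit 3) [] true,
   Spec.mk (nat_lit 22) (nat_lit 0) [nat_lit 40, nat_lit 16, nat_lit 20, nat_lit 24, nat_lit 102] (nat_lit 0) [] false,
   Spec.mk (nat_lit 24) (nat_lit 1) [nat_lit 42, nat_lit 22] (nat_lit 0) [] false,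
   Spec.mk (nat_lit 32) (nat_lit 0) [nat_lit 86, nat_lit 14, nat_lit 38, nat_lit 34, nat_lit 112] (nat_lit 1) [] true,
   Spec.mk (nat_lit 34) (nat_lit 0) [nat_lit 88, nat_lit 16, nat_lit 40, nat_lit 32, nat_lit 114] (nat_lit 1) [] false,
   Spec.mk (nat_lit 38) (nat_lit 0) [nat_lit 92, nat_lit 20, nat_lit 56, nat_lit 32, nat_lit 40, nat_lit 118] (nat_lit 2) [] true,
   Spec.mk (nat_lit 40) (nat_lit 0) [nat_lit 94, nat_lit 22, nat_lit 58, nat_lit 34, nat_lit 46, nat_lit 38, nat_lit 42, nat_lit 120] (nat_lit 0) [] true,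
   Spec.mk (nat_lit 42) (nat_lit 0) [nat_lit 96, nat_lit 24, nat_lit 60, nat_lit 48, nat_lit 40] (nat_lit 0) [] false,
   Spec.mk (nat_lit 46) (nat_lit 0) [nat_lit 100, nat_lit 64, nat_lit 40, nat_lit 48, nat_lit 126] (nat_lit 1) [] false,
   Spec.mk (nat_lit 48) (nat_lit 1) [nat_lit 102, nat_lit 66, nat_lit 42, nat_lit 46] (nat_lit 0) [] false,
   Spec.mk (nat_lit 56) (nat_lit 0) [nat_lit 110, nat_lit 38, nat_lit 58, nat_lit 136] (nat_lit 3) [] false,
   Spec.mk (nat_lit 58) (nat_lit 0) [nat_lit 112, nat_lit 40, nat_lit 64, nat_lit 56, nat_lit 60, nat_lit 138] (nat_lit 2) [] false,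
   Spec.mk (nat_lit 60) (nat_lit 0) [nat_lit 114, nat_lit 42, nat_lit 66, nat_lit 58] (nat_lit 3) [] false,
   Spec.mk (nat_lit 64) (nat_lit 0) [nat_lit 118, nat_lit 46, nat_lit 58, nat_lit 66, nat_lit 144] (nat_lit 1) [] false,
   Spec.mk (nat_lit 66) (nat_lit 0) [nat_lit 120, nat_lit 48, nat_lit 60, nat_lit 72, nat_lit 64] (nat_lit 0) [] false,
   Spec.mk (nat_lit 72) (nat_lit 1) [nat_lit 126, nat_lit 66] (nat_lit 0) [] false,
   Spec.mk (nat_lit 86) (nat_lit 1) [nat_lit 32, nat_lit 92, nat_lit 88, nat_lit 166] (nat_lit 0) [] false,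
   Spec.mk (nat_lit 88) (nat_lit 0) [nat_lit 34, nat_lit 94, nat_lit 86, nat_lit 168, nat_lit 8] (nat_lit 0) [] false,
   Spec.mk (nat_lit 92) (nat_lit 0) [nat_lit 38, nat_lit 110, nat_lit 86, nat_lit 94, nat_lit 172] (nat_lit 1) [] false,
   Spec.mk (nat_lit 94) (nat_lit 0) [nat_lit 40, nat_lit 112, nat_lit 88, nat_lit 100, nat_lit 92, nat_lit 96, nat_lit 174, nat_lit 14] (nat_lit 0) [] false,
   Spec.mk (nat_lit 96) (nat_lit 0) [nat_lit 42, nat_lit 114, nat_lit 102, nat_lit 94, nat_lit 16] (nat_lit 1) [] false,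
   Spec.mk (nat_lit 100) (nat_lit 0) [nat_lit 46, nat_lit 118, nat_lit 94, nat_lit 102, nat_lit 180, nat_lit 20] (nat_lit 2) [] false,
   Spec.mk (nat_lit 102) (nat_lit 0) [nat_lit 48, nat_lit 120, nat_lit 96, nat_lit 100, nat_lit 22] (nat_lit 1) [] false,
   Spec.mk (nat_lit 110) (nat_lit 0) [nat_lit 56, nat_lit 164, nat_lit 92, nat_lit 112, nat_lit 190] (nat_lit 0) [] false,
   Spec.mk (nat_lit 112) (nat_lit 0) [nat_lit 58, nat_lit 166, nat_lit 94, nat_lit 118, nat_lit 110, nat_lit 114, nat_lit 192, nat_lit 32] (nat_lit 0) [] false,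
   Spec.mk (nat_lit 114) (nat_lit 0) [nat_lit 60, nat_lit 168, nat_lit 96, nat_lit 120, nat_lit 112, nat_lit 34] (nat_lit 2) [] false,
   Spec.mk (nat_lit 118) (nat_lit 0) [nat_lit 64, nat_lit 172, nat_lit 100, nat_lit 136, nat_lit 112, nat_lit 120, nat_lit 198, nat_lit 38] (nat_lit 0) [] false,
   Spec.mk (nat_lit 120) (nat_lit 0) [nat_lit 66, nat_lit 174, nat_lit 102, nat_lit 138, nat_lit 114, nat_lit 126, nat_lit 118, nat_lit 40] (nat_lit 0) [] false,
   Spec.mk (nat_lit 126) (nat_lit 0) [nat_lit 72, nat_lit 180, nat_lit 144, nat_lit 120, nat_lit 46] (nat_lit 0) [] false,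
   Spec.mk (nat_lit 136) (nat_lit 0) [nat_lit 190, nat_lit 118, nat_lit 138, nat_lit 216, nat_lit 56] (nat_lit 0) [] false,
   Spec.mk (nat_lit 138) (nat_lit 0) [nat_lit 192, nat_lit 120, nat_lit 144, nat_lit 136, nat_lit 58] (nat_lit 1) [] false,
   Spec.mk (nat_lit 144) (nat_lit 1) [nat_lit 198, nat_lit 126, nat_lit 138, nat_lit 64] (nat_lit 0) [] false,
   Spec.mk (nat_lit 164) (nat_lit 1) [nat_lit 110, nat_lit 166] (nat_lit 0) [] false,
   Spec.mk (nat_lit 166) (nat_lit 0) [nat_lit 112, nat_lit 172, nat_lit 164, nat_lit 168, nat_lit 86] (nat_lit 0) [] false,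
   Spec.mk (nat_lit 168) (nat_lit 0) [nat_lit 114, nat_lit 174, nat_lit 166, nat_lit 88] (nat_lit 3) [] false,
   Spec.mk (nat_lit 172) (nat_lit 0) [nat_lit 118, nat_lit 190, nat_lit 166, nat_lit 174, nat_lit 92] (nat_lit 1) [] false,
   Spec.mk (nat_lit 174) (nat_lit 0) [nat_lit 120, nat_lit 192, nat_lit 168, nat_lit 180, nat_lit 172, nat_lit 94] (nat_lit 2) [] false,
   Spec.mk (nat_lit 180) (nat_lit 0) [nat_lit 126, nat_lit 198, nat_lit 174, nat_lit 100] (nat_lit 3) [] false,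
   Spec.mk (nat_lit 190) (nat_lit 1) [nat_lit 136, nat_lit 172, nat_lit 192, nat_lit 110] (nat_lit 0) [] false,
   Spec.mk (nat_lit 192) (nat_lit 0) [nat_lit 138, nat_lit 174, nat_lit 198, nat_lit 190, nat_lit 112] (nat_lit 1) [] false,
   Spec.mk (nat_lit 198) (nat_lit 0) [nat_lit 144, nat_lit 180, nat_lit 216, nat_lit 192, nat_lit 118] (nat_lit 0) [] false,
   Spec.mk (nat_lit 216) (nat_lit 1) [nat_lit 198, nat_lit 136] (nat_lit 0) [] false]

noncomputable def specs : List (List Spec) :=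
    sp0 :: []

noncomputable def step (e : Nat → Nat) (C ap an : Nat) (k :
    Nat → Nat → Nat → Nat → Nat → Nat → Nat → Nat → Nat → Nat → Nat → Nat → Nat → Nat → Nat → Nat →
    Nat → Nat → Nat → Nat → Nat → Nat → Nat → Nat → Nat → Nat → Nat → Nat → Nat → Nat → Nat → Nat →
    Nat → Nat → Nat → Nat → Nat → Nat → Nat → Nat → Nat → Nat → Nat → Nat → Nat → Bool)
  (
    x8 x14 x16 x20 x22 x24 x32 x34 x38 x40 x42 x46 x48 x56 x58 x60 x64 x66 x72 x86 x88 x92 x94 x96
    x100 x102 x110 x112 x114 x118 x120 x126 x136 x138 x144 x164 x166 x168 x172 x174 x180 x190 x192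
    x198 x216 : Nat) : Bool :=
  k
    (Nat.sub (Nat.add (Nat.add (Nat.add (Nat.add C x8) x14) x88) (Nat.mul (e (nat_lit 8)) ap)) (Nat.mul (e (nat_lit 8)) an))
    (Nat.sub (Nat.add (Nat.add (Nat.add (Nat.add (Nat.add (Nat.add C x32) x8) x20) x16) x94) (Nat.mul (e (nat_lit 14)) ap)) (Nat.mul (e (nat_lit 14)) an))
    (Nat.sub (Nat.add (Nat.add (Nat.add (Nat.add (Nat.add (Nat.add C x16) x34) x22) x14) x96) (Nat.mul (e (nat_lit 16)) ap)) (Nat.mul (e (nat_lit 16)) an))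
    (Nat.sub (Nat.sub (Nat.add (Nat.add (Nat.add (Nat.add (Nat.add C x38) x14) x22) x100) (Nat.mul (e (nat_lit 20)) ap)) (Nat.mul x20 (nat_lit 3))) (Nat.mul (e (nat_lit 20)) an))
    (Nat.add (Nat.add (Nat.add (Nat.add (Nat.add C x40) x16) x20) x24) x102)
    (Nat.add (Nat.add (Nat.add C x24) x42) x22)
    (Nat.sub (Nat.sub (Nat.add (Nat.add (Nat.add (Nat.add (Nat.add (Nat.add C x86) x14) x38) x34) x112) (Nat.mul (e (nat_lit 32)) ap)) x32) (Nat.mul (e (nat_lit 32)) an))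
    (Nat.sub (Nat.add (Nat.add (Nat.add (Nat.add (Nat.add C x88) x16) x40) x32) x114) x34)
    (Nat.sub (Nat.sub (Nat.add (Nat.add (Nat.add (Nat.add (Nat.add (Nat.add (Nat.add C x92) x20) x56) x32) x40) x118) (Nat.mul (e (nat_lit 38)) ap)) (Nat.mul x38 (nat_lit 2))) (Nat.mul (e (nat_lit 38)) an))
    (Nat.sub (Nat.add (Nat.add (Nat.add (Nat.add (Nat.add (Nat.add (Nat.add (Nat.add (Nat.add C x94) x22) x58) x34) x46) x38) x42) x120) (Nat.mul (e (nat_lit 40)) ap)) (Nat.mul (e (nat_lit 40)) an))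
    (Nat.add (Nat.add (Nat.add (Nat.add (Nat.add C x96) x24) x60) x48) x40)
    (Nat.sub (Nat.add (Nat.add (Nat.add (Nat.add (Nat.add C x100) x64) x40) x48) x126) x46)
    (Nat.add (Nat.add (Nat.add (Nat.add (Nat.add C x48) x102) x66) x42) x46)
    (Nat.sub (Nat.add (Nat.add (Nat.add (Nat.add C x110) x38) x58) x136) (Nat.mul x56 (nat_lit 3)))
    (Nat.sub (Nat.add (Nat.add (Nat.add (Nat.add (Nat.add (Nat.add C x112) x40) x64) x56) x60) x138) (Nat.mul x58 (nat_lit 2)))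
    (Nat.sub (Nat.add (Nat.add (Nat.add (Nat.add C x114) x42) x66) x58) (Nat.mul x60 (nat_lit 3)))
    (Nat.sub (Nat.add (Nat.add (Nat.add (Nat.add (Nat.add C x118) x46) x58) x66) x144) x64)
    (Nat.add (Nat.add (Nat.add (Nat.add (Nat.add C x120) x48) x60) x72) x64)
    (Nat.add (Nat.add (Nat.add C x72) x126) x66)
    (Nat.add (Nat.add (Nat.add (Nat.add (Nat.add C x86) x32) x92) x88) x166)
    (Nat.add (Nat.add (Nat.add (Nat.add (Nat.add C x34) x94) x86) x168) x8)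
    (Nat.sub (Nat.add (Nat.add (Nat.add (Nat.add (Nat.add C x38) x110) x86) x94) x172) x92)
    (Nat.add (Nat.add (Nat.add (Nat.add (Nat.add (Nat.add (Nat.add (Nat.add C x40) x112) x88) x100) x92) x96) x174) x14)
    (Nat.sub (Nat.add (Nat.add (Nat.add (Nat.add (Nat.add C x42) x114) x102) x94) x16) x96)
    (Nat.sub (Nat.add (Nat.add (Nat.add (Nat.add (Nat.add (Nat.add C x46) x118) x94) x102) x180) x20) (Nat.mul x100 (nat_lit 2)))
    (Nat.sub (Nat.add (Nat.add (Nat.add (Nat.add (Nat.add C x48) x120) x96) x100) x22) x102)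
    (Nat.add (Nat.add (Nat.add (Nat.add (Nat.add C x56) x164) x92) x112) x190)
    (Nat.add (Nat.add (Nat.add (Nat.add (Nat.add (Nat.add (Nat.add (Nat.add C x58) x166) x94) x118) x110) x114) x192) x32)
    (Nat.sub (Nat.add (Nat.add (Nat.add (Nat.add (Nat.add (Nat.add C x60) x168) x96) x120) x112) x34) (Nat.mul x114 (nat_lit 2)))
    (Nat.add (Nat.add (Nat.add (Nat.add (Nat.add (Nat.add (Nat.add (Nat.add C x64) x172) x100) x136) x112) x120) x198) x38)
    (Nat.add (Nat.add (Nat.add (Nat.add (Nat.add (Nat.add (Nat.add (Nat.add C x66) x174) x102) x138) x114) x126) x118) x40)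
    (Nat.add (Nat.add (Nat.add (Nat.add (Nat.add C x72) x180) x144) x120) x46)
    (Nat.add (Nat.add (Nat.add (Nat.add (Nat.add C x190) x118) x138) x216) x56)
    (Nat.sub (Nat.add (Nat.add (Nat.add (Nat.add (Nat.add C x192) x120) x144) x136) x58) x138)
    (Nat.add (Nat.add (Nat.add (Nat.add (Nat.add C x144) x198) x126) x138) x64)
    (Nat.add (Nat.add (Nat.add C x164) x110) x166)
    (Nat.add (Nat.add (Nat.add (Nat.add (Nat.add C x112) x172) x164) x168) x86)
    (Nat.sub (Nat.add (Nat.add (Nat.add (Nat.add C x114) x174) x166) x88) (Nat.mul x168 (nat_lit 3)))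
    (Nat.sub (Nat.add (Nat.add (Nat.add (Nat.add (Nat.add C x118) x190) x166) x174) x92) x172)
    (Nat.sub (Nat.add (Nat.add (Nat.add (Nat.add (Nat.add (Nat.add C x120) x192) x168) x180) x172) x94) (Nat.mul x174 (nat_lit 2)))
    (Nat.sub (Nat.add (Nat.add (Nat.add (Nat.add C x126) x198) x174) x100) (Nat.mul x180 (nat_lit 3)))
    (Nat.add (Nat.add (Nat.add (Nat.add (Nat.add C x190) x136) x172) x192) x110)
    (Nat.sub (Nat.add (Nat.add (Nat.add (Nat.add (Nat.add C x138) x174) x198) x190) x112) x192)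
    (Nat.add (Nat.add (Nat.add (Nat.add (Nat.add C x144) x180) x216) x192) x118)
    (Nat.add (Nat.add (Nat.add C x216) x198) x136)

theorem ap_eq (x : Nat → Nat) (k : FnLL specs) : apLL (fun t => x t.cd) specs k = A5_4.ap x k :=
  Eq.refl (A5_4.ap x k)

theorem step_eq0 (e : Nat → Nat) (C p r : Nat) (k : FnLL specs) (x : Nat → Nat) :
    A5_4.ap x (step e C p r k) = apLL (interp e C p r x) specs k :=
  Eq.refl (A5_4.ap x (step e C p r k))

theorem spec_ok : specOK 4 false A5_4.mask specs = true := by decide +kernel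

theorem step_eq (e : Nat → Nat) (C p r : Nat) (k : A5_4.KK) (x : Nat → Nat) :
    A5_4.ap x (step e C p r k) = A5_4.ap (row 4 false A5_4.mask e C p r x) k :=
  ((step_eq0 e C p r k x).trans (apLL_row 4 false A5_4.mask specs spec_ok e C p r x k)).trans
    (ap_eq (row 4 false A5_4.mask e C p r x) k)

end Vale.Agent.P348.G5_4_0

namespace Vale.Agent.P348.G5_5_0

noncomputable def sp0 : List Spec :=
  [Spec.mk (nat_lit 17) (nat_lit 1) [nat_lit 35, nat_lit 23, nat_lit 97] (nat_lit 0) [] true,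
   Spec.mk (nat_lit 23) (nat_lit 0) [nat_lit 41, nat_lit 17, nat_lit 25, nat_lit 103] (nat_lit 1) [] true,
   Spec.mk (nat_lit 25) (nat_lit 1) [nat_lit 43, nat_lit 23, nat_lit 105] (nat_lit 0) [] false,
   Spec.mk (nat_lit 35) (nat_lit 0) [nat_lit 89, nat_lit 17, nat_lit 41, nat_lit 115] (nat_lit 1) [] false,
   Spec.mk (nat_lit 41) (nat_lit 0) [nat_lit 95, nat_lit 23, nat_lit 59, nat_lit 35, nat_lit 47, nat_lit 43, nat_lit 121] (nat_lit 1) [] true,
   Spec.mk (nat_lit 43) (nat_lit 0) [nat_lit 97, nat_lit 25, nat_lit 61, nat_lit 49, nat_lit 41, nat_lit 123] (nat_lit 0) [] true,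
   Spec.mk (nat_lit 47) (nat_lit 0) [nat_lit 101, nat_lit 65, nat_lit 41, nat_lit 49, nat_lit 127] (nat_lit 3) [] true,
   Spec.mk (nat_lit 49) (nat_lit 0) [nat_lit 103, nat_lit 67, nat_lit 43, nat_lit 47, nat_lit 51, nat_lit 129] (nat_lit 0) [] false,
   Spec.mk (nat_lit 51) (nat_lit 1) [nat_lit 105, nat_lit 69, nat_lit 49] (nat_lit 0) [] false,
   Spec.mk (nat_lit 59) (nat_lit 0) [nat_lit 113, nat_lit 41, nat_lit 65, nat_lit 61, nat_lit 139] (nat_lit 3) [] false,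
   Spec.mk (nat_lit 61) (nat_lit 0) [nat_lit 115, nat_lit 43, nat_lit 67, nat_lit 59, nat_lit 141] (nat_lit 3) [] false,
   Spec.mk (nat_lit 65) (nat_lit 0) [nat_lit 119, nat_lit 47, nat_lit 59, nat_lit 67, nat_lit 145] (nat_lit 3) [] false,
   Spec.mk (nat_lit 67) (nat_lit 0) [nat_lit 121, nat_lit 49, nat_lit 61, nat_lit 73, nat_lit 65, nat_lit 69, nat_lit 147] (nat_lit 1) [] false,
   Spec.mk (nat_lit 69) (nat_lit 0) [nat_lit 123, nat_lit 51, nat_lit 75, nat_lit 67] (nat_lit 1) [] false,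
   Spec.mk (nat_lit 73) (nat_lit 0) [nat_lit 127, nat_lit 67, nat_lit 75, nat_lit 153] (nat_lit 1) [] false,
   Spec.mk (nat_lit 75) (nat_lit 1) [nat_lit 129, nat_lit 69, nat_lit 73] (nat_lit 0) [] false,
   Spec.mk (nat_lit 89) (nat_lit 1) [nat_lit 35, nat_lit 95, nat_lit 169] (nat_lit 0) [] false,
   Spec.mk (nat_lit 95) (nat_lit 0) [nat_lit 41, nat_lit 113, nat_lit 89, nat_lit 101, nat_lit 97, nat_lit 175] (nat_lit 0) [] false,
   Spec.mk (nat_lit 97) (nat_lit 0) [nat_lit 43, nat_lit 115, nat_lit 103, nat_lit 95, nat_lit 177, nat_lit 17] (nat_lit 0) [] false,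
   Spec.mk (nat_lit 101) (nat_lit 0) [nat_lit 47, nat_lit 119, nat_lit 95, nat_lit 103, nat_lit 181] (nat_lit 3) [] false,
   Spec.mk (nat_lit 103) (nat_lit 0) [nat_lit 49, nat_lit 121, nat_lit 97, nat_lit 101, nat_lit 105, nat_lit 183, nat_lit 23] (nat_lit 1) [] false,
   Spec.mk (nat_lit 105) (nat_lit 0) [nat_lit 51, nat_lit 123, nat_lit 103, nat_lit 25] (nat_lit 1) [] false,
   Spec.mk (nat_lit 113) (nat_lit 0) [nat_lit 59, nat_lit 167, nat_lit 95, nat_lit 119, nat_lit 115, nat_lit 193] (nat_lit 0) [] false,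
   Spec.mk (nat_lit 115) (nat_lit 0) [nat_lit 61, nat_lit 169, nat_lit 97, nat_lit 121, nat_lit 113, nat_lit 195, nat_lit 35] (nat_lit 1) [] false,
   Spec.mk (nat_lit 119) (nat_lit 0) [nat_lit 65, nat_lit 173, nat_lit 101, nat_lit 137, nat_lit 113, nat_lit 121, nat_lit 199] (nat_lit 1) [] false,
   Spec.mk (nat_lit 121) (nat_lit 0) [nat_lit 67, nat_lit 175, nat_lit 103, nat_lit 139, nat_lit 115, nat_lit 127, nat_lit 119, nat_lit 123, nat_lit 201, nat_lit 41] (nat_lit 0) [] true,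
   Spec.mk (nat_lit 123) (nat_lit 0) [nat_lit 69, nat_lit 177, nat_lit 105, nat_lit 141, nat_lit 129, nat_lit 121, nat_lit 43] (nat_lit 1) [] false,
   Spec.mk (nat_lit 127) (nat_lit 0) [nat_lit 73, nat_lit 181, nat_lit 145, nat_lit 121, nat_lit 129, nat_lit 207, nat_lit 47] (nat_lit 1) [] false,
   Spec.mk (nat_lit 129) (nat_lit 0) [nat_lit 75, nat_lit 183, nat_lit 147, nat_lit 123, nat_lit 127, nat_lit 49] (nat_lit 0) [] false,
   Spec.mk (nat_lit 137) (nat_lit 0) [nat_lit 191, nat_lit 119, nat_lit 139, nat_lit 217] (nat_lit 1) [] false,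
   Spec.mk (nat_lit 139) (nat_lit 0) [nat_lit 193, nat_lit 121, nat_lit 145, nat_lit 137, nat_lit 141, nat_lit 219, nat_lit 59] (nat_lit 1) [] false,
   Spec.mk (nat_lit 141) (nat_lit 0) [nat_lit 195, nat_lit 123, nat_lit 147, nat_lit 139, nat_lit 61] (nat_lit 3) [] false,
   Spec.mk (nat_lit 145) (nat_lit 0) [nat_lit 199, nat_lit 127, nat_lit 139, nat_lit 147, nat_lit 225, nat_lit 65] (nat_lit 0) [] false,
   Spec.mk (nat_lit 147) (nat_lit 0) [nat_lit 201, nat_lit 129, nat_lit 141, nat_lit 153, nat_lit 145, nat_lit 67] (nat_lit 0) [] false,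
   Spec.mk (nat_lit 153) (nat_lit 1) [nat_lit 207, nat_lit 147, nat_lit 73] (nat_lit 0) [] false,
   Spec.mk (nat_lit 167) (nat_lit 1) [nat_lit 113, nat_lit 173, nat_lit 169] (nat_lit 0) [] false,
   Spec.mk (nat_lit 169) (nat_lit 0) [nat_lit 115, nat_lit 175, nat_lit 167, nat_lit 89] (nat_lit 1) [] false,
   Spec.mk (nat_lit 173) (nat_lit 0) [nat_lit 119, nat_lit 191, nat_lit 167, nat_lit 175] (nat_lit 1) [] false,
   Spec.mk (nat_lit 175) (nat_lit 0) [nat_lit 121, nat_lit 193, nat_lit 169, nat_lit 181, nat_lit 173, nat_lit 177, nat_lit 95] (nat_lit 1) [] false,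
   Spec.mk (nat_lit 177) (nat_lit 0) [nat_lit 123, nat_lit 195, nat_lit 183, nat_lit 175, nat_lit 97] (nat_lit 3) [] false,
   Spec.mk (nat_lit 181) (nat_lit 0) [nat_lit 127, nat_lit 199, nat_lit 175, nat_lit 183, nat_lit 101] (nat_lit 3) [] false,
   Spec.mk (nat_lit 183) (nat_lit 0) [nat_lit 129, nat_lit 201, nat_lit 177, nat_lit 181, nat_lit 103] (nat_lit 3) [] false,
   Spec.mk (nat_lit 191) (nat_lit 1) [nat_lit 137, nat_lit 173, nat_lit 193] (nat_lit 0) [] false,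
   Spec.mk (nat_lit 193) (nat_lit 0) [nat_lit 139, nat_lit 175, nat_lit 199, nat_lit 191, nat_lit 195, nat_lit 113] (nat_lit 0) [] false,
   Spec.mk (nat_lit 195) (nat_lit 0) [nat_lit 141, nat_lit 177, nat_lit 201, nat_lit 193, nat_lit 115] (nat_lit 3) [] false,
   Spec.mk (nat_lit 199) (nat_lit 0) [nat_lit 145, nat_lit 181, nat_lit 217, nat_lit 193, nat_lit 201, nat_lit 119] (nat_lit 0) [] false,
   Spec.mk (nat_lit 201) (nat_lit 0) [nat_lit 147, nat_lit 183, nat_lit 219, nat_lit 195, nat_lit 207, nat_lit 199, nat_lit 121] (nat_lit 1) [] false,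
   Spec.mk (nat_lit 207) (nat_lit 0) [nat_lit 153, nat_lit 225, nat_lit 201, nat_lit 127] (nat_lit 1) [] false,
   Spec.mk (nat_lit 217) (nat_lit 1) [nat_lit 199, nat_lit 219, nat_lit 137] (nat_lit 0) [] false,
   Spec.mk (nat_lit 219) (nat_lit 0) [nat_lit 201, nat_lit 225, nat_lit 217, nat_lit 139] (nat_lit 1) [] false,
   Spec.mk (nat_lit 225) (nat_lit 1) [nat_lit 207, nat_lit 219, nat_lit 145] (nat_lit 0) [] false]

noncomputable def specs : List (List Spec) :=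
    sp0 :: []

noncomputable def step (e : Nat → Nat) (C ap an : Nat) (k :
    Nat → Nat → Nat → Nat → Nat → Nat → Nat → Nat → Nat → Nat → Nat → Nat → Nat → Nat → Nat → Nat →
    Nat → Nat → Nat → Nat → Nat → Nat → Nat → Nat → Nat → Nat → Nat → Nat → Nat → Nat → Nat → Nat →
    Nat → Nat → Nat → Nat → Nat → Nat → Nat → Nat → Nat → Nat → Nat → Nat → Nat → Nat → Nat → Nat →
    Nat → Nat → Nat → Bool)
  (
    x17 x23 x25 x35 x41 x43 x47 x49 x51 x59 x61 x65 x67 x69 x73 x75 x89 x95 x97 x101 x103 x105 x113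
    x115 x119 x121 x123 x127 x129 x137 x139 x141 x145 x147 x153 x167 x169 x173 x175 x177 x181 x183
    x191 x193 x195 x199 x201 x207 x217 x219 x225 : Nat) : Bool :=
  k
    (Nat.sub (Nat.add (Nat.add (Nat.add (Nat.add (Nat.add C x17) x35) x23) x97) (Nat.mul (e (nat_lit 17)) ap)) (Nat.mul (e (nat_lit 17)) an))
    (Nat.sub (Nat.sub (Nat.add (Nat.add (Nat.add (Nat.add (Nat.add C x41) x17) x25) x103) (Nat.mul (e (nat_lit 23)) ap)) x23) (Nat.mul (e (nat_lit 23)) an))
    (Nat.add (Nat.add (Nat.add (Nat.add C x25) x43) x23) x105)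
    (Nat.sub (Nat.add (Nat.add (Nat.add (Nat.add C x89) x17) x41) x115) x35)
    (Nat.sub (Nat.sub (Nat.add (Nat.add (Nat.add (Nat.add (Nat.add (Nat.add (Nat.add (Nat.add C x95) x23) x59) x35) x47) x43) x121) (Nat.mul (e (nat_lit 41)) ap)) x41) (Nat.mul (e (nat_lit 41)) an))
    (Nat.sub (Nat.add (Nat.add (Nat.add (Nat.add (Nat.add (Nat.add (Nat.add C x97) x25) x61) x49) x41) x123) (Nat.mul (e (nat_lit 43)) ap)) (Nat.mul (e (nat_lit 43)) an))
    (Nat.sub (Nat.sub (Nat.add (Nat.add (Nat.add (Nat.add (Nat.add (Nat.add C x101) x65) x41) x49) x127) (Nat.mul (e (nat_lit 47)) ap)) (Nat.mul x47 (nat_lit 3))) (Nat.mul (e (nat_lit 47)) an))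
    (Nat.add (Nat.add (Nat.add (Nat.add (Nat.add (Nat.add C x103) x67) x43) x47) x51) x129)
    (Nat.add (Nat.add (Nat.add (Nat.add C x51) x105) x69) x49)
    (Nat.sub (Nat.add (Nat.add (Nat.add (Nat.add (Nat.add C x113) x41) x65) x61) x139) (Nat.mul x59 (nat_lit 3)))
    (Nat.sub (Nat.add (Nat.add (Nat.add (Nat.add (Nat.add C x115) x43) x67) x59) x141) (Nat.mul x61 (nat_lit 3)))
    (Nat.sub (Nat.add (Nat.add (Nat.add (Nat.add (Nat.add C x119) x47) x59) x67) x145) (Nat.mul x65 (nat_lit 3)))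
    (Nat.sub (Nat.add (Nat.add (Nat.add (Nat.add (Nat.add (Nat.add (Nat.add C x121) x49) x61) x73) x65) x69) x147) x67)
    (Nat.sub (Nat.add (Nat.add (Nat.add (Nat.add C x123) x51) x75) x67) x69)
    (Nat.sub (Nat.add (Nat.add (Nat.add (Nat.add C x127) x67) x75) x153) x73)
    (Nat.add (Nat.add (Nat.add (Nat.add C x75) x129) x69) x73)
    (Nat.add (Nat.add (Nat.add (Nat.add C x89) x35) x95) x169)
    (Nat.add (Nat.add (Nat.add (Nat.add (Nat.add (Nat.add C x41) x113) x89) x101) x97) x175)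
    (Nat.add (Nat.add (Nat.add (Nat.add (Nat.add (Nat.add C x43) x115) x103) x95) x177) x17)
    (Nat.sub (Nat.add (Nat.add (Nat.add (Nat.add (Nat.add C x47) x119) x95) x103) x181) (Nat.mul x101 (nat_lit 3)))
    (Nat.sub (Nat.add (Nat.add (Nat.add (Nat.add (Nat.add (Nat.add (Nat.add C x49) x121) x97) x101) x105) x183) x23) x103)
    (Nat.sub (Nat.add (Nat.add (Nat.add (Nat.add C x51) x123) x103) x25) x105)
    (Nat.add (Nat.add (Nat.add (Nat.add (Nat.add (Nat.add C x59) x167) x95) x119) x115) x193)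
    (Nat.sub (Nat.add (Nat.add (Nat.add (Nat.add (Nat.add (Nat.add (Nat.add C x61) x169) x97) x121) x113) x195) x35) x115)
    (Nat.sub (Nat.add (Nat.add (Nat.add (Nat.add (Nat.add (Nat.add (Nat.add C x65) x173) x101) x137) x113) x121) x199) x119)
    (Nat.sub (Nat.add (Nat.add (Nat.add (Nat.add (Nat.add (Nat.add (Nat.add (Nat.add (Nat.add (Nat.add (Nat.add C x67) x175) x103) x139) x115) x127) x119) x123) x201) x41) (Nat.mul (e (nat_lit 121)) ap)) (Nat.mul (e (nat_lit 121)) an))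
    (Nat.sub (Nat.add (Nat.add (Nat.add (Nat.add (Nat.add (Nat.add (Nat.add C x69) x177) x105) x141) x129) x121) x43) x123)
    (Nat.sub (Nat.add (Nat.add (Nat.add (Nat.add (Nat.add (Nat.add (Nat.add C x73) x181) x145) x121) x129) x207) x47) x127)
    (Nat.add (Nat.add (Nat.add (Nat.add (Nat.add (Nat.add C x75) x183) x147) x123) x127) x49)
    (Nat.sub (Nat.add (Nat.add (Nat.add (Nat.add C x191) x119) x139) x217) x137)
    (Nat.sub (Nat.add (Nat.add (Nat.add (Nat.add (Nat.add (Nat.add (Nat.add C x193) x121) x145) x137) x141) x219) x59) x139)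
    (Nat.sub (Nat.add (Nat.add (Nat.add (Nat.add (Nat.add C x195) x123) x147) x139) x61) (Nat.mul x141 (nat_lit 3)))
    (Nat.add (Nat.add (Nat.add (Nat.add (Nat.add (Nat.add C x199) x127) x139) x147) x225) x65)
    (Nat.add (Nat.add (Nat.add (Nat.add (Nat.add (Nat.add C x201) x129) x141) x153) x145) x67)
    (Nat.add (Nat.add (Nat.add (Nat.add C x153) x207) x147) x73)
    (Nat.add (Nat.add (Nat.add (Nat.add C x167) x113) x173) x169)
    (Nat.sub (Nat.add (Nat.add (Nat.add (Nat.add C x115) x175) x167) x89) x169)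
    (Nat.sub (Nat.add (Nat.add (Nat.add (Nat.add C x119) x191) x167) x175) x173)
    (Nat.sub (Nat.add (Nat.add (Nat.add (Nat.add (Nat.add (Nat.add (Nat.add C x121) x193) x169) x181) x173) x177) x95) x175)
    (Nat.sub (Nat.add (Nat.add (Nat.add (Nat.add (Nat.add C x123) x195) x183) x175) x97) (Nat.mul x177 (nat_lit 3)))
    (Nat.sub (Nat.add (Nat.add (Nat.add (Nat.add (Nat.add C x127) x199) x175) x183) x101) (Nat.mul x181 (nat_lit 3)))
    (Nat.sub (Nat.add (Nat.add (Nat.add (Nat.add (Nat.add C x129) x201) x177) x181) x103) (Nat.mul x183 (nat_lit 3)))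
    (Nat.add (Nat.add (Nat.add (Nat.add C x191) x137) x173) x193)
    (Nat.add (Nat.add (Nat.add (Nat.add (Nat.add (Nat.add C x139) x175) x199) x191) x195) x113)
    (Nat.sub (Nat.add (Nat.add (Nat.add (Nat.add (Nat.add C x141) x177) x201) x193) x115) (Nat.mul x195 (nat_lit 3)))
    (Nat.add (Nat.add (Nat.add (Nat.add (Nat.add (Nat.add C x145) x181) x217) x193) x201) x119)
    (Nat.sub (Nat.add (Nat.add (Nat.add (Nat.add (Nat.add (Nat.add (Nat.add C x147) x183) x219) x195) x207) x199) x121) x201)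
    (Nat.sub (Nat.add (Nat.add (Nat.add (Nat.add C x153) x225) x201) x127) x207)
    (Nat.add (Nat.add (Nat.add (Nat.add C x217) x199) x219) x137)
    (Nat.sub (Nat.add (Nat.add (Nat.add (Nat.add C x201) x225) x217) x139) x219)
    (Nat.add (Nat.add (Nat.add (Nat.add C x225) x207) x219) x145)

theorem ap_eq (x : Nat → Nat) (k : FnLL specs) : apLL (fun t => x t.cd) specs k = A5_5.ap x k :=
  Eq.refl (A5_5.ap x k)

theorem step_eq0 (e : Nat → Nat) (C p r : Nat) (k : FnLL specs) (x : Nat → Nat) :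
    A5_5.ap x (step e C p r k) = apLL (interp e C p r x) specs k :=
  Eq.refl (A5_5.ap x (step e C p r k))

theorem spec_ok : specOK 4 false A5_5.mask specs = true := by decide +kernel

theorem step_eq (e : Nat → Nat) (C p r : Nat) (k : A5_5.KK) (x : Nat → Nat) :
    A5_5.ap x (step e C p r k) = A5_5.ap (row 4 false A5_5.mask e C p r x) k :=
  ((step_eq0 e C p r k x).trans (apLL_row 4 false A5_5.mask specs spec_ok e C p r x k)).trans
    (ap_eq (row 4 false A5_5.mask e C p r x) k)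

end Vale.Agent.P348.G5_5_0
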