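import Vale.Agent.P348.G.AS5

set_option maxRecDepth 1000000
set_option maxHeartbeats 0
set_option linter.all false

namespace Vale.Agent.P348.G5_0_1

noncomputable def sp0 : List Spec :=
  [Spec.mk (nat_lit 0) (nat_lit 5) [] (nat_lit 0) [] true]

noncomputable def specs : List (List Spec) :=
    sp0 :: []

noncomputable def step (e : Nat → Nat) (C ap an : Nat) (k :
    Nat → Bool)
  (
    x0 : Nat) : Bool :=
  k
    (Nat.sub (Nat.add (Nat.add C (Nat.mul x0 (nat_lit 5))) (Nat.mul (e (nat_lit 0)) ap)) (Nat.mul (e (nat_lit 0)) an))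

theorem ap_eq (x : Nat → Nat) (k : FnLL specs) : apLL (fun t => x t.cd) specs k = A5_0.ap x k :=
  Eq.refl (A5_0.ap x k)

theorem step_eq0 (e : Nat → Nat) (C p r : Nat) (k : FnLL specs) (x : Nat → Nat) :
    A5_0.ap x (step e C p r k) = apLL (interp e C p r x) specs k :=
  Eq.refl (A5_0.ap x (step e C p r k))

theorem spec_ok : specOK 4 true A5_0.mask specs = true := by decide +kernel

theorem step_eq (e : Nat → Nat) (C p r : Nat) (k : A5_0.KK) (x : Nat → Nat) :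
    A5_0.ap x (step e C p r k) = A5_0.ap (row 4 true A5_0.mask e C p r x) k :=
  ((step_eq0 e C p r k x).trans (apLL_row 4 true A5_0.mask specs spec_ok e C p r x k)).trans
    (ap_eq (row 4 true A5_0.mask e C p r x) k)

end Vale.Agent.P348.G5_0_1

namespace Vale.Agent.P348.G5_1_1

noncomputable def sp0 : List Spec :=
  [Spec.mk (nat_lit 1) (nat_lit 3) [nat_lit 3] (nat_lit 0) [nat_lit 81] true,
   Spec.mk (nat_lit 3) (nat_lit 3) [nat_lit 9, nat_lit 1] (nat_lit 0) [] false,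
   Spec.mk (nat_lit 9) (nat_lit 3) [nat_lit 27, nat_lit 3] (nat_lit 0) [] false,
   Spec.mk (nat_lit 27) (nat_lit 3) [nat_lit 81, nat_lit 9] (nat_lit 0) [] false,
   Spec.mk (nat_lit 81) (nat_lit 3) [nat_lit 27] (nat_lit 0) [nat_lit 1] false]

noncomputable def specs : List (List Spec) :=
    sp0 :: []

noncomputable def step (e : Nat → Nat) (C ap an : Nat) (k :
    Nat → Nat → Nat → Nat → Nat → Bool)
  (
    x1 x3 x9 x27 x81 : Nat) : Bool :=
  k
    (Nat.sub (Nat.sub (Nat.add (Nat.add (Nat.add C (Nat.mul x1 (nat_lit 3))) x3) (Nat.mul (e (nat_lit 1)) ap)) x81) (Nat.mul (e (nat_lit 1)) an))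
    (Nat.add (Nat.add (Nat.add C (Nat.mul x3 (nat_lit 3))) x9) x1)
    (Nat.add (Nat.add (Nat.add C (Nat.mul x9 (nat_lit 3))) x27) x3)
    (Nat.add (Nat.add (Nat.add C (Nat.mul x27 (nat_lit 3))) x81) x9)
    (Nat.sub (Nat.add (Nat.add C (Nat.mul x81 (nat_lit 3))) x27) x1)

theorem ap_eq (x : Nat → Nat) (k : FnLL specs) : apLL (fun t => x t.cd) specs k = A5_1.ap x k :=
  Eq.refl (A5_1.ap x k)

theorem step_eq0 (e : Nat → Nat) (C p r : Nat) (k : FnLL specs) (x : Nat → Nat) :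
    A5_1.ap x (step e C p r k) = apLL (interp e C p r x) specs k :=
  Eq.refl (A5_1.ap x (step e C p r k))

theorem spec_ok : specOK 4 true A5_1.mask specs = true := by decide +kernel

theorem step_eq (e : Nat → Nat) (C p r : Nat) (k : A5_1.KK) (x : Nat → Nat) :
    A5_1.ap x (step e C p r k) = A5_1.ap (row 4 true A5_1.mask e C p r x) k :=
  ((step_eq0 e C p r k x).trans (apLL_row 4 true A5_1.mask specs spec_ok e C p r x k)).trans
    (ap_eq (row 4 true A5_1.mask e C p r x) k)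

end Vale.Agent.P348.G5_1_1

namespace Vale.Agent.P348.G5_2_1

noncomputable def sp0 : List Spec :=
  [Spec.mk (nat_lit 2) (nat_lit 1) [nat_lit 4] (nat_lit 0) [nat_lit 82] true,
   Spec.mk (nat_lit 4) (nat_lit 2) [nat_lit 10, nat_lit 2, nat_lit 6] (nat_lit 0) [nat_lit 84] true,
   Spec.mk (nat_lit 6) (nat_lit 1) [nat_lit 12, nat_lit 4] (nat_lit 0) [] false,
   Spec.mk (nat_lit 10) (nat_lit 1) [nat_lit 28, nat_lit 4, nat_lit 12] (nat_lit 0) [nat_lit 90] true,
   Spec.mk (nat_lit 12) (nat_lit 2) [nat_lit 30, nat_lit 6, nat_lit 18, nat_lit 10] (nat_lit 0) [] false,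
   Spec.mk (nat_lit 18) (nat_lit 1) [nat_lit 36, nat_lit 12] (nat_lit 0) [] false,
   Spec.mk (nat_lit 28) (nat_lit 1) [nat_lit 82, nat_lit 10, nat_lit 30] (nat_lit 0) [nat_lit 108] false,
   Spec.mk (nat_lit 30) (nat_lit 1) [nat_lit 84, nat_lit 12, nat_lit 36, nat_lit 28] (nat_lit 0) [] false,
   Spec.mk (nat_lit 36) (nat_lit 2) [nat_lit 90, nat_lit 18, nat_lit 54, nat_lit 30] (nat_lit 0) [] false,
   Spec.mk (nat_lit 54) (nat_lit 1) [nat_lit 108, nat_lit 36] (nat_lit 0) [] false,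
   Spec.mk (nat_lit 82) (nat_lit 2) [nat_lit 28, nat_lit 84] (nat_lit 0) [nat_lit 162, nat_lit 2] false,
   Spec.mk (nat_lit 84) (nat_lit 1) [nat_lit 30, nat_lit 90, nat_lit 82] (nat_lit 0) [nat_lit 4] false,
   Spec.mk (nat_lit 90) (nat_lit 1) [nat_lit 36, nat_lit 108, nat_lit 84] (nat_lit 0) [nat_lit 10] false,
   Spec.mk (nat_lit 108) (nat_lit 2) [nat_lit 54, nat_lit 162, nat_lit 90] (nat_lit 0) [nat_lit 28] false,
   Spec.mk (nat_lit 162) (nat_lit 1) [nat_lit 108] (nat_lit 0) [nat_lit 82] false]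

noncomputable def specs : List (List Spec) :=
    sp0 :: []

noncomputable def step (e : Nat → Nat) (C ap an : Nat) (k :
    Nat → Nat → Nat → Nat → Nat → Nat → Nat → Nat → Nat → Nat → Nat → Nat → Nat → Nat → Nat → Bool)
  (
    x2 x4 x6 x10 x12 x18 x28 x30 x36 x54 x82 x84 x90 x108 x162 : Nat) : Bool :=
  k
    (Nat.sub (Nat.sub (Nat.add (Nat.add (Nat.add C x2) x4) (Nat.mul (e (nat_lit 2)) ap)) x82) (Nat.mul (e (nat_lit 2)) an))
    (Nat.sub (Nat.sub (Nat.add (Nat.add (Nat.add (Nat.add (Nat.add C (Nat.mul x4 (nat_lit 2))) x10) x2) x6) (Nat.mul (e (nat_lit 4)) ap)) x84) (Nat.mul (e (nat_lit 4)) an))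
    (Nat.add (Nat.add (Nat.add C x6) x12) x4)
    (Nat.sub (Nat.sub (Nat.add (Nat.add (Nat.add (Nat.add (Nat.add C x10) x28) x4) x12) (Nat.mul (e (nat_lit 10)) ap)) x90) (Nat.mul (e (nat_lit 10)) an))
    (Nat.add (Nat.add (Nat.add (Nat.add (Nat.add C (Nat.mul x12 (nat_lit 2))) x30) x6) x18) x10)
    (Nat.add (Nat.add (Nat.add C x18) x36) x12)
    (Nat.sub (Nat.add (Nat.add (Nat.add (Nat.add C x28) x82) x10) x30) x108)
    (Nat.add (Nat.add (Nat.add (Nat.add (Nat.add C x30) x84) x12) x36) x28)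
    (Nat.add (Nat.add (Nat.add (Nat.add (Nat.add C (Nat.mul x36 (nat_lit 2))) x90) x18) x54) x30)
    (Nat.add (Nat.add (Nat.add C x54) x108) x36)
    (Nat.sub (Nat.sub (Nat.add (Nat.add (Nat.add C (Nat.mul x82 (nat_lit 2))) x28) x84) x162) x2)
    (Nat.sub (Nat.add (Nat.add (Nat.add (Nat.add C x84) x30) x90) x82) x4)
    (Nat.sub (Nat.add (Nat.add (Nat.add (Nat.add C x90) x36) x108) x84) x10)
    (Nat.sub (Nat.add (Nat.add (Nat.add (Nat.add C (Nat.mul x108 (nat_lit 2))) x54) x162) x90) x28)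
    (Nat.sub (Nat.add (Nat.add C x162) x108) x82)

theorem ap_eq (x : Nat → Nat) (k : FnLL specs) : apLL (fun t => x t.cd) specs k = A5_2.ap x k :=
  Eq.refl (A5_2.ap x k)

theorem step_eq0 (e : Nat → Nat) (C p r : Nat) (k : FnLL specs) (x : Nat → Nat) :
    A5_2.ap x (step e C p r k) = apLL (interp e C p r x) specs k :=
  Eq.refl (A5_2.ap x (step e C p r k))

theorem spec_ok : specOK 4 true A5_2.mask specs = true := by decide +kernel

theorem step_eq (e : Nat → Nat) (C p r : Nat) (k : A5_2.KK) (x : Nat → Nat) :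
    A5_2.ap x (step e C p r k) = A5_2.ap (row 4 true A5_2.mask e C p r x) k :=
  ((step_eq0 e C p r k x).trans (apLL_row 4 true A5_2.mask specs spec_ok e C p r x k)).trans
    (ap_eq (row 4 true A5_2.mask e C p r x) k)

end Vale.Agent.P348.G5_2_1

namespace Vale.Agent.P348.G5_3_1

noncomputable def sp0 : List Spec :=
  [Spec.mk (nat_lit 5) (nat_lit 1) [nat_lit 11, nat_lit 7] (nat_lit 0) [nat_lit 85] true,
   Spec.mk (nat_lit 7) (nat_lit 1) [nat_lit 13, nat_lit 5] (nat_lit 0) [nat_lit 87] false,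
   Spec.mk (nat_lit 11) (nat_lit 0) [nat_lit 29, nat_lit 5, nat_lit 13] (nat_lit 1) [nat_lit 91] true,
   Spec.mk (nat_lit 13) (nat_lit 1) [nat_lit 31, nat_lit 7, nat_lit 19, nat_lit 11, nat_lit 15] (nat_lit 0) [nat_lit 93] true,
   Spec.mk (nat_lit 15) (nat_lit 1) [nat_lit 33, nat_lit 21, nat_lit 13] (nat_lit 0) [] false,
   Spec.mk (nat_lit 19) (nat_lit 0) [nat_lit 37, nat_lit 13, nat_lit 21] (nat_lit 1) [nat_lit 99] false,
   Spec.mk (nat_lit 21) (nat_lit 1) [nat_lit 39, nat_lit 15, nat_lit 19] (nat_lit 0) [] false,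
   Spec.mk (nat_lit 29) (nat_lit 0) [nat_lit 83, nat_lit 11, nat_lit 31] (nat_lit 1) [nat_lit 109] false,
   Spec.mk (nat_lit 31) (nat_lit 0) [nat_lit 85, nat_lit 13, nat_lit 37, nat_lit 29, nat_lit 33] (nat_lit 0) [nat_lit 111] true,
   Spec.mk (nat_lit 33) (nat_lit 0) [nat_lit 87, nat_lit 15, nat_lit 39, nat_lit 31] (nat_lit 1) [] false,
   Spec.mk (nat_lit 37) (nat_lit 0) [nat_lit 91, nat_lit 19, nat_lit 55, nat_lit 31, nat_lit 39] (nat_lit 0) [nat_lit 117] false,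
   Spec.mk (nat_lit 39) (nat_lit 1) [nat_lit 93, nat_lit 21, nat_lit 57, nat_lit 33, nat_lit 45, nat_lit 37] (nat_lit 0) [] false,
   Spec.mk (nat_lit 45) (nat_lit 1) [nat_lit 99, nat_lit 63, nat_lit 39] (nat_lit 0) [] false,
   Spec.mk (nat_lit 55) (nat_lit 0) [nat_lit 109, nat_lit 37, nat_lit 57] (nat_lit 1) [nat_lit 135] false,
   Spec.mk (nat_lit 57) (nat_lit 0) [nat_lit 111, nat_lit 39, nat_lit 63, nat_lit 55] (nat_lit 1) [] false,
   Spec.mk (nat_lit 63) (nat_lit 1) [nat_lit 117, nat_lit 45, nat_lit 57] (nat_lit 0) [] false,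
   Spec.mk (nat_lit 83) (nat_lit 1) [nat_lit 29, nat_lit 85] (nat_lit 0) [nat_lit 163] false,
   Spec.mk (nat_lit 85) (nat_lit 1) [nat_lit 31, nat_lit 91, nat_lit 83, nat_lit 87] (nat_lit 0) [nat_lit 165, nat_lit 5] false,
   Spec.mk (nat_lit 87) (nat_lit 0) [nat_lit 33, nat_lit 93, nat_lit 85] (nat_lit 1) [nat_lit 7] false,
   Spec.mk (nat_lit 91) (nat_lit 0) [nat_lit 37, nat_lit 109, nat_lit 85, nat_lit 93] (nat_lit 0) [nat_lit 171, nat_lit 11] false,
   Spec.mk (nat_lit 93) (nat_lit 0) [nat_lit 39, nat_lit 111, nat_lit 87, nat_lit 99, nat_lit 91] (nat_lit 0) [nat_lit 13] false,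
   Spec.mk (nat_lit 99) (nat_lit 0) [nat_lit 45, nat_lit 117, nat_lit 93] (nat_lit 1) [nat_lit 19] false,
   Spec.mk (nat_lit 109) (nat_lit 1) [nat_lit 55, nat_lit 163, nat_lit 91, nat_lit 111] (nat_lit 0) [nat_lit 189, nat_lit 29] false,
   Spec.mk (nat_lit 111) (nat_lit 0) [nat_lit 57, nat_lit 165, nat_lit 93, nat_lit 117, nat_lit 109] (nat_lit 0) [nat_lit 31] false,
   Spec.mk (nat_lit 117) (nat_lit 1) [nat_lit 63, nat_lit 171, nat_lit 99, nat_lit 135, nat_lit 111] (nat_lit 0) [nat_lit 37] false,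
   Spec.mk (nat_lit 135) (nat_lit 1) [nat_lit 189, nat_lit 117] (nat_lit 0) [nat_lit 55] false,
   Spec.mk (nat_lit 163) (nat_lit 1) [nat_lit 109, nat_lit 165] (nat_lit 0) [nat_lit 83] false,
   Spec.mk (nat_lit 165) (nat_lit 0) [nat_lit 111, nat_lit 171, nat_lit 163] (nat_lit 1) [nat_lit 85] false,
   Spec.mk (nat_lit 171) (nat_lit 0) [nat_lit 117, nat_lit 189, nat_lit 165] (nat_lit 1) [nat_lit 91] false,
   Spec.mk (nat_lit 189) (nat_lit 1) [nat_lit 135, nat_lit 171] (nat_lit 0) [nat_lit 109] false]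

noncomputable def specs : List (List Spec) :=
    sp0 :: []

noncomputable def step (e : Nat → Nat) (C ap an : Nat) (k :
    Nat → Nat → Nat → Nat → Nat → Nat → Nat → Nat → Nat → Nat → Nat → Nat → Nat → Nat → Nat → Nat →
    Nat → Nat → Nat → Nat → Nat → Nat → Nat → Nat → Nat → Nat → Nat → Nat → Nat → Nat → Bool)
  (
    x5 x7 x11 x13 x15 x19 x21 x29 x31 x33 x37 x39 x45 x55 x57 x63 x83 x85 x87 x91 x93 x99 x109 x111
    x117 x135 x163 x165 x171 x189 : Nat) : Bool :=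
  k
    (Nat.sub (Nat.sub (Nat.add (Nat.add (Nat.add (Nat.add C x5) x11) x7) (Nat.mul (e (nat_lit 5)) ap)) x85) (Nat.mul (e (nat_lit 5)) an))
    (Nat.sub (Nat.add (Nat.add (Nat.add C x7) x13) x5) x87)
    (Nat.sub (Nat.sub (Nat.sub (Nat.add (Nat.add (Nat.add (Nat.add C x29) x5) x13) (Nat.mul (e (nat_lit 11)) ap)) x11) x91) (Nat.mul (e (nat_lit 11)) an))
    (Nat.sub (Nat.sub (Nat.add (Nat.add (Nat.add (Nat.add (Nat.add (Nat.add (Nat.add C x13) x31) x7) x19) x11) x15) (Nat.mul (e (nat_lit 13)) ap)) x93) (Nat.mul (e (nat_lit 13)) an))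
    (Nat.add (Nat.add (Nat.add (Nat.add C x15) x33) x21) x13)
    (Nat.sub (Nat.sub (Nat.add (Nat.add (Nat.add C x37) x13) x21) x19) x99)
    (Nat.add (Nat.add (Nat.add (Nat.add C x21) x39) x15) x19)
    (Nat.sub (Nat.sub (Nat.add (Nat.add (Nat.add C x83) x11) x31) x29) x109)
    (Nat.sub (Nat.sub (Nat.add (Nat.add (Nat.add (Nat.add (Nat.add (Nat.add C x85) x13) x37) x29) x33) (Nat.mul (e (nat_lit 31)) ap)) x111) (Nat.mul (e (nat_lit 31)) an))
    (Nat.sub (Nat.add (Nat.add (Nat.add (Nat.add C x87) x15) x39) x31) x33)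
    (Nat.sub (Nat.add (Nat.add (Nat.add (Nat.add (Nat.add C x91) x19) x55) x31) x39) x117)
    (Nat.add (Nat.add (Nat.add (Nat.add (Nat.add (Nat.add (Nat.add C x39) x93) x21) x57) x33) x45) x37)
    (Nat.add (Nat.add (Nat.add (Nat.add C x45) x99) x63) x39)
    (Nat.sub (Nat.sub (Nat.add (Nat.add (Nat.add C x109) x37) x57) x55) x135)
    (Nat.sub (Nat.add (Nat.add (Nat.add (Nat.add C x111) x39) x63) x55) x57)
    (Nat.add (Nat.add (Nat.add (Nat.add C x63) x117) x45) x57)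
    (Nat.sub (Nat.add (Nat.add (Nat.add C x83) x29) x85) x163)
    (Nat.sub (Nat.sub (Nat.add (Nat.add (Nat.add (Nat.add (Nat.add C x85) x31) x91) x83) x87) x165) x5)
    (Nat.sub (Nat.sub (Nat.add (Nat.add (Nat.add C x33) x93) x85) x87) x7)
    (Nat.sub (Nat.sub (Nat.add (Nat.add (Nat.add (Nat.add C x37) x109) x85) x93) x171) x11)
    (Nat.sub (Nat.add (Nat.add (Nat.add (Nat.add (Nat.add C x39) x111) x87) x99) x91) x13)
    (Nat.sub (Nat.sub (Nat.add (Nat.add (Nat.add C x45) x117) x93) x99) x19)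
    (Nat.sub (Nat.sub (Nat.add (Nat.add (Nat.add (Nat.add (Nat.add C x109) x55) x163) x91) x111) x189) x29)
    (Nat.sub (Nat.add (Nat.add (Nat.add (Nat.add (Nat.add C x57) x165) x93) x117) x109) x31)
    (Nat.sub (Nat.add (Nat.add (Nat.add (Nat.add (Nat.add (Nat.add C x117) x63) x171) x99) x135) x111) x37)
    (Nat.sub (Nat.add (Nat.add (Nat.add C x135) x189) x117) x55)
    (Nat.sub (Nat.add (Nat.add (Nat.add C x163) x109) x165) x83)
    (Nat.sub (Nat.sub (Nat.add (Nat.add (Nat.add C x111) x171) x163) x165) x85)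
    (Nat.sub (Nat.sub (Nat.add (Nat.add (Nat.add C x117) x189) x165) x171) x91)
    (Nat.sub (Nat.add (Nat.add (Nat.add C x189) x135) x171) x109)

theorem ap_eq (x : Nat → Nat) (k : FnLL specs) : apLL (fun t => x t.cd) specs k = A5_3.ap x k :=
  Eq.refl (A5_3.ap x k)

theorem step_eq0 (e : Nat → Nat) (C p r : Nat) (k : FnLL specs) (x : Nat → Nat) :
    A5_3.ap x (step e C p r k) = apLL (interp e C p r x) specs k :=
  Eq.refl (A5_3.ap x (step e C p r k))

theorem spec_ok : specOK 4 true A5_3.mask specs = true := by decide +kernel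

theorem step_eq (e : Nat → Nat) (C p r : Nat) (k : A5_3.KK) (x : Nat → Nat) :
    A5_3.ap x (step e C p r k) = A5_3.ap (row 4 true A5_3.mask e C p r x) k :=
  ((step_eq0 e C p r k x).trans (apLL_row 4 true A5_3.mask specs spec_ok e C p r x k)).trans
    (ap_eq (row 4 true A5_3.mask e C p r x) k)

end Vale.Agent.P348.G5_3_1

namespace Vale.Agent.P348.G5_4_1

noncomputable def sp0 : List Spec :=
  [Spec.mk (nat_lit 8) (nat_lit 1) [nat_lit 14] (nat_lit 0) [nat_lit 88] true,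
   Spec.mk (nat_lit 14) (nat_lit 0) [nat_lit 32, nat_lit 8, nat_lit 20, nat_lit 16] (nat_lit 0) [nat_lit 94] true,
   Spec.mk (nat_lit 16) (nat_lit 1) [nat_lit 34, nat_lit 22, nat_lit 14] (nat_lit 0) [nat_lit 96] true,
   Spec.mk (nat_lit 20) (nat_lit 0) [nat_lit 38, nat_lit 14, nat_lit 22] (nat_lit 3) [nat_lit 100] true,
   Spec.mk (nat_lit 22) (nat_lit 0) [nat_lit 40, nat_lit 16, nat_lit 20, nat_lit 24] (nat_lit 0) [nat_lit 102] false,
   Spec.mk (nat_lit 24) (nat_lit 1) [nat_lit 42, nat_lit 22] (nat_lit 0) [] false,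
   Spec.mk (nat_lit 32) (nat_lit 0) [nat_lit 86, nat_lit 14, nat_lit 38, nat_lit 34] (nat_lit 1) [nat_lit 112] true,
   Spec.mk (nat_lit 34) (nat_lit 0) [nat_lit 88, nat_lit 16, nat_lit 40, nat_lit 32] (nat_lit 1) [nat_lit 114] false,
   Spec.mk (nat_lit 38) (nat_lit 0) [nat_lit 92, nat_lit 20, nat_lit 56, nat_lit 32, nat_lit 40] (nat_lit 2) [nat_lit 118] true,
   Spec.mk (nat_lit 40) (nat_lit 0) [nat_lit 94, nat_lit 22, nat_lit 58, nat_lit 34, nat_lit 46, nat_lit 38, nat_lit 42] (nat_lit 0) [nat_lit 120] true,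
   Spec.mk (nat_lit 42) (nat_lit 0) [nat_lit 96, nat_lit 24, nat_lit 60, nat_lit 48, nat_lit 40] (nat_lit 0) [] false,
   Spec.mk (nat_lit 46) (nat_lit 0) [nat_lit 100, nat_lit 64, nat_lit 40, nat_lit 48] (nat_lit 1) [nat_lit 126] false,
   Spec.mk (nat_lit 48) (nat_lit 1) [nat_lit 102, nat_lit 66, nat_lit 42, nat_lit 46] (nat_lit 0) [] false,
   Spec.mk (nat_lit 56) (nat_lit 0) [nat_lit 110, nat_lit 38, nat_lit 58] (nat_lit 3) [nat_lit 136] false,
   Spec.mk (nat_lit 58) (nat_lit 0) [nat_lit 112, nat_lit 40, nat_lit 64, nat_lit 56, nat_lit 60] (nat_lit 2) [nat_lit 138] false,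
   Spec.mk (nat_lit 60) (nat_lit 0) [nat_lit 114, nat_lit 42, nat_lit 66, nat_lit 58] (nat_lit 3) [] false,
   Spec.mk (nat_lit 64) (nat_lit 0) [nat_lit 118, nat_lit 46, nat_lit 58, nat_lit 66] (nat_lit 1) [nat_lit 144] false,
   Spec.mk (nat_lit 66) (nat_lit 0) [nat_lit 120, nat_lit 48, nat_lit 60, nat_lit 72, nat_lit 64] (nat_lit 0) [] false,
   Spec.mk (nat_lit 72) (nat_lit 1) [nat_lit 126, nat_lit 66] (nat_lit 0) [] false,
   Spec.mk (nat_lit 86) (nat_lit 1) [nat_lit 32, nat_lit 92, nat_lit 88] (nat_lit 0) [nat_lit 166] false,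
   Spec.mk (nat_lit 88) (nat_lit 0) [nat_lit 34, nat_lit 94, nat_lit 86] (nat_lit 0) [nat_lit 168, nat_lit 8] false,
   Spec.mk (nat_lit 92) (nat_lit 0) [nat_lit 38, nat_lit 110, nat_lit 86, nat_lit 94] (nat_lit 1) [nat_lit 172] false,
   Spec.mk (nat_lit 94) (nat_lit 0) [nat_lit 40, nat_lit 112, nat_lit 88, nat_lit 100, nat_lit 92, nat_lit 96] (nat_lit 0) [nat_lit 174, nat_lit 14] false,
   Spec.mk (nat_lit 96) (nat_lit 0) [nat_lit 42, nat_lit 114, nat_lit 102, nat_lit 94] (nat_lit 1) [nat_lit 16] false,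
   Spec.mk (nat_lit 100) (nat_lit 0) [nat_lit 46, nat_lit 118, nat_lit 94, nat_lit 102] (nat_lit 2) [nat_lit 180, nat_lit 20] false,
   Spec.mk (nat_lit 102) (nat_lit 0) [nat_lit 48, nat_lit 120, nat_lit 96, nat_lit 100] (nat_lit 1) [nat_lit 22] false,
   Spec.mk (nat_lit 110) (nat_lit 0) [nat_lit 56, nat_lit 164, nat_lit 92, nat_lit 112] (nat_lit 0) [nat_lit 190] false,
   Spec.mk (nat_lit 112) (nat_lit 0) [nat_lit 58, nat_lit 166, nat_lit 94, nat_lit 118, nat_lit 110, nat_lit 114] (nat_lit 0) [nat_lit 192, nat_lit 32] false,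
   Spec.mk (nat_lit 114) (nat_lit 0) [nat_lit 60, nat_lit 168, nat_lit 96, nat_lit 120, nat_lit 112] (nat_lit 2) [nat_lit 34] false,
   Spec.mk (nat_lit 118) (nat_lit 0) [nat_lit 64, nat_lit 172, nat_lit 100, nat_lit 136, nat_lit 112, nat_lit 120] (nat_lit 0) [nat_lit 198, nat_lit 38] false,
   Spec.mk (nat_lit 120) (nat_lit 0) [nat_lit 66, nat_lit 174, nat_lit 102, nat_lit 138, nat_lit 114, nat_lit 126, nat_lit 118] (nat_lit 0) [nat_lit 40] false,
   Spec.mk (nat_lit 126) (nat_lit 0) [nat_lit 72, nat_lit 180, nat_lit 144, nat_lit 120] (nat_lit 0) [nat_lit 46] false,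
   Spec.mk (nat_lit 136) (nat_lit 0) [nat_lit 190, nat_lit 118, nat_lit 138] (nat_lit 0) [nat_lit 216, nat_lit 56] false,
   Spec.mk (nat_lit 138) (nat_lit 0) [nat_lit 192, nat_lit 120, nat_lit 144, nat_lit 136] (nat_lit 1) [nat_lit 58] false,
   Spec.mk (nat_lit 144) (nat_lit 1) [nat_lit 198, nat_lit 126, nat_lit 138] (nat_lit 0) [nat_lit 64] false,
   Spec.mk (nat_lit 164) (nat_lit 1) [nat_lit 110, nat_lit 166] (nat_lit 0) [] false,
   Spec.mk (nat_lit 166) (nat_lit 0) [nat_lit 112, nat_lit 172, nat_lit 164, nat_lit 168] (nat_lit 0) [nat_lit 86] false,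
   Spec.mk (nat_lit 168) (nat_lit 0) [nat_lit 114, nat_lit 174, nat_lit 166] (nat_lit 3) [nat_lit 88] false,
   Spec.mk (nat_lit 172) (nat_lit 0) [nat_lit 118, nat_lit 190, nat_lit 166, nat_lit 174] (nat_lit 1) [nat_lit 92] false,
   Spec.mk (nat_lit 174) (nat_lit 0) [nat_lit 120, nat_lit 192, nat_lit 168, nat_lit 180, nat_lit 172] (nat_lit 2) [nat_lit 94] false,
   Spec.mk (nat_lit 180) (nat_lit 0) [nat_lit 126, nat_lit 198, nat_lit 174] (nat_lit 3) [nat_lit 100] false,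
   Spec.mk (nat_lit 190) (nat_lit 1) [nat_lit 136, nat_lit 172, nat_lit 192] (nat_lit 0) [nat_lit 110] false,
   Spec.mk (nat_lit 192) (nat_lit 0) [nat_lit 138, nat_lit 174, nat_lit 198, nat_lit 190] (nat_lit 1) [nat_lit 112] false,
   Spec.mk (nat_lit 198) (nat_lit 0) [nat_lit 144, nat_lit 180, nat_lit 216, nat_lit 192] (nat_lit 0) [nat_lit 118] false,
   Spec.mk (nat_lit 216) (nat_lit 1) [nat_lit 198] (nat_lit 0) [nat_lit 136] false]

noncomputable def specs : List (List Spec) :=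
    sp0 :: []

noncomputable def step (e : Nat → Nat) (C ap an : Nat) (k :
    Nat → Nat → Nat → Nat → Nat → Nat → Nat → Nat → Nat → Nat → Nat → Nat → Nat → Nat → Nat → Nat →
    Nat → Nat → Nat → Nat → Nat → Nat → Nat → Nat → Nat → Nat → Nat → Nat → Nat → Nat → Nat → Nat →
    Nat → Nat → Nat → Nat → Nat → Nat → Nat → Nat → Nat → Nat → Nat → Nat → Nat → Bool)
  (
    x8 x14 x16 x20 x22 x24 x32 x34 x38 x40 x42 x46 x48 x56 x58 x60 x64 x66 x72 x86 x88 x92 x94 x96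
    x100 x102 x110 x112 x114 x118 x120 x126 x136 x138 x144 x164 x166 x168 x172 x174 x180 x190 x192
    x198 x216 : Nat) : Bool :=
  k
    (Nat.sub (Nat.sub (Nat.add (Nat.add (Nat.add C x8) x14) (Nat.mul (e (nat_lit 8)) ap)) x88) (Nat.mul (e (nat_lit 8)) an))
    (Nat.sub (Nat.sub (Nat.add (Nat.add (Nat.add (Nat.add (Nat.add C x32) x8) x20) x16) (Nat.mul (e (nat_lit 14)) ap)) x94) (Nat.mul (e (nat_lit 14)) an))
    (Nat.sub (Nat.sub (Nat.add (Nat.add (Nat.add (Nat.add (Nat.add C x16) x34) x22) x14) (Nat.mul (e (nat_lit 16)) ap)) x96) (Nat.mul (e (nat_lit 16)) an))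
    (Nat.sub (Nat.sub (Nat.sub (Nat.add (Nat.add (Nat.add (Nat.add C x38) x14) x22) (Nat.mul (e (nat_lit 20)) ap)) (Nat.mul x20 (nat_lit 3))) x100) (Nat.mul (e (nat_lit 20)) an))
    (Nat.sub (Nat.add (Nat.add (Nat.add (Nat.add C x40) x16) x20) x24) x102)
    (Nat.add (Nat.add (Nat.add C x24) x42) x22)
    (Nat.sub (Nat.sub (Nat.sub (Nat.add (Nat.add (Nat.add (Nat.add (Nat.add C x86) x14) x38) x34) (Nat.mul (e (nat_lit 32)) ap)) x32) x112) (Nat.mul (e (nat_lit 32)) an))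
    (Nat.sub (Nat.sub (Nat.add (Nat.add (Nat.add (Nat.add C x88) x16) x40) x32) x34) x114)
    (Nat.sub (Nat.sub (Nat.sub (Nat.add (Nat.add (Nat.add (Nat.add (Nat.add (Nat.add C x92) x20) x56) x32) x40) (Nat.mul (e (nat_lit 38)) ap)) (Nat.mul x38 (nat_lit 2))) x118) (Nat.mul (e (nat_lit 38)) an))
    (Nat.sub (Nat.sub (Nat.add (Nat.add (Nat.add (Nat.add (Nat.add (Nat.add (Nat.add (Nat.add C x94) x22) x58) x34) x46) x38) x42) (Nat.mul (e (nat_lit 40)) ap)) x120) (Nat.mul (e (nat_lit 40)) an))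
    (Nat.add (Nat.add (Nat.add (Nat.add (Nat.add C x96) x24) x60) x48) x40)
    (Nat.sub (Nat.sub (Nat.add (Nat.add (Nat.add (Nat.add C x100) x64) x40) x48) x46) x126)
    (Nat.add (Nat.add (Nat.add (Nat.add (Nat.add C x48) x102) x66) x42) x46)
    (Nat.sub (Nat.sub (Nat.add (Nat.add (Nat.add C x110) x38) x58) (Nat.mul x56 (nat_lit 3))) x136)
    (Nat.sub (Nat.sub (Nat.add (Nat.add (Nat.add (Nat.add (Nat.add C x112) x40) x64) x56) x60) (Nat.mul x58 (nat_lit 2))) x138)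
    (Nat.sub (Nat.add (Nat.add (Nat.add (Nat.add C x114) x42) x66) x58) (Nat.mul x60 (nat_lit 3)))
    (Nat.sub (Nat.sub (Nat.add (Nat.add (Nat.add (Nat.add C x118) x46) x58) x66) x64) x144)
    (Nat.add (Nat.add (Nat.add (Nat.add (Nat.add C x120) x48) x60) x72) x64)
    (Nat.add (Nat.add (Nat.add C x72) x126) x66)
    (Nat.sub (Nat.add (Nat.add (Nat.add (Nat.add C x86) x32) x92) x88) x166)
    (Nat.sub (Nat.sub (Nat.add (Nat.add (Nat.add C x34) x94) x86) x168) x8)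
    (Nat.sub (Nat.sub (Nat.add (Nat.add (Nat.add (Nat.add C x38) x110) x86) x94) x92) x172)
    (Nat.sub (Nat.sub (Nat.add (Nat.add (Nat.add (Nat.add (Nat.add (Nat.add C x40) x112) x88) x100) x92) x96) x174) x14)
    (Nat.sub (Nat.sub (Nat.add (Nat.add (Nat.add (Nat.add C x42) x114) x102) x94) x96) x16)
    (Nat.sub (Nat.sub (Nat.sub (Nat.add (Nat.add (Nat.add (Nat.add C x46) x118) x94) x102) (Nat.mul x100 (nat_lit 2))) x180) x20)
    (Nat.sub (Nat.sub (Nat.add (Nat.add (Nat.add (Nat.add C x48) x120) x96) x100) x102) x22)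
    (Nat.sub (Nat.add (Nat.add (Nat.add (Nat.add C x56) x164) x92) x112) x190)
    (Nat.sub (Nat.sub (Nat.add (Nat.add (Nat.add (Nat.add (Nat.add (Nat.add C x58) x166) x94) x118) x110) x114) x192) x32)
    (Nat.sub (Nat.sub (Nat.add (Nat.add (Nat.add (Nat.add (Nat.add C x60) x168) x96) x120) x112) (Nat.mul x114 (nat_lit 2))) x34)
    (Nat.sub (Nat.sub (Nat.add (Nat.add (Nat.add (Nat.add (Nat.add (Nat.add C x64) x172) x100) x136) x112) x120) x198) x38)
    (Nat.sub (Nat.add (Nat.add (Nat.add (Nat.add (Nat.add (Nat.add (Nat.add C x66) x174) x102) x138) x114) x126) x118) x40)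
    (Nat.sub (Nat.add (Nat.add (Nat.add (Nat.add C x72) x180) x144) x120) x46)
    (Nat.sub (Nat.sub (Nat.add (Nat.add (Nat.add C x190) x118) x138) x216) x56)
    (Nat.sub (Nat.sub (Nat.add (Nat.add (Nat.add (Nat.add C x192) x120) x144) x136) x138) x58)
    (Nat.sub (Nat.add (Nat.add (Nat.add (Nat.add C x144) x198) x126) x138) x64)
    (Nat.add (Nat.add (Nat.add C x164) x110) x166)
    (Nat.sub (Nat.add (Nat.add (Nat.add (Nat.add C x112) x172) x164) x168) x86)
    (Nat.sub (Nat.sub (Nat.add (Nat.add (Nat.add C x114) x174) x166) (Nat.mul x168 (nat_lit 3))) x88)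
    (Nat.sub (Nat.sub (Nat.add (Nat.add (Nat.add (Nat.add C x118) x190) x166) x174) x172) x92)
    (Nat.sub (Nat.sub (Nat.add (Nat.add (Nat.add (Nat.add (Nat.add C x120) x192) x168) x180) x172) (Nat.mul x174 (nat_lit 2))) x94)
    (Nat.sub (Nat.sub (Nat.add (Nat.add (Nat.add C x126) x198) x174) (Nat.mul x180 (nat_lit 3))) x100)
    (Nat.sub (Nat.add (Nat.add (Nat.add (Nat.add C x190) x136) x172) x192) x110)
    (Nat.sub (Nat.sub (Nat.add (Nat.add (Nat.add (Nat.add C x138) x174) x198) x190) x192) x112)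
    (Nat.sub (Nat.add (Nat.add (Nat.add (Nat.add C x144) x180) x216) x192) x118)
    (Nat.sub (Nat.add (Nat.add C x216) x198) x136)

theorem ap_eq (x : Nat → Nat) (k : FnLL specs) : apLL (fun t => x t.cd) specs k = A5_4.ap x k :=
  Eq.refl (A5_4.ap x k)

theorem step_eq0 (e : Nat → Nat) (C p r : Nat) (k : FnLL specs) (x : Nat → Nat) :
    A5_4.ap x (step e C p r k) = apLL (interp e C p r x) specs k :=
  Eq.refl (A5_4.ap x (step e C p r k))

theorem spec_ok : specOK 4 true A5_4.mask specs = true := by decide +kernel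

theorem step_eq (e : Nat → Nat) (C p r : Nat) (k : A5_4.KK) (x : Nat → Nat) :
    A5_4.ap x (step e C p r k) = A5_4.ap (row 4 true A5_4.mask e C p r x) k :=
  ((step_eq0 e C p r k x).trans (apLL_row 4 true A5_4.mask specs spec_ok e C p r x k)).trans
    (ap_eq (row 4 true A5_4.mask e C p r x) k)

end Vale.Agent.P348.G5_4_1

namespace Vale.Agent.P348.G5_5_1

noncomputable def sp0 : List Spec :=
  [Spec.mk (nat_lit 17) (nat_lit 1) [nat_lit 35, nat_lit 23] (nat_lit 0) [nat_lit 97] true,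
   Spec.mk (nat_lit 23) (nat_lit 0) [nat_lit 41, nat_lit 17, nat_lit 25] (nat_lit 1) [nat_lit 103] true,
   Spec.mk (nat_lit 25) (nat_lit 1) [nat_lit 43, nat_lit 23] (nat_lit 0) [nat_lit 105] false,
   Spec.mk (nat_lit 35) (nat_lit 0) [nat_lit 89, nat_lit 17, nat_lit 41] (nat_lit 1) [nat_lit 115] false,
   Spec.mk (nat_lit 41) (nat_lit 0) [nat_lit 95, nat_lit 23, nat_lit 59, nat_lit 35, nat_lit 47, nat_lit 43] (nat_lit 1) [nat_lit 121] true,
   Spec.mk (nat_lit 43) (nat_lit 0) [nat_lit 97, nat_lit 25, nat_lit 61, nat_lit 49, nat_lit 41] (nat_lit 0) [nat_lit 123] true,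
   Spec.mk (nat_lit 47) (nat_lit 0) [nat_lit 101, nat_lit 65, nat_lit 41, nat_lit 49] (nat_lit 3) [nat_lit 127] true,
   Spec.mk (nat_lit 49) (nat_lit 0) [nat_lit 103, nat_lit 67, nat_lit 43, nat_lit 47, nat_lit 51] (nat_lit 0) [nat_lit 129] false,
   Spec.mk (nat_lit 51) (nat_lit 1) [nat_lit 105, nat_lit 69, nat_lit 49] (nat_lit 0) [] false,
   Spec.mk (nat_lit 59) (nat_lit 0) [nat_lit 113, nat_lit 41, nat_lit 65, nat_lit 61] (nat_lit 3) [nat_lit 139] false,
   Spec.mk (nat_lit 61) (nat_lit 0) [nat_lit 115, nat_lit 43, nat_lit 67, nat_lit 59] (nat_lit 3) [nat_lit 141] false,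
   Spec.mk (nat_lit 65) (nat_lit 0) [nat_lit 119, nat_lit 47, nat_lit 59, nat_lit 67] (nat_lit 3) [nat_lit 145] false,
   Spec.mk (nat_lit 67) (nat_lit 0) [nat_lit 121, nat_lit 49, nat_lit 61, nat_lit 73, nat_lit 65, nat_lit 69] (nat_lit 1) [nat_lit 147] false,
   Spec.mk (nat_lit 69) (nat_lit 0) [nat_lit 123, nat_lit 51, nat_lit 75, nat_lit 67] (nat_lit 1) [] false,
   Spec.mk (nat_lit 73) (nat_lit 0) [nat_lit 127, nat_lit 67, nat_lit 75] (nat_lit 1) [nat_lit 153] false,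
   Spec.mk (nat_lit 75) (nat_lit 1) [nat_lit 129, nat_lit 69, nat_lit 73] (nat_lit 0) [] false,
   Spec.mk (nat_lit 89) (nat_lit 1) [nat_lit 35, nat_lit 95] (nat_lit 0) [nat_lit 169] false,
   Spec.mk (nat_lit 95) (nat_lit 0) [nat_lit 41, nat_lit 113, nat_lit 89, nat_lit 101, nat_lit 97] (nat_lit 0) [nat_lit 175] false,
   Spec.mk (nat_lit 97) (nat_lit 0) [nat_lit 43, nat_lit 115, nat_lit 103, nat_lit 95] (nat_lit 0) [nat_lit 177, nat_lit 17] false,
   Spec.mk (nat_lit 101) (nat_lit 0) [nat_lit 47, nat_lit 119, nat_lit 95, nat_lit 103] (nat_lit 3) [nat_lit 181] false,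
   Spec.mk (nat_lit 103) (nat_lit 0) [nat_lit 49, nat_lit 121, nat_lit 97, nat_lit 101, nat_lit 105] (nat_lit 1) [nat_lit 183, nat_lit 23] false,
   Spec.mk (nat_lit 105) (nat_lit 0) [nat_lit 51, nat_lit 123, nat_lit 103] (nat_lit 1) [nat_lit 25] false,
   Spec.mk (nat_lit 113) (nat_lit 0) [nat_lit 59, nat_lit 167, nat_lit 95, nat_lit 119, nat_lit 115] (nat_lit 0) [nat_lit 193] false,
   Spec.mk (nat_lit 115) (nat_lit 0) [nat_lit 61, nat_lit 169, nat_lit 97, nat_lit 121, nat_lit 113] (nat_lit 1) [nat_lit 195, nat_lit 35] false,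
   Spec.mk (nat_lit 119) (nat_lit 0) [nat_lit 65, nat_lit 173, nat_lit 101, nat_lit 137, nat_lit 113, nat_lit 121] (nat_lit 1) [nat_lit 199] false,
   Spec.mk (nat_lit 121) (nat_lit 0) [nat_lit 67, nat_lit 175, nat_lit 103, nat_lit 139, nat_lit 115, nat_lit 127, nat_lit 119, nat_lit 123] (nat_lit 0) [nat_lit 201, nat_lit 41] true,
   Spec.mk (nat_lit 123) (nat_lit 0) [nat_lit 69, nat_lit 177, nat_lit 105, nat_lit 141, nat_lit 129, nat_lit 121] (nat_lit 1) [nat_lit 43] false,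
   Spec.mk (nat_lit 127) (nat_lit 0) [nat_lit 73, nat_lit 181, nat_lit 145, nat_lit 121, nat_lit 129] (nat_lit 1) [nat_lit 207, nat_lit 47] false,
   Spec.mk (nat_lit 129) (nat_lit 0) [nat_lit 75, nat_lit 183, nat_lit 147, nat_lit 123, nat_lit 127] (nat_lit 0) [nat_lit 49] false,
   Spec.mk (nat_lit 137) (nat_lit 0) [nat_lit 191, nat_lit 119, nat_lit 139] (nat_lit 1) [nat_lit 217] false,
   Spec.mk (nat_lit 139) (nat_lit 0) [nat_lit 193, nat_lit 121, nat_lit 145, nat_lit 137, nat_lit 141] (nat_lit 1) [nat_lit 219, nat_lit 59] false,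
   Spec.mk (nat_lit 141) (nat_lit 0) [nat_lit 195, nat_lit 123, nat_lit 147, nat_lit 139] (nat_lit 3) [nat_lit 61] false,
   Spec.mk (nat_lit 145) (nat_lit 0) [nat_lit 199, nat_lit 127, nat_lit 139, nat_lit 147] (nat_lit 0) [nat_lit 225, nat_lit 65] false,
   Spec.mk (nat_lit 147) (nat_lit 0) [nat_lit 201, nat_lit 129, nat_lit 141, nat_lit 153, nat_lit 145] (nat_lit 0) [nat_lit 67] false,
   Spec.mk (nat_lit 153) (nat_lit 1) [nat_lit 207, nat_lit 147] (nat_lit 0) [nat_lit 73] false,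
   Spec.mk (nat_lit 167) (nat_lit 1) [nat_lit 113, nat_lit 173, nat_lit 169] (nat_lit 0) [] false,
   Spec.mk (nat_lit 169) (nat_lit 0) [nat_lit 115, nat_lit 175, nat_lit 167] (nat_lit 1) [nat_lit 89] false,
   Spec.mk (nat_lit 173) (nat_lit 0) [nat_lit 119, nat_lit 191, nat_lit 167, nat_lit 175] (nat_lit 1) [] false,
   Spec.mk (nat_lit 175) (nat_lit 0) [nat_lit 121, nat_lit 193, nat_lit 169, nat_lit 181, nat_lit 173, nat_lit 177] (nat_lit 1) [nat_lit 95] false,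
   Spec.mk (nat_lit 177) (nat_lit 0) [nat_lit 123, nat_lit 195, nat_lit 183, nat_lit 175] (nat_lit 3) [nat_lit 97] false,
   Spec.mk (nat_lit 181) (nat_lit 0) [nat_lit 127, nat_lit 199, nat_lit 175, nat_lit 183] (nat_lit 3) [nat_lit 101] false,
   Spec.mk (nat_lit 183) (nat_lit 0) [nat_lit 129, nat_lit 201, nat_lit 177, nat_lit 181] (nat_lit 3) [nat_lit 103] false,
   Spec.mk (nat_lit 191) (nat_lit 1) [nat_lit 137, nat_lit 173, nat_lit 193] (nat_lit 0) [] false,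
   Spec.mk (nat_lit 193) (nat_lit 0) [nat_lit 139, nat_lit 175, nat_lit 199, nat_lit 191, nat_lit 195] (nat_lit 0) [nat_lit 113] false,
   Spec.mk (nat_lit 195) (nat_lit 0) [nat_lit 141, nat_lit 177, nat_lit 201, nat_lit 193] (nat_lit 3) [nat_lit 115] false,
   Spec.mk (nat_lit 199) (nat_lit 0) [nat_lit 145, nat_lit 181, nat_lit 217, nat_lit 193, nat_lit 201] (nat_lit 0) [nat_lit 119] false,
   Spec.mk (nat_lit 201) (nat_lit 0) [nat_lit 147, nat_lit 183, nat_lit 219, nat_lit 195, nat_lit 207, nat_lit 199] (nat_lit 1) [nat_lit 121] false,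
   Spec.mk (nat_lit 207) (nat_lit 0) [nat_lit 153, nat_lit 225, nat_lit 201] (nat_lit 1) [nat_lit 127] false,
   Spec.mk (nat_lit 217) (nat_lit 1) [nat_lit 199, nat_lit 219] (nat_lit 0) [nat_lit 137] false,
   Spec.mk (nat_lit 219) (nat_lit 0) [nat_lit 201, nat_lit 225, nat_lit 217] (nat_lit 1) [nat_lit 139] false,
   Spec.mk (nat_lit 225) (nat_lit 1) [nat_lit 207, nat_lit 219] (nat_lit 0) [nat_lit 145] false]

noncomputable def specs : List (List Spec) :=
    sp0 :: []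

noncomputable def step (e : Nat → Nat) (C ap an : Nat) (k :
    Nat → Nat → Nat → Nat → Nat → Nat → Nat → Nat → Nat → Nat → Nat → Nat → Nat → Nat → Nat → Nat →
    Nat → Nat → Nat → Nat → Nat → Nat → Nat → Nat → Nat → Nat → Nat → Nat → Nat → Nat → Nat → Nat →
    Nat → Nat → Nat → Nat → Nat → Nat → Nat → Nat → Nat → Nat → Nat → Nat → Nat → Nat → Nat → Nat →
    Nat → Nat → Nat → Bool)
  (
    x17 x23 x25 x35 x41 x43 x47 x49 x51 x59 x61 x65 x67 x69 x73 x75 x89 x95 x97 x101 x103 x105 x113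
    x115 x119 x121 x123 x127 x129 x137 x139 x141 x145 x147 x153 x167 x169 x173 x175 x177 x181 x183
    x191 x193 x195 x199 x201 x207 x217 x219 x225 : Nat) : Bool :=
  k
    (Nat.sub (Nat.sub (Nat.add (Nat.add (Nat.add (Nat.add C x17) x35) x23) (Nat.mul (e (nat_lit 17)) ap)) x97) (Nat.mul (e (nat_lit 17)) an))
    (Nat.sub (Nat.sub (Nat.sub (Nat.add (Nat.add (Nat.add (Nat.add C x41) x17) x25) (Nat.mul (e (nat_lit 23)) ap)) x23) x103) (Nat.mul (e (nat_lit 23)) an))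
    (Nat.sub (Nat.add (Nat.add (Nat.add C x25) x43) x23) x105)
    (Nat.sub (Nat.sub (Nat.add (Nat.add (Nat.add C x89) x17) x41) x35) x115)
    (Nat.sub (Nat.sub (Nat.sub (Nat.add (Nat.add (Nat.add (Nat.add (Nat.add (Nat.add (Nat.add C x95) x23) x59) x35) x47) x43) (Nat.mul (e (nat_lit 41)) ap)) x41) x121) (Nat.mul (e (nat_lit 41)) an))
    (Nat.sub (Nat.sub (Nat.add (Nat.add (Nat.add (Nat.add (Nat.add (Nat.add C x97) x25) x61) x49) x41) (Nat.mul (e (nat_lit 43)) ap)) x123) (Nat.mul (e (nat_lit 43)) an))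
    (Nat.sub (Nat.sub (Nat.sub (Nat.add (Nat.add (Nat.add (Nat.add (Nat.add C x101) x65) x41) x49) (Nat.mul (e (nat_lit 47)) ap)) (Nat.mul x47 (nat_lit 3))) x127) (Nat.mul (e (nat_lit 47)) an))
    (Nat.sub (Nat.add (Nat.add (Nat.add (Nat.add (Nat.add C x103) x67) x43) x47) x51) x129)
    (Nat.add (Nat.add (Nat.add (Nat.add C x51) x105) x69) x49)
    (Nat.sub (Nat.sub (Nat.add (Nat.add (Nat.add (Nat.add C x113) x41) x65) x61) (Nat.mul x59 (nat_lit 3))) x139)
    (Nat.sub (Nat.sub (Nat.add (Nat.add (Nat.add (Nat.add C x115) x43) x67) x59) (Nat.mul x61 (nat_lit 3))) x141)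
    (Nat.sub (Nat.sub (Nat.add (Nat.add (Nat.add (Nat.add C x119) x47) x59) x67) (Nat.mul x65 (nat_lit 3))) x145)
    (Nat.sub (Nat.sub (Nat.add (Nat.add (Nat.add (Nat.add (Nat.add (Nat.add C x121) x49) x61) x73) x65) x69) x67) x147)
    (Nat.sub (Nat.add (Nat.add (Nat.add (Nat.add C x123) x51) x75) x67) x69)
    (Nat.sub (Nat.sub (Nat.add (Nat.add (Nat.add C x127) x67) x75) x73) x153)
    (Nat.add (Nat.add (Nat.add (Nat.add C x75) x129) x69) x73)
    (Nat.sub (Nat.add (Nat.add (Nat.add C x89) x35) x95) x169)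
    (Nat.sub (Nat.add (Nat.add (Nat.add (Nat.add (Nat.add C x41) x113) x89) x101) x97) x175)
    (Nat.sub (Nat.sub (Nat.add (Nat.add (Nat.add (Nat.add C x43) x115) x103) x95) x177) x17)
    (Nat.sub (Nat.sub (Nat.add (Nat.add (Nat.add (Nat.add C x47) x119) x95) x103) (Nat.mul x101 (nat_lit 3))) x181)
    (Nat.sub (Nat.sub (Nat.sub (Nat.add (Nat.add (Nat.add (Nat.add (Nat.add C x49) x121) x97) x101) x105) x103) x183) x23)
    (Nat.sub (Nat.sub (Nat.add (Nat.add (Nat.add C x51) x123) x103) x105) x25)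
    (Nat.sub (Nat.add (Nat.add (Nat.add (Nat.add (Nat.add C x59) x167) x95) x119) x115) x193)
    (Nat.sub (Nat.sub (Nat.sub (Nat.add (Nat.add (Nat.add (Nat.add (Nat.add C x61) x169) x97) x121) x113) x115) x195) x35)
    (Nat.sub (Nat.sub (Nat.add (Nat.add (Nat.add (Nat.add (Nat.add (Nat.add C x65) x173) x101) x137) x113) x121) x119) x199)
    (Nat.sub (Nat.sub (Nat.sub (Nat.add (Nat.add (Nat.add (Nat.add (Nat.add (Nat.add (Nat.add (Nat.add (Nat.add C x67) x175) x103) x139) x115) x127) x119) x123) (Nat.mul (e (nat_lit 121)) ap)) x201) x41) (Nat.mul (e (nat_lit 121)) an))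
    (Nat.sub (Nat.sub (Nat.add (Nat.add (Nat.add (Nat.add (Nat.add (Nat.add C x69) x177) x105) x141) x129) x121) x123) x43)
    (Nat.sub (Nat.sub (Nat.sub (Nat.add (Nat.add (Nat.add (Nat.add (Nat.add C x73) x181) x145) x121) x129) x127) x207) x47)
    (Nat.sub (Nat.add (Nat.add (Nat.add (Nat.add (Nat.add C x75) x183) x147) x123) x127) x49)
    (Nat.sub (Nat.sub (Nat.add (Nat.add (Nat.add C x191) x119) x139) x137) x217)
    (Nat.sub (Nat.sub (Nat.sub (Nat.add (Nat.add (Nat.add (Nat.add (Nat.add C x193) x121) x145) x137) x141) x139) x219) x59)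
    (Nat.sub (Nat.sub (Nat.add (Nat.add (Nat.add (Nat.add C x195) x123) x147) x139) (Nat.mul x141 (nat_lit 3))) x61)
    (Nat.sub (Nat.sub (Nat.add (Nat.add (Nat.add (Nat.add C x199) x127) x139) x147) x225) x65)
    (Nat.sub (Nat.add (Nat.add (Nat.add (Nat.add (Nat.add C x201) x129) x141) x153) x145) x67)
    (Nat.sub (Nat.add (Nat.add (Nat.add C x153) x207) x147) x73)
    (Nat.add (Nat.add (Nat.add (Nat.add C x167) x113) x173) x169)
    (Nat.sub (Nat.sub (Nat.add (Nat.add (Nat.add C x115) x175) x167) x169) x89)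
    (Nat.sub (Nat.add (Nat.add (Nat.add (Nat.add C x119) x191) x167) x175) x173)
    (Nat.sub (Nat.sub (Nat.add (Nat.add (Nat.add (Nat.add (Nat.add (Nat.add C x121) x193) x169) x181) x173) x177) x175) x95)
    (Nat.sub (Nat.sub (Nat.add (Nat.add (Nat.add (Nat.add C x123) x195) x183) x175) (Nat.mul x177 (nat_lit 3))) x97)
    (Nat.sub (Nat.sub (Nat.add (Nat.add (Nat.add (Nat.add C x127) x199) x175) x183) (Nat.mul x181 (nat_lit 3))) x101)
    (Nat.sub (Nat.sub (Nat.add (Nat.add (Nat.add (Nat.add C x129) x201) x177) x181) (Nat.mul x183 (nat_lit 3))) x103)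
    (Nat.add (Nat.add (Nat.add (Nat.add C x191) x137) x173) x193)
    (Nat.sub (Nat.add (Nat.add (Nat.add (Nat.add (Nat.add C x139) x175) x199) x191) x195) x113)
    (Nat.sub (Nat.sub (Nat.add (Nat.add (Nat.add (Nat.add C x141) x177) x201) x193) (Nat.mul x195 (nat_lit 3))) x115)
    (Nat.sub (Nat.add (Nat.add (Nat.add (Nat.add (Nat.add C x145) x181) x217) x193) x201) x119)
    (Nat.sub (Nat.sub (Nat.add (Nat.add (Nat.add (Nat.add (Nat.add (Nat.add C x147) x183) x219) x195) x207) x199) x201) x121)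
    (Nat.sub (Nat.sub (Nat.add (Nat.add (Nat.add C x153) x225) x201) x207) x127)
    (Nat.sub (Nat.add (Nat.add (Nat.add C x217) x199) x219) x137)
    (Nat.sub (Nat.sub (Nat.add (Nat.add (Nat.add C x201) x225) x217) x219) x139)
    (Nat.sub (Nat.add (Nat.add (Nat.add C x225) x207) x219) x145)

theorem ap_eq (x : Nat → Nat) (k : FnLL specs) : apLL (fun t => x t.cd) specs k = A5_5.ap x k :=
  Eq.refl (A5_5.ap x k)

theorem step_eq0 (e : Nat → Nat) (C p r : Nat) (k : FnLL specs) (x : Nat → Nat) :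
    A5_5.ap x (step e C p r k) = apLL (interp e C p r x) specs k :=
  Eq.refl (A5_5.ap x (step e C p r k))

theorem spec_ok : specOK 4 true A5_5.mask specs = true := by decide +kernel

theorem step_eq (e : Nat → Nat) (C p r : Nat) (k : A5_5.KK) (x : Nat → Nat) :
    A5_5.ap x (step e C p r k) = A5_5.ap (row 4 true A5_5.mask e C p r x) k :=
  ((step_eq0 e C p r k x).trans (apLL_row 4 true A5_5.mask specs spec_ok e C p r x k)).trans
    (ap_eq (row 4 true A5_5.mask e C p r x) k)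

end Vale.Agent.P348.G5_5_1
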