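import Vale.Agent.P348.G.AS6

set_option maxRecDepth 1000000
set_option maxHeartbeats 0
set_option linter.all false

namespace Vale.Agent.P348.G6_0_1

noncomputable def sp0 : List Spec :=
  [Spec.mk (nat_lit 0) (nat_lit 6) [] (nat_lit 0) [] true]

noncomputable def specs : List (List Spec) :=
    sp0 :: []

noncomputable def step (e : Nat → Nat) (C ap an : Nat) (k :
    Nat → Bool)
  (
    x0 : Nat) : Bool :=
  k
    (Nat.sub (Nat.add (Nat.add C (Nat.mul x0 (nat_lit 6))) (Nat.mul (e (nat_lit 0)) ap)) (Nat.mul (e (nat_lit 0)) an))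

theorem ap_eq (x : Nat → Nat) (k : FnLL specs) : apLL (fun t => x t.cd) specs k = A6_0.ap x k :=
  Eq.refl (A6_0.ap x k)

theorem step_eq0 (e : Nat → Nat) (C p r : Nat) (k : FnLL specs) (x : Nat → Nat) :
    A6_0.ap x (step e C p r k) = apLL (interp e C p r x) specs k :=
  Eq.refl (A6_0.ap x (step e C p r k))

theorem spec_ok : specOK 5 true A6_0.mask specs = true := by decide +kernel

theorem step_eq (e : Nat → Nat) (C p r : Nat) (k : A6_0.KK) (x : Nat → Nat) :
    A6_0.ap x (step e C p r k) = A6_0.ap (row 5 true A6_0.mask e C p r x) k :=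
  ((step_eq0 e C p r k x).trans (apLL_row 5 true A6_0.mask specs spec_ok e C p r x k)).trans
    (ap_eq (row 5 true A6_0.mask e C p r x) k)

end Vale.Agent.P348.G6_0_1

namespace Vale.Agent.P348.G6_1_1

noncomputable def sp0 : List Spec :=
  [Spec.mk (nat_lit 1) (nat_lit 4) [nat_lit 3] (nat_lit 0) [nat_lit 243] true,
   Spec.mk (nat_lit 3) (nat_lit 4) [nat_lit 9, nat_lit 1] (nat_lit 0) [] false,
   Spec.mk (nat_lit 9) (nat_lit 4) [nat_lit 27, nat_lit 3] (nat_lit 0) [] false,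
   Spec.mk (nat_lit 27) (nat_lit 4) [nat_lit 81, nat_lit 9] (nat_lit 0) [] false,
   Spec.mk (nat_lit 81) (nat_lit 4) [nat_lit 243, nat_lit 27] (nat_lit 0) [] false,
   Spec.mk (nat_lit 243) (nat_lit 4) [nat_lit 81] (nat_lit 0) [nat_lit 1] false]

noncomputable def specs : List (List Spec) :=
    sp0 :: []

noncomputable def step (e : Nat → Nat) (C ap an : Nat) (k :
    Nat → Nat → Nat → Nat → Nat → Nat → Bool)
  (
    x1 x3 x9 x27 x81 x243 : Nat) : Bool :=
  k
    (Nat.sub (Nat.sub (Nat.add (Nat.add (Nat.add C (Nat.mul x1 (nat_lit 4))) x3) (Nat.mul (e (nat_lit 1)) ap)) x243) (Nat.mul (e (nat_lit 1)) an))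
    (Nat.add (Nat.add (Nat.add C (Nat.mul x3 (nat_lit 4))) x9) x1)
    (Nat.add (Nat.add (Nat.add C (Nat.mul x9 (nat_lit 4))) x27) x3)
    (Nat.add (Nat.add (Nat.add C (Nat.mul x27 (nat_lit 4))) x81) x9)
    (Nat.add (Nat.add (Nat.add C (Nat.mul x81 (nat_lit 4))) x243) x27)
    (Nat.sub (Nat.add (Nat.add C (Nat.mul x243 (nat_lit 4))) x81) x1)

theorem ap_eq (x : Nat → Nat) (k : FnLL specs) : apLL (fun t => x t.cd) specs k = A6_1.ap x k :=
  Eq.refl (A6_1.ap x k)

theorem step_eq0 (e : Nat → Nat) (C p r : Nat) (k : FnLL specs) (x : Nat → Nat) :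
    A6_1.ap x (step e C p r k) = apLL (interp e C p r x) specs k :=
  Eq.refl (A6_1.ap x (step e C p r k))

theorem spec_ok : specOK 5 true A6_1.mask specs = true := by decide +kernel

theorem step_eq (e : Nat → Nat) (C p r : Nat) (k : A6_1.KK) (x : Nat → Nat) :
    A6_1.ap x (step e C p r k) = A6_1.ap (row 5 true A6_1.mask e C p r x) k :=
  ((step_eq0 e C p r k x).trans (apLL_row 5 true A6_1.mask specs spec_ok e C p r x k)).trans
    (ap_eq (row 5 true A6_1.mask e C p r x) k)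

end Vale.Agent.P348.G6_1_1

namespace Vale.Agent.P348.G6_2_1

noncomputable def sp0 : List Spec :=
  [Spec.mk (nat_lit 2) (nat_lit 2) [nat_lit 4] (nat_lit 0) [nat_lit 244] true,
   Spec.mk (nat_lit 4) (nat_lit 3) [nat_lit 10, nat_lit 2, nat_lit 6] (nat_lit 0) [nat_lit 246] true,
   Spec.mk (nat_lit 6) (nat_lit 2) [nat_lit 12, nat_lit 4] (nat_lit 0) [] false,
   Spec.mk (nat_lit 10) (nat_lit 2) [nat_lit 28, nat_lit 4, nat_lit 12] (nat_lit 0) [nat_lit 252] true,
   Spec.mk (nat_lit 12) (nat_lit 3) [nat_lit 30, nat_lit 6, nat_lit 18, nat_lit 10] (nat_lit 0) [] false,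
   Spec.mk (nat_lit 18) (nat_lit 2) [nat_lit 36, nat_lit 12] (nat_lit 0) [] false,
   Spec.mk (nat_lit 28) (nat_lit 2) [nat_lit 82, nat_lit 10, nat_lit 30] (nat_lit 0) [nat_lit 270] true,
   Spec.mk (nat_lit 30) (nat_lit 2) [nat_lit 84, nat_lit 12, nat_lit 36, nat_lit 28] (nat_lit 0) [] false,
   Spec.mk (nat_lit 36) (nat_lit 3) [nat_lit 90, nat_lit 18, nat_lit 54, nat_lit 30] (nat_lit 0) [] false,
   Spec.mk (nat_lit 54) (nat_lit 2) [nat_lit 108, nat_lit 36] (nat_lit 0) [] false,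
   Spec.mk (nat_lit 82) (nat_lit 2) [nat_lit 244, nat_lit 28, nat_lit 84] (nat_lit 0) [nat_lit 324] false,
   Spec.mk (nat_lit 84) (nat_lit 2) [nat_lit 246, nat_lit 30, nat_lit 90, nat_lit 82] (nat_lit 0) [] false,
   Spec.mk (nat_lit 90) (nat_lit 2) [nat_lit 252, nat_lit 36, nat_lit 108, nat_lit 84] (nat_lit 0) [] false,
   Spec.mk (nat_lit 108) (nat_lit 3) [nat_lit 270, nat_lit 54, nat_lit 162, nat_lit 90] (nat_lit 0) [] false,
   Spec.mk (nat_lit 162) (nat_lit 2) [nat_lit 324, nat_lit 108] (nat_lit 0) [] false,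
   Spec.mk (nat_lit 244) (nat_lit 3) [nat_lit 82, nat_lit 246] (nat_lit 0) [nat_lit 486, nat_lit 2] false,
   Spec.mk (nat_lit 246) (nat_lit 2) [nat_lit 84, nat_lit 252, nat_lit 244] (nat_lit 0) [nat_lit 4] false,
   Spec.mk (nat_lit 252) (nat_lit 2) [nat_lit 90, nat_lit 270, nat_lit 246] (nat_lit 0) [nat_lit 10] false,
   Spec.mk (nat_lit 270) (nat_lit 2) [nat_lit 108, nat_lit 324, nat_lit 252] (nat_lit 0) [nat_lit 28] false,
   Spec.mk (nat_lit 324) (nat_lit 3) [nat_lit 162, nat_lit 486, nat_lit 270] (nat_lit 0) [nat_lit 82] false,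
   Spec.mk (nat_lit 486) (nat_lit 2) [nat_lit 324] (nat_lit 0) [nat_lit 244] false]

noncomputable def specs : List (List Spec) :=
    sp0 :: []

noncomputable def step (e : Nat → Nat) (C ap an : Nat) (k :
    Nat → Nat → Nat → Nat → Nat → Nat → Nat → Nat → Nat → Nat → Nat → Nat → Nat → Nat → Nat → Nat →
    Nat → Nat → Nat → Nat → Nat → Bool)
  (
    x2 x4 x6 x10 x12 x18 x28 x30 x36 x54 x82 x84 x90 x108 x162 x244 x246 x252 x270 x324 x486 : Nat) : Bool :=
  k
    (Nat.sub (Nat.sub (Nat.add (Nat.add (Nat.add C (Nat.mul x2 (nat_lit 2))) x4) (Nat.mul (e (nat_lit 2)) ap)) x244) (Nat.mul (e (nat_lit 2)) an))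
    (Nat.sub (Nat.sub (Nat.add (Nat.add (Nat.add (Nat.add (Nat.add C (Nat.mul x4 (nat_lit 3))) x10) x2) x6) (Nat.mul (e (nat_lit 4)) ap)) x246) (Nat.mul (e (nat_lit 4)) an))
    (Nat.add (Nat.add (Nat.add C (Nat.mul x6 (nat_lit 2))) x12) x4)
    (Nat.sub (Nat.sub (Nat.add (Nat.add (Nat.add (Nat.add (Nat.add C (Nat.mul x10 (nat_lit 2))) x28) x4) x12) (Nat.mul (e (nat_lit 10)) ap)) x252) (Nat.mul (e (nat_lit 10)) an))
    (Nat.add (Nat.add (Nat.add (Nat.add (Nat.add C (Nat.mul x12 (nat_lit 3))) x30) x6) x18) x10)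
    (Nat.add (Nat.add (Nat.add C (Nat.mul x18 (nat_lit 2))) x36) x12)
    (Nat.sub (Nat.sub (Nat.add (Nat.add (Nat.add (Nat.add (Nat.add C (Nat.mul x28 (nat_lit 2))) x82) x10) x30) (Nat.mul (e (nat_lit 28)) ap)) x270) (Nat.mul (e (nat_lit 28)) an))
    (Nat.add (Nat.add (Nat.add (Nat.add (Nat.add C (Nat.mul x30 (nat_lit 2))) x84) x12) x36) x28)
    (Nat.add (Nat.add (Nat.add (Nat.add (Nat.add C (Nat.mul x36 (nat_lit 3))) x90) x18) x54) x30)
    (Nat.add (Nat.add (Nat.add C (Nat.mul x54 (nat_lit 2))) x108) x36)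
    (Nat.sub (Nat.add (Nat.add (Nat.add (Nat.add C (Nat.mul x82 (nat_lit 2))) x244) x28) x84) x324)
    (Nat.add (Nat.add (Nat.add (Nat.add (Nat.add C (Nat.mul x84 (nat_lit 2))) x246) x30) x90) x82)
    (Nat.add (Nat.add (Nat.add (Nat.add (Nat.add C (Nat.mul x90 (nat_lit 2))) x252) x36) x108) x84)
    (Nat.add (Nat.add (Nat.add (Nat.add (Nat.add C (Nat.mul x108 (nat_lit 3))) x270) x54) x162) x90)
    (Nat.add (Nat.add (Nat.add C (Nat.mul x162 (nat_lit 2))) x324) x108)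
    (Nat.sub (Nat.sub (Nat.add (Nat.add (Nat.add C (Nat.mul x244 (nat_lit 3))) x82) x246) x486) x2)
    (Nat.sub (Nat.add (Nat.add (Nat.add (Nat.add C (Nat.mul x246 (nat_lit 2))) x84) x252) x244) x4)
    (Nat.sub (Nat.add (Nat.add (Nat.add (Nat.add C (Nat.mul x252 (nat_lit 2))) x90) x270) x246) x10)
    (Nat.sub (Nat.add (Nat.add (Nat.add (Nat.add C (Nat.mul x270 (nat_lit 2))) x108) x324) x252) x28)
    (Nat.sub (Nat.add (Nat.add (Nat.add (Nat.add C (Nat.mul x324 (nat_lit 3))) x162) x486) x270) x82)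
    (Nat.sub (Nat.add (Nat.add C (Nat.mul x486 (nat_lit 2))) x324) x244)

theorem ap_eq (x : Nat → Nat) (k : FnLL specs) : apLL (fun t => x t.cd) specs k = A6_2.ap x k :=
  Eq.refl (A6_2.ap x k)

theorem step_eq0 (e : Nat → Nat) (C p r : Nat) (k : FnLL specs) (x : Nat → Nat) :
    A6_2.ap x (step e C p r k) = apLL (interp e C p r x) specs k :=
  Eq.refl (A6_2.ap x (step e C p r k))

theorem spec_ok : specOK 5 true A6_2.mask specs = true := by decide +kernel

theorem step_eq (e : Nat → Nat) (C p r : Nat) (k : A6_2.KK) (x : Nat → Nat) :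
    A6_2.ap x (step e C p r k) = A6_2.ap (row 5 true A6_2.mask e C p r x) k :=
  ((step_eq0 e C p r k x).trans (apLL_row 5 true A6_2.mask specs spec_ok e C p r x k)).trans
    (ap_eq (row 5 true A6_2.mask e C p r x) k)

end Vale.Agent.P348.G6_2_1

namespace Vale.Agent.P348.G6_3_1

noncomputable def sp0 : List Spec :=
  [Spec.mk (nat_lit 5) (nat_lit 2) [nat_lit 11, nat_lit 7] (nat_lit 0) [nat_lit 247] true,
   Spec.mk (nat_lit 7) (nat_lit 2) [nat_lit 13, nat_lit 5] (nat_lit 0) [nat_lit 249] false,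
   Spec.mk (nat_lit 11) (nat_lit 0) [nat_lit 29, nat_lit 5, nat_lit 13] (nat_lit 0) [nat_lit 253] true,
   Spec.mk (nat_lit 13) (nat_lit 2) [nat_lit 31, nat_lit 7, nat_lit 19, nat_lit 11, nat_lit 15] (nat_lit 0) [nat_lit 255] true,
   Spec.mk (nat_lit 15) (nat_lit 2) [nat_lit 33, nat_lit 21, nat_lit 13] (nat_lit 0) [] false,
   Spec.mk (nat_lit 19) (nat_lit 0) [nat_lit 37, nat_lit 13, nat_lit 21] (nat_lit 0) [nat_lit 261] false,
   Spec.mk (nat_lit 21) (nat_lit 2) [nat_lit 39, nat_lit 15, nat_lit 19] (nat_lit 0) [] false,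
   Spec.mk (nat_lit 29) (nat_lit 0) [nat_lit 83, nat_lit 11, nat_lit 31] (nat_lit 0) [nat_lit 271] true,
   Spec.mk (nat_lit 31) (nat_lit 1) [nat_lit 85, nat_lit 13, nat_lit 37, nat_lit 29, nat_lit 33] (nat_lit 0) [nat_lit 273] true,
   Spec.mk (nat_lit 33) (nat_lit 0) [nat_lit 87, nat_lit 15, nat_lit 39, nat_lit 31] (nat_lit 0) [] false,
   Spec.mk (nat_lit 37) (nat_lit 1) [nat_lit 91, nat_lit 19, nat_lit 55, nat_lit 31, nat_lit 39] (nat_lit 0) [nat_lit 279] false,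
   Spec.mk (nat_lit 39) (nat_lit 2) [nat_lit 93, nat_lit 21, nat_lit 57, nat_lit 33, nat_lit 45, nat_lit 37] (nat_lit 0) [] false,
   Spec.mk (nat_lit 45) (nat_lit 2) [nat_lit 99, nat_lit 63, nat_lit 39] (nat_lit 0) [] false,
   Spec.mk (nat_lit 55) (nat_lit 0) [nat_lit 109, nat_lit 37, nat_lit 57] (nat_lit 0) [nat_lit 297] false,
   Spec.mk (nat_lit 57) (nat_lit 0) [nat_lit 111, nat_lit 39, nat_lit 63, nat_lit 55] (nat_lit 0) [] false,
   Spec.mk (nat_lit 63) (nat_lit 2) [nat_lit 117, nat_lit 45, nat_lit 57] (nat_lit 0) [] false,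
   Spec.mk (nat_lit 83) (nat_lit 0) [nat_lit 245, nat_lit 29, nat_lit 85] (nat_lit 0) [nat_lit 325] false,
   Spec.mk (nat_lit 85) (nat_lit 1) [nat_lit 247, nat_lit 31, nat_lit 91, nat_lit 83, nat_lit 87] (nat_lit 0) [nat_lit 327] false,
   Spec.mk (nat_lit 87) (nat_lit 0) [nat_lit 249, nat_lit 33, nat_lit 93, nat_lit 85] (nat_lit 0) [] false,
   Spec.mk (nat_lit 91) (nat_lit 0) [nat_lit 253, nat_lit 37, nat_lit 109, nat_lit 85, nat_lit 93] (nat_lit 0) [nat_lit 333] true,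
   Spec.mk (nat_lit 93) (nat_lit 1) [nat_lit 255, nat_lit 39, nat_lit 111, nat_lit 87, nat_lit 99, nat_lit 91] (nat_lit 0) [] false,
   Spec.mk (nat_lit 99) (nat_lit 0) [nat_lit 261, nat_lit 45, nat_lit 117, nat_lit 93] (nat_lit 0) [] false,
   Spec.mk (nat_lit 109) (nat_lit 1) [nat_lit 271, nat_lit 55, nat_lit 163, nat_lit 91, nat_lit 111] (nat_lit 0) [nat_lit 351] false,
   Spec.mk (nat_lit 111) (nat_lit 1) [nat_lit 273, nat_lit 57, nat_lit 165, nat_lit 93, nat_lit 117, nat_lit 109] (nat_lit 0) [] false,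
   Spec.mk (nat_lit 117) (nat_lit 2) [nat_lit 279, nat_lit 63, nat_lit 171, nat_lit 99, nat_lit 135, nat_lit 111] (nat_lit 0) [] false,
   Spec.mk (nat_lit 135) (nat_lit 2) [nat_lit 297, nat_lit 189, nat_lit 117] (nat_lit 0) [] false,
   Spec.mk (nat_lit 163) (nat_lit 0) [nat_lit 325, nat_lit 109, nat_lit 165] (nat_lit 0) [nat_lit 405] false,
   Spec.mk (nat_lit 165) (nat_lit 0) [nat_lit 327, nat_lit 111, nat_lit 171, nat_lit 163] (nat_lit 0) [] false,
   Spec.mk (nat_lit 171) (nat_lit 0) [nat_lit 333, nat_lit 117, nat_lit 189, nat_lit 165] (nat_lit 0) [] false,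
   Spec.mk (nat_lit 189) (nat_lit 2) [nat_lit 351, nat_lit 135, nat_lit 171] (nat_lit 0) [] false,
   Spec.mk (nat_lit 245) (nat_lit 2) [nat_lit 83, nat_lit 247] (nat_lit 0) [nat_lit 487] false,
   Spec.mk (nat_lit 247) (nat_lit 2) [nat_lit 85, nat_lit 253, nat_lit 245, nat_lit 249] (nat_lit 0) [nat_lit 489, nat_lit 5] false,
   Spec.mk (nat_lit 249) (nat_lit 0) [nat_lit 87, nat_lit 255, nat_lit 247] (nat_lit 0) [nat_lit 7] false,
   Spec.mk (nat_lit 253) (nat_lit 1) [nat_lit 91, nat_lit 271, nat_lit 247, nat_lit 255] (nat_lit 0) [nat_lit 495, nat_lit 11] false,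
   Spec.mk (nat_lit 255) (nat_lit 1) [nat_lit 93, nat_lit 273, nat_lit 249, nat_lit 261, nat_lit 253] (nat_lit 0) [nat_lit 13] false,
   Spec.mk (nat_lit 261) (nat_lit 0) [nat_lit 99, nat_lit 279, nat_lit 255] (nat_lit 0) [nat_lit 19] false,
   Spec.mk (nat_lit 271) (nat_lit 1) [nat_lit 109, nat_lit 325, nat_lit 253, nat_lit 273] (nat_lit 0) [nat_lit 513, nat_lit 29] false,
   Spec.mk (nat_lit 273) (nat_lit 0) [nat_lit 111, nat_lit 327, nat_lit 255, nat_lit 279, nat_lit 271] (nat_lit 0) [nat_lit 31] false,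
   Spec.mk (nat_lit 279) (nat_lit 1) [nat_lit 117, nat_lit 333, nat_lit 261, nat_lit 297, nat_lit 273] (nat_lit 0) [nat_lit 37] false,
   Spec.mk (nat_lit 297) (nat_lit 0) [nat_lit 135, nat_lit 351, nat_lit 279] (nat_lit 0) [nat_lit 55] false,
   Spec.mk (nat_lit 325) (nat_lit 2) [nat_lit 163, nat_lit 487, nat_lit 271, nat_lit 327] (nat_lit 0) [nat_lit 567, nat_lit 83] false,
   Spec.mk (nat_lit 327) (nat_lit 1) [nat_lit 165, nat_lit 489, nat_lit 273, nat_lit 333, nat_lit 325] (nat_lit 0) [nat_lit 85] false,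
   Spec.mk (nat_lit 333) (nat_lit 1) [nat_lit 171, nat_lit 495, nat_lit 279, nat_lit 351, nat_lit 327] (nat_lit 0) [nat_lit 91] false,
   Spec.mk (nat_lit 351) (nat_lit 2) [nat_lit 189, nat_lit 513, nat_lit 297, nat_lit 405, nat_lit 333] (nat_lit 0) [nat_lit 109] false,
   Spec.mk (nat_lit 405) (nat_lit 2) [nat_lit 567, nat_lit 351] (nat_lit 0) [nat_lit 163] false,
   Spec.mk (nat_lit 487) (nat_lit 2) [nat_lit 325, nat_lit 489] (nat_lit 0) [nat_lit 245] false,
   Spec.mk (nat_lit 489) (nat_lit 0) [nat_lit 327, nat_lit 495, nat_lit 487] (nat_lit 0) [nat_lit 247] false,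
   Spec.mk (nat_lit 495) (nat_lit 0) [nat_lit 333, nat_lit 513, nat_lit 489] (nat_lit 0) [nat_lit 253] false,
   Spec.mk (nat_lit 513) (nat_lit 0) [nat_lit 351, nat_lit 567, nat_lit 495] (nat_lit 0) [nat_lit 271] false,
   Spec.mk (nat_lit 567) (nat_lit 2) [nat_lit 405, nat_lit 513] (nat_lit 0) [nat_lit 325] false]

noncomputable def specs : List (List Spec) :=
    sp0 :: []

noncomputable def step (e : Nat → Nat) (C ap an : Nat) (k :
    Nat → Nat → Nat → Nat → Nat → Nat → Nat → Nat → Nat → Nat → Nat → Nat → Nat → Nat → Nat → Nat →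
    Nat → Nat → Nat → Nat → Nat → Nat → Nat → Nat → Nat → Nat → Nat → Nat → Nat → Nat → Nat → Nat →
    Nat → Nat → Nat → Nat → Nat → Nat → Nat → Nat → Nat → Nat → Nat → Nat → Nat → Nat → Nat → Nat →
    Nat → Nat → Bool)
  (
    x5 x7 x11 x13 x15 x19 x21 x29 x31 x33 x37 x39 x45 x55 x57 x63 x83 x85 x87 x91 x93 x99 x109 x111
    x117 x135 x163 x165 x171 x189 x245 x247 x249 x253 x255 x261 x271 x273 x279 x297 x325 x327 x333
    x351 x405 x487 x489 x495 x513 x567 : Nat) : Bool :=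
  k
    (Nat.sub (Nat.sub (Nat.add (Nat.add (Nat.add (Nat.add C (Nat.mul x5 (nat_lit 2))) x11) x7) (Nat.mul (e (nat_lit 5)) ap)) x247) (Nat.mul (e (nat_lit 5)) an))
    (Nat.sub (Nat.add (Nat.add (Nat.add C (Nat.mul x7 (nat_lit 2))) x13) x5) x249)
    (Nat.sub (Nat.sub (Nat.add (Nat.add (Nat.add (Nat.add C x29) x5) x13) (Nat.mul (e (nat_lit 11)) ap)) x253) (Nat.mul (e (nat_lit 11)) an))
    (Nat.sub (Nat.sub (Nat.add (Nat.add (Nat.add (Nat.add (Nat.add (Nat.add (Nat.add C (Nat.mul x13 (nat_lit 2))) x31) x7) x19) x11) x15) (Nat.mul (e (nat_lit 13)) ap)) x255) (Nat.mul (e (nat_lit 13)) an))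
    (Nat.add (Nat.add (Nat.add (Nat.add C (Nat.mul x15 (nat_lit 2))) x33) x21) x13)
    (Nat.sub (Nat.add (Nat.add (Nat.add C x37) x13) x21) x261)
    (Nat.add (Nat.add (Nat.add (Nat.add C (Nat.mul x21 (nat_lit 2))) x39) x15) x19)
    (Nat.sub (Nat.sub (Nat.add (Nat.add (Nat.add (Nat.add C x83) x11) x31) (Nat.mul (e (nat_lit 29)) ap)) x271) (Nat.mul (e (nat_lit 29)) an))
    (Nat.sub (Nat.sub (Nat.add (Nat.add (Nat.add (Nat.add (Nat.add (Nat.add (Nat.add C x31) x85) x13) x37) x29) x33) (Nat.mul (e (nat_lit 31)) ap)) x273) (Nat.mul (e (nat_lit 31)) an))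
    (Nat.add (Nat.add (Nat.add (Nat.add C x87) x15) x39) x31)
    (Nat.sub (Nat.add (Nat.add (Nat.add (Nat.add (Nat.add (Nat.add C x37) x91) x19) x55) x31) x39) x279)
    (Nat.add (Nat.add (Nat.add (Nat.add (Nat.add (Nat.add (Nat.add C (Nat.mul x39 (nat_lit 2))) x93) x21) x57) x33) x45) x37)
    (Nat.add (Nat.add (Nat.add (Nat.add C (Nat.mul x45 (nat_lit 2))) x99) x63) x39)
    (Nat.sub (Nat.add (Nat.add (Nat.add C x109) x37) x57) x297)
    (Nat.add (Nat.add (Nat.add (Nat.add C x111) x39) x63) x55)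
    (Nat.add (Nat.add (Nat.add (Nat.add C (Nat.mul x63 (nat_lit 2))) x117) x45) x57)
    (Nat.sub (Nat.add (Nat.add (Nat.add C x245) x29) x85) x325)
    (Nat.sub (Nat.add (Nat.add (Nat.add (Nat.add (Nat.add (Nat.add C x85) x247) x31) x91) x83) x87) x327)
    (Nat.add (Nat.add (Nat.add (Nat.add C x249) x33) x93) x85)
    (Nat.sub (Nat.sub (Nat.add (Nat.add (Nat.add (Nat.add (Nat.add (Nat.add C x253) x37) x109) x85) x93) (Nat.mul (e (nat_lit 91)) ap)) x333) (Nat.mul (e (nat_lit 91)) an))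
    (Nat.add (Nat.add (Nat.add (Nat.add (Nat.add (Nat.add (Nat.add C x93) x255) x39) x111) x87) x99) x91)
    (Nat.add (Nat.add (Nat.add (Nat.add C x261) x45) x117) x93)
    (Nat.sub (Nat.add (Nat.add (Nat.add (Nat.add (Nat.add (Nat.add C x109) x271) x55) x163) x91) x111) x351)
    (Nat.add (Nat.add (Nat.add (Nat.add (Nat.add (Nat.add (Nat.add C x111) x273) x57) x165) x93) x117) x109)
    (Nat.add (Nat.add (Nat.add (Nat.add (Nat.add (Nat.add (Nat.add C (Nat.mul x117 (nat_lit 2))) x279) x63) x171) x99) x135) x111)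
    (Nat.add (Nat.add (Nat.add (Nat.add C (Nat.mul x135 (nat_lit 2))) x297) x189) x117)
    (Nat.sub (Nat.add (Nat.add (Nat.add C x325) x109) x165) x405)
    (Nat.add (Nat.add (Nat.add (Nat.add C x327) x111) x171) x163)
    (Nat.add (Nat.add (Nat.add (Nat.add C x333) x117) x189) x165)
    (Nat.add (Nat.add (Nat.add (Nat.add C (Nat.mul x189 (nat_lit 2))) x351) x135) x171)
    (Nat.sub (Nat.add (Nat.add (Nat.add C (Nat.mul x245 (nat_lit 2))) x83) x247) x487)
    (Nat.sub (Nat.sub (Nat.add (Nat.add (Nat.add (Nat.add (Nat.add C (Nat.mul x247 (nat_lit 2))) x85) x253) x245) x249) x489) x5)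
    (Nat.sub (Nat.add (Nat.add (Nat.add C x87) x255) x247) x7)
    (Nat.sub (Nat.sub (Nat.add (Nat.add (Nat.add (Nat.add (Nat.add C x253) x91) x271) x247) x255) x495) x11)
    (Nat.sub (Nat.add (Nat.add (Nat.add (Nat.add (Nat.add (Nat.add C x255) x93) x273) x249) x261) x253) x13)
    (Nat.sub (Nat.add (Nat.add (Nat.add C x99) x279) x255) x19)
    (Nat.sub (Nat.sub (Nat.add (Nat.add (Nat.add (Nat.add (Nat.add C x271) x109) x325) x253) x273) x513) x29)
    (Nat.sub (Nat.add (Nat.add (Nat.add (Nat.add (Nat.add C x111) x327) x255) x279) x271) x31)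
    (Nat.sub (Nat.add (Nat.add (Nat.add (Nat.add (Nat.add (Nat.add C x279) x117) x333) x261) x297) x273) x37)
    (Nat.sub (Nat.add (Nat.add (Nat.add C x135) x351) x279) x55)
    (Nat.sub (Nat.sub (Nat.add (Nat.add (Nat.add (Nat.add (Nat.add C (Nat.mul x325 (nat_lit 2))) x163) x487) x271) x327) x567) x83)
    (Nat.sub (Nat.add (Nat.add (Nat.add (Nat.add (Nat.add (Nat.add C x327) x165) x489) x273) x333) x325) x85)
    (Nat.sub (Nat.add (Nat.add (Nat.add (Nat.add (Nat.add (Nat.add C x333) x171) x495) x279) x351) x327) x91)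
    (Nat.sub (Nat.add (Nat.add (Nat.add (Nat.add (Nat.add (Nat.add C (Nat.mul x351 (nat_lit 2))) x189) x513) x297) x405) x333) x109)
    (Nat.sub (Nat.add (Nat.add (Nat.add C (Nat.mul x405 (nat_lit 2))) x567) x351) x163)
    (Nat.sub (Nat.add (Nat.add (Nat.add C (Nat.mul x487 (nat_lit 2))) x325) x489) x245)
    (Nat.sub (Nat.add (Nat.add (Nat.add C x327) x495) x487) x247)
    (Nat.sub (Nat.add (Nat.add (Nat.add C x333) x513) x489) x253)
    (Nat.sub (Nat.add (Nat.add (Nat.add C x351) x567) x495) x271)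
    (Nat.sub (Nat.add (Nat.add (Nat.add C (Nat.mul x567 (nat_lit 2))) x405) x513) x325)

theorem ap_eq (x : Nat → Nat) (k : FnLL specs) : apLL (fun t => x t.cd) specs k = A6_3.ap x k :=
  Eq.refl (A6_3.ap x k)

theorem step_eq0 (e : Nat → Nat) (C p r : Nat) (k : FnLL specs) (x : Nat → Nat) :
    A6_3.ap x (step e C p r k) = apLL (interp e C p r x) specs k :=
  Eq.refl (A6_3.ap x (step e C p r k))

theorem spec_ok : specOK 5 true A6_3.mask specs = true := by decide +kernel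

theorem step_eq (e : Nat → Nat) (C p r : Nat) (k : A6_3.KK) (x : Nat → Nat) :
    A6_3.ap x (step e C p r k) = A6_3.ap (row 5 true A6_3.mask e C p r x) k :=
  ((step_eq0 e C p r k x).trans (apLL_row 5 true A6_3.mask specs spec_ok e C p r x k)).trans
    (ap_eq (row 5 true A6_3.mask e C p r x) k)

end Vale.Agent.P348.G6_3_1

namespace Vale.Agent.P348.G6_4_1

noncomputable def sp0 : List Spec :=
  [Spec.mk (nat_lit 8) (nat_lit 2) [nat_lit 14] (nat_lit 0) [nat_lit 250] true,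
   Spec.mk (nat_lit 14) (nat_lit 1) [nat_lit 32, nat_lit 8, nat_lit 20, nat_lit 16] (nat_lit 0) [nat_lit 256] true,
   Spec.mk (nat_lit 16) (nat_lit 2) [nat_lit 34, nat_lit 22, nat_lit 14] (nat_lit 0) [nat_lit 258] true,
   Spec.mk (nat_lit 20) (nat_lit 0) [nat_lit 38, nat_lit 14, nat_lit 22] (nat_lit 2) [nat_lit 262] true,
   Spec.mk (nat_lit 22) (nat_lit 1) [nat_lit 40, nat_lit 16, nat_lit 20, nat_lit 24] (nat_lit 0) [nat_lit 264] false,
   Spec.mk (nat_lit 24) (nat_lit 2) [nat_lit 42, nat_lit 22] (nat_lit 0) [] false,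
   Spec.mk (nat_lit 32) (nat_lit 0) [nat_lit 86, nat_lit 14, nat_lit 38, nat_lit 34] (nat_lit 0) [nat_lit 274] true,
   Spec.mk (nat_lit 34) (nat_lit 0) [nat_lit 88, nat_lit 16, nat_lit 40, nat_lit 32] (nat_lit 0) [nat_lit 276] true,
   Spec.mk (nat_lit 38) (nat_lit 0) [nat_lit 92, nat_lit 20, nat_lit 56, nat_lit 32, nat_lit 40] (nat_lit 1) [nat_lit 280] true,
   Spec.mk (nat_lit 40) (nat_lit 1) [nat_lit 94, nat_lit 22, nat_lit 58, nat_lit 34, nat_lit 46, nat_lit 38, nat_lit 42] (nat_lit 0) [nat_lit 282] true,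
   Spec.mk (nat_lit 42) (nat_lit 1) [nat_lit 96, nat_lit 24, nat_lit 60, nat_lit 48, nat_lit 40] (nat_lit 0) [] false,
   Spec.mk (nat_lit 46) (nat_lit 0) [nat_lit 100, nat_lit 64, nat_lit 40, nat_lit 48] (nat_lit 0) [nat_lit 288] false,
   Spec.mk (nat_lit 48) (nat_lit 2) [nat_lit 102, nat_lit 66, nat_lit 42, nat_lit 46] (nat_lit 0) [] false,
   Spec.mk (nat_lit 56) (nat_lit 0) [nat_lit 110, nat_lit 38, nat_lit 58] (nat_lit 2) [nat_lit 298] true,
   Spec.mk (nat_lit 58) (nat_lit 0) [nat_lit 112, nat_lit 40, nat_lit 64, nat_lit 56, nat_lit 60] (nat_lit 1) [nat_lit 300] false,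
   Spec.mk (nat_lit 60) (nat_lit 0) [nat_lit 114, nat_lit 42, nat_lit 66, nat_lit 58] (nat_lit 2) [] false,
   Spec.mk (nat_lit 64) (nat_lit 0) [nat_lit 118, nat_lit 46, nat_lit 58, nat_lit 66] (nat_lit 0) [nat_lit 306] false,
   Spec.mk (nat_lit 66) (nat_lit 1) [nat_lit 120, nat_lit 48, nat_lit 60, nat_lit 72, nat_lit 64] (nat_lit 0) [] false,
   Spec.mk (nat_lit 72) (nat_lit 2) [nat_lit 126, nat_lit 66] (nat_lit 0) [] false,
   Spec.mk (nat_lit 86) (nat_lit 0) [nat_lit 248, nat_lit 32, nat_lit 92, nat_lit 88] (nat_lit 0) [nat_lit 328] false,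
   Spec.mk (nat_lit 88) (nat_lit 0) [nat_lit 250, nat_lit 34, nat_lit 94, nat_lit 86] (nat_lit 0) [nat_lit 330] false,
   Spec.mk (nat_lit 92) (nat_lit 0) [nat_lit 254, nat_lit 38, nat_lit 110, nat_lit 86, nat_lit 94] (nat_lit 2) [nat_lit 334] true,
   Spec.mk (nat_lit 94) (nat_lit 0) [nat_lit 256, nat_lit 40, nat_lit 112, nat_lit 88, nat_lit 100, nat_lit 92, nat_lit 96] (nat_lit 0) [nat_lit 336] true,
   Spec.mk (nat_lit 96) (nat_lit 0) [nat_lit 258, nat_lit 42, nat_lit 114, nat_lit 102, nat_lit 94] (nat_lit 0) [] false,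
   Spec.mk (nat_lit 100) (nat_lit 0) [nat_lit 262, nat_lit 46, nat_lit 118, nat_lit 94, nat_lit 102] (nat_lit 2) [nat_lit 342] false,
   Spec.mk (nat_lit 102) (nat_lit 0) [nat_lit 264, nat_lit 48, nat_lit 120, nat_lit 96, nat_lit 100] (nat_lit 0) [] false,
   Spec.mk (nat_lit 110) (nat_lit 0) [nat_lit 272, nat_lit 56, nat_lit 164, nat_lit 92, nat_lit 112] (nat_lit 1) [nat_lit 352] false,
   Spec.mk (nat_lit 112) (nat_lit 0) [nat_lit 274, nat_lit 58, nat_lit 166, nat_lit 94, nat_lit 118, nat_lit 110, nat_lit 114] (nat_lit 0) [nat_lit 354] true,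
   Spec.mk (nat_lit 114) (nat_lit 0) [nat_lit 276, nat_lit 60, nat_lit 168, nat_lit 96, nat_lit 120, nat_lit 112] (nat_lit 1) [] false,
   Spec.mk (nat_lit 118) (nat_lit 0) [nat_lit 280, nat_lit 64, nat_lit 172, nat_lit 100, nat_lit 136, nat_lit 112, nat_lit 120] (nat_lit 0) [nat_lit 360] false,
   Spec.mk (nat_lit 120) (nat_lit 1) [nat_lit 282, nat_lit 66, nat_lit 174, nat_lit 102, nat_lit 138, nat_lit 114, nat_lit 126, nat_lit 118] (nat_lit 0) [] false,
   Spec.mk (nat_lit 126) (nat_lit 1) [nat_lit 288, nat_lit 72, nat_lit 180, nat_lit 144, nat_lit 120] (nat_lit 0) [] false,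
   Spec.mk (nat_lit 136) (nat_lit 0) [nat_lit 298, nat_lit 190, nat_lit 118, nat_lit 138] (nat_lit 0) [nat_lit 378] false,
   Spec.mk (nat_lit 138) (nat_lit 0) [nat_lit 300, nat_lit 192, nat_lit 120, nat_lit 144, nat_lit 136] (nat_lit 0) [] false,
   Spec.mk (nat_lit 144) (nat_lit 2) [nat_lit 306, nat_lit 198, nat_lit 126, nat_lit 138] (nat_lit 0) [] false,
   Spec.mk (nat_lit 164) (nat_lit 0) [nat_lit 326, nat_lit 110, nat_lit 166] (nat_lit 2) [nat_lit 406] false,
   Spec.mk (nat_lit 166) (nat_lit 0) [nat_lit 328, nat_lit 112, nat_lit 172, nat_lit 164, nat_lit 168] (nat_lit 1) [nat_lit 408] false,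
   Spec.mk (nat_lit 168) (nat_lit 0) [nat_lit 330, nat_lit 114, nat_lit 174, nat_lit 166] (nat_lit 2) [] false,
   Spec.mk (nat_lit 172) (nat_lit 0) [nat_lit 334, nat_lit 118, nat_lit 190, nat_lit 166, nat_lit 174] (nat_lit 2) [nat_lit 414] false,
   Spec.mk (nat_lit 174) (nat_lit 0) [nat_lit 336, nat_lit 120, nat_lit 192, nat_lit 168, nat_lit 180, nat_lit 172] (nat_lit 1) [] false,
   Spec.mk (nat_lit 180) (nat_lit 0) [nat_lit 342, nat_lit 126, nat_lit 198, nat_lit 174] (nat_lit 2) [] false,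
   Spec.mk (nat_lit 190) (nat_lit 0) [nat_lit 352, nat_lit 136, nat_lit 172, nat_lit 192] (nat_lit 0) [nat_lit 432] false,
   Spec.mk (nat_lit 192) (nat_lit 0) [nat_lit 354, nat_lit 138, nat_lit 174, nat_lit 198, nat_lit 190] (nat_lit 0) [] false,
   Spec.mk (nat_lit 198) (nat_lit 1) [nat_lit 360, nat_lit 144, nat_lit 180, nat_lit 216, nat_lit 192] (nat_lit 0) [] false,
   Spec.mk (nat_lit 216) (nat_lit 2) [nat_lit 378, nat_lit 198] (nat_lit 0) [] false,
   Spec.mk (nat_lit 248) (nat_lit 2) [nat_lit 86, nat_lit 254, nat_lit 250] (nat_lit 0) [nat_lit 490] false,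
   Spec.mk (nat_lit 250) (nat_lit 1) [nat_lit 88, nat_lit 256, nat_lit 248] (nat_lit 0) [nat_lit 492, nat_lit 8] false,
   Spec.mk (nat_lit 254) (nat_lit 0) [nat_lit 92, nat_lit 272, nat_lit 248, nat_lit 256] (nat_lit 0) [nat_lit 496] false,
   Spec.mk (nat_lit 256) (nat_lit 1) [nat_lit 94, nat_lit 274, nat_lit 250, nat_lit 262, nat_lit 254, nat_lit 258] (nat_lit 0) [nat_lit 498, nat_lit 14] false,
   Spec.mk (nat_lit 258) (nat_lit 0) [nat_lit 96, nat_lit 276, nat_lit 264, nat_lit 256] (nat_lit 0) [nat_lit 16] false,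
   Spec.mk (nat_lit 262) (nat_lit 0) [nat_lit 100, nat_lit 280, nat_lit 256, nat_lit 264] (nat_lit 1) [nat_lit 504, nat_lit 20] false,
   Spec.mk (nat_lit 264) (nat_lit 0) [nat_lit 102, nat_lit 282, nat_lit 258, nat_lit 262] (nat_lit 0) [nat_lit 22] false,
   Spec.mk (nat_lit 272) (nat_lit 0) [nat_lit 110, nat_lit 326, nat_lit 254, nat_lit 274] (nat_lit 0) [nat_lit 514] false,
   Spec.mk (nat_lit 274) (nat_lit 0) [nat_lit 112, nat_lit 328, nat_lit 256, nat_lit 280, nat_lit 272, nat_lit 276] (nat_lit 0) [nat_lit 516, nat_lit 32] false,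
   Spec.mk (nat_lit 276) (nat_lit 0) [nat_lit 114, nat_lit 330, nat_lit 258, nat_lit 282, nat_lit 274] (nat_lit 2) [nat_lit 34] false,
   Spec.mk (nat_lit 280) (nat_lit 0) [nat_lit 118, nat_lit 334, nat_lit 262, nat_lit 298, nat_lit 274, nat_lit 282] (nat_lit 0) [nat_lit 522, nat_lit 38] false,
   Spec.mk (nat_lit 282) (nat_lit 0) [nat_lit 120, nat_lit 336, nat_lit 264, nat_lit 300, nat_lit 276, nat_lit 288, nat_lit 280] (nat_lit 0) [nat_lit 40] false,
   Spec.mk (nat_lit 288) (nat_lit 0) [nat_lit 126, nat_lit 342, nat_lit 306, nat_lit 282] (nat_lit 0) [nat_lit 46] false,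
   Spec.mk (nat_lit 298) (nat_lit 0) [nat_lit 136, nat_lit 352, nat_lit 280, nat_lit 300] (nat_lit 1) [nat_lit 540, nat_lit 56] false,
   Spec.mk (nat_lit 300) (nat_lit 0) [nat_lit 138, nat_lit 354, nat_lit 282, nat_lit 306, nat_lit 298] (nat_lit 2) [nat_lit 58] false]

noncomputable def sp1 : List Spec :=
  [Spec.mk (nat_lit 306) (nat_lit 0) [nat_lit 144, nat_lit 360, nat_lit 288, nat_lit 300] (nat_lit 0) [nat_lit 64] false,
   Spec.mk (nat_lit 326) (nat_lit 1) [nat_lit 164, nat_lit 488, nat_lit 272, nat_lit 328] (nat_lit 0) [nat_lit 568] false,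
   Spec.mk (nat_lit 328) (nat_lit 1) [nat_lit 166, nat_lit 490, nat_lit 274, nat_lit 334, nat_lit 326, nat_lit 330] (nat_lit 0) [nat_lit 570, nat_lit 86] false,
   Spec.mk (nat_lit 330) (nat_lit 0) [nat_lit 168, nat_lit 492, nat_lit 276, nat_lit 336, nat_lit 328] (nat_lit 1) [nat_lit 88] false,
   Spec.mk (nat_lit 334) (nat_lit 0) [nat_lit 172, nat_lit 496, nat_lit 280, nat_lit 352, nat_lit 328, nat_lit 336] (nat_lit 0) [nat_lit 576, nat_lit 92] false,
   Spec.mk (nat_lit 336) (nat_lit 0) [nat_lit 174, nat_lit 498, nat_lit 282, nat_lit 354, nat_lit 330, nat_lit 342, nat_lit 334] (nat_lit 0) [nat_lit 94] false,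
   Spec.mk (nat_lit 342) (nat_lit 0) [nat_lit 180, nat_lit 504, nat_lit 288, nat_lit 360, nat_lit 336] (nat_lit 1) [nat_lit 100] false,
   Spec.mk (nat_lit 352) (nat_lit 1) [nat_lit 190, nat_lit 514, nat_lit 298, nat_lit 406, nat_lit 334, nat_lit 354] (nat_lit 0) [nat_lit 594, nat_lit 110] false,
   Spec.mk (nat_lit 354) (nat_lit 0) [nat_lit 192, nat_lit 516, nat_lit 300, nat_lit 408, nat_lit 336, nat_lit 360, nat_lit 352] (nat_lit 0) [nat_lit 112] false,
   Spec.mk (nat_lit 360) (nat_lit 1) [nat_lit 198, nat_lit 522, nat_lit 306, nat_lit 414, nat_lit 342, nat_lit 378, nat_lit 354] (nat_lit 0) [nat_lit 118] false,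
   Spec.mk (nat_lit 378) (nat_lit 1) [nat_lit 216, nat_lit 540, nat_lit 432, nat_lit 360] (nat_lit 0) [nat_lit 136] false,
   Spec.mk (nat_lit 406) (nat_lit 1) [nat_lit 568, nat_lit 352, nat_lit 408] (nat_lit 0) [nat_lit 648, nat_lit 164] false,
   Spec.mk (nat_lit 408) (nat_lit 0) [nat_lit 570, nat_lit 354, nat_lit 414, nat_lit 406] (nat_lit 0) [nat_lit 166] false,
   Spec.mk (nat_lit 414) (nat_lit 0) [nat_lit 576, nat_lit 360, nat_lit 432, nat_lit 408] (nat_lit 0) [nat_lit 172] false,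
   Spec.mk (nat_lit 432) (nat_lit 2) [nat_lit 594, nat_lit 378, nat_lit 414] (nat_lit 0) [nat_lit 190] false,
   Spec.mk (nat_lit 488) (nat_lit 2) [nat_lit 326, nat_lit 490] (nat_lit 0) [] false,
   Spec.mk (nat_lit 490) (nat_lit 1) [nat_lit 328, nat_lit 496, nat_lit 488, nat_lit 492] (nat_lit 0) [nat_lit 248] false,
   Spec.mk (nat_lit 492) (nat_lit 0) [nat_lit 330, nat_lit 498, nat_lit 490] (nat_lit 2) [nat_lit 250] false,
   Spec.mk (nat_lit 496) (nat_lit 0) [nat_lit 334, nat_lit 514, nat_lit 490, nat_lit 498] (nat_lit 0) [nat_lit 254] false,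
   Spec.mk (nat_lit 498) (nat_lit 0) [nat_lit 336, nat_lit 516, nat_lit 492, nat_lit 504, nat_lit 496] (nat_lit 1) [nat_lit 256] false,
   Spec.mk (nat_lit 504) (nat_lit 0) [nat_lit 342, nat_lit 522, nat_lit 498] (nat_lit 2) [nat_lit 262] false,
   Spec.mk (nat_lit 514) (nat_lit 0) [nat_lit 352, nat_lit 568, nat_lit 496, nat_lit 516] (nat_lit 0) [nat_lit 272] false,
   Spec.mk (nat_lit 516) (nat_lit 0) [nat_lit 354, nat_lit 570, nat_lit 498, nat_lit 522, nat_lit 514] (nat_lit 2) [nat_lit 274] false,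
   Spec.mk (nat_lit 522) (nat_lit 0) [nat_lit 360, nat_lit 576, nat_lit 504, nat_lit 540, nat_lit 516] (nat_lit 1) [nat_lit 280] false,
   Spec.mk (nat_lit 540) (nat_lit 0) [nat_lit 378, nat_lit 594, nat_lit 522] (nat_lit 2) [nat_lit 298] false,
   Spec.mk (nat_lit 568) (nat_lit 2) [nat_lit 406, nat_lit 514, nat_lit 570] (nat_lit 0) [nat_lit 326] false,
   Spec.mk (nat_lit 570) (nat_lit 0) [nat_lit 408, nat_lit 516, nat_lit 576, nat_lit 568] (nat_lit 0) [nat_lit 328] false,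
   Spec.mk (nat_lit 576) (nat_lit 0) [nat_lit 414, nat_lit 522, nat_lit 594, nat_lit 570] (nat_lit 0) [nat_lit 334] false,
   Spec.mk (nat_lit 594) (nat_lit 1) [nat_lit 432, nat_lit 540, nat_lit 648, nat_lit 576] (nat_lit 0) [nat_lit 352] false,
   Spec.mk (nat_lit 648) (nat_lit 2) [nat_lit 594] (nat_lit 0) [nat_lit 406] false]

noncomputable def specs : List (List Spec) :=
    sp0 :: sp1 :: []

noncomputable def step (e : Nat → Nat) (C ap an : Nat) (k :
    Nat → Nat → Nat → Nat → Nat → Nat → Nat → Nat → Nat → Nat → Nat → Nat → Nat → Nat → Nat → Nat →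
    Nat → Nat → Nat → Nat → Nat → Nat → Nat → Nat → Nat → Nat → Nat → Nat → Nat → Nat → Nat → Nat →
    Nat → Nat → Nat → Nat → Nat → Nat → Nat → Nat → Nat → Nat → Nat → Nat → Nat → Nat → Nat → Nat →
    Nat → Nat → Nat → Nat → Nat → Nat → Nat → Nat → Nat → Nat → Nat → Nat → Nat → Nat → Nat → Nat →
    Nat → Nat → Nat → Nat → Nat → Nat → Nat → Nat → Nat → Nat → Nat → Nat → Nat → Nat → Nat → Nat →
    Nat → Nat → Nat → Nat → Nat → Nat → Nat → Nat → Nat → Nat → Bool)
  (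
    x8 x14 x16 x20 x22 x24 x32 x34 x38 x40 x42 x46 x48 x56 x58 x60 x64 x66 x72 x86 x88 x92 x94 x96
    x100 x102 x110 x112 x114 x118 x120 x126 x136 x138 x144 x164 x166 x168 x172 x174 x180 x190 x192
    x198 x216 x248 x250 x254 x256 x258 x262 x264 x272 x274 x276 x280 x282 x288 x298 x300 x306 x326
    x328 x330 x334 x336 x342 x352 x354 x360 x378 x406 x408 x414 x432 x488 x490 x492 x496 x498 x504
    x514 x516 x522 x540 x568 x570 x576 x594 x648 : Nat) : Bool :=
  k
    (Nat.sub (Nat.sub (Nat.add (Nat.add (Nat.add C (Nat.mul x8 (nat_lit 2))) x14) (Nat.mul (e (nat_lit 8)) ap)) x250) (Nat.mul (e (nat_lit 8)) an))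
    (Nat.sub (Nat.sub (Nat.add (Nat.add (Nat.add (Nat.add (Nat.add (Nat.add C x14) x32) x8) x20) x16) (Nat.mul (e (nat_lit 14)) ap)) x256) (Nat.mul (e (nat_lit 14)) an))
    (Nat.sub (Nat.sub (Nat.add (Nat.add (Nat.add (Nat.add (Nat.add C (Nat.mul x16 (nat_lit 2))) x34) x22) x14) (Nat.mul (e (nat_lit 16)) ap)) x258) (Nat.mul (e (nat_lit 16)) an))
    (Nat.sub (Nat.sub (Nat.sub (Nat.add (Nat.add (Nat.add (Nat.add C x38) x14) x22) (Nat.mul (e (nat_lit 20)) ap)) (Nat.mul x20 (nat_lit 2))) x262) (Nat.mul (e (nat_lit 20)) an))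
    (Nat.sub (Nat.add (Nat.add (Nat.add (Nat.add (Nat.add C x22) x40) x16) x20) x24) x264)
    (Nat.add (Nat.add (Nat.add C (Nat.mul x24 (nat_lit 2))) x42) x22)
    (Nat.sub (Nat.sub (Nat.add (Nat.add (Nat.add (Nat.add (Nat.add C x86) x14) x38) x34) (Nat.mul (e (nat_lit 32)) ap)) x274) (Nat.mul (e (nat_lit 32)) an))
    (Nat.sub (Nat.sub (Nat.add (Nat.add (Nat.add (Nat.add (Nat.add C x88) x16) x40) x32) (Nat.mul (e (nat_lit 34)) ap)) x276) (Nat.mul (e (nat_lit 34)) an))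
    (Nat.sub (Nat.sub (Nat.sub (Nat.add (Nat.add (Nat.add (Nat.add (Nat.add (Nat.add C x92) x20) x56) x32) x40) (Nat.mul (e (nat_lit 38)) ap)) x38) x280) (Nat.mul (e (nat_lit 38)) an))
    (Nat.sub (Nat.sub (Nat.add (Nat.add (Nat.add (Nat.add (Nat.add (Nat.add (Nat.add (Nat.add (Nat.add C x40) x94) x22) x58) x34) x46) x38) x42) (Nat.mul (e (nat_lit 40)) ap)) x282) (Nat.mul (e (nat_lit 40)) an))
    (Nat.add (Nat.add (Nat.add (Nat.add (Nat.add (Nat.add C x42) x96) x24) x60) x48) x40)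
    (Nat.sub (Nat.add (Nat.add (Nat.add (Nat.add C x100) x64) x40) x48) x288)
    (Nat.add (Nat.add (Nat.add (Nat.add (Nat.add C (Nat.mul x48 (nat_lit 2))) x102) x66) x42) x46)
    (Nat.sub (Nat.sub (Nat.sub (Nat.add (Nat.add (Nat.add (Nat.add C x110) x38) x58) (Nat.mul (e (nat_lit 56)) ap)) (Nat.mul x56 (nat_lit 2))) x298) (Nat.mul (e (nat_lit 56)) an))
    (Nat.sub (Nat.sub (Nat.add (Nat.add (Nat.add (Nat.add (Nat.add C x112) x40) x64) x56) x60) x58) x300)
    (Nat.sub (Nat.add (Nat.add (Nat.add (Nat.add C x114) x42) x66) x58) (Nat.mul x60 (nat_lit 2)))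
    (Nat.sub (Nat.add (Nat.add (Nat.add (Nat.add C x118) x46) x58) x66) x306)
    (Nat.add (Nat.add (Nat.add (Nat.add (Nat.add (Nat.add C x66) x120) x48) x60) x72) x64)
    (Nat.add (Nat.add (Nat.add C (Nat.mul x72 (nat_lit 2))) x126) x66)
    (Nat.sub (Nat.add (Nat.add (Nat.add (Nat.add C x248) x32) x92) x88) x328)
    (Nat.sub (Nat.add (Nat.add (Nat.add (Nat.add C x250) x34) x94) x86) x330)
    (Nat.sub (Nat.sub (Nat.sub (Nat.add (Nat.add (Nat.add (Nat.add (Nat.add (Nat.add C x254) x38) x110) x86) x94) (Nat.mul (e (nat_lit 92)) ap)) (Nat.mul x92 (nat_lit 2))) x334) (Nat.mul (e (nat_lit 92)) an))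
    (Nat.sub (Nat.sub (Nat.add (Nat.add (Nat.add (Nat.add (Nat.add (Nat.add (Nat.add (Nat.add C x256) x40) x112) x88) x100) x92) x96) (Nat.mul (e (nat_lit 94)) ap)) x336) (Nat.mul (e (nat_lit 94)) an))
    (Nat.add (Nat.add (Nat.add (Nat.add (Nat.add C x258) x42) x114) x102) x94)
    (Nat.sub (Nat.sub (Nat.add (Nat.add (Nat.add (Nat.add (Nat.add C x262) x46) x118) x94) x102) (Nat.mul x100 (nat_lit 2))) x342)
    (Nat.add (Nat.add (Nat.add (Nat.add (Nat.add C x264) x48) x120) x96) x100)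
    (Nat.sub (Nat.sub (Nat.add (Nat.add (Nat.add (Nat.add (Nat.add C x272) x56) x164) x92) x112) x110) x352)
    (Nat.sub (Nat.sub (Nat.add (Nat.add (Nat.add (Nat.add (Nat.add (Nat.add (Nat.add (Nat.add C x274) x58) x166) x94) x118) x110) x114) (Nat.mul (e (nat_lit 112)) ap)) x354) (Nat.mul (e (nat_lit 112)) an))
    (Nat.sub (Nat.add (Nat.add (Nat.add (Nat.add (Nat.add (Nat.add C x276) x60) x168) x96) x120) x112) x114)
    (Nat.sub (Nat.add (Nat.add (Nat.add (Nat.add (Nat.add (Nat.add (Nat.add C x280) x64) x172) x100) x136) x112) x120) x360)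
    (Nat.add (Nat.add (Nat.add (Nat.add (Nat.add (Nat.add (Nat.add (Nat.add (Nat.add C x120) x282) x66) x174) x102) x138) x114) x126) x118)
    (Nat.add (Nat.add (Nat.add (Nat.add (Nat.add (Nat.add C x126) x288) x72) x180) x144) x120)
    (Nat.sub (Nat.add (Nat.add (Nat.add (Nat.add C x298) x190) x118) x138) x378)
    (Nat.add (Nat.add (Nat.add (Nat.add (Nat.add C x300) x192) x120) x144) x136)
    (Nat.add (Nat.add (Nat.add (Nat.add (Nat.add C (Nat.mul x144 (nat_lit 2))) x306) x198) x126) x138)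
    (Nat.sub (Nat.sub (Nat.add (Nat.add (Nat.add C x326) x110) x166) (Nat.mul x164 (nat_lit 2))) x406)
    (Nat.sub (Nat.sub (Nat.add (Nat.add (Nat.add (Nat.add (Nat.add C x328) x112) x172) x164) x168) x166) x408)
    (Nat.sub (Nat.add (Nat.add (Nat.add (Nat.add C x330) x114) x174) x166) (Nat.mul x168 (nat_lit 2)))
    (Nat.sub (Nat.sub (Nat.add (Nat.add (Nat.add (Nat.add (Nat.add C x334) x118) x190) x166) x174) (Nat.mul x172 (nat_lit 2))) x414)
    (Nat.sub (Nat.add (Nat.add (Nat.add (Nat.add (Nat.add (Nat.add C x336) x120) x192) x168) x180) x172) x174)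
    (Nat.sub (Nat.add (Nat.add (Nat.add (Nat.add C x342) x126) x198) x174) (Nat.mul x180 (nat_lit 2)))
    (Nat.sub (Nat.add (Nat.add (Nat.add (Nat.add C x352) x136) x172) x192) x432)
    (Nat.add (Nat.add (Nat.add (Nat.add (Nat.add C x354) x138) x174) x198) x190)
    (Nat.add (Nat.add (Nat.add (Nat.add (Nat.add (Nat.add C x198) x360) x144) x180) x216) x192)
    (Nat.add (Nat.add (Nat.add C (Nat.mul x216 (nat_lit 2))) x378) x198)
    (Nat.sub (Nat.add (Nat.add (Nat.add (Nat.add C (Nat.mul x248 (nat_lit 2))) x86) x254) x250) x490)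
    (Nat.sub (Nat.sub (Nat.add (Nat.add (Nat.add (Nat.add C x250) x88) x256) x248) x492) x8)
    (Nat.sub (Nat.add (Nat.add (Nat.add (Nat.add C x92) x272) x248) x256) x496)
    (Nat.sub (Nat.sub (Nat.add (Nat.add (Nat.add (Nat.add (Nat.add (Nat.add (Nat.add C x256) x94) x274) x250) x262) x254) x258) x498) x14)
    (Nat.sub (Nat.add (Nat.add (Nat.add (Nat.add C x96) x276) x264) x256) x16)
    (Nat.sub (Nat.sub (Nat.sub (Nat.add (Nat.add (Nat.add (Nat.add C x100) x280) x256) x264) x262) x504) x20)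
    (Nat.sub (Nat.add (Nat.add (Nat.add (Nat.add C x102) x282) x258) x262) x22)
    (Nat.sub (Nat.add (Nat.add (Nat.add (Nat.add C x110) x326) x254) x274) x514)
    (Nat.sub (Nat.sub (Nat.add (Nat.add (Nat.add (Nat.add (Nat.add (Nat.add C x112) x328) x256) x280) x272) x276) x516) x32)
    (Nat.sub (Nat.sub (Nat.add (Nat.add (Nat.add (Nat.add (Nat.add C x114) x330) x258) x282) x274) (Nat.mul x276 (nat_lit 2))) x34)
    (Nat.sub (Nat.sub (Nat.add (Nat.add (Nat.add (Nat.add (Nat.add (Nat.add C x118) x334) x262) x298) x274) x282) x522) x38)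
    (Nat.sub (Nat.add (Nat.add (Nat.add (Nat.add (Nat.add (Nat.add (Nat.add C x120) x336) x264) x300) x276) x288) x280) x40)
    (Nat.sub (Nat.add (Nat.add (Nat.add (Nat.add C x126) x342) x306) x282) x46)
    (Nat.sub (Nat.sub (Nat.sub (Nat.add (Nat.add (Nat.add (Nat.add C x136) x352) x280) x300) x298) x540) x56)
    (Nat.sub (Nat.sub (Nat.add (Nat.add (Nat.add (Nat.add (Nat.add C x138) x354) x282) x306) x298) (Nat.mul x300 (nat_lit 2))) x58)
    (Nat.sub (Nat.add (Nat.add (Nat.add (Nat.add C x144) x360) x288) x300) x64)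
    (Nat.sub (Nat.add (Nat.add (Nat.add (Nat.add (Nat.add C x326) x164) x488) x272) x328) x568)
    (Nat.sub (Nat.sub (Nat.add (Nat.add (Nat.add (Nat.add (Nat.add (Nat.add (Nat.add C x328) x166) x490) x274) x334) x326) x330) x570) x86)
    (Nat.sub (Nat.sub (Nat.add (Nat.add (Nat.add (Nat.add (Nat.add C x168) x492) x276) x336) x328) x330) x88)
    (Nat.sub (Nat.sub (Nat.add (Nat.add (Nat.add (Nat.add (Nat.add (Nat.add C x172) x496) x280) x352) x328) x336) x576) x92)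
    (Nat.sub (Nat.add (Nat.add (Nat.add (Nat.add (Nat.add (Nat.add (Nat.add C x174) x498) x282) x354) x330) x342) x334) x94)
    (Nat.sub (Nat.sub (Nat.add (Nat.add (Nat.add (Nat.add (Nat.add C x180) x504) x288) x360) x336) x342) x100)
    (Nat.sub (Nat.sub (Nat.add (Nat.add (Nat.add (Nat.add (Nat.add (Nat.add (Nat.add C x352) x190) x514) x298) x406) x334) x354) x594) x110)
    (Nat.sub (Nat.add (Nat.add (Nat.add (Nat.add (Nat.add (Nat.add (Nat.add C x192) x516) x300) x408) x336) x360) x352) x112)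
    (Nat.sub (Nat.add (Nat.add (Nat.add (Nat.add (Nat.add (Nat.add (Nat.add (Nat.add C x360) x198) x522) x306) x414) x342) x378) x354) x118)
    (Nat.sub (Nat.add (Nat.add (Nat.add (Nat.add (Nat.add C x378) x216) x540) x432) x360) x136)
    (Nat.sub (Nat.sub (Nat.add (Nat.add (Nat.add (Nat.add C x406) x568) x352) x408) x648) x164)
    (Nat.sub (Nat.add (Nat.add (Nat.add (Nat.add C x570) x354) x414) x406) x166)
    (Nat.sub (Nat.add (Nat.add (Nat.add (Nat.add C x576) x360) x432) x408) x172)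
    (Nat.sub (Nat.add (Nat.add (Nat.add (Nat.add C (Nat.mul x432 (nat_lit 2))) x594) x378) x414) x190)
    (Nat.add (Nat.add (Nat.add C (Nat.mul x488 (nat_lit 2))) x326) x490)
    (Nat.sub (Nat.add (Nat.add (Nat.add (Nat.add (Nat.add C x490) x328) x496) x488) x492) x248)
    (Nat.sub (Nat.sub (Nat.add (Nat.add (Nat.add C x330) x498) x490) (Nat.mul x492 (nat_lit 2))) x250)
    (Nat.sub (Nat.add (Nat.add (Nat.add (Nat.add C x334) x514) x490) x498) x254)
    (Nat.sub (Nat.sub (Nat.add (Nat.add (Nat.add (Nat.add (Nat.add C x336) x516) x492) x504) x496) x498) x256)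
    (Nat.sub (Nat.sub (Nat.add (Nat.add (Nat.add C x342) x522) x498) (Nat.mul x504 (nat_lit 2))) x262)
    (Nat.sub (Nat.add (Nat.add (Nat.add (Nat.add C x352) x568) x496) x516) x272)
    (Nat.sub (Nat.sub (Nat.add (Nat.add (Nat.add (Nat.add (Nat.add C x354) x570) x498) x522) x514) (Nat.mul x516 (nat_lit 2))) x274)
    (Nat.sub (Nat.sub (Nat.add (Nat.add (Nat.add (Nat.add (Nat.add C x360) x576) x504) x540) x516) x522) x280)
    (Nat.sub (Nat.sub (Nat.add (Nat.add (Nat.add C x378) x594) x522) (Nat.mul x540 (nat_lit 2))) x298)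
    (Nat.sub (Nat.add (Nat.add (Nat.add (Nat.add C (Nat.mul x568 (nat_lit 2))) x406) x514) x570) x326)
    (Nat.sub (Nat.add (Nat.add (Nat.add (Nat.add C x408) x516) x576) x568) x328)
    (Nat.sub (Nat.add (Nat.add (Nat.add (Nat.add C x414) x522) x594) x570) x334)
    (Nat.sub (Nat.add (Nat.add (Nat.add (Nat.add (Nat.add C x594) x432) x540) x648) x576) x352)
    (Nat.sub (Nat.add (Nat.add C (Nat.mul x648 (nat_lit 2))) x594) x406)

theorem ap_eq (x : Nat → Nat) (k : FnLL specs) : apLL (fun t => x t.cd) specs k = A6_4.ap x k :=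
  Eq.refl (A6_4.ap x k)

theorem step_eq0 (e : Nat → Nat) (C p r : Nat) (k : FnLL specs) (x : Nat → Nat) :
    A6_4.ap x (step e C p r k) = apLL (interp e C p r x) specs k :=
  Eq.refl (A6_4.ap x (step e C p r k))

theorem spec_ok : specOK 5 true A6_4.mask specs = true := by decide +kernel

theorem step_eq (e : Nat → Nat) (C p r : Nat) (k : A6_4.KK) (x : Nat → Nat) :
    A6_4.ap x (step e C p r k) = A6_4.ap (row 5 true A6_4.mask e C p r x) k :=
  ((step_eq0 e C p r k x).trans (apLL_row 5 true A6_4.mask specs spec_ok e C p r x k)).trans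
    (ap_eq (row 5 true A6_4.mask e C p r x) k)

end Vale.Agent.P348.G6_4_1

namespace Vale.Agent.P348.G6_5_1

noncomputable def sp0 : List Spec :=
  [Spec.mk (nat_lit 17) (nat_lit 2) [nat_lit 35, nat_lit 23] (nat_lit 0) [nat_lit 259] true,
   Spec.mk (nat_lit 23) (nat_lit 0) [nat_lit 41, nat_lit 17, nat_lit 25] (nat_lit 0) [nat_lit 265] true,
   Spec.mk (nat_lit 25) (nat_lit 2) [nat_lit 43, nat_lit 23] (nat_lit 0) [nat_lit 267] false,
   Spec.mk (nat_lit 35) (nat_lit 0) [nat_lit 89, nat_lit 17, nat_lit 41] (nat_lit 0) [nat_lit 277] true,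
   Spec.mk (nat_lit 41) (nat_lit 0) [nat_lit 95, nat_lit 23, nat_lit 59, nat_lit 35, nat_lit 47, nat_lit 43] (nat_lit 0) [nat_lit 283] true,
   Spec.mk (nat_lit 43) (nat_lit 1) [nat_lit 97, nat_lit 25, nat_lit 61, nat_lit 49, nat_lit 41] (nat_lit 0) [nat_lit 285] true,
   Spec.mk (nat_lit 47) (nat_lit 0) [nat_lit 101, nat_lit 65, nat_lit 41, nat_lit 49] (nat_lit 2) [nat_lit 289] true,
   Spec.mk (nat_lit 49) (nat_lit 1) [nat_lit 103, nat_lit 67, nat_lit 43, nat_lit 47, nat_lit 51] (nat_lit 0) [nat_lit 291] false,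
   Spec.mk (nat_lit 51) (nat_lit 2) [nat_lit 105, nat_lit 69, nat_lit 49] (nat_lit 0) [] false,
   Spec.mk (nat_lit 59) (nat_lit 0) [nat_lit 113, nat_lit 41, nat_lit 65, nat_lit 61] (nat_lit 2) [nat_lit 301] true,
   Spec.mk (nat_lit 61) (nat_lit 0) [nat_lit 115, nat_lit 43, nat_lit 67, nat_lit 59] (nat_lit 2) [nat_lit 303] false,
   Spec.mk (nat_lit 65) (nat_lit 0) [nat_lit 119, nat_lit 47, nat_lit 59, nat_lit 67] (nat_lit 2) [nat_lit 307] false,
   Spec.mk (nat_lit 67) (nat_lit 0) [nat_lit 121, nat_lit 49, nat_lit 61, nat_lit 73, nat_lit 65, nat_lit 69] (nat_lit 0) [nat_lit 309] false,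
   Spec.mk (nat_lit 69) (nat_lit 0) [nat_lit 123, nat_lit 51, nat_lit 75, nat_lit 67] (nat_lit 0) [] false,
   Spec.mk (nat_lit 73) (nat_lit 0) [nat_lit 127, nat_lit 67, nat_lit 75] (nat_lit 0) [nat_lit 315] false,
   Spec.mk (nat_lit 75) (nat_lit 2) [nat_lit 129, nat_lit 69, nat_lit 73] (nat_lit 0) [] false,
   Spec.mk (nat_lit 89) (nat_lit 0) [nat_lit 251, nat_lit 35, nat_lit 95] (nat_lit 0) [nat_lit 331] false,
   Spec.mk (nat_lit 95) (nat_lit 0) [nat_lit 257, nat_lit 41, nat_lit 113, nat_lit 89, nat_lit 101, nat_lit 97] (nat_lit 1) [nat_lit 337] true,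
   Spec.mk (nat_lit 97) (nat_lit 0) [nat_lit 259, nat_lit 43, nat_lit 115, nat_lit 103, nat_lit 95] (nat_lit 0) [nat_lit 339] true,
   Spec.mk (nat_lit 101) (nat_lit 0) [nat_lit 263, nat_lit 47, nat_lit 119, nat_lit 95, nat_lit 103] (nat_lit 4) [nat_lit 343] true,
   Spec.mk (nat_lit 103) (nat_lit 0) [nat_lit 265, nat_lit 49, nat_lit 121, nat_lit 97, nat_lit 101, nat_lit 105] (nat_lit 1) [nat_lit 345] false,
   Spec.mk (nat_lit 105) (nat_lit 0) [nat_lit 267, nat_lit 51, nat_lit 123, nat_lit 103] (nat_lit 0) [] false,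
   Spec.mk (nat_lit 113) (nat_lit 0) [nat_lit 275, nat_lit 59, nat_lit 167, nat_lit 95, nat_lit 119, nat_lit 115] (nat_lit 1) [nat_lit 355] true,
   Spec.mk (nat_lit 115) (nat_lit 0) [nat_lit 277, nat_lit 61, nat_lit 169, nat_lit 97, nat_lit 121, nat_lit 113] (nat_lit 1) [nat_lit 357] false,
   Spec.mk (nat_lit 119) (nat_lit 0) [nat_lit 281, nat_lit 65, nat_lit 173, nat_lit 101, nat_lit 137, nat_lit 113, nat_lit 121] (nat_lit 2) [nat_lit 361] true,
   Spec.mk (nat_lit 121) (nat_lit 0) [nat_lit 283, nat_lit 67, nat_lit 175, nat_lit 103, nat_lit 139, nat_lit 115, nat_lit 127, nat_lit 119, nat_lit 123] (nat_lit 0) [nat_lit 363] true,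
   Spec.mk (nat_lit 123) (nat_lit 0) [nat_lit 285, nat_lit 69, nat_lit 177, nat_lit 105, nat_lit 141, nat_lit 129, nat_lit 121] (nat_lit 0) [] false,
   Spec.mk (nat_lit 127) (nat_lit 0) [nat_lit 289, nat_lit 73, nat_lit 181, nat_lit 145, nat_lit 121, nat_lit 129] (nat_lit 1) [nat_lit 369] false,
   Spec.mk (nat_lit 129) (nat_lit 1) [nat_lit 291, nat_lit 75, nat_lit 183, nat_lit 147, nat_lit 123, nat_lit 127] (nat_lit 0) [] false,
   Spec.mk (nat_lit 137) (nat_lit 0) [nat_lit 299, nat_lit 191, nat_lit 119, nat_lit 139] (nat_lit 2) [nat_lit 379] false,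
   Spec.mk (nat_lit 139) (nat_lit 0) [nat_lit 301, nat_lit 193, nat_lit 121, nat_lit 145, nat_lit 137, nat_lit 141] (nat_lit 1) [nat_lit 381] false,
   Spec.mk (nat_lit 141) (nat_lit 0) [nat_lit 303, nat_lit 195, nat_lit 123, nat_lit 147, nat_lit 139] (nat_lit 2) [] false,
   Spec.mk (nat_lit 145) (nat_lit 0) [nat_lit 307, nat_lit 199, nat_lit 127, nat_lit 139, nat_lit 147] (nat_lit 0) [nat_lit 387] false,
   Spec.mk (nat_lit 147) (nat_lit 1) [nat_lit 309, nat_lit 201, nat_lit 129, nat_lit 141, nat_lit 153, nat_lit 145] (nat_lit 0) [] false,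
   Spec.mk (nat_lit 153) (nat_lit 2) [nat_lit 315, nat_lit 207, nat_lit 147] (nat_lit 0) [] false,
   Spec.mk (nat_lit 167) (nat_lit 0) [nat_lit 329, nat_lit 113, nat_lit 173, nat_lit 169] (nat_lit 2) [nat_lit 409] false,
   Spec.mk (nat_lit 169) (nat_lit 0) [nat_lit 331, nat_lit 115, nat_lit 175, nat_lit 167] (nat_lit 2) [nat_lit 411] false,
   Spec.mk (nat_lit 173) (nat_lit 0) [nat_lit 335, nat_lit 119, nat_lit 191, nat_lit 167, nat_lit 175] (nat_lit 4) [nat_lit 415] false,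
   Spec.mk (nat_lit 175) (nat_lit 0) [nat_lit 337, nat_lit 121, nat_lit 193, nat_lit 169, nat_lit 181, nat_lit 173, nat_lit 177] (nat_lit 2) [nat_lit 417] false,
   Spec.mk (nat_lit 177) (nat_lit 0) [nat_lit 339, nat_lit 123, nat_lit 195, nat_lit 183, nat_lit 175] (nat_lit 2) [] false,
   Spec.mk (nat_lit 181) (nat_lit 0) [nat_lit 343, nat_lit 127, nat_lit 199, nat_lit 175, nat_lit 183] (nat_lit 4) [nat_lit 423] false,
   Spec.mk (nat_lit 183) (nat_lit 0) [nat_lit 345, nat_lit 129, nat_lit 201, nat_lit 177, nat_lit 181] (nat_lit 2) [] false,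
   Spec.mk (nat_lit 191) (nat_lit 0) [nat_lit 353, nat_lit 137, nat_lit 173, nat_lit 193] (nat_lit 2) [nat_lit 433] false,
   Spec.mk (nat_lit 193) (nat_lit 0) [nat_lit 355, nat_lit 139, nat_lit 175, nat_lit 199, nat_lit 191, nat_lit 195] (nat_lit 1) [nat_lit 435] false,
   Spec.mk (nat_lit 195) (nat_lit 0) [nat_lit 357, nat_lit 141, nat_lit 177, nat_lit 201, nat_lit 193] (nat_lit 2) [] false,
   Spec.mk (nat_lit 199) (nat_lit 0) [nat_lit 361, nat_lit 145, nat_lit 181, nat_lit 217, nat_lit 193, nat_lit 201] (nat_lit 1) [nat_lit 441] false,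
   Spec.mk (nat_lit 201) (nat_lit 0) [nat_lit 363, nat_lit 147, nat_lit 183, nat_lit 219, nat_lit 195, nat_lit 207, nat_lit 199] (nat_lit 0) [] false,
   Spec.mk (nat_lit 207) (nat_lit 0) [nat_lit 369, nat_lit 153, nat_lit 225, nat_lit 201] (nat_lit 0) [] false,
   Spec.mk (nat_lit 217) (nat_lit 0) [nat_lit 379, nat_lit 199, nat_lit 219] (nat_lit 0) [nat_lit 459] false,
   Spec.mk (nat_lit 219) (nat_lit 0) [nat_lit 381, nat_lit 201, nat_lit 225, nat_lit 217] (nat_lit 0) [] false,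
   Spec.mk (nat_lit 225) (nat_lit 2) [nat_lit 387, nat_lit 207, nat_lit 219] (nat_lit 0) [] false,
   Spec.mk (nat_lit 251) (nat_lit 2) [nat_lit 89, nat_lit 257] (nat_lit 0) [nat_lit 493] false,
   Spec.mk (nat_lit 257) (nat_lit 1) [nat_lit 95, nat_lit 275, nat_lit 251, nat_lit 263, nat_lit 259] (nat_lit 0) [nat_lit 499] false,
   Spec.mk (nat_lit 259) (nat_lit 1) [nat_lit 97, nat_lit 277, nat_lit 265, nat_lit 257] (nat_lit 0) [nat_lit 501, nat_lit 17] false,
   Spec.mk (nat_lit 263) (nat_lit 0) [nat_lit 101, nat_lit 281, nat_lit 257, nat_lit 265] (nat_lit 2) [nat_lit 505] false,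
   Spec.mk (nat_lit 265) (nat_lit 0) [nat_lit 103, nat_lit 283, nat_lit 259, nat_lit 263, nat_lit 267] (nat_lit 0) [nat_lit 507, nat_lit 23] false,
   Spec.mk (nat_lit 267) (nat_lit 0) [nat_lit 105, nat_lit 285, nat_lit 265] (nat_lit 0) [nat_lit 25] false,
   Spec.mk (nat_lit 275) (nat_lit 0) [nat_lit 113, nat_lit 329, nat_lit 257, nat_lit 281, nat_lit 277] (nat_lit 0) [nat_lit 517] false,
   Spec.mk (nat_lit 277) (nat_lit 0) [nat_lit 115, nat_lit 331, nat_lit 259, nat_lit 283, nat_lit 275] (nat_lit 1) [nat_lit 519, nat_lit 35] false,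
   Spec.mk (nat_lit 281) (nat_lit 0) [nat_lit 119, nat_lit 335, nat_lit 263, nat_lit 299, nat_lit 275, nat_lit 283] (nat_lit 1) [nat_lit 523] false]

noncomputable def sp1 : List Spec :=
  [Spec.mk (nat_lit 283) (nat_lit 0) [nat_lit 121, nat_lit 337, nat_lit 265, nat_lit 301, nat_lit 277, nat_lit 289, nat_lit 281, nat_lit 285] (nat_lit 0) [nat_lit 525, nat_lit 41] false,
   Spec.mk (nat_lit 285) (nat_lit 0) [nat_lit 123, nat_lit 339, nat_lit 267, nat_lit 303, nat_lit 291, nat_lit 283] (nat_lit 1) [nat_lit 43] false,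
   Spec.mk (nat_lit 289) (nat_lit 0) [nat_lit 127, nat_lit 343, nat_lit 307, nat_lit 283, nat_lit 291] (nat_lit 1) [nat_lit 531, nat_lit 47] false,
   Spec.mk (nat_lit 291) (nat_lit 0) [nat_lit 129, nat_lit 345, nat_lit 309, nat_lit 285, nat_lit 289] (nat_lit 0) [nat_lit 49] false,
   Spec.mk (nat_lit 299) (nat_lit 0) [nat_lit 137, nat_lit 353, nat_lit 281, nat_lit 301] (nat_lit 2) [nat_lit 541] false,
   Spec.mk (nat_lit 301) (nat_lit 0) [nat_lit 139, nat_lit 355, nat_lit 283, nat_lit 307, nat_lit 299, nat_lit 303] (nat_lit 2) [nat_lit 543, nat_lit 59] false,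
   Spec.mk (nat_lit 303) (nat_lit 0) [nat_lit 141, nat_lit 357, nat_lit 285, nat_lit 309, nat_lit 301] (nat_lit 4) [nat_lit 61] false,
   Spec.mk (nat_lit 307) (nat_lit 0) [nat_lit 145, nat_lit 361, nat_lit 289, nat_lit 301, nat_lit 309] (nat_lit 1) [nat_lit 549, nat_lit 65] false,
   Spec.mk (nat_lit 309) (nat_lit 0) [nat_lit 147, nat_lit 363, nat_lit 291, nat_lit 303, nat_lit 315, nat_lit 307] (nat_lit 1) [nat_lit 67] false,
   Spec.mk (nat_lit 315) (nat_lit 0) [nat_lit 153, nat_lit 369, nat_lit 309] (nat_lit 0) [nat_lit 73] false,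
   Spec.mk (nat_lit 329) (nat_lit 1) [nat_lit 167, nat_lit 491, nat_lit 275, nat_lit 335, nat_lit 331] (nat_lit 0) [nat_lit 571] false,
   Spec.mk (nat_lit 331) (nat_lit 0) [nat_lit 169, nat_lit 493, nat_lit 277, nat_lit 337, nat_lit 329] (nat_lit 0) [nat_lit 573, nat_lit 89] false,
   Spec.mk (nat_lit 335) (nat_lit 0) [nat_lit 173, nat_lit 497, nat_lit 281, nat_lit 353, nat_lit 329, nat_lit 337] (nat_lit 1) [nat_lit 577] false,
   Spec.mk (nat_lit 337) (nat_lit 0) [nat_lit 175, nat_lit 499, nat_lit 283, nat_lit 355, nat_lit 331, nat_lit 343, nat_lit 335, nat_lit 339] (nat_lit 0) [nat_lit 579, nat_lit 95] false,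
   Spec.mk (nat_lit 339) (nat_lit 0) [nat_lit 177, nat_lit 501, nat_lit 285, nat_lit 357, nat_lit 345, nat_lit 337] (nat_lit 1) [nat_lit 97] false,
   Spec.mk (nat_lit 343) (nat_lit 0) [nat_lit 181, nat_lit 505, nat_lit 289, nat_lit 361, nat_lit 337, nat_lit 345] (nat_lit 2) [nat_lit 585, nat_lit 101] false,
   Spec.mk (nat_lit 345) (nat_lit 0) [nat_lit 183, nat_lit 507, nat_lit 291, nat_lit 363, nat_lit 339, nat_lit 343] (nat_lit 1) [nat_lit 103] false,
   Spec.mk (nat_lit 353) (nat_lit 0) [nat_lit 191, nat_lit 515, nat_lit 299, nat_lit 407, nat_lit 335, nat_lit 355] (nat_lit 0) [nat_lit 595] false,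
   Spec.mk (nat_lit 355) (nat_lit 0) [nat_lit 193, nat_lit 517, nat_lit 301, nat_lit 409, nat_lit 337, nat_lit 361, nat_lit 353, nat_lit 357] (nat_lit 0) [nat_lit 597, nat_lit 113] false,
   Spec.mk (nat_lit 357) (nat_lit 0) [nat_lit 195, nat_lit 519, nat_lit 303, nat_lit 411, nat_lit 339, nat_lit 363, nat_lit 355] (nat_lit 2) [nat_lit 115] false,
   Spec.mk (nat_lit 361) (nat_lit 0) [nat_lit 199, nat_lit 523, nat_lit 307, nat_lit 415, nat_lit 343, nat_lit 379, nat_lit 355, nat_lit 363] (nat_lit 0) [nat_lit 603, nat_lit 119] false,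
   Spec.mk (nat_lit 363) (nat_lit 0) [nat_lit 201, nat_lit 525, nat_lit 309, nat_lit 417, nat_lit 345, nat_lit 381, nat_lit 357, nat_lit 369, nat_lit 361] (nat_lit 0) [nat_lit 121] false,
   Spec.mk (nat_lit 369) (nat_lit 0) [nat_lit 207, nat_lit 531, nat_lit 315, nat_lit 423, nat_lit 387, nat_lit 363] (nat_lit 0) [nat_lit 127] false,
   Spec.mk (nat_lit 379) (nat_lit 0) [nat_lit 217, nat_lit 541, nat_lit 433, nat_lit 361, nat_lit 381] (nat_lit 0) [nat_lit 621, nat_lit 137] false,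
   Spec.mk (nat_lit 381) (nat_lit 0) [nat_lit 219, nat_lit 543, nat_lit 435, nat_lit 363, nat_lit 387, nat_lit 379] (nat_lit 1) [nat_lit 139] false,
   Spec.mk (nat_lit 387) (nat_lit 1) [nat_lit 225, nat_lit 549, nat_lit 441, nat_lit 369, nat_lit 381] (nat_lit 0) [nat_lit 145] false,
   Spec.mk (nat_lit 407) (nat_lit 0) [nat_lit 569, nat_lit 353, nat_lit 409] (nat_lit 0) [nat_lit 649] false,
   Spec.mk (nat_lit 409) (nat_lit 0) [nat_lit 571, nat_lit 355, nat_lit 415, nat_lit 407, nat_lit 411] (nat_lit 0) [nat_lit 651, nat_lit 167] false,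
   Spec.mk (nat_lit 411) (nat_lit 0) [nat_lit 573, nat_lit 357, nat_lit 417, nat_lit 409] (nat_lit 2) [nat_lit 169] false,
   Spec.mk (nat_lit 415) (nat_lit 0) [nat_lit 577, nat_lit 361, nat_lit 433, nat_lit 409, nat_lit 417] (nat_lit 1) [nat_lit 657, nat_lit 173] false,
   Spec.mk (nat_lit 417) (nat_lit 0) [nat_lit 579, nat_lit 363, nat_lit 435, nat_lit 411, nat_lit 423, nat_lit 415] (nat_lit 1) [nat_lit 175] false,
   Spec.mk (nat_lit 423) (nat_lit 0) [nat_lit 585, nat_lit 369, nat_lit 441, nat_lit 417] (nat_lit 2) [nat_lit 181] false,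
   Spec.mk (nat_lit 433) (nat_lit 1) [nat_lit 595, nat_lit 379, nat_lit 415, nat_lit 435] (nat_lit 0) [nat_lit 675, nat_lit 191] false,
   Spec.mk (nat_lit 435) (nat_lit 0) [nat_lit 597, nat_lit 381, nat_lit 417, nat_lit 441, nat_lit 433] (nat_lit 0) [nat_lit 193] false,
   Spec.mk (nat_lit 441) (nat_lit 1) [nat_lit 603, nat_lit 387, nat_lit 423, nat_lit 459, nat_lit 435] (nat_lit 0) [nat_lit 199] false,
   Spec.mk (nat_lit 459) (nat_lit 2) [nat_lit 621, nat_lit 441] (nat_lit 0) [nat_lit 217] false,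
   Spec.mk (nat_lit 491) (nat_lit 2) [nat_lit 329, nat_lit 497, nat_lit 493] (nat_lit 0) [] false,
   Spec.mk (nat_lit 493) (nat_lit 0) [nat_lit 331, nat_lit 499, nat_lit 491] (nat_lit 0) [nat_lit 251] false,
   Spec.mk (nat_lit 497) (nat_lit 0) [nat_lit 335, nat_lit 515, nat_lit 491, nat_lit 499] (nat_lit 0) [] false,
   Spec.mk (nat_lit 499) (nat_lit 0) [nat_lit 337, nat_lit 517, nat_lit 493, nat_lit 505, nat_lit 497, nat_lit 501] (nat_lit 0) [nat_lit 257] false,
   Spec.mk (nat_lit 501) (nat_lit 0) [nat_lit 339, nat_lit 519, nat_lit 507, nat_lit 499] (nat_lit 2) [nat_lit 259] false,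
   Spec.mk (nat_lit 505) (nat_lit 0) [nat_lit 343, nat_lit 523, nat_lit 499, nat_lit 507] (nat_lit 2) [nat_lit 263] false,
   Spec.mk (nat_lit 507) (nat_lit 0) [nat_lit 345, nat_lit 525, nat_lit 501, nat_lit 505] (nat_lit 2) [nat_lit 265] false,
   Spec.mk (nat_lit 515) (nat_lit 0) [nat_lit 353, nat_lit 569, nat_lit 497, nat_lit 517] (nat_lit 0) [] false,
   Spec.mk (nat_lit 517) (nat_lit 0) [nat_lit 355, nat_lit 571, nat_lit 499, nat_lit 523, nat_lit 515, nat_lit 519] (nat_lit 1) [nat_lit 275] false,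
   Spec.mk (nat_lit 519) (nat_lit 0) [nat_lit 357, nat_lit 573, nat_lit 501, nat_lit 525, nat_lit 517] (nat_lit 4) [nat_lit 277] false,
   Spec.mk (nat_lit 523) (nat_lit 0) [nat_lit 361, nat_lit 577, nat_lit 505, nat_lit 541, nat_lit 517, nat_lit 525] (nat_lit 1) [nat_lit 281] false,
   Spec.mk (nat_lit 525) (nat_lit 0) [nat_lit 363, nat_lit 579, nat_lit 507, nat_lit 543, nat_lit 519, nat_lit 531, nat_lit 523] (nat_lit 2) [nat_lit 283] false,
   Spec.mk (nat_lit 531) (nat_lit 0) [nat_lit 369, nat_lit 585, nat_lit 549, nat_lit 525] (nat_lit 2) [nat_lit 289] false,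
   Spec.mk (nat_lit 541) (nat_lit 0) [nat_lit 379, nat_lit 595, nat_lit 523, nat_lit 543] (nat_lit 2) [nat_lit 299] false,
   Spec.mk (nat_lit 543) (nat_lit 0) [nat_lit 381, nat_lit 597, nat_lit 525, nat_lit 549, nat_lit 541] (nat_lit 4) [nat_lit 301] false,
   Spec.mk (nat_lit 549) (nat_lit 0) [nat_lit 387, nat_lit 603, nat_lit 531, nat_lit 543] (nat_lit 2) [nat_lit 307] false,
   Spec.mk (nat_lit 569) (nat_lit 2) [nat_lit 407, nat_lit 515, nat_lit 571] (nat_lit 0) [] false,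
   Spec.mk (nat_lit 571) (nat_lit 1) [nat_lit 409, nat_lit 517, nat_lit 577, nat_lit 569, nat_lit 573] (nat_lit 0) [nat_lit 329] false,
   Spec.mk (nat_lit 573) (nat_lit 0) [nat_lit 411, nat_lit 519, nat_lit 579, nat_lit 571] (nat_lit 2) [nat_lit 331] false,
   Spec.mk (nat_lit 577) (nat_lit 0) [nat_lit 415, nat_lit 523, nat_lit 595, nat_lit 571, nat_lit 579] (nat_lit 0) [nat_lit 335] false,
   Spec.mk (nat_lit 579) (nat_lit 0) [nat_lit 417, nat_lit 525, nat_lit 597, nat_lit 573, nat_lit 585, nat_lit 577] (nat_lit 1) [nat_lit 337] false,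
   Spec.mk (nat_lit 585) (nat_lit 0) [nat_lit 423, nat_lit 531, nat_lit 603, nat_lit 579] (nat_lit 2) [nat_lit 343] false,
   Spec.mk (nat_lit 595) (nat_lit 1) [nat_lit 433, nat_lit 541, nat_lit 649, nat_lit 577, nat_lit 597] (nat_lit 0) [nat_lit 353] false,
   Spec.mk (nat_lit 597) (nat_lit 0) [nat_lit 435, nat_lit 543, nat_lit 651, nat_lit 579, nat_lit 603, nat_lit 595] (nat_lit 1) [nat_lit 355] false]

noncomputable def sp2 : List Spec :=
  [Spec.mk (nat_lit 603) (nat_lit 0) [nat_lit 441, nat_lit 549, nat_lit 657, nat_lit 585, nat_lit 621, nat_lit 597] (nat_lit 0) [nat_lit 361] false,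
   Spec.mk (nat_lit 621) (nat_lit 0) [nat_lit 459, nat_lit 675, nat_lit 603] (nat_lit 0) [nat_lit 379] false,
   Spec.mk (nat_lit 649) (nat_lit 2) [nat_lit 595, nat_lit 651] (nat_lit 0) [nat_lit 407] false,
   Spec.mk (nat_lit 651) (nat_lit 0) [nat_lit 597, nat_lit 657, nat_lit 649] (nat_lit 0) [nat_lit 409] false,
   Spec.mk (nat_lit 657) (nat_lit 0) [nat_lit 603, nat_lit 675, nat_lit 651] (nat_lit 0) [nat_lit 415] false,
   Spec.mk (nat_lit 675) (nat_lit 2) [nat_lit 621, nat_lit 657] (nat_lit 0) [nat_lit 433] false]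

noncomputable def specs : List (List Spec) :=
    sp0 :: sp1 :: sp2 :: []

noncomputable def step (e : Nat → Nat) (C ap an : Nat) (k :
    Nat → Nat → Nat → Nat → Nat → Nat → Nat → Nat → Nat → Nat → Nat → Nat → Nat → Nat → Nat → Nat →
    Nat → Nat → Nat → Nat → Nat → Nat → Nat → Nat → Nat → Nat → Nat → Nat → Nat → Nat → Nat → Nat →
    Nat → Nat → Nat → Nat → Nat → Nat → Nat → Nat → Nat → Nat → Nat → Nat → Nat → Nat → Nat → Nat →
    Nat → Nat → Nat → Nat → Nat → Nat → Nat → Nat → Nat → Nat → Nat → Nat → Nat → Nat → Nat → Nat →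
    Nat → Nat → Nat → Nat → Nat → Nat → Nat → Nat → Nat → Nat → Nat → Nat → Nat → Nat → Nat → Nat →
    Nat → Nat → Nat → Nat → Nat → Nat → Nat → Nat → Nat → Nat → Nat → Nat → Nat → Nat → Nat → Nat →
    Nat → Nat → Nat → Nat → Nat → Nat → Nat → Nat → Nat → Nat → Nat → Nat → Nat → Nat → Nat → Nat →
    Nat → Nat → Nat → Nat → Nat → Nat → Nat → Nat → Nat → Nat → Nat → Nat → Nat → Nat → Bool)
  (
    x17 x23 x25 x35 x41 x43 x47 x49 x51 x59 x61 x65 x67 x69 x73 x75 x89 x95 x97 x101 x103 x105 x113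
    x115 x119 x121 x123 x127 x129 x137 x139 x141 x145 x147 x153 x167 x169 x173 x175 x177 x181 x183
    x191 x193 x195 x199 x201 x207 x217 x219 x225 x251 x257 x259 x263 x265 x267 x275 x277 x281 x283
    x285 x289 x291 x299 x301 x303 x307 x309 x315 x329 x331 x335 x337 x339 x343 x345 x353 x355 x357
    x361 x363 x369 x379 x381 x387 x407 x409 x411 x415 x417 x423 x433 x435 x441 x459 x491 x493 x497
    x499 x501 x505 x507 x515 x517 x519 x523 x525 x531 x541 x543 x549 x569 x571 x573 x577 x579 x585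
    x595 x597 x603 x621 x649 x651 x657 x675 : Nat) : Bool :=
  k
    (Nat.sub (Nat.sub (Nat.add (Nat.add (Nat.add (Nat.add C (Nat.mul x17 (nat_lit 2))) x35) x23) (Nat.mul (e (nat_lit 17)) ap)) x259) (Nat.mul (e (nat_lit 17)) an))
    (Nat.sub (Nat.sub (Nat.add (Nat.add (Nat.add (Nat.add C x41) x17) x25) (Nat.mul (e (nat_lit 23)) ap)) x265) (Nat.mul (e (nat_lit 23)) an))
    (Nat.sub (Nat.add (Nat.add (Nat.add C (Nat.mul x25 (nat_lit 2))) x43) x23) x267)
    (Nat.sub (Nat.sub (Nat.add (Nat.add (Nat.add (Nat.add C x89) x17) x41) (Nat.mul (e (nat_lit 35)) ap)) x277) (Nat.mul (e (nat_lit 35)) an))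
    (Nat.sub (Nat.sub (Nat.add (Nat.add (Nat.add (Nat.add (Nat.add (Nat.add (Nat.add C x95) x23) x59) x35) x47) x43) (Nat.mul (e (nat_lit 41)) ap)) x283) (Nat.mul (e (nat_lit 41)) an))
    (Nat.sub (Nat.sub (Nat.add (Nat.add (Nat.add (Nat.add (Nat.add (Nat.add (Nat.add C x43) x97) x25) x61) x49) x41) (Nat.mul (e (nat_lit 43)) ap)) x285) (Nat.mul (e (nat_lit 43)) an))
    (Nat.sub (Nat.sub (Nat.sub (Nat.add (Nat.add (Nat.add (Nat.add (Nat.add C x101) x65) x41) x49) (Nat.mul (e (nat_lit 47)) ap)) (Nat.mul x47 (nat_lit 2))) x289) (Nat.mul (e (nat_lit 47)) an))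
    (Nat.sub (Nat.add (Nat.add (Nat.add (Nat.add (Nat.add (Nat.add C x49) x103) x67) x43) x47) x51) x291)
    (Nat.add (Nat.add (Nat.add (Nat.add C (Nat.mul x51 (nat_lit 2))) x105) x69) x49)
    (Nat.sub (Nat.sub (Nat.sub (Nat.add (Nat.add (Nat.add (Nat.add (Nat.add C x113) x41) x65) x61) (Nat.mul (e (nat_lit 59)) ap)) (Nat.mul x59 (nat_lit 2))) x301) (Nat.mul (e (nat_lit 59)) an))
    (Nat.sub (Nat.sub (Nat.add (Nat.add (Nat.add (Nat.add C x115) x43) x67) x59) (Nat.mul x61 (nat_lit 2))) x303)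
    (Nat.sub (Nat.sub (Nat.add (Nat.add (Nat.add (Nat.add C x119) x47) x59) x67) (Nat.mul x65 (nat_lit 2))) x307)
    (Nat.sub (Nat.add (Nat.add (Nat.add (Nat.add (Nat.add (Nat.add C x121) x49) x61) x73) x65) x69) x309)
    (Nat.add (Nat.add (Nat.add (Nat.add C x123) x51) x75) x67)
    (Nat.sub (Nat.add (Nat.add (Nat.add C x127) x67) x75) x315)
    (Nat.add (Nat.add (Nat.add (Nat.add C (Nat.mul x75 (nat_lit 2))) x129) x69) x73)
    (Nat.sub (Nat.add (Nat.add (Nat.add C x251) x35) x95) x331)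
    (Nat.sub (Nat.sub (Nat.sub (Nat.add (Nat.add (Nat.add (Nat.add (Nat.add (Nat.add (Nat.add C x257) x41) x113) x89) x101) x97) (Nat.mul (e (nat_lit 95)) ap)) x95) x337) (Nat.mul (e (nat_lit 95)) an))
    (Nat.sub (Nat.sub (Nat.add (Nat.add (Nat.add (Nat.add (Nat.add (Nat.add C x259) x43) x115) x103) x95) (Nat.mul (e (nat_lit 97)) ap)) x339) (Nat.mul (e (nat_lit 97)) an))
    (Nat.sub (Nat.sub (Nat.sub (Nat.add (Nat.add (Nat.add (Nat.add (Nat.add (Nat.add C x263) x47) x119) x95) x103) (Nat.mul (e (nat_lit 101)) ap)) (Nat.mul x101 (nat_lit 4))) x343) (Nat.mul (e (nat_lit 101)) an))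
    (Nat.sub (Nat.sub (Nat.add (Nat.add (Nat.add (Nat.add (Nat.add (Nat.add C x265) x49) x121) x97) x101) x105) x103) x345)
    (Nat.add (Nat.add (Nat.add (Nat.add C x267) x51) x123) x103)
    (Nat.sub (Nat.sub (Nat.sub (Nat.add (Nat.add (Nat.add (Nat.add (Nat.add (Nat.add (Nat.add C x275) x59) x167) x95) x119) x115) (Nat.mul (e (nat_lit 113)) ap)) x113) x355) (Nat.mul (e (nat_lit 113)) an))
    (Nat.sub (Nat.sub (Nat.add (Nat.add (Nat.add (Nat.add (Nat.add (Nat.add C x277) x61) x169) x97) x121) x113) x115) x357)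
    (Nat.sub (Nat.sub (Nat.sub (Nat.add (Nat.add (Nat.add (Nat.add (Nat.add (Nat.add (Nat.add (Nat.add C x281) x65) x173) x101) x137) x113) x121) (Nat.mul (e (nat_lit 119)) ap)) (Nat.mul x119 (nat_lit 2))) x361) (Nat.mul (e (nat_lit 119)) an))
    (Nat.sub (Nat.sub (Nat.add (Nat.add (Nat.add (Nat.add (Nat.add (Nat.add (Nat.add (Nat.add (Nat.add (Nat.add C x283) x67) x175) x103) x139) x115) x127) x119) x123) (Nat.mul (e (nat_lit 121)) ap)) x363) (Nat.mul (e (nat_lit 121)) an))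
    (Nat.add (Nat.add (Nat.add (Nat.add (Nat.add (Nat.add (Nat.add C x285) x69) x177) x105) x141) x129) x121)
    (Nat.sub (Nat.sub (Nat.add (Nat.add (Nat.add (Nat.add (Nat.add (Nat.add C x289) x73) x181) x145) x121) x129) x127) x369)
    (Nat.add (Nat.add (Nat.add (Nat.add (Nat.add (Nat.add (Nat.add C x129) x291) x75) x183) x147) x123) x127)
    (Nat.sub (Nat.sub (Nat.add (Nat.add (Nat.add (Nat.add C x299) x191) x119) x139) (Nat.mul x137 (nat_lit 2))) x379)
    (Nat.sub (Nat.sub (Nat.add (Nat.add (Nat.add (Nat.add (Nat.add (Nat.add C x301) x193) x121) x145) x137) x141) x139) x381)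
    (Nat.sub (Nat.add (Nat.add (Nat.add (Nat.add (Nat.add C x303) x195) x123) x147) x139) (Nat.mul x141 (nat_lit 2)))
    (Nat.sub (Nat.add (Nat.add (Nat.add (Nat.add (Nat.add C x307) x199) x127) x139) x147) x387)
    (Nat.add (Nat.add (Nat.add (Nat.add (Nat.add (Nat.add (Nat.add C x147) x309) x201) x129) x141) x153) x145)
    (Nat.add (Nat.add (Nat.add (Nat.add C (Nat.mul x153 (nat_lit 2))) x315) x207) x147)
    (Nat.sub (Nat.sub (Nat.add (Nat.add (Nat.add (Nat.add C x329) x113) x173) x169) (Nat.mul x167 (nat_lit 2))) x409)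
    (Nat.sub (Nat.sub (Nat.add (Nat.add (Nat.add (Nat.add C x331) x115) x175) x167) (Nat.mul x169 (nat_lit 2))) x411)
    (Nat.sub (Nat.sub (Nat.add (Nat.add (Nat.add (Nat.add (Nat.add C x335) x119) x191) x167) x175) (Nat.mul x173 (nat_lit 4))) x415)
    (Nat.sub (Nat.sub (Nat.add (Nat.add (Nat.add (Nat.add (Nat.add (Nat.add (Nat.add C x337) x121) x193) x169) x181) x173) x177) (Nat.mul x175 (nat_lit 2))) x417)
    (Nat.sub (Nat.add (Nat.add (Nat.add (Nat.add (Nat.add C x339) x123) x195) x183) x175) (Nat.mul x177 (nat_lit 2)))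
    (Nat.sub (Nat.sub (Nat.add (Nat.add (Nat.add (Nat.add (Nat.add C x343) x127) x199) x175) x183) (Nat.mul x181 (nat_lit 4))) x423)
    (Nat.sub (Nat.add (Nat.add (Nat.add (Nat.add (Nat.add C x345) x129) x201) x177) x181) (Nat.mul x183 (nat_lit 2)))
    (Nat.sub (Nat.sub (Nat.add (Nat.add (Nat.add (Nat.add C x353) x137) x173) x193) (Nat.mul x191 (nat_lit 2))) x433)
    (Nat.sub (Nat.sub (Nat.add (Nat.add (Nat.add (Nat.add (Nat.add (Nat.add C x355) x139) x175) x199) x191) x195) x193) x435)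
    (Nat.sub (Nat.add (Nat.add (Nat.add (Nat.add (Nat.add C x357) x141) x177) x201) x193) (Nat.mul x195 (nat_lit 2)))
    (Nat.sub (Nat.sub (Nat.add (Nat.add (Nat.add (Nat.add (Nat.add (Nat.add C x361) x145) x181) x217) x193) x201) x199) x441)
    (Nat.add (Nat.add (Nat.add (Nat.add (Nat.add (Nat.add (Nat.add C x363) x147) x183) x219) x195) x207) x199)
    (Nat.add (Nat.add (Nat.add (Nat.add C x369) x153) x225) x201)
    (Nat.sub (Nat.add (Nat.add (Nat.add C x379) x199) x219) x459)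
    (Nat.add (Nat.add (Nat.add (Nat.add C x381) x201) x225) x217)
    (Nat.add (Nat.add (Nat.add (Nat.add C (Nat.mul x225 (nat_lit 2))) x387) x207) x219)
    (Nat.sub (Nat.add (Nat.add (Nat.add C (Nat.mul x251 (nat_lit 2))) x89) x257) x493)
    (Nat.sub (Nat.add (Nat.add (Nat.add (Nat.add (Nat.add (Nat.add C x257) x95) x275) x251) x263) x259) x499)
    (Nat.sub (Nat.sub (Nat.add (Nat.add (Nat.add (Nat.add (Nat.add C x259) x97) x277) x265) x257) x501) x17)
    (Nat.sub (Nat.sub (Nat.add (Nat.add (Nat.add (Nat.add C x101) x281) x257) x265) (Nat.mul x263 (nat_lit 2))) x505)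
    (Nat.sub (Nat.sub (Nat.add (Nat.add (Nat.add (Nat.add (Nat.add C x103) x283) x259) x263) x267) x507) x23)
    (Nat.sub (Nat.add (Nat.add (Nat.add C x105) x285) x265) x25)
    (Nat.sub (Nat.add (Nat.add (Nat.add (Nat.add (Nat.add C x113) x329) x257) x281) x277) x517)
    (Nat.sub (Nat.sub (Nat.sub (Nat.add (Nat.add (Nat.add (Nat.add (Nat.add C x115) x331) x259) x283) x275) x277) x519) x35)
    (Nat.sub (Nat.sub (Nat.add (Nat.add (Nat.add (Nat.add (Nat.add (Nat.add C x119) x335) x263) x299) x275) x283) x281) x523)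
    (Nat.sub (Nat.sub (Nat.add (Nat.add (Nat.add (Nat.add (Nat.add (Nat.add (Nat.add (Nat.add C x121) x337) x265) x301) x277) x289) x281) x285) x525) x41)
    (Nat.sub (Nat.sub (Nat.add (Nat.add (Nat.add (Nat.add (Nat.add (Nat.add C x123) x339) x267) x303) x291) x283) x285) x43)
    (Nat.sub (Nat.sub (Nat.sub (Nat.add (Nat.add (Nat.add (Nat.add (Nat.add C x127) x343) x307) x283) x291) x289) x531) x47)
    (Nat.sub (Nat.add (Nat.add (Nat.add (Nat.add (Nat.add C x129) x345) x309) x285) x289) x49)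
    (Nat.sub (Nat.sub (Nat.add (Nat.add (Nat.add (Nat.add C x137) x353) x281) x301) (Nat.mul x299 (nat_lit 2))) x541)
    (Nat.sub (Nat.sub (Nat.sub (Nat.add (Nat.add (Nat.add (Nat.add (Nat.add (Nat.add C x139) x355) x283) x307) x299) x303) (Nat.mul x301 (nat_lit 2))) x543) x59)
    (Nat.sub (Nat.sub (Nat.add (Nat.add (Nat.add (Nat.add (Nat.add C x141) x357) x285) x309) x301) (Nat.mul x303 (nat_lit 4))) x61)
    (Nat.sub (Nat.sub (Nat.sub (Nat.add (Nat.add (Nat.add (Nat.add (Nat.add C x145) x361) x289) x301) x309) x307) x549) x65)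
    (Nat.sub (Nat.sub (Nat.add (Nat.add (Nat.add (Nat.add (Nat.add (Nat.add C x147) x363) x291) x303) x315) x307) x309) x67)
    (Nat.sub (Nat.add (Nat.add (Nat.add C x153) x369) x309) x73)
    (Nat.sub (Nat.add (Nat.add (Nat.add (Nat.add (Nat.add (Nat.add C x329) x167) x491) x275) x335) x331) x571)
    (Nat.sub (Nat.sub (Nat.add (Nat.add (Nat.add (Nat.add (Nat.add C x169) x493) x277) x337) x329) x573) x89)
    (Nat.sub (Nat.sub (Nat.add (Nat.add (Nat.add (Nat.add (Nat.add (Nat.add C x173) x497) x281) x353) x329) x337) x335) x577)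
    (Nat.sub (Nat.sub (Nat.add (Nat.add (Nat.add (Nat.add (Nat.add (Nat.add (Nat.add (Nat.add C x175) x499) x283) x355) x331) x343) x335) x339) x579) x95)
    (Nat.sub (Nat.sub (Nat.add (Nat.add (Nat.add (Nat.add (Nat.add (Nat.add C x177) x501) x285) x357) x345) x337) x339) x97)
    (Nat.sub (Nat.sub (Nat.sub (Nat.add (Nat.add (Nat.add (Nat.add (Nat.add (Nat.add C x181) x505) x289) x361) x337) x345) (Nat.mul x343 (nat_lit 2))) x585) x101)
    (Nat.sub (Nat.sub (Nat.add (Nat.add (Nat.add (Nat.add (Nat.add (Nat.add C x183) x507) x291) x363) x339) x343) x345) x103)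
    (Nat.sub (Nat.add (Nat.add (Nat.add (Nat.add (Nat.add (Nat.add C x191) x515) x299) x407) x335) x355) x595)
    (Nat.sub (Nat.sub (Nat.add (Nat.add (Nat.add (Nat.add (Nat.add (Nat.add (Nat.add (Nat.add C x193) x517) x301) x409) x337) x361) x353) x357) x597) x113)
    (Nat.sub (Nat.sub (Nat.add (Nat.add (Nat.add (Nat.add (Nat.add (Nat.add (Nat.add C x195) x519) x303) x411) x339) x363) x355) (Nat.mul x357 (nat_lit 2))) x115)
    (Nat.sub (Nat.sub (Nat.add (Nat.add (Nat.add (Nat.add (Nat.add (Nat.add (Nat.add (Nat.add C x199) x523) x307) x415) x343) x379) x355) x363) x603) x119)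
    (Nat.sub (Nat.add (Nat.add (Nat.add (Nat.add (Nat.add (Nat.add (Nat.add (Nat.add (Nat.add C x201) x525) x309) x417) x345) x381) x357) x369) x361) x121)
    (Nat.sub (Nat.add (Nat.add (Nat.add (Nat.add (Nat.add (Nat.add C x207) x531) x315) x423) x387) x363) x127)
    (Nat.sub (Nat.sub (Nat.add (Nat.add (Nat.add (Nat.add (Nat.add C x217) x541) x433) x361) x381) x621) x137)
    (Nat.sub (Nat.sub (Nat.add (Nat.add (Nat.add (Nat.add (Nat.add (Nat.add C x219) x543) x435) x363) x387) x379) x381) x139)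
    (Nat.sub (Nat.add (Nat.add (Nat.add (Nat.add (Nat.add (Nat.add C x387) x225) x549) x441) x369) x381) x145)
    (Nat.sub (Nat.add (Nat.add (Nat.add C x569) x353) x409) x649)
    (Nat.sub (Nat.sub (Nat.add (Nat.add (Nat.add (Nat.add (Nat.add C x571) x355) x415) x407) x411) x651) x167)
    (Nat.sub (Nat.sub (Nat.add (Nat.add (Nat.add (Nat.add C x573) x357) x417) x409) (Nat.mul x411 (nat_lit 2))) x169)
    (Nat.sub (Nat.sub (Nat.sub (Nat.add (Nat.add (Nat.add (Nat.add (Nat.add C x577) x361) x433) x409) x417) x415) x657) x173)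
    (Nat.sub (Nat.sub (Nat.add (Nat.add (Nat.add (Nat.add (Nat.add (Nat.add C x579) x363) x435) x411) x423) x415) x417) x175)
    (Nat.sub (Nat.sub (Nat.add (Nat.add (Nat.add (Nat.add C x585) x369) x441) x417) (Nat.mul x423 (nat_lit 2))) x181)
    (Nat.sub (Nat.sub (Nat.add (Nat.add (Nat.add (Nat.add (Nat.add C x433) x595) x379) x415) x435) x675) x191)
    (Nat.sub (Nat.add (Nat.add (Nat.add (Nat.add (Nat.add C x597) x381) x417) x441) x433) x193)
    (Nat.sub (Nat.add (Nat.add (Nat.add (Nat.add (Nat.add (Nat.add C x441) x603) x387) x423) x459) x435) x199)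
    (Nat.sub (Nat.add (Nat.add (Nat.add C (Nat.mul x459 (nat_lit 2))) x621) x441) x217)
    (Nat.add (Nat.add (Nat.add (Nat.add C (Nat.mul x491 (nat_lit 2))) x329) x497) x493)
    (Nat.sub (Nat.add (Nat.add (Nat.add C x331) x499) x491) x251)
    (Nat.add (Nat.add (Nat.add (Nat.add C x335) x515) x491) x499)
    (Nat.sub (Nat.add (Nat.add (Nat.add (Nat.add (Nat.add (Nat.add C x337) x517) x493) x505) x497) x501) x257)
    (Nat.sub (Nat.sub (Nat.add (Nat.add (Nat.add (Nat.add C x339) x519) x507) x499) (Nat.mul x501 (nat_lit 2))) x259)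
    (Nat.sub (Nat.sub (Nat.add (Nat.add (Nat.add (Nat.add C x343) x523) x499) x507) (Nat.mul x505 (nat_lit 2))) x263)
    (Nat.sub (Nat.sub (Nat.add (Nat.add (Nat.add (Nat.add C x345) x525) x501) x505) (Nat.mul x507 (nat_lit 2))) x265)
    (Nat.add (Nat.add (Nat.add (Nat.add C x353) x569) x497) x517)
    (Nat.sub (Nat.sub (Nat.add (Nat.add (Nat.add (Nat.add (Nat.add (Nat.add C x355) x571) x499) x523) x515) x519) x517) x275)
    (Nat.sub (Nat.sub (Nat.add (Nat.add (Nat.add (Nat.add (Nat.add C x357) x573) x501) x525) x517) (Nat.mul x519 (nat_lit 4))) x277)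
    (Nat.sub (Nat.sub (Nat.add (Nat.add (Nat.add (Nat.add (Nat.add (Nat.add C x361) x577) x505) x541) x517) x525) x523) x281)
    (Nat.sub (Nat.sub (Nat.add (Nat.add (Nat.add (Nat.add (Nat.add (Nat.add (Nat.add C x363) x579) x507) x543) x519) x531) x523) (Nat.mul x525 (nat_lit 2))) x283)
    (Nat.sub (Nat.sub (Nat.add (Nat.add (Nat.add (Nat.add C x369) x585) x549) x525) (Nat.mul x531 (nat_lit 2))) x289)
    (Nat.sub (Nat.sub (Nat.add (Nat.add (Nat.add (Nat.add C x379) x595) x523) x543) (Nat.mul x541 (nat_lit 2))) x299)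
    (Nat.sub (Nat.sub (Nat.add (Nat.add (Nat.add (Nat.add (Nat.add C x381) x597) x525) x549) x541) (Nat.mul x543 (nat_lit 4))) x301)
    (Nat.sub (Nat.sub (Nat.add (Nat.add (Nat.add (Nat.add C x387) x603) x531) x543) (Nat.mul x549 (nat_lit 2))) x307)
    (Nat.add (Nat.add (Nat.add (Nat.add C (Nat.mul x569 (nat_lit 2))) x407) x515) x571)
    (Nat.sub (Nat.add (Nat.add (Nat.add (Nat.add (Nat.add (Nat.add C x571) x409) x517) x577) x569) x573) x329)
    (Nat.sub (Nat.sub (Nat.add (Nat.add (Nat.add (Nat.add C x411) x519) x579) x571) (Nat.mul x573 (nat_lit 2))) x331)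
    (Nat.sub (Nat.add (Nat.add (Nat.add (Nat.add (Nat.add C x415) x523) x595) x571) x579) x335)
    (Nat.sub (Nat.sub (Nat.add (Nat.add (Nat.add (Nat.add (Nat.add (Nat.add C x417) x525) x597) x573) x585) x577) x579) x337)
    (Nat.sub (Nat.sub (Nat.add (Nat.add (Nat.add (Nat.add C x423) x531) x603) x579) (Nat.mul x585 (nat_lit 2))) x343)
    (Nat.sub (Nat.add (Nat.add (Nat.add (Nat.add (Nat.add (Nat.add C x595) x433) x541) x649) x577) x597) x353)
    (Nat.sub (Nat.sub (Nat.add (Nat.add (Nat.add (Nat.add (Nat.add (Nat.add C x435) x543) x651) x579) x603) x595) x597) x355)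
    (Nat.sub (Nat.add (Nat.add (Nat.add (Nat.add (Nat.add (Nat.add C x441) x549) x657) x585) x621) x597) x361)
    (Nat.sub (Nat.add (Nat.add (Nat.add C x459) x675) x603) x379)
    (Nat.sub (Nat.add (Nat.add (Nat.add C (Nat.mul x649 (nat_lit 2))) x595) x651) x407)
    (Nat.sub (Nat.add (Nat.add (Nat.add C x597) x657) x649) x409)
    (Nat.sub (Nat.add (Nat.add (Nat.add C x603) x675) x651) x415)
    (Nat.sub (Nat.add (Nat.add (Nat.add C (Nat.mul x675 (nat_lit 2))) x621) x657) x433)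

theorem ap_eq (x : Nat → Nat) (k : FnLL specs) : apLL (fun t => x t.cd) specs k = A6_5.ap x k :=
  Eq.refl (A6_5.ap x k)

theorem step_eq0 (e : Nat → Nat) (C p r : Nat) (k : FnLL specs) (x : Nat → Nat) :
    A6_5.ap x (step e C p r k) = apLL (interp e C p r x) specs k :=
  Eq.refl (A6_5.ap x (step e C p r k))

theorem spec_ok : specOK 5 true A6_5.mask specs = true := by decide +kernel

theorem step_eq (e : Nat → Nat) (C p r : Nat) (k : A6_5.KK) (x : Nat → Nat) :
    A6_5.ap x (step e C p r k) = A6_5.ap (row 5 true A6_5.mask e C p r x) k :=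
  ((step_eq0 e C p r k x).trans (apLL_row 5 true A6_5.mask specs spec_ok e C p r x k)).trans
    (ap_eq (row 5 true A6_5.mask e C p r x) k)

end Vale.Agent.P348.G6_5_1

namespace Vale.Agent.P348.G6_6_1

noncomputable def sp0 : List Spec :=
  [Spec.mk (nat_lit 26) (nat_lit 2) [nat_lit 44] (nat_lit 0) [nat_lit 268] true,
   Spec.mk (nat_lit 44) (nat_lit 1) [nat_lit 98, nat_lit 26, nat_lit 62, nat_lit 50] (nat_lit 0) [nat_lit 286] true,
   Spec.mk (nat_lit 50) (nat_lit 0) [nat_lit 104, nat_lit 68, nat_lit 44, nat_lit 52] (nat_lit 0) [nat_lit 292] true,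
   Spec.mk (nat_lit 52) (nat_lit 2) [nat_lit 106, nat_lit 70, nat_lit 50] (nat_lit 0) [nat_lit 294] true,
   Spec.mk (nat_lit 62) (nat_lit 0) [nat_lit 116, nat_lit 44, nat_lit 68] (nat_lit 2) [nat_lit 304] true,
   Spec.mk (nat_lit 68) (nat_lit 0) [nat_lit 122, nat_lit 50, nat_lit 62, nat_lit 74, nat_lit 70] (nat_lit 1) [nat_lit 310] true,
   Spec.mk (nat_lit 70) (nat_lit 0) [nat_lit 124, nat_lit 52, nat_lit 76, nat_lit 68] (nat_lit 0) [nat_lit 312] false,
   Spec.mk (nat_lit 74) (nat_lit 0) [nat_lit 128, nat_lit 68, nat_lit 76] (nat_lit 2) [nat_lit 316] false,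
   Spec.mk (nat_lit 76) (nat_lit 1) [nat_lit 130, nat_lit 70, nat_lit 74, nat_lit 78] (nat_lit 0) [nat_lit 318] false,
   Spec.mk (nat_lit 78) (nat_lit 2) [nat_lit 132, nat_lit 76] (nat_lit 0) [] false,
   Spec.mk (nat_lit 98) (nat_lit 0) [nat_lit 260, nat_lit 44, nat_lit 116, nat_lit 104] (nat_lit 0) [nat_lit 340] false,
   Spec.mk (nat_lit 104) (nat_lit 0) [nat_lit 266, nat_lit 50, nat_lit 122, nat_lit 98, nat_lit 106] (nat_lit 2) [nat_lit 346] true,
   Spec.mk (nat_lit 106) (nat_lit 0) [nat_lit 268, nat_lit 52, nat_lit 124, nat_lit 104] (nat_lit 0) [nat_lit 348] false,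
   Spec.mk (nat_lit 116) (nat_lit 0) [nat_lit 278, nat_lit 62, nat_lit 170, nat_lit 98, nat_lit 122] (nat_lit 1) [nat_lit 358] false,
   Spec.mk (nat_lit 122) (nat_lit 0) [nat_lit 284, nat_lit 68, nat_lit 176, nat_lit 104, nat_lit 140, nat_lit 116, nat_lit 128, nat_lit 124] (nat_lit 1) [nat_lit 364] true,
   Spec.mk (nat_lit 124) (nat_lit 0) [nat_lit 286, nat_lit 70, nat_lit 178, nat_lit 106, nat_lit 142, nat_lit 130, nat_lit 122] (nat_lit 0) [nat_lit 366] true,
   Spec.mk (nat_lit 128) (nat_lit 0) [nat_lit 290, nat_lit 74, nat_lit 182, nat_lit 146, nat_lit 122, nat_lit 130] (nat_lit 3) [nat_lit 370] true,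
   Spec.mk (nat_lit 130) (nat_lit 0) [nat_lit 292, nat_lit 76, nat_lit 184, nat_lit 148, nat_lit 124, nat_lit 128, nat_lit 132] (nat_lit 0) [nat_lit 372] true,
   Spec.mk (nat_lit 132) (nat_lit 1) [nat_lit 294, nat_lit 78, nat_lit 186, nat_lit 150, nat_lit 130] (nat_lit 0) [] false,
   Spec.mk (nat_lit 140) (nat_lit 0) [nat_lit 302, nat_lit 194, nat_lit 122, nat_lit 146, nat_lit 142] (nat_lit 2) [nat_lit 382] true,
   Spec.mk (nat_lit 142) (nat_lit 0) [nat_lit 304, nat_lit 196, nat_lit 124, nat_lit 148, nat_lit 140] (nat_lit 2) [nat_lit 384] true,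
   Spec.mk (nat_lit 146) (nat_lit 0) [nat_lit 308, nat_lit 200, nat_lit 128, nat_lit 140, nat_lit 148] (nat_lit 2) [nat_lit 388] false,
   Spec.mk (nat_lit 148) (nat_lit 0) [nat_lit 310, nat_lit 202, nat_lit 130, nat_lit 142, nat_lit 154, nat_lit 146, nat_lit 150] (nat_lit 0) [nat_lit 390] false,
   Spec.mk (nat_lit 150) (nat_lit 0) [nat_lit 312, nat_lit 204, nat_lit 132, nat_lit 156, nat_lit 148] (nat_lit 0) [] false,
   Spec.mk (nat_lit 154) (nat_lit 0) [nat_lit 316, nat_lit 208, nat_lit 148, nat_lit 156] (nat_lit 0) [nat_lit 396] false,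
   Spec.mk (nat_lit 156) (nat_lit 2) [nat_lit 318, nat_lit 210, nat_lit 150, nat_lit 154] (nat_lit 0) [] false,
   Spec.mk (nat_lit 170) (nat_lit 0) [nat_lit 332, nat_lit 116, nat_lit 176] (nat_lit 2) [nat_lit 412] false,
   Spec.mk (nat_lit 176) (nat_lit 0) [nat_lit 338, nat_lit 122, nat_lit 194, nat_lit 170, nat_lit 182, nat_lit 178] (nat_lit 3) [nat_lit 418] false,
   Spec.mk (nat_lit 178) (nat_lit 0) [nat_lit 340, nat_lit 124, nat_lit 196, nat_lit 184, nat_lit 176] (nat_lit 2) [nat_lit 420] false,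
   Spec.mk (nat_lit 182) (nat_lit 0) [nat_lit 344, nat_lit 128, nat_lit 200, nat_lit 176, nat_lit 184] (nat_lit 6) [nat_lit 424] true,
   Spec.mk (nat_lit 184) (nat_lit 0) [nat_lit 346, nat_lit 130, nat_lit 202, nat_lit 178, nat_lit 182, nat_lit 186] (nat_lit 3) [nat_lit 426] false,
   Spec.mk (nat_lit 186) (nat_lit 0) [nat_lit 348, nat_lit 132, nat_lit 204, nat_lit 184] (nat_lit 2) [] false,
   Spec.mk (nat_lit 194) (nat_lit 0) [nat_lit 356, nat_lit 140, nat_lit 176, nat_lit 200, nat_lit 196] (nat_lit 2) [nat_lit 436] false,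
   Spec.mk (nat_lit 196) (nat_lit 0) [nat_lit 358, nat_lit 142, nat_lit 178, nat_lit 202, nat_lit 194] (nat_lit 2) [nat_lit 438] false,
   Spec.mk (nat_lit 200) (nat_lit 0) [nat_lit 362, nat_lit 146, nat_lit 182, nat_lit 218, nat_lit 194, nat_lit 202] (nat_lit 3) [nat_lit 442] false,
   Spec.mk (nat_lit 202) (nat_lit 0) [nat_lit 364, nat_lit 148, nat_lit 184, nat_lit 220, nat_lit 196, nat_lit 208, nat_lit 200, nat_lit 204] (nat_lit 1) [nat_lit 444] false,
   Spec.mk (nat_lit 204) (nat_lit 0) [nat_lit 366, nat_lit 150, nat_lit 186, nat_lit 222, nat_lit 210, nat_lit 202] (nat_lit 1) [] false,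
   Spec.mk (nat_lit 208) (nat_lit 0) [nat_lit 370, nat_lit 154, nat_lit 226, nat_lit 202, nat_lit 210] (nat_lit 2) [nat_lit 450] false,
   Spec.mk (nat_lit 210) (nat_lit 0) [nat_lit 372, nat_lit 156, nat_lit 228, nat_lit 204, nat_lit 208] (nat_lit 0) [] false,
   Spec.mk (nat_lit 218) (nat_lit 0) [nat_lit 380, nat_lit 200, nat_lit 220] (nat_lit 2) [nat_lit 460] false,
   Spec.mk (nat_lit 220) (nat_lit 0) [nat_lit 382, nat_lit 202, nat_lit 226, nat_lit 218, nat_lit 222] (nat_lit 1) [nat_lit 462] false,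
   Spec.mk (nat_lit 222) (nat_lit 0) [nat_lit 384, nat_lit 204, nat_lit 228, nat_lit 220] (nat_lit 2) [] false,
   Spec.mk (nat_lit 226) (nat_lit 0) [nat_lit 388, nat_lit 208, nat_lit 220, nat_lit 228] (nat_lit 0) [nat_lit 468] false,
   Spec.mk (nat_lit 228) (nat_lit 1) [nat_lit 390, nat_lit 210, nat_lit 222, nat_lit 234, nat_lit 226] (nat_lit 0) [] false,
   Spec.mk (nat_lit 234) (nat_lit 2) [nat_lit 396, nat_lit 228] (nat_lit 0) [] false,
   Spec.mk (nat_lit 260) (nat_lit 2) [nat_lit 98, nat_lit 278, nat_lit 266] (nat_lit 0) [nat_lit 502] false,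
   Spec.mk (nat_lit 266) (nat_lit 0) [nat_lit 104, nat_lit 284, nat_lit 260, nat_lit 268] (nat_lit 0) [nat_lit 508] false,
   Spec.mk (nat_lit 268) (nat_lit 1) [nat_lit 106, nat_lit 286, nat_lit 266] (nat_lit 0) [nat_lit 510, nat_lit 26] false,
   Spec.mk (nat_lit 278) (nat_lit 0) [nat_lit 116, nat_lit 332, nat_lit 260, nat_lit 284] (nat_lit 0) [nat_lit 520] false,
   Spec.mk (nat_lit 284) (nat_lit 0) [nat_lit 122, nat_lit 338, nat_lit 266, nat_lit 302, nat_lit 278, nat_lit 290, nat_lit 286] (nat_lit 0) [nat_lit 526] false,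
   Spec.mk (nat_lit 286) (nat_lit 0) [nat_lit 124, nat_lit 340, nat_lit 268, nat_lit 304, nat_lit 292, nat_lit 284] (nat_lit 0) [nat_lit 528, nat_lit 44] false,
   Spec.mk (nat_lit 290) (nat_lit 0) [nat_lit 128, nat_lit 344, nat_lit 308, nat_lit 284, nat_lit 292] (nat_lit 2) [nat_lit 532] false,
   Spec.mk (nat_lit 292) (nat_lit 0) [nat_lit 130, nat_lit 346, nat_lit 310, nat_lit 286, nat_lit 290, nat_lit 294] (nat_lit 0) [nat_lit 534, nat_lit 50] false,
   Spec.mk (nat_lit 294) (nat_lit 0) [nat_lit 132, nat_lit 348, nat_lit 312, nat_lit 292] (nat_lit 0) [nat_lit 52] false,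
   Spec.mk (nat_lit 302) (nat_lit 0) [nat_lit 140, nat_lit 356, nat_lit 284, nat_lit 308, nat_lit 304] (nat_lit 2) [nat_lit 544] false,
   Spec.mk (nat_lit 304) (nat_lit 0) [nat_lit 142, nat_lit 358, nat_lit 286, nat_lit 310, nat_lit 302] (nat_lit 3) [nat_lit 546, nat_lit 62] false,
   Spec.mk (nat_lit 308) (nat_lit 0) [nat_lit 146, nat_lit 362, nat_lit 290, nat_lit 302, nat_lit 310] (nat_lit 2) [nat_lit 550] false,
   Spec.mk (nat_lit 310) (nat_lit 0) [nat_lit 148, nat_lit 364, nat_lit 292, nat_lit 304, nat_lit 316, nat_lit 308, nat_lit 312] (nat_lit 1) [nat_lit 552, nat_lit 68] false,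
   Spec.mk (nat_lit 312) (nat_lit 0) [nat_lit 150, nat_lit 366, nat_lit 294, nat_lit 318, nat_lit 310] (nat_lit 2) [nat_lit 70] false,
   Spec.mk (nat_lit 316) (nat_lit 0) [nat_lit 154, nat_lit 370, nat_lit 310, nat_lit 318] (nat_lit 1) [nat_lit 558, nat_lit 74] false]

noncomputable def sp1 : List Spec :=
  [Spec.mk (nat_lit 318) (nat_lit 0) [nat_lit 156, nat_lit 372, nat_lit 312, nat_lit 316] (nat_lit 0) [nat_lit 76] false,
   Spec.mk (nat_lit 332) (nat_lit 1) [nat_lit 170, nat_lit 494, nat_lit 278, nat_lit 338] (nat_lit 0) [nat_lit 574] false,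
   Spec.mk (nat_lit 338) (nat_lit 0) [nat_lit 176, nat_lit 500, nat_lit 284, nat_lit 356, nat_lit 332, nat_lit 344, nat_lit 340] (nat_lit 0) [nat_lit 580] false,
   Spec.mk (nat_lit 340) (nat_lit 0) [nat_lit 178, nat_lit 502, nat_lit 286, nat_lit 358, nat_lit 346, nat_lit 338] (nat_lit 0) [nat_lit 582, nat_lit 98] false,
   Spec.mk (nat_lit 344) (nat_lit 0) [nat_lit 182, nat_lit 506, nat_lit 290, nat_lit 362, nat_lit 338, nat_lit 346] (nat_lit 3) [nat_lit 586] false,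
   Spec.mk (nat_lit 346) (nat_lit 0) [nat_lit 184, nat_lit 508, nat_lit 292, nat_lit 364, nat_lit 340, nat_lit 344, nat_lit 348] (nat_lit 1) [nat_lit 588, nat_lit 104] false,
   Spec.mk (nat_lit 348) (nat_lit 0) [nat_lit 186, nat_lit 510, nat_lit 294, nat_lit 366, nat_lit 346] (nat_lit 1) [nat_lit 106] false,
   Spec.mk (nat_lit 356) (nat_lit 0) [nat_lit 194, nat_lit 518, nat_lit 302, nat_lit 410, nat_lit 338, nat_lit 362, nat_lit 358] (nat_lit 0) [nat_lit 598] false,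
   Spec.mk (nat_lit 358) (nat_lit 0) [nat_lit 196, nat_lit 520, nat_lit 304, nat_lit 412, nat_lit 340, nat_lit 364, nat_lit 356] (nat_lit 1) [nat_lit 600, nat_lit 116] false,
   Spec.mk (nat_lit 362) (nat_lit 0) [nat_lit 200, nat_lit 524, nat_lit 308, nat_lit 416, nat_lit 344, nat_lit 380, nat_lit 356, nat_lit 364] (nat_lit 1) [nat_lit 604] false,
   Spec.mk (nat_lit 364) (nat_lit 0) [nat_lit 202, nat_lit 526, nat_lit 310, nat_lit 418, nat_lit 346, nat_lit 382, nat_lit 358, nat_lit 370, nat_lit 362, nat_lit 366] (nat_lit 0) [nat_lit 606, nat_lit 122] true,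
   Spec.mk (nat_lit 366) (nat_lit 0) [nat_lit 204, nat_lit 528, nat_lit 312, nat_lit 420, nat_lit 348, nat_lit 384, nat_lit 372, nat_lit 364] (nat_lit 1) [nat_lit 124] false,
   Spec.mk (nat_lit 370) (nat_lit 0) [nat_lit 208, nat_lit 532, nat_lit 316, nat_lit 424, nat_lit 388, nat_lit 364, nat_lit 372] (nat_lit 1) [nat_lit 612, nat_lit 128] false,
   Spec.mk (nat_lit 372) (nat_lit 0) [nat_lit 210, nat_lit 534, nat_lit 318, nat_lit 426, nat_lit 390, nat_lit 366, nat_lit 370] (nat_lit 0) [nat_lit 130] false,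
   Spec.mk (nat_lit 380) (nat_lit 0) [nat_lit 218, nat_lit 542, nat_lit 434, nat_lit 362, nat_lit 382] (nat_lit 1) [nat_lit 622] false,
   Spec.mk (nat_lit 382) (nat_lit 0) [nat_lit 220, nat_lit 544, nat_lit 436, nat_lit 364, nat_lit 388, nat_lit 380, nat_lit 384] (nat_lit 1) [nat_lit 624, nat_lit 140] false,
   Spec.mk (nat_lit 384) (nat_lit 0) [nat_lit 222, nat_lit 546, nat_lit 438, nat_lit 366, nat_lit 390, nat_lit 382] (nat_lit 3) [nat_lit 142] false,
   Spec.mk (nat_lit 388) (nat_lit 0) [nat_lit 226, nat_lit 550, nat_lit 442, nat_lit 370, nat_lit 382, nat_lit 390] (nat_lit 0) [nat_lit 630, nat_lit 146] false,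
   Spec.mk (nat_lit 390) (nat_lit 0) [nat_lit 228, nat_lit 552, nat_lit 444, nat_lit 372, nat_lit 384, nat_lit 396, nat_lit 388] (nat_lit 0) [nat_lit 148] false,
   Spec.mk (nat_lit 396) (nat_lit 1) [nat_lit 234, nat_lit 558, nat_lit 450, nat_lit 390] (nat_lit 0) [nat_lit 154] false,
   Spec.mk (nat_lit 410) (nat_lit 0) [nat_lit 572, nat_lit 356, nat_lit 416, nat_lit 412] (nat_lit 0) [nat_lit 652] false,
   Spec.mk (nat_lit 412) (nat_lit 0) [nat_lit 574, nat_lit 358, nat_lit 418, nat_lit 410] (nat_lit 1) [nat_lit 654, nat_lit 170] false,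
   Spec.mk (nat_lit 416) (nat_lit 0) [nat_lit 578, nat_lit 362, nat_lit 434, nat_lit 410, nat_lit 418] (nat_lit 2) [nat_lit 658] false,
   Spec.mk (nat_lit 418) (nat_lit 0) [nat_lit 580, nat_lit 364, nat_lit 436, nat_lit 412, nat_lit 424, nat_lit 416, nat_lit 420] (nat_lit 1) [nat_lit 660, nat_lit 176] false,
   Spec.mk (nat_lit 420) (nat_lit 0) [nat_lit 582, nat_lit 366, nat_lit 438, nat_lit 426, nat_lit 418] (nat_lit 2) [nat_lit 178] false,
   Spec.mk (nat_lit 424) (nat_lit 0) [nat_lit 586, nat_lit 370, nat_lit 442, nat_lit 418, nat_lit 426] (nat_lit 3) [nat_lit 666, nat_lit 182] false,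
   Spec.mk (nat_lit 426) (nat_lit 0) [nat_lit 588, nat_lit 372, nat_lit 444, nat_lit 420, nat_lit 424] (nat_lit 2) [nat_lit 184] false,
   Spec.mk (nat_lit 434) (nat_lit 0) [nat_lit 596, nat_lit 380, nat_lit 416, nat_lit 436] (nat_lit 0) [nat_lit 676] false,
   Spec.mk (nat_lit 436) (nat_lit 0) [nat_lit 598, nat_lit 382, nat_lit 418, nat_lit 442, nat_lit 434, nat_lit 438] (nat_lit 0) [nat_lit 678, nat_lit 194] false,
   Spec.mk (nat_lit 438) (nat_lit 0) [nat_lit 600, nat_lit 384, nat_lit 420, nat_lit 444, nat_lit 436] (nat_lit 2) [nat_lit 196] false,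
   Spec.mk (nat_lit 442) (nat_lit 0) [nat_lit 604, nat_lit 388, nat_lit 424, nat_lit 460, nat_lit 436, nat_lit 444] (nat_lit 0) [nat_lit 684, nat_lit 200] false,
   Spec.mk (nat_lit 444) (nat_lit 0) [nat_lit 606, nat_lit 390, nat_lit 426, nat_lit 462, nat_lit 438, nat_lit 450, nat_lit 442] (nat_lit 0) [nat_lit 202] false,
   Spec.mk (nat_lit 450) (nat_lit 0) [nat_lit 612, nat_lit 396, nat_lit 468, nat_lit 444] (nat_lit 0) [nat_lit 208] false,
   Spec.mk (nat_lit 460) (nat_lit 1) [nat_lit 622, nat_lit 442, nat_lit 462] (nat_lit 0) [nat_lit 702, nat_lit 218] false,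
   Spec.mk (nat_lit 462) (nat_lit 0) [nat_lit 624, nat_lit 444, nat_lit 468, nat_lit 460] (nat_lit 0) [nat_lit 220] false,
   Spec.mk (nat_lit 468) (nat_lit 2) [nat_lit 630, nat_lit 450, nat_lit 462] (nat_lit 0) [nat_lit 226] false,
   Spec.mk (nat_lit 494) (nat_lit 2) [nat_lit 332, nat_lit 500] (nat_lit 0) [] false,
   Spec.mk (nat_lit 500) (nat_lit 1) [nat_lit 338, nat_lit 518, nat_lit 494, nat_lit 506, nat_lit 502] (nat_lit 0) [] false,
   Spec.mk (nat_lit 502) (nat_lit 0) [nat_lit 340, nat_lit 520, nat_lit 508, nat_lit 500] (nat_lit 0) [nat_lit 260] false,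
   Spec.mk (nat_lit 506) (nat_lit 0) [nat_lit 344, nat_lit 524, nat_lit 500, nat_lit 508] (nat_lit 2) [] false,
   Spec.mk (nat_lit 508) (nat_lit 0) [nat_lit 346, nat_lit 526, nat_lit 502, nat_lit 506, nat_lit 510] (nat_lit 1) [nat_lit 266] false,
   Spec.mk (nat_lit 510) (nat_lit 0) [nat_lit 348, nat_lit 528, nat_lit 508] (nat_lit 2) [nat_lit 268] false,
   Spec.mk (nat_lit 518) (nat_lit 0) [nat_lit 356, nat_lit 572, nat_lit 500, nat_lit 524, nat_lit 520] (nat_lit 0) [] false,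
   Spec.mk (nat_lit 520) (nat_lit 0) [nat_lit 358, nat_lit 574, nat_lit 502, nat_lit 526, nat_lit 518] (nat_lit 2) [nat_lit 278] false,
   Spec.mk (nat_lit 524) (nat_lit 0) [nat_lit 362, nat_lit 578, nat_lit 506, nat_lit 542, nat_lit 518, nat_lit 526] (nat_lit 1) [] false,
   Spec.mk (nat_lit 526) (nat_lit 0) [nat_lit 364, nat_lit 580, nat_lit 508, nat_lit 544, nat_lit 520, nat_lit 532, nat_lit 524, nat_lit 528] (nat_lit 1) [nat_lit 284] false,
   Spec.mk (nat_lit 528) (nat_lit 0) [nat_lit 366, nat_lit 582, nat_lit 510, nat_lit 546, nat_lit 534, nat_lit 526] (nat_lit 3) [nat_lit 286] false,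
   Spec.mk (nat_lit 532) (nat_lit 0) [nat_lit 370, nat_lit 586, nat_lit 550, nat_lit 526, nat_lit 534] (nat_lit 2) [nat_lit 290] false,
   Spec.mk (nat_lit 534) (nat_lit 0) [nat_lit 372, nat_lit 588, nat_lit 552, nat_lit 528, nat_lit 532] (nat_lit 2) [nat_lit 292] false,
   Spec.mk (nat_lit 542) (nat_lit 0) [nat_lit 380, nat_lit 596, nat_lit 524, nat_lit 544] (nat_lit 2) [] false,
   Spec.mk (nat_lit 544) (nat_lit 0) [nat_lit 382, nat_lit 598, nat_lit 526, nat_lit 550, nat_lit 542, nat_lit 546] (nat_lit 3) [nat_lit 302] false,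
   Spec.mk (nat_lit 546) (nat_lit 0) [nat_lit 384, nat_lit 600, nat_lit 528, nat_lit 552, nat_lit 544] (nat_lit 6) [nat_lit 304] false,
   Spec.mk (nat_lit 550) (nat_lit 0) [nat_lit 388, nat_lit 604, nat_lit 532, nat_lit 544, nat_lit 552] (nat_lit 2) [nat_lit 308] false,
   Spec.mk (nat_lit 552) (nat_lit 0) [nat_lit 390, nat_lit 606, nat_lit 534, nat_lit 546, nat_lit 558, nat_lit 550] (nat_lit 3) [nat_lit 310] false,
   Spec.mk (nat_lit 558) (nat_lit 0) [nat_lit 396, nat_lit 612, nat_lit 552] (nat_lit 2) [nat_lit 316] false,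
   Spec.mk (nat_lit 572) (nat_lit 2) [nat_lit 410, nat_lit 518, nat_lit 578, nat_lit 574] (nat_lit 0) [] false,
   Spec.mk (nat_lit 574) (nat_lit 0) [nat_lit 412, nat_lit 520, nat_lit 580, nat_lit 572] (nat_lit 0) [nat_lit 332] false,
   Spec.mk (nat_lit 578) (nat_lit 0) [nat_lit 416, nat_lit 524, nat_lit 596, nat_lit 572, nat_lit 580] (nat_lit 0) [] false,
   Spec.mk (nat_lit 580) (nat_lit 0) [nat_lit 418, nat_lit 526, nat_lit 598, nat_lit 574, nat_lit 586, nat_lit 578, nat_lit 582] (nat_lit 0) [nat_lit 338] false,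
   Spec.mk (nat_lit 582) (nat_lit 0) [nat_lit 420, nat_lit 528, nat_lit 600, nat_lit 588, nat_lit 580] (nat_lit 2) [nat_lit 340] false]

noncomputable def sp2 : List Spec :=
  [Spec.mk (nat_lit 586) (nat_lit 0) [nat_lit 424, nat_lit 532, nat_lit 604, nat_lit 580, nat_lit 588] (nat_lit 2) [nat_lit 344] false,
   Spec.mk (nat_lit 588) (nat_lit 0) [nat_lit 426, nat_lit 534, nat_lit 606, nat_lit 582, nat_lit 586] (nat_lit 2) [nat_lit 346] false,
   Spec.mk (nat_lit 596) (nat_lit 1) [nat_lit 434, nat_lit 542, nat_lit 650, nat_lit 578, nat_lit 598] (nat_lit 0) [] false,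
   Spec.mk (nat_lit 598) (nat_lit 0) [nat_lit 436, nat_lit 544, nat_lit 652, nat_lit 580, nat_lit 604, nat_lit 596, nat_lit 600] (nat_lit 0) [nat_lit 356] false,
   Spec.mk (nat_lit 600) (nat_lit 0) [nat_lit 438, nat_lit 546, nat_lit 654, nat_lit 582, nat_lit 606, nat_lit 598] (nat_lit 3) [nat_lit 358] false,
   Spec.mk (nat_lit 604) (nat_lit 0) [nat_lit 442, nat_lit 550, nat_lit 658, nat_lit 586, nat_lit 622, nat_lit 598, nat_lit 606] (nat_lit 0) [nat_lit 362] false,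
   Spec.mk (nat_lit 606) (nat_lit 0) [nat_lit 444, nat_lit 552, nat_lit 660, nat_lit 588, nat_lit 624, nat_lit 600, nat_lit 612, nat_lit 604] (nat_lit 1) [nat_lit 364] false,
   Spec.mk (nat_lit 612) (nat_lit 0) [nat_lit 450, nat_lit 558, nat_lit 666, nat_lit 630, nat_lit 606] (nat_lit 1) [nat_lit 370] false,
   Spec.mk (nat_lit 622) (nat_lit 0) [nat_lit 460, nat_lit 676, nat_lit 604, nat_lit 624] (nat_lit 0) [nat_lit 380] false,
   Spec.mk (nat_lit 624) (nat_lit 0) [nat_lit 462, nat_lit 678, nat_lit 606, nat_lit 630, nat_lit 622] (nat_lit 2) [nat_lit 382] false,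
   Spec.mk (nat_lit 630) (nat_lit 0) [nat_lit 468, nat_lit 684, nat_lit 612, nat_lit 624] (nat_lit 0) [nat_lit 388] false,
   Spec.mk (nat_lit 650) (nat_lit 2) [nat_lit 596, nat_lit 652] (nat_lit 0) [] false,
   Spec.mk (nat_lit 652) (nat_lit 1) [nat_lit 598, nat_lit 658, nat_lit 650, nat_lit 654] (nat_lit 0) [nat_lit 410] false,
   Spec.mk (nat_lit 654) (nat_lit 0) [nat_lit 600, nat_lit 660, nat_lit 652] (nat_lit 2) [nat_lit 412] false,
   Spec.mk (nat_lit 658) (nat_lit 0) [nat_lit 604, nat_lit 676, nat_lit 652, nat_lit 660] (nat_lit 0) [nat_lit 416] false,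
   Spec.mk (nat_lit 660) (nat_lit 0) [nat_lit 606, nat_lit 678, nat_lit 654, nat_lit 666, nat_lit 658] (nat_lit 1) [nat_lit 418] false,
   Spec.mk (nat_lit 666) (nat_lit 0) [nat_lit 612, nat_lit 684, nat_lit 660] (nat_lit 2) [nat_lit 424] false,
   Spec.mk (nat_lit 676) (nat_lit 2) [nat_lit 622, nat_lit 658, nat_lit 678] (nat_lit 0) [nat_lit 434] false,
   Spec.mk (nat_lit 678) (nat_lit 0) [nat_lit 624, nat_lit 660, nat_lit 684, nat_lit 676] (nat_lit 0) [nat_lit 436] false,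
   Spec.mk (nat_lit 684) (nat_lit 1) [nat_lit 630, nat_lit 666, nat_lit 702, nat_lit 678] (nat_lit 0) [nat_lit 442] false,
   Spec.mk (nat_lit 702) (nat_lit 2) [nat_lit 684] (nat_lit 0) [nat_lit 460] false]

noncomputable def specs : List (List Spec) :=
    sp0 :: sp1 :: sp2 :: []

noncomputable def step (e : Nat → Nat) (C ap an : Nat) (k :
    Nat → Nat → Nat → Nat → Nat → Nat → Nat → Nat → Nat → Nat → Nat → Nat → Nat → Nat → Nat → Nat →
    Nat → Nat → Nat → Nat → Nat → Nat → Nat → Nat → Nat → Nat → Nat → Nat → Nat → Nat → Nat → Nat →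
    Nat → Nat → Nat → Nat → Nat → Nat → Nat → Nat → Nat → Nat → Nat → Nat → Nat → Nat → Nat → Nat →
    Nat → Nat → Nat → Nat → Nat → Nat → Nat → Nat → Nat → Nat → Nat → Nat → Nat → Nat → Nat → Nat →
    Nat → Nat → Nat → Nat → Nat → Nat → Nat → Nat → Nat → Nat → Nat → Nat → Nat → Nat → Nat → Nat →
    Nat → Nat → Nat → Nat → Nat → Nat → Nat → Nat → Nat → Nat → Nat → Nat → Nat → Nat → Nat → Nat →
    Nat → Nat → Nat → Nat → Nat → Nat → Nat → Nat → Nat → Nat → Nat → Nat → Nat → Nat → Nat → Nat →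
    Nat → Nat → Nat → Nat → Nat → Nat → Nat → Nat → Nat → Nat → Nat → Nat → Nat → Nat → Nat → Nat →
    Nat → Nat → Nat → Nat → Nat → Nat → Nat → Nat → Nat → Nat → Nat → Nat → Nat → Bool)
  (
    x26 x44 x50 x52 x62 x68 x70 x74 x76 x78 x98 x104 x106 x116 x122 x124 x128 x130 x132 x140 x142
    x146 x148 x150 x154 x156 x170 x176 x178 x182 x184 x186 x194 x196 x200 x202 x204 x208 x210 x218
    x220 x222 x226 x228 x234 x260 x266 x268 x278 x284 x286 x290 x292 x294 x302 x304 x308 x310 x312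
    x316 x318 x332 x338 x340 x344 x346 x348 x356 x358 x362 x364 x366 x370 x372 x380 x382 x384 x388
    x390 x396 x410 x412 x416 x418 x420 x424 x426 x434 x436 x438 x442 x444 x450 x460 x462 x468 x494
    x500 x502 x506 x508 x510 x518 x520 x524 x526 x528 x532 x534 x542 x544 x546 x550 x552 x558 x572
    x574 x578 x580 x582 x586 x588 x596 x598 x600 x604 x606 x612 x622 x624 x630 x650 x652 x654 x658
    x660 x666 x676 x678 x684 x702 : Nat) : Bool :=
  k
    (Nat.sub (Nat.sub (Nat.add (Nat.add (Nat.add C (Nat.mul x26 (nat_lit 2))) x44) (Nat.mul (e (nat_lit 26)) ap)) x268) (Nat.mul (e (nat_lit 26)) an))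
    (Nat.sub (Nat.sub (Nat.add (Nat.add (Nat.add (Nat.add (Nat.add (Nat.add C x44) x98) x26) x62) x50) (Nat.mul (e (nat_lit 44)) ap)) x286) (Nat.mul (e (nat_lit 44)) an))
    (Nat.sub (Nat.sub (Nat.add (Nat.add (Nat.add (Nat.add (Nat.add C x104) x68) x44) x52) (Nat.mul (e (nat_lit 50)) ap)) x292) (Nat.mul (e (nat_lit 50)) an))
    (Nat.sub (Nat.sub (Nat.add (Nat.add (Nat.add (Nat.add (Nat.add C (Nat.mul x52 (nat_lit 2))) x106) x70) x50) (Nat.mul (e (nat_lit 52)) ap)) x294) (Nat.mul (e (nat_lit 52)) an))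
    (Nat.sub (Nat.sub (Nat.sub (Nat.add (Nat.add (Nat.add (Nat.add C x116) x44) x68) (Nat.mul (e (nat_lit 62)) ap)) (Nat.mul x62 (nat_lit 2))) x304) (Nat.mul (e (nat_lit 62)) an))
    (Nat.sub (Nat.sub (Nat.sub (Nat.add (Nat.add (Nat.add (Nat.add (Nat.add (Nat.add C x122) x50) x62) x74) x70) (Nat.mul (e (nat_lit 68)) ap)) x68) x310) (Nat.mul (e (nat_lit 68)) an))
    (Nat.sub (Nat.add (Nat.add (Nat.add (Nat.add C x124) x52) x76) x68) x312)
    (Nat.sub (Nat.sub (Nat.add (Nat.add (Nat.add C x128) x68) x76) (Nat.mul x74 (nat_lit 2))) x316)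
    (Nat.sub (Nat.add (Nat.add (Nat.add (Nat.add (Nat.add C x76) x130) x70) x74) x78) x318)
    (Nat.add (Nat.add (Nat.add C (Nat.mul x78 (nat_lit 2))) x132) x76)
    (Nat.sub (Nat.add (Nat.add (Nat.add (Nat.add C x260) x44) x116) x104) x340)
    (Nat.sub (Nat.sub (Nat.sub (Nat.add (Nat.add (Nat.add (Nat.add (Nat.add (Nat.add C x266) x50) x122) x98) x106) (Nat.mul (e (nat_lit 104)) ap)) (Nat.mul x104 (nat_lit 2))) x346) (Nat.mul (e (nat_lit 104)) an))
    (Nat.sub (Nat.add (Nat.add (Nat.add (Nat.add C x268) x52) x124) x104) x348)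
    (Nat.sub (Nat.sub (Nat.add (Nat.add (Nat.add (Nat.add (Nat.add C x278) x62) x170) x98) x122) x116) x358)
    (Nat.sub (Nat.sub (Nat.sub (Nat.add (Nat.add (Nat.add (Nat.add (Nat.add (Nat.add (Nat.add (Nat.add (Nat.add C x284) x68) x176) x104) x140) x116) x128) x124) (Nat.mul (e (nat_lit 122)) ap)) x122) x364) (Nat.mul (e (nat_lit 122)) an))
    (Nat.sub (Nat.sub (Nat.add (Nat.add (Nat.add (Nat.add (Nat.add (Nat.add (Nat.add (Nat.add C x286) x70) x178) x106) x142) x130) x122) (Nat.mul (e (nat_lit 124)) ap)) x366) (Nat.mul (e (nat_lit 124)) an))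
    (Nat.sub (Nat.sub (Nat.sub (Nat.add (Nat.add (Nat.add (Nat.add (Nat.add (Nat.add (Nat.add C x290) x74) x182) x146) x122) x130) (Nat.mul (e (nat_lit 128)) ap)) (Nat.mul x128 (nat_lit 3))) x370) (Nat.mul (e (nat_lit 128)) an))
    (Nat.sub (Nat.sub (Nat.add (Nat.add (Nat.add (Nat.add (Nat.add (Nat.add (Nat.add (Nat.add C x292) x76) x184) x148) x124) x128) x132) (Nat.mul (e (nat_lit 130)) ap)) x372) (Nat.mul (e (nat_lit 130)) an))
    (Nat.add (Nat.add (Nat.add (Nat.add (Nat.add (Nat.add C x132) x294) x78) x186) x150) x130)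
    (Nat.sub (Nat.sub (Nat.sub (Nat.add (Nat.add (Nat.add (Nat.add (Nat.add (Nat.add C x302) x194) x122) x146) x142) (Nat.mul (e (nat_lit 140)) ap)) (Nat.mul x140 (nat_lit 2))) x382) (Nat.mul (e (nat_lit 140)) an))
    (Nat.sub (Nat.sub (Nat.sub (Nat.add (Nat.add (Nat.add (Nat.add (Nat.add (Nat.add C x304) x196) x124) x148) x140) (Nat.mul (e (nat_lit 142)) ap)) (Nat.mul x142 (nat_lit 2))) x384) (Nat.mul (e (nat_lit 142)) an))
    (Nat.sub (Nat.sub (Nat.add (Nat.add (Nat.add (Nat.add (Nat.add C x308) x200) x128) x140) x148) (Nat.mul x146 (nat_lit 2))) x388)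
    (Nat.sub (Nat.add (Nat.add (Nat.add (Nat.add (Nat.add (Nat.add (Nat.add C x310) x202) x130) x142) x154) x146) x150) x390)
    (Nat.add (Nat.add (Nat.add (Nat.add (Nat.add C x312) x204) x132) x156) x148)
    (Nat.sub (Nat.add (Nat.add (Nat.add (Nat.add C x316) x208) x148) x156) x396)
    (Nat.add (Nat.add (Nat.add (Nat.add (Nat.add C (Nat.mul x156 (nat_lit 2))) x318) x210) x150) x154)
    (Nat.sub (Nat.sub (Nat.add (Nat.add (Nat.add C x332) x116) x176) (Nat.mul x170 (nat_lit 2))) x412)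
    (Nat.sub (Nat.sub (Nat.add (Nat.add (Nat.add (Nat.add (Nat.add (Nat.add C x338) x122) x194) x170) x182) x178) (Nat.mul x176 (nat_lit 3))) x418)
    (Nat.sub (Nat.sub (Nat.add (Nat.add (Nat.add (Nat.add (Nat.add C x340) x124) x196) x184) x176) (Nat.mul x178 (nat_lit 2))) x420)
    (Nat.sub (Nat.sub (Nat.sub (Nat.add (Nat.add (Nat.add (Nat.add (Nat.add (Nat.add C x344) x128) x200) x176) x184) (Nat.mul (e (nat_lit 182)) ap)) (Nat.mul x182 (nat_lit 6))) x424) (Nat.mul (e (nat_lit 182)) an))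
    (Nat.sub (Nat.sub (Nat.add (Nat.add (Nat.add (Nat.add (Nat.add (Nat.add C x346) x130) x202) x178) x182) x186) (Nat.mul x184 (nat_lit 3))) x426)
    (Nat.sub (Nat.add (Nat.add (Nat.add (Nat.add C x348) x132) x204) x184) (Nat.mul x186 (nat_lit 2)))
    (Nat.sub (Nat.sub (Nat.add (Nat.add (Nat.add (Nat.add (Nat.add C x356) x140) x176) x200) x196) (Nat.mul x194 (nat_lit 2))) x436)
    (Nat.sub (Nat.sub (Nat.add (Nat.add (Nat.add (Nat.add (Nat.add C x358) x142) x178) x202) x194) (Nat.mul x196 (nat_lit 2))) x438)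
    (Nat.sub (Nat.sub (Nat.add (Nat.add (Nat.add (Nat.add (Nat.add (Nat.add C x362) x146) x182) x218) x194) x202) (Nat.mul x200 (nat_lit 3))) x442)
    (Nat.sub (Nat.sub (Nat.add (Nat.add (Nat.add (Nat.add (Nat.add (Nat.add (Nat.add (Nat.add C x364) x148) x184) x220) x196) x208) x200) x204) x202) x444)
    (Nat.sub (Nat.add (Nat.add (Nat.add (Nat.add (Nat.add (Nat.add C x366) x150) x186) x222) x210) x202) x204)
    (Nat.sub (Nat.sub (Nat.add (Nat.add (Nat.add (Nat.add (Nat.add C x370) x154) x226) x202) x210) (Nat.mul x208 (nat_lit 2))) x450)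
    (Nat.add (Nat.add (Nat.add (Nat.add (Nat.add C x372) x156) x228) x204) x208)
    (Nat.sub (Nat.sub (Nat.add (Nat.add (Nat.add C x380) x200) x220) (Nat.mul x218 (nat_lit 2))) x460)
    (Nat.sub (Nat.sub (Nat.add (Nat.add (Nat.add (Nat.add (Nat.add C x382) x202) x226) x218) x222) x220) x462)
    (Nat.sub (Nat.add (Nat.add (Nat.add (Nat.add C x384) x204) x228) x220) (Nat.mul x222 (nat_lit 2)))
    (Nat.sub (Nat.add (Nat.add (Nat.add (Nat.add C x388) x208) x220) x228) x468)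
    (Nat.add (Nat.add (Nat.add (Nat.add (Nat.add (Nat.add C x228) x390) x210) x222) x234) x226)
    (Nat.add (Nat.add (Nat.add C (Nat.mul x234 (nat_lit 2))) x396) x228)
    (Nat.sub (Nat.add (Nat.add (Nat.add (Nat.add C (Nat.mul x260 (nat_lit 2))) x98) x278) x266) x502)
    (Nat.sub (Nat.add (Nat.add (Nat.add (Nat.add C x104) x284) x260) x268) x508)
    (Nat.sub (Nat.sub (Nat.add (Nat.add (Nat.add (Nat.add C x268) x106) x286) x266) x510) x26)
    (Nat.sub (Nat.add (Nat.add (Nat.add (Nat.add C x116) x332) x260) x284) x520)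
    (Nat.sub (Nat.add (Nat.add (Nat.add (Nat.add (Nat.add (Nat.add (Nat.add C x122) x338) x266) x302) x278) x290) x286) x526)
    (Nat.sub (Nat.sub (Nat.add (Nat.add (Nat.add (Nat.add (Nat.add (Nat.add C x124) x340) x268) x304) x292) x284) x528) x44)
    (Nat.sub (Nat.sub (Nat.add (Nat.add (Nat.add (Nat.add (Nat.add C x128) x344) x308) x284) x292) (Nat.mul x290 (nat_lit 2))) x532)
    (Nat.sub (Nat.sub (Nat.add (Nat.add (Nat.add (Nat.add (Nat.add (Nat.add C x130) x346) x310) x286) x290) x294) x534) x50)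
    (Nat.sub (Nat.add (Nat.add (Nat.add (Nat.add C x132) x348) x312) x292) x52)
    (Nat.sub (Nat.sub (Nat.add (Nat.add (Nat.add (Nat.add (Nat.add C x140) x356) x284) x308) x304) (Nat.mul x302 (nat_lit 2))) x544)
    (Nat.sub (Nat.sub (Nat.sub (Nat.add (Nat.add (Nat.add (Nat.add (Nat.add C x142) x358) x286) x310) x302) (Nat.mul x304 (nat_lit 3))) x546) x62)
    (Nat.sub (Nat.sub (Nat.add (Nat.add (Nat.add (Nat.add (Nat.add C x146) x362) x290) x302) x310) (Nat.mul x308 (nat_lit 2))) x550)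
    (Nat.sub (Nat.sub (Nat.sub (Nat.add (Nat.add (Nat.add (Nat.add (Nat.add (Nat.add (Nat.add C x148) x364) x292) x304) x316) x308) x312) x310) x552) x68)
    (Nat.sub (Nat.sub (Nat.add (Nat.add (Nat.add (Nat.add (Nat.add C x150) x366) x294) x318) x310) (Nat.mul x312 (nat_lit 2))) x70)
    (Nat.sub (Nat.sub (Nat.sub (Nat.add (Nat.add (Nat.add (Nat.add C x154) x370) x310) x318) x316) x558) x74)
    (Nat.sub (Nat.add (Nat.add (Nat.add (Nat.add C x156) x372) x312) x316) x76)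
    (Nat.sub (Nat.add (Nat.add (Nat.add (Nat.add (Nat.add C x332) x170) x494) x278) x338) x574)
    (Nat.sub (Nat.add (Nat.add (Nat.add (Nat.add (Nat.add (Nat.add (Nat.add C x176) x500) x284) x356) x332) x344) x340) x580)
    (Nat.sub (Nat.sub (Nat.add (Nat.add (Nat.add (Nat.add (Nat.add (Nat.add C x178) x502) x286) x358) x346) x338) x582) x98)
    (Nat.sub (Nat.sub (Nat.add (Nat.add (Nat.add (Nat.add (Nat.add (Nat.add C x182) x506) x290) x362) x338) x346) (Nat.mul x344 (nat_lit 3))) x586)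
    (Nat.sub (Nat.sub (Nat.sub (Nat.add (Nat.add (Nat.add (Nat.add (Nat.add (Nat.add (Nat.add C x184) x508) x292) x364) x340) x344) x348) x346) x588) x104)
    (Nat.sub (Nat.sub (Nat.add (Nat.add (Nat.add (Nat.add (Nat.add C x186) x510) x294) x366) x346) x348) x106)
    (Nat.sub (Nat.add (Nat.add (Nat.add (Nat.add (Nat.add (Nat.add (Nat.add C x194) x518) x302) x410) x338) x362) x358) x598)
    (Nat.sub (Nat.sub (Nat.sub (Nat.add (Nat.add (Nat.add (Nat.add (Nat.add (Nat.add (Nat.add C x196) x520) x304) x412) x340) x364) x356) x358) x600) x116)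
    (Nat.sub (Nat.sub (Nat.add (Nat.add (Nat.add (Nat.add (Nat.add (Nat.add (Nat.add (Nat.add C x200) x524) x308) x416) x344) x380) x356) x364) x362) x604)
    (Nat.sub (Nat.sub (Nat.sub (Nat.add (Nat.add (Nat.add (Nat.add (Nat.add (Nat.add (Nat.add (Nat.add (Nat.add (Nat.add (Nat.add C x202) x526) x310) x418) x346) x382) x358) x370) x362) x366) (Nat.mul (e (nat_lit 364)) ap)) x606) x122) (Nat.mul (e (nat_lit 364)) an))
    (Nat.sub (Nat.sub (Nat.add (Nat.add (Nat.add (Nat.add (Nat.add (Nat.add (Nat.add (Nat.add C x204) x528) x312) x420) x348) x384) x372) x364) x366) x124)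
    (Nat.sub (Nat.sub (Nat.sub (Nat.add (Nat.add (Nat.add (Nat.add (Nat.add (Nat.add (Nat.add C x208) x532) x316) x424) x388) x364) x372) x370) x612) x128)
    (Nat.sub (Nat.add (Nat.add (Nat.add (Nat.add (Nat.add (Nat.add (Nat.add C x210) x534) x318) x426) x390) x366) x370) x130)
    (Nat.sub (Nat.sub (Nat.add (Nat.add (Nat.add (Nat.add (Nat.add C x218) x542) x434) x362) x382) x380) x622)
    (Nat.sub (Nat.sub (Nat.sub (Nat.add (Nat.add (Nat.add (Nat.add (Nat.add (Nat.add (Nat.add C x220) x544) x436) x364) x388) x380) x384) x382) x624) x140)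
    (Nat.sub (Nat.sub (Nat.add (Nat.add (Nat.add (Nat.add (Nat.add (Nat.add C x222) x546) x438) x366) x390) x382) (Nat.mul x384 (nat_lit 3))) x142)
    (Nat.sub (Nat.sub (Nat.add (Nat.add (Nat.add (Nat.add (Nat.add (Nat.add C x226) x550) x442) x370) x382) x390) x630) x146)
    (Nat.sub (Nat.add (Nat.add (Nat.add (Nat.add (Nat.add (Nat.add (Nat.add C x228) x552) x444) x372) x384) x396) x388) x148)
    (Nat.sub (Nat.add (Nat.add (Nat.add (Nat.add (Nat.add C x396) x234) x558) x450) x390) x154)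
    (Nat.sub (Nat.add (Nat.add (Nat.add (Nat.add C x572) x356) x416) x412) x652)
    (Nat.sub (Nat.sub (Nat.sub (Nat.add (Nat.add (Nat.add (Nat.add C x574) x358) x418) x410) x412) x654) x170)
    (Nat.sub (Nat.sub (Nat.add (Nat.add (Nat.add (Nat.add (Nat.add C x578) x362) x434) x410) x418) (Nat.mul x416 (nat_lit 2))) x658)
    (Nat.sub (Nat.sub (Nat.sub (Nat.add (Nat.add (Nat.add (Nat.add (Nat.add (Nat.add (Nat.add C x580) x364) x436) x412) x424) x416) x420) x418) x660) x176)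
    (Nat.sub (Nat.sub (Nat.add (Nat.add (Nat.add (Nat.add (Nat.add C x582) x366) x438) x426) x418) (Nat.mul x420 (nat_lit 2))) x178)
    (Nat.sub (Nat.sub (Nat.sub (Nat.add (Nat.add (Nat.add (Nat.add (Nat.add C x586) x370) x442) x418) x426) (Nat.mul x424 (nat_lit 3))) x666) x182)
    (Nat.sub (Nat.sub (Nat.add (Nat.add (Nat.add (Nat.add (Nat.add C x588) x372) x444) x420) x424) (Nat.mul x426 (nat_lit 2))) x184)
    (Nat.sub (Nat.add (Nat.add (Nat.add (Nat.add C x596) x380) x416) x436) x676)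
    (Nat.sub (Nat.sub (Nat.add (Nat.add (Nat.add (Nat.add (Nat.add (Nat.add C x598) x382) x418) x442) x434) x438) x678) x194)
    (Nat.sub (Nat.sub (Nat.add (Nat.add (Nat.add (Nat.add (Nat.add C x600) x384) x420) x444) x436) (Nat.mul x438 (nat_lit 2))) x196)
    (Nat.sub (Nat.sub (Nat.add (Nat.add (Nat.add (Nat.add (Nat.add (Nat.add C x604) x388) x424) x460) x436) x444) x684) x200)
    (Nat.sub (Nat.add (Nat.add (Nat.add (Nat.add (Nat.add (Nat.add (Nat.add C x606) x390) x426) x462) x438) x450) x442) x202)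
    (Nat.sub (Nat.add (Nat.add (Nat.add (Nat.add C x612) x396) x468) x444) x208)
    (Nat.sub (Nat.sub (Nat.add (Nat.add (Nat.add (Nat.add C x460) x622) x442) x462) x702) x218)
    (Nat.sub (Nat.add (Nat.add (Nat.add (Nat.add C x624) x444) x468) x460) x220)
    (Nat.sub (Nat.add (Nat.add (Nat.add (Nat.add C (Nat.mul x468 (nat_lit 2))) x630) x450) x462) x226)
    (Nat.add (Nat.add (Nat.add C (Nat.mul x494 (nat_lit 2))) x332) x500)
    (Nat.add (Nat.add (Nat.add (Nat.add (Nat.add (Nat.add C x500) x338) x518) x494) x506) x502)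
    (Nat.sub (Nat.add (Nat.add (Nat.add (Nat.add C x340) x520) x508) x500) x260)
    (Nat.sub (Nat.add (Nat.add (Nat.add (Nat.add C x344) x524) x500) x508) (Nat.mul x506 (nat_lit 2)))
    (Nat.sub (Nat.sub (Nat.add (Nat.add (Nat.add (Nat.add (Nat.add C x346) x526) x502) x506) x510) x508) x266)
    (Nat.sub (Nat.sub (Nat.add (Nat.add (Nat.add C x348) x528) x508) (Nat.mul x510 (nat_lit 2))) x268)
    (Nat.add (Nat.add (Nat.add (Nat.add (Nat.add C x356) x572) x500) x524) x520)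
    (Nat.sub (Nat.sub (Nat.add (Nat.add (Nat.add (Nat.add (Nat.add C x358) x574) x502) x526) x518) (Nat.mul x520 (nat_lit 2))) x278)
    (Nat.sub (Nat.add (Nat.add (Nat.add (Nat.add (Nat.add (Nat.add C x362) x578) x506) x542) x518) x526) x524)
    (Nat.sub (Nat.sub (Nat.add (Nat.add (Nat.add (Nat.add (Nat.add (Nat.add (Nat.add (Nat.add C x364) x580) x508) x544) x520) x532) x524) x528) x526) x284)
    (Nat.sub (Nat.sub (Nat.add (Nat.add (Nat.add (Nat.add (Nat.add (Nat.add C x366) x582) x510) x546) x534) x526) (Nat.mul x528 (nat_lit 3))) x286)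
    (Nat.sub (Nat.sub (Nat.add (Nat.add (Nat.add (Nat.add (Nat.add C x370) x586) x550) x526) x534) (Nat.mul x532 (nat_lit 2))) x290)
    (Nat.sub (Nat.sub (Nat.add (Nat.add (Nat.add (Nat.add (Nat.add C x372) x588) x552) x528) x532) (Nat.mul x534 (nat_lit 2))) x292)
    (Nat.sub (Nat.add (Nat.add (Nat.add (Nat.add C x380) x596) x524) x544) (Nat.mul x542 (nat_lit 2)))
    (Nat.sub (Nat.sub (Nat.add (Nat.add (Nat.add (Nat.add (Nat.add (Nat.add C x382) x598) x526) x550) x542) x546) (Nat.mul x544 (nat_lit 3))) x302)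
    (Nat.sub (Nat.sub (Nat.add (Nat.add (Nat.add (Nat.add (Nat.add C x384) x600) x528) x552) x544) (Nat.mul x546 (nat_lit 6))) x304)
    (Nat.sub (Nat.sub (Nat.add (Nat.add (Nat.add (Nat.add (Nat.add C x388) x604) x532) x544) x552) (Nat.mul x550 (nat_lit 2))) x308)
    (Nat.sub (Nat.sub (Nat.add (Nat.add (Nat.add (Nat.add (Nat.add (Nat.add C x390) x606) x534) x546) x558) x550) (Nat.mul x552 (nat_lit 3))) x310)
    (Nat.sub (Nat.sub (Nat.add (Nat.add (Nat.add C x396) x612) x552) (Nat.mul x558 (nat_lit 2))) x316)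
    (Nat.add (Nat.add (Nat.add (Nat.add (Nat.add C (Nat.mul x572 (nat_lit 2))) x410) x518) x578) x574)
    (Nat.sub (Nat.add (Nat.add (Nat.add (Nat.add C x412) x520) x580) x572) x332)
    (Nat.add (Nat.add (Nat.add (Nat.add (Nat.add C x416) x524) x596) x572) x580)
    (Nat.sub (Nat.add (Nat.add (Nat.add (Nat.add (Nat.add (Nat.add (Nat.add C x418) x526) x598) x574) x586) x578) x582) x338)
    (Nat.sub (Nat.sub (Nat.add (Nat.add (Nat.add (Nat.add (Nat.add C x420) x528) x600) x588) x580) (Nat.mul x582 (nat_lit 2))) x340)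
    (Nat.sub (Nat.sub (Nat.add (Nat.add (Nat.add (Nat.add (Nat.add C x424) x532) x604) x580) x588) (Nat.mul x586 (nat_lit 2))) x344)
    (Nat.sub (Nat.sub (Nat.add (Nat.add (Nat.add (Nat.add (Nat.add C x426) x534) x606) x582) x586) (Nat.mul x588 (nat_lit 2))) x346)
    (Nat.add (Nat.add (Nat.add (Nat.add (Nat.add (Nat.add C x596) x434) x542) x650) x578) x598)
    (Nat.sub (Nat.add (Nat.add (Nat.add (Nat.add (Nat.add (Nat.add (Nat.add C x436) x544) x652) x580) x604) x596) x600) x356)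
    (Nat.sub (Nat.sub (Nat.add (Nat.add (Nat.add (Nat.add (Nat.add (Nat.add C x438) x546) x654) x582) x606) x598) (Nat.mul x600 (nat_lit 3))) x358)
    (Nat.sub (Nat.add (Nat.add (Nat.add (Nat.add (Nat.add (Nat.add (Nat.add C x442) x550) x658) x586) x622) x598) x606) x362)
    (Nat.sub (Nat.sub (Nat.add (Nat.add (Nat.add (Nat.add (Nat.add (Nat.add (Nat.add (Nat.add C x444) x552) x660) x588) x624) x600) x612) x604) x606) x364)
    (Nat.sub (Nat.sub (Nat.add (Nat.add (Nat.add (Nat.add (Nat.add C x450) x558) x666) x630) x606) x612) x370)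
    (Nat.sub (Nat.add (Nat.add (Nat.add (Nat.add C x460) x676) x604) x624) x380)
    (Nat.sub (Nat.sub (Nat.add (Nat.add (Nat.add (Nat.add (Nat.add C x462) x678) x606) x630) x622) (Nat.mul x624 (nat_lit 2))) x382)
    (Nat.sub (Nat.add (Nat.add (Nat.add (Nat.add C x468) x684) x612) x624) x388)
    (Nat.add (Nat.add (Nat.add C (Nat.mul x650 (nat_lit 2))) x596) x652)
    (Nat.sub (Nat.add (Nat.add (Nat.add (Nat.add (Nat.add C x652) x598) x658) x650) x654) x410)
    (Nat.sub (Nat.sub (Nat.add (Nat.add (Nat.add C x600) x660) x652) (Nat.mul x654 (nat_lit 2))) x412)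
    (Nat.sub (Nat.add (Nat.add (Nat.add (Nat.add C x604) x676) x652) x660) x416)
    (Nat.sub (Nat.sub (Nat.add (Nat.add (Nat.add (Nat.add (Nat.add C x606) x678) x654) x666) x658) x660) x418)
    (Nat.sub (Nat.sub (Nat.add (Nat.add (Nat.add C x612) x684) x660) (Nat.mul x666 (nat_lit 2))) x424)
    (Nat.sub (Nat.add (Nat.add (Nat.add (Nat.add C (Nat.mul x676 (nat_lit 2))) x622) x658) x678) x434)
    (Nat.sub (Nat.add (Nat.add (Nat.add (Nat.add C x624) x660) x684) x676) x436)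
    (Nat.sub (Nat.add (Nat.add (Nat.add (Nat.add (Nat.add C x684) x630) x666) x702) x678) x442)
    (Nat.sub (Nat.add (Nat.add C (Nat.mul x702 (nat_lit 2))) x684) x460)

theorem ap_eq (x : Nat → Nat) (k : FnLL specs) : apLL (fun t => x t.cd) specs k = A6_6.ap x k :=
  Eq.refl (A6_6.ap x k)

theorem step_eq0 (e : Nat → Nat) (C p r : Nat) (k : FnLL specs) (x : Nat → Nat) :
    A6_6.ap x (step e C p r k) = apLL (interp e C p r x) specs k :=
  Eq.refl (A6_6.ap x (step e C p r k))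

theorem spec_ok : specOK 5 true A6_6.mask specs = true := by decide +kernel

theorem step_eq (e : Nat → Nat) (C p r : Nat) (k : A6_6.KK) (x : Nat → Nat) :
    A6_6.ap x (step e C p r k) = A6_6.ap (row 5 true A6_6.mask e C p r x) k :=
  ((step_eq0 e C p r k x).trans (apLL_row 5 true A6_6.mask specs spec_ok e C p r x k)).trans
    (ap_eq (row 5 true A6_6.mask e C p r x) k)

end Vale.Agent.P348.G6_6_1
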