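import Vale.Agent.P348.G.AS8

set_option maxRecDepth 1000000
set_option maxHeartbeats 0
set_option linter.all false

namespace Vale.Agent.P348.G8_0_1

noncomputable def sp0 : List Spec :=
  [Spec.mk (nat_lit 0) (nat_lit 8) [] (nat_lit 0) [] true]

noncomputable def specs : List (List Spec) :=
    sp0 :: []

noncomputable def step (e : Nat → Nat) (C ap an : Nat) (k :
    Nat → Bool)
  (
    x0 : Nat) : Bool :=
  k
    (Nat.sub (Nat.add (Nat.add C (Nat.mul x0 (nat_lit 8))) (Nat.mul (e (nat_lit 0)) ap)) (Nat.mul (e (nat_lit 0)) an))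

theorem ap_eq (x : Nat → Nat) (k : FnLL specs) : apLL (fun t => x t.cd) specs k = A8_0.ap x k :=
  Eq.refl (A8_0.ap x k)

theorem step_eq0 (e : Nat → Nat) (C p r : Nat) (k : FnLL specs) (x : Nat → Nat) :
    A8_0.ap x (step e C p r k) = apLL (interp e C p r x) specs k :=
  Eq.refl (A8_0.ap x (step e C p r k))

theorem spec_ok : specOK 7 true A8_0.mask specs = true := by decide +kernel

theorem step_eq (e : Nat → Nat) (C p r : Nat) (k : A8_0.KK) (x : Nat → Nat) :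
    A8_0.ap x (step e C p r k) = A8_0.ap (row 7 true A8_0.mask e C p r x) k :=
  ((step_eq0 e C p r k x).trans (apLL_row 7 true A8_0.mask specs spec_ok e C p r x k)).trans
    (ap_eq (row 7 true A8_0.mask e C p r x) k)

end Vale.Agent.P348.G8_0_1

namespace Vale.Agent.P348.G8_1_1

noncomputable def sp0 : List Spec :=
  [Spec.mk (nat_lit 1) (nat_lit 6) [nat_lit 3] (nat_lit 0) [nat_lit 2187] true,
   Spec.mk (nat_lit 3) (nat_lit 6) [nat_lit 9, nat_lit 1] (nat_lit 0) [] false,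
   Spec.mk (nat_lit 9) (nat_lit 6) [nat_lit 27, nat_lit 3] (nat_lit 0) [] false,
   Spec.mk (nat_lit 27) (nat_lit 6) [nat_lit 81, nat_lit 9] (nat_lit 0) [] false,
   Spec.mk (nat_lit 81) (nat_lit 6) [nat_lit 243, nat_lit 27] (nat_lit 0) [] false,
   Spec.mk (nat_lit 243) (nat_lit 6) [nat_lit 729, nat_lit 81] (nat_lit 0) [] false,
   Spec.mk (nat_lit 729) (nat_lit 6) [nat_lit 2187, nat_lit 243] (nat_lit 0) [] false,
   Spec.mk (nat_lit 2187) (nat_lit 6) [nat_lit 729] (nat_lit 0) [nat_lit 1] false]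

noncomputable def specs : List (List Spec) :=
    sp0 :: []

noncomputable def step (e : Nat → Nat) (C ap an : Nat) (k :
    Nat → Nat → Nat → Nat → Nat → Nat → Nat → Nat → Bool)
  (
    x1 x3 x9 x27 x81 x243 x729 x2187 : Nat) : Bool :=
  k
    (Nat.sub (Nat.sub (Nat.add (Nat.add (Nat.add C (Nat.mul x1 (nat_lit 6))) x3) (Nat.mul (e (nat_lit 1)) ap)) x2187) (Nat.mul (e (nat_lit 1)) an))
    (Nat.add (Nat.add (Nat.add C (Nat.mul x3 (nat_lit 6))) x9) x1)
    (Nat.add (Nat.add (Nat.add C (Nat.mul x9 (nat_lit 6))) x27) x3)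
    (Nat.add (Nat.add (Nat.add C (Nat.mul x27 (nat_lit 6))) x81) x9)
    (Nat.add (Nat.add (Nat.add C (Nat.mul x81 (nat_lit 6))) x243) x27)
    (Nat.add (Nat.add (Nat.add C (Nat.mul x243 (nat_lit 6))) x729) x81)
    (Nat.add (Nat.add (Nat.add C (Nat.mul x729 (nat_lit 6))) x2187) x243)
    (Nat.sub (Nat.add (Nat.add C (Nat.mul x2187 (nat_lit 6))) x729) x1)

theorem ap_eq (x : Nat → Nat) (k : FnLL specs) : apLL (fun t => x t.cd) specs k = A8_1.ap x k :=
  Eq.refl (A8_1.ap x k)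

theorem step_eq0 (e : Nat → Nat) (C p r : Nat) (k : FnLL specs) (x : Nat → Nat) :
    A8_1.ap x (step e C p r k) = apLL (interp e C p r x) specs k :=
  Eq.refl (A8_1.ap x (step e C p r k))

theorem spec_ok : specOK 7 true A8_1.mask specs = true := by decide +kernel

theorem step_eq (e : Nat → Nat) (C p r : Nat) (k : A8_1.KK) (x : Nat → Nat) :
    A8_1.ap x (step e C p r k) = A8_1.ap (row 7 true A8_1.mask e C p r x) k :=
  ((step_eq0 e C p r k x).trans (apLL_row 7 true A8_1.mask specs spec_ok e C p r x k)).trans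
    (ap_eq (row 7 true A8_1.mask e C p r x) k)

end Vale.Agent.P348.G8_1_1

namespace Vale.Agent.P348.G8_2_1

noncomputable def sp0 : List Spec :=
  [Spec.mk (nat_lit 2) (nat_lit 4) [nat_lit 4] (nat_lit 0) [nat_lit 2188] true,
   Spec.mk (nat_lit 4) (nat_lit 5) [nat_lit 10, nat_lit 2, nat_lit 6] (nat_lit 0) [nat_lit 2190] true,
   Spec.mk (nat_lit 6) (nat_lit 4) [nat_lit 12, nat_lit 4] (nat_lit 0) [] false,
   Spec.mk (nat_lit 10) (nat_lit 4) [nat_lit 28, nat_lit 4, nat_lit 12] (nat_lit 0) [nat_lit 2196] true,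
   Spec.mk (nat_lit 12) (nat_lit 5) [nat_lit 30, nat_lit 6, nat_lit 18, nat_lit 10] (nat_lit 0) [] false,
   Spec.mk (nat_lit 18) (nat_lit 4) [nat_lit 36, nat_lit 12] (nat_lit 0) [] false,
   Spec.mk (nat_lit 28) (nat_lit 4) [nat_lit 82, nat_lit 10, nat_lit 30] (nat_lit 0) [nat_lit 2214] true,
   Spec.mk (nat_lit 30) (nat_lit 4) [nat_lit 84, nat_lit 12, nat_lit 36, nat_lit 28] (nat_lit 0) [] false,
   Spec.mk (nat_lit 36) (nat_lit 5) [nat_lit 90, nat_lit 18, nat_lit 54, nat_lit 30] (nat_lit 0) [] false,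
   Spec.mk (nat_lit 54) (nat_lit 4) [nat_lit 108, nat_lit 36] (nat_lit 0) [] false,
   Spec.mk (nat_lit 82) (nat_lit 4) [nat_lit 244, nat_lit 28, nat_lit 84] (nat_lit 0) [nat_lit 2268] true,
   Spec.mk (nat_lit 84) (nat_lit 4) [nat_lit 246, nat_lit 30, nat_lit 90, nat_lit 82] (nat_lit 0) [] false,
   Spec.mk (nat_lit 90) (nat_lit 4) [nat_lit 252, nat_lit 36, nat_lit 108, nat_lit 84] (nat_lit 0) [] false,
   Spec.mk (nat_lit 108) (nat_lit 5) [nat_lit 270, nat_lit 54, nat_lit 162, nat_lit 90] (nat_lit 0) [] false,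
   Spec.mk (nat_lit 162) (nat_lit 4) [nat_lit 324, nat_lit 108] (nat_lit 0) [] false,
   Spec.mk (nat_lit 244) (nat_lit 4) [nat_lit 730, nat_lit 82, nat_lit 246] (nat_lit 0) [nat_lit 2430] false,
   Spec.mk (nat_lit 246) (nat_lit 4) [nat_lit 732, nat_lit 84, nat_lit 252, nat_lit 244] (nat_lit 0) [] false,
   Spec.mk (nat_lit 252) (nat_lit 4) [nat_lit 738, nat_lit 90, nat_lit 270, nat_lit 246] (nat_lit 0) [] false,
   Spec.mk (nat_lit 270) (nat_lit 4) [nat_lit 756, nat_lit 108, nat_lit 324, nat_lit 252] (nat_lit 0) [] false,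
   Spec.mk (nat_lit 324) (nat_lit 5) [nat_lit 810, nat_lit 162, nat_lit 486, nat_lit 270] (nat_lit 0) [] false,
   Spec.mk (nat_lit 486) (nat_lit 4) [nat_lit 972, nat_lit 324] (nat_lit 0) [] false,
   Spec.mk (nat_lit 730) (nat_lit 4) [nat_lit 2188, nat_lit 244, nat_lit 732] (nat_lit 0) [nat_lit 2916] false,
   Spec.mk (nat_lit 732) (nat_lit 4) [nat_lit 2190, nat_lit 246, nat_lit 738, nat_lit 730] (nat_lit 0) [] false,
   Spec.mk (nat_lit 738) (nat_lit 4) [nat_lit 2196, nat_lit 252, nat_lit 756, nat_lit 732] (nat_lit 0) [] false,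
   Spec.mk (nat_lit 756) (nat_lit 4) [nat_lit 2214, nat_lit 270, nat_lit 810, nat_lit 738] (nat_lit 0) [] false,
   Spec.mk (nat_lit 810) (nat_lit 4) [nat_lit 2268, nat_lit 324, nat_lit 972, nat_lit 756] (nat_lit 0) [] false,
   Spec.mk (nat_lit 972) (nat_lit 5) [nat_lit 2430, nat_lit 486, nat_lit 1458, nat_lit 810] (nat_lit 0) [] false,
   Spec.mk (nat_lit 1458) (nat_lit 4) [nat_lit 2916, nat_lit 972] (nat_lit 0) [] false,
   Spec.mk (nat_lit 2188) (nat_lit 5) [nat_lit 730, nat_lit 2190] (nat_lit 0) [nat_lit 4374, nat_lit 2] false,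
   Spec.mk (nat_lit 2190) (nat_lit 4) [nat_lit 732, nat_lit 2196, nat_lit 2188] (nat_lit 0) [nat_lit 4] false,
   Spec.mk (nat_lit 2196) (nat_lit 4) [nat_lit 738, nat_lit 2214, nat_lit 2190] (nat_lit 0) [nat_lit 10] false,
   Spec.mk (nat_lit 2214) (nat_lit 4) [nat_lit 756, nat_lit 2268, nat_lit 2196] (nat_lit 0) [nat_lit 28] false,
   Spec.mk (nat_lit 2268) (nat_lit 4) [nat_lit 810, nat_lit 2430, nat_lit 2214] (nat_lit 0) [nat_lit 82] false,
   Spec.mk (nat_lit 2430) (nat_lit 4) [nat_lit 972, nat_lit 2916, nat_lit 2268] (nat_lit 0) [nat_lit 244] false,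
   Spec.mk (nat_lit 2916) (nat_lit 5) [nat_lit 1458, nat_lit 4374, nat_lit 2430] (nat_lit 0) [nat_lit 730] false,
   Spec.mk (nat_lit 4374) (nat_lit 4) [nat_lit 2916] (nat_lit 0) [nat_lit 2188] false]

noncomputable def specs : List (List Spec) :=
    sp0 :: []

noncomputable def step (e : Nat → Nat) (C ap an : Nat) (k :
    Nat → Nat → Nat → Nat → Nat → Nat → Nat → Nat → Nat → Nat → Nat → Nat → Nat → Nat → Nat → Nat →
    Nat → Nat → Nat → Nat → Nat → Nat → Nat → Nat → Nat → Nat → Nat → Nat → Nat → Nat → Nat → Nat →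
    Nat → Nat → Nat → Nat → Bool)
  (
    x2 x4 x6 x10 x12 x18 x28 x30 x36 x54 x82 x84 x90 x108 x162 x244 x246 x252 x270 x324 x486 x730
    x732 x738 x756 x810 x972 x1458 x2188 x2190 x2196 x2214 x2268 x2430 x2916 x4374 : Nat) : Bool :=
  k
    (Nat.sub (Nat.sub (Nat.add (Nat.add (Nat.add C (Nat.mul x2 (nat_lit 4))) x4) (Nat.mul (e (nat_lit 2)) ap)) x2188) (Nat.mul (e (nat_lit 2)) an))
    (Nat.sub (Nat.sub (Nat.add (Nat.add (Nat.add (Nat.add (Nat.add C (Nat.mul x4 (nat_lit 5))) x10) x2) x6) (Nat.mul (e (nat_lit 4)) ap)) x2190) (Nat.mul (e (nat_lit 4)) an))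
    (Nat.add (Nat.add (Nat.add C (Nat.mul x6 (nat_lit 4))) x12) x4)
    (Nat.sub (Nat.sub (Nat.add (Nat.add (Nat.add (Nat.add (Nat.add C (Nat.mul x10 (nat_lit 4))) x28) x4) x12) (Nat.mul (e (nat_lit 10)) ap)) x2196) (Nat.mul (e (nat_lit 10)) an))
    (Nat.add (Nat.add (Nat.add (Nat.add (Nat.add C (Nat.mul x12 (nat_lit 5))) x30) x6) x18) x10)
    (Nat.add (Nat.add (Nat.add C (Nat.mul x18 (nat_lit 4))) x36) x12)
    (Nat.sub (Nat.sub (Nat.add (Nat.add (Nat.add (Nat.add (Nat.add C (Nat.mul x28 (nat_lit 4))) x82) x10) x30) (Nat.mul (e (nat_lit 28)) ap)) x2214) (Nat.mul (e (nat_lit 28)) an))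
    (Nat.add (Nat.add (Nat.add (Nat.add (Nat.add C (Nat.mul x30 (nat_lit 4))) x84) x12) x36) x28)
    (Nat.add (Nat.add (Nat.add (Nat.add (Nat.add C (Nat.mul x36 (nat_lit 5))) x90) x18) x54) x30)
    (Nat.add (Nat.add (Nat.add C (Nat.mul x54 (nat_lit 4))) x108) x36)
    (Nat.sub (Nat.sub (Nat.add (Nat.add (Nat.add (Nat.add (Nat.add C (Nat.mul x82 (nat_lit 4))) x244) x28) x84) (Nat.mul (e (nat_lit 82)) ap)) x2268) (Nat.mul (e (nat_lit 82)) an))
    (Nat.add (Nat.add (Nat.add (Nat.add (Nat.add C (Nat.mul x84 (nat_lit 4))) x246) x30) x90) x82)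
    (Nat.add (Nat.add (Nat.add (Nat.add (Nat.add C (Nat.mul x90 (nat_lit 4))) x252) x36) x108) x84)
    (Nat.add (Nat.add (Nat.add (Nat.add (Nat.add C (Nat.mul x108 (nat_lit 5))) x270) x54) x162) x90)
    (Nat.add (Nat.add (Nat.add C (Nat.mul x162 (nat_lit 4))) x324) x108)
    (Nat.sub (Nat.add (Nat.add (Nat.add (Nat.add C (Nat.mul x244 (nat_lit 4))) x730) x82) x246) x2430)
    (Nat.add (Nat.add (Nat.add (Nat.add (Nat.add C (Nat.mul x246 (nat_lit 4))) x732) x84) x252) x244)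
    (Nat.add (Nat.add (Nat.add (Nat.add (Nat.add C (Nat.mul x252 (nat_lit 4))) x738) x90) x270) x246)
    (Nat.add (Nat.add (Nat.add (Nat.add (Nat.add C (Nat.mul x270 (nat_lit 4))) x756) x108) x324) x252)
    (Nat.add (Nat.add (Nat.add (Nat.add (Nat.add C (Nat.mul x324 (nat_lit 5))) x810) x162) x486) x270)
    (Nat.add (Nat.add (Nat.add C (Nat.mul x486 (nat_lit 4))) x972) x324)
    (Nat.sub (Nat.add (Nat.add (Nat.add (Nat.add C (Nat.mul x730 (nat_lit 4))) x2188) x244) x732) x2916)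
    (Nat.add (Nat.add (Nat.add (Nat.add (Nat.add C (Nat.mul x732 (nat_lit 4))) x2190) x246) x738) x730)
    (Nat.add (Nat.add (Nat.add (Nat.add (Nat.add C (Nat.mul x738 (nat_lit 4))) x2196) x252) x756) x732)
    (Nat.add (Nat.add (Nat.add (Nat.add (Nat.add C (Nat.mul x756 (nat_lit 4))) x2214) x270) x810) x738)
    (Nat.add (Nat.add (Nat.add (Nat.add (Nat.add C (Nat.mul x810 (nat_lit 4))) x2268) x324) x972) x756)
    (Nat.add (Nat.add (Nat.add (Nat.add (Nat.add C (Nat.mul x972 (nat_lit 5))) x2430) x486) x1458) x810)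
    (Nat.add (Nat.add (Nat.add C (Nat.mul x1458 (nat_lit 4))) x2916) x972)
    (Nat.sub (Nat.sub (Nat.add (Nat.add (Nat.add C (Nat.mul x2188 (nat_lit 5))) x730) x2190) x4374) x2)
    (Nat.sub (Nat.add (Nat.add (Nat.add (Nat.add C (Nat.mul x2190 (nat_lit 4))) x732) x2196) x2188) x4)
    (Nat.sub (Nat.add (Nat.add (Nat.add (Nat.add C (Nat.mul x2196 (nat_lit 4))) x738) x2214) x2190) x10)
    (Nat.sub (Nat.add (Nat.add (Nat.add (Nat.add C (Nat.mul x2214 (nat_lit 4))) x756) x2268) x2196) x28)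
    (Nat.sub (Nat.add (Nat.add (Nat.add (Nat.add C (Nat.mul x2268 (nat_lit 4))) x810) x2430) x2214) x82)
    (Nat.sub (Nat.add (Nat.add (Nat.add (Nat.add C (Nat.mul x2430 (nat_lit 4))) x972) x2916) x2268) x244)
    (Nat.sub (Nat.add (Nat.add (Nat.add (Nat.add C (Nat.mul x2916 (nat_lit 5))) x1458) x4374) x2430) x730)
    (Nat.sub (Nat.add (Nat.add C (Nat.mul x4374 (nat_lit 4))) x2916) x2188)

theorem ap_eq (x : Nat → Nat) (k : FnLL specs) : apLL (fun t => x t.cd) specs k = A8_2.ap x k :=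
  Eq.refl (A8_2.ap x k)

theorem step_eq0 (e : Nat → Nat) (C p r : Nat) (k : FnLL specs) (x : Nat → Nat) :
    A8_2.ap x (step e C p r k) = apLL (interp e C p r x) specs k :=
  Eq.refl (A8_2.ap x (step e C p r k))

theorem spec_ok : specOK 7 true A8_2.mask specs = true := by decide +kernel

theorem step_eq (e : Nat → Nat) (C p r : Nat) (k : A8_2.KK) (x : Nat → Nat) :
    A8_2.ap x (step e C p r k) = A8_2.ap (row 7 true A8_2.mask e C p r x) k :=
  ((step_eq0 e C p r k x).trans (apLL_row 7 true A8_2.mask specs spec_ok e C p r x k)).trans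
    (ap_eq (row 7 true A8_2.mask e C p r x) k)

end Vale.Agent.P348.G8_2_1

namespace Vale.Agent.P348.G8_3_1

noncomputable def sp0 : List Spec :=
  [Spec.mk (nat_lit 5) (nat_lit 4) [nat_lit 11, nat_lit 7] (nat_lit 0) [nat_lit 2191] true,
   Spec.mk (nat_lit 7) (nat_lit 4) [nat_lit 13, nat_lit 5] (nat_lit 0) [nat_lit 2193] false,
   Spec.mk (nat_lit 11) (nat_lit 2) [nat_lit 29, nat_lit 5, nat_lit 13] (nat_lit 0) [nat_lit 2197] true,
   Spec.mk (nat_lit 13) (nat_lit 4) [nat_lit 31, nat_lit 7, nat_lit 19, nat_lit 11, nat_lit 15] (nat_lit 0) [nat_lit 2199] true,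
   Spec.mk (nat_lit 15) (nat_lit 4) [nat_lit 33, nat_lit 21, nat_lit 13] (nat_lit 0) [] false,
   Spec.mk (nat_lit 19) (nat_lit 2) [nat_lit 37, nat_lit 13, nat_lit 21] (nat_lit 0) [nat_lit 2205] false,
   Spec.mk (nat_lit 21) (nat_lit 4) [nat_lit 39, nat_lit 15, nat_lit 19] (nat_lit 0) [] false,
   Spec.mk (nat_lit 29) (nat_lit 2) [nat_lit 83, nat_lit 11, nat_lit 31] (nat_lit 0) [nat_lit 2215] true,
   Spec.mk (nat_lit 31) (nat_lit 3) [nat_lit 85, nat_lit 13, nat_lit 37, nat_lit 29, nat_lit 33] (nat_lit 0) [nat_lit 2217] true,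
   Spec.mk (nat_lit 33) (nat_lit 2) [nat_lit 87, nat_lit 15, nat_lit 39, nat_lit 31] (nat_lit 0) [] false,
   Spec.mk (nat_lit 37) (nat_lit 3) [nat_lit 91, nat_lit 19, nat_lit 55, nat_lit 31, nat_lit 39] (nat_lit 0) [nat_lit 2223] false,
   Spec.mk (nat_lit 39) (nat_lit 4) [nat_lit 93, nat_lit 21, nat_lit 57, nat_lit 33, nat_lit 45, nat_lit 37] (nat_lit 0) [] false,
   Spec.mk (nat_lit 45) (nat_lit 4) [nat_lit 99, nat_lit 63, nat_lit 39] (nat_lit 0) [] false,
   Spec.mk (nat_lit 55) (nat_lit 2) [nat_lit 109, nat_lit 37, nat_lit 57] (nat_lit 0) [nat_lit 2241] false,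
   Spec.mk (nat_lit 57) (nat_lit 2) [nat_lit 111, nat_lit 39, nat_lit 63, nat_lit 55] (nat_lit 0) [] false,
   Spec.mk (nat_lit 63) (nat_lit 4) [nat_lit 117, nat_lit 45, nat_lit 57] (nat_lit 0) [] false,
   Spec.mk (nat_lit 83) (nat_lit 2) [nat_lit 245, nat_lit 29, nat_lit 85] (nat_lit 0) [nat_lit 2269] true,
   Spec.mk (nat_lit 85) (nat_lit 3) [nat_lit 247, nat_lit 31, nat_lit 91, nat_lit 83, nat_lit 87] (nat_lit 0) [nat_lit 2271] true,
   Spec.mk (nat_lit 87) (nat_lit 2) [nat_lit 249, nat_lit 33, nat_lit 93, nat_lit 85] (nat_lit 0) [] false,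
   Spec.mk (nat_lit 91) (nat_lit 2) [nat_lit 253, nat_lit 37, nat_lit 109, nat_lit 85, nat_lit 93] (nat_lit 0) [nat_lit 2277] true,
   Spec.mk (nat_lit 93) (nat_lit 3) [nat_lit 255, nat_lit 39, nat_lit 111, nat_lit 87, nat_lit 99, nat_lit 91] (nat_lit 0) [] false,
   Spec.mk (nat_lit 99) (nat_lit 2) [nat_lit 261, nat_lit 45, nat_lit 117, nat_lit 93] (nat_lit 0) [] false,
   Spec.mk (nat_lit 109) (nat_lit 3) [nat_lit 271, nat_lit 55, nat_lit 163, nat_lit 91, nat_lit 111] (nat_lit 0) [nat_lit 2295] false,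
   Spec.mk (nat_lit 111) (nat_lit 3) [nat_lit 273, nat_lit 57, nat_lit 165, nat_lit 93, nat_lit 117, nat_lit 109] (nat_lit 0) [] false,
   Spec.mk (nat_lit 117) (nat_lit 4) [nat_lit 279, nat_lit 63, nat_lit 171, nat_lit 99, nat_lit 135, nat_lit 111] (nat_lit 0) [] false,
   Spec.mk (nat_lit 135) (nat_lit 4) [nat_lit 297, nat_lit 189, nat_lit 117] (nat_lit 0) [] false,
   Spec.mk (nat_lit 163) (nat_lit 2) [nat_lit 325, nat_lit 109, nat_lit 165] (nat_lit 0) [nat_lit 2349] false,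
   Spec.mk (nat_lit 165) (nat_lit 2) [nat_lit 327, nat_lit 111, nat_lit 171, nat_lit 163] (nat_lit 0) [] false,
   Spec.mk (nat_lit 171) (nat_lit 2) [nat_lit 333, nat_lit 117, nat_lit 189, nat_lit 165] (nat_lit 0) [] false,
   Spec.mk (nat_lit 189) (nat_lit 4) [nat_lit 351, nat_lit 135, nat_lit 171] (nat_lit 0) [] false,
   Spec.mk (nat_lit 245) (nat_lit 2) [nat_lit 731, nat_lit 83, nat_lit 247] (nat_lit 0) [nat_lit 2431] false,
   Spec.mk (nat_lit 247) (nat_lit 3) [nat_lit 733, nat_lit 85, nat_lit 253, nat_lit 245, nat_lit 249] (nat_lit 0) [nat_lit 2433] false,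
   Spec.mk (nat_lit 249) (nat_lit 2) [nat_lit 735, nat_lit 87, nat_lit 255, nat_lit 247] (nat_lit 0) [] false,
   Spec.mk (nat_lit 253) (nat_lit 2) [nat_lit 739, nat_lit 91, nat_lit 271, nat_lit 247, nat_lit 255] (nat_lit 0) [nat_lit 2439] true,
   Spec.mk (nat_lit 255) (nat_lit 3) [nat_lit 741, nat_lit 93, nat_lit 273, nat_lit 249, nat_lit 261, nat_lit 253] (nat_lit 0) [] false,
   Spec.mk (nat_lit 261) (nat_lit 2) [nat_lit 747, nat_lit 99, nat_lit 279, nat_lit 255] (nat_lit 0) [] false,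
   Spec.mk (nat_lit 271) (nat_lit 2) [nat_lit 757, nat_lit 109, nat_lit 325, nat_lit 253, nat_lit 273] (nat_lit 0) [nat_lit 2457] false,
   Spec.mk (nat_lit 273) (nat_lit 2) [nat_lit 759, nat_lit 111, nat_lit 327, nat_lit 255, nat_lit 279, nat_lit 271] (nat_lit 0) [] false,
   Spec.mk (nat_lit 279) (nat_lit 3) [nat_lit 765, nat_lit 117, nat_lit 333, nat_lit 261, nat_lit 297, nat_lit 273] (nat_lit 0) [] false,
   Spec.mk (nat_lit 297) (nat_lit 2) [nat_lit 783, nat_lit 135, nat_lit 351, nat_lit 279] (nat_lit 0) [] false,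
   Spec.mk (nat_lit 325) (nat_lit 3) [nat_lit 811, nat_lit 163, nat_lit 487, nat_lit 271, nat_lit 327] (nat_lit 0) [nat_lit 2511] false,
   Spec.mk (nat_lit 327) (nat_lit 3) [nat_lit 813, nat_lit 165, nat_lit 489, nat_lit 273, nat_lit 333, nat_lit 325] (nat_lit 0) [] false,
   Spec.mk (nat_lit 333) (nat_lit 3) [nat_lit 819, nat_lit 171, nat_lit 495, nat_lit 279, nat_lit 351, nat_lit 327] (nat_lit 0) [] false,
   Spec.mk (nat_lit 351) (nat_lit 4) [nat_lit 837, nat_lit 189, nat_lit 513, nat_lit 297, nat_lit 405, nat_lit 333] (nat_lit 0) [] false,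
   Spec.mk (nat_lit 405) (nat_lit 4) [nat_lit 891, nat_lit 567, nat_lit 351] (nat_lit 0) [] false,
   Spec.mk (nat_lit 487) (nat_lit 2) [nat_lit 973, nat_lit 325, nat_lit 489] (nat_lit 0) [nat_lit 2673] false,
   Spec.mk (nat_lit 489) (nat_lit 2) [nat_lit 975, nat_lit 327, nat_lit 495, nat_lit 487] (nat_lit 0) [] false,
   Spec.mk (nat_lit 495) (nat_lit 2) [nat_lit 981, nat_lit 333, nat_lit 513, nat_lit 489] (nat_lit 0) [] false,
   Spec.mk (nat_lit 513) (nat_lit 2) [nat_lit 999, nat_lit 351, nat_lit 567, nat_lit 495] (nat_lit 0) [] false,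
   Spec.mk (nat_lit 567) (nat_lit 4) [nat_lit 1053, nat_lit 405, nat_lit 513] (nat_lit 0) [] false,
   Spec.mk (nat_lit 731) (nat_lit 2) [nat_lit 2189, nat_lit 245, nat_lit 733] (nat_lit 0) [nat_lit 2917] false,
   Spec.mk (nat_lit 733) (nat_lit 3) [nat_lit 2191, nat_lit 247, nat_lit 739, nat_lit 731, nat_lit 735] (nat_lit 0) [nat_lit 2919] false,
   Spec.mk (nat_lit 735) (nat_lit 2) [nat_lit 2193, nat_lit 249, nat_lit 741, nat_lit 733] (nat_lit 0) [] false,
   Spec.mk (nat_lit 739) (nat_lit 2) [nat_lit 2197, nat_lit 253, nat_lit 757, nat_lit 733, nat_lit 741] (nat_lit 0) [nat_lit 2925] false,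
   Spec.mk (nat_lit 741) (nat_lit 3) [nat_lit 2199, nat_lit 255, nat_lit 759, nat_lit 735, nat_lit 747, nat_lit 739] (nat_lit 0) [] false,
   Spec.mk (nat_lit 747) (nat_lit 2) [nat_lit 2205, nat_lit 261, nat_lit 765, nat_lit 741] (nat_lit 0) [] false,
   Spec.mk (nat_lit 757) (nat_lit 2) [nat_lit 2215, nat_lit 271, nat_lit 811, nat_lit 739, nat_lit 759] (nat_lit 0) [nat_lit 2943] false,
   Spec.mk (nat_lit 759) (nat_lit 2) [nat_lit 2217, nat_lit 273, nat_lit 813, nat_lit 741, nat_lit 765, nat_lit 757] (nat_lit 0) [] false,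
   Spec.mk (nat_lit 765) (nat_lit 3) [nat_lit 2223, nat_lit 279, nat_lit 819, nat_lit 747, nat_lit 783, nat_lit 759] (nat_lit 0) [] false,
   Spec.mk (nat_lit 783) (nat_lit 2) [nat_lit 2241, nat_lit 297, nat_lit 837, nat_lit 765] (nat_lit 0) [] false]

noncomputable def sp1 : List Spec :=
  [Spec.mk (nat_lit 811) (nat_lit 2) [nat_lit 2269, nat_lit 325, nat_lit 973, nat_lit 757, nat_lit 813] (nat_lit 0) [nat_lit 2997] false,
   Spec.mk (nat_lit 813) (nat_lit 2) [nat_lit 2271, nat_lit 327, nat_lit 975, nat_lit 759, nat_lit 819, nat_lit 811] (nat_lit 0) [] false,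
   Spec.mk (nat_lit 819) (nat_lit 2) [nat_lit 2277, nat_lit 333, nat_lit 981, nat_lit 765, nat_lit 837, nat_lit 813] (nat_lit 0) [] false,
   Spec.mk (nat_lit 837) (nat_lit 3) [nat_lit 2295, nat_lit 351, nat_lit 999, nat_lit 783, nat_lit 891, nat_lit 819] (nat_lit 0) [] false,
   Spec.mk (nat_lit 891) (nat_lit 2) [nat_lit 2349, nat_lit 405, nat_lit 1053, nat_lit 837] (nat_lit 0) [] false,
   Spec.mk (nat_lit 973) (nat_lit 3) [nat_lit 2431, nat_lit 487, nat_lit 1459, nat_lit 811, nat_lit 975] (nat_lit 0) [nat_lit 3159] false,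
   Spec.mk (nat_lit 975) (nat_lit 3) [nat_lit 2433, nat_lit 489, nat_lit 1461, nat_lit 813, nat_lit 981, nat_lit 973] (nat_lit 0) [] false,
   Spec.mk (nat_lit 981) (nat_lit 3) [nat_lit 2439, nat_lit 495, nat_lit 1467, nat_lit 819, nat_lit 999, nat_lit 975] (nat_lit 0) [] false,
   Spec.mk (nat_lit 999) (nat_lit 3) [nat_lit 2457, nat_lit 513, nat_lit 1485, nat_lit 837, nat_lit 1053, nat_lit 981] (nat_lit 0) [] false,
   Spec.mk (nat_lit 1053) (nat_lit 4) [nat_lit 2511, nat_lit 567, nat_lit 1539, nat_lit 891, nat_lit 1215, nat_lit 999] (nat_lit 0) [] false,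
   Spec.mk (nat_lit 1215) (nat_lit 4) [nat_lit 2673, nat_lit 1701, nat_lit 1053] (nat_lit 0) [] false,
   Spec.mk (nat_lit 1459) (nat_lit 2) [nat_lit 2917, nat_lit 973, nat_lit 1461] (nat_lit 0) [nat_lit 3645] false,
   Spec.mk (nat_lit 1461) (nat_lit 2) [nat_lit 2919, nat_lit 975, nat_lit 1467, nat_lit 1459] (nat_lit 0) [] false,
   Spec.mk (nat_lit 1467) (nat_lit 2) [nat_lit 2925, nat_lit 981, nat_lit 1485, nat_lit 1461] (nat_lit 0) [] false,
   Spec.mk (nat_lit 1485) (nat_lit 2) [nat_lit 2943, nat_lit 999, nat_lit 1539, nat_lit 1467] (nat_lit 0) [] false,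
   Spec.mk (nat_lit 1539) (nat_lit 2) [nat_lit 2997, nat_lit 1053, nat_lit 1701, nat_lit 1485] (nat_lit 0) [] false,
   Spec.mk (nat_lit 1701) (nat_lit 4) [nat_lit 3159, nat_lit 1215, nat_lit 1539] (nat_lit 0) [] false,
   Spec.mk (nat_lit 2189) (nat_lit 4) [nat_lit 731, nat_lit 2191] (nat_lit 0) [nat_lit 4375] false,
   Spec.mk (nat_lit 2191) (nat_lit 4) [nat_lit 733, nat_lit 2197, nat_lit 2189, nat_lit 2193] (nat_lit 0) [nat_lit 4377, nat_lit 5] false,
   Spec.mk (nat_lit 2193) (nat_lit 2) [nat_lit 735, nat_lit 2199, nat_lit 2191] (nat_lit 0) [nat_lit 7] false,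
   Spec.mk (nat_lit 2197) (nat_lit 3) [nat_lit 739, nat_lit 2215, nat_lit 2191, nat_lit 2199] (nat_lit 0) [nat_lit 4383, nat_lit 11] false,
   Spec.mk (nat_lit 2199) (nat_lit 3) [nat_lit 741, nat_lit 2217, nat_lit 2193, nat_lit 2205, nat_lit 2197] (nat_lit 0) [nat_lit 13] false,
   Spec.mk (nat_lit 2205) (nat_lit 2) [nat_lit 747, nat_lit 2223, nat_lit 2199] (nat_lit 0) [nat_lit 19] false,
   Spec.mk (nat_lit 2215) (nat_lit 3) [nat_lit 757, nat_lit 2269, nat_lit 2197, nat_lit 2217] (nat_lit 0) [nat_lit 4401, nat_lit 29] false,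
   Spec.mk (nat_lit 2217) (nat_lit 2) [nat_lit 759, nat_lit 2271, nat_lit 2199, nat_lit 2223, nat_lit 2215] (nat_lit 0) [nat_lit 31] false,
   Spec.mk (nat_lit 2223) (nat_lit 3) [nat_lit 765, nat_lit 2277, nat_lit 2205, nat_lit 2241, nat_lit 2217] (nat_lit 0) [nat_lit 37] false,
   Spec.mk (nat_lit 2241) (nat_lit 2) [nat_lit 783, nat_lit 2295, nat_lit 2223] (nat_lit 0) [nat_lit 55] false,
   Spec.mk (nat_lit 2269) (nat_lit 3) [nat_lit 811, nat_lit 2431, nat_lit 2215, nat_lit 2271] (nat_lit 0) [nat_lit 4455, nat_lit 83] false,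
   Spec.mk (nat_lit 2271) (nat_lit 2) [nat_lit 813, nat_lit 2433, nat_lit 2217, nat_lit 2277, nat_lit 2269] (nat_lit 0) [nat_lit 85] false,
   Spec.mk (nat_lit 2277) (nat_lit 2) [nat_lit 819, nat_lit 2439, nat_lit 2223, nat_lit 2295, nat_lit 2271] (nat_lit 0) [nat_lit 91] false,
   Spec.mk (nat_lit 2295) (nat_lit 3) [nat_lit 837, nat_lit 2457, nat_lit 2241, nat_lit 2349, nat_lit 2277] (nat_lit 0) [nat_lit 109] false,
   Spec.mk (nat_lit 2349) (nat_lit 2) [nat_lit 891, nat_lit 2511, nat_lit 2295] (nat_lit 0) [nat_lit 163] false,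
   Spec.mk (nat_lit 2431) (nat_lit 3) [nat_lit 973, nat_lit 2917, nat_lit 2269, nat_lit 2433] (nat_lit 0) [nat_lit 4617, nat_lit 245] false,
   Spec.mk (nat_lit 2433) (nat_lit 2) [nat_lit 975, nat_lit 2919, nat_lit 2271, nat_lit 2439, nat_lit 2431] (nat_lit 0) [nat_lit 247] false,
   Spec.mk (nat_lit 2439) (nat_lit 2) [nat_lit 981, nat_lit 2925, nat_lit 2277, nat_lit 2457, nat_lit 2433] (nat_lit 0) [nat_lit 253] false,
   Spec.mk (nat_lit 2457) (nat_lit 2) [nat_lit 999, nat_lit 2943, nat_lit 2295, nat_lit 2511, nat_lit 2439] (nat_lit 0) [nat_lit 271] false,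
   Spec.mk (nat_lit 2511) (nat_lit 3) [nat_lit 1053, nat_lit 2997, nat_lit 2349, nat_lit 2673, nat_lit 2457] (nat_lit 0) [nat_lit 325] false,
   Spec.mk (nat_lit 2673) (nat_lit 2) [nat_lit 1215, nat_lit 3159, nat_lit 2511] (nat_lit 0) [nat_lit 487] false,
   Spec.mk (nat_lit 2917) (nat_lit 4) [nat_lit 1459, nat_lit 4375, nat_lit 2431, nat_lit 2919] (nat_lit 0) [nat_lit 5103, nat_lit 731] false,
   Spec.mk (nat_lit 2919) (nat_lit 3) [nat_lit 1461, nat_lit 4377, nat_lit 2433, nat_lit 2925, nat_lit 2917] (nat_lit 0) [nat_lit 733] false,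
   Spec.mk (nat_lit 2925) (nat_lit 3) [nat_lit 1467, nat_lit 4383, nat_lit 2439, nat_lit 2943, nat_lit 2919] (nat_lit 0) [nat_lit 739] false,
   Spec.mk (nat_lit 2943) (nat_lit 3) [nat_lit 1485, nat_lit 4401, nat_lit 2457, nat_lit 2997, nat_lit 2925] (nat_lit 0) [nat_lit 757] false,
   Spec.mk (nat_lit 2997) (nat_lit 3) [nat_lit 1539, nat_lit 4455, nat_lit 2511, nat_lit 3159, nat_lit 2943] (nat_lit 0) [nat_lit 811] false,
   Spec.mk (nat_lit 3159) (nat_lit 4) [nat_lit 1701, nat_lit 4617, nat_lit 2673, nat_lit 3645, nat_lit 2997] (nat_lit 0) [nat_lit 973] false,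
   Spec.mk (nat_lit 3645) (nat_lit 4) [nat_lit 5103, nat_lit 3159] (nat_lit 0) [nat_lit 1459] false,
   Spec.mk (nat_lit 4375) (nat_lit 4) [nat_lit 2917, nat_lit 4377] (nat_lit 0) [nat_lit 2189] false,
   Spec.mk (nat_lit 4377) (nat_lit 2) [nat_lit 2919, nat_lit 4383, nat_lit 4375] (nat_lit 0) [nat_lit 2191] false,
   Spec.mk (nat_lit 4383) (nat_lit 2) [nat_lit 2925, nat_lit 4401, nat_lit 4377] (nat_lit 0) [nat_lit 2197] false,
   Spec.mk (nat_lit 4401) (nat_lit 2) [nat_lit 2943, nat_lit 4455, nat_lit 4383] (nat_lit 0) [nat_lit 2215] false,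
   Spec.mk (nat_lit 4455) (nat_lit 2) [nat_lit 2997, nat_lit 4617, nat_lit 4401] (nat_lit 0) [nat_lit 2269] false,
   Spec.mk (nat_lit 4617) (nat_lit 2) [nat_lit 3159, nat_lit 5103, nat_lit 4455] (nat_lit 0) [nat_lit 2431] false,
   Spec.mk (nat_lit 5103) (nat_lit 4) [nat_lit 3645, nat_lit 4617] (nat_lit 0) [nat_lit 2917] false]

noncomputable def specs : List (List Spec) :=
    sp0 :: sp1 :: []

noncomputable def step (e : Nat → Nat) (C ap an : Nat) (k :
    Nat → Nat → Nat → Nat → Nat → Nat → Nat → Nat → Nat → Nat → Nat → Nat → Nat → Nat → Nat → Nat →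
    Nat → Nat → Nat → Nat → Nat → Nat → Nat → Nat → Nat → Nat → Nat → Nat → Nat → Nat → Nat → Nat →
    Nat → Nat → Nat → Nat → Nat → Nat → Nat → Nat → Nat → Nat → Nat → Nat → Nat → Nat → Nat → Nat →
    Nat → Nat → Nat → Nat → Nat → Nat → Nat → Nat → Nat → Nat → Nat → Nat → Nat → Nat → Nat → Nat →
    Nat → Nat → Nat → Nat → Nat → Nat → Nat → Nat → Nat → Nat → Nat → Nat → Nat → Nat → Nat → Nat →
    Nat → Nat → Nat → Nat → Nat → Nat → Nat → Nat → Nat → Nat → Nat → Nat → Nat → Nat → Nat → Nat →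
    Nat → Nat → Nat → Nat → Nat → Nat → Nat → Nat → Nat → Nat → Nat → Nat → Nat → Nat → Nat → Nat →
    Bool)
  (
    x5 x7 x11 x13 x15 x19 x21 x29 x31 x33 x37 x39 x45 x55 x57 x63 x83 x85 x87 x91 x93 x99 x109 x111
    x117 x135 x163 x165 x171 x189 x245 x247 x249 x253 x255 x261 x271 x273 x279 x297 x325 x327 x333
    x351 x405 x487 x489 x495 x513 x567 x731 x733 x735 x739 x741 x747 x757 x759 x765 x783 x811 x813
    x819 x837 x891 x973 x975 x981 x999 x1053 x1215 x1459 x1461 x1467 x1485 x1539 x1701 x2189 x2191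
    x2193 x2197 x2199 x2205 x2215 x2217 x2223 x2241 x2269 x2271 x2277 x2295 x2349 x2431 x2433 x2439
    x2457 x2511 x2673 x2917 x2919 x2925 x2943 x2997 x3159 x3645 x4375 x4377 x4383 x4401 x4455 x4617
    x5103 : Nat) : Bool :=
  k
    (Nat.sub (Nat.sub (Nat.add (Nat.add (Nat.add (Nat.add C (Nat.mul x5 (nat_lit 4))) x11) x7) (Nat.mul (e (nat_lit 5)) ap)) x2191) (Nat.mul (e (nat_lit 5)) an))
    (Nat.sub (Nat.add (Nat.add (Nat.add C (Nat.mul x7 (nat_lit 4))) x13) x5) x2193)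
    (Nat.sub (Nat.sub (Nat.add (Nat.add (Nat.add (Nat.add (Nat.add C (Nat.mul x11 (nat_lit 2))) x29) x5) x13) (Nat.mul (e (nat_lit 11)) ap)) x2197) (Nat.mul (e (nat_lit 11)) an))
    (Nat.sub (Nat.sub (Nat.add (Nat.add (Nat.add (Nat.add (Nat.add (Nat.add (Nat.add C (Nat.mul x13 (nat_lit 4))) x31) x7) x19) x11) x15) (Nat.mul (e (nat_lit 13)) ap)) x2199) (Nat.mul (e (nat_lit 13)) an))
    (Nat.add (Nat.add (Nat.add (Nat.add C (Nat.mul x15 (nat_lit 4))) x33) x21) x13)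
    (Nat.sub (Nat.add (Nat.add (Nat.add (Nat.add C (Nat.mul x19 (nat_lit 2))) x37) x13) x21) x2205)
    (Nat.add (Nat.add (Nat.add (Nat.add C (Nat.mul x21 (nat_lit 4))) x39) x15) x19)
    (Nat.sub (Nat.sub (Nat.add (Nat.add (Nat.add (Nat.add (Nat.add C (Nat.mul x29 (nat_lit 2))) x83) x11) x31) (Nat.mul (e (nat_lit 29)) ap)) x2215) (Nat.mul (e (nat_lit 29)) an))
    (Nat.sub (Nat.sub (Nat.add (Nat.add (Nat.add (Nat.add (Nat.add (Nat.add (Nat.add C (Nat.mul x31 (nat_lit 3))) x85) x13) x37) x29) x33) (Nat.mul (e (nat_lit 31)) ap)) x2217) (Nat.mul (e (nat_lit 31)) an))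
    (Nat.add (Nat.add (Nat.add (Nat.add (Nat.add C (Nat.mul x33 (nat_lit 2))) x87) x15) x39) x31)
    (Nat.sub (Nat.add (Nat.add (Nat.add (Nat.add (Nat.add (Nat.add C (Nat.mul x37 (nat_lit 3))) x91) x19) x55) x31) x39) x2223)
    (Nat.add (Nat.add (Nat.add (Nat.add (Nat.add (Nat.add (Nat.add C (Nat.mul x39 (nat_lit 4))) x93) x21) x57) x33) x45) x37)
    (Nat.add (Nat.add (Nat.add (Nat.add C (Nat.mul x45 (nat_lit 4))) x99) x63) x39)
    (Nat.sub (Nat.add (Nat.add (Nat.add (Nat.add C (Nat.mul x55 (nat_lit 2))) x109) x37) x57) x2241)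
    (Nat.add (Nat.add (Nat.add (Nat.add (Nat.add C (Nat.mul x57 (nat_lit 2))) x111) x39) x63) x55)
    (Nat.add (Nat.add (Nat.add (Nat.add C (Nat.mul x63 (nat_lit 4))) x117) x45) x57)
    (Nat.sub (Nat.sub (Nat.add (Nat.add (Nat.add (Nat.add (Nat.add C (Nat.mul x83 (nat_lit 2))) x245) x29) x85) (Nat.mul (e (nat_lit 83)) ap)) x2269) (Nat.mul (e (nat_lit 83)) an))
    (Nat.sub (Nat.sub (Nat.add (Nat.add (Nat.add (Nat.add (Nat.add (Nat.add (Nat.add C (Nat.mul x85 (nat_lit 3))) x247) x31) x91) x83) x87) (Nat.mul (e (nat_lit 85)) ap)) x2271) (Nat.mul (e (nat_lit 85)) an))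
    (Nat.add (Nat.add (Nat.add (Nat.add (Nat.add C (Nat.mul x87 (nat_lit 2))) x249) x33) x93) x85)
    (Nat.sub (Nat.sub (Nat.add (Nat.add (Nat.add (Nat.add (Nat.add (Nat.add (Nat.add C (Nat.mul x91 (nat_lit 2))) x253) x37) x109) x85) x93) (Nat.mul (e (nat_lit 91)) ap)) x2277) (Nat.mul (e (nat_lit 91)) an))
    (Nat.add (Nat.add (Nat.add (Nat.add (Nat.add (Nat.add (Nat.add C (Nat.mul x93 (nat_lit 3))) x255) x39) x111) x87) x99) x91)
    (Nat.add (Nat.add (Nat.add (Nat.add (Nat.add C (Nat.mul x99 (nat_lit 2))) x261) x45) x117) x93)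
    (Nat.sub (Nat.add (Nat.add (Nat.add (Nat.add (Nat.add (Nat.add C (Nat.mul x109 (nat_lit 3))) x271) x55) x163) x91) x111) x2295)
    (Nat.add (Nat.add (Nat.add (Nat.add (Nat.add (Nat.add (Nat.add C (Nat.mul x111 (nat_lit 3))) x273) x57) x165) x93) x117) x109)
    (Nat.add (Nat.add (Nat.add (Nat.add (Nat.add (Nat.add (Nat.add C (Nat.mul x117 (nat_lit 4))) x279) x63) x171) x99) x135) x111)
    (Nat.add (Nat.add (Nat.add (Nat.add C (Nat.mul x135 (nat_lit 4))) x297) x189) x117)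
    (Nat.sub (Nat.add (Nat.add (Nat.add (Nat.add C (Nat.mul x163 (nat_lit 2))) x325) x109) x165) x2349)
    (Nat.add (Nat.add (Nat.add (Nat.add (Nat.add C (Nat.mul x165 (nat_lit 2))) x327) x111) x171) x163)
    (Nat.add (Nat.add (Nat.add (Nat.add (Nat.add C (Nat.mul x171 (nat_lit 2))) x333) x117) x189) x165)
    (Nat.add (Nat.add (Nat.add (Nat.add C (Nat.mul x189 (nat_lit 4))) x351) x135) x171)
    (Nat.sub (Nat.add (Nat.add (Nat.add (Nat.add C (Nat.mul x245 (nat_lit 2))) x731) x83) x247) x2431)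
    (Nat.sub (Nat.add (Nat.add (Nat.add (Nat.add (Nat.add (Nat.add C (Nat.mul x247 (nat_lit 3))) x733) x85) x253) x245) x249) x2433)
    (Nat.add (Nat.add (Nat.add (Nat.add (Nat.add C (Nat.mul x249 (nat_lit 2))) x735) x87) x255) x247)
    (Nat.sub (Nat.sub (Nat.add (Nat.add (Nat.add (Nat.add (Nat.add (Nat.add (Nat.add C (Nat.mul x253 (nat_lit 2))) x739) x91) x271) x247) x255) (Nat.mul (e (nat_lit 253)) ap)) x2439) (Nat.mul (e (nat_lit 253)) an))
    (Nat.add (Nat.add (Nat.add (Nat.add (Nat.add (Nat.add (Nat.add C (Nat.mul x255 (nat_lit 3))) x741) x93) x273) x249) x261) x253)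
    (Nat.add (Nat.add (Nat.add (Nat.add (Nat.add C (Nat.mul x261 (nat_lit 2))) x747) x99) x279) x255)
    (Nat.sub (Nat.add (Nat.add (Nat.add (Nat.add (Nat.add (Nat.add C (Nat.mul x271 (nat_lit 2))) x757) x109) x325) x253) x273) x2457)
    (Nat.add (Nat.add (Nat.add (Nat.add (Nat.add (Nat.add (Nat.add C (Nat.mul x273 (nat_lit 2))) x759) x111) x327) x255) x279) x271)
    (Nat.add (Nat.add (Nat.add (Nat.add (Nat.add (Nat.add (Nat.add C (Nat.mul x279 (nat_lit 3))) x765) x117) x333) x261) x297) x273)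
    (Nat.add (Nat.add (Nat.add (Nat.add (Nat.add C (Nat.mul x297 (nat_lit 2))) x783) x135) x351) x279)
    (Nat.sub (Nat.add (Nat.add (Nat.add (Nat.add (Nat.add (Nat.add C (Nat.mul x325 (nat_lit 3))) x811) x163) x487) x271) x327) x2511)
    (Nat.add (Nat.add (Nat.add (Nat.add (Nat.add (Nat.add (Nat.add C (Nat.mul x327 (nat_lit 3))) x813) x165) x489) x273) x333) x325)
    (Nat.add (Nat.add (Nat.add (Nat.add (Nat.add (Nat.add (Nat.add C (Nat.mul x333 (nat_lit 3))) x819) x171) x495) x279) x351) x327)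
    (Nat.add (Nat.add (Nat.add (Nat.add (Nat.add (Nat.add (Nat.add C (Nat.mul x351 (nat_lit 4))) x837) x189) x513) x297) x405) x333)
    (Nat.add (Nat.add (Nat.add (Nat.add C (Nat.mul x405 (nat_lit 4))) x891) x567) x351)
    (Nat.sub (Nat.add (Nat.add (Nat.add (Nat.add C (Nat.mul x487 (nat_lit 2))) x973) x325) x489) x2673)
    (Nat.add (Nat.add (Nat.add (Nat.add (Nat.add C (Nat.mul x489 (nat_lit 2))) x975) x327) x495) x487)
    (Nat.add (Nat.add (Nat.add (Nat.add (Nat.add C (Nat.mul x495 (nat_lit 2))) x981) x333) x513) x489)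
    (Nat.add (Nat.add (Nat.add (Nat.add (Nat.add C (Nat.mul x513 (nat_lit 2))) x999) x351) x567) x495)
    (Nat.add (Nat.add (Nat.add (Nat.add C (Nat.mul x567 (nat_lit 4))) x1053) x405) x513)
    (Nat.sub (Nat.add (Nat.add (Nat.add (Nat.add C (Nat.mul x731 (nat_lit 2))) x2189) x245) x733) x2917)
    (Nat.sub (Nat.add (Nat.add (Nat.add (Nat.add (Nat.add (Nat.add C (Nat.mul x733 (nat_lit 3))) x2191) x247) x739) x731) x735) x2919)
    (Nat.add (Nat.add (Nat.add (Nat.add (Nat.add C (Nat.mul x735 (nat_lit 2))) x2193) x249) x741) x733)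
    (Nat.sub (Nat.add (Nat.add (Nat.add (Nat.add (Nat.add (Nat.add C (Nat.mul x739 (nat_lit 2))) x2197) x253) x757) x733) x741) x2925)
    (Nat.add (Nat.add (Nat.add (Nat.add (Nat.add (Nat.add (Nat.add C (Nat.mul x741 (nat_lit 3))) x2199) x255) x759) x735) x747) x739)
    (Nat.add (Nat.add (Nat.add (Nat.add (Nat.add C (Nat.mul x747 (nat_lit 2))) x2205) x261) x765) x741)
    (Nat.sub (Nat.add (Nat.add (Nat.add (Nat.add (Nat.add (Nat.add C (Nat.mul x757 (nat_lit 2))) x2215) x271) x811) x739) x759) x2943)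
    (Nat.add (Nat.add (Nat.add (Nat.add (Nat.add (Nat.add (Nat.add C (Nat.mul x759 (nat_lit 2))) x2217) x273) x813) x741) x765) x757)
    (Nat.add (Nat.add (Nat.add (Nat.add (Nat.add (Nat.add (Nat.add C (Nat.mul x765 (nat_lit 3))) x2223) x279) x819) x747) x783) x759)
    (Nat.add (Nat.add (Nat.add (Nat.add (Nat.add C (Nat.mul x783 (nat_lit 2))) x2241) x297) x837) x765)
    (Nat.sub (Nat.add (Nat.add (Nat.add (Nat.add (Nat.add (Nat.add C (Nat.mul x811 (nat_lit 2))) x2269) x325) x973) x757) x813) x2997)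
    (Nat.add (Nat.add (Nat.add (Nat.add (Nat.add (Nat.add (Nat.add C (Nat.mul x813 (nat_lit 2))) x2271) x327) x975) x759) x819) x811)
    (Nat.add (Nat.add (Nat.add (Nat.add (Nat.add (Nat.add (Nat.add C (Nat.mul x819 (nat_lit 2))) x2277) x333) x981) x765) x837) x813)
    (Nat.add (Nat.add (Nat.add (Nat.add (Nat.add (Nat.add (Nat.add C (Nat.mul x837 (nat_lit 3))) x2295) x351) x999) x783) x891) x819)
    (Nat.add (Nat.add (Nat.add (Nat.add (Nat.add C (Nat.mul x891 (nat_lit 2))) x2349) x405) x1053) x837)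
    (Nat.sub (Nat.add (Nat.add (Nat.add (Nat.add (Nat.add (Nat.add C (Nat.mul x973 (nat_lit 3))) x2431) x487) x1459) x811) x975) x3159)
    (Nat.add (Nat.add (Nat.add (Nat.add (Nat.add (Nat.add (Nat.add C (Nat.mul x975 (nat_lit 3))) x2433) x489) x1461) x813) x981) x973)
    (Nat.add (Nat.add (Nat.add (Nat.add (Nat.add (Nat.add (Nat.add C (Nat.mul x981 (nat_lit 3))) x2439) x495) x1467) x819) x999) x975)
    (Nat.add (Nat.add (Nat.add (Nat.add (Nat.add (Nat.add (Nat.add C (Nat.mul x999 (nat_lit 3))) x2457) x513) x1485) x837) x1053) x981)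
    (Nat.add (Nat.add (Nat.add (Nat.add (Nat.add (Nat.add (Nat.add C (Nat.mul x1053 (nat_lit 4))) x2511) x567) x1539) x891) x1215) x999)
    (Nat.add (Nat.add (Nat.add (Nat.add C (Nat.mul x1215 (nat_lit 4))) x2673) x1701) x1053)
    (Nat.sub (Nat.add (Nat.add (Nat.add (Nat.add C (Nat.mul x1459 (nat_lit 2))) x2917) x973) x1461) x3645)
    (Nat.add (Nat.add (Nat.add (Nat.add (Nat.add C (Nat.mul x1461 (nat_lit 2))) x2919) x975) x1467) x1459)
    (Nat.add (Nat.add (Nat.add (Nat.add (Nat.add C (Nat.mul x1467 (nat_lit 2))) x2925) x981) x1485) x1461)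
    (Nat.add (Nat.add (Nat.add (Nat.add (Nat.add C (Nat.mul x1485 (nat_lit 2))) x2943) x999) x1539) x1467)
    (Nat.add (Nat.add (Nat.add (Nat.add (Nat.add C (Nat.mul x1539 (nat_lit 2))) x2997) x1053) x1701) x1485)
    (Nat.add (Nat.add (Nat.add (Nat.add C (Nat.mul x1701 (nat_lit 4))) x3159) x1215) x1539)
    (Nat.sub (Nat.add (Nat.add (Nat.add C (Nat.mul x2189 (nat_lit 4))) x731) x2191) x4375)
    (Nat.sub (Nat.sub (Nat.add (Nat.add (Nat.add (Nat.add (Nat.add C (Nat.mul x2191 (nat_lit 4))) x733) x2197) x2189) x2193) x4377) x5)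
    (Nat.sub (Nat.add (Nat.add (Nat.add (Nat.add C (Nat.mul x2193 (nat_lit 2))) x735) x2199) x2191) x7)
    (Nat.sub (Nat.sub (Nat.add (Nat.add (Nat.add (Nat.add (Nat.add C (Nat.mul x2197 (nat_lit 3))) x739) x2215) x2191) x2199) x4383) x11)
    (Nat.sub (Nat.add (Nat.add (Nat.add (Nat.add (Nat.add (Nat.add C (Nat.mul x2199 (nat_lit 3))) x741) x2217) x2193) x2205) x2197) x13)
    (Nat.sub (Nat.add (Nat.add (Nat.add (Nat.add C (Nat.mul x2205 (nat_lit 2))) x747) x2223) x2199) x19)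
    (Nat.sub (Nat.sub (Nat.add (Nat.add (Nat.add (Nat.add (Nat.add C (Nat.mul x2215 (nat_lit 3))) x757) x2269) x2197) x2217) x4401) x29)
    (Nat.sub (Nat.add (Nat.add (Nat.add (Nat.add (Nat.add (Nat.add C (Nat.mul x2217 (nat_lit 2))) x759) x2271) x2199) x2223) x2215) x31)
    (Nat.sub (Nat.add (Nat.add (Nat.add (Nat.add (Nat.add (Nat.add C (Nat.mul x2223 (nat_lit 3))) x765) x2277) x2205) x2241) x2217) x37)
    (Nat.sub (Nat.add (Nat.add (Nat.add (Nat.add C (Nat.mul x2241 (nat_lit 2))) x783) x2295) x2223) x55)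
    (Nat.sub (Nat.sub (Nat.add (Nat.add (Nat.add (Nat.add (Nat.add C (Nat.mul x2269 (nat_lit 3))) x811) x2431) x2215) x2271) x4455) x83)
    (Nat.sub (Nat.add (Nat.add (Nat.add (Nat.add (Nat.add (Nat.add C (Nat.mul x2271 (nat_lit 2))) x813) x2433) x2217) x2277) x2269) x85)
    (Nat.sub (Nat.add (Nat.add (Nat.add (Nat.add (Nat.add (Nat.add C (Nat.mul x2277 (nat_lit 2))) x819) x2439) x2223) x2295) x2271) x91)
    (Nat.sub (Nat.add (Nat.add (Nat.add (Nat.add (Nat.add (Nat.add C (Nat.mul x2295 (nat_lit 3))) x837) x2457) x2241) x2349) x2277) x109)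
    (Nat.sub (Nat.add (Nat.add (Nat.add (Nat.add C (Nat.mul x2349 (nat_lit 2))) x891) x2511) x2295) x163)
    (Nat.sub (Nat.sub (Nat.add (Nat.add (Nat.add (Nat.add (Nat.add C (Nat.mul x2431 (nat_lit 3))) x973) x2917) x2269) x2433) x4617) x245)
    (Nat.sub (Nat.add (Nat.add (Nat.add (Nat.add (Nat.add (Nat.add C (Nat.mul x2433 (nat_lit 2))) x975) x2919) x2271) x2439) x2431) x247)
    (Nat.sub (Nat.add (Nat.add (Nat.add (Nat.add (Nat.add (Nat.add C (Nat.mul x2439 (nat_lit 2))) x981) x2925) x2277) x2457) x2433) x253)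
    (Nat.sub (Nat.add (Nat.add (Nat.add (Nat.add (Nat.add (Nat.add C (Nat.mul x2457 (nat_lit 2))) x999) x2943) x2295) x2511) x2439) x271)
    (Nat.sub (Nat.add (Nat.add (Nat.add (Nat.add (Nat.add (Nat.add C (Nat.mul x2511 (nat_lit 3))) x1053) x2997) x2349) x2673) x2457) x325)
    (Nat.sub (Nat.add (Nat.add (Nat.add (Nat.add C (Nat.mul x2673 (nat_lit 2))) x1215) x3159) x2511) x487)
    (Nat.sub (Nat.sub (Nat.add (Nat.add (Nat.add (Nat.add (Nat.add C (Nat.mul x2917 (nat_lit 4))) x1459) x4375) x2431) x2919) x5103) x731)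
    (Nat.sub (Nat.add (Nat.add (Nat.add (Nat.add (Nat.add (Nat.add C (Nat.mul x2919 (nat_lit 3))) x1461) x4377) x2433) x2925) x2917) x733)
    (Nat.sub (Nat.add (Nat.add (Nat.add (Nat.add (Nat.add (Nat.add C (Nat.mul x2925 (nat_lit 3))) x1467) x4383) x2439) x2943) x2919) x739)
    (Nat.sub (Nat.add (Nat.add (Nat.add (Nat.add (Nat.add (Nat.add C (Nat.mul x2943 (nat_lit 3))) x1485) x4401) x2457) x2997) x2925) x757)
    (Nat.sub (Nat.add (Nat.add (Nat.add (Nat.add (Nat.add (Nat.add C (Nat.mul x2997 (nat_lit 3))) x1539) x4455) x2511) x3159) x2943) x811)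
    (Nat.sub (Nat.add (Nat.add (Nat.add (Nat.add (Nat.add (Nat.add C (Nat.mul x3159 (nat_lit 4))) x1701) x4617) x2673) x3645) x2997) x973)
    (Nat.sub (Nat.add (Nat.add (Nat.add C (Nat.mul x3645 (nat_lit 4))) x5103) x3159) x1459)
    (Nat.sub (Nat.add (Nat.add (Nat.add C (Nat.mul x4375 (nat_lit 4))) x2917) x4377) x2189)
    (Nat.sub (Nat.add (Nat.add (Nat.add (Nat.add C (Nat.mul x4377 (nat_lit 2))) x2919) x4383) x4375) x2191)
    (Nat.sub (Nat.add (Nat.add (Nat.add (Nat.add C (Nat.mul x4383 (nat_lit 2))) x2925) x4401) x4377) x2197)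
    (Nat.sub (Nat.add (Nat.add (Nat.add (Nat.add C (Nat.mul x4401 (nat_lit 2))) x2943) x4455) x4383) x2215)
    (Nat.sub (Nat.add (Nat.add (Nat.add (Nat.add C (Nat.mul x4455 (nat_lit 2))) x2997) x4617) x4401) x2269)
    (Nat.sub (Nat.add (Nat.add (Nat.add (Nat.add C (Nat.mul x4617 (nat_lit 2))) x3159) x5103) x4455) x2431)
    (Nat.sub (Nat.add (Nat.add (Nat.add C (Nat.mul x5103 (nat_lit 4))) x3645) x4617) x2917)

theorem ap_eq (x : Nat → Nat) (k : FnLL specs) : apLL (fun t => x t.cd) specs k = A8_3.ap x k :=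
  Eq.refl (A8_3.ap x k)

theorem step_eq0 (e : Nat → Nat) (C p r : Nat) (k : FnLL specs) (x : Nat → Nat) :
    A8_3.ap x (step e C p r k) = apLL (interp e C p r x) specs k :=
  Eq.refl (A8_3.ap x (step e C p r k))

theorem spec_ok : specOK 7 true A8_3.mask specs = true := by decide +kernel

theorem step_eq (e : Nat → Nat) (C p r : Nat) (k : A8_3.KK) (x : Nat → Nat) :
    A8_3.ap x (step e C p r k) = A8_3.ap (row 7 true A8_3.mask e C p r x) k :=
  ((step_eq0 e C p r k x).trans (apLL_row 7 true A8_3.mask specs spec_ok e C p r x k)).trans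
    (ap_eq (row 7 true A8_3.mask e C p r x) k)

end Vale.Agent.P348.G8_3_1

namespace Vale.Agent.P348.G8_4_1

noncomputable def sp0 : List Spec :=
  [Spec.mk (nat_lit 8) (nat_lit 4) [nat_lit 14] (nat_lit 0) [nat_lit 2194] true,
   Spec.mk (nat_lit 14) (nat_lit 3) [nat_lit 32, nat_lit 8, nat_lit 20, nat_lit 16] (nat_lit 0) [nat_lit 2200] true,
   Spec.mk (nat_lit 16) (nat_lit 4) [nat_lit 34, nat_lit 22, nat_lit 14] (nat_lit 0) [nat_lit 2202] true,
   Spec.mk (nat_lit 20) (nat_lit 0) [nat_lit 38, nat_lit 14, nat_lit 22] (nat_lit 0) [nat_lit 2206] true,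
   Spec.mk (nat_lit 22) (nat_lit 3) [nat_lit 40, nat_lit 16, nat_lit 20, nat_lit 24] (nat_lit 0) [nat_lit 2208] false,
   Spec.mk (nat_lit 24) (nat_lit 4) [nat_lit 42, nat_lit 22] (nat_lit 0) [] false,
   Spec.mk (nat_lit 32) (nat_lit 2) [nat_lit 86, nat_lit 14, nat_lit 38, nat_lit 34] (nat_lit 0) [nat_lit 2218] true,
   Spec.mk (nat_lit 34) (nat_lit 2) [nat_lit 88, nat_lit 16, nat_lit 40, nat_lit 32] (nat_lit 0) [nat_lit 2220] true,
   Spec.mk (nat_lit 38) (nat_lit 1) [nat_lit 92, nat_lit 20, nat_lit 56, nat_lit 32, nat_lit 40] (nat_lit 0) [nat_lit 2224] true,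
   Spec.mk (nat_lit 40) (nat_lit 3) [nat_lit 94, nat_lit 22, nat_lit 58, nat_lit 34, nat_lit 46, nat_lit 38, nat_lit 42] (nat_lit 0) [nat_lit 2226] true,
   Spec.mk (nat_lit 42) (nat_lit 3) [nat_lit 96, nat_lit 24, nat_lit 60, nat_lit 48, nat_lit 40] (nat_lit 0) [] false,
   Spec.mk (nat_lit 46) (nat_lit 2) [nat_lit 100, nat_lit 64, nat_lit 40, nat_lit 48] (nat_lit 0) [nat_lit 2232] false,
   Spec.mk (nat_lit 48) (nat_lit 4) [nat_lit 102, nat_lit 66, nat_lit 42, nat_lit 46] (nat_lit 0) [] false,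
   Spec.mk (nat_lit 56) (nat_lit 0) [nat_lit 110, nat_lit 38, nat_lit 58] (nat_lit 0) [nat_lit 2242] true,
   Spec.mk (nat_lit 58) (nat_lit 1) [nat_lit 112, nat_lit 40, nat_lit 64, nat_lit 56, nat_lit 60] (nat_lit 0) [nat_lit 2244] false,
   Spec.mk (nat_lit 60) (nat_lit 0) [nat_lit 114, nat_lit 42, nat_lit 66, nat_lit 58] (nat_lit 0) [] false,
   Spec.mk (nat_lit 64) (nat_lit 2) [nat_lit 118, nat_lit 46, nat_lit 58, nat_lit 66] (nat_lit 0) [nat_lit 2250] false,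
   Spec.mk (nat_lit 66) (nat_lit 3) [nat_lit 120, nat_lit 48, nat_lit 60, nat_lit 72, nat_lit 64] (nat_lit 0) [] false,
   Spec.mk (nat_lit 72) (nat_lit 4) [nat_lit 126, nat_lit 66] (nat_lit 0) [] false,
   Spec.mk (nat_lit 86) (nat_lit 2) [nat_lit 248, nat_lit 32, nat_lit 92, nat_lit 88] (nat_lit 0) [nat_lit 2272] true,
   Spec.mk (nat_lit 88) (nat_lit 2) [nat_lit 250, nat_lit 34, nat_lit 94, nat_lit 86] (nat_lit 0) [nat_lit 2274] true,
   Spec.mk (nat_lit 92) (nat_lit 0) [nat_lit 254, nat_lit 38, nat_lit 110, nat_lit 86, nat_lit 94] (nat_lit 0) [nat_lit 2278] true,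
   Spec.mk (nat_lit 94) (nat_lit 2) [nat_lit 256, nat_lit 40, nat_lit 112, nat_lit 88, nat_lit 100, nat_lit 92, nat_lit 96] (nat_lit 0) [nat_lit 2280] true,
   Spec.mk (nat_lit 96) (nat_lit 2) [nat_lit 258, nat_lit 42, nat_lit 114, nat_lit 102, nat_lit 94] (nat_lit 0) [] false,
   Spec.mk (nat_lit 100) (nat_lit 0) [nat_lit 262, nat_lit 46, nat_lit 118, nat_lit 94, nat_lit 102] (nat_lit 0) [nat_lit 2286] true,
   Spec.mk (nat_lit 102) (nat_lit 2) [nat_lit 264, nat_lit 48, nat_lit 120, nat_lit 96, nat_lit 100] (nat_lit 0) [] false,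
   Spec.mk (nat_lit 110) (nat_lit 1) [nat_lit 272, nat_lit 56, nat_lit 164, nat_lit 92, nat_lit 112] (nat_lit 0) [nat_lit 2296] true,
   Spec.mk (nat_lit 112) (nat_lit 2) [nat_lit 274, nat_lit 58, nat_lit 166, nat_lit 94, nat_lit 118, nat_lit 110, nat_lit 114] (nat_lit 0) [nat_lit 2298] true,
   Spec.mk (nat_lit 114) (nat_lit 1) [nat_lit 276, nat_lit 60, nat_lit 168, nat_lit 96, nat_lit 120, nat_lit 112] (nat_lit 0) [] false,
   Spec.mk (nat_lit 118) (nat_lit 2) [nat_lit 280, nat_lit 64, nat_lit 172, nat_lit 100, nat_lit 136, nat_lit 112, nat_lit 120] (nat_lit 0) [nat_lit 2304] false,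
   Spec.mk (nat_lit 120) (nat_lit 3) [nat_lit 282, nat_lit 66, nat_lit 174, nat_lit 102, nat_lit 138, nat_lit 114, nat_lit 126, nat_lit 118] (nat_lit 0) [] false,
   Spec.mk (nat_lit 126) (nat_lit 3) [nat_lit 288, nat_lit 72, nat_lit 180, nat_lit 144, nat_lit 120] (nat_lit 0) [] false,
   Spec.mk (nat_lit 136) (nat_lit 2) [nat_lit 298, nat_lit 190, nat_lit 118, nat_lit 138] (nat_lit 0) [nat_lit 2322] false,
   Spec.mk (nat_lit 138) (nat_lit 2) [nat_lit 300, nat_lit 192, nat_lit 120, nat_lit 144, nat_lit 136] (nat_lit 0) [] false,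
   Spec.mk (nat_lit 144) (nat_lit 4) [nat_lit 306, nat_lit 198, nat_lit 126, nat_lit 138] (nat_lit 0) [] false,
   Spec.mk (nat_lit 164) (nat_lit 0) [nat_lit 326, nat_lit 110, nat_lit 166] (nat_lit 0) [nat_lit 2350] true,
   Spec.mk (nat_lit 166) (nat_lit 1) [nat_lit 328, nat_lit 112, nat_lit 172, nat_lit 164, nat_lit 168] (nat_lit 0) [nat_lit 2352] false,
   Spec.mk (nat_lit 168) (nat_lit 0) [nat_lit 330, nat_lit 114, nat_lit 174, nat_lit 166] (nat_lit 0) [] false,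
   Spec.mk (nat_lit 172) (nat_lit 0) [nat_lit 334, nat_lit 118, nat_lit 190, nat_lit 166, nat_lit 174] (nat_lit 0) [nat_lit 2358] false,
   Spec.mk (nat_lit 174) (nat_lit 1) [nat_lit 336, nat_lit 120, nat_lit 192, nat_lit 168, nat_lit 180, nat_lit 172] (nat_lit 0) [] false,
   Spec.mk (nat_lit 180) (nat_lit 0) [nat_lit 342, nat_lit 126, nat_lit 198, nat_lit 174] (nat_lit 0) [] false,
   Spec.mk (nat_lit 190) (nat_lit 2) [nat_lit 352, nat_lit 136, nat_lit 172, nat_lit 192] (nat_lit 0) [nat_lit 2376] false,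
   Spec.mk (nat_lit 192) (nat_lit 2) [nat_lit 354, nat_lit 138, nat_lit 174, nat_lit 198, nat_lit 190] (nat_lit 0) [] false,
   Spec.mk (nat_lit 198) (nat_lit 3) [nat_lit 360, nat_lit 144, nat_lit 180, nat_lit 216, nat_lit 192] (nat_lit 0) [] false,
   Spec.mk (nat_lit 216) (nat_lit 4) [nat_lit 378, nat_lit 198] (nat_lit 0) [] false,
   Spec.mk (nat_lit 248) (nat_lit 2) [nat_lit 734, nat_lit 86, nat_lit 254, nat_lit 250] (nat_lit 0) [nat_lit 2434] false,
   Spec.mk (nat_lit 250) (nat_lit 2) [nat_lit 736, nat_lit 88, nat_lit 256, nat_lit 248] (nat_lit 0) [nat_lit 2436] false,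
   Spec.mk (nat_lit 254) (nat_lit 0) [nat_lit 740, nat_lit 92, nat_lit 272, nat_lit 248, nat_lit 256] (nat_lit 0) [nat_lit 2440] true,
   Spec.mk (nat_lit 256) (nat_lit 2) [nat_lit 742, nat_lit 94, nat_lit 274, nat_lit 250, nat_lit 262, nat_lit 254, nat_lit 258] (nat_lit 0) [nat_lit 2442] true,
   Spec.mk (nat_lit 258) (nat_lit 2) [nat_lit 744, nat_lit 96, nat_lit 276, nat_lit 264, nat_lit 256] (nat_lit 0) [] false,
   Spec.mk (nat_lit 262) (nat_lit 0) [nat_lit 748, nat_lit 100, nat_lit 280, nat_lit 256, nat_lit 264] (nat_lit 0) [nat_lit 2448] false,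
   Spec.mk (nat_lit 264) (nat_lit 2) [nat_lit 750, nat_lit 102, nat_lit 282, nat_lit 258, nat_lit 262] (nat_lit 0) [] false,
   Spec.mk (nat_lit 272) (nat_lit 0) [nat_lit 758, nat_lit 110, nat_lit 326, nat_lit 254, nat_lit 274] (nat_lit 0) [nat_lit 2458] true,
   Spec.mk (nat_lit 274) (nat_lit 1) [nat_lit 760, nat_lit 112, nat_lit 328, nat_lit 256, nat_lit 280, nat_lit 272, nat_lit 276] (nat_lit 0) [nat_lit 2460] true,
   Spec.mk (nat_lit 276) (nat_lit 0) [nat_lit 762, nat_lit 114, nat_lit 330, nat_lit 258, nat_lit 282, nat_lit 274] (nat_lit 0) [] false,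
   Spec.mk (nat_lit 280) (nat_lit 1) [nat_lit 766, nat_lit 118, nat_lit 334, nat_lit 262, nat_lit 298, nat_lit 274, nat_lit 282] (nat_lit 0) [nat_lit 2466] true,
   Spec.mk (nat_lit 282) (nat_lit 2) [nat_lit 768, nat_lit 120, nat_lit 336, nat_lit 264, nat_lit 300, nat_lit 276, nat_lit 288, nat_lit 280] (nat_lit 0) [] false,
   Spec.mk (nat_lit 288) (nat_lit 2) [nat_lit 774, nat_lit 126, nat_lit 342, nat_lit 306, nat_lit 282] (nat_lit 0) [] false,
   Spec.mk (nat_lit 298) (nat_lit 0) [nat_lit 784, nat_lit 136, nat_lit 352, nat_lit 280, nat_lit 300] (nat_lit 0) [nat_lit 2484] false,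
   Spec.mk (nat_lit 300) (nat_lit 0) [nat_lit 786, nat_lit 138, nat_lit 354, nat_lit 282, nat_lit 306, nat_lit 298] (nat_lit 0) [] false]

noncomputable def sp1 : List Spec :=
  [Spec.mk (nat_lit 306) (nat_lit 2) [nat_lit 792, nat_lit 144, nat_lit 360, nat_lit 288, nat_lit 300] (nat_lit 0) [] false,
   Spec.mk (nat_lit 326) (nat_lit 1) [nat_lit 812, nat_lit 164, nat_lit 488, nat_lit 272, nat_lit 328] (nat_lit 0) [nat_lit 2512] false,
   Spec.mk (nat_lit 328) (nat_lit 2) [nat_lit 814, nat_lit 166, nat_lit 490, nat_lit 274, nat_lit 334, nat_lit 326, nat_lit 330] (nat_lit 0) [nat_lit 2514] true,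
   Spec.mk (nat_lit 330) (nat_lit 1) [nat_lit 816, nat_lit 168, nat_lit 492, nat_lit 276, nat_lit 336, nat_lit 328] (nat_lit 0) [] false,
   Spec.mk (nat_lit 334) (nat_lit 1) [nat_lit 820, nat_lit 172, nat_lit 496, nat_lit 280, nat_lit 352, nat_lit 328, nat_lit 336] (nat_lit 0) [nat_lit 2520] false,
   Spec.mk (nat_lit 336) (nat_lit 2) [nat_lit 822, nat_lit 174, nat_lit 498, nat_lit 282, nat_lit 354, nat_lit 330, nat_lit 342, nat_lit 334] (nat_lit 0) [] false,
   Spec.mk (nat_lit 342) (nat_lit 1) [nat_lit 828, nat_lit 180, nat_lit 504, nat_lit 288, nat_lit 360, nat_lit 336] (nat_lit 0) [] false,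
   Spec.mk (nat_lit 352) (nat_lit 2) [nat_lit 838, nat_lit 190, nat_lit 514, nat_lit 298, nat_lit 406, nat_lit 334, nat_lit 354] (nat_lit 0) [nat_lit 2538] false,
   Spec.mk (nat_lit 354) (nat_lit 2) [nat_lit 840, nat_lit 192, nat_lit 516, nat_lit 300, nat_lit 408, nat_lit 336, nat_lit 360, nat_lit 352] (nat_lit 0) [] false,
   Spec.mk (nat_lit 360) (nat_lit 3) [nat_lit 846, nat_lit 198, nat_lit 522, nat_lit 306, nat_lit 414, nat_lit 342, nat_lit 378, nat_lit 354] (nat_lit 0) [] false,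
   Spec.mk (nat_lit 378) (nat_lit 3) [nat_lit 864, nat_lit 216, nat_lit 540, nat_lit 432, nat_lit 360] (nat_lit 0) [] false,
   Spec.mk (nat_lit 406) (nat_lit 2) [nat_lit 892, nat_lit 568, nat_lit 352, nat_lit 408] (nat_lit 0) [nat_lit 2592] false,
   Spec.mk (nat_lit 408) (nat_lit 2) [nat_lit 894, nat_lit 570, nat_lit 354, nat_lit 414, nat_lit 406] (nat_lit 0) [] false,
   Spec.mk (nat_lit 414) (nat_lit 2) [nat_lit 900, nat_lit 576, nat_lit 360, nat_lit 432, nat_lit 408] (nat_lit 0) [] false,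
   Spec.mk (nat_lit 432) (nat_lit 4) [nat_lit 918, nat_lit 594, nat_lit 378, nat_lit 414] (nat_lit 0) [] false,
   Spec.mk (nat_lit 488) (nat_lit 0) [nat_lit 974, nat_lit 326, nat_lit 490] (nat_lit 0) [nat_lit 2674] false,
   Spec.mk (nat_lit 490) (nat_lit 1) [nat_lit 976, nat_lit 328, nat_lit 496, nat_lit 488, nat_lit 492] (nat_lit 0) [nat_lit 2676] false,
   Spec.mk (nat_lit 492) (nat_lit 0) [nat_lit 978, nat_lit 330, nat_lit 498, nat_lit 490] (nat_lit 0) [] false,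
   Spec.mk (nat_lit 496) (nat_lit 0) [nat_lit 982, nat_lit 334, nat_lit 514, nat_lit 490, nat_lit 498] (nat_lit 0) [nat_lit 2682] false,
   Spec.mk (nat_lit 498) (nat_lit 1) [nat_lit 984, nat_lit 336, nat_lit 516, nat_lit 492, nat_lit 504, nat_lit 496] (nat_lit 0) [] false,
   Spec.mk (nat_lit 504) (nat_lit 0) [nat_lit 990, nat_lit 342, nat_lit 522, nat_lit 498] (nat_lit 0) [] false,
   Spec.mk (nat_lit 514) (nat_lit 0) [nat_lit 1000, nat_lit 352, nat_lit 568, nat_lit 496, nat_lit 516] (nat_lit 0) [nat_lit 2700] false,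
   Spec.mk (nat_lit 516) (nat_lit 0) [nat_lit 1002, nat_lit 354, nat_lit 570, nat_lit 498, nat_lit 522, nat_lit 514] (nat_lit 0) [] false,
   Spec.mk (nat_lit 522) (nat_lit 1) [nat_lit 1008, nat_lit 360, nat_lit 576, nat_lit 504, nat_lit 540, nat_lit 516] (nat_lit 0) [] false,
   Spec.mk (nat_lit 540) (nat_lit 0) [nat_lit 1026, nat_lit 378, nat_lit 594, nat_lit 522] (nat_lit 0) [] false,
   Spec.mk (nat_lit 568) (nat_lit 2) [nat_lit 1054, nat_lit 406, nat_lit 514, nat_lit 570] (nat_lit 0) [nat_lit 2754] false,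
   Spec.mk (nat_lit 570) (nat_lit 2) [nat_lit 1056, nat_lit 408, nat_lit 516, nat_lit 576, nat_lit 568] (nat_lit 0) [] false,
   Spec.mk (nat_lit 576) (nat_lit 2) [nat_lit 1062, nat_lit 414, nat_lit 522, nat_lit 594, nat_lit 570] (nat_lit 0) [] false,
   Spec.mk (nat_lit 594) (nat_lit 3) [nat_lit 1080, nat_lit 432, nat_lit 540, nat_lit 648, nat_lit 576] (nat_lit 0) [] false,
   Spec.mk (nat_lit 648) (nat_lit 4) [nat_lit 1134, nat_lit 594] (nat_lit 0) [] false,
   Spec.mk (nat_lit 734) (nat_lit 2) [nat_lit 2192, nat_lit 248, nat_lit 740, nat_lit 736] (nat_lit 0) [nat_lit 2920] false,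
   Spec.mk (nat_lit 736) (nat_lit 2) [nat_lit 2194, nat_lit 250, nat_lit 742, nat_lit 734] (nat_lit 0) [nat_lit 2922] false,
   Spec.mk (nat_lit 740) (nat_lit 0) [nat_lit 2198, nat_lit 254, nat_lit 758, nat_lit 734, nat_lit 742] (nat_lit 0) [nat_lit 2926] false,
   Spec.mk (nat_lit 742) (nat_lit 2) [nat_lit 2200, nat_lit 256, nat_lit 760, nat_lit 736, nat_lit 748, nat_lit 740, nat_lit 744] (nat_lit 0) [nat_lit 2928] false,
   Spec.mk (nat_lit 744) (nat_lit 2) [nat_lit 2202, nat_lit 258, nat_lit 762, nat_lit 750, nat_lit 742] (nat_lit 0) [] false,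
   Spec.mk (nat_lit 748) (nat_lit 0) [nat_lit 2206, nat_lit 262, nat_lit 766, nat_lit 742, nat_lit 750] (nat_lit 0) [nat_lit 2934] false,
   Spec.mk (nat_lit 750) (nat_lit 2) [nat_lit 2208, nat_lit 264, nat_lit 768, nat_lit 744, nat_lit 748] (nat_lit 0) [] false,
   Spec.mk (nat_lit 758) (nat_lit 0) [nat_lit 2216, nat_lit 272, nat_lit 812, nat_lit 740, nat_lit 760] (nat_lit 0) [nat_lit 2944] false,
   Spec.mk (nat_lit 760) (nat_lit 1) [nat_lit 2218, nat_lit 274, nat_lit 814, nat_lit 742, nat_lit 766, nat_lit 758, nat_lit 762] (nat_lit 0) [nat_lit 2946] false,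
   Spec.mk (nat_lit 762) (nat_lit 0) [nat_lit 2220, nat_lit 276, nat_lit 816, nat_lit 744, nat_lit 768, nat_lit 760] (nat_lit 0) [] false,
   Spec.mk (nat_lit 766) (nat_lit 1) [nat_lit 2224, nat_lit 280, nat_lit 820, nat_lit 748, nat_lit 784, nat_lit 760, nat_lit 768] (nat_lit 0) [nat_lit 2952] false,
   Spec.mk (nat_lit 768) (nat_lit 2) [nat_lit 2226, nat_lit 282, nat_lit 822, nat_lit 750, nat_lit 786, nat_lit 762, nat_lit 774, nat_lit 766] (nat_lit 0) [] false,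
   Spec.mk (nat_lit 774) (nat_lit 2) [nat_lit 2232, nat_lit 288, nat_lit 828, nat_lit 792, nat_lit 768] (nat_lit 0) [] false,
   Spec.mk (nat_lit 784) (nat_lit 0) [nat_lit 2242, nat_lit 298, nat_lit 838, nat_lit 766, nat_lit 786] (nat_lit 0) [nat_lit 2970] false,
   Spec.mk (nat_lit 786) (nat_lit 0) [nat_lit 2244, nat_lit 300, nat_lit 840, nat_lit 768, nat_lit 792, nat_lit 784] (nat_lit 0) [] false,
   Spec.mk (nat_lit 792) (nat_lit 2) [nat_lit 2250, nat_lit 306, nat_lit 846, nat_lit 774, nat_lit 786] (nat_lit 0) [] false,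
   Spec.mk (nat_lit 812) (nat_lit 0) [nat_lit 2270, nat_lit 326, nat_lit 974, nat_lit 758, nat_lit 814] (nat_lit 0) [nat_lit 2998] false,
   Spec.mk (nat_lit 814) (nat_lit 1) [nat_lit 2272, nat_lit 328, nat_lit 976, nat_lit 760, nat_lit 820, nat_lit 812, nat_lit 816] (nat_lit 0) [nat_lit 3000] false,
   Spec.mk (nat_lit 816) (nat_lit 0) [nat_lit 2274, nat_lit 330, nat_lit 978, nat_lit 762, nat_lit 822, nat_lit 814] (nat_lit 0) [] false,
   Spec.mk (nat_lit 820) (nat_lit 0) [nat_lit 2278, nat_lit 334, nat_lit 982, nat_lit 766, nat_lit 838, nat_lit 814, nat_lit 822] (nat_lit 0) [nat_lit 3006] true,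
   Spec.mk (nat_lit 822) (nat_lit 1) [nat_lit 2280, nat_lit 336, nat_lit 984, nat_lit 768, nat_lit 840, nat_lit 816, nat_lit 828, nat_lit 820] (nat_lit 0) [] false,
   Spec.mk (nat_lit 828) (nat_lit 0) [nat_lit 2286, nat_lit 342, nat_lit 990, nat_lit 774, nat_lit 846, nat_lit 822] (nat_lit 0) [] false,
   Spec.mk (nat_lit 838) (nat_lit 1) [nat_lit 2296, nat_lit 352, nat_lit 1000, nat_lit 784, nat_lit 892, nat_lit 820, nat_lit 840] (nat_lit 0) [nat_lit 3024] false,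
   Spec.mk (nat_lit 840) (nat_lit 1) [nat_lit 2298, nat_lit 354, nat_lit 1002, nat_lit 786, nat_lit 894, nat_lit 822, nat_lit 846, nat_lit 838] (nat_lit 0) [] false,
   Spec.mk (nat_lit 846) (nat_lit 2) [nat_lit 2304, nat_lit 360, nat_lit 1008, nat_lit 792, nat_lit 900, nat_lit 828, nat_lit 864, nat_lit 840] (nat_lit 0) [] false,
   Spec.mk (nat_lit 864) (nat_lit 2) [nat_lit 2322, nat_lit 378, nat_lit 1026, nat_lit 918, nat_lit 846] (nat_lit 0) [] false,
   Spec.mk (nat_lit 892) (nat_lit 0) [nat_lit 2350, nat_lit 406, nat_lit 1054, nat_lit 838, nat_lit 894] (nat_lit 0) [nat_lit 3078] false,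
   Spec.mk (nat_lit 894) (nat_lit 0) [nat_lit 2352, nat_lit 408, nat_lit 1056, nat_lit 840, nat_lit 900, nat_lit 892] (nat_lit 0) [] false,
   Spec.mk (nat_lit 900) (nat_lit 0) [nat_lit 2358, nat_lit 414, nat_lit 1062, nat_lit 846, nat_lit 918, nat_lit 894] (nat_lit 0) [] false,
   Spec.mk (nat_lit 918) (nat_lit 2) [nat_lit 2376, nat_lit 432, nat_lit 1080, nat_lit 864, nat_lit 900] (nat_lit 0) [] false]

noncomputable def sp2 : List Spec :=
  [Spec.mk (nat_lit 974) (nat_lit 1) [nat_lit 2432, nat_lit 488, nat_lit 1460, nat_lit 812, nat_lit 976] (nat_lit 0) [nat_lit 3160] false,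
   Spec.mk (nat_lit 976) (nat_lit 2) [nat_lit 2434, nat_lit 490, nat_lit 1462, nat_lit 814, nat_lit 982, nat_lit 974, nat_lit 978] (nat_lit 0) [nat_lit 3162] false,
   Spec.mk (nat_lit 978) (nat_lit 1) [nat_lit 2436, nat_lit 492, nat_lit 1464, nat_lit 816, nat_lit 984, nat_lit 976] (nat_lit 0) [] false,
   Spec.mk (nat_lit 982) (nat_lit 1) [nat_lit 2440, nat_lit 496, nat_lit 1468, nat_lit 820, nat_lit 1000, nat_lit 976, nat_lit 984] (nat_lit 0) [nat_lit 3168] false,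
   Spec.mk (nat_lit 984) (nat_lit 2) [nat_lit 2442, nat_lit 498, nat_lit 1470, nat_lit 822, nat_lit 1002, nat_lit 978, nat_lit 990, nat_lit 982] (nat_lit 0) [] false,
   Spec.mk (nat_lit 990) (nat_lit 1) [nat_lit 2448, nat_lit 504, nat_lit 1476, nat_lit 828, nat_lit 1008, nat_lit 984] (nat_lit 0) [] false,
   Spec.mk (nat_lit 1000) (nat_lit 1) [nat_lit 2458, nat_lit 514, nat_lit 1486, nat_lit 838, nat_lit 1054, nat_lit 982, nat_lit 1002] (nat_lit 0) [nat_lit 3186] false,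
   Spec.mk (nat_lit 1002) (nat_lit 1) [nat_lit 2460, nat_lit 516, nat_lit 1488, nat_lit 840, nat_lit 1056, nat_lit 984, nat_lit 1008, nat_lit 1000] (nat_lit 0) [] false,
   Spec.mk (nat_lit 1008) (nat_lit 2) [nat_lit 2466, nat_lit 522, nat_lit 1494, nat_lit 846, nat_lit 1062, nat_lit 990, nat_lit 1026, nat_lit 1002] (nat_lit 0) [] false,
   Spec.mk (nat_lit 1026) (nat_lit 1) [nat_lit 2484, nat_lit 540, nat_lit 1512, nat_lit 864, nat_lit 1080, nat_lit 1008] (nat_lit 0) [] false,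
   Spec.mk (nat_lit 1054) (nat_lit 2) [nat_lit 2512, nat_lit 568, nat_lit 1540, nat_lit 892, nat_lit 1216, nat_lit 1000, nat_lit 1056] (nat_lit 0) [nat_lit 3240] false,
   Spec.mk (nat_lit 1056) (nat_lit 2) [nat_lit 2514, nat_lit 570, nat_lit 1542, nat_lit 894, nat_lit 1218, nat_lit 1002, nat_lit 1062, nat_lit 1054] (nat_lit 0) [] false,
   Spec.mk (nat_lit 1062) (nat_lit 2) [nat_lit 2520, nat_lit 576, nat_lit 1548, nat_lit 900, nat_lit 1224, nat_lit 1008, nat_lit 1080, nat_lit 1056] (nat_lit 0) [] false,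
   Spec.mk (nat_lit 1080) (nat_lit 3) [nat_lit 2538, nat_lit 594, nat_lit 1566, nat_lit 918, nat_lit 1242, nat_lit 1026, nat_lit 1134, nat_lit 1062] (nat_lit 0) [] false,
   Spec.mk (nat_lit 1134) (nat_lit 3) [nat_lit 2592, nat_lit 648, nat_lit 1620, nat_lit 1296, nat_lit 1080] (nat_lit 0) [] false,
   Spec.mk (nat_lit 1216) (nat_lit 2) [nat_lit 2674, nat_lit 1702, nat_lit 1054, nat_lit 1218] (nat_lit 0) [nat_lit 3402] false,
   Spec.mk (nat_lit 1218) (nat_lit 2) [nat_lit 2676, nat_lit 1704, nat_lit 1056, nat_lit 1224, nat_lit 1216] (nat_lit 0) [] false,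
   Spec.mk (nat_lit 1224) (nat_lit 2) [nat_lit 2682, nat_lit 1710, nat_lit 1062, nat_lit 1242, nat_lit 1218] (nat_lit 0) [] false,
   Spec.mk (nat_lit 1242) (nat_lit 2) [nat_lit 2700, nat_lit 1728, nat_lit 1080, nat_lit 1296, nat_lit 1224] (nat_lit 0) [] false,
   Spec.mk (nat_lit 1296) (nat_lit 4) [nat_lit 2754, nat_lit 1782, nat_lit 1134, nat_lit 1242] (nat_lit 0) [] false,
   Spec.mk (nat_lit 1460) (nat_lit 0) [nat_lit 2918, nat_lit 974, nat_lit 1462] (nat_lit 0) [nat_lit 3646] false,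
   Spec.mk (nat_lit 1462) (nat_lit 1) [nat_lit 2920, nat_lit 976, nat_lit 1468, nat_lit 1460, nat_lit 1464] (nat_lit 0) [nat_lit 3648] false,
   Spec.mk (nat_lit 1464) (nat_lit 0) [nat_lit 2922, nat_lit 978, nat_lit 1470, nat_lit 1462] (nat_lit 0) [] false,
   Spec.mk (nat_lit 1468) (nat_lit 0) [nat_lit 2926, nat_lit 982, nat_lit 1486, nat_lit 1462, nat_lit 1470] (nat_lit 0) [nat_lit 3654] false,
   Spec.mk (nat_lit 1470) (nat_lit 1) [nat_lit 2928, nat_lit 984, nat_lit 1488, nat_lit 1464, nat_lit 1476, nat_lit 1468] (nat_lit 0) [] false,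
   Spec.mk (nat_lit 1476) (nat_lit 0) [nat_lit 2934, nat_lit 990, nat_lit 1494, nat_lit 1470] (nat_lit 0) [] false,
   Spec.mk (nat_lit 1486) (nat_lit 0) [nat_lit 2944, nat_lit 1000, nat_lit 1540, nat_lit 1468, nat_lit 1488] (nat_lit 0) [nat_lit 3672] false,
   Spec.mk (nat_lit 1488) (nat_lit 0) [nat_lit 2946, nat_lit 1002, nat_lit 1542, nat_lit 1470, nat_lit 1494, nat_lit 1486] (nat_lit 0) [] false,
   Spec.mk (nat_lit 1494) (nat_lit 1) [nat_lit 2952, nat_lit 1008, nat_lit 1548, nat_lit 1476, nat_lit 1512, nat_lit 1488] (nat_lit 0) [] false,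
   Spec.mk (nat_lit 1512) (nat_lit 0) [nat_lit 2970, nat_lit 1026, nat_lit 1566, nat_lit 1494] (nat_lit 0) [] false,
   Spec.mk (nat_lit 1540) (nat_lit 0) [nat_lit 2998, nat_lit 1054, nat_lit 1702, nat_lit 1486, nat_lit 1542] (nat_lit 0) [nat_lit 3726] false,
   Spec.mk (nat_lit 1542) (nat_lit 0) [nat_lit 3000, nat_lit 1056, nat_lit 1704, nat_lit 1488, nat_lit 1548, nat_lit 1540] (nat_lit 0) [] false,
   Spec.mk (nat_lit 1548) (nat_lit 0) [nat_lit 3006, nat_lit 1062, nat_lit 1710, nat_lit 1494, nat_lit 1566, nat_lit 1542] (nat_lit 0) [] false,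
   Spec.mk (nat_lit 1566) (nat_lit 1) [nat_lit 3024, nat_lit 1080, nat_lit 1728, nat_lit 1512, nat_lit 1620, nat_lit 1548] (nat_lit 0) [] false,
   Spec.mk (nat_lit 1620) (nat_lit 0) [nat_lit 3078, nat_lit 1134, nat_lit 1782, nat_lit 1566] (nat_lit 0) [] false,
   Spec.mk (nat_lit 1702) (nat_lit 2) [nat_lit 3160, nat_lit 1216, nat_lit 1540, nat_lit 1704] (nat_lit 0) [nat_lit 3888] false,
   Spec.mk (nat_lit 1704) (nat_lit 2) [nat_lit 3162, nat_lit 1218, nat_lit 1542, nat_lit 1710, nat_lit 1702] (nat_lit 0) [] false,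
   Spec.mk (nat_lit 1710) (nat_lit 2) [nat_lit 3168, nat_lit 1224, nat_lit 1548, nat_lit 1728, nat_lit 1704] (nat_lit 0) [] false,
   Spec.mk (nat_lit 1728) (nat_lit 2) [nat_lit 3186, nat_lit 1242, nat_lit 1566, nat_lit 1782, nat_lit 1710] (nat_lit 0) [] false,
   Spec.mk (nat_lit 1782) (nat_lit 3) [nat_lit 3240, nat_lit 1296, nat_lit 1620, nat_lit 1944, nat_lit 1728] (nat_lit 0) [] false,
   Spec.mk (nat_lit 1944) (nat_lit 4) [nat_lit 3402, nat_lit 1782] (nat_lit 0) [] false,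
   Spec.mk (nat_lit 2192) (nat_lit 4) [nat_lit 734, nat_lit 2198, nat_lit 2194] (nat_lit 0) [nat_lit 4378] false,
   Spec.mk (nat_lit 2194) (nat_lit 3) [nat_lit 736, nat_lit 2200, nat_lit 2192] (nat_lit 0) [nat_lit 4380, nat_lit 8] false,
   Spec.mk (nat_lit 2198) (nat_lit 2) [nat_lit 740, nat_lit 2216, nat_lit 2192, nat_lit 2200] (nat_lit 0) [nat_lit 4384] false,
   Spec.mk (nat_lit 2200) (nat_lit 3) [nat_lit 742, nat_lit 2218, nat_lit 2194, nat_lit 2206, nat_lit 2198, nat_lit 2202] (nat_lit 0) [nat_lit 4386, nat_lit 14] false,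
   Spec.mk (nat_lit 2202) (nat_lit 2) [nat_lit 744, nat_lit 2220, nat_lit 2208, nat_lit 2200] (nat_lit 0) [nat_lit 16] false,
   Spec.mk (nat_lit 2206) (nat_lit 1) [nat_lit 748, nat_lit 2224, nat_lit 2200, nat_lit 2208] (nat_lit 0) [nat_lit 4392, nat_lit 20] false,
   Spec.mk (nat_lit 2208) (nat_lit 2) [nat_lit 750, nat_lit 2226, nat_lit 2202, nat_lit 2206] (nat_lit 0) [nat_lit 22] false,
   Spec.mk (nat_lit 2216) (nat_lit 2) [nat_lit 758, nat_lit 2270, nat_lit 2198, nat_lit 2218] (nat_lit 0) [nat_lit 4402] false,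
   Spec.mk (nat_lit 2218) (nat_lit 2) [nat_lit 760, nat_lit 2272, nat_lit 2200, nat_lit 2224, nat_lit 2216, nat_lit 2220] (nat_lit 0) [nat_lit 4404, nat_lit 32] false,
   Spec.mk (nat_lit 2220) (nat_lit 0) [nat_lit 762, nat_lit 2274, nat_lit 2202, nat_lit 2226, nat_lit 2218] (nat_lit 0) [nat_lit 34] false,
   Spec.mk (nat_lit 2224) (nat_lit 2) [nat_lit 766, nat_lit 2278, nat_lit 2206, nat_lit 2242, nat_lit 2218, nat_lit 2226] (nat_lit 0) [nat_lit 4410, nat_lit 38] false,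
   Spec.mk (nat_lit 2226) (nat_lit 2) [nat_lit 768, nat_lit 2280, nat_lit 2208, nat_lit 2244, nat_lit 2220, nat_lit 2232, nat_lit 2224] (nat_lit 0) [nat_lit 40] false,
   Spec.mk (nat_lit 2232) (nat_lit 2) [nat_lit 774, nat_lit 2286, nat_lit 2250, nat_lit 2226] (nat_lit 0) [nat_lit 46] false,
   Spec.mk (nat_lit 2242) (nat_lit 1) [nat_lit 784, nat_lit 2296, nat_lit 2224, nat_lit 2244] (nat_lit 0) [nat_lit 4428, nat_lit 56] false,
   Spec.mk (nat_lit 2244) (nat_lit 0) [nat_lit 786, nat_lit 2298, nat_lit 2226, nat_lit 2250, nat_lit 2242] (nat_lit 0) [nat_lit 58] false,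
   Spec.mk (nat_lit 2250) (nat_lit 2) [nat_lit 792, nat_lit 2304, nat_lit 2232, nat_lit 2244] (nat_lit 0) [nat_lit 64] false,
   Spec.mk (nat_lit 2270) (nat_lit 2) [nat_lit 812, nat_lit 2432, nat_lit 2216, nat_lit 2272] (nat_lit 0) [nat_lit 4456] false,
   Spec.mk (nat_lit 2272) (nat_lit 2) [nat_lit 814, nat_lit 2434, nat_lit 2218, nat_lit 2278, nat_lit 2270, nat_lit 2274] (nat_lit 0) [nat_lit 4458, nat_lit 86] false,
   Spec.mk (nat_lit 2274) (nat_lit 0) [nat_lit 816, nat_lit 2436, nat_lit 2220, nat_lit 2280, nat_lit 2272] (nat_lit 0) [nat_lit 88] false]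

noncomputable def sp3 : List Spec :=
  [Spec.mk (nat_lit 2278) (nat_lit 1) [nat_lit 820, nat_lit 2440, nat_lit 2224, nat_lit 2296, nat_lit 2272, nat_lit 2280] (nat_lit 0) [nat_lit 4464, nat_lit 92] false,
   Spec.mk (nat_lit 2280) (nat_lit 1) [nat_lit 822, nat_lit 2442, nat_lit 2226, nat_lit 2298, nat_lit 2274, nat_lit 2286, nat_lit 2278] (nat_lit 0) [nat_lit 94] false,
   Spec.mk (nat_lit 2286) (nat_lit 0) [nat_lit 828, nat_lit 2448, nat_lit 2232, nat_lit 2304, nat_lit 2280] (nat_lit 0) [nat_lit 100] false,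
   Spec.mk (nat_lit 2296) (nat_lit 2) [nat_lit 838, nat_lit 2458, nat_lit 2242, nat_lit 2350, nat_lit 2278, nat_lit 2298] (nat_lit 0) [nat_lit 4482, nat_lit 110] false,
   Spec.mk (nat_lit 2298) (nat_lit 1) [nat_lit 840, nat_lit 2460, nat_lit 2244, nat_lit 2352, nat_lit 2280, nat_lit 2304, nat_lit 2296] (nat_lit 0) [nat_lit 112] false,
   Spec.mk (nat_lit 2304) (nat_lit 2) [nat_lit 846, nat_lit 2466, nat_lit 2250, nat_lit 2358, nat_lit 2286, nat_lit 2322, nat_lit 2298] (nat_lit 0) [nat_lit 118] false,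
   Spec.mk (nat_lit 2322) (nat_lit 2) [nat_lit 864, nat_lit 2484, nat_lit 2376, nat_lit 2304] (nat_lit 0) [nat_lit 136] false,
   Spec.mk (nat_lit 2350) (nat_lit 1) [nat_lit 892, nat_lit 2512, nat_lit 2296, nat_lit 2352] (nat_lit 0) [nat_lit 4536, nat_lit 164] false,
   Spec.mk (nat_lit 2352) (nat_lit 0) [nat_lit 894, nat_lit 2514, nat_lit 2298, nat_lit 2358, nat_lit 2350] (nat_lit 0) [nat_lit 166] false,
   Spec.mk (nat_lit 2358) (nat_lit 0) [nat_lit 900, nat_lit 2520, nat_lit 2304, nat_lit 2376, nat_lit 2352] (nat_lit 0) [nat_lit 172] false,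
   Spec.mk (nat_lit 2376) (nat_lit 2) [nat_lit 918, nat_lit 2538, nat_lit 2322, nat_lit 2358] (nat_lit 0) [nat_lit 190] false,
   Spec.mk (nat_lit 2432) (nat_lit 2) [nat_lit 974, nat_lit 2918, nat_lit 2270, nat_lit 2434] (nat_lit 0) [nat_lit 4618] false,
   Spec.mk (nat_lit 2434) (nat_lit 2) [nat_lit 976, nat_lit 2920, nat_lit 2272, nat_lit 2440, nat_lit 2432, nat_lit 2436] (nat_lit 0) [nat_lit 4620, nat_lit 248] false,
   Spec.mk (nat_lit 2436) (nat_lit 0) [nat_lit 978, nat_lit 2922, nat_lit 2274, nat_lit 2442, nat_lit 2434] (nat_lit 0) [nat_lit 250] false,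
   Spec.mk (nat_lit 2440) (nat_lit 1) [nat_lit 982, nat_lit 2926, nat_lit 2278, nat_lit 2458, nat_lit 2434, nat_lit 2442] (nat_lit 0) [nat_lit 4626, nat_lit 254] false,
   Spec.mk (nat_lit 2442) (nat_lit 1) [nat_lit 984, nat_lit 2928, nat_lit 2280, nat_lit 2460, nat_lit 2436, nat_lit 2448, nat_lit 2440] (nat_lit 0) [nat_lit 256] false,
   Spec.mk (nat_lit 2448) (nat_lit 0) [nat_lit 990, nat_lit 2934, nat_lit 2286, nat_lit 2466, nat_lit 2442] (nat_lit 0) [nat_lit 262] false,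
   Spec.mk (nat_lit 2458) (nat_lit 1) [nat_lit 1000, nat_lit 2944, nat_lit 2296, nat_lit 2512, nat_lit 2440, nat_lit 2460] (nat_lit 0) [nat_lit 4644, nat_lit 272] false,
   Spec.mk (nat_lit 2460) (nat_lit 0) [nat_lit 1002, nat_lit 2946, nat_lit 2298, nat_lit 2514, nat_lit 2442, nat_lit 2466, nat_lit 2458] (nat_lit 0) [nat_lit 274] false,
   Spec.mk (nat_lit 2466) (nat_lit 1) [nat_lit 1008, nat_lit 2952, nat_lit 2304, nat_lit 2520, nat_lit 2448, nat_lit 2484, nat_lit 2460] (nat_lit 0) [nat_lit 280] false,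
   Spec.mk (nat_lit 2484) (nat_lit 0) [nat_lit 1026, nat_lit 2970, nat_lit 2322, nat_lit 2538, nat_lit 2466] (nat_lit 0) [nat_lit 298] false,
   Spec.mk (nat_lit 2512) (nat_lit 2) [nat_lit 1054, nat_lit 2998, nat_lit 2350, nat_lit 2674, nat_lit 2458, nat_lit 2514] (nat_lit 0) [nat_lit 4698, nat_lit 326] false,
   Spec.mk (nat_lit 2514) (nat_lit 1) [nat_lit 1056, nat_lit 3000, nat_lit 2352, nat_lit 2676, nat_lit 2460, nat_lit 2520, nat_lit 2512] (nat_lit 0) [nat_lit 328] false,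
   Spec.mk (nat_lit 2520) (nat_lit 1) [nat_lit 1062, nat_lit 3006, nat_lit 2358, nat_lit 2682, nat_lit 2466, nat_lit 2538, nat_lit 2514] (nat_lit 0) [nat_lit 334] false,
   Spec.mk (nat_lit 2538) (nat_lit 2) [nat_lit 1080, nat_lit 3024, nat_lit 2376, nat_lit 2700, nat_lit 2484, nat_lit 2592, nat_lit 2520] (nat_lit 0) [nat_lit 352] false,
   Spec.mk (nat_lit 2592) (nat_lit 2) [nat_lit 1134, nat_lit 3078, nat_lit 2754, nat_lit 2538] (nat_lit 0) [nat_lit 406] false,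
   Spec.mk (nat_lit 2674) (nat_lit 1) [nat_lit 1216, nat_lit 3160, nat_lit 2512, nat_lit 2676] (nat_lit 0) [nat_lit 4860, nat_lit 488] false,
   Spec.mk (nat_lit 2676) (nat_lit 0) [nat_lit 1218, nat_lit 3162, nat_lit 2514, nat_lit 2682, nat_lit 2674] (nat_lit 0) [nat_lit 490] false,
   Spec.mk (nat_lit 2682) (nat_lit 0) [nat_lit 1224, nat_lit 3168, nat_lit 2520, nat_lit 2700, nat_lit 2676] (nat_lit 0) [nat_lit 496] false,
   Spec.mk (nat_lit 2700) (nat_lit 0) [nat_lit 1242, nat_lit 3186, nat_lit 2538, nat_lit 2754, nat_lit 2682] (nat_lit 0) [nat_lit 514] false,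
   Spec.mk (nat_lit 2754) (nat_lit 2) [nat_lit 1296, nat_lit 3240, nat_lit 2592, nat_lit 2700] (nat_lit 0) [nat_lit 568] false,
   Spec.mk (nat_lit 2918) (nat_lit 3) [nat_lit 1460, nat_lit 4376, nat_lit 2432, nat_lit 2920] (nat_lit 0) [nat_lit 5104] false,
   Spec.mk (nat_lit 2920) (nat_lit 3) [nat_lit 1462, nat_lit 4378, nat_lit 2434, nat_lit 2926, nat_lit 2918, nat_lit 2922] (nat_lit 0) [nat_lit 5106, nat_lit 734] false,
   Spec.mk (nat_lit 2922) (nat_lit 1) [nat_lit 1464, nat_lit 4380, nat_lit 2436, nat_lit 2928, nat_lit 2920] (nat_lit 0) [nat_lit 736] false,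
   Spec.mk (nat_lit 2926) (nat_lit 2) [nat_lit 1468, nat_lit 4384, nat_lit 2440, nat_lit 2944, nat_lit 2920, nat_lit 2928] (nat_lit 0) [nat_lit 5112, nat_lit 740] false,
   Spec.mk (nat_lit 2928) (nat_lit 2) [nat_lit 1470, nat_lit 4386, nat_lit 2442, nat_lit 2946, nat_lit 2922, nat_lit 2934, nat_lit 2926] (nat_lit 0) [nat_lit 742] false,
   Spec.mk (nat_lit 2934) (nat_lit 1) [nat_lit 1476, nat_lit 4392, nat_lit 2448, nat_lit 2952, nat_lit 2928] (nat_lit 0) [nat_lit 748] false,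
   Spec.mk (nat_lit 2944) (nat_lit 2) [nat_lit 1486, nat_lit 4402, nat_lit 2458, nat_lit 2998, nat_lit 2926, nat_lit 2946] (nat_lit 0) [nat_lit 5130, nat_lit 758] false,
   Spec.mk (nat_lit 2946) (nat_lit 1) [nat_lit 1488, nat_lit 4404, nat_lit 2460, nat_lit 3000, nat_lit 2928, nat_lit 2952, nat_lit 2944] (nat_lit 0) [nat_lit 760] false,
   Spec.mk (nat_lit 2952) (nat_lit 2) [nat_lit 1494, nat_lit 4410, nat_lit 2466, nat_lit 3006, nat_lit 2934, nat_lit 2970, nat_lit 2946] (nat_lit 0) [nat_lit 766] false,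
   Spec.mk (nat_lit 2970) (nat_lit 1) [nat_lit 1512, nat_lit 4428, nat_lit 2484, nat_lit 3024, nat_lit 2952] (nat_lit 0) [nat_lit 784] false,
   Spec.mk (nat_lit 2998) (nat_lit 2) [nat_lit 1540, nat_lit 4456, nat_lit 2512, nat_lit 3160, nat_lit 2944, nat_lit 3000] (nat_lit 0) [nat_lit 5184, nat_lit 812] false,
   Spec.mk (nat_lit 3000) (nat_lit 1) [nat_lit 1542, nat_lit 4458, nat_lit 2514, nat_lit 3162, nat_lit 2946, nat_lit 3006, nat_lit 2998] (nat_lit 0) [nat_lit 814] false,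
   Spec.mk (nat_lit 3006) (nat_lit 1) [nat_lit 1548, nat_lit 4464, nat_lit 2520, nat_lit 3168, nat_lit 2952, nat_lit 3024, nat_lit 3000] (nat_lit 0) [nat_lit 820] false,
   Spec.mk (nat_lit 3024) (nat_lit 2) [nat_lit 1566, nat_lit 4482, nat_lit 2538, nat_lit 3186, nat_lit 2970, nat_lit 3078, nat_lit 3006] (nat_lit 0) [nat_lit 838] false,
   Spec.mk (nat_lit 3078) (nat_lit 1) [nat_lit 1620, nat_lit 4536, nat_lit 2592, nat_lit 3240, nat_lit 3024] (nat_lit 0) [nat_lit 892] false,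
   Spec.mk (nat_lit 3160) (nat_lit 3) [nat_lit 1702, nat_lit 4618, nat_lit 2674, nat_lit 3646, nat_lit 2998, nat_lit 3162] (nat_lit 0) [nat_lit 5346, nat_lit 974] false,
   Spec.mk (nat_lit 3162) (nat_lit 2) [nat_lit 1704, nat_lit 4620, nat_lit 2676, nat_lit 3648, nat_lit 3000, nat_lit 3168, nat_lit 3160] (nat_lit 0) [nat_lit 976] false,
   Spec.mk (nat_lit 3168) (nat_lit 2) [nat_lit 1710, nat_lit 4626, nat_lit 2682, nat_lit 3654, nat_lit 3006, nat_lit 3186, nat_lit 3162] (nat_lit 0) [nat_lit 982] false,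
   Spec.mk (nat_lit 3186) (nat_lit 2) [nat_lit 1728, nat_lit 4644, nat_lit 2700, nat_lit 3672, nat_lit 3024, nat_lit 3240, nat_lit 3168] (nat_lit 0) [nat_lit 1000] false,
   Spec.mk (nat_lit 3240) (nat_lit 3) [nat_lit 1782, nat_lit 4698, nat_lit 2754, nat_lit 3726, nat_lit 3078, nat_lit 3402, nat_lit 3186] (nat_lit 0) [nat_lit 1054] false,
   Spec.mk (nat_lit 3402) (nat_lit 3) [nat_lit 1944, nat_lit 4860, nat_lit 3888, nat_lit 3240] (nat_lit 0) [nat_lit 1216] false,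
   Spec.mk (nat_lit 3646) (nat_lit 3) [nat_lit 5104, nat_lit 3160, nat_lit 3648] (nat_lit 0) [nat_lit 5832, nat_lit 1460] false,
   Spec.mk (nat_lit 3648) (nat_lit 2) [nat_lit 5106, nat_lit 3162, nat_lit 3654, nat_lit 3646] (nat_lit 0) [nat_lit 1462] false,
   Spec.mk (nat_lit 3654) (nat_lit 2) [nat_lit 5112, nat_lit 3168, nat_lit 3672, nat_lit 3648] (nat_lit 0) [nat_lit 1468] false,
   Spec.mk (nat_lit 3672) (nat_lit 2) [nat_lit 5130, nat_lit 3186, nat_lit 3726, nat_lit 3654] (nat_lit 0) [nat_lit 1486] false,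
   Spec.mk (nat_lit 3726) (nat_lit 2) [nat_lit 5184, nat_lit 3240, nat_lit 3888, nat_lit 3672] (nat_lit 0) [nat_lit 1540] false,
   Spec.mk (nat_lit 3888) (nat_lit 4) [nat_lit 5346, nat_lit 3402, nat_lit 3726] (nat_lit 0) [nat_lit 1702] false,
   Spec.mk (nat_lit 4376) (nat_lit 4) [nat_lit 2918, nat_lit 4378] (nat_lit 0) [] false,
   Spec.mk (nat_lit 4378) (nat_lit 3) [nat_lit 2920, nat_lit 4384, nat_lit 4376, nat_lit 4380] (nat_lit 0) [nat_lit 2192] false]

noncomputable def sp4 : List Spec :=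
  [Spec.mk (nat_lit 4380) (nat_lit 0) [nat_lit 2922, nat_lit 4386, nat_lit 4378] (nat_lit 0) [nat_lit 2194] false,
   Spec.mk (nat_lit 4384) (nat_lit 2) [nat_lit 2926, nat_lit 4402, nat_lit 4378, nat_lit 4386] (nat_lit 0) [nat_lit 2198] false,
   Spec.mk (nat_lit 4386) (nat_lit 1) [nat_lit 2928, nat_lit 4404, nat_lit 4380, nat_lit 4392, nat_lit 4384] (nat_lit 0) [nat_lit 2200] false,
   Spec.mk (nat_lit 4392) (nat_lit 0) [nat_lit 2934, nat_lit 4410, nat_lit 4386] (nat_lit 0) [nat_lit 2206] false,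
   Spec.mk (nat_lit 4402) (nat_lit 2) [nat_lit 2944, nat_lit 4456, nat_lit 4384, nat_lit 4404] (nat_lit 0) [nat_lit 2216] false,
   Spec.mk (nat_lit 4404) (nat_lit 0) [nat_lit 2946, nat_lit 4458, nat_lit 4386, nat_lit 4410, nat_lit 4402] (nat_lit 0) [nat_lit 2218] false,
   Spec.mk (nat_lit 4410) (nat_lit 1) [nat_lit 2952, nat_lit 4464, nat_lit 4392, nat_lit 4428, nat_lit 4404] (nat_lit 0) [nat_lit 2224] false,
   Spec.mk (nat_lit 4428) (nat_lit 0) [nat_lit 2970, nat_lit 4482, nat_lit 4410] (nat_lit 0) [nat_lit 2242] false,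
   Spec.mk (nat_lit 4456) (nat_lit 2) [nat_lit 2998, nat_lit 4618, nat_lit 4402, nat_lit 4458] (nat_lit 0) [nat_lit 2270] false,
   Spec.mk (nat_lit 4458) (nat_lit 0) [nat_lit 3000, nat_lit 4620, nat_lit 4404, nat_lit 4464, nat_lit 4456] (nat_lit 0) [nat_lit 2272] false,
   Spec.mk (nat_lit 4464) (nat_lit 0) [nat_lit 3006, nat_lit 4626, nat_lit 4410, nat_lit 4482, nat_lit 4458] (nat_lit 0) [nat_lit 2278] false,
   Spec.mk (nat_lit 4482) (nat_lit 1) [nat_lit 3024, nat_lit 4644, nat_lit 4428, nat_lit 4536, nat_lit 4464] (nat_lit 0) [nat_lit 2296] false,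
   Spec.mk (nat_lit 4536) (nat_lit 0) [nat_lit 3078, nat_lit 4698, nat_lit 4482] (nat_lit 0) [nat_lit 2350] false,
   Spec.mk (nat_lit 4618) (nat_lit 2) [nat_lit 3160, nat_lit 5104, nat_lit 4456, nat_lit 4620] (nat_lit 0) [nat_lit 2432] false,
   Spec.mk (nat_lit 4620) (nat_lit 0) [nat_lit 3162, nat_lit 5106, nat_lit 4458, nat_lit 4626, nat_lit 4618] (nat_lit 0) [nat_lit 2434] false,
   Spec.mk (nat_lit 4626) (nat_lit 0) [nat_lit 3168, nat_lit 5112, nat_lit 4464, nat_lit 4644, nat_lit 4620] (nat_lit 0) [nat_lit 2440] false,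
   Spec.mk (nat_lit 4644) (nat_lit 0) [nat_lit 3186, nat_lit 5130, nat_lit 4482, nat_lit 4698, nat_lit 4626] (nat_lit 0) [nat_lit 2458] false,
   Spec.mk (nat_lit 4698) (nat_lit 1) [nat_lit 3240, nat_lit 5184, nat_lit 4536, nat_lit 4860, nat_lit 4644] (nat_lit 0) [nat_lit 2512] false,
   Spec.mk (nat_lit 4860) (nat_lit 0) [nat_lit 3402, nat_lit 5346, nat_lit 4698] (nat_lit 0) [nat_lit 2674] false,
   Spec.mk (nat_lit 5104) (nat_lit 4) [nat_lit 3646, nat_lit 4618, nat_lit 5106] (nat_lit 0) [nat_lit 2918] false,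
   Spec.mk (nat_lit 5106) (nat_lit 2) [nat_lit 3648, nat_lit 4620, nat_lit 5112, nat_lit 5104] (nat_lit 0) [nat_lit 2920] false,
   Spec.mk (nat_lit 5112) (nat_lit 2) [nat_lit 3654, nat_lit 4626, nat_lit 5130, nat_lit 5106] (nat_lit 0) [nat_lit 2926] false,
   Spec.mk (nat_lit 5130) (nat_lit 2) [nat_lit 3672, nat_lit 4644, nat_lit 5184, nat_lit 5112] (nat_lit 0) [nat_lit 2944] false,
   Spec.mk (nat_lit 5184) (nat_lit 2) [nat_lit 3726, nat_lit 4698, nat_lit 5346, nat_lit 5130] (nat_lit 0) [nat_lit 2998] false,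
   Spec.mk (nat_lit 5346) (nat_lit 3) [nat_lit 3888, nat_lit 4860, nat_lit 5832, nat_lit 5184] (nat_lit 0) [nat_lit 3160] false,
   Spec.mk (nat_lit 5832) (nat_lit 4) [nat_lit 5346] (nat_lit 0) [nat_lit 3646] false]

noncomputable def specs : List (List Spec) :=
    sp0 :: sp1 :: sp2 :: sp3 :: sp4 :: []

noncomputable def step (e : Nat → Nat) (C ap an : Nat) (k :
    Nat → Nat → Nat → Nat → Nat → Nat → Nat → Nat → Nat → Nat → Nat → Nat → Nat → Nat → Nat → Nat →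
    Nat → Nat → Nat → Nat → Nat → Nat → Nat → Nat → Nat → Nat → Nat → Nat → Nat → Nat → Nat → Nat →
    Nat → Nat → Nat → Nat → Nat → Nat → Nat → Nat → Nat → Nat → Nat → Nat → Nat → Nat → Nat → Nat →
    Nat → Nat → Nat → Nat → Nat → Nat → Nat → Nat → Nat → Nat → Nat → Nat → Nat → Nat → Nat → Nat →
    Nat → Nat → Nat → Nat → Nat → Nat → Nat → Nat → Nat → Nat → Nat → Nat → Nat → Nat → Nat → Nat →
    Nat → Nat → Nat → Nat → Nat → Nat → Nat → Nat → Nat → Nat → Nat → Nat → Nat → Nat → Nat → Nat →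
    Nat → Nat → Nat → Nat → Nat → Nat → Nat → Nat → Nat → Nat → Nat → Nat → Nat → Nat → Nat → Nat →
    Nat → Nat → Nat → Nat → Nat → Nat → Nat → Nat → Nat → Nat → Nat → Nat → Nat → Nat → Nat → Nat →
    Nat → Nat → Nat → Nat → Nat → Nat → Nat → Nat → Nat → Nat → Nat → Nat → Nat → Nat → Nat → Nat →
    Nat → Nat → Nat → Nat → Nat → Nat → Nat → Nat → Nat → Nat → Nat → Nat → Nat → Nat → Nat → Nat →
    Nat → Nat → Nat → Nat → Nat → Nat → Nat → Nat → Nat → Nat → Nat → Nat → Nat → Nat → Nat → Nat →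
    Nat → Nat → Nat → Nat → Nat → Nat → Nat → Nat → Nat → Nat → Nat → Nat → Nat → Nat → Nat → Nat →
    Nat → Nat → Nat → Nat → Nat → Nat → Nat → Nat → Nat → Nat → Nat → Nat → Nat → Nat → Nat → Nat →
    Nat → Nat → Nat → Nat → Nat → Nat → Nat → Nat → Nat → Nat → Nat → Nat → Nat → Nat → Nat → Nat →
    Nat → Nat → Nat → Nat → Nat → Nat → Nat → Nat → Nat → Nat → Nat → Nat → Nat → Nat → Nat → Nat →
    Nat → Nat → Nat → Nat → Nat → Nat → Nat → Nat → Nat → Nat → Nat → Nat → Nat → Nat → Nat → Nat →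
    Nat → Nat → Nat → Nat → Nat → Nat → Nat → Nat → Nat → Nat → Bool)
  (
    x8 x14 x16 x20 x22 x24 x32 x34 x38 x40 x42 x46 x48 x56 x58 x60 x64 x66 x72 x86 x88 x92 x94 x96
    x100 x102 x110 x112 x114 x118 x120 x126 x136 x138 x144 x164 x166 x168 x172 x174 x180 x190 x192
    x198 x216 x248 x250 x254 x256 x258 x262 x264 x272 x274 x276 x280 x282 x288 x298 x300 x306 x326
    x328 x330 x334 x336 x342 x352 x354 x360 x378 x406 x408 x414 x432 x488 x490 x492 x496 x498 x504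
    x514 x516 x522 x540 x568 x570 x576 x594 x648 x734 x736 x740 x742 x744 x748 x750 x758 x760 x762
    x766 x768 x774 x784 x786 x792 x812 x814 x816 x820 x822 x828 x838 x840 x846 x864 x892 x894 x900
    x918 x974 x976 x978 x982 x984 x990 x1000 x1002 x1008 x1026 x1054 x1056 x1062 x1080 x1134 x1216
    x1218 x1224 x1242 x1296 x1460 x1462 x1464 x1468 x1470 x1476 x1486 x1488 x1494 x1512 x1540 x1542
    x1548 x1566 x1620 x1702 x1704 x1710 x1728 x1782 x1944 x2192 x2194 x2198 x2200 x2202 x2206 x2208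
    x2216 x2218 x2220 x2224 x2226 x2232 x2242 x2244 x2250 x2270 x2272 x2274 x2278 x2280 x2286 x2296
    x2298 x2304 x2322 x2350 x2352 x2358 x2376 x2432 x2434 x2436 x2440 x2442 x2448 x2458 x2460 x2466
    x2484 x2512 x2514 x2520 x2538 x2592 x2674 x2676 x2682 x2700 x2754 x2918 x2920 x2922 x2926 x2928
    x2934 x2944 x2946 x2952 x2970 x2998 x3000 x3006 x3024 x3078 x3160 x3162 x3168 x3186 x3240 x3402
    x3646 x3648 x3654 x3672 x3726 x3888 x4376 x4378 x4380 x4384 x4386 x4392 x4402 x4404 x4410 x4428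
    x4456 x4458 x4464 x4482 x4536 x4618 x4620 x4626 x4644 x4698 x4860 x5104 x5106 x5112 x5130 x5184
    x5346 x5832 : Nat) : Bool :=
  k
    (Nat.sub (Nat.sub (Nat.add (Nat.add (Nat.add C (Nat.mul x8 (nat_lit 4))) x14) (Nat.mul (e (nat_lit 8)) ap)) x2194) (Nat.mul (e (nat_lit 8)) an))
    (Nat.sub (Nat.sub (Nat.add (Nat.add (Nat.add (Nat.add (Nat.add (Nat.add C (Nat.mul x14 (nat_lit 3))) x32) x8) x20) x16) (Nat.mul (e (nat_lit 14)) ap)) x2200) (Nat.mul (e (nat_lit 14)) an))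
    (Nat.sub (Nat.sub (Nat.add (Nat.add (Nat.add (Nat.add (Nat.add C (Nat.mul x16 (nat_lit 4))) x34) x22) x14) (Nat.mul (e (nat_lit 16)) ap)) x2202) (Nat.mul (e (nat_lit 16)) an))
    (Nat.sub (Nat.sub (Nat.add (Nat.add (Nat.add (Nat.add C x38) x14) x22) (Nat.mul (e (nat_lit 20)) ap)) x2206) (Nat.mul (e (nat_lit 20)) an))
    (Nat.sub (Nat.add (Nat.add (Nat.add (Nat.add (Nat.add C (Nat.mul x22 (nat_lit 3))) x40) x16) x20) x24) x2208)
    (Nat.add (Nat.add (Nat.add C (Nat.mul x24 (nat_lit 4))) x42) x22)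
    (Nat.sub (Nat.sub (Nat.add (Nat.add (Nat.add (Nat.add (Nat.add (Nat.add C (Nat.mul x32 (nat_lit 2))) x86) x14) x38) x34) (Nat.mul (e (nat_lit 32)) ap)) x2218) (Nat.mul (e (nat_lit 32)) an))
    (Nat.sub (Nat.sub (Nat.add (Nat.add (Nat.add (Nat.add (Nat.add (Nat.add C (Nat.mul x34 (nat_lit 2))) x88) x16) x40) x32) (Nat.mul (e (nat_lit 34)) ap)) x2220) (Nat.mul (e (nat_lit 34)) an))
    (Nat.sub (Nat.sub (Nat.add (Nat.add (Nat.add (Nat.add (Nat.add (Nat.add (Nat.add C x38) x92) x20) x56) x32) x40) (Nat.mul (e (nat_lit 38)) ap)) x2224) (Nat.mul (e (nat_lit 38)) an))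
    (Nat.sub (Nat.sub (Nat.add (Nat.add (Nat.add (Nat.add (Nat.add (Nat.add (Nat.add (Nat.add (Nat.add C (Nat.mul x40 (nat_lit 3))) x94) x22) x58) x34) x46) x38) x42) (Nat.mul (e (nat_lit 40)) ap)) x2226) (Nat.mul (e (nat_lit 40)) an))
    (Nat.add (Nat.add (Nat.add (Nat.add (Nat.add (Nat.add C (Nat.mul x42 (nat_lit 3))) x96) x24) x60) x48) x40)
    (Nat.sub (Nat.add (Nat.add (Nat.add (Nat.add (Nat.add C (Nat.mul x46 (nat_lit 2))) x100) x64) x40) x48) x2232)
    (Nat.add (Nat.add (Nat.add (Nat.add (Nat.add C (Nat.mul x48 (nat_lit 4))) x102) x66) x42) x46)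
    (Nat.sub (Nat.sub (Nat.add (Nat.add (Nat.add (Nat.add C x110) x38) x58) (Nat.mul (e (nat_lit 56)) ap)) x2242) (Nat.mul (e (nat_lit 56)) an))
    (Nat.sub (Nat.add (Nat.add (Nat.add (Nat.add (Nat.add (Nat.add C x58) x112) x40) x64) x56) x60) x2244)
    (Nat.add (Nat.add (Nat.add (Nat.add C x114) x42) x66) x58)
    (Nat.sub (Nat.add (Nat.add (Nat.add (Nat.add (Nat.add C (Nat.mul x64 (nat_lit 2))) x118) x46) x58) x66) x2250)
    (Nat.add (Nat.add (Nat.add (Nat.add (Nat.add (Nat.add C (Nat.mul x66 (nat_lit 3))) x120) x48) x60) x72) x64)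
    (Nat.add (Nat.add (Nat.add C (Nat.mul x72 (nat_lit 4))) x126) x66)
    (Nat.sub (Nat.sub (Nat.add (Nat.add (Nat.add (Nat.add (Nat.add (Nat.add C (Nat.mul x86 (nat_lit 2))) x248) x32) x92) x88) (Nat.mul (e (nat_lit 86)) ap)) x2272) (Nat.mul (e (nat_lit 86)) an))
    (Nat.sub (Nat.sub (Nat.add (Nat.add (Nat.add (Nat.add (Nat.add (Nat.add C (Nat.mul x88 (nat_lit 2))) x250) x34) x94) x86) (Nat.mul (e (nat_lit 88)) ap)) x2274) (Nat.mul (e (nat_lit 88)) an))
    (Nat.sub (Nat.sub (Nat.add (Nat.add (Nat.add (Nat.add (Nat.add (Nat.add C x254) x38) x110) x86) x94) (Nat.mul (e (nat_lit 92)) ap)) x2278) (Nat.mul (e (nat_lit 92)) an))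
    (Nat.sub (Nat.sub (Nat.add (Nat.add (Nat.add (Nat.add (Nat.add (Nat.add (Nat.add (Nat.add (Nat.add C (Nat.mul x94 (nat_lit 2))) x256) x40) x112) x88) x100) x92) x96) (Nat.mul (e (nat_lit 94)) ap)) x2280) (Nat.mul (e (nat_lit 94)) an))
    (Nat.add (Nat.add (Nat.add (Nat.add (Nat.add (Nat.add C (Nat.mul x96 (nat_lit 2))) x258) x42) x114) x102) x94)
    (Nat.sub (Nat.sub (Nat.add (Nat.add (Nat.add (Nat.add (Nat.add (Nat.add C x262) x46) x118) x94) x102) (Nat.mul (e (nat_lit 100)) ap)) x2286) (Nat.mul (e (nat_lit 100)) an))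
    (Nat.add (Nat.add (Nat.add (Nat.add (Nat.add (Nat.add C (Nat.mul x102 (nat_lit 2))) x264) x48) x120) x96) x100)
    (Nat.sub (Nat.sub (Nat.add (Nat.add (Nat.add (Nat.add (Nat.add (Nat.add (Nat.add C x110) x272) x56) x164) x92) x112) (Nat.mul (e (nat_lit 110)) ap)) x2296) (Nat.mul (e (nat_lit 110)) an))
    (Nat.sub (Nat.sub (Nat.add (Nat.add (Nat.add (Nat.add (Nat.add (Nat.add (Nat.add (Nat.add (Nat.add C (Nat.mul x112 (nat_lit 2))) x274) x58) x166) x94) x118) x110) x114) (Nat.mul (e (nat_lit 112)) ap)) x2298) (Nat.mul (e (nat_lit 112)) an))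
    (Nat.add (Nat.add (Nat.add (Nat.add (Nat.add (Nat.add (Nat.add C x114) x276) x60) x168) x96) x120) x112)
    (Nat.sub (Nat.add (Nat.add (Nat.add (Nat.add (Nat.add (Nat.add (Nat.add (Nat.add C (Nat.mul x118 (nat_lit 2))) x280) x64) x172) x100) x136) x112) x120) x2304)
    (Nat.add (Nat.add (Nat.add (Nat.add (Nat.add (Nat.add (Nat.add (Nat.add (Nat.add C (Nat.mul x120 (nat_lit 3))) x282) x66) x174) x102) x138) x114) x126) x118)
    (Nat.add (Nat.add (Nat.add (Nat.add (Nat.add (Nat.add C (Nat.mul x126 (nat_lit 3))) x288) x72) x180) x144) x120)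
    (Nat.sub (Nat.add (Nat.add (Nat.add (Nat.add (Nat.add C (Nat.mul x136 (nat_lit 2))) x298) x190) x118) x138) x2322)
    (Nat.add (Nat.add (Nat.add (Nat.add (Nat.add (Nat.add C (Nat.mul x138 (nat_lit 2))) x300) x192) x120) x144) x136)
    (Nat.add (Nat.add (Nat.add (Nat.add (Nat.add C (Nat.mul x144 (nat_lit 4))) x306) x198) x126) x138)
    (Nat.sub (Nat.sub (Nat.add (Nat.add (Nat.add (Nat.add C x326) x110) x166) (Nat.mul (e (nat_lit 164)) ap)) x2350) (Nat.mul (e (nat_lit 164)) an))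
    (Nat.sub (Nat.add (Nat.add (Nat.add (Nat.add (Nat.add (Nat.add C x166) x328) x112) x172) x164) x168) x2352)
    (Nat.add (Nat.add (Nat.add (Nat.add C x330) x114) x174) x166)
    (Nat.sub (Nat.add (Nat.add (Nat.add (Nat.add (Nat.add C x334) x118) x190) x166) x174) x2358)
    (Nat.add (Nat.add (Nat.add (Nat.add (Nat.add (Nat.add (Nat.add C x174) x336) x120) x192) x168) x180) x172)
    (Nat.add (Nat.add (Nat.add (Nat.add C x342) x126) x198) x174)
    (Nat.sub (Nat.add (Nat.add (Nat.add (Nat.add (Nat.add C (Nat.mul x190 (nat_lit 2))) x352) x136) x172) x192) x2376)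
    (Nat.add (Nat.add (Nat.add (Nat.add (Nat.add (Nat.add C (Nat.mul x192 (nat_lit 2))) x354) x138) x174) x198) x190)
    (Nat.add (Nat.add (Nat.add (Nat.add (Nat.add (Nat.add C (Nat.mul x198 (nat_lit 3))) x360) x144) x180) x216) x192)
    (Nat.add (Nat.add (Nat.add C (Nat.mul x216 (nat_lit 4))) x378) x198)
    (Nat.sub (Nat.add (Nat.add (Nat.add (Nat.add (Nat.add C (Nat.mul x248 (nat_lit 2))) x734) x86) x254) x250) x2434)
    (Nat.sub (Nat.add (Nat.add (Nat.add (Nat.add (Nat.add C (Nat.mul x250 (nat_lit 2))) x736) x88) x256) x248) x2436)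
    (Nat.sub (Nat.sub (Nat.add (Nat.add (Nat.add (Nat.add (Nat.add (Nat.add C x740) x92) x272) x248) x256) (Nat.mul (e (nat_lit 254)) ap)) x2440) (Nat.mul (e (nat_lit 254)) an))
    (Nat.sub (Nat.sub (Nat.add (Nat.add (Nat.add (Nat.add (Nat.add (Nat.add (Nat.add (Nat.add (Nat.add C (Nat.mul x256 (nat_lit 2))) x742) x94) x274) x250) x262) x254) x258) (Nat.mul (e (nat_lit 256)) ap)) x2442) (Nat.mul (e (nat_lit 256)) an))
    (Nat.add (Nat.add (Nat.add (Nat.add (Nat.add (Nat.add C (Nat.mul x258 (nat_lit 2))) x744) x96) x276) x264) x256)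
    (Nat.sub (Nat.add (Nat.add (Nat.add (Nat.add (Nat.add C x748) x100) x280) x256) x264) x2448)
    (Nat.add (Nat.add (Nat.add (Nat.add (Nat.add (Nat.add C (Nat.mul x264 (nat_lit 2))) x750) x102) x282) x258) x262)
    (Nat.sub (Nat.sub (Nat.add (Nat.add (Nat.add (Nat.add (Nat.add (Nat.add C x758) x110) x326) x254) x274) (Nat.mul (e (nat_lit 272)) ap)) x2458) (Nat.mul (e (nat_lit 272)) an))
    (Nat.sub (Nat.sub (Nat.add (Nat.add (Nat.add (Nat.add (Nat.add (Nat.add (Nat.add (Nat.add (Nat.add C x274) x760) x112) x328) x256) x280) x272) x276) (Nat.mul (e (nat_lit 274)) ap)) x2460) (Nat.mul (e (nat_lit 274)) an))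
    (Nat.add (Nat.add (Nat.add (Nat.add (Nat.add (Nat.add C x762) x114) x330) x258) x282) x274)
    (Nat.sub (Nat.sub (Nat.add (Nat.add (Nat.add (Nat.add (Nat.add (Nat.add (Nat.add (Nat.add (Nat.add C x280) x766) x118) x334) x262) x298) x274) x282) (Nat.mul (e (nat_lit 280)) ap)) x2466) (Nat.mul (e (nat_lit 280)) an))
    (Nat.add (Nat.add (Nat.add (Nat.add (Nat.add (Nat.add (Nat.add (Nat.add (Nat.add C (Nat.mul x282 (nat_lit 2))) x768) x120) x336) x264) x300) x276) x288) x280)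
    (Nat.add (Nat.add (Nat.add (Nat.add (Nat.add (Nat.add C (Nat.mul x288 (nat_lit 2))) x774) x126) x342) x306) x282)
    (Nat.sub (Nat.add (Nat.add (Nat.add (Nat.add (Nat.add C x784) x136) x352) x280) x300) x2484)
    (Nat.add (Nat.add (Nat.add (Nat.add (Nat.add (Nat.add C x786) x138) x354) x282) x306) x298)
    (Nat.add (Nat.add (Nat.add (Nat.add (Nat.add (Nat.add C (Nat.mul x306 (nat_lit 2))) x792) x144) x360) x288) x300)
    (Nat.sub (Nat.add (Nat.add (Nat.add (Nat.add (Nat.add (Nat.add C x326) x812) x164) x488) x272) x328) x2512)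
    (Nat.sub (Nat.sub (Nat.add (Nat.add (Nat.add (Nat.add (Nat.add (Nat.add (Nat.add (Nat.add (Nat.add C (Nat.mul x328 (nat_lit 2))) x814) x166) x490) x274) x334) x326) x330) (Nat.mul (e (nat_lit 328)) ap)) x2514) (Nat.mul (e (nat_lit 328)) an))
    (Nat.add (Nat.add (Nat.add (Nat.add (Nat.add (Nat.add (Nat.add C x330) x816) x168) x492) x276) x336) x328)
    (Nat.sub (Nat.add (Nat.add (Nat.add (Nat.add (Nat.add (Nat.add (Nat.add (Nat.add C x334) x820) x172) x496) x280) x352) x328) x336) x2520)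
    (Nat.add (Nat.add (Nat.add (Nat.add (Nat.add (Nat.add (Nat.add (Nat.add (Nat.add C (Nat.mul x336 (nat_lit 2))) x822) x174) x498) x282) x354) x330) x342) x334)
    (Nat.add (Nat.add (Nat.add (Nat.add (Nat.add (Nat.add (Nat.add C x342) x828) x180) x504) x288) x360) x336)
    (Nat.sub (Nat.add (Nat.add (Nat.add (Nat.add (Nat.add (Nat.add (Nat.add (Nat.add C (Nat.mul x352 (nat_lit 2))) x838) x190) x514) x298) x406) x334) x354) x2538)
    (Nat.add (Nat.add (Nat.add (Nat.add (Nat.add (Nat.add (Nat.add (Nat.add (Nat.add C (Nat.mul x354 (nat_lit 2))) x840) x192) x516) x300) x408) x336) x360) x352)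
    (Nat.add (Nat.add (Nat.add (Nat.add (Nat.add (Nat.add (Nat.add (Nat.add (Nat.add C (Nat.mul x360 (nat_lit 3))) x846) x198) x522) x306) x414) x342) x378) x354)
    (Nat.add (Nat.add (Nat.add (Nat.add (Nat.add (Nat.add C (Nat.mul x378 (nat_lit 3))) x864) x216) x540) x432) x360)
    (Nat.sub (Nat.add (Nat.add (Nat.add (Nat.add (Nat.add C (Nat.mul x406 (nat_lit 2))) x892) x568) x352) x408) x2592)
    (Nat.add (Nat.add (Nat.add (Nat.add (Nat.add (Nat.add C (Nat.mul x408 (nat_lit 2))) x894) x570) x354) x414) x406)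
    (Nat.add (Nat.add (Nat.add (Nat.add (Nat.add (Nat.add C (Nat.mul x414 (nat_lit 2))) x900) x576) x360) x432) x408)
    (Nat.add (Nat.add (Nat.add (Nat.add (Nat.add C (Nat.mul x432 (nat_lit 4))) x918) x594) x378) x414)
    (Nat.sub (Nat.add (Nat.add (Nat.add C x974) x326) x490) x2674)
    (Nat.sub (Nat.add (Nat.add (Nat.add (Nat.add (Nat.add (Nat.add C x490) x976) x328) x496) x488) x492) x2676)
    (Nat.add (Nat.add (Nat.add (Nat.add C x978) x330) x498) x490)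
    (Nat.sub (Nat.add (Nat.add (Nat.add (Nat.add (Nat.add C x982) x334) x514) x490) x498) x2682)
    (Nat.add (Nat.add (Nat.add (Nat.add (Nat.add (Nat.add (Nat.add C x498) x984) x336) x516) x492) x504) x496)
    (Nat.add (Nat.add (Nat.add (Nat.add C x990) x342) x522) x498)
    (Nat.sub (Nat.add (Nat.add (Nat.add (Nat.add (Nat.add C x1000) x352) x568) x496) x516) x2700)
    (Nat.add (Nat.add (Nat.add (Nat.add (Nat.add (Nat.add C x1002) x354) x570) x498) x522) x514)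
    (Nat.add (Nat.add (Nat.add (Nat.add (Nat.add (Nat.add (Nat.add C x522) x1008) x360) x576) x504) x540) x516)
    (Nat.add (Nat.add (Nat.add (Nat.add C x1026) x378) x594) x522)
    (Nat.sub (Nat.add (Nat.add (Nat.add (Nat.add (Nat.add C (Nat.mul x568 (nat_lit 2))) x1054) x406) x514) x570) x2754)
    (Nat.add (Nat.add (Nat.add (Nat.add (Nat.add (Nat.add C (Nat.mul x570 (nat_lit 2))) x1056) x408) x516) x576) x568)
    (Nat.add (Nat.add (Nat.add (Nat.add (Nat.add (Nat.add C (Nat.mul x576 (nat_lit 2))) x1062) x414) x522) x594) x570)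
    (Nat.add (Nat.add (Nat.add (Nat.add (Nat.add (Nat.add C (Nat.mul x594 (nat_lit 3))) x1080) x432) x540) x648) x576)
    (Nat.add (Nat.add (Nat.add C (Nat.mul x648 (nat_lit 4))) x1134) x594)
    (Nat.sub (Nat.add (Nat.add (Nat.add (Nat.add (Nat.add C (Nat.mul x734 (nat_lit 2))) x2192) x248) x740) x736) x2920)
    (Nat.sub (Nat.add (Nat.add (Nat.add (Nat.add (Nat.add C (Nat.mul x736 (nat_lit 2))) x2194) x250) x742) x734) x2922)
    (Nat.sub (Nat.add (Nat.add (Nat.add (Nat.add (Nat.add C x2198) x254) x758) x734) x742) x2926)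
    (Nat.sub (Nat.add (Nat.add (Nat.add (Nat.add (Nat.add (Nat.add (Nat.add (Nat.add C (Nat.mul x742 (nat_lit 2))) x2200) x256) x760) x736) x748) x740) x744) x2928)
    (Nat.add (Nat.add (Nat.add (Nat.add (Nat.add (Nat.add C (Nat.mul x744 (nat_lit 2))) x2202) x258) x762) x750) x742)
    (Nat.sub (Nat.add (Nat.add (Nat.add (Nat.add (Nat.add C x2206) x262) x766) x742) x750) x2934)
    (Nat.add (Nat.add (Nat.add (Nat.add (Nat.add (Nat.add C (Nat.mul x750 (nat_lit 2))) x2208) x264) x768) x744) x748)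
    (Nat.sub (Nat.add (Nat.add (Nat.add (Nat.add (Nat.add C x2216) x272) x812) x740) x760) x2944)
    (Nat.sub (Nat.add (Nat.add (Nat.add (Nat.add (Nat.add (Nat.add (Nat.add (Nat.add C x760) x2218) x274) x814) x742) x766) x758) x762) x2946)
    (Nat.add (Nat.add (Nat.add (Nat.add (Nat.add (Nat.add C x2220) x276) x816) x744) x768) x760)
    (Nat.sub (Nat.add (Nat.add (Nat.add (Nat.add (Nat.add (Nat.add (Nat.add (Nat.add C x766) x2224) x280) x820) x748) x784) x760) x768) x2952)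
    (Nat.add (Nat.add (Nat.add (Nat.add (Nat.add (Nat.add (Nat.add (Nat.add (Nat.add C (Nat.mul x768 (nat_lit 2))) x2226) x282) x822) x750) x786) x762) x774) x766)
    (Nat.add (Nat.add (Nat.add (Nat.add (Nat.add (Nat.add C (Nat.mul x774 (nat_lit 2))) x2232) x288) x828) x792) x768)
    (Nat.sub (Nat.add (Nat.add (Nat.add (Nat.add (Nat.add C x2242) x298) x838) x766) x786) x2970)
    (Nat.add (Nat.add (Nat.add (Nat.add (Nat.add (Nat.add C x2244) x300) x840) x768) x792) x784)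
    (Nat.add (Nat.add (Nat.add (Nat.add (Nat.add (Nat.add C (Nat.mul x792 (nat_lit 2))) x2250) x306) x846) x774) x786)
    (Nat.sub (Nat.add (Nat.add (Nat.add (Nat.add (Nat.add C x2270) x326) x974) x758) x814) x2998)
    (Nat.sub (Nat.add (Nat.add (Nat.add (Nat.add (Nat.add (Nat.add (Nat.add (Nat.add C x814) x2272) x328) x976) x760) x820) x812) x816) x3000)
    (Nat.add (Nat.add (Nat.add (Nat.add (Nat.add (Nat.add C x2274) x330) x978) x762) x822) x814)
    (Nat.sub (Nat.sub (Nat.add (Nat.add (Nat.add (Nat.add (Nat.add (Nat.add (Nat.add (Nat.add C x2278) x334) x982) x766) x838) x814) x822) (Nat.mul (e (nat_lit 820)) ap)) x3006) (Nat.mul (e (nat_lit 820)) an))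
    (Nat.add (Nat.add (Nat.add (Nat.add (Nat.add (Nat.add (Nat.add (Nat.add (Nat.add C x822) x2280) x336) x984) x768) x840) x816) x828) x820)
    (Nat.add (Nat.add (Nat.add (Nat.add (Nat.add (Nat.add C x2286) x342) x990) x774) x846) x822)
    (Nat.sub (Nat.add (Nat.add (Nat.add (Nat.add (Nat.add (Nat.add (Nat.add (Nat.add C x838) x2296) x352) x1000) x784) x892) x820) x840) x3024)
    (Nat.add (Nat.add (Nat.add (Nat.add (Nat.add (Nat.add (Nat.add (Nat.add (Nat.add C x840) x2298) x354) x1002) x786) x894) x822) x846) x838)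
    (Nat.add (Nat.add (Nat.add (Nat.add (Nat.add (Nat.add (Nat.add (Nat.add (Nat.add C (Nat.mul x846 (nat_lit 2))) x2304) x360) x1008) x792) x900) x828) x864) x840)
    (Nat.add (Nat.add (Nat.add (Nat.add (Nat.add (Nat.add C (Nat.mul x864 (nat_lit 2))) x2322) x378) x1026) x918) x846)
    (Nat.sub (Nat.add (Nat.add (Nat.add (Nat.add (Nat.add C x2350) x406) x1054) x838) x894) x3078)
    (Nat.add (Nat.add (Nat.add (Nat.add (Nat.add (Nat.add C x2352) x408) x1056) x840) x900) x892)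
    (Nat.add (Nat.add (Nat.add (Nat.add (Nat.add (Nat.add C x2358) x414) x1062) x846) x918) x894)
    (Nat.add (Nat.add (Nat.add (Nat.add (Nat.add (Nat.add C (Nat.mul x918 (nat_lit 2))) x2376) x432) x1080) x864) x900)
    (Nat.sub (Nat.add (Nat.add (Nat.add (Nat.add (Nat.add (Nat.add C x974) x2432) x488) x1460) x812) x976) x3160)
    (Nat.sub (Nat.add (Nat.add (Nat.add (Nat.add (Nat.add (Nat.add (Nat.add (Nat.add C (Nat.mul x976 (nat_lit 2))) x2434) x490) x1462) x814) x982) x974) x978) x3162)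
    (Nat.add (Nat.add (Nat.add (Nat.add (Nat.add (Nat.add (Nat.add C x978) x2436) x492) x1464) x816) x984) x976)
    (Nat.sub (Nat.add (Nat.add (Nat.add (Nat.add (Nat.add (Nat.add (Nat.add (Nat.add C x982) x2440) x496) x1468) x820) x1000) x976) x984) x3168)
    (Nat.add (Nat.add (Nat.add (Nat.add (Nat.add (Nat.add (Nat.add (Nat.add (Nat.add C (Nat.mul x984 (nat_lit 2))) x2442) x498) x1470) x822) x1002) x978) x990) x982)
    (Nat.add (Nat.add (Nat.add (Nat.add (Nat.add (Nat.add (Nat.add C x990) x2448) x504) x1476) x828) x1008) x984)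
    (Nat.sub (Nat.add (Nat.add (Nat.add (Nat.add (Nat.add (Nat.add (Nat.add (Nat.add C x1000) x2458) x514) x1486) x838) x1054) x982) x1002) x3186)
    (Nat.add (Nat.add (Nat.add (Nat.add (Nat.add (Nat.add (Nat.add (Nat.add (Nat.add C x1002) x2460) x516) x1488) x840) x1056) x984) x1008) x1000)
    (Nat.add (Nat.add (Nat.add (Nat.add (Nat.add (Nat.add (Nat.add (Nat.add (Nat.add C (Nat.mul x1008 (nat_lit 2))) x2466) x522) x1494) x846) x1062) x990) x1026) x1002)
    (Nat.add (Nat.add (Nat.add (Nat.add (Nat.add (Nat.add (Nat.add C x1026) x2484) x540) x1512) x864) x1080) x1008)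
    (Nat.sub (Nat.add (Nat.add (Nat.add (Nat.add (Nat.add (Nat.add (Nat.add (Nat.add C (Nat.mul x1054 (nat_lit 2))) x2512) x568) x1540) x892) x1216) x1000) x1056) x3240)
    (Nat.add (Nat.add (Nat.add (Nat.add (Nat.add (Nat.add (Nat.add (Nat.add (Nat.add C (Nat.mul x1056 (nat_lit 2))) x2514) x570) x1542) x894) x1218) x1002) x1062) x1054)
    (Nat.add (Nat.add (Nat.add (Nat.add (Nat.add (Nat.add (Nat.add (Nat.add (Nat.add C (Nat.mul x1062 (nat_lit 2))) x2520) x576) x1548) x900) x1224) x1008) x1080) x1056)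
    (Nat.add (Nat.add (Nat.add (Nat.add (Nat.add (Nat.add (Nat.add (Nat.add (Nat.add C (Nat.mul x1080 (nat_lit 3))) x2538) x594) x1566) x918) x1242) x1026) x1134) x1062)
    (Nat.add (Nat.add (Nat.add (Nat.add (Nat.add (Nat.add C (Nat.mul x1134 (nat_lit 3))) x2592) x648) x1620) x1296) x1080)
    (Nat.sub (Nat.add (Nat.add (Nat.add (Nat.add (Nat.add C (Nat.mul x1216 (nat_lit 2))) x2674) x1702) x1054) x1218) x3402)
    (Nat.add (Nat.add (Nat.add (Nat.add (Nat.add (Nat.add C (Nat.mul x1218 (nat_lit 2))) x2676) x1704) x1056) x1224) x1216)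
    (Nat.add (Nat.add (Nat.add (Nat.add (Nat.add (Nat.add C (Nat.mul x1224 (nat_lit 2))) x2682) x1710) x1062) x1242) x1218)
    (Nat.add (Nat.add (Nat.add (Nat.add (Nat.add (Nat.add C (Nat.mul x1242 (nat_lit 2))) x2700) x1728) x1080) x1296) x1224)
    (Nat.add (Nat.add (Nat.add (Nat.add (Nat.add C (Nat.mul x1296 (nat_lit 4))) x2754) x1782) x1134) x1242)
    (Nat.sub (Nat.add (Nat.add (Nat.add C x2918) x974) x1462) x3646)
    (Nat.sub (Nat.add (Nat.add (Nat.add (Nat.add (Nat.add (Nat.add C x1462) x2920) x976) x1468) x1460) x1464) x3648)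
    (Nat.add (Nat.add (Nat.add (Nat.add C x2922) x978) x1470) x1462)
    (Nat.sub (Nat.add (Nat.add (Nat.add (Nat.add (Nat.add C x2926) x982) x1486) x1462) x1470) x3654)
    (Nat.add (Nat.add (Nat.add (Nat.add (Nat.add (Nat.add (Nat.add C x1470) x2928) x984) x1488) x1464) x1476) x1468)
    (Nat.add (Nat.add (Nat.add (Nat.add C x2934) x990) x1494) x1470)
    (Nat.sub (Nat.add (Nat.add (Nat.add (Nat.add (Nat.add C x2944) x1000) x1540) x1468) x1488) x3672)
    (Nat.add (Nat.add (Nat.add (Nat.add (Nat.add (Nat.add C x2946) x1002) x1542) x1470) x1494) x1486)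
    (Nat.add (Nat.add (Nat.add (Nat.add (Nat.add (Nat.add (Nat.add C x1494) x2952) x1008) x1548) x1476) x1512) x1488)
    (Nat.add (Nat.add (Nat.add (Nat.add C x2970) x1026) x1566) x1494)
    (Nat.sub (Nat.add (Nat.add (Nat.add (Nat.add (Nat.add C x2998) x1054) x1702) x1486) x1542) x3726)
    (Nat.add (Nat.add (Nat.add (Nat.add (Nat.add (Nat.add C x3000) x1056) x1704) x1488) x1548) x1540)
    (Nat.add (Nat.add (Nat.add (Nat.add (Nat.add (Nat.add C x3006) x1062) x1710) x1494) x1566) x1542)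
    (Nat.add (Nat.add (Nat.add (Nat.add (Nat.add (Nat.add (Nat.add C x1566) x3024) x1080) x1728) x1512) x1620) x1548)
    (Nat.add (Nat.add (Nat.add (Nat.add C x3078) x1134) x1782) x1566)
    (Nat.sub (Nat.add (Nat.add (Nat.add (Nat.add (Nat.add C (Nat.mul x1702 (nat_lit 2))) x3160) x1216) x1540) x1704) x3888)
    (Nat.add (Nat.add (Nat.add (Nat.add (Nat.add (Nat.add C (Nat.mul x1704 (nat_lit 2))) x3162) x1218) x1542) x1710) x1702)
    (Nat.add (Nat.add (Nat.add (Nat.add (Nat.add (Nat.add C (Nat.mul x1710 (nat_lit 2))) x3168) x1224) x1548) x1728) x1704)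
    (Nat.add (Nat.add (Nat.add (Nat.add (Nat.add (Nat.add C (Nat.mul x1728 (nat_lit 2))) x3186) x1242) x1566) x1782) x1710)
    (Nat.add (Nat.add (Nat.add (Nat.add (Nat.add (Nat.add C (Nat.mul x1782 (nat_lit 3))) x3240) x1296) x1620) x1944) x1728)
    (Nat.add (Nat.add (Nat.add C (Nat.mul x1944 (nat_lit 4))) x3402) x1782)
    (Nat.sub (Nat.add (Nat.add (Nat.add (Nat.add C (Nat.mul x2192 (nat_lit 4))) x734) x2198) x2194) x4378)
    (Nat.sub (Nat.sub (Nat.add (Nat.add (Nat.add (Nat.add C (Nat.mul x2194 (nat_lit 3))) x736) x2200) x2192) x4380) x8)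
    (Nat.sub (Nat.add (Nat.add (Nat.add (Nat.add (Nat.add C (Nat.mul x2198 (nat_lit 2))) x740) x2216) x2192) x2200) x4384)
    (Nat.sub (Nat.sub (Nat.add (Nat.add (Nat.add (Nat.add (Nat.add (Nat.add (Nat.add C (Nat.mul x2200 (nat_lit 3))) x742) x2218) x2194) x2206) x2198) x2202) x4386) x14)
    (Nat.sub (Nat.add (Nat.add (Nat.add (Nat.add (Nat.add C (Nat.mul x2202 (nat_lit 2))) x744) x2220) x2208) x2200) x16)
    (Nat.sub (Nat.sub (Nat.add (Nat.add (Nat.add (Nat.add (Nat.add C x2206) x748) x2224) x2200) x2208) x4392) x20)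
    (Nat.sub (Nat.add (Nat.add (Nat.add (Nat.add (Nat.add C (Nat.mul x2208 (nat_lit 2))) x750) x2226) x2202) x2206) x22)
    (Nat.sub (Nat.add (Nat.add (Nat.add (Nat.add (Nat.add C (Nat.mul x2216 (nat_lit 2))) x758) x2270) x2198) x2218) x4402)
    (Nat.sub (Nat.sub (Nat.add (Nat.add (Nat.add (Nat.add (Nat.add (Nat.add (Nat.add C (Nat.mul x2218 (nat_lit 2))) x760) x2272) x2200) x2224) x2216) x2220) x4404) x32)
    (Nat.sub (Nat.add (Nat.add (Nat.add (Nat.add (Nat.add C x762) x2274) x2202) x2226) x2218) x34)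
    (Nat.sub (Nat.sub (Nat.add (Nat.add (Nat.add (Nat.add (Nat.add (Nat.add (Nat.add C (Nat.mul x2224 (nat_lit 2))) x766) x2278) x2206) x2242) x2218) x2226) x4410) x38)
    (Nat.sub (Nat.add (Nat.add (Nat.add (Nat.add (Nat.add (Nat.add (Nat.add (Nat.add C (Nat.mul x2226 (nat_lit 2))) x768) x2280) x2208) x2244) x2220) x2232) x2224) x40)
    (Nat.sub (Nat.add (Nat.add (Nat.add (Nat.add (Nat.add C (Nat.mul x2232 (nat_lit 2))) x774) x2286) x2250) x2226) x46)
    (Nat.sub (Nat.sub (Nat.add (Nat.add (Nat.add (Nat.add (Nat.add C x2242) x784) x2296) x2224) x2244) x4428) x56)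
    (Nat.sub (Nat.add (Nat.add (Nat.add (Nat.add (Nat.add C x786) x2298) x2226) x2250) x2242) x58)
    (Nat.sub (Nat.add (Nat.add (Nat.add (Nat.add (Nat.add C (Nat.mul x2250 (nat_lit 2))) x792) x2304) x2232) x2244) x64)
    (Nat.sub (Nat.add (Nat.add (Nat.add (Nat.add (Nat.add C (Nat.mul x2270 (nat_lit 2))) x812) x2432) x2216) x2272) x4456)
    (Nat.sub (Nat.sub (Nat.add (Nat.add (Nat.add (Nat.add (Nat.add (Nat.add (Nat.add C (Nat.mul x2272 (nat_lit 2))) x814) x2434) x2218) x2278) x2270) x2274) x4458) x86)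
    (Nat.sub (Nat.add (Nat.add (Nat.add (Nat.add (Nat.add C x816) x2436) x2220) x2280) x2272) x88)
    (Nat.sub (Nat.sub (Nat.add (Nat.add (Nat.add (Nat.add (Nat.add (Nat.add (Nat.add C x2278) x820) x2440) x2224) x2296) x2272) x2280) x4464) x92)
    (Nat.sub (Nat.add (Nat.add (Nat.add (Nat.add (Nat.add (Nat.add (Nat.add (Nat.add C x2280) x822) x2442) x2226) x2298) x2274) x2286) x2278) x94)
    (Nat.sub (Nat.add (Nat.add (Nat.add (Nat.add (Nat.add C x828) x2448) x2232) x2304) x2280) x100)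
    (Nat.sub (Nat.sub (Nat.add (Nat.add (Nat.add (Nat.add (Nat.add (Nat.add (Nat.add C (Nat.mul x2296 (nat_lit 2))) x838) x2458) x2242) x2350) x2278) x2298) x4482) x110)
    (Nat.sub (Nat.add (Nat.add (Nat.add (Nat.add (Nat.add (Nat.add (Nat.add (Nat.add C x2298) x840) x2460) x2244) x2352) x2280) x2304) x2296) x112)
    (Nat.sub (Nat.add (Nat.add (Nat.add (Nat.add (Nat.add (Nat.add (Nat.add (Nat.add C (Nat.mul x2304 (nat_lit 2))) x846) x2466) x2250) x2358) x2286) x2322) x2298) x118)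
    (Nat.sub (Nat.add (Nat.add (Nat.add (Nat.add (Nat.add C (Nat.mul x2322 (nat_lit 2))) x864) x2484) x2376) x2304) x136)
    (Nat.sub (Nat.sub (Nat.add (Nat.add (Nat.add (Nat.add (Nat.add C x2350) x892) x2512) x2296) x2352) x4536) x164)
    (Nat.sub (Nat.add (Nat.add (Nat.add (Nat.add (Nat.add C x894) x2514) x2298) x2358) x2350) x166)
    (Nat.sub (Nat.add (Nat.add (Nat.add (Nat.add (Nat.add C x900) x2520) x2304) x2376) x2352) x172)
    (Nat.sub (Nat.add (Nat.add (Nat.add (Nat.add (Nat.add C (Nat.mul x2376 (nat_lit 2))) x918) x2538) x2322) x2358) x190)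
    (Nat.sub (Nat.add (Nat.add (Nat.add (Nat.add (Nat.add C (Nat.mul x2432 (nat_lit 2))) x974) x2918) x2270) x2434) x4618)
    (Nat.sub (Nat.sub (Nat.add (Nat.add (Nat.add (Nat.add (Nat.add (Nat.add (Nat.add C (Nat.mul x2434 (nat_lit 2))) x976) x2920) x2272) x2440) x2432) x2436) x4620) x248)
    (Nat.sub (Nat.add (Nat.add (Nat.add (Nat.add (Nat.add C x978) x2922) x2274) x2442) x2434) x250)
    (Nat.sub (Nat.sub (Nat.add (Nat.add (Nat.add (Nat.add (Nat.add (Nat.add (Nat.add C x2440) x982) x2926) x2278) x2458) x2434) x2442) x4626) x254)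
    (Nat.sub (Nat.add (Nat.add (Nat.add (Nat.add (Nat.add (Nat.add (Nat.add (Nat.add C x2442) x984) x2928) x2280) x2460) x2436) x2448) x2440) x256)
    (Nat.sub (Nat.add (Nat.add (Nat.add (Nat.add (Nat.add C x990) x2934) x2286) x2466) x2442) x262)
    (Nat.sub (Nat.sub (Nat.add (Nat.add (Nat.add (Nat.add (Nat.add (Nat.add (Nat.add C x2458) x1000) x2944) x2296) x2512) x2440) x2460) x4644) x272)
    (Nat.sub (Nat.add (Nat.add (Nat.add (Nat.add (Nat.add (Nat.add (Nat.add C x1002) x2946) x2298) x2514) x2442) x2466) x2458) x274)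
    (Nat.sub (Nat.add (Nat.add (Nat.add (Nat.add (Nat.add (Nat.add (Nat.add (Nat.add C x2466) x1008) x2952) x2304) x2520) x2448) x2484) x2460) x280)
    (Nat.sub (Nat.add (Nat.add (Nat.add (Nat.add (Nat.add C x1026) x2970) x2322) x2538) x2466) x298)
    (Nat.sub (Nat.sub (Nat.add (Nat.add (Nat.add (Nat.add (Nat.add (Nat.add (Nat.add C (Nat.mul x2512 (nat_lit 2))) x1054) x2998) x2350) x2674) x2458) x2514) x4698) x326)
    (Nat.sub (Nat.add (Nat.add (Nat.add (Nat.add (Nat.add (Nat.add (Nat.add (Nat.add C x2514) x1056) x3000) x2352) x2676) x2460) x2520) x2512) x328)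
    (Nat.sub (Nat.add (Nat.add (Nat.add (Nat.add (Nat.add (Nat.add (Nat.add (Nat.add C x2520) x1062) x3006) x2358) x2682) x2466) x2538) x2514) x334)
    (Nat.sub (Nat.add (Nat.add (Nat.add (Nat.add (Nat.add (Nat.add (Nat.add (Nat.add C (Nat.mul x2538 (nat_lit 2))) x1080) x3024) x2376) x2700) x2484) x2592) x2520) x352)
    (Nat.sub (Nat.add (Nat.add (Nat.add (Nat.add (Nat.add C (Nat.mul x2592 (nat_lit 2))) x1134) x3078) x2754) x2538) x406)
    (Nat.sub (Nat.sub (Nat.add (Nat.add (Nat.add (Nat.add (Nat.add C x2674) x1216) x3160) x2512) x2676) x4860) x488)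
    (Nat.sub (Nat.add (Nat.add (Nat.add (Nat.add (Nat.add C x1218) x3162) x2514) x2682) x2674) x490)
    (Nat.sub (Nat.add (Nat.add (Nat.add (Nat.add (Nat.add C x1224) x3168) x2520) x2700) x2676) x496)
    (Nat.sub (Nat.add (Nat.add (Nat.add (Nat.add (Nat.add C x1242) x3186) x2538) x2754) x2682) x514)
    (Nat.sub (Nat.add (Nat.add (Nat.add (Nat.add (Nat.add C (Nat.mul x2754 (nat_lit 2))) x1296) x3240) x2592) x2700) x568)
    (Nat.sub (Nat.add (Nat.add (Nat.add (Nat.add (Nat.add C (Nat.mul x2918 (nat_lit 3))) x1460) x4376) x2432) x2920) x5104)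
    (Nat.sub (Nat.sub (Nat.add (Nat.add (Nat.add (Nat.add (Nat.add (Nat.add (Nat.add C (Nat.mul x2920 (nat_lit 3))) x1462) x4378) x2434) x2926) x2918) x2922) x5106) x734)
    (Nat.sub (Nat.add (Nat.add (Nat.add (Nat.add (Nat.add (Nat.add C x2922) x1464) x4380) x2436) x2928) x2920) x736)
    (Nat.sub (Nat.sub (Nat.add (Nat.add (Nat.add (Nat.add (Nat.add (Nat.add (Nat.add C (Nat.mul x2926 (nat_lit 2))) x1468) x4384) x2440) x2944) x2920) x2928) x5112) x740)
    (Nat.sub (Nat.add (Nat.add (Nat.add (Nat.add (Nat.add (Nat.add (Nat.add (Nat.add C (Nat.mul x2928 (nat_lit 2))) x1470) x4386) x2442) x2946) x2922) x2934) x2926) x742)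
    (Nat.sub (Nat.add (Nat.add (Nat.add (Nat.add (Nat.add (Nat.add C x2934) x1476) x4392) x2448) x2952) x2928) x748)
    (Nat.sub (Nat.sub (Nat.add (Nat.add (Nat.add (Nat.add (Nat.add (Nat.add (Nat.add C (Nat.mul x2944 (nat_lit 2))) x1486) x4402) x2458) x2998) x2926) x2946) x5130) x758)
    (Nat.sub (Nat.add (Nat.add (Nat.add (Nat.add (Nat.add (Nat.add (Nat.add (Nat.add C x2946) x1488) x4404) x2460) x3000) x2928) x2952) x2944) x760)
    (Nat.sub (Nat.add (Nat.add (Nat.add (Nat.add (Nat.add (Nat.add (Nat.add (Nat.add C (Nat.mul x2952 (nat_lit 2))) x1494) x4410) x2466) x3006) x2934) x2970) x2946) x766)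
    (Nat.sub (Nat.add (Nat.add (Nat.add (Nat.add (Nat.add (Nat.add C x2970) x1512) x4428) x2484) x3024) x2952) x784)
    (Nat.sub (Nat.sub (Nat.add (Nat.add (Nat.add (Nat.add (Nat.add (Nat.add (Nat.add C (Nat.mul x2998 (nat_lit 2))) x1540) x4456) x2512) x3160) x2944) x3000) x5184) x812)
    (Nat.sub (Nat.add (Nat.add (Nat.add (Nat.add (Nat.add (Nat.add (Nat.add (Nat.add C x3000) x1542) x4458) x2514) x3162) x2946) x3006) x2998) x814)
    (Nat.sub (Nat.add (Nat.add (Nat.add (Nat.add (Nat.add (Nat.add (Nat.add (Nat.add C x3006) x1548) x4464) x2520) x3168) x2952) x3024) x3000) x820)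
    (Nat.sub (Nat.add (Nat.add (Nat.add (Nat.add (Nat.add (Nat.add (Nat.add (Nat.add C (Nat.mul x3024 (nat_lit 2))) x1566) x4482) x2538) x3186) x2970) x3078) x3006) x838)
    (Nat.sub (Nat.add (Nat.add (Nat.add (Nat.add (Nat.add (Nat.add C x3078) x1620) x4536) x2592) x3240) x3024) x892)
    (Nat.sub (Nat.sub (Nat.add (Nat.add (Nat.add (Nat.add (Nat.add (Nat.add (Nat.add C (Nat.mul x3160 (nat_lit 3))) x1702) x4618) x2674) x3646) x2998) x3162) x5346) x974)
    (Nat.sub (Nat.add (Nat.add (Nat.add (Nat.add (Nat.add (Nat.add (Nat.add (Nat.add C (Nat.mul x3162 (nat_lit 2))) x1704) x4620) x2676) x3648) x3000) x3168) x3160) x976)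
    (Nat.sub (Nat.add (Nat.add (Nat.add (Nat.add (Nat.add (Nat.add (Nat.add (Nat.add C (Nat.mul x3168 (nat_lit 2))) x1710) x4626) x2682) x3654) x3006) x3186) x3162) x982)
    (Nat.sub (Nat.add (Nat.add (Nat.add (Nat.add (Nat.add (Nat.add (Nat.add (Nat.add C (Nat.mul x3186 (nat_lit 2))) x1728) x4644) x2700) x3672) x3024) x3240) x3168) x1000)
    (Nat.sub (Nat.add (Nat.add (Nat.add (Nat.add (Nat.add (Nat.add (Nat.add (Nat.add C (Nat.mul x3240 (nat_lit 3))) x1782) x4698) x2754) x3726) x3078) x3402) x3186) x1054)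
    (Nat.sub (Nat.add (Nat.add (Nat.add (Nat.add (Nat.add C (Nat.mul x3402 (nat_lit 3))) x1944) x4860) x3888) x3240) x1216)
    (Nat.sub (Nat.sub (Nat.add (Nat.add (Nat.add (Nat.add C (Nat.mul x3646 (nat_lit 3))) x5104) x3160) x3648) x5832) x1460)
    (Nat.sub (Nat.add (Nat.add (Nat.add (Nat.add (Nat.add C (Nat.mul x3648 (nat_lit 2))) x5106) x3162) x3654) x3646) x1462)
    (Nat.sub (Nat.add (Nat.add (Nat.add (Nat.add (Nat.add C (Nat.mul x3654 (nat_lit 2))) x5112) x3168) x3672) x3648) x1468)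
    (Nat.sub (Nat.add (Nat.add (Nat.add (Nat.add (Nat.add C (Nat.mul x3672 (nat_lit 2))) x5130) x3186) x3726) x3654) x1486)
    (Nat.sub (Nat.add (Nat.add (Nat.add (Nat.add (Nat.add C (Nat.mul x3726 (nat_lit 2))) x5184) x3240) x3888) x3672) x1540)
    (Nat.sub (Nat.add (Nat.add (Nat.add (Nat.add C (Nat.mul x3888 (nat_lit 4))) x5346) x3402) x3726) x1702)
    (Nat.add (Nat.add (Nat.add C (Nat.mul x4376 (nat_lit 4))) x2918) x4378)
    (Nat.sub (Nat.add (Nat.add (Nat.add (Nat.add (Nat.add C (Nat.mul x4378 (nat_lit 3))) x2920) x4384) x4376) x4380) x2192)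
    (Nat.sub (Nat.add (Nat.add (Nat.add C x2922) x4386) x4378) x2194)
    (Nat.sub (Nat.add (Nat.add (Nat.add (Nat.add (Nat.add C (Nat.mul x4384 (nat_lit 2))) x2926) x4402) x4378) x4386) x2198)
    (Nat.sub (Nat.add (Nat.add (Nat.add (Nat.add (Nat.add (Nat.add C x4386) x2928) x4404) x4380) x4392) x4384) x2200)
    (Nat.sub (Nat.add (Nat.add (Nat.add C x2934) x4410) x4386) x2206)
    (Nat.sub (Nat.add (Nat.add (Nat.add (Nat.add (Nat.add C (Nat.mul x4402 (nat_lit 2))) x2944) x4456) x4384) x4404) x2216)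
    (Nat.sub (Nat.add (Nat.add (Nat.add (Nat.add (Nat.add C x2946) x4458) x4386) x4410) x4402) x2218)
    (Nat.sub (Nat.add (Nat.add (Nat.add (Nat.add (Nat.add (Nat.add C x4410) x2952) x4464) x4392) x4428) x4404) x2224)
    (Nat.sub (Nat.add (Nat.add (Nat.add C x2970) x4482) x4410) x2242)
    (Nat.sub (Nat.add (Nat.add (Nat.add (Nat.add (Nat.add C (Nat.mul x4456 (nat_lit 2))) x2998) x4618) x4402) x4458) x2270)
    (Nat.sub (Nat.add (Nat.add (Nat.add (Nat.add (Nat.add C x3000) x4620) x4404) x4464) x4456) x2272)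
    (Nat.sub (Nat.add (Nat.add (Nat.add (Nat.add (Nat.add C x3006) x4626) x4410) x4482) x4458) x2278)
    (Nat.sub (Nat.add (Nat.add (Nat.add (Nat.add (Nat.add (Nat.add C x4482) x3024) x4644) x4428) x4536) x4464) x2296)
    (Nat.sub (Nat.add (Nat.add (Nat.add C x3078) x4698) x4482) x2350)
    (Nat.sub (Nat.add (Nat.add (Nat.add (Nat.add (Nat.add C (Nat.mul x4618 (nat_lit 2))) x3160) x5104) x4456) x4620) x2432)
    (Nat.sub (Nat.add (Nat.add (Nat.add (Nat.add (Nat.add C x3162) x5106) x4458) x4626) x4618) x2434)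
    (Nat.sub (Nat.add (Nat.add (Nat.add (Nat.add (Nat.add C x3168) x5112) x4464) x4644) x4620) x2440)
    (Nat.sub (Nat.add (Nat.add (Nat.add (Nat.add (Nat.add C x3186) x5130) x4482) x4698) x4626) x2458)
    (Nat.sub (Nat.add (Nat.add (Nat.add (Nat.add (Nat.add (Nat.add C x4698) x3240) x5184) x4536) x4860) x4644) x2512)
    (Nat.sub (Nat.add (Nat.add (Nat.add C x3402) x5346) x4698) x2674)
    (Nat.sub (Nat.add (Nat.add (Nat.add (Nat.add C (Nat.mul x5104 (nat_lit 4))) x3646) x4618) x5106) x2918)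
    (Nat.sub (Nat.add (Nat.add (Nat.add (Nat.add (Nat.add C (Nat.mul x5106 (nat_lit 2))) x3648) x4620) x5112) x5104) x2920)
    (Nat.sub (Nat.add (Nat.add (Nat.add (Nat.add (Nat.add C (Nat.mul x5112 (nat_lit 2))) x3654) x4626) x5130) x5106) x2926)
    (Nat.sub (Nat.add (Nat.add (Nat.add (Nat.add (Nat.add C (Nat.mul x5130 (nat_lit 2))) x3672) x4644) x5184) x5112) x2944)
    (Nat.sub (Nat.add (Nat.add (Nat.add (Nat.add (Nat.add C (Nat.mul x5184 (nat_lit 2))) x3726) x4698) x5346) x5130) x2998)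
    (Nat.sub (Nat.add (Nat.add (Nat.add (Nat.add (Nat.add C (Nat.mul x5346 (nat_lit 3))) x3888) x4860) x5832) x5184) x3160)
    (Nat.sub (Nat.add (Nat.add C (Nat.mul x5832 (nat_lit 4))) x5346) x3646)

theorem ap_eq (x : Nat → Nat) (k : FnLL specs) : apLL (fun t => x t.cd) specs k = A8_4.ap x k :=
  Eq.refl (A8_4.ap x k)

theorem step_eq0 (e : Nat → Nat) (C p r : Nat) (k : FnLL specs) (x : Nat → Nat) :
    A8_4.ap x (step e C p r k) = apLL (interp e C p r x) specs k :=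
  Eq.refl (A8_4.ap x (step e C p r k))

theorem spec_ok : specOK 7 true A8_4.mask specs = true := by decide +kernel

theorem step_eq (e : Nat → Nat) (C p r : Nat) (k : A8_4.KK) (x : Nat → Nat) :
    A8_4.ap x (step e C p r k) = A8_4.ap (row 7 true A8_4.mask e C p r x) k :=
  ((step_eq0 e C p r k x).trans (apLL_row 7 true A8_4.mask specs spec_ok e C p r x k)).trans
    (ap_eq (row 7 true A8_4.mask e C p r x) k)

end Vale.Agent.P348.G8_4_1

namespace Vale.Agent.P348.G8_5_1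

noncomputable def sp0 : List Spec :=
  [Spec.mk (nat_lit 17) (nat_lit 4) [nat_lit 35, nat_lit 23] (nat_lit 0) [nat_lit 2203] true,
   Spec.mk (nat_lit 23) (nat_lit 2) [nat_lit 41, nat_lit 17, nat_lit 25] (nat_lit 0) [nat_lit 2209] true,
   Spec.mk (nat_lit 25) (nat_lit 4) [nat_lit 43, nat_lit 23] (nat_lit 0) [nat_lit 2211] false,
   Spec.mk (nat_lit 35) (nat_lit 2) [nat_lit 89, nat_lit 17, nat_lit 41] (nat_lit 0) [nat_lit 2221] true,
   Spec.mk (nat_lit 41) (nat_lit 2) [nat_lit 95, nat_lit 23, nat_lit 59, nat_lit 35, nat_lit 47, nat_lit 43] (nat_lit 0) [nat_lit 2227] true,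
   Spec.mk (nat_lit 43) (nat_lit 3) [nat_lit 97, nat_lit 25, nat_lit 61, nat_lit 49, nat_lit 41] (nat_lit 0) [nat_lit 2229] true,
   Spec.mk (nat_lit 47) (nat_lit 0) [nat_lit 101, nat_lit 65, nat_lit 41, nat_lit 49] (nat_lit 0) [nat_lit 2233] true,
   Spec.mk (nat_lit 49) (nat_lit 3) [nat_lit 103, nat_lit 67, nat_lit 43, nat_lit 47, nat_lit 51] (nat_lit 0) [nat_lit 2235] false,
   Spec.mk (nat_lit 51) (nat_lit 4) [nat_lit 105, nat_lit 69, nat_lit 49] (nat_lit 0) [] false,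
   Spec.mk (nat_lit 59) (nat_lit 0) [nat_lit 113, nat_lit 41, nat_lit 65, nat_lit 61] (nat_lit 0) [nat_lit 2245] true,
   Spec.mk (nat_lit 61) (nat_lit 0) [nat_lit 115, nat_lit 43, nat_lit 67, nat_lit 59] (nat_lit 0) [nat_lit 2247] false,
   Spec.mk (nat_lit 65) (nat_lit 0) [nat_lit 119, nat_lit 47, nat_lit 59, nat_lit 67] (nat_lit 0) [nat_lit 2251] false,
   Spec.mk (nat_lit 67) (nat_lit 2) [nat_lit 121, nat_lit 49, nat_lit 61, nat_lit 73, nat_lit 65, nat_lit 69] (nat_lit 0) [nat_lit 2253] false,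
   Spec.mk (nat_lit 69) (nat_lit 2) [nat_lit 123, nat_lit 51, nat_lit 75, nat_lit 67] (nat_lit 0) [] false,
   Spec.mk (nat_lit 73) (nat_lit 2) [nat_lit 127, nat_lit 67, nat_lit 75] (nat_lit 0) [nat_lit 2259] false,
   Spec.mk (nat_lit 75) (nat_lit 4) [nat_lit 129, nat_lit 69, nat_lit 73] (nat_lit 0) [] false,
   Spec.mk (nat_lit 89) (nat_lit 2) [nat_lit 251, nat_lit 35, nat_lit 95] (nat_lit 0) [nat_lit 2275] true,
   Spec.mk (nat_lit 95) (nat_lit 1) [nat_lit 257, nat_lit 41, nat_lit 113, nat_lit 89, nat_lit 101, nat_lit 97] (nat_lit 0) [nat_lit 2281] true,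
   Spec.mk (nat_lit 97) (nat_lit 2) [nat_lit 259, nat_lit 43, nat_lit 115, nat_lit 103, nat_lit 95] (nat_lit 0) [nat_lit 2283] true,
   Spec.mk (nat_lit 101) (nat_lit 0) [nat_lit 263, nat_lit 47, nat_lit 119, nat_lit 95, nat_lit 103] (nat_lit 2) [nat_lit 2287] true,
   Spec.mk (nat_lit 103) (nat_lit 1) [nat_lit 265, nat_lit 49, nat_lit 121, nat_lit 97, nat_lit 101, nat_lit 105] (nat_lit 0) [nat_lit 2289] true,
   Spec.mk (nat_lit 105) (nat_lit 2) [nat_lit 267, nat_lit 51, nat_lit 123, nat_lit 103] (nat_lit 0) [] false,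
   Spec.mk (nat_lit 113) (nat_lit 1) [nat_lit 275, nat_lit 59, nat_lit 167, nat_lit 95, nat_lit 119, nat_lit 115] (nat_lit 0) [nat_lit 2299] true,
   Spec.mk (nat_lit 115) (nat_lit 1) [nat_lit 277, nat_lit 61, nat_lit 169, nat_lit 97, nat_lit 121, nat_lit 113] (nat_lit 0) [nat_lit 2301] true,
   Spec.mk (nat_lit 119) (nat_lit 0) [nat_lit 281, nat_lit 65, nat_lit 173, nat_lit 101, nat_lit 137, nat_lit 113, nat_lit 121] (nat_lit 0) [nat_lit 2305] true,
   Spec.mk (nat_lit 121) (nat_lit 2) [nat_lit 283, nat_lit 67, nat_lit 175, nat_lit 103, nat_lit 139, nat_lit 115, nat_lit 127, nat_lit 119, nat_lit 123] (nat_lit 0) [nat_lit 2307] true,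
   Spec.mk (nat_lit 123) (nat_lit 2) [nat_lit 285, nat_lit 69, nat_lit 177, nat_lit 105, nat_lit 141, nat_lit 129, nat_lit 121] (nat_lit 0) [] false,
   Spec.mk (nat_lit 127) (nat_lit 1) [nat_lit 289, nat_lit 73, nat_lit 181, nat_lit 145, nat_lit 121, nat_lit 129] (nat_lit 0) [nat_lit 2313] false,
   Spec.mk (nat_lit 129) (nat_lit 3) [nat_lit 291, nat_lit 75, nat_lit 183, nat_lit 147, nat_lit 123, nat_lit 127] (nat_lit 0) [] false,
   Spec.mk (nat_lit 137) (nat_lit 0) [nat_lit 299, nat_lit 191, nat_lit 119, nat_lit 139] (nat_lit 0) [nat_lit 2323] true,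
   Spec.mk (nat_lit 139) (nat_lit 1) [nat_lit 301, nat_lit 193, nat_lit 121, nat_lit 145, nat_lit 137, nat_lit 141] (nat_lit 0) [nat_lit 2325] false,
   Spec.mk (nat_lit 141) (nat_lit 0) [nat_lit 303, nat_lit 195, nat_lit 123, nat_lit 147, nat_lit 139] (nat_lit 0) [] false,
   Spec.mk (nat_lit 145) (nat_lit 2) [nat_lit 307, nat_lit 199, nat_lit 127, nat_lit 139, nat_lit 147] (nat_lit 0) [nat_lit 2331] false,
   Spec.mk (nat_lit 147) (nat_lit 3) [nat_lit 309, nat_lit 201, nat_lit 129, nat_lit 141, nat_lit 153, nat_lit 145] (nat_lit 0) [] false,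
   Spec.mk (nat_lit 153) (nat_lit 4) [nat_lit 315, nat_lit 207, nat_lit 147] (nat_lit 0) [] false,
   Spec.mk (nat_lit 167) (nat_lit 0) [nat_lit 329, nat_lit 113, nat_lit 173, nat_lit 169] (nat_lit 0) [nat_lit 2353] true,
   Spec.mk (nat_lit 169) (nat_lit 0) [nat_lit 331, nat_lit 115, nat_lit 175, nat_lit 167] (nat_lit 0) [nat_lit 2355] false,
   Spec.mk (nat_lit 173) (nat_lit 0) [nat_lit 335, nat_lit 119, nat_lit 191, nat_lit 167, nat_lit 175] (nat_lit 2) [nat_lit 2359] true,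
   Spec.mk (nat_lit 175) (nat_lit 0) [nat_lit 337, nat_lit 121, nat_lit 193, nat_lit 169, nat_lit 181, nat_lit 173, nat_lit 177] (nat_lit 0) [nat_lit 2361] false,
   Spec.mk (nat_lit 177) (nat_lit 0) [nat_lit 339, nat_lit 123, nat_lit 195, nat_lit 183, nat_lit 175] (nat_lit 0) [] false,
   Spec.mk (nat_lit 181) (nat_lit 0) [nat_lit 343, nat_lit 127, nat_lit 199, nat_lit 175, nat_lit 183] (nat_lit 2) [nat_lit 2367] false,
   Spec.mk (nat_lit 183) (nat_lit 0) [nat_lit 345, nat_lit 129, nat_lit 201, nat_lit 177, nat_lit 181] (nat_lit 0) [] false,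
   Spec.mk (nat_lit 191) (nat_lit 0) [nat_lit 353, nat_lit 137, nat_lit 173, nat_lit 193] (nat_lit 0) [nat_lit 2377] false,
   Spec.mk (nat_lit 193) (nat_lit 1) [nat_lit 355, nat_lit 139, nat_lit 175, nat_lit 199, nat_lit 191, nat_lit 195] (nat_lit 0) [nat_lit 2379] false,
   Spec.mk (nat_lit 195) (nat_lit 0) [nat_lit 357, nat_lit 141, nat_lit 177, nat_lit 201, nat_lit 193] (nat_lit 0) [] false,
   Spec.mk (nat_lit 199) (nat_lit 1) [nat_lit 361, nat_lit 145, nat_lit 181, nat_lit 217, nat_lit 193, nat_lit 201] (nat_lit 0) [nat_lit 2385] false,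
   Spec.mk (nat_lit 201) (nat_lit 2) [nat_lit 363, nat_lit 147, nat_lit 183, nat_lit 219, nat_lit 195, nat_lit 207, nat_lit 199] (nat_lit 0) [] false,
   Spec.mk (nat_lit 207) (nat_lit 2) [nat_lit 369, nat_lit 153, nat_lit 225, nat_lit 201] (nat_lit 0) [] false,
   Spec.mk (nat_lit 217) (nat_lit 2) [nat_lit 379, nat_lit 199, nat_lit 219] (nat_lit 0) [nat_lit 2403] false,
   Spec.mk (nat_lit 219) (nat_lit 2) [nat_lit 381, nat_lit 201, nat_lit 225, nat_lit 217] (nat_lit 0) [] false,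
   Spec.mk (nat_lit 225) (nat_lit 4) [nat_lit 387, nat_lit 207, nat_lit 219] (nat_lit 0) [] false,
   Spec.mk (nat_lit 251) (nat_lit 2) [nat_lit 737, nat_lit 89, nat_lit 257] (nat_lit 0) [nat_lit 2437] false,
   Spec.mk (nat_lit 257) (nat_lit 1) [nat_lit 743, nat_lit 95, nat_lit 275, nat_lit 251, nat_lit 263, nat_lit 259] (nat_lit 0) [nat_lit 2443] true,
   Spec.mk (nat_lit 259) (nat_lit 2) [nat_lit 745, nat_lit 97, nat_lit 277, nat_lit 265, nat_lit 257] (nat_lit 0) [nat_lit 2445] true,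
   Spec.mk (nat_lit 263) (nat_lit 0) [nat_lit 749, nat_lit 101, nat_lit 281, nat_lit 257, nat_lit 265] (nat_lit 2) [nat_lit 2449] true,
   Spec.mk (nat_lit 265) (nat_lit 1) [nat_lit 751, nat_lit 103, nat_lit 283, nat_lit 259, nat_lit 263, nat_lit 267] (nat_lit 0) [nat_lit 2451] false,
   Spec.mk (nat_lit 267) (nat_lit 2) [nat_lit 753, nat_lit 105, nat_lit 285, nat_lit 265] (nat_lit 0) [] false,
   Spec.mk (nat_lit 275) (nat_lit 0) [nat_lit 761, nat_lit 113, nat_lit 329, nat_lit 257, nat_lit 281, nat_lit 277] (nat_lit 0) [nat_lit 2461] true,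
   Spec.mk (nat_lit 277) (nat_lit 0) [nat_lit 763, nat_lit 115, nat_lit 331, nat_lit 259, nat_lit 283, nat_lit 275] (nat_lit 0) [nat_lit 2463] true,
   Spec.mk (nat_lit 281) (nat_lit 0) [nat_lit 767, nat_lit 119, nat_lit 335, nat_lit 263, nat_lit 299, nat_lit 275, nat_lit 283] (nat_lit 1) [nat_lit 2467] true]

noncomputable def sp1 : List Spec :=
  [Spec.mk (nat_lit 283) (nat_lit 1) [nat_lit 769, nat_lit 121, nat_lit 337, nat_lit 265, nat_lit 301, nat_lit 277, nat_lit 289, nat_lit 281, nat_lit 285] (nat_lit 0) [nat_lit 2469] true,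
   Spec.mk (nat_lit 285) (nat_lit 1) [nat_lit 771, nat_lit 123, nat_lit 339, nat_lit 267, nat_lit 303, nat_lit 291, nat_lit 283] (nat_lit 0) [] false,
   Spec.mk (nat_lit 289) (nat_lit 0) [nat_lit 775, nat_lit 127, nat_lit 343, nat_lit 307, nat_lit 283, nat_lit 291] (nat_lit 0) [nat_lit 2475] true,
   Spec.mk (nat_lit 291) (nat_lit 2) [nat_lit 777, nat_lit 129, nat_lit 345, nat_lit 309, nat_lit 285, nat_lit 289] (nat_lit 0) [] false,
   Spec.mk (nat_lit 299) (nat_lit 0) [nat_lit 785, nat_lit 137, nat_lit 353, nat_lit 281, nat_lit 301] (nat_lit 2) [nat_lit 2485] true,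
   Spec.mk (nat_lit 301) (nat_lit 0) [nat_lit 787, nat_lit 139, nat_lit 355, nat_lit 283, nat_lit 307, nat_lit 299, nat_lit 303] (nat_lit 1) [nat_lit 2487] true,
   Spec.mk (nat_lit 303) (nat_lit 0) [nat_lit 789, nat_lit 141, nat_lit 357, nat_lit 285, nat_lit 309, nat_lit 301] (nat_lit 2) [] false,
   Spec.mk (nat_lit 307) (nat_lit 0) [nat_lit 793, nat_lit 145, nat_lit 361, nat_lit 289, nat_lit 301, nat_lit 309] (nat_lit 0) [nat_lit 2493] false,
   Spec.mk (nat_lit 309) (nat_lit 1) [nat_lit 795, nat_lit 147, nat_lit 363, nat_lit 291, nat_lit 303, nat_lit 315, nat_lit 307] (nat_lit 0) [] false,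
   Spec.mk (nat_lit 315) (nat_lit 2) [nat_lit 801, nat_lit 153, nat_lit 369, nat_lit 309] (nat_lit 0) [] false,
   Spec.mk (nat_lit 329) (nat_lit 1) [nat_lit 815, nat_lit 167, nat_lit 491, nat_lit 275, nat_lit 335, nat_lit 331] (nat_lit 0) [nat_lit 2515] true,
   Spec.mk (nat_lit 331) (nat_lit 1) [nat_lit 817, nat_lit 169, nat_lit 493, nat_lit 277, nat_lit 337, nat_lit 329] (nat_lit 0) [nat_lit 2517] false,
   Spec.mk (nat_lit 335) (nat_lit 0) [nat_lit 821, nat_lit 173, nat_lit 497, nat_lit 281, nat_lit 353, nat_lit 329, nat_lit 337] (nat_lit 1) [nat_lit 2521] true,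
   Spec.mk (nat_lit 337) (nat_lit 1) [nat_lit 823, nat_lit 175, nat_lit 499, nat_lit 283, nat_lit 355, nat_lit 331, nat_lit 343, nat_lit 335, nat_lit 339] (nat_lit 0) [nat_lit 2523] true,
   Spec.mk (nat_lit 339) (nat_lit 1) [nat_lit 825, nat_lit 177, nat_lit 501, nat_lit 285, nat_lit 357, nat_lit 345, nat_lit 337] (nat_lit 0) [] false,
   Spec.mk (nat_lit 343) (nat_lit 0) [nat_lit 829, nat_lit 181, nat_lit 505, nat_lit 289, nat_lit 361, nat_lit 337, nat_lit 345] (nat_lit 1) [nat_lit 2529] false,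
   Spec.mk (nat_lit 345) (nat_lit 1) [nat_lit 831, nat_lit 183, nat_lit 507, nat_lit 291, nat_lit 363, nat_lit 339, nat_lit 343] (nat_lit 0) [] false,
   Spec.mk (nat_lit 353) (nat_lit 0) [nat_lit 839, nat_lit 191, nat_lit 515, nat_lit 299, nat_lit 407, nat_lit 335, nat_lit 355] (nat_lit 0) [nat_lit 2539] true,
   Spec.mk (nat_lit 355) (nat_lit 1) [nat_lit 841, nat_lit 193, nat_lit 517, nat_lit 301, nat_lit 409, nat_lit 337, nat_lit 361, nat_lit 353, nat_lit 357] (nat_lit 0) [nat_lit 2541] false,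
   Spec.mk (nat_lit 357) (nat_lit 0) [nat_lit 843, nat_lit 195, nat_lit 519, nat_lit 303, nat_lit 411, nat_lit 339, nat_lit 363, nat_lit 355] (nat_lit 0) [] false,
   Spec.mk (nat_lit 361) (nat_lit 1) [nat_lit 847, nat_lit 199, nat_lit 523, nat_lit 307, nat_lit 415, nat_lit 343, nat_lit 379, nat_lit 355, nat_lit 363] (nat_lit 0) [nat_lit 2547] false,
   Spec.mk (nat_lit 363) (nat_lit 2) [nat_lit 849, nat_lit 201, nat_lit 525, nat_lit 309, nat_lit 417, nat_lit 345, nat_lit 381, nat_lit 357, nat_lit 369, nat_lit 361] (nat_lit 0) [] false,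
   Spec.mk (nat_lit 369) (nat_lit 2) [nat_lit 855, nat_lit 207, nat_lit 531, nat_lit 315, nat_lit 423, nat_lit 387, nat_lit 363] (nat_lit 0) [] false,
   Spec.mk (nat_lit 379) (nat_lit 1) [nat_lit 865, nat_lit 217, nat_lit 541, nat_lit 433, nat_lit 361, nat_lit 381] (nat_lit 0) [nat_lit 2565] false,
   Spec.mk (nat_lit 381) (nat_lit 1) [nat_lit 867, nat_lit 219, nat_lit 543, nat_lit 435, nat_lit 363, nat_lit 387, nat_lit 379] (nat_lit 0) [] false,
   Spec.mk (nat_lit 387) (nat_lit 3) [nat_lit 873, nat_lit 225, nat_lit 549, nat_lit 441, nat_lit 369, nat_lit 381] (nat_lit 0) [] false,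
   Spec.mk (nat_lit 407) (nat_lit 0) [nat_lit 893, nat_lit 569, nat_lit 353, nat_lit 409] (nat_lit 0) [nat_lit 2593] false,
   Spec.mk (nat_lit 409) (nat_lit 1) [nat_lit 895, nat_lit 571, nat_lit 355, nat_lit 415, nat_lit 407, nat_lit 411] (nat_lit 0) [nat_lit 2595] false,
   Spec.mk (nat_lit 411) (nat_lit 0) [nat_lit 897, nat_lit 573, nat_lit 357, nat_lit 417, nat_lit 409] (nat_lit 0) [] false,
   Spec.mk (nat_lit 415) (nat_lit 0) [nat_lit 901, nat_lit 577, nat_lit 361, nat_lit 433, nat_lit 409, nat_lit 417] (nat_lit 0) [nat_lit 2601] false,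
   Spec.mk (nat_lit 417) (nat_lit 1) [nat_lit 903, nat_lit 579, nat_lit 363, nat_lit 435, nat_lit 411, nat_lit 423, nat_lit 415] (nat_lit 0) [] false,
   Spec.mk (nat_lit 423) (nat_lit 0) [nat_lit 909, nat_lit 585, nat_lit 369, nat_lit 441, nat_lit 417] (nat_lit 0) [] false,
   Spec.mk (nat_lit 433) (nat_lit 2) [nat_lit 919, nat_lit 595, nat_lit 379, nat_lit 415, nat_lit 435] (nat_lit 0) [nat_lit 2619] false,
   Spec.mk (nat_lit 435) (nat_lit 2) [nat_lit 921, nat_lit 597, nat_lit 381, nat_lit 417, nat_lit 441, nat_lit 433] (nat_lit 0) [] false,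
   Spec.mk (nat_lit 441) (nat_lit 3) [nat_lit 927, nat_lit 603, nat_lit 387, nat_lit 423, nat_lit 459, nat_lit 435] (nat_lit 0) [] false,
   Spec.mk (nat_lit 459) (nat_lit 4) [nat_lit 945, nat_lit 621, nat_lit 441] (nat_lit 0) [] false,
   Spec.mk (nat_lit 491) (nat_lit 0) [nat_lit 977, nat_lit 329, nat_lit 497, nat_lit 493] (nat_lit 0) [nat_lit 2677] false,
   Spec.mk (nat_lit 493) (nat_lit 0) [nat_lit 979, nat_lit 331, nat_lit 499, nat_lit 491] (nat_lit 0) [nat_lit 2679] false,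
   Spec.mk (nat_lit 497) (nat_lit 0) [nat_lit 983, nat_lit 335, nat_lit 515, nat_lit 491, nat_lit 499] (nat_lit 2) [nat_lit 2683] false,
   Spec.mk (nat_lit 499) (nat_lit 0) [nat_lit 985, nat_lit 337, nat_lit 517, nat_lit 493, nat_lit 505, nat_lit 497, nat_lit 501] (nat_lit 0) [nat_lit 2685] false,
   Spec.mk (nat_lit 501) (nat_lit 0) [nat_lit 987, nat_lit 339, nat_lit 519, nat_lit 507, nat_lit 499] (nat_lit 0) [] false,
   Spec.mk (nat_lit 505) (nat_lit 0) [nat_lit 991, nat_lit 343, nat_lit 523, nat_lit 499, nat_lit 507] (nat_lit 2) [nat_lit 2691] false,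
   Spec.mk (nat_lit 507) (nat_lit 0) [nat_lit 993, nat_lit 345, nat_lit 525, nat_lit 501, nat_lit 505] (nat_lit 0) [] false,
   Spec.mk (nat_lit 515) (nat_lit 0) [nat_lit 1001, nat_lit 353, nat_lit 569, nat_lit 497, nat_lit 517] (nat_lit 2) [nat_lit 2701] false,
   Spec.mk (nat_lit 517) (nat_lit 0) [nat_lit 1003, nat_lit 355, nat_lit 571, nat_lit 499, nat_lit 523, nat_lit 515, nat_lit 519] (nat_lit 1) [nat_lit 2703] false,
   Spec.mk (nat_lit 519) (nat_lit 0) [nat_lit 1005, nat_lit 357, nat_lit 573, nat_lit 501, nat_lit 525, nat_lit 517] (nat_lit 2) [] false,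
   Spec.mk (nat_lit 523) (nat_lit 0) [nat_lit 1009, nat_lit 361, nat_lit 577, nat_lit 505, nat_lit 541, nat_lit 517, nat_lit 525] (nat_lit 1) [nat_lit 2709] false,
   Spec.mk (nat_lit 525) (nat_lit 0) [nat_lit 1011, nat_lit 363, nat_lit 579, nat_lit 507, nat_lit 543, nat_lit 519, nat_lit 531, nat_lit 523] (nat_lit 0) [] false,
   Spec.mk (nat_lit 531) (nat_lit 0) [nat_lit 1017, nat_lit 369, nat_lit 585, nat_lit 549, nat_lit 525] (nat_lit 0) [] false,
   Spec.mk (nat_lit 541) (nat_lit 0) [nat_lit 1027, nat_lit 379, nat_lit 595, nat_lit 523, nat_lit 543] (nat_lit 2) [nat_lit 2727] false,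
   Spec.mk (nat_lit 543) (nat_lit 0) [nat_lit 1029, nat_lit 381, nat_lit 597, nat_lit 525, nat_lit 549, nat_lit 541] (nat_lit 2) [] false,
   Spec.mk (nat_lit 549) (nat_lit 0) [nat_lit 1035, nat_lit 387, nat_lit 603, nat_lit 531, nat_lit 543] (nat_lit 0) [] false,
   Spec.mk (nat_lit 569) (nat_lit 0) [nat_lit 1055, nat_lit 407, nat_lit 515, nat_lit 571] (nat_lit 0) [nat_lit 2755] false,
   Spec.mk (nat_lit 571) (nat_lit 1) [nat_lit 1057, nat_lit 409, nat_lit 517, nat_lit 577, nat_lit 569, nat_lit 573] (nat_lit 0) [nat_lit 2757] false,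
   Spec.mk (nat_lit 573) (nat_lit 0) [nat_lit 1059, nat_lit 411, nat_lit 519, nat_lit 579, nat_lit 571] (nat_lit 0) [] false,
   Spec.mk (nat_lit 577) (nat_lit 0) [nat_lit 1063, nat_lit 415, nat_lit 523, nat_lit 595, nat_lit 571, nat_lit 579] (nat_lit 0) [nat_lit 2763] false,
   Spec.mk (nat_lit 579) (nat_lit 1) [nat_lit 1065, nat_lit 417, nat_lit 525, nat_lit 597, nat_lit 573, nat_lit 585, nat_lit 577] (nat_lit 0) [] false,
   Spec.mk (nat_lit 585) (nat_lit 0) [nat_lit 1071, nat_lit 423, nat_lit 531, nat_lit 603, nat_lit 579] (nat_lit 0) [] false,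
   Spec.mk (nat_lit 595) (nat_lit 1) [nat_lit 1081, nat_lit 433, nat_lit 541, nat_lit 649, nat_lit 577, nat_lit 597] (nat_lit 0) [nat_lit 2781] false,
   Spec.mk (nat_lit 597) (nat_lit 1) [nat_lit 1083, nat_lit 435, nat_lit 543, nat_lit 651, nat_lit 579, nat_lit 603, nat_lit 595] (nat_lit 0) [] false]

noncomputable def sp2 : List Spec :=
  [Spec.mk (nat_lit 603) (nat_lit 2) [nat_lit 1089, nat_lit 441, nat_lit 549, nat_lit 657, nat_lit 585, nat_lit 621, nat_lit 597] (nat_lit 0) [] false,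
   Spec.mk (nat_lit 621) (nat_lit 2) [nat_lit 1107, nat_lit 459, nat_lit 675, nat_lit 603] (nat_lit 0) [] false,
   Spec.mk (nat_lit 649) (nat_lit 2) [nat_lit 1135, nat_lit 595, nat_lit 651] (nat_lit 0) [nat_lit 2835] false,
   Spec.mk (nat_lit 651) (nat_lit 2) [nat_lit 1137, nat_lit 597, nat_lit 657, nat_lit 649] (nat_lit 0) [] false,
   Spec.mk (nat_lit 657) (nat_lit 2) [nat_lit 1143, nat_lit 603, nat_lit 675, nat_lit 651] (nat_lit 0) [] false,
   Spec.mk (nat_lit 675) (nat_lit 4) [nat_lit 1161, nat_lit 621, nat_lit 657] (nat_lit 0) [] false,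
   Spec.mk (nat_lit 737) (nat_lit 2) [nat_lit 2195, nat_lit 251, nat_lit 743] (nat_lit 0) [nat_lit 2923] false,
   Spec.mk (nat_lit 743) (nat_lit 1) [nat_lit 2201, nat_lit 257, nat_lit 761, nat_lit 737, nat_lit 749, nat_lit 745] (nat_lit 0) [nat_lit 2929] false,
   Spec.mk (nat_lit 745) (nat_lit 2) [nat_lit 2203, nat_lit 259, nat_lit 763, nat_lit 751, nat_lit 743] (nat_lit 0) [nat_lit 2931] false,
   Spec.mk (nat_lit 749) (nat_lit 0) [nat_lit 2207, nat_lit 263, nat_lit 767, nat_lit 743, nat_lit 751] (nat_lit 2) [nat_lit 2935] false,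
   Spec.mk (nat_lit 751) (nat_lit 1) [nat_lit 2209, nat_lit 265, nat_lit 769, nat_lit 745, nat_lit 749, nat_lit 753] (nat_lit 0) [nat_lit 2937] false,
   Spec.mk (nat_lit 753) (nat_lit 2) [nat_lit 2211, nat_lit 267, nat_lit 771, nat_lit 751] (nat_lit 0) [] false,
   Spec.mk (nat_lit 761) (nat_lit 0) [nat_lit 2219, nat_lit 275, nat_lit 815, nat_lit 743, nat_lit 767, nat_lit 763] (nat_lit 0) [nat_lit 2947] false,
   Spec.mk (nat_lit 763) (nat_lit 0) [nat_lit 2221, nat_lit 277, nat_lit 817, nat_lit 745, nat_lit 769, nat_lit 761] (nat_lit 0) [nat_lit 2949] false,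
   Spec.mk (nat_lit 767) (nat_lit 0) [nat_lit 2225, nat_lit 281, nat_lit 821, nat_lit 749, nat_lit 785, nat_lit 761, nat_lit 769] (nat_lit 1) [nat_lit 2953] false,
   Spec.mk (nat_lit 769) (nat_lit 1) [nat_lit 2227, nat_lit 283, nat_lit 823, nat_lit 751, nat_lit 787, nat_lit 763, nat_lit 775, nat_lit 767, nat_lit 771] (nat_lit 0) [nat_lit 2955] false,
   Spec.mk (nat_lit 771) (nat_lit 1) [nat_lit 2229, nat_lit 285, nat_lit 825, nat_lit 753, nat_lit 789, nat_lit 777, nat_lit 769] (nat_lit 0) [] false,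
   Spec.mk (nat_lit 775) (nat_lit 0) [nat_lit 2233, nat_lit 289, nat_lit 829, nat_lit 793, nat_lit 769, nat_lit 777] (nat_lit 0) [nat_lit 2961] false,
   Spec.mk (nat_lit 777) (nat_lit 2) [nat_lit 2235, nat_lit 291, nat_lit 831, nat_lit 795, nat_lit 771, nat_lit 775] (nat_lit 0) [] false,
   Spec.mk (nat_lit 785) (nat_lit 0) [nat_lit 2243, nat_lit 299, nat_lit 839, nat_lit 767, nat_lit 787] (nat_lit 2) [nat_lit 2971] false,
   Spec.mk (nat_lit 787) (nat_lit 0) [nat_lit 2245, nat_lit 301, nat_lit 841, nat_lit 769, nat_lit 793, nat_lit 785, nat_lit 789] (nat_lit 1) [nat_lit 2973] false,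
   Spec.mk (nat_lit 789) (nat_lit 0) [nat_lit 2247, nat_lit 303, nat_lit 843, nat_lit 771, nat_lit 795, nat_lit 787] (nat_lit 2) [] false,
   Spec.mk (nat_lit 793) (nat_lit 0) [nat_lit 2251, nat_lit 307, nat_lit 847, nat_lit 775, nat_lit 787, nat_lit 795] (nat_lit 0) [nat_lit 2979] false,
   Spec.mk (nat_lit 795) (nat_lit 1) [nat_lit 2253, nat_lit 309, nat_lit 849, nat_lit 777, nat_lit 789, nat_lit 801, nat_lit 793] (nat_lit 0) [] false,
   Spec.mk (nat_lit 801) (nat_lit 2) [nat_lit 2259, nat_lit 315, nat_lit 855, nat_lit 795] (nat_lit 0) [] false,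
   Spec.mk (nat_lit 815) (nat_lit 0) [nat_lit 2273, nat_lit 329, nat_lit 977, nat_lit 761, nat_lit 821, nat_lit 817] (nat_lit 0) [nat_lit 3001] false,
   Spec.mk (nat_lit 817) (nat_lit 0) [nat_lit 2275, nat_lit 331, nat_lit 979, nat_lit 763, nat_lit 823, nat_lit 815] (nat_lit 0) [nat_lit 3003] false,
   Spec.mk (nat_lit 821) (nat_lit 0) [nat_lit 2279, nat_lit 335, nat_lit 983, nat_lit 767, nat_lit 839, nat_lit 815, nat_lit 823] (nat_lit 2) [nat_lit 3007] true,
   Spec.mk (nat_lit 823) (nat_lit 0) [nat_lit 2281, nat_lit 337, nat_lit 985, nat_lit 769, nat_lit 841, nat_lit 817, nat_lit 829, nat_lit 821, nat_lit 825] (nat_lit 0) [nat_lit 3009] true,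
   Spec.mk (nat_lit 825) (nat_lit 0) [nat_lit 2283, nat_lit 339, nat_lit 987, nat_lit 771, nat_lit 843, nat_lit 831, nat_lit 823] (nat_lit 0) [] false,
   Spec.mk (nat_lit 829) (nat_lit 0) [nat_lit 2287, nat_lit 343, nat_lit 991, nat_lit 775, nat_lit 847, nat_lit 823, nat_lit 831] (nat_lit 2) [nat_lit 3015] false,
   Spec.mk (nat_lit 831) (nat_lit 0) [nat_lit 2289, nat_lit 345, nat_lit 993, nat_lit 777, nat_lit 849, nat_lit 825, nat_lit 829] (nat_lit 0) [] false,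
   Spec.mk (nat_lit 839) (nat_lit 0) [nat_lit 2297, nat_lit 353, nat_lit 1001, nat_lit 785, nat_lit 893, nat_lit 821, nat_lit 841] (nat_lit 1) [nat_lit 3025] false,
   Spec.mk (nat_lit 841) (nat_lit 0) [nat_lit 2299, nat_lit 355, nat_lit 1003, nat_lit 787, nat_lit 895, nat_lit 823, nat_lit 847, nat_lit 839, nat_lit 843] (nat_lit 0) [nat_lit 3027] true,
   Spec.mk (nat_lit 843) (nat_lit 0) [nat_lit 2301, nat_lit 357, nat_lit 1005, nat_lit 789, nat_lit 897, nat_lit 825, nat_lit 849, nat_lit 841] (nat_lit 1) [] false,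
   Spec.mk (nat_lit 847) (nat_lit 0) [nat_lit 2305, nat_lit 361, nat_lit 1009, nat_lit 793, nat_lit 901, nat_lit 829, nat_lit 865, nat_lit 841, nat_lit 849] (nat_lit 0) [nat_lit 3033] false,
   Spec.mk (nat_lit 849) (nat_lit 1) [nat_lit 2307, nat_lit 363, nat_lit 1011, nat_lit 795, nat_lit 903, nat_lit 831, nat_lit 867, nat_lit 843, nat_lit 855, nat_lit 847] (nat_lit 0) [] false,
   Spec.mk (nat_lit 855) (nat_lit 1) [nat_lit 2313, nat_lit 369, nat_lit 1017, nat_lit 801, nat_lit 909, nat_lit 873, nat_lit 849] (nat_lit 0) [] false,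
   Spec.mk (nat_lit 865) (nat_lit 0) [nat_lit 2323, nat_lit 379, nat_lit 1027, nat_lit 919, nat_lit 847, nat_lit 867] (nat_lit 0) [nat_lit 3051] false,
   Spec.mk (nat_lit 867) (nat_lit 0) [nat_lit 2325, nat_lit 381, nat_lit 1029, nat_lit 921, nat_lit 849, nat_lit 873, nat_lit 865] (nat_lit 0) [] false,
   Spec.mk (nat_lit 873) (nat_lit 2) [nat_lit 2331, nat_lit 387, nat_lit 1035, nat_lit 927, nat_lit 855, nat_lit 867] (nat_lit 0) [] false,
   Spec.mk (nat_lit 893) (nat_lit 0) [nat_lit 2351, nat_lit 407, nat_lit 1055, nat_lit 839, nat_lit 895] (nat_lit 2) [nat_lit 3079] false,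
   Spec.mk (nat_lit 895) (nat_lit 0) [nat_lit 2353, nat_lit 409, nat_lit 1057, nat_lit 841, nat_lit 901, nat_lit 893, nat_lit 897] (nat_lit 1) [nat_lit 3081] false,
   Spec.mk (nat_lit 897) (nat_lit 0) [nat_lit 2355, nat_lit 411, nat_lit 1059, nat_lit 843, nat_lit 903, nat_lit 895] (nat_lit 2) [] false,
   Spec.mk (nat_lit 901) (nat_lit 0) [nat_lit 2359, nat_lit 415, nat_lit 1063, nat_lit 847, nat_lit 919, nat_lit 895, nat_lit 903] (nat_lit 2) [nat_lit 3087] false,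
   Spec.mk (nat_lit 903) (nat_lit 0) [nat_lit 2361, nat_lit 417, nat_lit 1065, nat_lit 849, nat_lit 921, nat_lit 897, nat_lit 909, nat_lit 901] (nat_lit 1) [] false,
   Spec.mk (nat_lit 909) (nat_lit 0) [nat_lit 2367, nat_lit 423, nat_lit 1071, nat_lit 855, nat_lit 927, nat_lit 903] (nat_lit 2) [] false,
   Spec.mk (nat_lit 919) (nat_lit 0) [nat_lit 2377, nat_lit 433, nat_lit 1081, nat_lit 865, nat_lit 901, nat_lit 921] (nat_lit 0) [nat_lit 3105] false,
   Spec.mk (nat_lit 921) (nat_lit 0) [nat_lit 2379, nat_lit 435, nat_lit 1083, nat_lit 867, nat_lit 903, nat_lit 927, nat_lit 919] (nat_lit 0) [] false,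
   Spec.mk (nat_lit 927) (nat_lit 1) [nat_lit 2385, nat_lit 441, nat_lit 1089, nat_lit 873, nat_lit 909, nat_lit 945, nat_lit 921] (nat_lit 0) [] false,
   Spec.mk (nat_lit 945) (nat_lit 2) [nat_lit 2403, nat_lit 459, nat_lit 1107, nat_lit 927] (nat_lit 0) [] false,
   Spec.mk (nat_lit 977) (nat_lit 1) [nat_lit 2435, nat_lit 491, nat_lit 1463, nat_lit 815, nat_lit 983, nat_lit 979] (nat_lit 0) [nat_lit 3163] false,
   Spec.mk (nat_lit 979) (nat_lit 1) [nat_lit 2437, nat_lit 493, nat_lit 1465, nat_lit 817, nat_lit 985, nat_lit 977] (nat_lit 0) [nat_lit 3165] false,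
   Spec.mk (nat_lit 983) (nat_lit 0) [nat_lit 2441, nat_lit 497, nat_lit 1469, nat_lit 821, nat_lit 1001, nat_lit 977, nat_lit 985] (nat_lit 1) [nat_lit 3169] false,
   Spec.mk (nat_lit 985) (nat_lit 1) [nat_lit 2443, nat_lit 499, nat_lit 1471, nat_lit 823, nat_lit 1003, nat_lit 979, nat_lit 991, nat_lit 983, nat_lit 987] (nat_lit 0) [nat_lit 3171] false,
   Spec.mk (nat_lit 987) (nat_lit 1) [nat_lit 2445, nat_lit 501, nat_lit 1473, nat_lit 825, nat_lit 1005, nat_lit 993, nat_lit 985] (nat_lit 0) [] false,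
   Spec.mk (nat_lit 991) (nat_lit 0) [nat_lit 2449, nat_lit 505, nat_lit 1477, nat_lit 829, nat_lit 1009, nat_lit 985, nat_lit 993] (nat_lit 1) [nat_lit 3177] false,
   Spec.mk (nat_lit 993) (nat_lit 1) [nat_lit 2451, nat_lit 507, nat_lit 1479, nat_lit 831, nat_lit 1011, nat_lit 987, nat_lit 991] (nat_lit 0) [] false,
   Spec.mk (nat_lit 1001) (nat_lit 0) [nat_lit 2459, nat_lit 515, nat_lit 1487, nat_lit 839, nat_lit 1055, nat_lit 983, nat_lit 1003] (nat_lit 1) [nat_lit 3187] false,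
   Spec.mk (nat_lit 1003) (nat_lit 0) [nat_lit 2461, nat_lit 517, nat_lit 1489, nat_lit 841, nat_lit 1057, nat_lit 985, nat_lit 1009, nat_lit 1001, nat_lit 1005] (nat_lit 0) [nat_lit 3189] false]

noncomputable def sp3 : List Spec :=
  [Spec.mk (nat_lit 1005) (nat_lit 0) [nat_lit 2463, nat_lit 519, nat_lit 1491, nat_lit 843, nat_lit 1059, nat_lit 987, nat_lit 1011, nat_lit 1003] (nat_lit 1) [] false,
   Spec.mk (nat_lit 1009) (nat_lit 0) [nat_lit 2467, nat_lit 523, nat_lit 1495, nat_lit 847, nat_lit 1063, nat_lit 991, nat_lit 1027, nat_lit 1003, nat_lit 1011] (nat_lit 0) [nat_lit 3195] false,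
   Spec.mk (nat_lit 1011) (nat_lit 1) [nat_lit 2469, nat_lit 525, nat_lit 1497, nat_lit 849, nat_lit 1065, nat_lit 993, nat_lit 1029, nat_lit 1005, nat_lit 1017, nat_lit 1009] (nat_lit 0) [] false,
   Spec.mk (nat_lit 1017) (nat_lit 1) [nat_lit 2475, nat_lit 531, nat_lit 1503, nat_lit 855, nat_lit 1071, nat_lit 1035, nat_lit 1011] (nat_lit 0) [] false,
   Spec.mk (nat_lit 1027) (nat_lit 0) [nat_lit 2485, nat_lit 541, nat_lit 1513, nat_lit 865, nat_lit 1081, nat_lit 1009, nat_lit 1029] (nat_lit 1) [nat_lit 3213] false,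
   Spec.mk (nat_lit 1029) (nat_lit 0) [nat_lit 2487, nat_lit 543, nat_lit 1515, nat_lit 867, nat_lit 1083, nat_lit 1011, nat_lit 1035, nat_lit 1027] (nat_lit 1) [] false,
   Spec.mk (nat_lit 1035) (nat_lit 1) [nat_lit 2493, nat_lit 549, nat_lit 1521, nat_lit 873, nat_lit 1089, nat_lit 1017, nat_lit 1029] (nat_lit 0) [] false,
   Spec.mk (nat_lit 1055) (nat_lit 0) [nat_lit 2513, nat_lit 569, nat_lit 1541, nat_lit 893, nat_lit 1217, nat_lit 1001, nat_lit 1057] (nat_lit 0) [nat_lit 3241] false,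
   Spec.mk (nat_lit 1057) (nat_lit 1) [nat_lit 2515, nat_lit 571, nat_lit 1543, nat_lit 895, nat_lit 1219, nat_lit 1003, nat_lit 1063, nat_lit 1055, nat_lit 1059] (nat_lit 0) [nat_lit 3243] false,
   Spec.mk (nat_lit 1059) (nat_lit 0) [nat_lit 2517, nat_lit 573, nat_lit 1545, nat_lit 897, nat_lit 1221, nat_lit 1005, nat_lit 1065, nat_lit 1057] (nat_lit 0) [] false,
   Spec.mk (nat_lit 1063) (nat_lit 0) [nat_lit 2521, nat_lit 577, nat_lit 1549, nat_lit 901, nat_lit 1225, nat_lit 1009, nat_lit 1081, nat_lit 1057, nat_lit 1065] (nat_lit 0) [nat_lit 3249] false,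
   Spec.mk (nat_lit 1065) (nat_lit 1) [nat_lit 2523, nat_lit 579, nat_lit 1551, nat_lit 903, nat_lit 1227, nat_lit 1011, nat_lit 1083, nat_lit 1059, nat_lit 1071, nat_lit 1063] (nat_lit 0) [] false,
   Spec.mk (nat_lit 1071) (nat_lit 0) [nat_lit 2529, nat_lit 585, nat_lit 1557, nat_lit 909, nat_lit 1233, nat_lit 1017, nat_lit 1089, nat_lit 1065] (nat_lit 0) [] false,
   Spec.mk (nat_lit 1081) (nat_lit 1) [nat_lit 2539, nat_lit 595, nat_lit 1567, nat_lit 919, nat_lit 1243, nat_lit 1027, nat_lit 1135, nat_lit 1063, nat_lit 1083] (nat_lit 0) [nat_lit 3267] false,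
   Spec.mk (nat_lit 1083) (nat_lit 1) [nat_lit 2541, nat_lit 597, nat_lit 1569, nat_lit 921, nat_lit 1245, nat_lit 1029, nat_lit 1137, nat_lit 1065, nat_lit 1089, nat_lit 1081] (nat_lit 0) [] false,
   Spec.mk (nat_lit 1089) (nat_lit 2) [nat_lit 2547, nat_lit 603, nat_lit 1575, nat_lit 927, nat_lit 1251, nat_lit 1035, nat_lit 1143, nat_lit 1071, nat_lit 1107, nat_lit 1083] (nat_lit 0) [] false,
   Spec.mk (nat_lit 1107) (nat_lit 2) [nat_lit 2565, nat_lit 621, nat_lit 1593, nat_lit 945, nat_lit 1269, nat_lit 1161, nat_lit 1089] (nat_lit 0) [] false,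
   Spec.mk (nat_lit 1135) (nat_lit 1) [nat_lit 2593, nat_lit 649, nat_lit 1621, nat_lit 1297, nat_lit 1081, nat_lit 1137] (nat_lit 0) [nat_lit 3321] false,
   Spec.mk (nat_lit 1137) (nat_lit 1) [nat_lit 2595, nat_lit 651, nat_lit 1623, nat_lit 1299, nat_lit 1083, nat_lit 1143, nat_lit 1135] (nat_lit 0) [] false,
   Spec.mk (nat_lit 1143) (nat_lit 1) [nat_lit 2601, nat_lit 657, nat_lit 1629, nat_lit 1305, nat_lit 1089, nat_lit 1161, nat_lit 1137] (nat_lit 0) [] false,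
   Spec.mk (nat_lit 1161) (nat_lit 3) [nat_lit 2619, nat_lit 675, nat_lit 1647, nat_lit 1323, nat_lit 1107, nat_lit 1143] (nat_lit 0) [] false,
   Spec.mk (nat_lit 1217) (nat_lit 0) [nat_lit 2675, nat_lit 1703, nat_lit 1055, nat_lit 1219] (nat_lit 0) [nat_lit 3403] false,
   Spec.mk (nat_lit 1219) (nat_lit 1) [nat_lit 2677, nat_lit 1705, nat_lit 1057, nat_lit 1225, nat_lit 1217, nat_lit 1221] (nat_lit 0) [nat_lit 3405] false,
   Spec.mk (nat_lit 1221) (nat_lit 0) [nat_lit 2679, nat_lit 1707, nat_lit 1059, nat_lit 1227, nat_lit 1219] (nat_lit 0) [] false,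
   Spec.mk (nat_lit 1225) (nat_lit 0) [nat_lit 2683, nat_lit 1711, nat_lit 1063, nat_lit 1243, nat_lit 1219, nat_lit 1227] (nat_lit 0) [nat_lit 3411] false,
   Spec.mk (nat_lit 1227) (nat_lit 1) [nat_lit 2685, nat_lit 1713, nat_lit 1065, nat_lit 1245, nat_lit 1221, nat_lit 1233, nat_lit 1225] (nat_lit 0) [] false,
   Spec.mk (nat_lit 1233) (nat_lit 0) [nat_lit 2691, nat_lit 1719, nat_lit 1071, nat_lit 1251, nat_lit 1227] (nat_lit 0) [] false,
   Spec.mk (nat_lit 1243) (nat_lit 0) [nat_lit 2701, nat_lit 1729, nat_lit 1081, nat_lit 1297, nat_lit 1225, nat_lit 1245] (nat_lit 0) [nat_lit 3429] false,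
   Spec.mk (nat_lit 1245) (nat_lit 0) [nat_lit 2703, nat_lit 1731, nat_lit 1083, nat_lit 1299, nat_lit 1227, nat_lit 1251, nat_lit 1243] (nat_lit 0) [] false,
   Spec.mk (nat_lit 1251) (nat_lit 1) [nat_lit 2709, nat_lit 1737, nat_lit 1089, nat_lit 1305, nat_lit 1233, nat_lit 1269, nat_lit 1245] (nat_lit 0) [] false,
   Spec.mk (nat_lit 1269) (nat_lit 0) [nat_lit 2727, nat_lit 1755, nat_lit 1107, nat_lit 1323, nat_lit 1251] (nat_lit 0) [] false,
   Spec.mk (nat_lit 1297) (nat_lit 2) [nat_lit 2755, nat_lit 1783, nat_lit 1135, nat_lit 1243, nat_lit 1299] (nat_lit 0) [nat_lit 3483] false,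
   Spec.mk (nat_lit 1299) (nat_lit 2) [nat_lit 2757, nat_lit 1785, nat_lit 1137, nat_lit 1245, nat_lit 1305, nat_lit 1297] (nat_lit 0) [] false,
   Spec.mk (nat_lit 1305) (nat_lit 2) [nat_lit 2763, nat_lit 1791, nat_lit 1143, nat_lit 1251, nat_lit 1323, nat_lit 1299] (nat_lit 0) [] false,
   Spec.mk (nat_lit 1323) (nat_lit 3) [nat_lit 2781, nat_lit 1809, nat_lit 1161, nat_lit 1269, nat_lit 1377, nat_lit 1305] (nat_lit 0) [] false,
   Spec.mk (nat_lit 1377) (nat_lit 4) [nat_lit 2835, nat_lit 1863, nat_lit 1323] (nat_lit 0) [] false,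
   Spec.mk (nat_lit 1463) (nat_lit 0) [nat_lit 2921, nat_lit 977, nat_lit 1469, nat_lit 1465] (nat_lit 0) [nat_lit 3649] false,
   Spec.mk (nat_lit 1465) (nat_lit 0) [nat_lit 2923, nat_lit 979, nat_lit 1471, nat_lit 1463] (nat_lit 0) [nat_lit 3651] false,
   Spec.mk (nat_lit 1469) (nat_lit 0) [nat_lit 2927, nat_lit 983, nat_lit 1487, nat_lit 1463, nat_lit 1471] (nat_lit 2) [nat_lit 3655] false,
   Spec.mk (nat_lit 1471) (nat_lit 0) [nat_lit 2929, nat_lit 985, nat_lit 1489, nat_lit 1465, nat_lit 1477, nat_lit 1469, nat_lit 1473] (nat_lit 0) [nat_lit 3657] false,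
   Spec.mk (nat_lit 1473) (nat_lit 0) [nat_lit 2931, nat_lit 987, nat_lit 1491, nat_lit 1479, nat_lit 1471] (nat_lit 0) [] false,
   Spec.mk (nat_lit 1477) (nat_lit 0) [nat_lit 2935, nat_lit 991, nat_lit 1495, nat_lit 1471, nat_lit 1479] (nat_lit 2) [nat_lit 3663] false,
   Spec.mk (nat_lit 1479) (nat_lit 0) [nat_lit 2937, nat_lit 993, nat_lit 1497, nat_lit 1473, nat_lit 1477] (nat_lit 0) [] false,
   Spec.mk (nat_lit 1487) (nat_lit 0) [nat_lit 2945, nat_lit 1001, nat_lit 1541, nat_lit 1469, nat_lit 1489] (nat_lit 2) [nat_lit 3673] false,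
   Spec.mk (nat_lit 1489) (nat_lit 0) [nat_lit 2947, nat_lit 1003, nat_lit 1543, nat_lit 1471, nat_lit 1495, nat_lit 1487, nat_lit 1491] (nat_lit 1) [nat_lit 3675] false,
   Spec.mk (nat_lit 1491) (nat_lit 0) [nat_lit 2949, nat_lit 1005, nat_lit 1545, nat_lit 1473, nat_lit 1497, nat_lit 1489] (nat_lit 2) [] false,
   Spec.mk (nat_lit 1495) (nat_lit 0) [nat_lit 2953, nat_lit 1009, nat_lit 1549, nat_lit 1477, nat_lit 1513, nat_lit 1489, nat_lit 1497] (nat_lit 1) [nat_lit 3681] false,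
   Spec.mk (nat_lit 1497) (nat_lit 0) [nat_lit 2955, nat_lit 1011, nat_lit 1551, nat_lit 1479, nat_lit 1515, nat_lit 1491, nat_lit 1503, nat_lit 1495] (nat_lit 0) [] false,
   Spec.mk (nat_lit 1503) (nat_lit 0) [nat_lit 2961, nat_lit 1017, nat_lit 1557, nat_lit 1521, nat_lit 1497] (nat_lit 0) [] false,
   Spec.mk (nat_lit 1513) (nat_lit 0) [nat_lit 2971, nat_lit 1027, nat_lit 1567, nat_lit 1495, nat_lit 1515] (nat_lit 2) [nat_lit 3699] false,
   Spec.mk (nat_lit 1515) (nat_lit 0) [nat_lit 2973, nat_lit 1029, nat_lit 1569, nat_lit 1497, nat_lit 1521, nat_lit 1513] (nat_lit 2) [] false,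
   Spec.mk (nat_lit 1521) (nat_lit 0) [nat_lit 2979, nat_lit 1035, nat_lit 1575, nat_lit 1503, nat_lit 1515] (nat_lit 0) [] false,
   Spec.mk (nat_lit 1541) (nat_lit 0) [nat_lit 2999, nat_lit 1055, nat_lit 1703, nat_lit 1487, nat_lit 1543] (nat_lit 2) [nat_lit 3727] false,
   Spec.mk (nat_lit 1543) (nat_lit 0) [nat_lit 3001, nat_lit 1057, nat_lit 1705, nat_lit 1489, nat_lit 1549, nat_lit 1541, nat_lit 1545] (nat_lit 1) [nat_lit 3729] false,
   Spec.mk (nat_lit 1545) (nat_lit 0) [nat_lit 3003, nat_lit 1059, nat_lit 1707, nat_lit 1491, nat_lit 1551, nat_lit 1543] (nat_lit 2) [] false,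
   Spec.mk (nat_lit 1549) (nat_lit 0) [nat_lit 3007, nat_lit 1063, nat_lit 1711, nat_lit 1495, nat_lit 1567, nat_lit 1543, nat_lit 1551] (nat_lit 2) [nat_lit 3735] false,
   Spec.mk (nat_lit 1551) (nat_lit 0) [nat_lit 3009, nat_lit 1065, nat_lit 1713, nat_lit 1497, nat_lit 1569, nat_lit 1545, nat_lit 1557, nat_lit 1549] (nat_lit 1) [] false,
   Spec.mk (nat_lit 1557) (nat_lit 0) [nat_lit 3015, nat_lit 1071, nat_lit 1719, nat_lit 1503, nat_lit 1575, nat_lit 1551] (nat_lit 2) [] false,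
   Spec.mk (nat_lit 1567) (nat_lit 0) [nat_lit 3025, nat_lit 1081, nat_lit 1729, nat_lit 1513, nat_lit 1621, nat_lit 1549, nat_lit 1569] (nat_lit 1) [nat_lit 3753] false,
   Spec.mk (nat_lit 1569) (nat_lit 0) [nat_lit 3027, nat_lit 1083, nat_lit 1731, nat_lit 1515, nat_lit 1623, nat_lit 1551, nat_lit 1575, nat_lit 1567] (nat_lit 1) [] false]

noncomputable def sp4 : List Spec :=
  [Spec.mk (nat_lit 1575) (nat_lit 0) [nat_lit 3033, nat_lit 1089, nat_lit 1737, nat_lit 1521, nat_lit 1629, nat_lit 1557, nat_lit 1593, nat_lit 1569] (nat_lit 0) [] false,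
   Spec.mk (nat_lit 1593) (nat_lit 0) [nat_lit 3051, nat_lit 1107, nat_lit 1755, nat_lit 1647, nat_lit 1575] (nat_lit 0) [] false,
   Spec.mk (nat_lit 1621) (nat_lit 0) [nat_lit 3079, nat_lit 1135, nat_lit 1783, nat_lit 1567, nat_lit 1623] (nat_lit 2) [nat_lit 3807] false,
   Spec.mk (nat_lit 1623) (nat_lit 0) [nat_lit 3081, nat_lit 1137, nat_lit 1785, nat_lit 1569, nat_lit 1629, nat_lit 1621] (nat_lit 2) [] false,
   Spec.mk (nat_lit 1629) (nat_lit 0) [nat_lit 3087, nat_lit 1143, nat_lit 1791, nat_lit 1575, nat_lit 1647, nat_lit 1623] (nat_lit 2) [] false,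
   Spec.mk (nat_lit 1647) (nat_lit 0) [nat_lit 3105, nat_lit 1161, nat_lit 1809, nat_lit 1593, nat_lit 1629] (nat_lit 0) [] false,
   Spec.mk (nat_lit 1703) (nat_lit 0) [nat_lit 3161, nat_lit 1217, nat_lit 1541, nat_lit 1705] (nat_lit 0) [nat_lit 3889] false,
   Spec.mk (nat_lit 1705) (nat_lit 1) [nat_lit 3163, nat_lit 1219, nat_lit 1543, nat_lit 1711, nat_lit 1703, nat_lit 1707] (nat_lit 0) [nat_lit 3891] false,
   Spec.mk (nat_lit 1707) (nat_lit 0) [nat_lit 3165, nat_lit 1221, nat_lit 1545, nat_lit 1713, nat_lit 1705] (nat_lit 0) [] false,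
   Spec.mk (nat_lit 1711) (nat_lit 0) [nat_lit 3169, nat_lit 1225, nat_lit 1549, nat_lit 1729, nat_lit 1705, nat_lit 1713] (nat_lit 0) [nat_lit 3897] false,
   Spec.mk (nat_lit 1713) (nat_lit 1) [nat_lit 3171, nat_lit 1227, nat_lit 1551, nat_lit 1731, nat_lit 1707, nat_lit 1719, nat_lit 1711] (nat_lit 0) [] false,
   Spec.mk (nat_lit 1719) (nat_lit 0) [nat_lit 3177, nat_lit 1233, nat_lit 1557, nat_lit 1737, nat_lit 1713] (nat_lit 0) [] false,
   Spec.mk (nat_lit 1729) (nat_lit 0) [nat_lit 3187, nat_lit 1243, nat_lit 1567, nat_lit 1783, nat_lit 1711, nat_lit 1731] (nat_lit 0) [nat_lit 3915] false,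
   Spec.mk (nat_lit 1731) (nat_lit 0) [nat_lit 3189, nat_lit 1245, nat_lit 1569, nat_lit 1785, nat_lit 1713, nat_lit 1737, nat_lit 1729] (nat_lit 0) [] false,
   Spec.mk (nat_lit 1737) (nat_lit 1) [nat_lit 3195, nat_lit 1251, nat_lit 1575, nat_lit 1791, nat_lit 1719, nat_lit 1755, nat_lit 1731] (nat_lit 0) [] false,
   Spec.mk (nat_lit 1755) (nat_lit 0) [nat_lit 3213, nat_lit 1269, nat_lit 1593, nat_lit 1809, nat_lit 1737] (nat_lit 0) [] false,
   Spec.mk (nat_lit 1783) (nat_lit 1) [nat_lit 3241, nat_lit 1297, nat_lit 1621, nat_lit 1945, nat_lit 1729, nat_lit 1785] (nat_lit 0) [nat_lit 3969] false,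
   Spec.mk (nat_lit 1785) (nat_lit 1) [nat_lit 3243, nat_lit 1299, nat_lit 1623, nat_lit 1947, nat_lit 1731, nat_lit 1791, nat_lit 1783] (nat_lit 0) [] false,
   Spec.mk (nat_lit 1791) (nat_lit 1) [nat_lit 3249, nat_lit 1305, nat_lit 1629, nat_lit 1953, nat_lit 1737, nat_lit 1809, nat_lit 1785] (nat_lit 0) [] false,
   Spec.mk (nat_lit 1809) (nat_lit 2) [nat_lit 3267, nat_lit 1323, nat_lit 1647, nat_lit 1971, nat_lit 1755, nat_lit 1863, nat_lit 1791] (nat_lit 0) [] false,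
   Spec.mk (nat_lit 1863) (nat_lit 2) [nat_lit 3321, nat_lit 1377, nat_lit 2025, nat_lit 1809] (nat_lit 0) [] false,
   Spec.mk (nat_lit 1945) (nat_lit 2) [nat_lit 3403, nat_lit 1783, nat_lit 1947] (nat_lit 0) [nat_lit 4131] false,
   Spec.mk (nat_lit 1947) (nat_lit 2) [nat_lit 3405, nat_lit 1785, nat_lit 1953, nat_lit 1945] (nat_lit 0) [] false,
   Spec.mk (nat_lit 1953) (nat_lit 2) [nat_lit 3411, nat_lit 1791, nat_lit 1971, nat_lit 1947] (nat_lit 0) [] false,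
   Spec.mk (nat_lit 1971) (nat_lit 2) [nat_lit 3429, nat_lit 1809, nat_lit 2025, nat_lit 1953] (nat_lit 0) [] false,
   Spec.mk (nat_lit 2025) (nat_lit 4) [nat_lit 3483, nat_lit 1863, nat_lit 1971] (nat_lit 0) [] false,
   Spec.mk (nat_lit 2195) (nat_lit 4) [nat_lit 737, nat_lit 2201] (nat_lit 0) [nat_lit 4381] false,
   Spec.mk (nat_lit 2201) (nat_lit 3) [nat_lit 743, nat_lit 2219, nat_lit 2195, nat_lit 2207, nat_lit 2203] (nat_lit 0) [nat_lit 4387] false,
   Spec.mk (nat_lit 2203) (nat_lit 3) [nat_lit 745, nat_lit 2221, nat_lit 2209, nat_lit 2201] (nat_lit 0) [nat_lit 4389, nat_lit 17] false,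
   Spec.mk (nat_lit 2207) (nat_lit 0) [nat_lit 749, nat_lit 2225, nat_lit 2201, nat_lit 2209] (nat_lit 0) [nat_lit 4393] false,
   Spec.mk (nat_lit 2209) (nat_lit 2) [nat_lit 751, nat_lit 2227, nat_lit 2203, nat_lit 2207, nat_lit 2211] (nat_lit 0) [nat_lit 4395, nat_lit 23] false,
   Spec.mk (nat_lit 2211) (nat_lit 2) [nat_lit 753, nat_lit 2229, nat_lit 2209] (nat_lit 0) [nat_lit 25] false,
   Spec.mk (nat_lit 2219) (nat_lit 2) [nat_lit 761, nat_lit 2273, nat_lit 2201, nat_lit 2225, nat_lit 2221] (nat_lit 0) [nat_lit 4405] false,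
   Spec.mk (nat_lit 2221) (nat_lit 1) [nat_lit 763, nat_lit 2275, nat_lit 2203, nat_lit 2227, nat_lit 2219] (nat_lit 0) [nat_lit 4407, nat_lit 35] false,
   Spec.mk (nat_lit 2225) (nat_lit 1) [nat_lit 767, nat_lit 2279, nat_lit 2207, nat_lit 2243, nat_lit 2219, nat_lit 2227] (nat_lit 0) [nat_lit 4411] false,
   Spec.mk (nat_lit 2227) (nat_lit 2) [nat_lit 769, nat_lit 2281, nat_lit 2209, nat_lit 2245, nat_lit 2221, nat_lit 2233, nat_lit 2225, nat_lit 2229] (nat_lit 0) [nat_lit 4413, nat_lit 41] false,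
   Spec.mk (nat_lit 2229) (nat_lit 1) [nat_lit 771, nat_lit 2283, nat_lit 2211, nat_lit 2247, nat_lit 2235, nat_lit 2227] (nat_lit 0) [nat_lit 43] false,
   Spec.mk (nat_lit 2233) (nat_lit 1) [nat_lit 775, nat_lit 2287, nat_lit 2251, nat_lit 2227, nat_lit 2235] (nat_lit 0) [nat_lit 4419, nat_lit 47] false,
   Spec.mk (nat_lit 2235) (nat_lit 2) [nat_lit 777, nat_lit 2289, nat_lit 2253, nat_lit 2229, nat_lit 2233] (nat_lit 0) [nat_lit 49] false,
   Spec.mk (nat_lit 2243) (nat_lit 0) [nat_lit 785, nat_lit 2297, nat_lit 2225, nat_lit 2245] (nat_lit 0) [nat_lit 4429] false,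
   Spec.mk (nat_lit 2245) (nat_lit 0) [nat_lit 787, nat_lit 2299, nat_lit 2227, nat_lit 2251, nat_lit 2243, nat_lit 2247] (nat_lit 0) [nat_lit 4431, nat_lit 59] false,
   Spec.mk (nat_lit 2247) (nat_lit 0) [nat_lit 789, nat_lit 2301, nat_lit 2229, nat_lit 2253, nat_lit 2245] (nat_lit 2) [nat_lit 61] false,
   Spec.mk (nat_lit 2251) (nat_lit 1) [nat_lit 793, nat_lit 2305, nat_lit 2233, nat_lit 2245, nat_lit 2253] (nat_lit 0) [nat_lit 4437, nat_lit 65] false,
   Spec.mk (nat_lit 2253) (nat_lit 1) [nat_lit 795, nat_lit 2307, nat_lit 2235, nat_lit 2247, nat_lit 2259, nat_lit 2251] (nat_lit 0) [nat_lit 67] false,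
   Spec.mk (nat_lit 2259) (nat_lit 2) [nat_lit 801, nat_lit 2313, nat_lit 2253] (nat_lit 0) [nat_lit 73] false,
   Spec.mk (nat_lit 2273) (nat_lit 2) [nat_lit 815, nat_lit 2435, nat_lit 2219, nat_lit 2279, nat_lit 2275] (nat_lit 0) [nat_lit 4459] false,
   Spec.mk (nat_lit 2275) (nat_lit 1) [nat_lit 817, nat_lit 2437, nat_lit 2221, nat_lit 2281, nat_lit 2273] (nat_lit 0) [nat_lit 4461, nat_lit 89] false,
   Spec.mk (nat_lit 2279) (nat_lit 0) [nat_lit 821, nat_lit 2441, nat_lit 2225, nat_lit 2297, nat_lit 2273, nat_lit 2281] (nat_lit 0) [nat_lit 4465] false,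
   Spec.mk (nat_lit 2281) (nat_lit 1) [nat_lit 823, nat_lit 2443, nat_lit 2227, nat_lit 2299, nat_lit 2275, nat_lit 2287, nat_lit 2279, nat_lit 2283] (nat_lit 0) [nat_lit 4467, nat_lit 95] false,
   Spec.mk (nat_lit 2283) (nat_lit 0) [nat_lit 825, nat_lit 2445, nat_lit 2229, nat_lit 2301, nat_lit 2289, nat_lit 2281] (nat_lit 0) [nat_lit 97] false,
   Spec.mk (nat_lit 2287) (nat_lit 0) [nat_lit 829, nat_lit 2449, nat_lit 2233, nat_lit 2305, nat_lit 2281, nat_lit 2289] (nat_lit 1) [nat_lit 4473, nat_lit 101] false,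
   Spec.mk (nat_lit 2289) (nat_lit 0) [nat_lit 831, nat_lit 2451, nat_lit 2235, nat_lit 2307, nat_lit 2283, nat_lit 2287] (nat_lit 0) [nat_lit 103] false,
   Spec.mk (nat_lit 2297) (nat_lit 1) [nat_lit 839, nat_lit 2459, nat_lit 2243, nat_lit 2351, nat_lit 2279, nat_lit 2299] (nat_lit 0) [nat_lit 4483] false,
   Spec.mk (nat_lit 2299) (nat_lit 1) [nat_lit 841, nat_lit 2461, nat_lit 2245, nat_lit 2353, nat_lit 2281, nat_lit 2305, nat_lit 2297, nat_lit 2301] (nat_lit 0) [nat_lit 4485, nat_lit 113] false,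
   Spec.mk (nat_lit 2301) (nat_lit 0) [nat_lit 843, nat_lit 2463, nat_lit 2247, nat_lit 2355, nat_lit 2283, nat_lit 2307, nat_lit 2299] (nat_lit 1) [nat_lit 115] false,
   Spec.mk (nat_lit 2305) (nat_lit 1) [nat_lit 847, nat_lit 2467, nat_lit 2251, nat_lit 2359, nat_lit 2287, nat_lit 2323, nat_lit 2299, nat_lit 2307] (nat_lit 0) [nat_lit 4491, nat_lit 119] false,
   Spec.mk (nat_lit 2307) (nat_lit 1) [nat_lit 849, nat_lit 2469, nat_lit 2253, nat_lit 2361, nat_lit 2289, nat_lit 2325, nat_lit 2301, nat_lit 2313, nat_lit 2305] (nat_lit 0) [nat_lit 121] false,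
   Spec.mk (nat_lit 2313) (nat_lit 1) [nat_lit 855, nat_lit 2475, nat_lit 2259, nat_lit 2367, nat_lit 2331, nat_lit 2307] (nat_lit 0) [nat_lit 127] false,
   Spec.mk (nat_lit 2323) (nat_lit 1) [nat_lit 865, nat_lit 2485, nat_lit 2377, nat_lit 2305, nat_lit 2325] (nat_lit 0) [nat_lit 4509, nat_lit 137] false,
   Spec.mk (nat_lit 2325) (nat_lit 0) [nat_lit 867, nat_lit 2487, nat_lit 2379, nat_lit 2307, nat_lit 2331, nat_lit 2323] (nat_lit 0) [nat_lit 139] false]

noncomputable def sp5 : List Spec :=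
  [Spec.mk (nat_lit 2331) (nat_lit 2) [nat_lit 873, nat_lit 2493, nat_lit 2385, nat_lit 2313, nat_lit 2325] (nat_lit 0) [nat_lit 145] false,
   Spec.mk (nat_lit 2351) (nat_lit 0) [nat_lit 893, nat_lit 2513, nat_lit 2297, nat_lit 2353] (nat_lit 0) [nat_lit 4537] false,
   Spec.mk (nat_lit 2353) (nat_lit 0) [nat_lit 895, nat_lit 2515, nat_lit 2299, nat_lit 2359, nat_lit 2351, nat_lit 2355] (nat_lit 0) [nat_lit 4539, nat_lit 167] false,
   Spec.mk (nat_lit 2355) (nat_lit 0) [nat_lit 897, nat_lit 2517, nat_lit 2301, nat_lit 2361, nat_lit 2353] (nat_lit 2) [nat_lit 169] false,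
   Spec.mk (nat_lit 2359) (nat_lit 0) [nat_lit 901, nat_lit 2521, nat_lit 2305, nat_lit 2377, nat_lit 2353, nat_lit 2361] (nat_lit 1) [nat_lit 4545, nat_lit 173] false,
   Spec.mk (nat_lit 2361) (nat_lit 0) [nat_lit 903, nat_lit 2523, nat_lit 2307, nat_lit 2379, nat_lit 2355, nat_lit 2367, nat_lit 2359] (nat_lit 1) [nat_lit 175] false,
   Spec.mk (nat_lit 2367) (nat_lit 0) [nat_lit 909, nat_lit 2529, nat_lit 2313, nat_lit 2385, nat_lit 2361] (nat_lit 2) [nat_lit 181] false,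
   Spec.mk (nat_lit 2377) (nat_lit 1) [nat_lit 919, nat_lit 2539, nat_lit 2323, nat_lit 2359, nat_lit 2379] (nat_lit 0) [nat_lit 4563, nat_lit 191] false,
   Spec.mk (nat_lit 2379) (nat_lit 0) [nat_lit 921, nat_lit 2541, nat_lit 2325, nat_lit 2361, nat_lit 2385, nat_lit 2377] (nat_lit 0) [nat_lit 193] false,
   Spec.mk (nat_lit 2385) (nat_lit 1) [nat_lit 927, nat_lit 2547, nat_lit 2331, nat_lit 2367, nat_lit 2403, nat_lit 2379] (nat_lit 0) [nat_lit 199] false,
   Spec.mk (nat_lit 2403) (nat_lit 2) [nat_lit 945, nat_lit 2565, nat_lit 2385] (nat_lit 0) [nat_lit 217] false,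
   Spec.mk (nat_lit 2435) (nat_lit 2) [nat_lit 977, nat_lit 2921, nat_lit 2273, nat_lit 2441, nat_lit 2437] (nat_lit 0) [nat_lit 4621] false,
   Spec.mk (nat_lit 2437) (nat_lit 1) [nat_lit 979, nat_lit 2923, nat_lit 2275, nat_lit 2443, nat_lit 2435] (nat_lit 0) [nat_lit 4623, nat_lit 251] false,
   Spec.mk (nat_lit 2441) (nat_lit 0) [nat_lit 983, nat_lit 2927, nat_lit 2279, nat_lit 2459, nat_lit 2435, nat_lit 2443] (nat_lit 0) [nat_lit 4627] false,
   Spec.mk (nat_lit 2443) (nat_lit 1) [nat_lit 985, nat_lit 2929, nat_lit 2281, nat_lit 2461, nat_lit 2437, nat_lit 2449, nat_lit 2441, nat_lit 2445] (nat_lit 0) [nat_lit 4629, nat_lit 257] false,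
   Spec.mk (nat_lit 2445) (nat_lit 0) [nat_lit 987, nat_lit 2931, nat_lit 2283, nat_lit 2463, nat_lit 2451, nat_lit 2443] (nat_lit 0) [nat_lit 259] false,
   Spec.mk (nat_lit 2449) (nat_lit 0) [nat_lit 991, nat_lit 2935, nat_lit 2287, nat_lit 2467, nat_lit 2443, nat_lit 2451] (nat_lit 1) [nat_lit 4635, nat_lit 263] false,
   Spec.mk (nat_lit 2451) (nat_lit 0) [nat_lit 993, nat_lit 2937, nat_lit 2289, nat_lit 2469, nat_lit 2445, nat_lit 2449] (nat_lit 0) [nat_lit 265] false,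
   Spec.mk (nat_lit 2459) (nat_lit 0) [nat_lit 1001, nat_lit 2945, nat_lit 2297, nat_lit 2513, nat_lit 2441, nat_lit 2461] (nat_lit 0) [nat_lit 4645] false,
   Spec.mk (nat_lit 2461) (nat_lit 0) [nat_lit 1003, nat_lit 2947, nat_lit 2299, nat_lit 2515, nat_lit 2443, nat_lit 2467, nat_lit 2459, nat_lit 2463] (nat_lit 0) [nat_lit 4647, nat_lit 275] false,
   Spec.mk (nat_lit 2463) (nat_lit 0) [nat_lit 1005, nat_lit 2949, nat_lit 2301, nat_lit 2517, nat_lit 2445, nat_lit 2469, nat_lit 2461] (nat_lit 2) [nat_lit 277] false,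
   Spec.mk (nat_lit 2467) (nat_lit 0) [nat_lit 1009, nat_lit 2953, nat_lit 2305, nat_lit 2521, nat_lit 2449, nat_lit 2485, nat_lit 2461, nat_lit 2469] (nat_lit 0) [nat_lit 4653, nat_lit 281] false,
   Spec.mk (nat_lit 2469) (nat_lit 0) [nat_lit 1011, nat_lit 2955, nat_lit 2307, nat_lit 2523, nat_lit 2451, nat_lit 2487, nat_lit 2463, nat_lit 2475, nat_lit 2467] (nat_lit 0) [nat_lit 283] false,
   Spec.mk (nat_lit 2475) (nat_lit 0) [nat_lit 1017, nat_lit 2961, nat_lit 2313, nat_lit 2529, nat_lit 2493, nat_lit 2469] (nat_lit 0) [nat_lit 289] false,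
   Spec.mk (nat_lit 2485) (nat_lit 0) [nat_lit 1027, nat_lit 2971, nat_lit 2323, nat_lit 2539, nat_lit 2467, nat_lit 2487] (nat_lit 1) [nat_lit 4671, nat_lit 299] false,
   Spec.mk (nat_lit 2487) (nat_lit 0) [nat_lit 1029, nat_lit 2973, nat_lit 2325, nat_lit 2541, nat_lit 2469, nat_lit 2493, nat_lit 2485] (nat_lit 2) [nat_lit 301] false,
   Spec.mk (nat_lit 2493) (nat_lit 0) [nat_lit 1035, nat_lit 2979, nat_lit 2331, nat_lit 2547, nat_lit 2475, nat_lit 2487] (nat_lit 0) [nat_lit 307] false,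
   Spec.mk (nat_lit 2513) (nat_lit 1) [nat_lit 1055, nat_lit 2999, nat_lit 2351, nat_lit 2675, nat_lit 2459, nat_lit 2515] (nat_lit 0) [nat_lit 4699] false,
   Spec.mk (nat_lit 2515) (nat_lit 1) [nat_lit 1057, nat_lit 3001, nat_lit 2353, nat_lit 2677, nat_lit 2461, nat_lit 2521, nat_lit 2513, nat_lit 2517] (nat_lit 0) [nat_lit 4701, nat_lit 329] false,
   Spec.mk (nat_lit 2517) (nat_lit 0) [nat_lit 1059, nat_lit 3003, nat_lit 2355, nat_lit 2679, nat_lit 2463, nat_lit 2523, nat_lit 2515] (nat_lit 1) [nat_lit 331] false,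
   Spec.mk (nat_lit 2521) (nat_lit 0) [nat_lit 1063, nat_lit 3007, nat_lit 2359, nat_lit 2683, nat_lit 2467, nat_lit 2539, nat_lit 2515, nat_lit 2523] (nat_lit 0) [nat_lit 4707, nat_lit 335] false,
   Spec.mk (nat_lit 2523) (nat_lit 0) [nat_lit 1065, nat_lit 3009, nat_lit 2361, nat_lit 2685, nat_lit 2469, nat_lit 2541, nat_lit 2517, nat_lit 2529, nat_lit 2521] (nat_lit 0) [nat_lit 337] false,
   Spec.mk (nat_lit 2529) (nat_lit 0) [nat_lit 1071, nat_lit 3015, nat_lit 2367, nat_lit 2691, nat_lit 2475, nat_lit 2547, nat_lit 2523] (nat_lit 1) [nat_lit 343] false,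
   Spec.mk (nat_lit 2539) (nat_lit 1) [nat_lit 1081, nat_lit 3025, nat_lit 2377, nat_lit 2701, nat_lit 2485, nat_lit 2593, nat_lit 2521, nat_lit 2541] (nat_lit 0) [nat_lit 4725, nat_lit 353] false,
   Spec.mk (nat_lit 2541) (nat_lit 0) [nat_lit 1083, nat_lit 3027, nat_lit 2379, nat_lit 2703, nat_lit 2487, nat_lit 2595, nat_lit 2523, nat_lit 2547, nat_lit 2539] (nat_lit 0) [nat_lit 355] false,
   Spec.mk (nat_lit 2547) (nat_lit 1) [nat_lit 1089, nat_lit 3033, nat_lit 2385, nat_lit 2709, nat_lit 2493, nat_lit 2601, nat_lit 2529, nat_lit 2565, nat_lit 2541] (nat_lit 0) [nat_lit 361] false,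
   Spec.mk (nat_lit 2565) (nat_lit 1) [nat_lit 1107, nat_lit 3051, nat_lit 2403, nat_lit 2727, nat_lit 2619, nat_lit 2547] (nat_lit 0) [nat_lit 379] false,
   Spec.mk (nat_lit 2593) (nat_lit 1) [nat_lit 1135, nat_lit 3079, nat_lit 2755, nat_lit 2539, nat_lit 2595] (nat_lit 0) [nat_lit 4779, nat_lit 407] false,
   Spec.mk (nat_lit 2595) (nat_lit 0) [nat_lit 1137, nat_lit 3081, nat_lit 2757, nat_lit 2541, nat_lit 2601, nat_lit 2593] (nat_lit 0) [nat_lit 409] false,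
   Spec.mk (nat_lit 2601) (nat_lit 0) [nat_lit 1143, nat_lit 3087, nat_lit 2763, nat_lit 2547, nat_lit 2619, nat_lit 2595] (nat_lit 0) [nat_lit 415] false,
   Spec.mk (nat_lit 2619) (nat_lit 2) [nat_lit 1161, nat_lit 3105, nat_lit 2781, nat_lit 2565, nat_lit 2601] (nat_lit 0) [nat_lit 433] false,
   Spec.mk (nat_lit 2675) (nat_lit 0) [nat_lit 1217, nat_lit 3161, nat_lit 2513, nat_lit 2677] (nat_lit 0) [nat_lit 4861] false,
   Spec.mk (nat_lit 2677) (nat_lit 0) [nat_lit 1219, nat_lit 3163, nat_lit 2515, nat_lit 2683, nat_lit 2675, nat_lit 2679] (nat_lit 0) [nat_lit 4863, nat_lit 491] false,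
   Spec.mk (nat_lit 2679) (nat_lit 0) [nat_lit 1221, nat_lit 3165, nat_lit 2517, nat_lit 2685, nat_lit 2677] (nat_lit 2) [nat_lit 493] false,
   Spec.mk (nat_lit 2683) (nat_lit 0) [nat_lit 1225, nat_lit 3169, nat_lit 2521, nat_lit 2701, nat_lit 2677, nat_lit 2685] (nat_lit 1) [nat_lit 4869, nat_lit 497] false,
   Spec.mk (nat_lit 2685) (nat_lit 0) [nat_lit 1227, nat_lit 3171, nat_lit 2523, nat_lit 2703, nat_lit 2679, nat_lit 2691, nat_lit 2683] (nat_lit 1) [nat_lit 499] false,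
   Spec.mk (nat_lit 2691) (nat_lit 0) [nat_lit 1233, nat_lit 3177, nat_lit 2529, nat_lit 2709, nat_lit 2685] (nat_lit 2) [nat_lit 505] false,
   Spec.mk (nat_lit 2701) (nat_lit 0) [nat_lit 1243, nat_lit 3187, nat_lit 2539, nat_lit 2755, nat_lit 2683, nat_lit 2703] (nat_lit 1) [nat_lit 4887, nat_lit 515] false,
   Spec.mk (nat_lit 2703) (nat_lit 0) [nat_lit 1245, nat_lit 3189, nat_lit 2541, nat_lit 2757, nat_lit 2685, nat_lit 2709, nat_lit 2701] (nat_lit 2) [nat_lit 517] false,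
   Spec.mk (nat_lit 2709) (nat_lit 0) [nat_lit 1251, nat_lit 3195, nat_lit 2547, nat_lit 2763, nat_lit 2691, nat_lit 2727, nat_lit 2703] (nat_lit 1) [nat_lit 523] false,
   Spec.mk (nat_lit 2727) (nat_lit 0) [nat_lit 1269, nat_lit 3213, nat_lit 2565, nat_lit 2781, nat_lit 2709] (nat_lit 2) [nat_lit 541] false,
   Spec.mk (nat_lit 2755) (nat_lit 1) [nat_lit 1297, nat_lit 3241, nat_lit 2593, nat_lit 2701, nat_lit 2757] (nat_lit 0) [nat_lit 4941, nat_lit 569] false,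
   Spec.mk (nat_lit 2757) (nat_lit 0) [nat_lit 1299, nat_lit 3243, nat_lit 2595, nat_lit 2703, nat_lit 2763, nat_lit 2755] (nat_lit 0) [nat_lit 571] false,
   Spec.mk (nat_lit 2763) (nat_lit 0) [nat_lit 1305, nat_lit 3249, nat_lit 2601, nat_lit 2709, nat_lit 2781, nat_lit 2757] (nat_lit 0) [nat_lit 577] false,
   Spec.mk (nat_lit 2781) (nat_lit 1) [nat_lit 1323, nat_lit 3267, nat_lit 2619, nat_lit 2727, nat_lit 2835, nat_lit 2763] (nat_lit 0) [nat_lit 595] false,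
   Spec.mk (nat_lit 2835) (nat_lit 2) [nat_lit 1377, nat_lit 3321, nat_lit 2781] (nat_lit 0) [nat_lit 649] false,
   Spec.mk (nat_lit 2921) (nat_lit 3) [nat_lit 1463, nat_lit 4379, nat_lit 2435, nat_lit 2927, nat_lit 2923] (nat_lit 0) [nat_lit 5107] false,
   Spec.mk (nat_lit 2923) (nat_lit 2) [nat_lit 1465, nat_lit 4381, nat_lit 2437, nat_lit 2929, nat_lit 2921] (nat_lit 0) [nat_lit 5109, nat_lit 737] false,
   Spec.mk (nat_lit 2927) (nat_lit 1) [nat_lit 1469, nat_lit 4385, nat_lit 2441, nat_lit 2945, nat_lit 2921, nat_lit 2929] (nat_lit 0) [nat_lit 5113] false,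
   Spec.mk (nat_lit 2929) (nat_lit 2) [nat_lit 1471, nat_lit 4387, nat_lit 2443, nat_lit 2947, nat_lit 2923, nat_lit 2935, nat_lit 2927, nat_lit 2931] (nat_lit 0) [nat_lit 5115, nat_lit 743] false]

noncomputable def sp6 : List Spec :=
  [Spec.mk (nat_lit 2931) (nat_lit 1) [nat_lit 1473, nat_lit 4389, nat_lit 2445, nat_lit 2949, nat_lit 2937, nat_lit 2929] (nat_lit 0) [nat_lit 745] false,
   Spec.mk (nat_lit 2935) (nat_lit 0) [nat_lit 1477, nat_lit 4393, nat_lit 2449, nat_lit 2953, nat_lit 2929, nat_lit 2937] (nat_lit 0) [nat_lit 5121, nat_lit 749] false,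
   Spec.mk (nat_lit 2937) (nat_lit 1) [nat_lit 1479, nat_lit 4395, nat_lit 2451, nat_lit 2955, nat_lit 2931, nat_lit 2935] (nat_lit 0) [nat_lit 751] false,
   Spec.mk (nat_lit 2945) (nat_lit 1) [nat_lit 1487, nat_lit 4403, nat_lit 2459, nat_lit 2999, nat_lit 2927, nat_lit 2947] (nat_lit 0) [nat_lit 5131] false,
   Spec.mk (nat_lit 2947) (nat_lit 1) [nat_lit 1489, nat_lit 4405, nat_lit 2461, nat_lit 3001, nat_lit 2929, nat_lit 2953, nat_lit 2945, nat_lit 2949] (nat_lit 0) [nat_lit 5133, nat_lit 761] false,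
   Spec.mk (nat_lit 2949) (nat_lit 0) [nat_lit 1491, nat_lit 4407, nat_lit 2463, nat_lit 3003, nat_lit 2931, nat_lit 2955, nat_lit 2947] (nat_lit 1) [nat_lit 763] false,
   Spec.mk (nat_lit 2953) (nat_lit 1) [nat_lit 1495, nat_lit 4411, nat_lit 2467, nat_lit 3007, nat_lit 2935, nat_lit 2971, nat_lit 2947, nat_lit 2955] (nat_lit 0) [nat_lit 5139, nat_lit 767] false,
   Spec.mk (nat_lit 2955) (nat_lit 1) [nat_lit 1497, nat_lit 4413, nat_lit 2469, nat_lit 3009, nat_lit 2937, nat_lit 2973, nat_lit 2949, nat_lit 2961, nat_lit 2953] (nat_lit 0) [nat_lit 769] false,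
   Spec.mk (nat_lit 2961) (nat_lit 1) [nat_lit 1503, nat_lit 4419, nat_lit 2475, nat_lit 3015, nat_lit 2979, nat_lit 2955] (nat_lit 0) [nat_lit 775] false,
   Spec.mk (nat_lit 2971) (nat_lit 0) [nat_lit 1513, nat_lit 4429, nat_lit 2485, nat_lit 3025, nat_lit 2953, nat_lit 2973] (nat_lit 0) [nat_lit 5157, nat_lit 785] false,
   Spec.mk (nat_lit 2973) (nat_lit 0) [nat_lit 1515, nat_lit 4431, nat_lit 2487, nat_lit 3027, nat_lit 2955, nat_lit 2979, nat_lit 2971] (nat_lit 1) [nat_lit 787] false,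
   Spec.mk (nat_lit 2979) (nat_lit 1) [nat_lit 1521, nat_lit 4437, nat_lit 2493, nat_lit 3033, nat_lit 2961, nat_lit 2973] (nat_lit 0) [nat_lit 793] false,
   Spec.mk (nat_lit 2999) (nat_lit 1) [nat_lit 1541, nat_lit 4457, nat_lit 2513, nat_lit 3161, nat_lit 2945, nat_lit 3001] (nat_lit 0) [nat_lit 5185] false,
   Spec.mk (nat_lit 3001) (nat_lit 1) [nat_lit 1543, nat_lit 4459, nat_lit 2515, nat_lit 3163, nat_lit 2947, nat_lit 3007, nat_lit 2999, nat_lit 3003] (nat_lit 0) [nat_lit 5187, nat_lit 815] false,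
   Spec.mk (nat_lit 3003) (nat_lit 0) [nat_lit 1545, nat_lit 4461, nat_lit 2517, nat_lit 3165, nat_lit 2949, nat_lit 3009, nat_lit 3001] (nat_lit 1) [nat_lit 817] false,
   Spec.mk (nat_lit 3007) (nat_lit 0) [nat_lit 1549, nat_lit 4465, nat_lit 2521, nat_lit 3169, nat_lit 2953, nat_lit 3025, nat_lit 3001, nat_lit 3009] (nat_lit 0) [nat_lit 5193, nat_lit 821] false,
   Spec.mk (nat_lit 3009) (nat_lit 0) [nat_lit 1551, nat_lit 4467, nat_lit 2523, nat_lit 3171, nat_lit 2955, nat_lit 3027, nat_lit 3003, nat_lit 3015, nat_lit 3007] (nat_lit 0) [nat_lit 823] false,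
   Spec.mk (nat_lit 3015) (nat_lit 0) [nat_lit 1557, nat_lit 4473, nat_lit 2529, nat_lit 3177, nat_lit 2961, nat_lit 3033, nat_lit 3009] (nat_lit 1) [nat_lit 829] false,
   Spec.mk (nat_lit 3025) (nat_lit 1) [nat_lit 1567, nat_lit 4483, nat_lit 2539, nat_lit 3187, nat_lit 2971, nat_lit 3079, nat_lit 3007, nat_lit 3027] (nat_lit 0) [nat_lit 5211, nat_lit 839] false,
   Spec.mk (nat_lit 3027) (nat_lit 0) [nat_lit 1569, nat_lit 4485, nat_lit 2541, nat_lit 3189, nat_lit 2973, nat_lit 3081, nat_lit 3009, nat_lit 3033, nat_lit 3025] (nat_lit 0) [nat_lit 841] false,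
   Spec.mk (nat_lit 3033) (nat_lit 1) [nat_lit 1575, nat_lit 4491, nat_lit 2547, nat_lit 3195, nat_lit 2979, nat_lit 3087, nat_lit 3015, nat_lit 3051, nat_lit 3027] (nat_lit 0) [nat_lit 847] false,
   Spec.mk (nat_lit 3051) (nat_lit 1) [nat_lit 1593, nat_lit 4509, nat_lit 2565, nat_lit 3213, nat_lit 3105, nat_lit 3033] (nat_lit 0) [nat_lit 865] false,
   Spec.mk (nat_lit 3079) (nat_lit 0) [nat_lit 1621, nat_lit 4537, nat_lit 2593, nat_lit 3241, nat_lit 3025, nat_lit 3081] (nat_lit 0) [nat_lit 5265, nat_lit 893] false,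
   Spec.mk (nat_lit 3081) (nat_lit 0) [nat_lit 1623, nat_lit 4539, nat_lit 2595, nat_lit 3243, nat_lit 3027, nat_lit 3087, nat_lit 3079] (nat_lit 1) [nat_lit 895] false,
   Spec.mk (nat_lit 3087) (nat_lit 0) [nat_lit 1629, nat_lit 4545, nat_lit 2601, nat_lit 3249, nat_lit 3033, nat_lit 3105, nat_lit 3081] (nat_lit 1) [nat_lit 901] false,
   Spec.mk (nat_lit 3105) (nat_lit 1) [nat_lit 1647, nat_lit 4563, nat_lit 2619, nat_lit 3267, nat_lit 3051, nat_lit 3087] (nat_lit 0) [nat_lit 919] false,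
   Spec.mk (nat_lit 3161) (nat_lit 2) [nat_lit 1703, nat_lit 4619, nat_lit 2675, nat_lit 3647, nat_lit 2999, nat_lit 3163] (nat_lit 0) [nat_lit 5347] false,
   Spec.mk (nat_lit 3163) (nat_lit 2) [nat_lit 1705, nat_lit 4621, nat_lit 2677, nat_lit 3649, nat_lit 3001, nat_lit 3169, nat_lit 3161, nat_lit 3165] (nat_lit 0) [nat_lit 5349, nat_lit 977] false,
   Spec.mk (nat_lit 3165) (nat_lit 0) [nat_lit 1707, nat_lit 4623, nat_lit 2679, nat_lit 3651, nat_lit 3003, nat_lit 3171, nat_lit 3163] (nat_lit 0) [nat_lit 979] false,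
   Spec.mk (nat_lit 3169) (nat_lit 1) [nat_lit 1711, nat_lit 4627, nat_lit 2683, nat_lit 3655, nat_lit 3007, nat_lit 3187, nat_lit 3163, nat_lit 3171] (nat_lit 0) [nat_lit 5355, nat_lit 983] false,
   Spec.mk (nat_lit 3171) (nat_lit 1) [nat_lit 1713, nat_lit 4629, nat_lit 2685, nat_lit 3657, nat_lit 3009, nat_lit 3189, nat_lit 3165, nat_lit 3177, nat_lit 3169] (nat_lit 0) [nat_lit 985] false,
   Spec.mk (nat_lit 3177) (nat_lit 0) [nat_lit 1719, nat_lit 4635, nat_lit 2691, nat_lit 3663, nat_lit 3015, nat_lit 3195, nat_lit 3171] (nat_lit 0) [nat_lit 991] false,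
   Spec.mk (nat_lit 3187) (nat_lit 1) [nat_lit 1729, nat_lit 4645, nat_lit 2701, nat_lit 3673, nat_lit 3025, nat_lit 3241, nat_lit 3169, nat_lit 3189] (nat_lit 0) [nat_lit 5373, nat_lit 1001] false,
   Spec.mk (nat_lit 3189) (nat_lit 0) [nat_lit 1731, nat_lit 4647, nat_lit 2703, nat_lit 3675, nat_lit 3027, nat_lit 3243, nat_lit 3171, nat_lit 3195, nat_lit 3187] (nat_lit 0) [nat_lit 1003] false,
   Spec.mk (nat_lit 3195) (nat_lit 1) [nat_lit 1737, nat_lit 4653, nat_lit 2709, nat_lit 3681, nat_lit 3033, nat_lit 3249, nat_lit 3177, nat_lit 3213, nat_lit 3189] (nat_lit 0) [nat_lit 1009] false,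
   Spec.mk (nat_lit 3213) (nat_lit 0) [nat_lit 1755, nat_lit 4671, nat_lit 2727, nat_lit 3699, nat_lit 3051, nat_lit 3267, nat_lit 3195] (nat_lit 0) [nat_lit 1027] false,
   Spec.mk (nat_lit 3241) (nat_lit 2) [nat_lit 1783, nat_lit 4699, nat_lit 2755, nat_lit 3727, nat_lit 3079, nat_lit 3403, nat_lit 3187, nat_lit 3243] (nat_lit 0) [nat_lit 5427, nat_lit 1055] false,
   Spec.mk (nat_lit 3243) (nat_lit 1) [nat_lit 1785, nat_lit 4701, nat_lit 2757, nat_lit 3729, nat_lit 3081, nat_lit 3405, nat_lit 3189, nat_lit 3249, nat_lit 3241] (nat_lit 0) [nat_lit 1057] false,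
   Spec.mk (nat_lit 3249) (nat_lit 1) [nat_lit 1791, nat_lit 4707, nat_lit 2763, nat_lit 3735, nat_lit 3087, nat_lit 3411, nat_lit 3195, nat_lit 3267, nat_lit 3243] (nat_lit 0) [nat_lit 1063] false,
   Spec.mk (nat_lit 3267) (nat_lit 2) [nat_lit 1809, nat_lit 4725, nat_lit 2781, nat_lit 3753, nat_lit 3105, nat_lit 3429, nat_lit 3213, nat_lit 3321, nat_lit 3249] (nat_lit 0) [nat_lit 1081] false,
   Spec.mk (nat_lit 3321) (nat_lit 2) [nat_lit 1863, nat_lit 4779, nat_lit 2835, nat_lit 3807, nat_lit 3483, nat_lit 3267] (nat_lit 0) [nat_lit 1135] false,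
   Spec.mk (nat_lit 3403) (nat_lit 2) [nat_lit 1945, nat_lit 4861, nat_lit 3889, nat_lit 3241, nat_lit 3405] (nat_lit 0) [nat_lit 5589, nat_lit 1217] false,
   Spec.mk (nat_lit 3405) (nat_lit 1) [nat_lit 1947, nat_lit 4863, nat_lit 3891, nat_lit 3243, nat_lit 3411, nat_lit 3403] (nat_lit 0) [nat_lit 1219] false,
   Spec.mk (nat_lit 3411) (nat_lit 1) [nat_lit 1953, nat_lit 4869, nat_lit 3897, nat_lit 3249, nat_lit 3429, nat_lit 3405] (nat_lit 0) [nat_lit 1225] false,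
   Spec.mk (nat_lit 3429) (nat_lit 1) [nat_lit 1971, nat_lit 4887, nat_lit 3915, nat_lit 3267, nat_lit 3483, nat_lit 3411] (nat_lit 0) [nat_lit 1243] false,
   Spec.mk (nat_lit 3483) (nat_lit 3) [nat_lit 2025, nat_lit 4941, nat_lit 3969, nat_lit 3321, nat_lit 3429] (nat_lit 0) [nat_lit 1297] false,
   Spec.mk (nat_lit 3647) (nat_lit 2) [nat_lit 5105, nat_lit 3161, nat_lit 3649] (nat_lit 0) [nat_lit 5833] false,
   Spec.mk (nat_lit 3649) (nat_lit 2) [nat_lit 5107, nat_lit 3163, nat_lit 3655, nat_lit 3647, nat_lit 3651] (nat_lit 0) [nat_lit 5835, nat_lit 1463] false,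
   Spec.mk (nat_lit 3651) (nat_lit 0) [nat_lit 5109, nat_lit 3165, nat_lit 3657, nat_lit 3649] (nat_lit 0) [nat_lit 1465] false,
   Spec.mk (nat_lit 3655) (nat_lit 1) [nat_lit 5113, nat_lit 3169, nat_lit 3673, nat_lit 3649, nat_lit 3657] (nat_lit 0) [nat_lit 5841, nat_lit 1469] false,
   Spec.mk (nat_lit 3657) (nat_lit 1) [nat_lit 5115, nat_lit 3171, nat_lit 3675, nat_lit 3651, nat_lit 3663, nat_lit 3655] (nat_lit 0) [nat_lit 1471] false,
   Spec.mk (nat_lit 3663) (nat_lit 0) [nat_lit 5121, nat_lit 3177, nat_lit 3681, nat_lit 3657] (nat_lit 0) [nat_lit 1477] false,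
   Spec.mk (nat_lit 3673) (nat_lit 1) [nat_lit 5131, nat_lit 3187, nat_lit 3727, nat_lit 3655, nat_lit 3675] (nat_lit 0) [nat_lit 5859, nat_lit 1487] false,
   Spec.mk (nat_lit 3675) (nat_lit 0) [nat_lit 5133, nat_lit 3189, nat_lit 3729, nat_lit 3657, nat_lit 3681, nat_lit 3673] (nat_lit 0) [nat_lit 1489] false,
   Spec.mk (nat_lit 3681) (nat_lit 1) [nat_lit 5139, nat_lit 3195, nat_lit 3735, nat_lit 3663, nat_lit 3699, nat_lit 3675] (nat_lit 0) [nat_lit 1495] false,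
   Spec.mk (nat_lit 3699) (nat_lit 0) [nat_lit 5157, nat_lit 3213, nat_lit 3753, nat_lit 3681] (nat_lit 0) [nat_lit 1513] false,
   Spec.mk (nat_lit 3727) (nat_lit 1) [nat_lit 5185, nat_lit 3241, nat_lit 3889, nat_lit 3673, nat_lit 3729] (nat_lit 0) [nat_lit 5913, nat_lit 1541] false,
   Spec.mk (nat_lit 3729) (nat_lit 0) [nat_lit 5187, nat_lit 3243, nat_lit 3891, nat_lit 3675, nat_lit 3735, nat_lit 3727] (nat_lit 0) [nat_lit 1543] false,
   Spec.mk (nat_lit 3735) (nat_lit 0) [nat_lit 5193, nat_lit 3249, nat_lit 3897, nat_lit 3681, nat_lit 3753, nat_lit 3729] (nat_lit 0) [nat_lit 1549] false,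
   Spec.mk (nat_lit 3753) (nat_lit 1) [nat_lit 5211, nat_lit 3267, nat_lit 3915, nat_lit 3699, nat_lit 3807, nat_lit 3735] (nat_lit 0) [nat_lit 1567] false]

noncomputable def sp7 : List Spec :=
  [Spec.mk (nat_lit 3807) (nat_lit 0) [nat_lit 5265, nat_lit 3321, nat_lit 3969, nat_lit 3753] (nat_lit 0) [nat_lit 1621] false,
   Spec.mk (nat_lit 3889) (nat_lit 3) [nat_lit 5347, nat_lit 3403, nat_lit 3727, nat_lit 3891] (nat_lit 0) [nat_lit 6075, nat_lit 1703] false,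
   Spec.mk (nat_lit 3891) (nat_lit 2) [nat_lit 5349, nat_lit 3405, nat_lit 3729, nat_lit 3897, nat_lit 3889] (nat_lit 0) [nat_lit 1705] false,
   Spec.mk (nat_lit 3897) (nat_lit 2) [nat_lit 5355, nat_lit 3411, nat_lit 3735, nat_lit 3915, nat_lit 3891] (nat_lit 0) [nat_lit 1711] false,
   Spec.mk (nat_lit 3915) (nat_lit 2) [nat_lit 5373, nat_lit 3429, nat_lit 3753, nat_lit 3969, nat_lit 3897] (nat_lit 0) [nat_lit 1729] false,
   Spec.mk (nat_lit 3969) (nat_lit 3) [nat_lit 5427, nat_lit 3483, nat_lit 3807, nat_lit 4131, nat_lit 3915] (nat_lit 0) [nat_lit 1783] false,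
   Spec.mk (nat_lit 4131) (nat_lit 4) [nat_lit 5589, nat_lit 3969] (nat_lit 0) [nat_lit 1945] false,
   Spec.mk (nat_lit 4379) (nat_lit 4) [nat_lit 2921, nat_lit 4385, nat_lit 4381] (nat_lit 0) [] false,
   Spec.mk (nat_lit 4381) (nat_lit 2) [nat_lit 2923, nat_lit 4387, nat_lit 4379] (nat_lit 0) [nat_lit 2195] false,
   Spec.mk (nat_lit 4385) (nat_lit 2) [nat_lit 2927, nat_lit 4403, nat_lit 4379, nat_lit 4387] (nat_lit 0) [] false,
   Spec.mk (nat_lit 4387) (nat_lit 2) [nat_lit 2929, nat_lit 4405, nat_lit 4381, nat_lit 4393, nat_lit 4385, nat_lit 4389] (nat_lit 0) [nat_lit 2201] false,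
   Spec.mk (nat_lit 4389) (nat_lit 0) [nat_lit 2931, nat_lit 4407, nat_lit 4395, nat_lit 4387] (nat_lit 0) [nat_lit 2203] false,
   Spec.mk (nat_lit 4393) (nat_lit 0) [nat_lit 2935, nat_lit 4411, nat_lit 4387, nat_lit 4395] (nat_lit 0) [nat_lit 2207] false,
   Spec.mk (nat_lit 4395) (nat_lit 0) [nat_lit 2937, nat_lit 4413, nat_lit 4389, nat_lit 4393] (nat_lit 0) [nat_lit 2209] false,
   Spec.mk (nat_lit 4403) (nat_lit 2) [nat_lit 2945, nat_lit 4457, nat_lit 4385, nat_lit 4405] (nat_lit 0) [] false,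
   Spec.mk (nat_lit 4405) (nat_lit 1) [nat_lit 2947, nat_lit 4459, nat_lit 4387, nat_lit 4411, nat_lit 4403, nat_lit 4407] (nat_lit 0) [nat_lit 2219] false,
   Spec.mk (nat_lit 4407) (nat_lit 0) [nat_lit 2949, nat_lit 4461, nat_lit 4389, nat_lit 4413, nat_lit 4405] (nat_lit 2) [nat_lit 2221] false,
   Spec.mk (nat_lit 4411) (nat_lit 1) [nat_lit 2953, nat_lit 4465, nat_lit 4393, nat_lit 4429, nat_lit 4405, nat_lit 4413] (nat_lit 0) [nat_lit 2225] false,
   Spec.mk (nat_lit 4413) (nat_lit 0) [nat_lit 2955, nat_lit 4467, nat_lit 4395, nat_lit 4431, nat_lit 4407, nat_lit 4419, nat_lit 4411] (nat_lit 0) [nat_lit 2227] false,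
   Spec.mk (nat_lit 4419) (nat_lit 0) [nat_lit 2961, nat_lit 4473, nat_lit 4437, nat_lit 4413] (nat_lit 0) [nat_lit 2233] false,
   Spec.mk (nat_lit 4429) (nat_lit 0) [nat_lit 2971, nat_lit 4483, nat_lit 4411, nat_lit 4431] (nat_lit 0) [nat_lit 2243] false,
   Spec.mk (nat_lit 4431) (nat_lit 0) [nat_lit 2973, nat_lit 4485, nat_lit 4413, nat_lit 4437, nat_lit 4429] (nat_lit 2) [nat_lit 2245] false,
   Spec.mk (nat_lit 4437) (nat_lit 0) [nat_lit 2979, nat_lit 4491, nat_lit 4419, nat_lit 4431] (nat_lit 0) [nat_lit 2251] false,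
   Spec.mk (nat_lit 4457) (nat_lit 2) [nat_lit 2999, nat_lit 4619, nat_lit 4403, nat_lit 4459] (nat_lit 0) [] false,
   Spec.mk (nat_lit 4459) (nat_lit 1) [nat_lit 3001, nat_lit 4621, nat_lit 4405, nat_lit 4465, nat_lit 4457, nat_lit 4461] (nat_lit 0) [nat_lit 2273] false,
   Spec.mk (nat_lit 4461) (nat_lit 0) [nat_lit 3003, nat_lit 4623, nat_lit 4407, nat_lit 4467, nat_lit 4459] (nat_lit 2) [nat_lit 2275] false,
   Spec.mk (nat_lit 4465) (nat_lit 0) [nat_lit 3007, nat_lit 4627, nat_lit 4411, nat_lit 4483, nat_lit 4459, nat_lit 4467] (nat_lit 0) [nat_lit 2279] false,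
   Spec.mk (nat_lit 4467) (nat_lit 0) [nat_lit 3009, nat_lit 4629, nat_lit 4413, nat_lit 4485, nat_lit 4461, nat_lit 4473, nat_lit 4465] (nat_lit 1) [nat_lit 2281] false,
   Spec.mk (nat_lit 4473) (nat_lit 0) [nat_lit 3015, nat_lit 4635, nat_lit 4419, nat_lit 4491, nat_lit 4467] (nat_lit 2) [nat_lit 2287] false,
   Spec.mk (nat_lit 4483) (nat_lit 1) [nat_lit 3025, nat_lit 4645, nat_lit 4429, nat_lit 4537, nat_lit 4465, nat_lit 4485] (nat_lit 0) [nat_lit 2297] false,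
   Spec.mk (nat_lit 4485) (nat_lit 0) [nat_lit 3027, nat_lit 4647, nat_lit 4431, nat_lit 4539, nat_lit 4467, nat_lit 4491, nat_lit 4483] (nat_lit 1) [nat_lit 2299] false,
   Spec.mk (nat_lit 4491) (nat_lit 0) [nat_lit 3033, nat_lit 4653, nat_lit 4437, nat_lit 4545, nat_lit 4473, nat_lit 4509, nat_lit 4485] (nat_lit 0) [nat_lit 2305] false,
   Spec.mk (nat_lit 4509) (nat_lit 0) [nat_lit 3051, nat_lit 4671, nat_lit 4563, nat_lit 4491] (nat_lit 0) [nat_lit 2323] false,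
   Spec.mk (nat_lit 4537) (nat_lit 0) [nat_lit 3079, nat_lit 4699, nat_lit 4483, nat_lit 4539] (nat_lit 0) [nat_lit 2351] false,
   Spec.mk (nat_lit 4539) (nat_lit 0) [nat_lit 3081, nat_lit 4701, nat_lit 4485, nat_lit 4545, nat_lit 4537] (nat_lit 2) [nat_lit 2353] false,
   Spec.mk (nat_lit 4545) (nat_lit 0) [nat_lit 3087, nat_lit 4707, nat_lit 4491, nat_lit 4563, nat_lit 4539] (nat_lit 2) [nat_lit 2359] false,
   Spec.mk (nat_lit 4563) (nat_lit 0) [nat_lit 3105, nat_lit 4725, nat_lit 4509, nat_lit 4545] (nat_lit 0) [nat_lit 2377] false,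
   Spec.mk (nat_lit 4619) (nat_lit 2) [nat_lit 3161, nat_lit 5105, nat_lit 4457, nat_lit 4621] (nat_lit 0) [] false,
   Spec.mk (nat_lit 4621) (nat_lit 1) [nat_lit 3163, nat_lit 5107, nat_lit 4459, nat_lit 4627, nat_lit 4619, nat_lit 4623] (nat_lit 0) [nat_lit 2435] false,
   Spec.mk (nat_lit 4623) (nat_lit 0) [nat_lit 3165, nat_lit 5109, nat_lit 4461, nat_lit 4629, nat_lit 4621] (nat_lit 2) [nat_lit 2437] false,
   Spec.mk (nat_lit 4627) (nat_lit 0) [nat_lit 3169, nat_lit 5113, nat_lit 4465, nat_lit 4645, nat_lit 4621, nat_lit 4629] (nat_lit 0) [nat_lit 2441] false,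
   Spec.mk (nat_lit 4629) (nat_lit 0) [nat_lit 3171, nat_lit 5115, nat_lit 4467, nat_lit 4647, nat_lit 4623, nat_lit 4635, nat_lit 4627] (nat_lit 1) [nat_lit 2443] false,
   Spec.mk (nat_lit 4635) (nat_lit 0) [nat_lit 3177, nat_lit 5121, nat_lit 4473, nat_lit 4653, nat_lit 4629] (nat_lit 2) [nat_lit 2449] false,
   Spec.mk (nat_lit 4645) (nat_lit 0) [nat_lit 3187, nat_lit 5131, nat_lit 4483, nat_lit 4699, nat_lit 4627, nat_lit 4647] (nat_lit 0) [nat_lit 2459] false,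
   Spec.mk (nat_lit 4647) (nat_lit 0) [nat_lit 3189, nat_lit 5133, nat_lit 4485, nat_lit 4701, nat_lit 4629, nat_lit 4653, nat_lit 4645] (nat_lit 2) [nat_lit 2461] false,
   Spec.mk (nat_lit 4653) (nat_lit 0) [nat_lit 3195, nat_lit 5139, nat_lit 4491, nat_lit 4707, nat_lit 4635, nat_lit 4671, nat_lit 4647] (nat_lit 1) [nat_lit 2467] false,
   Spec.mk (nat_lit 4671) (nat_lit 0) [nat_lit 3213, nat_lit 5157, nat_lit 4509, nat_lit 4725, nat_lit 4653] (nat_lit 2) [nat_lit 2485] false,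
   Spec.mk (nat_lit 4699) (nat_lit 1) [nat_lit 3241, nat_lit 5185, nat_lit 4537, nat_lit 4861, nat_lit 4645, nat_lit 4701] (nat_lit 0) [nat_lit 2513] false,
   Spec.mk (nat_lit 4701) (nat_lit 0) [nat_lit 3243, nat_lit 5187, nat_lit 4539, nat_lit 4863, nat_lit 4647, nat_lit 4707, nat_lit 4699] (nat_lit 1) [nat_lit 2515] false,
   Spec.mk (nat_lit 4707) (nat_lit 0) [nat_lit 3249, nat_lit 5193, nat_lit 4545, nat_lit 4869, nat_lit 4653, nat_lit 4725, nat_lit 4701] (nat_lit 1) [nat_lit 2521] false,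
   Spec.mk (nat_lit 4725) (nat_lit 0) [nat_lit 3267, nat_lit 5211, nat_lit 4563, nat_lit 4887, nat_lit 4671, nat_lit 4779, nat_lit 4707] (nat_lit 0) [nat_lit 2539] false,
   Spec.mk (nat_lit 4779) (nat_lit 0) [nat_lit 3321, nat_lit 5265, nat_lit 4941, nat_lit 4725] (nat_lit 0) [nat_lit 2593] false,
   Spec.mk (nat_lit 4861) (nat_lit 0) [nat_lit 3403, nat_lit 5347, nat_lit 4699, nat_lit 4863] (nat_lit 0) [nat_lit 2675] false,
   Spec.mk (nat_lit 4863) (nat_lit 0) [nat_lit 3405, nat_lit 5349, nat_lit 4701, nat_lit 4869, nat_lit 4861] (nat_lit 2) [nat_lit 2677] false,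
   Spec.mk (nat_lit 4869) (nat_lit 0) [nat_lit 3411, nat_lit 5355, nat_lit 4707, nat_lit 4887, nat_lit 4863] (nat_lit 2) [nat_lit 2683] false,
   Spec.mk (nat_lit 4887) (nat_lit 0) [nat_lit 3429, nat_lit 5373, nat_lit 4725, nat_lit 4941, nat_lit 4869] (nat_lit 2) [nat_lit 2701] false,
   Spec.mk (nat_lit 4941) (nat_lit 0) [nat_lit 3483, nat_lit 5427, nat_lit 4779, nat_lit 4887] (nat_lit 0) [nat_lit 2755] false,
   Spec.mk (nat_lit 5105) (nat_lit 4) [nat_lit 3647, nat_lit 4619, nat_lit 5107] (nat_lit 0) [] false,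
   Spec.mk (nat_lit 5107) (nat_lit 3) [nat_lit 3649, nat_lit 4621, nat_lit 5113, nat_lit 5105, nat_lit 5109] (nat_lit 0) [nat_lit 2921] false,
   Spec.mk (nat_lit 5109) (nat_lit 0) [nat_lit 3651, nat_lit 4623, nat_lit 5115, nat_lit 5107] (nat_lit 0) [nat_lit 2923] false]

noncomputable def sp8 : List Spec :=
  [Spec.mk (nat_lit 5113) (nat_lit 2) [nat_lit 3655, nat_lit 4627, nat_lit 5131, nat_lit 5107, nat_lit 5115] (nat_lit 0) [nat_lit 2927] false,
   Spec.mk (nat_lit 5115) (nat_lit 1) [nat_lit 3657, nat_lit 4629, nat_lit 5133, nat_lit 5109, nat_lit 5121, nat_lit 5113] (nat_lit 0) [nat_lit 2929] false,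
   Spec.mk (nat_lit 5121) (nat_lit 0) [nat_lit 3663, nat_lit 4635, nat_lit 5139, nat_lit 5115] (nat_lit 0) [nat_lit 2935] false,
   Spec.mk (nat_lit 5131) (nat_lit 2) [nat_lit 3673, nat_lit 4645, nat_lit 5185, nat_lit 5113, nat_lit 5133] (nat_lit 0) [nat_lit 2945] false,
   Spec.mk (nat_lit 5133) (nat_lit 0) [nat_lit 3675, nat_lit 4647, nat_lit 5187, nat_lit 5115, nat_lit 5139, nat_lit 5131] (nat_lit 0) [nat_lit 2947] false,
   Spec.mk (nat_lit 5139) (nat_lit 1) [nat_lit 3681, nat_lit 4653, nat_lit 5193, nat_lit 5121, nat_lit 5157, nat_lit 5133] (nat_lit 0) [nat_lit 2953] false,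
   Spec.mk (nat_lit 5157) (nat_lit 0) [nat_lit 3699, nat_lit 4671, nat_lit 5211, nat_lit 5139] (nat_lit 0) [nat_lit 2971] false,
   Spec.mk (nat_lit 5185) (nat_lit 2) [nat_lit 3727, nat_lit 4699, nat_lit 5347, nat_lit 5131, nat_lit 5187] (nat_lit 0) [nat_lit 2999] false,
   Spec.mk (nat_lit 5187) (nat_lit 0) [nat_lit 3729, nat_lit 4701, nat_lit 5349, nat_lit 5133, nat_lit 5193, nat_lit 5185] (nat_lit 0) [nat_lit 3001] false,
   Spec.mk (nat_lit 5193) (nat_lit 0) [nat_lit 3735, nat_lit 4707, nat_lit 5355, nat_lit 5139, nat_lit 5211, nat_lit 5187] (nat_lit 0) [nat_lit 3007] false,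
   Spec.mk (nat_lit 5211) (nat_lit 1) [nat_lit 3753, nat_lit 4725, nat_lit 5373, nat_lit 5157, nat_lit 5265, nat_lit 5193] (nat_lit 0) [nat_lit 3025] false,
   Spec.mk (nat_lit 5265) (nat_lit 0) [nat_lit 3807, nat_lit 4779, nat_lit 5427, nat_lit 5211] (nat_lit 0) [nat_lit 3079] false,
   Spec.mk (nat_lit 5347) (nat_lit 3) [nat_lit 3889, nat_lit 4861, nat_lit 5833, nat_lit 5185, nat_lit 5349] (nat_lit 0) [nat_lit 3161] false,
   Spec.mk (nat_lit 5349) (nat_lit 1) [nat_lit 3891, nat_lit 4863, nat_lit 5835, nat_lit 5187, nat_lit 5355, nat_lit 5347] (nat_lit 0) [nat_lit 3163] false,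
   Spec.mk (nat_lit 5355) (nat_lit 1) [nat_lit 3897, nat_lit 4869, nat_lit 5841, nat_lit 5193, nat_lit 5373, nat_lit 5349] (nat_lit 0) [nat_lit 3169] false,
   Spec.mk (nat_lit 5373) (nat_lit 1) [nat_lit 3915, nat_lit 4887, nat_lit 5859, nat_lit 5211, nat_lit 5427, nat_lit 5355] (nat_lit 0) [nat_lit 3187] false,
   Spec.mk (nat_lit 5427) (nat_lit 2) [nat_lit 3969, nat_lit 4941, nat_lit 5913, nat_lit 5265, nat_lit 5589, nat_lit 5373] (nat_lit 0) [nat_lit 3241] false,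
   Spec.mk (nat_lit 5589) (nat_lit 2) [nat_lit 4131, nat_lit 6075, nat_lit 5427] (nat_lit 0) [nat_lit 3403] false,
   Spec.mk (nat_lit 5833) (nat_lit 4) [nat_lit 5347, nat_lit 5835] (nat_lit 0) [nat_lit 3647] false,
   Spec.mk (nat_lit 5835) (nat_lit 2) [nat_lit 5349, nat_lit 5841, nat_lit 5833] (nat_lit 0) [nat_lit 3649] false,
   Spec.mk (nat_lit 5841) (nat_lit 2) [nat_lit 5355, nat_lit 5859, nat_lit 5835] (nat_lit 0) [nat_lit 3655] false,
   Spec.mk (nat_lit 5859) (nat_lit 2) [nat_lit 5373, nat_lit 5913, nat_lit 5841] (nat_lit 0) [nat_lit 3673] false,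
   Spec.mk (nat_lit 5913) (nat_lit 2) [nat_lit 5427, nat_lit 6075, nat_lit 5859] (nat_lit 0) [nat_lit 3727] false,
   Spec.mk (nat_lit 6075) (nat_lit 4) [nat_lit 5589, nat_lit 5913] (nat_lit 0) [nat_lit 3889] false]

noncomputable def specs : List (List Spec) :=
    sp0 :: sp1 :: sp2 :: sp3 :: sp4 :: sp5 :: sp6 :: sp7 :: sp8 :: []

noncomputable def step (e : Nat → Nat) (C ap an : Nat) (k :
    Nat → Nat → Nat → Nat → Nat → Nat → Nat → Nat → Nat → Nat → Nat → Nat → Nat → Nat → Nat → Nat →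
    Nat → Nat → Nat → Nat → Nat → Nat → Nat → Nat → Nat → Nat → Nat → Nat → Nat → Nat → Nat → Nat →
    Nat → Nat → Nat → Nat → Nat → Nat → Nat → Nat → Nat → Nat → Nat → Nat → Nat → Nat → Nat → Nat →
    Nat → Nat → Nat → Nat → Nat → Nat → Nat → Nat → Nat → Nat → Nat → Nat → Nat → Nat → Nat → Nat →
    Nat → Nat → Nat → Nat → Nat → Nat → Nat → Nat → Nat → Nat → Nat → Nat → Nat → Nat → Nat → Nat →
    Nat → Nat → Nat → Nat → Nat → Nat → Nat → Nat → Nat → Nat → Nat → Nat → Nat → Nat → Nat → Nat →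
    Nat → Nat → Nat → Nat → Nat → Nat → Nat → Nat → Nat → Nat → Nat → Nat → Nat → Nat → Nat → Nat →
    Nat → Nat → Nat → Nat → Nat → Nat → Nat → Nat → Nat → Nat → Nat → Nat → Nat → Nat → Nat → Nat →
    Nat → Nat → Nat → Nat → Nat → Nat → Nat → Nat → Nat → Nat → Nat → Nat → Nat → Nat → Nat → Nat →
    Nat → Nat → Nat → Nat → Nat → Nat → Nat → Nat → Nat → Nat → Nat → Nat → Nat → Nat → Nat → Nat →
    Nat → Nat → Nat → Nat → Nat → Nat → Nat → Nat → Nat → Nat → Nat → Nat → Nat → Nat → Nat → Nat →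
    Nat → Nat → Nat → Nat → Nat → Nat → Nat → Nat → Nat → Nat → Nat → Nat → Nat → Nat → Nat → Nat →
    Nat → Nat → Nat → Nat → Nat → Nat → Nat → Nat → Nat → Nat → Nat → Nat → Nat → Nat → Nat → Nat →
    Nat → Nat → Nat → Nat → Nat → Nat → Nat → Nat → Nat → Nat → Nat → Nat → Nat → Nat → Nat → Nat →
    Nat → Nat → Nat → Nat → Nat → Nat → Nat → Nat → Nat → Nat → Nat → Nat → Nat → Nat → Nat → Nat →
    Nat → Nat → Nat → Nat → Nat → Nat → Nat → Nat → Nat → Nat → Nat → Nat → Nat → Nat → Nat → Nat →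
    Nat → Nat → Nat → Nat → Nat → Nat → Nat → Nat → Nat → Nat → Nat → Nat → Nat → Nat → Nat → Nat →
    Nat → Nat → Nat → Nat → Nat → Nat → Nat → Nat → Nat → Nat → Nat → Nat → Nat → Nat → Nat → Nat →
    Nat → Nat → Nat → Nat → Nat → Nat → Nat → Nat → Nat → Nat → Nat → Nat → Nat → Nat → Nat → Nat →
    Nat → Nat → Nat → Nat → Nat → Nat → Nat → Nat → Nat → Nat → Nat → Nat → Nat → Nat → Nat → Nat →
    Nat → Nat → Nat → Nat → Nat → Nat → Nat → Nat → Nat → Nat → Nat → Nat → Nat → Nat → Nat → Nat →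
    Nat → Nat → Nat → Nat → Nat → Nat → Nat → Nat → Nat → Nat → Nat → Nat → Nat → Nat → Nat → Nat →
    Nat → Nat → Nat → Nat → Nat → Nat → Nat → Nat → Nat → Nat → Nat → Nat → Nat → Nat → Nat → Nat →
    Nat → Nat → Nat → Nat → Nat → Nat → Nat → Nat → Nat → Nat → Nat → Nat → Nat → Nat → Nat → Nat →
    Nat → Nat → Nat → Nat → Nat → Nat → Nat → Nat → Nat → Nat → Nat → Nat → Nat → Nat → Nat → Nat →
    Nat → Nat → Nat → Nat → Nat → Nat → Nat → Nat → Nat → Nat → Nat → Nat → Nat → Nat → Nat → Nat →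
    Nat → Nat → Nat → Nat → Nat → Nat → Nat → Nat → Nat → Nat → Nat → Nat → Nat → Nat → Nat → Nat →
    Nat → Nat → Nat → Nat → Nat → Nat → Nat → Nat → Nat → Nat → Nat → Nat → Nat → Nat → Nat → Nat →
    Nat → Nat → Nat → Nat → Nat → Nat → Nat → Nat → Nat → Nat → Nat → Nat → Nat → Nat → Nat → Nat →
    Nat → Nat → Nat → Nat → Nat → Nat → Nat → Nat → Nat → Nat → Nat → Nat → Nat → Nat → Nat → Nat →
    Nat → Nat → Nat → Nat → Nat → Nat → Nat → Nat → Nat → Nat → Nat → Nat → Nat → Nat → Nat → Nat →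
    Nat → Nat → Nat → Nat → Nat → Nat → Nat → Nat → Bool)
  (
    x17 x23 x25 x35 x41 x43 x47 x49 x51 x59 x61 x65 x67 x69 x73 x75 x89 x95 x97 x101 x103 x105 x113
    x115 x119 x121 x123 x127 x129 x137 x139 x141 x145 x147 x153 x167 x169 x173 x175 x177 x181 x183
    x191 x193 x195 x199 x201 x207 x217 x219 x225 x251 x257 x259 x263 x265 x267 x275 x277 x281 x283
    x285 x289 x291 x299 x301 x303 x307 x309 x315 x329 x331 x335 x337 x339 x343 x345 x353 x355 x357
    x361 x363 x369 x379 x381 x387 x407 x409 x411 x415 x417 x423 x433 x435 x441 x459 x491 x493 x497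
    x499 x501 x505 x507 x515 x517 x519 x523 x525 x531 x541 x543 x549 x569 x571 x573 x577 x579 x585
    x595 x597 x603 x621 x649 x651 x657 x675 x737 x743 x745 x749 x751 x753 x761 x763 x767 x769 x771
    x775 x777 x785 x787 x789 x793 x795 x801 x815 x817 x821 x823 x825 x829 x831 x839 x841 x843 x847
    x849 x855 x865 x867 x873 x893 x895 x897 x901 x903 x909 x919 x921 x927 x945 x977 x979 x983 x985
    x987 x991 x993 x1001 x1003 x1005 x1009 x1011 x1017 x1027 x1029 x1035 x1055 x1057 x1059 x1063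
    x1065 x1071 x1081 x1083 x1089 x1107 x1135 x1137 x1143 x1161 x1217 x1219 x1221 x1225 x1227 x1233
    x1243 x1245 x1251 x1269 x1297 x1299 x1305 x1323 x1377 x1463 x1465 x1469 x1471 x1473 x1477 x1479
    x1487 x1489 x1491 x1495 x1497 x1503 x1513 x1515 x1521 x1541 x1543 x1545 x1549 x1551 x1557 x1567
    x1569 x1575 x1593 x1621 x1623 x1629 x1647 x1703 x1705 x1707 x1711 x1713 x1719 x1729 x1731 x1737
    x1755 x1783 x1785 x1791 x1809 x1863 x1945 x1947 x1953 x1971 x2025 x2195 x2201 x2203 x2207 x2209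
    x2211 x2219 x2221 x2225 x2227 x2229 x2233 x2235 x2243 x2245 x2247 x2251 x2253 x2259 x2273 x2275
    x2279 x2281 x2283 x2287 x2289 x2297 x2299 x2301 x2305 x2307 x2313 x2323 x2325 x2331 x2351 x2353
    x2355 x2359 x2361 x2367 x2377 x2379 x2385 x2403 x2435 x2437 x2441 x2443 x2445 x2449 x2451 x2459
    x2461 x2463 x2467 x2469 x2475 x2485 x2487 x2493 x2513 x2515 x2517 x2521 x2523 x2529 x2539 x2541
    x2547 x2565 x2593 x2595 x2601 x2619 x2675 x2677 x2679 x2683 x2685 x2691 x2701 x2703 x2709 x2727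
    x2755 x2757 x2763 x2781 x2835 x2921 x2923 x2927 x2929 x2931 x2935 x2937 x2945 x2947 x2949 x2953
    x2955 x2961 x2971 x2973 x2979 x2999 x3001 x3003 x3007 x3009 x3015 x3025 x3027 x3033 x3051 x3079
    x3081 x3087 x3105 x3161 x3163 x3165 x3169 x3171 x3177 x3187 x3189 x3195 x3213 x3241 x3243 x3249
    x3267 x3321 x3403 x3405 x3411 x3429 x3483 x3647 x3649 x3651 x3655 x3657 x3663 x3673 x3675 x3681
    x3699 x3727 x3729 x3735 x3753 x3807 x3889 x3891 x3897 x3915 x3969 x4131 x4379 x4381 x4385 x4387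
    x4389 x4393 x4395 x4403 x4405 x4407 x4411 x4413 x4419 x4429 x4431 x4437 x4457 x4459 x4461 x4465
    x4467 x4473 x4483 x4485 x4491 x4509 x4537 x4539 x4545 x4563 x4619 x4621 x4623 x4627 x4629 x4635
    x4645 x4647 x4653 x4671 x4699 x4701 x4707 x4725 x4779 x4861 x4863 x4869 x4887 x4941 x5105 x5107
    x5109 x5113 x5115 x5121 x5131 x5133 x5139 x5157 x5185 x5187 x5193 x5211 x5265 x5347 x5349 x5355
    x5373 x5427 x5589 x5833 x5835 x5841 x5859 x5913 x6075 : Nat) : Bool :=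
  k
    (Nat.sub (Nat.sub (Nat.add (Nat.add (Nat.add (Nat.add C (Nat.mul x17 (nat_lit 4))) x35) x23) (Nat.mul (e (nat_lit 17)) ap)) x2203) (Nat.mul (e (nat_lit 17)) an))
    (Nat.sub (Nat.sub (Nat.add (Nat.add (Nat.add (Nat.add (Nat.add C (Nat.mul x23 (nat_lit 2))) x41) x17) x25) (Nat.mul (e (nat_lit 23)) ap)) x2209) (Nat.mul (e (nat_lit 23)) an))
    (Nat.sub (Nat.add (Nat.add (Nat.add C (Nat.mul x25 (nat_lit 4))) x43) x23) x2211)
    (Nat.sub (Nat.sub (Nat.add (Nat.add (Nat.add (Nat.add (Nat.add C (Nat.mul x35 (nat_lit 2))) x89) x17) x41) (Nat.mul (e (nat_lit 35)) ap)) x2221) (Nat.mul (e (nat_lit 35)) an))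
    (Nat.sub (Nat.sub (Nat.add (Nat.add (Nat.add (Nat.add (Nat.add (Nat.add (Nat.add (Nat.add C (Nat.mul x41 (nat_lit 2))) x95) x23) x59) x35) x47) x43) (Nat.mul (e (nat_lit 41)) ap)) x2227) (Nat.mul (e (nat_lit 41)) an))
    (Nat.sub (Nat.sub (Nat.add (Nat.add (Nat.add (Nat.add (Nat.add (Nat.add (Nat.add C (Nat.mul x43 (nat_lit 3))) x97) x25) x61) x49) x41) (Nat.mul (e (nat_lit 43)) ap)) x2229) (Nat.mul (e (nat_lit 43)) an))
    (Nat.sub (Nat.sub (Nat.add (Nat.add (Nat.add (Nat.add (Nat.add C x101) x65) x41) x49) (Nat.mul (e (nat_lit 47)) ap)) x2233) (Nat.mul (e (nat_lit 47)) an))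
    (Nat.sub (Nat.add (Nat.add (Nat.add (Nat.add (Nat.add (Nat.add C (Nat.mul x49 (nat_lit 3))) x103) x67) x43) x47) x51) x2235)
    (Nat.add (Nat.add (Nat.add (Nat.add C (Nat.mul x51 (nat_lit 4))) x105) x69) x49)
    (Nat.sub (Nat.sub (Nat.add (Nat.add (Nat.add (Nat.add (Nat.add C x113) x41) x65) x61) (Nat.mul (e (nat_lit 59)) ap)) x2245) (Nat.mul (e (nat_lit 59)) an))
    (Nat.sub (Nat.add (Nat.add (Nat.add (Nat.add C x115) x43) x67) x59) x2247)
    (Nat.sub (Nat.add (Nat.add (Nat.add (Nat.add C x119) x47) x59) x67) x2251)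
    (Nat.sub (Nat.add (Nat.add (Nat.add (Nat.add (Nat.add (Nat.add (Nat.add C (Nat.mul x67 (nat_lit 2))) x121) x49) x61) x73) x65) x69) x2253)
    (Nat.add (Nat.add (Nat.add (Nat.add (Nat.add C (Nat.mul x69 (nat_lit 2))) x123) x51) x75) x67)
    (Nat.sub (Nat.add (Nat.add (Nat.add (Nat.add C (Nat.mul x73 (nat_lit 2))) x127) x67) x75) x2259)
    (Nat.add (Nat.add (Nat.add (Nat.add C (Nat.mul x75 (nat_lit 4))) x129) x69) x73)
    (Nat.sub (Nat.sub (Nat.add (Nat.add (Nat.add (Nat.add (Nat.add C (Nat.mul x89 (nat_lit 2))) x251) x35) x95) (Nat.mul (e (nat_lit 89)) ap)) x2275) (Nat.mul (e (nat_lit 89)) an))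
    (Nat.sub (Nat.sub (Nat.add (Nat.add (Nat.add (Nat.add (Nat.add (Nat.add (Nat.add (Nat.add C x95) x257) x41) x113) x89) x101) x97) (Nat.mul (e (nat_lit 95)) ap)) x2281) (Nat.mul (e (nat_lit 95)) an))
    (Nat.sub (Nat.sub (Nat.add (Nat.add (Nat.add (Nat.add (Nat.add (Nat.add (Nat.add C (Nat.mul x97 (nat_lit 2))) x259) x43) x115) x103) x95) (Nat.mul (e (nat_lit 97)) ap)) x2283) (Nat.mul (e (nat_lit 97)) an))
    (Nat.sub (Nat.sub (Nat.sub (Nat.add (Nat.add (Nat.add (Nat.add (Nat.add (Nat.add C x263) x47) x119) x95) x103) (Nat.mul (e (nat_lit 101)) ap)) (Nat.mul x101 (nat_lit 2))) x2287) (Nat.mul (e (nat_lit 101)) an))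
    (Nat.sub (Nat.sub (Nat.add (Nat.add (Nat.add (Nat.add (Nat.add (Nat.add (Nat.add (Nat.add C x103) x265) x49) x121) x97) x101) x105) (Nat.mul (e (nat_lit 103)) ap)) x2289) (Nat.mul (e (nat_lit 103)) an))
    (Nat.add (Nat.add (Nat.add (Nat.add (Nat.add C (Nat.mul x105 (nat_lit 2))) x267) x51) x123) x103)
    (Nat.sub (Nat.sub (Nat.add (Nat.add (Nat.add (Nat.add (Nat.add (Nat.add (Nat.add (Nat.add C x113) x275) x59) x167) x95) x119) x115) (Nat.mul (e (nat_lit 113)) ap)) x2299) (Nat.mul (e (nat_lit 113)) an))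
    (Nat.sub (Nat.sub (Nat.add (Nat.add (Nat.add (Nat.add (Nat.add (Nat.add (Nat.add (Nat.add C x115) x277) x61) x169) x97) x121) x113) (Nat.mul (e (nat_lit 115)) ap)) x2301) (Nat.mul (e (nat_lit 115)) an))
    (Nat.sub (Nat.sub (Nat.add (Nat.add (Nat.add (Nat.add (Nat.add (Nat.add (Nat.add (Nat.add C x281) x65) x173) x101) x137) x113) x121) (Nat.mul (e (nat_lit 119)) ap)) x2305) (Nat.mul (e (nat_lit 119)) an))
    (Nat.sub (Nat.sub (Nat.add (Nat.add (Nat.add (Nat.add (Nat.add (Nat.add (Nat.add (Nat.add (Nat.add (Nat.add (Nat.add C (Nat.mul x121 (nat_lit 2))) x283) x67) x175) x103) x139) x115) x127) x119) x123) (Nat.mul (e (nat_lit 121)) ap)) x2307) (Nat.mul (e (nat_lit 121)) an))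
    (Nat.add (Nat.add (Nat.add (Nat.add (Nat.add (Nat.add (Nat.add (Nat.add C (Nat.mul x123 (nat_lit 2))) x285) x69) x177) x105) x141) x129) x121)
    (Nat.sub (Nat.add (Nat.add (Nat.add (Nat.add (Nat.add (Nat.add (Nat.add C x127) x289) x73) x181) x145) x121) x129) x2313)
    (Nat.add (Nat.add (Nat.add (Nat.add (Nat.add (Nat.add (Nat.add C (Nat.mul x129 (nat_lit 3))) x291) x75) x183) x147) x123) x127)
    (Nat.sub (Nat.sub (Nat.add (Nat.add (Nat.add (Nat.add (Nat.add C x299) x191) x119) x139) (Nat.mul (e (nat_lit 137)) ap)) x2323) (Nat.mul (e (nat_lit 137)) an))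
    (Nat.sub (Nat.add (Nat.add (Nat.add (Nat.add (Nat.add (Nat.add (Nat.add C x139) x301) x193) x121) x145) x137) x141) x2325)
    (Nat.add (Nat.add (Nat.add (Nat.add (Nat.add C x303) x195) x123) x147) x139)
    (Nat.sub (Nat.add (Nat.add (Nat.add (Nat.add (Nat.add (Nat.add C (Nat.mul x145 (nat_lit 2))) x307) x199) x127) x139) x147) x2331)
    (Nat.add (Nat.add (Nat.add (Nat.add (Nat.add (Nat.add (Nat.add C (Nat.mul x147 (nat_lit 3))) x309) x201) x129) x141) x153) x145)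
    (Nat.add (Nat.add (Nat.add (Nat.add C (Nat.mul x153 (nat_lit 4))) x315) x207) x147)
    (Nat.sub (Nat.sub (Nat.add (Nat.add (Nat.add (Nat.add (Nat.add C x329) x113) x173) x169) (Nat.mul (e (nat_lit 167)) ap)) x2353) (Nat.mul (e (nat_lit 167)) an))
    (Nat.sub (Nat.add (Nat.add (Nat.add (Nat.add C x331) x115) x175) x167) x2355)
    (Nat.sub (Nat.sub (Nat.sub (Nat.add (Nat.add (Nat.add (Nat.add (Nat.add (Nat.add C x335) x119) x191) x167) x175) (Nat.mul (e (nat_lit 173)) ap)) (Nat.mul x173 (nat_lit 2))) x2359) (Nat.mul (e (nat_lit 173)) an))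
    (Nat.sub (Nat.add (Nat.add (Nat.add (Nat.add (Nat.add (Nat.add (Nat.add C x337) x121) x193) x169) x181) x173) x177) x2361)
    (Nat.add (Nat.add (Nat.add (Nat.add (Nat.add C x339) x123) x195) x183) x175)
    (Nat.sub (Nat.sub (Nat.add (Nat.add (Nat.add (Nat.add (Nat.add C x343) x127) x199) x175) x183) (Nat.mul x181 (nat_lit 2))) x2367)
    (Nat.add (Nat.add (Nat.add (Nat.add (Nat.add C x345) x129) x201) x177) x181)
    (Nat.sub (Nat.add (Nat.add (Nat.add (Nat.add C x353) x137) x173) x193) x2377)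
    (Nat.sub (Nat.add (Nat.add (Nat.add (Nat.add (Nat.add (Nat.add (Nat.add C x193) x355) x139) x175) x199) x191) x195) x2379)
    (Nat.add (Nat.add (Nat.add (Nat.add (Nat.add C x357) x141) x177) x201) x193)
    (Nat.sub (Nat.add (Nat.add (Nat.add (Nat.add (Nat.add (Nat.add (Nat.add C x199) x361) x145) x181) x217) x193) x201) x2385)
    (Nat.add (Nat.add (Nat.add (Nat.add (Nat.add (Nat.add (Nat.add (Nat.add C (Nat.mul x201 (nat_lit 2))) x363) x147) x183) x219) x195) x207) x199)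
    (Nat.add (Nat.add (Nat.add (Nat.add (Nat.add C (Nat.mul x207 (nat_lit 2))) x369) x153) x225) x201)
    (Nat.sub (Nat.add (Nat.add (Nat.add (Nat.add C (Nat.mul x217 (nat_lit 2))) x379) x199) x219) x2403)
    (Nat.add (Nat.add (Nat.add (Nat.add (Nat.add C (Nat.mul x219 (nat_lit 2))) x381) x201) x225) x217)
    (Nat.add (Nat.add (Nat.add (Nat.add C (Nat.mul x225 (nat_lit 4))) x387) x207) x219)
    (Nat.sub (Nat.add (Nat.add (Nat.add (Nat.add C (Nat.mul x251 (nat_lit 2))) x737) x89) x257) x2437)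
    (Nat.sub (Nat.sub (Nat.add (Nat.add (Nat.add (Nat.add (Nat.add (Nat.add (Nat.add (Nat.add C x257) x743) x95) x275) x251) x263) x259) (Nat.mul (e (nat_lit 257)) ap)) x2443) (Nat.mul (e (nat_lit 257)) an))
    (Nat.sub (Nat.sub (Nat.add (Nat.add (Nat.add (Nat.add (Nat.add (Nat.add (Nat.add C (Nat.mul x259 (nat_lit 2))) x745) x97) x277) x265) x257) (Nat.mul (e (nat_lit 259)) ap)) x2445) (Nat.mul (e (nat_lit 259)) an))
    (Nat.sub (Nat.sub (Nat.sub (Nat.add (Nat.add (Nat.add (Nat.add (Nat.add (Nat.add C x749) x101) x281) x257) x265) (Nat.mul (e (nat_lit 263)) ap)) (Nat.mul x263 (nat_lit 2))) x2449) (Nat.mul (e (nat_lit 263)) an))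
    (Nat.sub (Nat.add (Nat.add (Nat.add (Nat.add (Nat.add (Nat.add (Nat.add C x265) x751) x103) x283) x259) x263) x267) x2451)
    (Nat.add (Nat.add (Nat.add (Nat.add (Nat.add C (Nat.mul x267 (nat_lit 2))) x753) x105) x285) x265)
    (Nat.sub (Nat.sub (Nat.add (Nat.add (Nat.add (Nat.add (Nat.add (Nat.add (Nat.add C x761) x113) x329) x257) x281) x277) (Nat.mul (e (nat_lit 275)) ap)) x2461) (Nat.mul (e (nat_lit 275)) an))
    (Nat.sub (Nat.sub (Nat.add (Nat.add (Nat.add (Nat.add (Nat.add (Nat.add (Nat.add C x763) x115) x331) x259) x283) x275) (Nat.mul (e (nat_lit 277)) ap)) x2463) (Nat.mul (e (nat_lit 277)) an))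
    (Nat.sub (Nat.sub (Nat.sub (Nat.add (Nat.add (Nat.add (Nat.add (Nat.add (Nat.add (Nat.add (Nat.add C x767) x119) x335) x263) x299) x275) x283) (Nat.mul (e (nat_lit 281)) ap)) x281) x2467) (Nat.mul (e (nat_lit 281)) an))
    (Nat.sub (Nat.sub (Nat.add (Nat.add (Nat.add (Nat.add (Nat.add (Nat.add (Nat.add (Nat.add (Nat.add (Nat.add (Nat.add C x283) x769) x121) x337) x265) x301) x277) x289) x281) x285) (Nat.mul (e (nat_lit 283)) ap)) x2469) (Nat.mul (e (nat_lit 283)) an))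
    (Nat.add (Nat.add (Nat.add (Nat.add (Nat.add (Nat.add (Nat.add (Nat.add C x285) x771) x123) x339) x267) x303) x291) x283)
    (Nat.sub (Nat.sub (Nat.add (Nat.add (Nat.add (Nat.add (Nat.add (Nat.add (Nat.add C x775) x127) x343) x307) x283) x291) (Nat.mul (e (nat_lit 289)) ap)) x2475) (Nat.mul (e (nat_lit 289)) an))
    (Nat.add (Nat.add (Nat.add (Nat.add (Nat.add (Nat.add (Nat.add C (Nat.mul x291 (nat_lit 2))) x777) x129) x345) x309) x285) x289)
    (Nat.sub (Nat.sub (Nat.sub (Nat.add (Nat.add (Nat.add (Nat.add (Nat.add (Nat.add C x785) x137) x353) x281) x301) (Nat.mul (e (nat_lit 299)) ap)) (Nat.mul x299 (nat_lit 2))) x2485) (Nat.mul (e (nat_lit 299)) an))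
    (Nat.sub (Nat.sub (Nat.sub (Nat.add (Nat.add (Nat.add (Nat.add (Nat.add (Nat.add (Nat.add (Nat.add C x787) x139) x355) x283) x307) x299) x303) (Nat.mul (e (nat_lit 301)) ap)) x301) x2487) (Nat.mul (e (nat_lit 301)) an))
    (Nat.sub (Nat.add (Nat.add (Nat.add (Nat.add (Nat.add (Nat.add C x789) x141) x357) x285) x309) x301) (Nat.mul x303 (nat_lit 2)))
    (Nat.sub (Nat.add (Nat.add (Nat.add (Nat.add (Nat.add (Nat.add C x793) x145) x361) x289) x301) x309) x2493)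
    (Nat.add (Nat.add (Nat.add (Nat.add (Nat.add (Nat.add (Nat.add (Nat.add C x309) x795) x147) x363) x291) x303) x315) x307)
    (Nat.add (Nat.add (Nat.add (Nat.add (Nat.add C (Nat.mul x315 (nat_lit 2))) x801) x153) x369) x309)
    (Nat.sub (Nat.sub (Nat.add (Nat.add (Nat.add (Nat.add (Nat.add (Nat.add (Nat.add (Nat.add C x329) x815) x167) x491) x275) x335) x331) (Nat.mul (e (nat_lit 329)) ap)) x2515) (Nat.mul (e (nat_lit 329)) an))
    (Nat.sub (Nat.add (Nat.add (Nat.add (Nat.add (Nat.add (Nat.add (Nat.add C x331) x817) x169) x493) x277) x337) x329) x2517)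
    (Nat.sub (Nat.sub (Nat.sub (Nat.add (Nat.add (Nat.add (Nat.add (Nat.add (Nat.add (Nat.add (Nat.add C x821) x173) x497) x281) x353) x329) x337) (Nat.mul (e (nat_lit 335)) ap)) x335) x2521) (Nat.mul (e (nat_lit 335)) an))
    (Nat.sub (Nat.sub (Nat.add (Nat.add (Nat.add (Nat.add (Nat.add (Nat.add (Nat.add (Nat.add (Nat.add (Nat.add (Nat.add C x337) x823) x175) x499) x283) x355) x331) x343) x335) x339) (Nat.mul (e (nat_lit 337)) ap)) x2523) (Nat.mul (e (nat_lit 337)) an))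
    (Nat.add (Nat.add (Nat.add (Nat.add (Nat.add (Nat.add (Nat.add (Nat.add C x339) x825) x177) x501) x285) x357) x345) x337)
    (Nat.sub (Nat.sub (Nat.add (Nat.add (Nat.add (Nat.add (Nat.add (Nat.add (Nat.add C x829) x181) x505) x289) x361) x337) x345) x343) x2529)
    (Nat.add (Nat.add (Nat.add (Nat.add (Nat.add (Nat.add (Nat.add (Nat.add C x345) x831) x183) x507) x291) x363) x339) x343)
    (Nat.sub (Nat.sub (Nat.add (Nat.add (Nat.add (Nat.add (Nat.add (Nat.add (Nat.add (Nat.add C x839) x191) x515) x299) x407) x335) x355) (Nat.mul (e (nat_lit 353)) ap)) x2539) (Nat.mul (e (nat_lit 353)) an))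
    (Nat.sub (Nat.add (Nat.add (Nat.add (Nat.add (Nat.add (Nat.add (Nat.add (Nat.add (Nat.add (Nat.add C x355) x841) x193) x517) x301) x409) x337) x361) x353) x357) x2541)
    (Nat.add (Nat.add (Nat.add (Nat.add (Nat.add (Nat.add (Nat.add (Nat.add C x843) x195) x519) x303) x411) x339) x363) x355)
    (Nat.sub (Nat.add (Nat.add (Nat.add (Nat.add (Nat.add (Nat.add (Nat.add (Nat.add (Nat.add (Nat.add C x361) x847) x199) x523) x307) x415) x343) x379) x355) x363) x2547)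
    (Nat.add (Nat.add (Nat.add (Nat.add (Nat.add (Nat.add (Nat.add (Nat.add (Nat.add (Nat.add (Nat.add C (Nat.mul x363 (nat_lit 2))) x849) x201) x525) x309) x417) x345) x381) x357) x369) x361)
    (Nat.add (Nat.add (Nat.add (Nat.add (Nat.add (Nat.add (Nat.add (Nat.add C (Nat.mul x369 (nat_lit 2))) x855) x207) x531) x315) x423) x387) x363)
    (Nat.sub (Nat.add (Nat.add (Nat.add (Nat.add (Nat.add (Nat.add (Nat.add C x379) x865) x217) x541) x433) x361) x381) x2565)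
    (Nat.add (Nat.add (Nat.add (Nat.add (Nat.add (Nat.add (Nat.add (Nat.add C x381) x867) x219) x543) x435) x363) x387) x379)
    (Nat.add (Nat.add (Nat.add (Nat.add (Nat.add (Nat.add (Nat.add C (Nat.mul x387 (nat_lit 3))) x873) x225) x549) x441) x369) x381)
    (Nat.sub (Nat.add (Nat.add (Nat.add (Nat.add C x893) x569) x353) x409) x2593)
    (Nat.sub (Nat.add (Nat.add (Nat.add (Nat.add (Nat.add (Nat.add (Nat.add C x409) x895) x571) x355) x415) x407) x411) x2595)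
    (Nat.add (Nat.add (Nat.add (Nat.add (Nat.add C x897) x573) x357) x417) x409)
    (Nat.sub (Nat.add (Nat.add (Nat.add (Nat.add (Nat.add (Nat.add C x901) x577) x361) x433) x409) x417) x2601)
    (Nat.add (Nat.add (Nat.add (Nat.add (Nat.add (Nat.add (Nat.add (Nat.add C x417) x903) x579) x363) x435) x411) x423) x415)
    (Nat.add (Nat.add (Nat.add (Nat.add (Nat.add C x909) x585) x369) x441) x417)
    (Nat.sub (Nat.add (Nat.add (Nat.add (Nat.add (Nat.add (Nat.add C (Nat.mul x433 (nat_lit 2))) x919) x595) x379) x415) x435) x2619)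
    (Nat.add (Nat.add (Nat.add (Nat.add (Nat.add (Nat.add (Nat.add C (Nat.mul x435 (nat_lit 2))) x921) x597) x381) x417) x441) x433)
    (Nat.add (Nat.add (Nat.add (Nat.add (Nat.add (Nat.add (Nat.add C (Nat.mul x441 (nat_lit 3))) x927) x603) x387) x423) x459) x435)
    (Nat.add (Nat.add (Nat.add (Nat.add C (Nat.mul x459 (nat_lit 4))) x945) x621) x441)
    (Nat.sub (Nat.add (Nat.add (Nat.add (Nat.add C x977) x329) x497) x493) x2677)
    (Nat.sub (Nat.add (Nat.add (Nat.add (Nat.add C x979) x331) x499) x491) x2679)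
    (Nat.sub (Nat.sub (Nat.add (Nat.add (Nat.add (Nat.add (Nat.add C x983) x335) x515) x491) x499) (Nat.mul x497 (nat_lit 2))) x2683)
    (Nat.sub (Nat.add (Nat.add (Nat.add (Nat.add (Nat.add (Nat.add (Nat.add C x985) x337) x517) x493) x505) x497) x501) x2685)
    (Nat.add (Nat.add (Nat.add (Nat.add (Nat.add C x987) x339) x519) x507) x499)
    (Nat.sub (Nat.sub (Nat.add (Nat.add (Nat.add (Nat.add (Nat.add C x991) x343) x523) x499) x507) (Nat.mul x505 (nat_lit 2))) x2691)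
    (Nat.add (Nat.add (Nat.add (Nat.add (Nat.add C x993) x345) x525) x501) x505)
    (Nat.sub (Nat.sub (Nat.add (Nat.add (Nat.add (Nat.add (Nat.add C x1001) x353) x569) x497) x517) (Nat.mul x515 (nat_lit 2))) x2701)
    (Nat.sub (Nat.sub (Nat.add (Nat.add (Nat.add (Nat.add (Nat.add (Nat.add (Nat.add C x1003) x355) x571) x499) x523) x515) x519) x517) x2703)
    (Nat.sub (Nat.add (Nat.add (Nat.add (Nat.add (Nat.add (Nat.add C x1005) x357) x573) x501) x525) x517) (Nat.mul x519 (nat_lit 2)))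
    (Nat.sub (Nat.sub (Nat.add (Nat.add (Nat.add (Nat.add (Nat.add (Nat.add (Nat.add C x1009) x361) x577) x505) x541) x517) x525) x523) x2709)
    (Nat.add (Nat.add (Nat.add (Nat.add (Nat.add (Nat.add (Nat.add (Nat.add C x1011) x363) x579) x507) x543) x519) x531) x523)
    (Nat.add (Nat.add (Nat.add (Nat.add (Nat.add C x1017) x369) x585) x549) x525)
    (Nat.sub (Nat.sub (Nat.add (Nat.add (Nat.add (Nat.add (Nat.add C x1027) x379) x595) x523) x543) (Nat.mul x541 (nat_lit 2))) x2727)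
    (Nat.sub (Nat.add (Nat.add (Nat.add (Nat.add (Nat.add (Nat.add C x1029) x381) x597) x525) x549) x541) (Nat.mul x543 (nat_lit 2)))
    (Nat.add (Nat.add (Nat.add (Nat.add (Nat.add C x1035) x387) x603) x531) x543)
    (Nat.sub (Nat.add (Nat.add (Nat.add (Nat.add C x1055) x407) x515) x571) x2755)
    (Nat.sub (Nat.add (Nat.add (Nat.add (Nat.add (Nat.add (Nat.add (Nat.add C x571) x1057) x409) x517) x577) x569) x573) x2757)
    (Nat.add (Nat.add (Nat.add (Nat.add (Nat.add C x1059) x411) x519) x579) x571)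
    (Nat.sub (Nat.add (Nat.add (Nat.add (Nat.add (Nat.add (Nat.add C x1063) x415) x523) x595) x571) x579) x2763)
    (Nat.add (Nat.add (Nat.add (Nat.add (Nat.add (Nat.add (Nat.add (Nat.add C x579) x1065) x417) x525) x597) x573) x585) x577)
    (Nat.add (Nat.add (Nat.add (Nat.add (Nat.add C x1071) x423) x531) x603) x579)
    (Nat.sub (Nat.add (Nat.add (Nat.add (Nat.add (Nat.add (Nat.add (Nat.add C x595) x1081) x433) x541) x649) x577) x597) x2781)
    (Nat.add (Nat.add (Nat.add (Nat.add (Nat.add (Nat.add (Nat.add (Nat.add C x597) x1083) x435) x543) x651) x579) x603) x595)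
    (Nat.add (Nat.add (Nat.add (Nat.add (Nat.add (Nat.add (Nat.add (Nat.add C (Nat.mul x603 (nat_lit 2))) x1089) x441) x549) x657) x585) x621) x597)
    (Nat.add (Nat.add (Nat.add (Nat.add (Nat.add C (Nat.mul x621 (nat_lit 2))) x1107) x459) x675) x603)
    (Nat.sub (Nat.add (Nat.add (Nat.add (Nat.add C (Nat.mul x649 (nat_lit 2))) x1135) x595) x651) x2835)
    (Nat.add (Nat.add (Nat.add (Nat.add (Nat.add C (Nat.mul x651 (nat_lit 2))) x1137) x597) x657) x649)
    (Nat.add (Nat.add (Nat.add (Nat.add (Nat.add C (Nat.mul x657 (nat_lit 2))) x1143) x603) x675) x651)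
    (Nat.add (Nat.add (Nat.add (Nat.add C (Nat.mul x675 (nat_lit 4))) x1161) x621) x657)
    (Nat.sub (Nat.add (Nat.add (Nat.add (Nat.add C (Nat.mul x737 (nat_lit 2))) x2195) x251) x743) x2923)
    (Nat.sub (Nat.add (Nat.add (Nat.add (Nat.add (Nat.add (Nat.add (Nat.add C x743) x2201) x257) x761) x737) x749) x745) x2929)
    (Nat.sub (Nat.add (Nat.add (Nat.add (Nat.add (Nat.add (Nat.add C (Nat.mul x745 (nat_lit 2))) x2203) x259) x763) x751) x743) x2931)
    (Nat.sub (Nat.sub (Nat.add (Nat.add (Nat.add (Nat.add (Nat.add C x2207) x263) x767) x743) x751) (Nat.mul x749 (nat_lit 2))) x2935)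
    (Nat.sub (Nat.add (Nat.add (Nat.add (Nat.add (Nat.add (Nat.add (Nat.add C x751) x2209) x265) x769) x745) x749) x753) x2937)
    (Nat.add (Nat.add (Nat.add (Nat.add (Nat.add C (Nat.mul x753 (nat_lit 2))) x2211) x267) x771) x751)
    (Nat.sub (Nat.add (Nat.add (Nat.add (Nat.add (Nat.add (Nat.add C x2219) x275) x815) x743) x767) x763) x2947)
    (Nat.sub (Nat.add (Nat.add (Nat.add (Nat.add (Nat.add (Nat.add C x2221) x277) x817) x745) x769) x761) x2949)
    (Nat.sub (Nat.sub (Nat.add (Nat.add (Nat.add (Nat.add (Nat.add (Nat.add (Nat.add C x2225) x281) x821) x749) x785) x761) x769) x767) x2953)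
    (Nat.sub (Nat.add (Nat.add (Nat.add (Nat.add (Nat.add (Nat.add (Nat.add (Nat.add (Nat.add (Nat.add C x769) x2227) x283) x823) x751) x787) x763) x775) x767) x771) x2955)
    (Nat.add (Nat.add (Nat.add (Nat.add (Nat.add (Nat.add (Nat.add (Nat.add C x771) x2229) x285) x825) x753) x789) x777) x769)
    (Nat.sub (Nat.add (Nat.add (Nat.add (Nat.add (Nat.add (Nat.add C x2233) x289) x829) x793) x769) x777) x2961)
    (Nat.add (Nat.add (Nat.add (Nat.add (Nat.add (Nat.add (Nat.add C (Nat.mul x777 (nat_lit 2))) x2235) x291) x831) x795) x771) x775)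
    (Nat.sub (Nat.sub (Nat.add (Nat.add (Nat.add (Nat.add (Nat.add C x2243) x299) x839) x767) x787) (Nat.mul x785 (nat_lit 2))) x2971)
    (Nat.sub (Nat.sub (Nat.add (Nat.add (Nat.add (Nat.add (Nat.add (Nat.add (Nat.add C x2245) x301) x841) x769) x793) x785) x789) x787) x2973)
    (Nat.sub (Nat.add (Nat.add (Nat.add (Nat.add (Nat.add (Nat.add C x2247) x303) x843) x771) x795) x787) (Nat.mul x789 (nat_lit 2)))
    (Nat.sub (Nat.add (Nat.add (Nat.add (Nat.add (Nat.add (Nat.add C x2251) x307) x847) x775) x787) x795) x2979)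
    (Nat.add (Nat.add (Nat.add (Nat.add (Nat.add (Nat.add (Nat.add (Nat.add C x795) x2253) x309) x849) x777) x789) x801) x793)
    (Nat.add (Nat.add (Nat.add (Nat.add (Nat.add C (Nat.mul x801 (nat_lit 2))) x2259) x315) x855) x795)
    (Nat.sub (Nat.add (Nat.add (Nat.add (Nat.add (Nat.add (Nat.add C x2273) x329) x977) x761) x821) x817) x3001)
    (Nat.sub (Nat.add (Nat.add (Nat.add (Nat.add (Nat.add (Nat.add C x2275) x331) x979) x763) x823) x815) x3003)
    (Nat.sub (Nat.sub (Nat.sub (Nat.add (Nat.add (Nat.add (Nat.add (Nat.add (Nat.add (Nat.add (Nat.add C x2279) x335) x983) x767) x839) x815) x823) (Nat.mul (e (nat_lit 821)) ap)) (Nat.mul x821 (nat_lit 2))) x3007) (Nat.mul (e (nat_lit 821)) an))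
    (Nat.sub (Nat.sub (Nat.add (Nat.add (Nat.add (Nat.add (Nat.add (Nat.add (Nat.add (Nat.add (Nat.add (Nat.add C x2281) x337) x985) x769) x841) x817) x829) x821) x825) (Nat.mul (e (nat_lit 823)) ap)) x3009) (Nat.mul (e (nat_lit 823)) an))
    (Nat.add (Nat.add (Nat.add (Nat.add (Nat.add (Nat.add (Nat.add C x2283) x339) x987) x771) x843) x831) x823)
    (Nat.sub (Nat.sub (Nat.add (Nat.add (Nat.add (Nat.add (Nat.add (Nat.add (Nat.add C x2287) x343) x991) x775) x847) x823) x831) (Nat.mul x829 (nat_lit 2))) x3015)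
    (Nat.add (Nat.add (Nat.add (Nat.add (Nat.add (Nat.add (Nat.add C x2289) x345) x993) x777) x849) x825) x829)
    (Nat.sub (Nat.sub (Nat.add (Nat.add (Nat.add (Nat.add (Nat.add (Nat.add (Nat.add C x2297) x353) x1001) x785) x893) x821) x841) x839) x3025)
    (Nat.sub (Nat.sub (Nat.add (Nat.add (Nat.add (Nat.add (Nat.add (Nat.add (Nat.add (Nat.add (Nat.add (Nat.add C x2299) x355) x1003) x787) x895) x823) x847) x839) x843) (Nat.mul (e (nat_lit 841)) ap)) x3027) (Nat.mul (e (nat_lit 841)) an))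
    (Nat.sub (Nat.add (Nat.add (Nat.add (Nat.add (Nat.add (Nat.add (Nat.add (Nat.add C x2301) x357) x1005) x789) x897) x825) x849) x841) x843)
    (Nat.sub (Nat.add (Nat.add (Nat.add (Nat.add (Nat.add (Nat.add (Nat.add (Nat.add (Nat.add C x2305) x361) x1009) x793) x901) x829) x865) x841) x849) x3033)
    (Nat.add (Nat.add (Nat.add (Nat.add (Nat.add (Nat.add (Nat.add (Nat.add (Nat.add (Nat.add (Nat.add C x849) x2307) x363) x1011) x795) x903) x831) x867) x843) x855) x847)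
    (Nat.add (Nat.add (Nat.add (Nat.add (Nat.add (Nat.add (Nat.add (Nat.add C x855) x2313) x369) x1017) x801) x909) x873) x849)
    (Nat.sub (Nat.add (Nat.add (Nat.add (Nat.add (Nat.add (Nat.add C x2323) x379) x1027) x919) x847) x867) x3051)
    (Nat.add (Nat.add (Nat.add (Nat.add (Nat.add (Nat.add (Nat.add C x2325) x381) x1029) x921) x849) x873) x865)
    (Nat.add (Nat.add (Nat.add (Nat.add (Nat.add (Nat.add (Nat.add C (Nat.mul x873 (nat_lit 2))) x2331) x387) x1035) x927) x855) x867)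
    (Nat.sub (Nat.sub (Nat.add (Nat.add (Nat.add (Nat.add (Nat.add C x2351) x407) x1055) x839) x895) (Nat.mul x893 (nat_lit 2))) x3079)
    (Nat.sub (Nat.sub (Nat.add (Nat.add (Nat.add (Nat.add (Nat.add (Nat.add (Nat.add C x2353) x409) x1057) x841) x901) x893) x897) x895) x3081)
    (Nat.sub (Nat.add (Nat.add (Nat.add (Nat.add (Nat.add (Nat.add C x2355) x411) x1059) x843) x903) x895) (Nat.mul x897 (nat_lit 2)))
    (Nat.sub (Nat.sub (Nat.add (Nat.add (Nat.add (Nat.add (Nat.add (Nat.add (Nat.add C x2359) x415) x1063) x847) x919) x895) x903) (Nat.mul x901 (nat_lit 2))) x3087)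
    (Nat.sub (Nat.add (Nat.add (Nat.add (Nat.add (Nat.add (Nat.add (Nat.add (Nat.add C x2361) x417) x1065) x849) x921) x897) x909) x901) x903)
    (Nat.sub (Nat.add (Nat.add (Nat.add (Nat.add (Nat.add (Nat.add C x2367) x423) x1071) x855) x927) x903) (Nat.mul x909 (nat_lit 2)))
    (Nat.sub (Nat.add (Nat.add (Nat.add (Nat.add (Nat.add (Nat.add C x2377) x433) x1081) x865) x901) x921) x3105)
    (Nat.add (Nat.add (Nat.add (Nat.add (Nat.add (Nat.add (Nat.add C x2379) x435) x1083) x867) x903) x927) x919)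
    (Nat.add (Nat.add (Nat.add (Nat.add (Nat.add (Nat.add (Nat.add (Nat.add C x927) x2385) x441) x1089) x873) x909) x945) x921)
    (Nat.add (Nat.add (Nat.add (Nat.add (Nat.add C (Nat.mul x945 (nat_lit 2))) x2403) x459) x1107) x927)
    (Nat.sub (Nat.add (Nat.add (Nat.add (Nat.add (Nat.add (Nat.add (Nat.add C x977) x2435) x491) x1463) x815) x983) x979) x3163)
    (Nat.sub (Nat.add (Nat.add (Nat.add (Nat.add (Nat.add (Nat.add (Nat.add C x979) x2437) x493) x1465) x817) x985) x977) x3165)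
    (Nat.sub (Nat.sub (Nat.add (Nat.add (Nat.add (Nat.add (Nat.add (Nat.add (Nat.add C x2441) x497) x1469) x821) x1001) x977) x985) x983) x3169)
    (Nat.sub (Nat.add (Nat.add (Nat.add (Nat.add (Nat.add (Nat.add (Nat.add (Nat.add (Nat.add (Nat.add C x985) x2443) x499) x1471) x823) x1003) x979) x991) x983) x987) x3171)
    (Nat.add (Nat.add (Nat.add (Nat.add (Nat.add (Nat.add (Nat.add (Nat.add C x987) x2445) x501) x1473) x825) x1005) x993) x985)
    (Nat.sub (Nat.sub (Nat.add (Nat.add (Nat.add (Nat.add (Nat.add (Nat.add (Nat.add C x2449) x505) x1477) x829) x1009) x985) x993) x991) x3177)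
    (Nat.add (Nat.add (Nat.add (Nat.add (Nat.add (Nat.add (Nat.add (Nat.add C x993) x2451) x507) x1479) x831) x1011) x987) x991)
    (Nat.sub (Nat.sub (Nat.add (Nat.add (Nat.add (Nat.add (Nat.add (Nat.add (Nat.add C x2459) x515) x1487) x839) x1055) x983) x1003) x1001) x3187)
    (Nat.sub (Nat.add (Nat.add (Nat.add (Nat.add (Nat.add (Nat.add (Nat.add (Nat.add (Nat.add C x2461) x517) x1489) x841) x1057) x985) x1009) x1001) x1005) x3189)
    (Nat.sub (Nat.add (Nat.add (Nat.add (Nat.add (Nat.add (Nat.add (Nat.add (Nat.add C x2463) x519) x1491) x843) x1059) x987) x1011) x1003) x1005)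
    (Nat.sub (Nat.add (Nat.add (Nat.add (Nat.add (Nat.add (Nat.add (Nat.add (Nat.add (Nat.add C x2467) x523) x1495) x847) x1063) x991) x1027) x1003) x1011) x3195)
    (Nat.add (Nat.add (Nat.add (Nat.add (Nat.add (Nat.add (Nat.add (Nat.add (Nat.add (Nat.add (Nat.add C x1011) x2469) x525) x1497) x849) x1065) x993) x1029) x1005) x1017) x1009)
    (Nat.add (Nat.add (Nat.add (Nat.add (Nat.add (Nat.add (Nat.add (Nat.add C x1017) x2475) x531) x1503) x855) x1071) x1035) x1011)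
    (Nat.sub (Nat.sub (Nat.add (Nat.add (Nat.add (Nat.add (Nat.add (Nat.add (Nat.add C x2485) x541) x1513) x865) x1081) x1009) x1029) x1027) x3213)
    (Nat.sub (Nat.add (Nat.add (Nat.add (Nat.add (Nat.add (Nat.add (Nat.add (Nat.add C x2487) x543) x1515) x867) x1083) x1011) x1035) x1027) x1029)
    (Nat.add (Nat.add (Nat.add (Nat.add (Nat.add (Nat.add (Nat.add (Nat.add C x1035) x2493) x549) x1521) x873) x1089) x1017) x1029)
    (Nat.sub (Nat.add (Nat.add (Nat.add (Nat.add (Nat.add (Nat.add (Nat.add C x2513) x569) x1541) x893) x1217) x1001) x1057) x3241)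
    (Nat.sub (Nat.add (Nat.add (Nat.add (Nat.add (Nat.add (Nat.add (Nat.add (Nat.add (Nat.add (Nat.add C x1057) x2515) x571) x1543) x895) x1219) x1003) x1063) x1055) x1059) x3243)
    (Nat.add (Nat.add (Nat.add (Nat.add (Nat.add (Nat.add (Nat.add (Nat.add C x2517) x573) x1545) x897) x1221) x1005) x1065) x1057)
    (Nat.sub (Nat.add (Nat.add (Nat.add (Nat.add (Nat.add (Nat.add (Nat.add (Nat.add (Nat.add C x2521) x577) x1549) x901) x1225) x1009) x1081) x1057) x1065) x3249)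
    (Nat.add (Nat.add (Nat.add (Nat.add (Nat.add (Nat.add (Nat.add (Nat.add (Nat.add (Nat.add (Nat.add C x1065) x2523) x579) x1551) x903) x1227) x1011) x1083) x1059) x1071) x1063)
    (Nat.add (Nat.add (Nat.add (Nat.add (Nat.add (Nat.add (Nat.add (Nat.add C x2529) x585) x1557) x909) x1233) x1017) x1089) x1065)
    (Nat.sub (Nat.add (Nat.add (Nat.add (Nat.add (Nat.add (Nat.add (Nat.add (Nat.add (Nat.add (Nat.add C x1081) x2539) x595) x1567) x919) x1243) x1027) x1135) x1063) x1083) x3267)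
    (Nat.add (Nat.add (Nat.add (Nat.add (Nat.add (Nat.add (Nat.add (Nat.add (Nat.add (Nat.add (Nat.add C x1083) x2541) x597) x1569) x921) x1245) x1029) x1137) x1065) x1089) x1081)
    (Nat.add (Nat.add (Nat.add (Nat.add (Nat.add (Nat.add (Nat.add (Nat.add (Nat.add (Nat.add (Nat.add C (Nat.mul x1089 (nat_lit 2))) x2547) x603) x1575) x927) x1251) x1035) x1143) x1071) x1107) x1083)
    (Nat.add (Nat.add (Nat.add (Nat.add (Nat.add (Nat.add (Nat.add (Nat.add C (Nat.mul x1107 (nat_lit 2))) x2565) x621) x1593) x945) x1269) x1161) x1089)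
    (Nat.sub (Nat.add (Nat.add (Nat.add (Nat.add (Nat.add (Nat.add (Nat.add C x1135) x2593) x649) x1621) x1297) x1081) x1137) x3321)
    (Nat.add (Nat.add (Nat.add (Nat.add (Nat.add (Nat.add (Nat.add (Nat.add C x1137) x2595) x651) x1623) x1299) x1083) x1143) x1135)
    (Nat.add (Nat.add (Nat.add (Nat.add (Nat.add (Nat.add (Nat.add (Nat.add C x1143) x2601) x657) x1629) x1305) x1089) x1161) x1137)
    (Nat.add (Nat.add (Nat.add (Nat.add (Nat.add (Nat.add (Nat.add C (Nat.mul x1161 (nat_lit 3))) x2619) x675) x1647) x1323) x1107) x1143)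
    (Nat.sub (Nat.add (Nat.add (Nat.add (Nat.add C x2675) x1703) x1055) x1219) x3403)
    (Nat.sub (Nat.add (Nat.add (Nat.add (Nat.add (Nat.add (Nat.add (Nat.add C x1219) x2677) x1705) x1057) x1225) x1217) x1221) x3405)
    (Nat.add (Nat.add (Nat.add (Nat.add (Nat.add C x2679) x1707) x1059) x1227) x1219)
    (Nat.sub (Nat.add (Nat.add (Nat.add (Nat.add (Nat.add (Nat.add C x2683) x1711) x1063) x1243) x1219) x1227) x3411)
    (Nat.add (Nat.add (Nat.add (Nat.add (Nat.add (Nat.add (Nat.add (Nat.add C x1227) x2685) x1713) x1065) x1245) x1221) x1233) x1225)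
    (Nat.add (Nat.add (Nat.add (Nat.add (Nat.add C x2691) x1719) x1071) x1251) x1227)
    (Nat.sub (Nat.add (Nat.add (Nat.add (Nat.add (Nat.add (Nat.add C x2701) x1729) x1081) x1297) x1225) x1245) x3429)
    (Nat.add (Nat.add (Nat.add (Nat.add (Nat.add (Nat.add (Nat.add C x2703) x1731) x1083) x1299) x1227) x1251) x1243)
    (Nat.add (Nat.add (Nat.add (Nat.add (Nat.add (Nat.add (Nat.add (Nat.add C x1251) x2709) x1737) x1089) x1305) x1233) x1269) x1245)
    (Nat.add (Nat.add (Nat.add (Nat.add (Nat.add C x2727) x1755) x1107) x1323) x1251)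
    (Nat.sub (Nat.add (Nat.add (Nat.add (Nat.add (Nat.add (Nat.add C (Nat.mul x1297 (nat_lit 2))) x2755) x1783) x1135) x1243) x1299) x3483)
    (Nat.add (Nat.add (Nat.add (Nat.add (Nat.add (Nat.add (Nat.add C (Nat.mul x1299 (nat_lit 2))) x2757) x1785) x1137) x1245) x1305) x1297)
    (Nat.add (Nat.add (Nat.add (Nat.add (Nat.add (Nat.add (Nat.add C (Nat.mul x1305 (nat_lit 2))) x2763) x1791) x1143) x1251) x1323) x1299)
    (Nat.add (Nat.add (Nat.add (Nat.add (Nat.add (Nat.add (Nat.add C (Nat.mul x1323 (nat_lit 3))) x2781) x1809) x1161) x1269) x1377) x1305)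
    (Nat.add (Nat.add (Nat.add (Nat.add C (Nat.mul x1377 (nat_lit 4))) x2835) x1863) x1323)
    (Nat.sub (Nat.add (Nat.add (Nat.add (Nat.add C x2921) x977) x1469) x1465) x3649)
    (Nat.sub (Nat.add (Nat.add (Nat.add (Nat.add C x2923) x979) x1471) x1463) x3651)
    (Nat.sub (Nat.sub (Nat.add (Nat.add (Nat.add (Nat.add (Nat.add C x2927) x983) x1487) x1463) x1471) (Nat.mul x1469 (nat_lit 2))) x3655)
    (Nat.sub (Nat.add (Nat.add (Nat.add (Nat.add (Nat.add (Nat.add (Nat.add C x2929) x985) x1489) x1465) x1477) x1469) x1473) x3657)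
    (Nat.add (Nat.add (Nat.add (Nat.add (Nat.add C x2931) x987) x1491) x1479) x1471)
    (Nat.sub (Nat.sub (Nat.add (Nat.add (Nat.add (Nat.add (Nat.add C x2935) x991) x1495) x1471) x1479) (Nat.mul x1477 (nat_lit 2))) x3663)
    (Nat.add (Nat.add (Nat.add (Nat.add (Nat.add C x2937) x993) x1497) x1473) x1477)
    (Nat.sub (Nat.sub (Nat.add (Nat.add (Nat.add (Nat.add (Nat.add C x2945) x1001) x1541) x1469) x1489) (Nat.mul x1487 (nat_lit 2))) x3673)
    (Nat.sub (Nat.sub (Nat.add (Nat.add (Nat.add (Nat.add (Nat.add (Nat.add (Nat.add C x2947) x1003) x1543) x1471) x1495) x1487) x1491) x1489) x3675)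
    (Nat.sub (Nat.add (Nat.add (Nat.add (Nat.add (Nat.add (Nat.add C x2949) x1005) x1545) x1473) x1497) x1489) (Nat.mul x1491 (nat_lit 2)))
    (Nat.sub (Nat.sub (Nat.add (Nat.add (Nat.add (Nat.add (Nat.add (Nat.add (Nat.add C x2953) x1009) x1549) x1477) x1513) x1489) x1497) x1495) x3681)
    (Nat.add (Nat.add (Nat.add (Nat.add (Nat.add (Nat.add (Nat.add (Nat.add C x2955) x1011) x1551) x1479) x1515) x1491) x1503) x1495)
    (Nat.add (Nat.add (Nat.add (Nat.add (Nat.add C x2961) x1017) x1557) x1521) x1497)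
    (Nat.sub (Nat.sub (Nat.add (Nat.add (Nat.add (Nat.add (Nat.add C x2971) x1027) x1567) x1495) x1515) (Nat.mul x1513 (nat_lit 2))) x3699)
    (Nat.sub (Nat.add (Nat.add (Nat.add (Nat.add (Nat.add (Nat.add C x2973) x1029) x1569) x1497) x1521) x1513) (Nat.mul x1515 (nat_lit 2)))
    (Nat.add (Nat.add (Nat.add (Nat.add (Nat.add C x2979) x1035) x1575) x1503) x1515)
    (Nat.sub (Nat.sub (Nat.add (Nat.add (Nat.add (Nat.add (Nat.add C x2999) x1055) x1703) x1487) x1543) (Nat.mul x1541 (nat_lit 2))) x3727)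
    (Nat.sub (Nat.sub (Nat.add (Nat.add (Nat.add (Nat.add (Nat.add (Nat.add (Nat.add C x3001) x1057) x1705) x1489) x1549) x1541) x1545) x1543) x3729)
    (Nat.sub (Nat.add (Nat.add (Nat.add (Nat.add (Nat.add (Nat.add C x3003) x1059) x1707) x1491) x1551) x1543) (Nat.mul x1545 (nat_lit 2)))
    (Nat.sub (Nat.sub (Nat.add (Nat.add (Nat.add (Nat.add (Nat.add (Nat.add (Nat.add C x3007) x1063) x1711) x1495) x1567) x1543) x1551) (Nat.mul x1549 (nat_lit 2))) x3735)
    (Nat.sub (Nat.add (Nat.add (Nat.add (Nat.add (Nat.add (Nat.add (Nat.add (Nat.add C x3009) x1065) x1713) x1497) x1569) x1545) x1557) x1549) x1551)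
    (Nat.sub (Nat.add (Nat.add (Nat.add (Nat.add (Nat.add (Nat.add C x3015) x1071) x1719) x1503) x1575) x1551) (Nat.mul x1557 (nat_lit 2)))
    (Nat.sub (Nat.sub (Nat.add (Nat.add (Nat.add (Nat.add (Nat.add (Nat.add (Nat.add C x3025) x1081) x1729) x1513) x1621) x1549) x1569) x1567) x3753)
    (Nat.sub (Nat.add (Nat.add (Nat.add (Nat.add (Nat.add (Nat.add (Nat.add (Nat.add C x3027) x1083) x1731) x1515) x1623) x1551) x1575) x1567) x1569)
    (Nat.add (Nat.add (Nat.add (Nat.add (Nat.add (Nat.add (Nat.add (Nat.add C x3033) x1089) x1737) x1521) x1629) x1557) x1593) x1569)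
    (Nat.add (Nat.add (Nat.add (Nat.add (Nat.add C x3051) x1107) x1755) x1647) x1575)
    (Nat.sub (Nat.sub (Nat.add (Nat.add (Nat.add (Nat.add (Nat.add C x3079) x1135) x1783) x1567) x1623) (Nat.mul x1621 (nat_lit 2))) x3807)
    (Nat.sub (Nat.add (Nat.add (Nat.add (Nat.add (Nat.add (Nat.add C x3081) x1137) x1785) x1569) x1629) x1621) (Nat.mul x1623 (nat_lit 2)))
    (Nat.sub (Nat.add (Nat.add (Nat.add (Nat.add (Nat.add (Nat.add C x3087) x1143) x1791) x1575) x1647) x1623) (Nat.mul x1629 (nat_lit 2)))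
    (Nat.add (Nat.add (Nat.add (Nat.add (Nat.add C x3105) x1161) x1809) x1593) x1629)
    (Nat.sub (Nat.add (Nat.add (Nat.add (Nat.add C x3161) x1217) x1541) x1705) x3889)
    (Nat.sub (Nat.add (Nat.add (Nat.add (Nat.add (Nat.add (Nat.add (Nat.add C x1705) x3163) x1219) x1543) x1711) x1703) x1707) x3891)
    (Nat.add (Nat.add (Nat.add (Nat.add (Nat.add C x3165) x1221) x1545) x1713) x1705)
    (Nat.sub (Nat.add (Nat.add (Nat.add (Nat.add (Nat.add (Nat.add C x3169) x1225) x1549) x1729) x1705) x1713) x3897)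
    (Nat.add (Nat.add (Nat.add (Nat.add (Nat.add (Nat.add (Nat.add (Nat.add C x1713) x3171) x1227) x1551) x1731) x1707) x1719) x1711)
    (Nat.add (Nat.add (Nat.add (Nat.add (Nat.add C x3177) x1233) x1557) x1737) x1713)
    (Nat.sub (Nat.add (Nat.add (Nat.add (Nat.add (Nat.add (Nat.add C x3187) x1243) x1567) x1783) x1711) x1731) x3915)
    (Nat.add (Nat.add (Nat.add (Nat.add (Nat.add (Nat.add (Nat.add C x3189) x1245) x1569) x1785) x1713) x1737) x1729)
    (Nat.add (Nat.add (Nat.add (Nat.add (Nat.add (Nat.add (Nat.add (Nat.add C x1737) x3195) x1251) x1575) x1791) x1719) x1755) x1731)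
    (Nat.add (Nat.add (Nat.add (Nat.add (Nat.add C x3213) x1269) x1593) x1809) x1737)
    (Nat.sub (Nat.add (Nat.add (Nat.add (Nat.add (Nat.add (Nat.add (Nat.add C x1783) x3241) x1297) x1621) x1945) x1729) x1785) x3969)
    (Nat.add (Nat.add (Nat.add (Nat.add (Nat.add (Nat.add (Nat.add (Nat.add C x1785) x3243) x1299) x1623) x1947) x1731) x1791) x1783)
    (Nat.add (Nat.add (Nat.add (Nat.add (Nat.add (Nat.add (Nat.add (Nat.add C x1791) x3249) x1305) x1629) x1953) x1737) x1809) x1785)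
    (Nat.add (Nat.add (Nat.add (Nat.add (Nat.add (Nat.add (Nat.add (Nat.add C (Nat.mul x1809 (nat_lit 2))) x3267) x1323) x1647) x1971) x1755) x1863) x1791)
    (Nat.add (Nat.add (Nat.add (Nat.add (Nat.add C (Nat.mul x1863 (nat_lit 2))) x3321) x1377) x2025) x1809)
    (Nat.sub (Nat.add (Nat.add (Nat.add (Nat.add C (Nat.mul x1945 (nat_lit 2))) x3403) x1783) x1947) x4131)
    (Nat.add (Nat.add (Nat.add (Nat.add (Nat.add C (Nat.mul x1947 (nat_lit 2))) x3405) x1785) x1953) x1945)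
    (Nat.add (Nat.add (Nat.add (Nat.add (Nat.add C (Nat.mul x1953 (nat_lit 2))) x3411) x1791) x1971) x1947)
    (Nat.add (Nat.add (Nat.add (Nat.add (Nat.add C (Nat.mul x1971 (nat_lit 2))) x3429) x1809) x2025) x1953)
    (Nat.add (Nat.add (Nat.add (Nat.add C (Nat.mul x2025 (nat_lit 4))) x3483) x1863) x1971)
    (Nat.sub (Nat.add (Nat.add (Nat.add C (Nat.mul x2195 (nat_lit 4))) x737) x2201) x4381)
    (Nat.sub (Nat.add (Nat.add (Nat.add (Nat.add (Nat.add (Nat.add C (Nat.mul x2201 (nat_lit 3))) x743) x2219) x2195) x2207) x2203) x4387)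
    (Nat.sub (Nat.sub (Nat.add (Nat.add (Nat.add (Nat.add (Nat.add C (Nat.mul x2203 (nat_lit 3))) x745) x2221) x2209) x2201) x4389) x17)
    (Nat.sub (Nat.add (Nat.add (Nat.add (Nat.add C x749) x2225) x2201) x2209) x4393)
    (Nat.sub (Nat.sub (Nat.add (Nat.add (Nat.add (Nat.add (Nat.add (Nat.add C (Nat.mul x2209 (nat_lit 2))) x751) x2227) x2203) x2207) x2211) x4395) x23)
    (Nat.sub (Nat.add (Nat.add (Nat.add (Nat.add C (Nat.mul x2211 (nat_lit 2))) x753) x2229) x2209) x25)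
    (Nat.sub (Nat.add (Nat.add (Nat.add (Nat.add (Nat.add (Nat.add C (Nat.mul x2219 (nat_lit 2))) x761) x2273) x2201) x2225) x2221) x4405)
    (Nat.sub (Nat.sub (Nat.add (Nat.add (Nat.add (Nat.add (Nat.add (Nat.add C x2221) x763) x2275) x2203) x2227) x2219) x4407) x35)
    (Nat.sub (Nat.add (Nat.add (Nat.add (Nat.add (Nat.add (Nat.add (Nat.add C x2225) x767) x2279) x2207) x2243) x2219) x2227) x4411)
    (Nat.sub (Nat.sub (Nat.add (Nat.add (Nat.add (Nat.add (Nat.add (Nat.add (Nat.add (Nat.add (Nat.add C (Nat.mul x2227 (nat_lit 2))) x769) x2281) x2209) x2245) x2221) x2233) x2225) x2229) x4413) x41)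
    (Nat.sub (Nat.add (Nat.add (Nat.add (Nat.add (Nat.add (Nat.add (Nat.add C x2229) x771) x2283) x2211) x2247) x2235) x2227) x43)
    (Nat.sub (Nat.sub (Nat.add (Nat.add (Nat.add (Nat.add (Nat.add (Nat.add C x2233) x775) x2287) x2251) x2227) x2235) x4419) x47)
    (Nat.sub (Nat.add (Nat.add (Nat.add (Nat.add (Nat.add (Nat.add C (Nat.mul x2235 (nat_lit 2))) x777) x2289) x2253) x2229) x2233) x49)
    (Nat.sub (Nat.add (Nat.add (Nat.add (Nat.add C x785) x2297) x2225) x2245) x4429)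
    (Nat.sub (Nat.sub (Nat.add (Nat.add (Nat.add (Nat.add (Nat.add (Nat.add C x787) x2299) x2227) x2251) x2243) x2247) x4431) x59)
    (Nat.sub (Nat.sub (Nat.add (Nat.add (Nat.add (Nat.add (Nat.add C x789) x2301) x2229) x2253) x2245) (Nat.mul x2247 (nat_lit 2))) x61)
    (Nat.sub (Nat.sub (Nat.add (Nat.add (Nat.add (Nat.add (Nat.add (Nat.add C x2251) x793) x2305) x2233) x2245) x2253) x4437) x65)
    (Nat.sub (Nat.add (Nat.add (Nat.add (Nat.add (Nat.add (Nat.add (Nat.add C x2253) x795) x2307) x2235) x2247) x2259) x2251) x67)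
    (Nat.sub (Nat.add (Nat.add (Nat.add (Nat.add C (Nat.mul x2259 (nat_lit 2))) x801) x2313) x2253) x73)
    (Nat.sub (Nat.add (Nat.add (Nat.add (Nat.add (Nat.add (Nat.add C (Nat.mul x2273 (nat_lit 2))) x815) x2435) x2219) x2279) x2275) x4459)
    (Nat.sub (Nat.sub (Nat.add (Nat.add (Nat.add (Nat.add (Nat.add (Nat.add C x2275) x817) x2437) x2221) x2281) x2273) x4461) x89)
    (Nat.sub (Nat.add (Nat.add (Nat.add (Nat.add (Nat.add (Nat.add C x821) x2441) x2225) x2297) x2273) x2281) x4465)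
    (Nat.sub (Nat.sub (Nat.add (Nat.add (Nat.add (Nat.add (Nat.add (Nat.add (Nat.add (Nat.add (Nat.add C x2281) x823) x2443) x2227) x2299) x2275) x2287) x2279) x2283) x4467) x95)
    (Nat.sub (Nat.add (Nat.add (Nat.add (Nat.add (Nat.add (Nat.add C x825) x2445) x2229) x2301) x2289) x2281) x97)
    (Nat.sub (Nat.sub (Nat.sub (Nat.add (Nat.add (Nat.add (Nat.add (Nat.add (Nat.add C x829) x2449) x2233) x2305) x2281) x2289) x2287) x4473) x101)
    (Nat.sub (Nat.add (Nat.add (Nat.add (Nat.add (Nat.add (Nat.add C x831) x2451) x2235) x2307) x2283) x2287) x103)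
    (Nat.sub (Nat.add (Nat.add (Nat.add (Nat.add (Nat.add (Nat.add (Nat.add C x2297) x839) x2459) x2243) x2351) x2279) x2299) x4483)
    (Nat.sub (Nat.sub (Nat.add (Nat.add (Nat.add (Nat.add (Nat.add (Nat.add (Nat.add (Nat.add (Nat.add C x2299) x841) x2461) x2245) x2353) x2281) x2305) x2297) x2301) x4485) x113)
    (Nat.sub (Nat.sub (Nat.add (Nat.add (Nat.add (Nat.add (Nat.add (Nat.add (Nat.add C x843) x2463) x2247) x2355) x2283) x2307) x2299) x2301) x115)
    (Nat.sub (Nat.sub (Nat.add (Nat.add (Nat.add (Nat.add (Nat.add (Nat.add (Nat.add (Nat.add (Nat.add C x2305) x847) x2467) x2251) x2359) x2287) x2323) x2299) x2307) x4491) x119)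
    (Nat.sub (Nat.add (Nat.add (Nat.add (Nat.add (Nat.add (Nat.add (Nat.add (Nat.add (Nat.add (Nat.add C x2307) x849) x2469) x2253) x2361) x2289) x2325) x2301) x2313) x2305) x121)
    (Nat.sub (Nat.add (Nat.add (Nat.add (Nat.add (Nat.add (Nat.add (Nat.add C x2313) x855) x2475) x2259) x2367) x2331) x2307) x127)
    (Nat.sub (Nat.sub (Nat.add (Nat.add (Nat.add (Nat.add (Nat.add (Nat.add C x2323) x865) x2485) x2377) x2305) x2325) x4509) x137)
    (Nat.sub (Nat.add (Nat.add (Nat.add (Nat.add (Nat.add (Nat.add C x867) x2487) x2379) x2307) x2331) x2323) x139)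
    (Nat.sub (Nat.add (Nat.add (Nat.add (Nat.add (Nat.add (Nat.add C (Nat.mul x2331 (nat_lit 2))) x873) x2493) x2385) x2313) x2325) x145)
    (Nat.sub (Nat.add (Nat.add (Nat.add (Nat.add C x893) x2513) x2297) x2353) x4537)
    (Nat.sub (Nat.sub (Nat.add (Nat.add (Nat.add (Nat.add (Nat.add (Nat.add C x895) x2515) x2299) x2359) x2351) x2355) x4539) x167)
    (Nat.sub (Nat.sub (Nat.add (Nat.add (Nat.add (Nat.add (Nat.add C x897) x2517) x2301) x2361) x2353) (Nat.mul x2355 (nat_lit 2))) x169)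
    (Nat.sub (Nat.sub (Nat.sub (Nat.add (Nat.add (Nat.add (Nat.add (Nat.add (Nat.add C x901) x2521) x2305) x2377) x2353) x2361) x2359) x4545) x173)
    (Nat.sub (Nat.sub (Nat.add (Nat.add (Nat.add (Nat.add (Nat.add (Nat.add (Nat.add C x903) x2523) x2307) x2379) x2355) x2367) x2359) x2361) x175)
    (Nat.sub (Nat.sub (Nat.add (Nat.add (Nat.add (Nat.add (Nat.add C x909) x2529) x2313) x2385) x2361) (Nat.mul x2367 (nat_lit 2))) x181)
    (Nat.sub (Nat.sub (Nat.add (Nat.add (Nat.add (Nat.add (Nat.add (Nat.add C x2377) x919) x2539) x2323) x2359) x2379) x4563) x191)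
    (Nat.sub (Nat.add (Nat.add (Nat.add (Nat.add (Nat.add (Nat.add C x921) x2541) x2325) x2361) x2385) x2377) x193)
    (Nat.sub (Nat.add (Nat.add (Nat.add (Nat.add (Nat.add (Nat.add (Nat.add C x2385) x927) x2547) x2331) x2367) x2403) x2379) x199)
    (Nat.sub (Nat.add (Nat.add (Nat.add (Nat.add C (Nat.mul x2403 (nat_lit 2))) x945) x2565) x2385) x217)
    (Nat.sub (Nat.add (Nat.add (Nat.add (Nat.add (Nat.add (Nat.add C (Nat.mul x2435 (nat_lit 2))) x977) x2921) x2273) x2441) x2437) x4621)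
    (Nat.sub (Nat.sub (Nat.add (Nat.add (Nat.add (Nat.add (Nat.add (Nat.add C x2437) x979) x2923) x2275) x2443) x2435) x4623) x251)
    (Nat.sub (Nat.add (Nat.add (Nat.add (Nat.add (Nat.add (Nat.add C x983) x2927) x2279) x2459) x2435) x2443) x4627)
    (Nat.sub (Nat.sub (Nat.add (Nat.add (Nat.add (Nat.add (Nat.add (Nat.add (Nat.add (Nat.add (Nat.add C x2443) x985) x2929) x2281) x2461) x2437) x2449) x2441) x2445) x4629) x257)
    (Nat.sub (Nat.add (Nat.add (Nat.add (Nat.add (Nat.add (Nat.add C x987) x2931) x2283) x2463) x2451) x2443) x259)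
    (Nat.sub (Nat.sub (Nat.sub (Nat.add (Nat.add (Nat.add (Nat.add (Nat.add (Nat.add C x991) x2935) x2287) x2467) x2443) x2451) x2449) x4635) x263)
    (Nat.sub (Nat.add (Nat.add (Nat.add (Nat.add (Nat.add (Nat.add C x993) x2937) x2289) x2469) x2445) x2449) x265)
    (Nat.sub (Nat.add (Nat.add (Nat.add (Nat.add (Nat.add (Nat.add C x1001) x2945) x2297) x2513) x2441) x2461) x4645)
    (Nat.sub (Nat.sub (Nat.add (Nat.add (Nat.add (Nat.add (Nat.add (Nat.add (Nat.add (Nat.add C x1003) x2947) x2299) x2515) x2443) x2467) x2459) x2463) x4647) x275)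
    (Nat.sub (Nat.sub (Nat.add (Nat.add (Nat.add (Nat.add (Nat.add (Nat.add (Nat.add C x1005) x2949) x2301) x2517) x2445) x2469) x2461) (Nat.mul x2463 (nat_lit 2))) x277)
    (Nat.sub (Nat.sub (Nat.add (Nat.add (Nat.add (Nat.add (Nat.add (Nat.add (Nat.add (Nat.add C x1009) x2953) x2305) x2521) x2449) x2485) x2461) x2469) x4653) x281)
    (Nat.sub (Nat.add (Nat.add (Nat.add (Nat.add (Nat.add (Nat.add (Nat.add (Nat.add (Nat.add C x1011) x2955) x2307) x2523) x2451) x2487) x2463) x2475) x2467) x283)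
    (Nat.sub (Nat.add (Nat.add (Nat.add (Nat.add (Nat.add (Nat.add C x1017) x2961) x2313) x2529) x2493) x2469) x289)
    (Nat.sub (Nat.sub (Nat.sub (Nat.add (Nat.add (Nat.add (Nat.add (Nat.add (Nat.add C x1027) x2971) x2323) x2539) x2467) x2487) x2485) x4671) x299)
    (Nat.sub (Nat.sub (Nat.add (Nat.add (Nat.add (Nat.add (Nat.add (Nat.add (Nat.add C x1029) x2973) x2325) x2541) x2469) x2493) x2485) (Nat.mul x2487 (nat_lit 2))) x301)
    (Nat.sub (Nat.add (Nat.add (Nat.add (Nat.add (Nat.add (Nat.add C x1035) x2979) x2331) x2547) x2475) x2487) x307)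
    (Nat.sub (Nat.add (Nat.add (Nat.add (Nat.add (Nat.add (Nat.add (Nat.add C x2513) x1055) x2999) x2351) x2675) x2459) x2515) x4699)
    (Nat.sub (Nat.sub (Nat.add (Nat.add (Nat.add (Nat.add (Nat.add (Nat.add (Nat.add (Nat.add (Nat.add C x2515) x1057) x3001) x2353) x2677) x2461) x2521) x2513) x2517) x4701) x329)
    (Nat.sub (Nat.sub (Nat.add (Nat.add (Nat.add (Nat.add (Nat.add (Nat.add (Nat.add C x1059) x3003) x2355) x2679) x2463) x2523) x2515) x2517) x331)
    (Nat.sub (Nat.sub (Nat.add (Nat.add (Nat.add (Nat.add (Nat.add (Nat.add (Nat.add (Nat.add C x1063) x3007) x2359) x2683) x2467) x2539) x2515) x2523) x4707) x335)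
    (Nat.sub (Nat.add (Nat.add (Nat.add (Nat.add (Nat.add (Nat.add (Nat.add (Nat.add (Nat.add C x1065) x3009) x2361) x2685) x2469) x2541) x2517) x2529) x2521) x337)
    (Nat.sub (Nat.sub (Nat.add (Nat.add (Nat.add (Nat.add (Nat.add (Nat.add (Nat.add C x1071) x3015) x2367) x2691) x2475) x2547) x2523) x2529) x343)
    (Nat.sub (Nat.sub (Nat.add (Nat.add (Nat.add (Nat.add (Nat.add (Nat.add (Nat.add (Nat.add (Nat.add C x2539) x1081) x3025) x2377) x2701) x2485) x2593) x2521) x2541) x4725) x353)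
    (Nat.sub (Nat.add (Nat.add (Nat.add (Nat.add (Nat.add (Nat.add (Nat.add (Nat.add (Nat.add C x1083) x3027) x2379) x2703) x2487) x2595) x2523) x2547) x2539) x355)
    (Nat.sub (Nat.add (Nat.add (Nat.add (Nat.add (Nat.add (Nat.add (Nat.add (Nat.add (Nat.add (Nat.add C x2547) x1089) x3033) x2385) x2709) x2493) x2601) x2529) x2565) x2541) x361)
    (Nat.sub (Nat.add (Nat.add (Nat.add (Nat.add (Nat.add (Nat.add (Nat.add C x2565) x1107) x3051) x2403) x2727) x2619) x2547) x379)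
    (Nat.sub (Nat.sub (Nat.add (Nat.add (Nat.add (Nat.add (Nat.add (Nat.add C x2593) x1135) x3079) x2755) x2539) x2595) x4779) x407)
    (Nat.sub (Nat.add (Nat.add (Nat.add (Nat.add (Nat.add (Nat.add C x1137) x3081) x2757) x2541) x2601) x2593) x409)
    (Nat.sub (Nat.add (Nat.add (Nat.add (Nat.add (Nat.add (Nat.add C x1143) x3087) x2763) x2547) x2619) x2595) x415)
    (Nat.sub (Nat.add (Nat.add (Nat.add (Nat.add (Nat.add (Nat.add C (Nat.mul x2619 (nat_lit 2))) x1161) x3105) x2781) x2565) x2601) x433)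
    (Nat.sub (Nat.add (Nat.add (Nat.add (Nat.add C x1217) x3161) x2513) x2677) x4861)
    (Nat.sub (Nat.sub (Nat.add (Nat.add (Nat.add (Nat.add (Nat.add (Nat.add C x1219) x3163) x2515) x2683) x2675) x2679) x4863) x491)
    (Nat.sub (Nat.sub (Nat.add (Nat.add (Nat.add (Nat.add (Nat.add C x1221) x3165) x2517) x2685) x2677) (Nat.mul x2679 (nat_lit 2))) x493)
    (Nat.sub (Nat.sub (Nat.sub (Nat.add (Nat.add (Nat.add (Nat.add (Nat.add (Nat.add C x1225) x3169) x2521) x2701) x2677) x2685) x2683) x4869) x497)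
    (Nat.sub (Nat.sub (Nat.add (Nat.add (Nat.add (Nat.add (Nat.add (Nat.add (Nat.add C x1227) x3171) x2523) x2703) x2679) x2691) x2683) x2685) x499)
    (Nat.sub (Nat.sub (Nat.add (Nat.add (Nat.add (Nat.add (Nat.add C x1233) x3177) x2529) x2709) x2685) (Nat.mul x2691 (nat_lit 2))) x505)
    (Nat.sub (Nat.sub (Nat.sub (Nat.add (Nat.add (Nat.add (Nat.add (Nat.add (Nat.add C x1243) x3187) x2539) x2755) x2683) x2703) x2701) x4887) x515)
    (Nat.sub (Nat.sub (Nat.add (Nat.add (Nat.add (Nat.add (Nat.add (Nat.add (Nat.add C x1245) x3189) x2541) x2757) x2685) x2709) x2701) (Nat.mul x2703 (nat_lit 2))) x517)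
    (Nat.sub (Nat.sub (Nat.add (Nat.add (Nat.add (Nat.add (Nat.add (Nat.add (Nat.add C x1251) x3195) x2547) x2763) x2691) x2727) x2703) x2709) x523)
    (Nat.sub (Nat.sub (Nat.add (Nat.add (Nat.add (Nat.add (Nat.add C x1269) x3213) x2565) x2781) x2709) (Nat.mul x2727 (nat_lit 2))) x541)
    (Nat.sub (Nat.sub (Nat.add (Nat.add (Nat.add (Nat.add (Nat.add (Nat.add C x2755) x1297) x3241) x2593) x2701) x2757) x4941) x569)
    (Nat.sub (Nat.add (Nat.add (Nat.add (Nat.add (Nat.add (Nat.add C x1299) x3243) x2595) x2703) x2763) x2755) x571)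
    (Nat.sub (Nat.add (Nat.add (Nat.add (Nat.add (Nat.add (Nat.add C x1305) x3249) x2601) x2709) x2781) x2757) x577)
    (Nat.sub (Nat.add (Nat.add (Nat.add (Nat.add (Nat.add (Nat.add (Nat.add C x2781) x1323) x3267) x2619) x2727) x2835) x2763) x595)
    (Nat.sub (Nat.add (Nat.add (Nat.add (Nat.add C (Nat.mul x2835 (nat_lit 2))) x1377) x3321) x2781) x649)
    (Nat.sub (Nat.add (Nat.add (Nat.add (Nat.add (Nat.add (Nat.add C (Nat.mul x2921 (nat_lit 3))) x1463) x4379) x2435) x2927) x2923) x5107)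
    (Nat.sub (Nat.sub (Nat.add (Nat.add (Nat.add (Nat.add (Nat.add (Nat.add C (Nat.mul x2923 (nat_lit 2))) x1465) x4381) x2437) x2929) x2921) x5109) x737)
    (Nat.sub (Nat.add (Nat.add (Nat.add (Nat.add (Nat.add (Nat.add (Nat.add C x2927) x1469) x4385) x2441) x2945) x2921) x2929) x5113)
    (Nat.sub (Nat.sub (Nat.add (Nat.add (Nat.add (Nat.add (Nat.add (Nat.add (Nat.add (Nat.add (Nat.add C (Nat.mul x2929 (nat_lit 2))) x1471) x4387) x2443) x2947) x2923) x2935) x2927) x2931) x5115) x743)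
    (Nat.sub (Nat.add (Nat.add (Nat.add (Nat.add (Nat.add (Nat.add (Nat.add C x2931) x1473) x4389) x2445) x2949) x2937) x2929) x745)
    (Nat.sub (Nat.sub (Nat.add (Nat.add (Nat.add (Nat.add (Nat.add (Nat.add C x1477) x4393) x2449) x2953) x2929) x2937) x5121) x749)
    (Nat.sub (Nat.add (Nat.add (Nat.add (Nat.add (Nat.add (Nat.add (Nat.add C x2937) x1479) x4395) x2451) x2955) x2931) x2935) x751)
    (Nat.sub (Nat.add (Nat.add (Nat.add (Nat.add (Nat.add (Nat.add (Nat.add C x2945) x1487) x4403) x2459) x2999) x2927) x2947) x5131)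
    (Nat.sub (Nat.sub (Nat.add (Nat.add (Nat.add (Nat.add (Nat.add (Nat.add (Nat.add (Nat.add (Nat.add C x2947) x1489) x4405) x2461) x3001) x2929) x2953) x2945) x2949) x5133) x761)
    (Nat.sub (Nat.sub (Nat.add (Nat.add (Nat.add (Nat.add (Nat.add (Nat.add (Nat.add C x1491) x4407) x2463) x3003) x2931) x2955) x2947) x2949) x763)
    (Nat.sub (Nat.sub (Nat.add (Nat.add (Nat.add (Nat.add (Nat.add (Nat.add (Nat.add (Nat.add (Nat.add C x2953) x1495) x4411) x2467) x3007) x2935) x2971) x2947) x2955) x5139) x767)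
    (Nat.sub (Nat.add (Nat.add (Nat.add (Nat.add (Nat.add (Nat.add (Nat.add (Nat.add (Nat.add (Nat.add C x2955) x1497) x4413) x2469) x3009) x2937) x2973) x2949) x2961) x2953) x769)
    (Nat.sub (Nat.add (Nat.add (Nat.add (Nat.add (Nat.add (Nat.add (Nat.add C x2961) x1503) x4419) x2475) x3015) x2979) x2955) x775)
    (Nat.sub (Nat.sub (Nat.add (Nat.add (Nat.add (Nat.add (Nat.add (Nat.add C x1513) x4429) x2485) x3025) x2953) x2973) x5157) x785)
    (Nat.sub (Nat.sub (Nat.add (Nat.add (Nat.add (Nat.add (Nat.add (Nat.add (Nat.add C x1515) x4431) x2487) x3027) x2955) x2979) x2971) x2973) x787)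
    (Nat.sub (Nat.add (Nat.add (Nat.add (Nat.add (Nat.add (Nat.add (Nat.add C x2979) x1521) x4437) x2493) x3033) x2961) x2973) x793)
    (Nat.sub (Nat.add (Nat.add (Nat.add (Nat.add (Nat.add (Nat.add (Nat.add C x2999) x1541) x4457) x2513) x3161) x2945) x3001) x5185)
    (Nat.sub (Nat.sub (Nat.add (Nat.add (Nat.add (Nat.add (Nat.add (Nat.add (Nat.add (Nat.add (Nat.add C x3001) x1543) x4459) x2515) x3163) x2947) x3007) x2999) x3003) x5187) x815)
    (Nat.sub (Nat.sub (Nat.add (Nat.add (Nat.add (Nat.add (Nat.add (Nat.add (Nat.add C x1545) x4461) x2517) x3165) x2949) x3009) x3001) x3003) x817)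
    (Nat.sub (Nat.sub (Nat.add (Nat.add (Nat.add (Nat.add (Nat.add (Nat.add (Nat.add (Nat.add C x1549) x4465) x2521) x3169) x2953) x3025) x3001) x3009) x5193) x821)
    (Nat.sub (Nat.add (Nat.add (Nat.add (Nat.add (Nat.add (Nat.add (Nat.add (Nat.add (Nat.add C x1551) x4467) x2523) x3171) x2955) x3027) x3003) x3015) x3007) x823)
    (Nat.sub (Nat.sub (Nat.add (Nat.add (Nat.add (Nat.add (Nat.add (Nat.add (Nat.add C x1557) x4473) x2529) x3177) x2961) x3033) x3009) x3015) x829)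
    (Nat.sub (Nat.sub (Nat.add (Nat.add (Nat.add (Nat.add (Nat.add (Nat.add (Nat.add (Nat.add (Nat.add C x3025) x1567) x4483) x2539) x3187) x2971) x3079) x3007) x3027) x5211) x839)
    (Nat.sub (Nat.add (Nat.add (Nat.add (Nat.add (Nat.add (Nat.add (Nat.add (Nat.add (Nat.add C x1569) x4485) x2541) x3189) x2973) x3081) x3009) x3033) x3025) x841)
    (Nat.sub (Nat.add (Nat.add (Nat.add (Nat.add (Nat.add (Nat.add (Nat.add (Nat.add (Nat.add (Nat.add C x3033) x1575) x4491) x2547) x3195) x2979) x3087) x3015) x3051) x3027) x847)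
    (Nat.sub (Nat.add (Nat.add (Nat.add (Nat.add (Nat.add (Nat.add (Nat.add C x3051) x1593) x4509) x2565) x3213) x3105) x3033) x865)
    (Nat.sub (Nat.sub (Nat.add (Nat.add (Nat.add (Nat.add (Nat.add (Nat.add C x1621) x4537) x2593) x3241) x3025) x3081) x5265) x893)
    (Nat.sub (Nat.sub (Nat.add (Nat.add (Nat.add (Nat.add (Nat.add (Nat.add (Nat.add C x1623) x4539) x2595) x3243) x3027) x3087) x3079) x3081) x895)
    (Nat.sub (Nat.sub (Nat.add (Nat.add (Nat.add (Nat.add (Nat.add (Nat.add (Nat.add C x1629) x4545) x2601) x3249) x3033) x3105) x3081) x3087) x901)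
    (Nat.sub (Nat.add (Nat.add (Nat.add (Nat.add (Nat.add (Nat.add (Nat.add C x3105) x1647) x4563) x2619) x3267) x3051) x3087) x919)
    (Nat.sub (Nat.add (Nat.add (Nat.add (Nat.add (Nat.add (Nat.add (Nat.add C (Nat.mul x3161 (nat_lit 2))) x1703) x4619) x2675) x3647) x2999) x3163) x5347)
    (Nat.sub (Nat.sub (Nat.add (Nat.add (Nat.add (Nat.add (Nat.add (Nat.add (Nat.add (Nat.add (Nat.add C (Nat.mul x3163 (nat_lit 2))) x1705) x4621) x2677) x3649) x3001) x3169) x3161) x3165) x5349) x977)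
    (Nat.sub (Nat.add (Nat.add (Nat.add (Nat.add (Nat.add (Nat.add (Nat.add C x1707) x4623) x2679) x3651) x3003) x3171) x3163) x979)
    (Nat.sub (Nat.sub (Nat.add (Nat.add (Nat.add (Nat.add (Nat.add (Nat.add (Nat.add (Nat.add (Nat.add C x3169) x1711) x4627) x2683) x3655) x3007) x3187) x3163) x3171) x5355) x983)
    (Nat.sub (Nat.add (Nat.add (Nat.add (Nat.add (Nat.add (Nat.add (Nat.add (Nat.add (Nat.add (Nat.add C x3171) x1713) x4629) x2685) x3657) x3009) x3189) x3165) x3177) x3169) x985)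
    (Nat.sub (Nat.add (Nat.add (Nat.add (Nat.add (Nat.add (Nat.add (Nat.add C x1719) x4635) x2691) x3663) x3015) x3195) x3171) x991)
    (Nat.sub (Nat.sub (Nat.add (Nat.add (Nat.add (Nat.add (Nat.add (Nat.add (Nat.add (Nat.add (Nat.add C x3187) x1729) x4645) x2701) x3673) x3025) x3241) x3169) x3189) x5373) x1001)
    (Nat.sub (Nat.add (Nat.add (Nat.add (Nat.add (Nat.add (Nat.add (Nat.add (Nat.add (Nat.add C x1731) x4647) x2703) x3675) x3027) x3243) x3171) x3195) x3187) x1003)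
    (Nat.sub (Nat.add (Nat.add (Nat.add (Nat.add (Nat.add (Nat.add (Nat.add (Nat.add (Nat.add (Nat.add C x3195) x1737) x4653) x2709) x3681) x3033) x3249) x3177) x3213) x3189) x1009)
    (Nat.sub (Nat.add (Nat.add (Nat.add (Nat.add (Nat.add (Nat.add (Nat.add C x1755) x4671) x2727) x3699) x3051) x3267) x3195) x1027)
    (Nat.sub (Nat.sub (Nat.add (Nat.add (Nat.add (Nat.add (Nat.add (Nat.add (Nat.add (Nat.add (Nat.add C (Nat.mul x3241 (nat_lit 2))) x1783) x4699) x2755) x3727) x3079) x3403) x3187) x3243) x5427) x1055)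
    (Nat.sub (Nat.add (Nat.add (Nat.add (Nat.add (Nat.add (Nat.add (Nat.add (Nat.add (Nat.add (Nat.add C x3243) x1785) x4701) x2757) x3729) x3081) x3405) x3189) x3249) x3241) x1057)
    (Nat.sub (Nat.add (Nat.add (Nat.add (Nat.add (Nat.add (Nat.add (Nat.add (Nat.add (Nat.add (Nat.add C x3249) x1791) x4707) x2763) x3735) x3087) x3411) x3195) x3267) x3243) x1063)
    (Nat.sub (Nat.add (Nat.add (Nat.add (Nat.add (Nat.add (Nat.add (Nat.add (Nat.add (Nat.add (Nat.add C (Nat.mul x3267 (nat_lit 2))) x1809) x4725) x2781) x3753) x3105) x3429) x3213) x3321) x3249) x1081)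
    (Nat.sub (Nat.add (Nat.add (Nat.add (Nat.add (Nat.add (Nat.add (Nat.add C (Nat.mul x3321 (nat_lit 2))) x1863) x4779) x2835) x3807) x3483) x3267) x1135)
    (Nat.sub (Nat.sub (Nat.add (Nat.add (Nat.add (Nat.add (Nat.add (Nat.add C (Nat.mul x3403 (nat_lit 2))) x1945) x4861) x3889) x3241) x3405) x5589) x1217)
    (Nat.sub (Nat.add (Nat.add (Nat.add (Nat.add (Nat.add (Nat.add (Nat.add C x3405) x1947) x4863) x3891) x3243) x3411) x3403) x1219)
    (Nat.sub (Nat.add (Nat.add (Nat.add (Nat.add (Nat.add (Nat.add (Nat.add C x3411) x1953) x4869) x3897) x3249) x3429) x3405) x1225)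
    (Nat.sub (Nat.add (Nat.add (Nat.add (Nat.add (Nat.add (Nat.add (Nat.add C x3429) x1971) x4887) x3915) x3267) x3483) x3411) x1243)
    (Nat.sub (Nat.add (Nat.add (Nat.add (Nat.add (Nat.add (Nat.add C (Nat.mul x3483 (nat_lit 3))) x2025) x4941) x3969) x3321) x3429) x1297)
    (Nat.sub (Nat.add (Nat.add (Nat.add (Nat.add C (Nat.mul x3647 (nat_lit 2))) x5105) x3161) x3649) x5833)
    (Nat.sub (Nat.sub (Nat.add (Nat.add (Nat.add (Nat.add (Nat.add (Nat.add C (Nat.mul x3649 (nat_lit 2))) x5107) x3163) x3655) x3647) x3651) x5835) x1463)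
    (Nat.sub (Nat.add (Nat.add (Nat.add (Nat.add C x5109) x3165) x3657) x3649) x1465)
    (Nat.sub (Nat.sub (Nat.add (Nat.add (Nat.add (Nat.add (Nat.add (Nat.add C x3655) x5113) x3169) x3673) x3649) x3657) x5841) x1469)
    (Nat.sub (Nat.add (Nat.add (Nat.add (Nat.add (Nat.add (Nat.add (Nat.add C x3657) x5115) x3171) x3675) x3651) x3663) x3655) x1471)
    (Nat.sub (Nat.add (Nat.add (Nat.add (Nat.add C x5121) x3177) x3681) x3657) x1477)
    (Nat.sub (Nat.sub (Nat.add (Nat.add (Nat.add (Nat.add (Nat.add (Nat.add C x3673) x5131) x3187) x3727) x3655) x3675) x5859) x1487)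
    (Nat.sub (Nat.add (Nat.add (Nat.add (Nat.add (Nat.add (Nat.add C x5133) x3189) x3729) x3657) x3681) x3673) x1489)
    (Nat.sub (Nat.add (Nat.add (Nat.add (Nat.add (Nat.add (Nat.add (Nat.add C x3681) x5139) x3195) x3735) x3663) x3699) x3675) x1495)
    (Nat.sub (Nat.add (Nat.add (Nat.add (Nat.add C x5157) x3213) x3753) x3681) x1513)
    (Nat.sub (Nat.sub (Nat.add (Nat.add (Nat.add (Nat.add (Nat.add (Nat.add C x3727) x5185) x3241) x3889) x3673) x3729) x5913) x1541)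
    (Nat.sub (Nat.add (Nat.add (Nat.add (Nat.add (Nat.add (Nat.add C x5187) x3243) x3891) x3675) x3735) x3727) x1543)
    (Nat.sub (Nat.add (Nat.add (Nat.add (Nat.add (Nat.add (Nat.add C x5193) x3249) x3897) x3681) x3753) x3729) x1549)
    (Nat.sub (Nat.add (Nat.add (Nat.add (Nat.add (Nat.add (Nat.add (Nat.add C x3753) x5211) x3267) x3915) x3699) x3807) x3735) x1567)
    (Nat.sub (Nat.add (Nat.add (Nat.add (Nat.add C x5265) x3321) x3969) x3753) x1621)
    (Nat.sub (Nat.sub (Nat.add (Nat.add (Nat.add (Nat.add (Nat.add C (Nat.mul x3889 (nat_lit 3))) x5347) x3403) x3727) x3891) x6075) x1703)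
    (Nat.sub (Nat.add (Nat.add (Nat.add (Nat.add (Nat.add (Nat.add C (Nat.mul x3891 (nat_lit 2))) x5349) x3405) x3729) x3897) x3889) x1705)
    (Nat.sub (Nat.add (Nat.add (Nat.add (Nat.add (Nat.add (Nat.add C (Nat.mul x3897 (nat_lit 2))) x5355) x3411) x3735) x3915) x3891) x1711)
    (Nat.sub (Nat.add (Nat.add (Nat.add (Nat.add (Nat.add (Nat.add C (Nat.mul x3915 (nat_lit 2))) x5373) x3429) x3753) x3969) x3897) x1729)
    (Nat.sub (Nat.add (Nat.add (Nat.add (Nat.add (Nat.add (Nat.add C (Nat.mul x3969 (nat_lit 3))) x5427) x3483) x3807) x4131) x3915) x1783)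
    (Nat.sub (Nat.add (Nat.add (Nat.add C (Nat.mul x4131 (nat_lit 4))) x5589) x3969) x1945)
    (Nat.add (Nat.add (Nat.add (Nat.add C (Nat.mul x4379 (nat_lit 4))) x2921) x4385) x4381)
    (Nat.sub (Nat.add (Nat.add (Nat.add (Nat.add C (Nat.mul x4381 (nat_lit 2))) x2923) x4387) x4379) x2195)
    (Nat.add (Nat.add (Nat.add (Nat.add (Nat.add C (Nat.mul x4385 (nat_lit 2))) x2927) x4403) x4379) x4387)
    (Nat.sub (Nat.add (Nat.add (Nat.add (Nat.add (Nat.add (Nat.add (Nat.add C (Nat.mul x4387 (nat_lit 2))) x2929) x4405) x4381) x4393) x4385) x4389) x2201)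
    (Nat.sub (Nat.add (Nat.add (Nat.add (Nat.add C x2931) x4407) x4395) x4387) x2203)
    (Nat.sub (Nat.add (Nat.add (Nat.add (Nat.add C x2935) x4411) x4387) x4395) x2207)
    (Nat.sub (Nat.add (Nat.add (Nat.add (Nat.add C x2937) x4413) x4389) x4393) x2209)
    (Nat.add (Nat.add (Nat.add (Nat.add (Nat.add C (Nat.mul x4403 (nat_lit 2))) x2945) x4457) x4385) x4405)
    (Nat.sub (Nat.add (Nat.add (Nat.add (Nat.add (Nat.add (Nat.add (Nat.add C x4405) x2947) x4459) x4387) x4411) x4403) x4407) x2219)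
    (Nat.sub (Nat.sub (Nat.add (Nat.add (Nat.add (Nat.add (Nat.add C x2949) x4461) x4389) x4413) x4405) (Nat.mul x4407 (nat_lit 2))) x2221)
    (Nat.sub (Nat.add (Nat.add (Nat.add (Nat.add (Nat.add (Nat.add (Nat.add C x4411) x2953) x4465) x4393) x4429) x4405) x4413) x2225)
    (Nat.sub (Nat.add (Nat.add (Nat.add (Nat.add (Nat.add (Nat.add (Nat.add C x2955) x4467) x4395) x4431) x4407) x4419) x4411) x2227)
    (Nat.sub (Nat.add (Nat.add (Nat.add (Nat.add C x2961) x4473) x4437) x4413) x2233)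
    (Nat.sub (Nat.add (Nat.add (Nat.add (Nat.add C x2971) x4483) x4411) x4431) x2243)
    (Nat.sub (Nat.sub (Nat.add (Nat.add (Nat.add (Nat.add (Nat.add C x2973) x4485) x4413) x4437) x4429) (Nat.mul x4431 (nat_lit 2))) x2245)
    (Nat.sub (Nat.add (Nat.add (Nat.add (Nat.add C x2979) x4491) x4419) x4431) x2251)
    (Nat.add (Nat.add (Nat.add (Nat.add (Nat.add C (Nat.mul x4457 (nat_lit 2))) x2999) x4619) x4403) x4459)
    (Nat.sub (Nat.add (Nat.add (Nat.add (Nat.add (Nat.add (Nat.add (Nat.add C x4459) x3001) x4621) x4405) x4465) x4457) x4461) x2273)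
    (Nat.sub (Nat.sub (Nat.add (Nat.add (Nat.add (Nat.add (Nat.add C x3003) x4623) x4407) x4467) x4459) (Nat.mul x4461 (nat_lit 2))) x2275)
    (Nat.sub (Nat.add (Nat.add (Nat.add (Nat.add (Nat.add (Nat.add C x3007) x4627) x4411) x4483) x4459) x4467) x2279)
    (Nat.sub (Nat.sub (Nat.add (Nat.add (Nat.add (Nat.add (Nat.add (Nat.add (Nat.add C x3009) x4629) x4413) x4485) x4461) x4473) x4465) x4467) x2281)
    (Nat.sub (Nat.sub (Nat.add (Nat.add (Nat.add (Nat.add (Nat.add C x3015) x4635) x4419) x4491) x4467) (Nat.mul x4473 (nat_lit 2))) x2287)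
    (Nat.sub (Nat.add (Nat.add (Nat.add (Nat.add (Nat.add (Nat.add (Nat.add C x4483) x3025) x4645) x4429) x4537) x4465) x4485) x2297)
    (Nat.sub (Nat.sub (Nat.add (Nat.add (Nat.add (Nat.add (Nat.add (Nat.add (Nat.add C x3027) x4647) x4431) x4539) x4467) x4491) x4483) x4485) x2299)
    (Nat.sub (Nat.add (Nat.add (Nat.add (Nat.add (Nat.add (Nat.add (Nat.add C x3033) x4653) x4437) x4545) x4473) x4509) x4485) x2305)
    (Nat.sub (Nat.add (Nat.add (Nat.add (Nat.add C x3051) x4671) x4563) x4491) x2323)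
    (Nat.sub (Nat.add (Nat.add (Nat.add (Nat.add C x3079) x4699) x4483) x4539) x2351)
    (Nat.sub (Nat.sub (Nat.add (Nat.add (Nat.add (Nat.add (Nat.add C x3081) x4701) x4485) x4545) x4537) (Nat.mul x4539 (nat_lit 2))) x2353)
    (Nat.sub (Nat.sub (Nat.add (Nat.add (Nat.add (Nat.add (Nat.add C x3087) x4707) x4491) x4563) x4539) (Nat.mul x4545 (nat_lit 2))) x2359)
    (Nat.sub (Nat.add (Nat.add (Nat.add (Nat.add C x3105) x4725) x4509) x4545) x2377)
    (Nat.add (Nat.add (Nat.add (Nat.add (Nat.add C (Nat.mul x4619 (nat_lit 2))) x3161) x5105) x4457) x4621)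
    (Nat.sub (Nat.add (Nat.add (Nat.add (Nat.add (Nat.add (Nat.add (Nat.add C x4621) x3163) x5107) x4459) x4627) x4619) x4623) x2435)
    (Nat.sub (Nat.sub (Nat.add (Nat.add (Nat.add (Nat.add (Nat.add C x3165) x5109) x4461) x4629) x4621) (Nat.mul x4623 (nat_lit 2))) x2437)
    (Nat.sub (Nat.add (Nat.add (Nat.add (Nat.add (Nat.add (Nat.add C x3169) x5113) x4465) x4645) x4621) x4629) x2441)
    (Nat.sub (Nat.sub (Nat.add (Nat.add (Nat.add (Nat.add (Nat.add (Nat.add (Nat.add C x3171) x5115) x4467) x4647) x4623) x4635) x4627) x4629) x2443)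
    (Nat.sub (Nat.sub (Nat.add (Nat.add (Nat.add (Nat.add (Nat.add C x3177) x5121) x4473) x4653) x4629) (Nat.mul x4635 (nat_lit 2))) x2449)
    (Nat.sub (Nat.add (Nat.add (Nat.add (Nat.add (Nat.add (Nat.add C x3187) x5131) x4483) x4699) x4627) x4647) x2459)
    (Nat.sub (Nat.sub (Nat.add (Nat.add (Nat.add (Nat.add (Nat.add (Nat.add (Nat.add C x3189) x5133) x4485) x4701) x4629) x4653) x4645) (Nat.mul x4647 (nat_lit 2))) x2461)
    (Nat.sub (Nat.sub (Nat.add (Nat.add (Nat.add (Nat.add (Nat.add (Nat.add (Nat.add C x3195) x5139) x4491) x4707) x4635) x4671) x4647) x4653) x2467)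
    (Nat.sub (Nat.sub (Nat.add (Nat.add (Nat.add (Nat.add (Nat.add C x3213) x5157) x4509) x4725) x4653) (Nat.mul x4671 (nat_lit 2))) x2485)
    (Nat.sub (Nat.add (Nat.add (Nat.add (Nat.add (Nat.add (Nat.add (Nat.add C x4699) x3241) x5185) x4537) x4861) x4645) x4701) x2513)
    (Nat.sub (Nat.sub (Nat.add (Nat.add (Nat.add (Nat.add (Nat.add (Nat.add (Nat.add C x3243) x5187) x4539) x4863) x4647) x4707) x4699) x4701) x2515)
    (Nat.sub (Nat.sub (Nat.add (Nat.add (Nat.add (Nat.add (Nat.add (Nat.add (Nat.add C x3249) x5193) x4545) x4869) x4653) x4725) x4701) x4707) x2521)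
    (Nat.sub (Nat.add (Nat.add (Nat.add (Nat.add (Nat.add (Nat.add (Nat.add C x3267) x5211) x4563) x4887) x4671) x4779) x4707) x2539)
    (Nat.sub (Nat.add (Nat.add (Nat.add (Nat.add C x3321) x5265) x4941) x4725) x2593)
    (Nat.sub (Nat.add (Nat.add (Nat.add (Nat.add C x3403) x5347) x4699) x4863) x2675)
    (Nat.sub (Nat.sub (Nat.add (Nat.add (Nat.add (Nat.add (Nat.add C x3405) x5349) x4701) x4869) x4861) (Nat.mul x4863 (nat_lit 2))) x2677)
    (Nat.sub (Nat.sub (Nat.add (Nat.add (Nat.add (Nat.add (Nat.add C x3411) x5355) x4707) x4887) x4863) (Nat.mul x4869 (nat_lit 2))) x2683)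
    (Nat.sub (Nat.sub (Nat.add (Nat.add (Nat.add (Nat.add (Nat.add C x3429) x5373) x4725) x4941) x4869) (Nat.mul x4887 (nat_lit 2))) x2701)
    (Nat.sub (Nat.add (Nat.add (Nat.add (Nat.add C x3483) x5427) x4779) x4887) x2755)
    (Nat.add (Nat.add (Nat.add (Nat.add C (Nat.mul x5105 (nat_lit 4))) x3647) x4619) x5107)
    (Nat.sub (Nat.add (Nat.add (Nat.add (Nat.add (Nat.add (Nat.add C (Nat.mul x5107 (nat_lit 3))) x3649) x4621) x5113) x5105) x5109) x2921)
    (Nat.sub (Nat.add (Nat.add (Nat.add (Nat.add C x3651) x4623) x5115) x5107) x2923)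
    (Nat.sub (Nat.add (Nat.add (Nat.add (Nat.add (Nat.add (Nat.add C (Nat.mul x5113 (nat_lit 2))) x3655) x4627) x5131) x5107) x5115) x2927)
    (Nat.sub (Nat.add (Nat.add (Nat.add (Nat.add (Nat.add (Nat.add (Nat.add C x5115) x3657) x4629) x5133) x5109) x5121) x5113) x2929)
    (Nat.sub (Nat.add (Nat.add (Nat.add (Nat.add C x3663) x4635) x5139) x5115) x2935)
    (Nat.sub (Nat.add (Nat.add (Nat.add (Nat.add (Nat.add (Nat.add C (Nat.mul x5131 (nat_lit 2))) x3673) x4645) x5185) x5113) x5133) x2945)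
    (Nat.sub (Nat.add (Nat.add (Nat.add (Nat.add (Nat.add (Nat.add C x3675) x4647) x5187) x5115) x5139) x5131) x2947)
    (Nat.sub (Nat.add (Nat.add (Nat.add (Nat.add (Nat.add (Nat.add (Nat.add C x5139) x3681) x4653) x5193) x5121) x5157) x5133) x2953)
    (Nat.sub (Nat.add (Nat.add (Nat.add (Nat.add C x3699) x4671) x5211) x5139) x2971)
    (Nat.sub (Nat.add (Nat.add (Nat.add (Nat.add (Nat.add (Nat.add C (Nat.mul x5185 (nat_lit 2))) x3727) x4699) x5347) x5131) x5187) x2999)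
    (Nat.sub (Nat.add (Nat.add (Nat.add (Nat.add (Nat.add (Nat.add C x3729) x4701) x5349) x5133) x5193) x5185) x3001)
    (Nat.sub (Nat.add (Nat.add (Nat.add (Nat.add (Nat.add (Nat.add C x3735) x4707) x5355) x5139) x5211) x5187) x3007)
    (Nat.sub (Nat.add (Nat.add (Nat.add (Nat.add (Nat.add (Nat.add (Nat.add C x5211) x3753) x4725) x5373) x5157) x5265) x5193) x3025)
    (Nat.sub (Nat.add (Nat.add (Nat.add (Nat.add C x3807) x4779) x5427) x5211) x3079)
    (Nat.sub (Nat.add (Nat.add (Nat.add (Nat.add (Nat.add (Nat.add C (Nat.mul x5347 (nat_lit 3))) x3889) x4861) x5833) x5185) x5349) x3161)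
    (Nat.sub (Nat.add (Nat.add (Nat.add (Nat.add (Nat.add (Nat.add (Nat.add C x5349) x3891) x4863) x5835) x5187) x5355) x5347) x3163)
    (Nat.sub (Nat.add (Nat.add (Nat.add (Nat.add (Nat.add (Nat.add (Nat.add C x5355) x3897) x4869) x5841) x5193) x5373) x5349) x3169)
    (Nat.sub (Nat.add (Nat.add (Nat.add (Nat.add (Nat.add (Nat.add (Nat.add C x5373) x3915) x4887) x5859) x5211) x5427) x5355) x3187)
    (Nat.sub (Nat.add (Nat.add (Nat.add (Nat.add (Nat.add (Nat.add (Nat.add C (Nat.mul x5427 (nat_lit 2))) x3969) x4941) x5913) x5265) x5589) x5373) x3241)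
    (Nat.sub (Nat.add (Nat.add (Nat.add (Nat.add C (Nat.mul x5589 (nat_lit 2))) x4131) x6075) x5427) x3403)
    (Nat.sub (Nat.add (Nat.add (Nat.add C (Nat.mul x5833 (nat_lit 4))) x5347) x5835) x3647)
    (Nat.sub (Nat.add (Nat.add (Nat.add (Nat.add C (Nat.mul x5835 (nat_lit 2))) x5349) x5841) x5833) x3649)
    (Nat.sub (Nat.add (Nat.add (Nat.add (Nat.add C (Nat.mul x5841 (nat_lit 2))) x5355) x5859) x5835) x3655)
    (Nat.sub (Nat.add (Nat.add (Nat.add (Nat.add C (Nat.mul x5859 (nat_lit 2))) x5373) x5913) x5841) x3673)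
    (Nat.sub (Nat.add (Nat.add (Nat.add (Nat.add C (Nat.mul x5913 (nat_lit 2))) x5427) x6075) x5859) x3727)
    (Nat.sub (Nat.add (Nat.add (Nat.add C (Nat.mul x6075 (nat_lit 4))) x5589) x5913) x3889)

theorem ap_eq (x : Nat → Nat) (k : FnLL specs) : apLL (fun t => x t.cd) specs k = A8_5.ap x k :=
  Eq.refl (A8_5.ap x k)

theorem step_eq0 (e : Nat → Nat) (C p r : Nat) (k : FnLL specs) (x : Nat → Nat) :
    A8_5.ap x (step e C p r k) = apLL (interp e C p r x) specs k :=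
  Eq.refl (A8_5.ap x (step e C p r k))

theorem spec_ok : specOK 7 true A8_5.mask specs = true := by decide +kernel

theorem step_eq (e : Nat → Nat) (C p r : Nat) (k : A8_5.KK) (x : Nat → Nat) :
    A8_5.ap x (step e C p r k) = A8_5.ap (row 7 true A8_5.mask e C p r x) k :=
  ((step_eq0 e C p r k x).trans (apLL_row 7 true A8_5.mask specs spec_ok e C p r x k)).trans
    (ap_eq (row 7 true A8_5.mask e C p r x) k)

end Vale.Agent.P348.G8_5_1

namespace Vale.Agent.P348.G8_6_1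

noncomputable def sp0 : List Spec :=
  [Spec.mk (nat_lit 26) (nat_lit 4) [nat_lit 44] (nat_lit 0) [nat_lit 2212] true,
   Spec.mk (nat_lit 44) (nat_lit 3) [nat_lit 98, nat_lit 26, nat_lit 62, nat_lit 50] (nat_lit 0) [nat_lit 2230] true,
   Spec.mk (nat_lit 50) (nat_lit 2) [nat_lit 104, nat_lit 68, nat_lit 44, nat_lit 52] (nat_lit 0) [nat_lit 2236] true,
   Spec.mk (nat_lit 52) (nat_lit 4) [nat_lit 106, nat_lit 70, nat_lit 50] (nat_lit 0) [nat_lit 2238] true,
   Spec.mk (nat_lit 62) (nat_lit 0) [nat_lit 116, nat_lit 44, nat_lit 68] (nat_lit 0) [nat_lit 2248] true,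
   Spec.mk (nat_lit 68) (nat_lit 1) [nat_lit 122, nat_lit 50, nat_lit 62, nat_lit 74, nat_lit 70] (nat_lit 0) [nat_lit 2254] true,
   Spec.mk (nat_lit 70) (nat_lit 2) [nat_lit 124, nat_lit 52, nat_lit 76, nat_lit 68] (nat_lit 0) [nat_lit 2256] false,
   Spec.mk (nat_lit 74) (nat_lit 0) [nat_lit 128, nat_lit 68, nat_lit 76] (nat_lit 0) [nat_lit 2260] false,
   Spec.mk (nat_lit 76) (nat_lit 3) [nat_lit 130, nat_lit 70, nat_lit 74, nat_lit 78] (nat_lit 0) [nat_lit 2262] false,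
   Spec.mk (nat_lit 78) (nat_lit 4) [nat_lit 132, nat_lit 76] (nat_lit 0) [] false,
   Spec.mk (nat_lit 98) (nat_lit 2) [nat_lit 260, nat_lit 44, nat_lit 116, nat_lit 104] (nat_lit 0) [nat_lit 2284] true,
   Spec.mk (nat_lit 104) (nat_lit 0) [nat_lit 266, nat_lit 50, nat_lit 122, nat_lit 98, nat_lit 106] (nat_lit 0) [nat_lit 2290] true,
   Spec.mk (nat_lit 106) (nat_lit 2) [nat_lit 268, nat_lit 52, nat_lit 124, nat_lit 104] (nat_lit 0) [nat_lit 2292] true,
   Spec.mk (nat_lit 116) (nat_lit 1) [nat_lit 278, nat_lit 62, nat_lit 170, nat_lit 98, nat_lit 122] (nat_lit 0) [nat_lit 2302] true,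
   Spec.mk (nat_lit 122) (nat_lit 1) [nat_lit 284, nat_lit 68, nat_lit 176, nat_lit 104, nat_lit 140, nat_lit 116, nat_lit 128, nat_lit 124] (nat_lit 0) [nat_lit 2308] true,
   Spec.mk (nat_lit 124) (nat_lit 2) [nat_lit 286, nat_lit 70, nat_lit 178, nat_lit 106, nat_lit 142, nat_lit 130, nat_lit 122] (nat_lit 0) [nat_lit 2310] true,
   Spec.mk (nat_lit 128) (nat_lit 0) [nat_lit 290, nat_lit 74, nat_lit 182, nat_lit 146, nat_lit 122, nat_lit 130] (nat_lit 1) [nat_lit 2314] true,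
   Spec.mk (nat_lit 130) (nat_lit 2) [nat_lit 292, nat_lit 76, nat_lit 184, nat_lit 148, nat_lit 124, nat_lit 128, nat_lit 132] (nat_lit 0) [nat_lit 2316] true,
   Spec.mk (nat_lit 132) (nat_lit 3) [nat_lit 294, nat_lit 78, nat_lit 186, nat_lit 150, nat_lit 130] (nat_lit 0) [] false,
   Spec.mk (nat_lit 140) (nat_lit 0) [nat_lit 302, nat_lit 194, nat_lit 122, nat_lit 146, nat_lit 142] (nat_lit 0) [nat_lit 2326] true,
   Spec.mk (nat_lit 142) (nat_lit 0) [nat_lit 304, nat_lit 196, nat_lit 124, nat_lit 148, nat_lit 140] (nat_lit 0) [nat_lit 2328] true,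
   Spec.mk (nat_lit 146) (nat_lit 0) [nat_lit 308, nat_lit 200, nat_lit 128, nat_lit 140, nat_lit 148] (nat_lit 0) [nat_lit 2332] true,
   Spec.mk (nat_lit 148) (nat_lit 2) [nat_lit 310, nat_lit 202, nat_lit 130, nat_lit 142, nat_lit 154, nat_lit 146, nat_lit 150] (nat_lit 0) [nat_lit 2334] false,
   Spec.mk (nat_lit 150) (nat_lit 2) [nat_lit 312, nat_lit 204, nat_lit 132, nat_lit 156, nat_lit 148] (nat_lit 0) [] false,
   Spec.mk (nat_lit 154) (nat_lit 2) [nat_lit 316, nat_lit 208, nat_lit 148, nat_lit 156] (nat_lit 0) [nat_lit 2340] false,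
   Spec.mk (nat_lit 156) (nat_lit 4) [nat_lit 318, nat_lit 210, nat_lit 150, nat_lit 154] (nat_lit 0) [] false,
   Spec.mk (nat_lit 170) (nat_lit 0) [nat_lit 332, nat_lit 116, nat_lit 176] (nat_lit 0) [nat_lit 2356] true,
   Spec.mk (nat_lit 176) (nat_lit 0) [nat_lit 338, nat_lit 122, nat_lit 194, nat_lit 170, nat_lit 182, nat_lit 178] (nat_lit 1) [nat_lit 2362] true,
   Spec.mk (nat_lit 178) (nat_lit 0) [nat_lit 340, nat_lit 124, nat_lit 196, nat_lit 184, nat_lit 176] (nat_lit 0) [nat_lit 2364] false,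
   Spec.mk (nat_lit 182) (nat_lit 0) [nat_lit 344, nat_lit 128, nat_lit 200, nat_lit 176, nat_lit 184] (nat_lit 4) [nat_lit 2368] true,
   Spec.mk (nat_lit 184) (nat_lit 0) [nat_lit 346, nat_lit 130, nat_lit 202, nat_lit 178, nat_lit 182, nat_lit 186] (nat_lit 1) [nat_lit 2370] false,
   Spec.mk (nat_lit 186) (nat_lit 0) [nat_lit 348, nat_lit 132, nat_lit 204, nat_lit 184] (nat_lit 0) [] false,
   Spec.mk (nat_lit 194) (nat_lit 0) [nat_lit 356, nat_lit 140, nat_lit 176, nat_lit 200, nat_lit 196] (nat_lit 0) [nat_lit 2380] true,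
   Spec.mk (nat_lit 196) (nat_lit 0) [nat_lit 358, nat_lit 142, nat_lit 178, nat_lit 202, nat_lit 194] (nat_lit 0) [nat_lit 2382] false,
   Spec.mk (nat_lit 200) (nat_lit 0) [nat_lit 362, nat_lit 146, nat_lit 182, nat_lit 218, nat_lit 194, nat_lit 202] (nat_lit 1) [nat_lit 2386] false,
   Spec.mk (nat_lit 202) (nat_lit 1) [nat_lit 364, nat_lit 148, nat_lit 184, nat_lit 220, nat_lit 196, nat_lit 208, nat_lit 200, nat_lit 204] (nat_lit 0) [nat_lit 2388] false,
   Spec.mk (nat_lit 204) (nat_lit 1) [nat_lit 366, nat_lit 150, nat_lit 186, nat_lit 222, nat_lit 210, nat_lit 202] (nat_lit 0) [] false,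
   Spec.mk (nat_lit 208) (nat_lit 0) [nat_lit 370, nat_lit 154, nat_lit 226, nat_lit 202, nat_lit 210] (nat_lit 0) [nat_lit 2394] false,
   Spec.mk (nat_lit 210) (nat_lit 2) [nat_lit 372, nat_lit 156, nat_lit 228, nat_lit 204, nat_lit 208] (nat_lit 0) [] false,
   Spec.mk (nat_lit 218) (nat_lit 0) [nat_lit 380, nat_lit 200, nat_lit 220] (nat_lit 0) [nat_lit 2404] false,
   Spec.mk (nat_lit 220) (nat_lit 1) [nat_lit 382, nat_lit 202, nat_lit 226, nat_lit 218, nat_lit 222] (nat_lit 0) [nat_lit 2406] false,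
   Spec.mk (nat_lit 222) (nat_lit 0) [nat_lit 384, nat_lit 204, nat_lit 228, nat_lit 220] (nat_lit 0) [] false,
   Spec.mk (nat_lit 226) (nat_lit 2) [nat_lit 388, nat_lit 208, nat_lit 220, nat_lit 228] (nat_lit 0) [nat_lit 2412] false,
   Spec.mk (nat_lit 228) (nat_lit 3) [nat_lit 390, nat_lit 210, nat_lit 222, nat_lit 234, nat_lit 226] (nat_lit 0) [] false,
   Spec.mk (nat_lit 234) (nat_lit 4) [nat_lit 396, nat_lit 228] (nat_lit 0) [] false,
   Spec.mk (nat_lit 260) (nat_lit 2) [nat_lit 746, nat_lit 98, nat_lit 278, nat_lit 266] (nat_lit 0) [nat_lit 2446] true,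
   Spec.mk (nat_lit 266) (nat_lit 0) [nat_lit 752, nat_lit 104, nat_lit 284, nat_lit 260, nat_lit 268] (nat_lit 0) [nat_lit 2452] true,
   Spec.mk (nat_lit 268) (nat_lit 2) [nat_lit 754, nat_lit 106, nat_lit 286, nat_lit 266] (nat_lit 0) [nat_lit 2454] false,
   Spec.mk (nat_lit 278) (nat_lit 0) [nat_lit 764, nat_lit 116, nat_lit 332, nat_lit 260, nat_lit 284] (nat_lit 0) [nat_lit 2464] true,
   Spec.mk (nat_lit 284) (nat_lit 0) [nat_lit 770, nat_lit 122, nat_lit 338, nat_lit 266, nat_lit 302, nat_lit 278, nat_lit 290, nat_lit 286] (nat_lit 0) [nat_lit 2470] true,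
   Spec.mk (nat_lit 286) (nat_lit 1) [nat_lit 772, nat_lit 124, nat_lit 340, nat_lit 268, nat_lit 304, nat_lit 292, nat_lit 284] (nat_lit 0) [nat_lit 2472] true,
   Spec.mk (nat_lit 290) (nat_lit 0) [nat_lit 776, nat_lit 128, nat_lit 344, nat_lit 308, nat_lit 284, nat_lit 292] (nat_lit 2) [nat_lit 2476] true,
   Spec.mk (nat_lit 292) (nat_lit 1) [nat_lit 778, nat_lit 130, nat_lit 346, nat_lit 310, nat_lit 286, nat_lit 290, nat_lit 294] (nat_lit 0) [nat_lit 2478] true,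
   Spec.mk (nat_lit 294) (nat_lit 2) [nat_lit 780, nat_lit 132, nat_lit 348, nat_lit 312, nat_lit 292] (nat_lit 0) [] false,
   Spec.mk (nat_lit 302) (nat_lit 0) [nat_lit 788, nat_lit 140, nat_lit 356, nat_lit 284, nat_lit 308, nat_lit 304] (nat_lit 2) [nat_lit 2488] true,
   Spec.mk (nat_lit 304) (nat_lit 0) [nat_lit 790, nat_lit 142, nat_lit 358, nat_lit 286, nat_lit 310, nat_lit 302] (nat_lit 2) [nat_lit 2490] true,
   Spec.mk (nat_lit 308) (nat_lit 0) [nat_lit 794, nat_lit 146, nat_lit 362, nat_lit 290, nat_lit 302, nat_lit 310] (nat_lit 2) [nat_lit 2494] true,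
   Spec.mk (nat_lit 310) (nat_lit 0) [nat_lit 796, nat_lit 148, nat_lit 364, nat_lit 292, nat_lit 304, nat_lit 316, nat_lit 308, nat_lit 312] (nat_lit 0) [nat_lit 2496] true,
   Spec.mk (nat_lit 312) (nat_lit 0) [nat_lit 798, nat_lit 150, nat_lit 366, nat_lit 294, nat_lit 318, nat_lit 310] (nat_lit 0) [] false,
   Spec.mk (nat_lit 316) (nat_lit 0) [nat_lit 802, nat_lit 154, nat_lit 370, nat_lit 310, nat_lit 318] (nat_lit 0) [nat_lit 2502] true]

noncomputable def sp1 : List Spec :=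
  [Spec.mk (nat_lit 318) (nat_lit 2) [nat_lit 804, nat_lit 156, nat_lit 372, nat_lit 312, nat_lit 316] (nat_lit 0) [] false,
   Spec.mk (nat_lit 332) (nat_lit 1) [nat_lit 818, nat_lit 170, nat_lit 494, nat_lit 278, nat_lit 338] (nat_lit 0) [nat_lit 2518] true,
   Spec.mk (nat_lit 338) (nat_lit 0) [nat_lit 824, nat_lit 176, nat_lit 500, nat_lit 284, nat_lit 356, nat_lit 332, nat_lit 344, nat_lit 340] (nat_lit 0) [nat_lit 2524] true,
   Spec.mk (nat_lit 340) (nat_lit 1) [nat_lit 826, nat_lit 178, nat_lit 502, nat_lit 286, nat_lit 358, nat_lit 346, nat_lit 338] (nat_lit 0) [nat_lit 2526] true,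
   Spec.mk (nat_lit 344) (nat_lit 0) [nat_lit 830, nat_lit 182, nat_lit 506, nat_lit 290, nat_lit 362, nat_lit 338, nat_lit 346] (nat_lit 3) [nat_lit 2530] true,
   Spec.mk (nat_lit 346) (nat_lit 0) [nat_lit 832, nat_lit 184, nat_lit 508, nat_lit 292, nat_lit 364, nat_lit 340, nat_lit 344, nat_lit 348] (nat_lit 0) [nat_lit 2532] true,
   Spec.mk (nat_lit 348) (nat_lit 1) [nat_lit 834, nat_lit 186, nat_lit 510, nat_lit 294, nat_lit 366, nat_lit 346] (nat_lit 0) [] false,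
   Spec.mk (nat_lit 356) (nat_lit 0) [nat_lit 842, nat_lit 194, nat_lit 518, nat_lit 302, nat_lit 410, nat_lit 338, nat_lit 362, nat_lit 358] (nat_lit 0) [nat_lit 2542] true,
   Spec.mk (nat_lit 358) (nat_lit 0) [nat_lit 844, nat_lit 196, nat_lit 520, nat_lit 304, nat_lit 412, nat_lit 340, nat_lit 364, nat_lit 356] (nat_lit 0) [nat_lit 2544] true,
   Spec.mk (nat_lit 362) (nat_lit 0) [nat_lit 848, nat_lit 200, nat_lit 524, nat_lit 308, nat_lit 416, nat_lit 344, nat_lit 380, nat_lit 356, nat_lit 364] (nat_lit 1) [nat_lit 2548] true,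
   Spec.mk (nat_lit 364) (nat_lit 1) [nat_lit 850, nat_lit 202, nat_lit 526, nat_lit 310, nat_lit 418, nat_lit 346, nat_lit 382, nat_lit 358, nat_lit 370, nat_lit 362, nat_lit 366] (nat_lit 0) [nat_lit 2550] true,
   Spec.mk (nat_lit 366) (nat_lit 1) [nat_lit 852, nat_lit 204, nat_lit 528, nat_lit 312, nat_lit 420, nat_lit 348, nat_lit 384, nat_lit 372, nat_lit 364] (nat_lit 0) [] false,
   Spec.mk (nat_lit 370) (nat_lit 0) [nat_lit 856, nat_lit 208, nat_lit 532, nat_lit 316, nat_lit 424, nat_lit 388, nat_lit 364, nat_lit 372] (nat_lit 0) [nat_lit 2556] false,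
   Spec.mk (nat_lit 372) (nat_lit 2) [nat_lit 858, nat_lit 210, nat_lit 534, nat_lit 318, nat_lit 426, nat_lit 390, nat_lit 366, nat_lit 370] (nat_lit 0) [] false,
   Spec.mk (nat_lit 380) (nat_lit 0) [nat_lit 866, nat_lit 218, nat_lit 542, nat_lit 434, nat_lit 362, nat_lit 382] (nat_lit 1) [nat_lit 2566] true,
   Spec.mk (nat_lit 382) (nat_lit 0) [nat_lit 868, nat_lit 220, nat_lit 544, nat_lit 436, nat_lit 364, nat_lit 388, nat_lit 380, nat_lit 384] (nat_lit 0) [nat_lit 2568] false,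
   Spec.mk (nat_lit 384) (nat_lit 0) [nat_lit 870, nat_lit 222, nat_lit 546, nat_lit 438, nat_lit 366, nat_lit 390, nat_lit 382] (nat_lit 1) [] false,
   Spec.mk (nat_lit 388) (nat_lit 1) [nat_lit 874, nat_lit 226, nat_lit 550, nat_lit 442, nat_lit 370, nat_lit 382, nat_lit 390] (nat_lit 0) [nat_lit 2574] false,
   Spec.mk (nat_lit 390) (nat_lit 2) [nat_lit 876, nat_lit 228, nat_lit 552, nat_lit 444, nat_lit 372, nat_lit 384, nat_lit 396, nat_lit 388] (nat_lit 0) [] false,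
   Spec.mk (nat_lit 396) (nat_lit 3) [nat_lit 882, nat_lit 234, nat_lit 558, nat_lit 450, nat_lit 390] (nat_lit 0) [] false,
   Spec.mk (nat_lit 410) (nat_lit 0) [nat_lit 896, nat_lit 572, nat_lit 356, nat_lit 416, nat_lit 412] (nat_lit 0) [nat_lit 2596] true,
   Spec.mk (nat_lit 412) (nat_lit 0) [nat_lit 898, nat_lit 574, nat_lit 358, nat_lit 418, nat_lit 410] (nat_lit 0) [nat_lit 2598] true,
   Spec.mk (nat_lit 416) (nat_lit 0) [nat_lit 902, nat_lit 578, nat_lit 362, nat_lit 434, nat_lit 410, nat_lit 418] (nat_lit 2) [nat_lit 2602] true,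
   Spec.mk (nat_lit 418) (nat_lit 0) [nat_lit 904, nat_lit 580, nat_lit 364, nat_lit 436, nat_lit 412, nat_lit 424, nat_lit 416, nat_lit 420] (nat_lit 0) [nat_lit 2604] false,
   Spec.mk (nat_lit 420) (nat_lit 0) [nat_lit 906, nat_lit 582, nat_lit 366, nat_lit 438, nat_lit 426, nat_lit 418] (nat_lit 0) [] false,
   Spec.mk (nat_lit 424) (nat_lit 0) [nat_lit 910, nat_lit 586, nat_lit 370, nat_lit 442, nat_lit 418, nat_lit 426] (nat_lit 2) [nat_lit 2610] false,
   Spec.mk (nat_lit 426) (nat_lit 0) [nat_lit 912, nat_lit 588, nat_lit 372, nat_lit 444, nat_lit 420, nat_lit 424] (nat_lit 0) [] false,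
   Spec.mk (nat_lit 434) (nat_lit 0) [nat_lit 920, nat_lit 596, nat_lit 380, nat_lit 416, nat_lit 436] (nat_lit 0) [nat_lit 2620] true,
   Spec.mk (nat_lit 436) (nat_lit 1) [nat_lit 922, nat_lit 598, nat_lit 382, nat_lit 418, nat_lit 442, nat_lit 434, nat_lit 438] (nat_lit 0) [nat_lit 2622] false,
   Spec.mk (nat_lit 438) (nat_lit 0) [nat_lit 924, nat_lit 600, nat_lit 384, nat_lit 420, nat_lit 444, nat_lit 436] (nat_lit 0) [] false,
   Spec.mk (nat_lit 442) (nat_lit 1) [nat_lit 928, nat_lit 604, nat_lit 388, nat_lit 424, nat_lit 460, nat_lit 436, nat_lit 444] (nat_lit 0) [nat_lit 2628] false,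
   Spec.mk (nat_lit 444) (nat_lit 2) [nat_lit 930, nat_lit 606, nat_lit 390, nat_lit 426, nat_lit 462, nat_lit 438, nat_lit 450, nat_lit 442] (nat_lit 0) [] false,
   Spec.mk (nat_lit 450) (nat_lit 2) [nat_lit 936, nat_lit 612, nat_lit 396, nat_lit 468, nat_lit 444] (nat_lit 0) [] false,
   Spec.mk (nat_lit 460) (nat_lit 2) [nat_lit 946, nat_lit 622, nat_lit 442, nat_lit 462] (nat_lit 0) [nat_lit 2646] false,
   Spec.mk (nat_lit 462) (nat_lit 2) [nat_lit 948, nat_lit 624, nat_lit 444, nat_lit 468, nat_lit 460] (nat_lit 0) [] false,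
   Spec.mk (nat_lit 468) (nat_lit 4) [nat_lit 954, nat_lit 630, nat_lit 450, nat_lit 462] (nat_lit 0) [] false,
   Spec.mk (nat_lit 494) (nat_lit 0) [nat_lit 980, nat_lit 332, nat_lit 500] (nat_lit 0) [nat_lit 2680] false,
   Spec.mk (nat_lit 500) (nat_lit 0) [nat_lit 986, nat_lit 338, nat_lit 518, nat_lit 494, nat_lit 506, nat_lit 502] (nat_lit 1) [nat_lit 2686] false,
   Spec.mk (nat_lit 502) (nat_lit 0) [nat_lit 988, nat_lit 340, nat_lit 520, nat_lit 508, nat_lit 500] (nat_lit 0) [nat_lit 2688] false,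
   Spec.mk (nat_lit 506) (nat_lit 0) [nat_lit 992, nat_lit 344, nat_lit 524, nat_lit 500, nat_lit 508] (nat_lit 4) [nat_lit 2692] true,
   Spec.mk (nat_lit 508) (nat_lit 0) [nat_lit 994, nat_lit 346, nat_lit 526, nat_lit 502, nat_lit 506, nat_lit 510] (nat_lit 1) [nat_lit 2694] false,
   Spec.mk (nat_lit 510) (nat_lit 0) [nat_lit 996, nat_lit 348, nat_lit 528, nat_lit 508] (nat_lit 0) [] false,
   Spec.mk (nat_lit 518) (nat_lit 0) [nat_lit 1004, nat_lit 356, nat_lit 572, nat_lit 500, nat_lit 524, nat_lit 520] (nat_lit 2) [nat_lit 2704] true,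
   Spec.mk (nat_lit 520) (nat_lit 0) [nat_lit 1006, nat_lit 358, nat_lit 574, nat_lit 502, nat_lit 526, nat_lit 518] (nat_lit 2) [nat_lit 2706] false,
   Spec.mk (nat_lit 524) (nat_lit 0) [nat_lit 1010, nat_lit 362, nat_lit 578, nat_lit 506, nat_lit 542, nat_lit 518, nat_lit 526] (nat_lit 3) [nat_lit 2710] true,
   Spec.mk (nat_lit 526) (nat_lit 0) [nat_lit 1012, nat_lit 364, nat_lit 580, nat_lit 508, nat_lit 544, nat_lit 520, nat_lit 532, nat_lit 524, nat_lit 528] (nat_lit 1) [nat_lit 2712] false,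
   Spec.mk (nat_lit 528) (nat_lit 0) [nat_lit 1014, nat_lit 366, nat_lit 582, nat_lit 510, nat_lit 546, nat_lit 534, nat_lit 526] (nat_lit 1) [] false,
   Spec.mk (nat_lit 532) (nat_lit 0) [nat_lit 1018, nat_lit 370, nat_lit 586, nat_lit 550, nat_lit 526, nat_lit 534] (nat_lit 2) [nat_lit 2718] false,
   Spec.mk (nat_lit 534) (nat_lit 0) [nat_lit 1020, nat_lit 372, nat_lit 588, nat_lit 552, nat_lit 528, nat_lit 532] (nat_lit 0) [] false,
   Spec.mk (nat_lit 542) (nat_lit 0) [nat_lit 1028, nat_lit 380, nat_lit 596, nat_lit 524, nat_lit 544] (nat_lit 4) [nat_lit 2728] false,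
   Spec.mk (nat_lit 544) (nat_lit 0) [nat_lit 1030, nat_lit 382, nat_lit 598, nat_lit 526, nat_lit 550, nat_lit 542, nat_lit 546] (nat_lit 3) [nat_lit 2730] false,
   Spec.mk (nat_lit 546) (nat_lit 0) [nat_lit 1032, nat_lit 384, nat_lit 600, nat_lit 528, nat_lit 552, nat_lit 544] (nat_lit 4) [] false,
   Spec.mk (nat_lit 550) (nat_lit 0) [nat_lit 1036, nat_lit 388, nat_lit 604, nat_lit 532, nat_lit 544, nat_lit 552] (nat_lit 2) [nat_lit 2736] false,
   Spec.mk (nat_lit 552) (nat_lit 0) [nat_lit 1038, nat_lit 390, nat_lit 606, nat_lit 534, nat_lit 546, nat_lit 558, nat_lit 550] (nat_lit 1) [] false,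
   Spec.mk (nat_lit 558) (nat_lit 0) [nat_lit 1044, nat_lit 396, nat_lit 612, nat_lit 552] (nat_lit 0) [] false,
   Spec.mk (nat_lit 572) (nat_lit 0) [nat_lit 1058, nat_lit 410, nat_lit 518, nat_lit 578, nat_lit 574] (nat_lit 0) [nat_lit 2758] false,
   Spec.mk (nat_lit 574) (nat_lit 0) [nat_lit 1060, nat_lit 412, nat_lit 520, nat_lit 580, nat_lit 572] (nat_lit 0) [nat_lit 2760] false,
   Spec.mk (nat_lit 578) (nat_lit 0) [nat_lit 1064, nat_lit 416, nat_lit 524, nat_lit 596, nat_lit 572, nat_lit 580] (nat_lit 2) [nat_lit 2764] false,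
   Spec.mk (nat_lit 580) (nat_lit 0) [nat_lit 1066, nat_lit 418, nat_lit 526, nat_lit 598, nat_lit 574, nat_lit 586, nat_lit 578, nat_lit 582] (nat_lit 0) [nat_lit 2766] false,
   Spec.mk (nat_lit 582) (nat_lit 0) [nat_lit 1068, nat_lit 420, nat_lit 528, nat_lit 600, nat_lit 588, nat_lit 580] (nat_lit 0) [] false]

noncomputable def sp2 : List Spec :=
  [Spec.mk (nat_lit 586) (nat_lit 0) [nat_lit 1072, nat_lit 424, nat_lit 532, nat_lit 604, nat_lit 580, nat_lit 588] (nat_lit 2) [nat_lit 2772] false,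
   Spec.mk (nat_lit 588) (nat_lit 0) [nat_lit 1074, nat_lit 426, nat_lit 534, nat_lit 606, nat_lit 582, nat_lit 586] (nat_lit 0) [] false,
   Spec.mk (nat_lit 596) (nat_lit 0) [nat_lit 1082, nat_lit 434, nat_lit 542, nat_lit 650, nat_lit 578, nat_lit 598] (nat_lit 1) [nat_lit 2782] false,
   Spec.mk (nat_lit 598) (nat_lit 0) [nat_lit 1084, nat_lit 436, nat_lit 544, nat_lit 652, nat_lit 580, nat_lit 604, nat_lit 596, nat_lit 600] (nat_lit 0) [nat_lit 2784] false,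
   Spec.mk (nat_lit 600) (nat_lit 0) [nat_lit 1086, nat_lit 438, nat_lit 546, nat_lit 654, nat_lit 582, nat_lit 606, nat_lit 598] (nat_lit 1) [] false,
   Spec.mk (nat_lit 604) (nat_lit 0) [nat_lit 1090, nat_lit 442, nat_lit 550, nat_lit 658, nat_lit 586, nat_lit 622, nat_lit 598, nat_lit 606] (nat_lit 0) [nat_lit 2790] false,
   Spec.mk (nat_lit 606) (nat_lit 1) [nat_lit 1092, nat_lit 444, nat_lit 552, nat_lit 660, nat_lit 588, nat_lit 624, nat_lit 600, nat_lit 612, nat_lit 604] (nat_lit 0) [] false,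
   Spec.mk (nat_lit 612) (nat_lit 1) [nat_lit 1098, nat_lit 450, nat_lit 558, nat_lit 666, nat_lit 630, nat_lit 606] (nat_lit 0) [] false,
   Spec.mk (nat_lit 622) (nat_lit 0) [nat_lit 1108, nat_lit 460, nat_lit 676, nat_lit 604, nat_lit 624] (nat_lit 0) [nat_lit 2808] false,
   Spec.mk (nat_lit 624) (nat_lit 0) [nat_lit 1110, nat_lit 462, nat_lit 678, nat_lit 606, nat_lit 630, nat_lit 622] (nat_lit 0) [] false,
   Spec.mk (nat_lit 630) (nat_lit 2) [nat_lit 1116, nat_lit 468, nat_lit 684, nat_lit 612, nat_lit 624] (nat_lit 0) [] false,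
   Spec.mk (nat_lit 650) (nat_lit 0) [nat_lit 1136, nat_lit 596, nat_lit 652] (nat_lit 0) [nat_lit 2836] false,
   Spec.mk (nat_lit 652) (nat_lit 1) [nat_lit 1138, nat_lit 598, nat_lit 658, nat_lit 650, nat_lit 654] (nat_lit 0) [nat_lit 2838] false,
   Spec.mk (nat_lit 654) (nat_lit 0) [nat_lit 1140, nat_lit 600, nat_lit 660, nat_lit 652] (nat_lit 0) [] false,
   Spec.mk (nat_lit 658) (nat_lit 0) [nat_lit 1144, nat_lit 604, nat_lit 676, nat_lit 652, nat_lit 660] (nat_lit 0) [nat_lit 2844] false,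
   Spec.mk (nat_lit 660) (nat_lit 1) [nat_lit 1146, nat_lit 606, nat_lit 678, nat_lit 654, nat_lit 666, nat_lit 658] (nat_lit 0) [] false,
   Spec.mk (nat_lit 666) (nat_lit 0) [nat_lit 1152, nat_lit 612, nat_lit 684, nat_lit 660] (nat_lit 0) [] false,
   Spec.mk (nat_lit 676) (nat_lit 2) [nat_lit 1162, nat_lit 622, nat_lit 658, nat_lit 678] (nat_lit 0) [nat_lit 2862] false,
   Spec.mk (nat_lit 678) (nat_lit 2) [nat_lit 1164, nat_lit 624, nat_lit 660, nat_lit 684, nat_lit 676] (nat_lit 0) [] false,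
   Spec.mk (nat_lit 684) (nat_lit 3) [nat_lit 1170, nat_lit 630, nat_lit 666, nat_lit 702, nat_lit 678] (nat_lit 0) [] false,
   Spec.mk (nat_lit 702) (nat_lit 4) [nat_lit 1188, nat_lit 684] (nat_lit 0) [] false,
   Spec.mk (nat_lit 746) (nat_lit 2) [nat_lit 2204, nat_lit 260, nat_lit 764, nat_lit 752] (nat_lit 0) [nat_lit 2932] false,
   Spec.mk (nat_lit 752) (nat_lit 0) [nat_lit 2210, nat_lit 266, nat_lit 770, nat_lit 746, nat_lit 754] (nat_lit 0) [nat_lit 2938] false,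
   Spec.mk (nat_lit 754) (nat_lit 2) [nat_lit 2212, nat_lit 268, nat_lit 772, nat_lit 752] (nat_lit 0) [nat_lit 2940] false,
   Spec.mk (nat_lit 764) (nat_lit 0) [nat_lit 2222, nat_lit 278, nat_lit 818, nat_lit 746, nat_lit 770] (nat_lit 0) [nat_lit 2950] false,
   Spec.mk (nat_lit 770) (nat_lit 0) [nat_lit 2228, nat_lit 284, nat_lit 824, nat_lit 752, nat_lit 788, nat_lit 764, nat_lit 776, nat_lit 772] (nat_lit 0) [nat_lit 2956] false,
   Spec.mk (nat_lit 772) (nat_lit 1) [nat_lit 2230, nat_lit 286, nat_lit 826, nat_lit 754, nat_lit 790, nat_lit 778, nat_lit 770] (nat_lit 0) [nat_lit 2958] false,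
   Spec.mk (nat_lit 776) (nat_lit 0) [nat_lit 2234, nat_lit 290, nat_lit 830, nat_lit 794, nat_lit 770, nat_lit 778] (nat_lit 2) [nat_lit 2962] false,
   Spec.mk (nat_lit 778) (nat_lit 1) [nat_lit 2236, nat_lit 292, nat_lit 832, nat_lit 796, nat_lit 772, nat_lit 776, nat_lit 780] (nat_lit 0) [nat_lit 2964] false,
   Spec.mk (nat_lit 780) (nat_lit 2) [nat_lit 2238, nat_lit 294, nat_lit 834, nat_lit 798, nat_lit 778] (nat_lit 0) [] false,
   Spec.mk (nat_lit 788) (nat_lit 0) [nat_lit 2246, nat_lit 302, nat_lit 842, nat_lit 770, nat_lit 794, nat_lit 790] (nat_lit 2) [nat_lit 2974] false,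
   Spec.mk (nat_lit 790) (nat_lit 0) [nat_lit 2248, nat_lit 304, nat_lit 844, nat_lit 772, nat_lit 796, nat_lit 788] (nat_lit 2) [nat_lit 2976] false,
   Spec.mk (nat_lit 794) (nat_lit 0) [nat_lit 2252, nat_lit 308, nat_lit 848, nat_lit 776, nat_lit 788, nat_lit 796] (nat_lit 2) [nat_lit 2980] false,
   Spec.mk (nat_lit 796) (nat_lit 0) [nat_lit 2254, nat_lit 310, nat_lit 850, nat_lit 778, nat_lit 790, nat_lit 802, nat_lit 794, nat_lit 798] (nat_lit 0) [nat_lit 2982] false,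
   Spec.mk (nat_lit 798) (nat_lit 0) [nat_lit 2256, nat_lit 312, nat_lit 852, nat_lit 780, nat_lit 804, nat_lit 796] (nat_lit 0) [] false,
   Spec.mk (nat_lit 802) (nat_lit 0) [nat_lit 2260, nat_lit 316, nat_lit 856, nat_lit 796, nat_lit 804] (nat_lit 0) [nat_lit 2988] false,
   Spec.mk (nat_lit 804) (nat_lit 2) [nat_lit 2262, nat_lit 318, nat_lit 858, nat_lit 798, nat_lit 802] (nat_lit 0) [] false,
   Spec.mk (nat_lit 818) (nat_lit 0) [nat_lit 2276, nat_lit 332, nat_lit 980, nat_lit 764, nat_lit 824] (nat_lit 0) [nat_lit 3004] false,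
   Spec.mk (nat_lit 824) (nat_lit 0) [nat_lit 2282, nat_lit 338, nat_lit 986, nat_lit 770, nat_lit 842, nat_lit 818, nat_lit 830, nat_lit 826] (nat_lit 1) [nat_lit 3010] true,
   Spec.mk (nat_lit 826) (nat_lit 0) [nat_lit 2284, nat_lit 340, nat_lit 988, nat_lit 772, nat_lit 844, nat_lit 832, nat_lit 824] (nat_lit 0) [nat_lit 3012] true,
   Spec.mk (nat_lit 830) (nat_lit 0) [nat_lit 2288, nat_lit 344, nat_lit 992, nat_lit 776, nat_lit 848, nat_lit 824, nat_lit 832] (nat_lit 4) [nat_lit 3016] true,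
   Spec.mk (nat_lit 832) (nat_lit 0) [nat_lit 2290, nat_lit 346, nat_lit 994, nat_lit 778, nat_lit 850, nat_lit 826, nat_lit 830, nat_lit 834] (nat_lit 1) [nat_lit 3018] false,
   Spec.mk (nat_lit 834) (nat_lit 0) [nat_lit 2292, nat_lit 348, nat_lit 996, nat_lit 780, nat_lit 852, nat_lit 832] (nat_lit 0) [] false,
   Spec.mk (nat_lit 842) (nat_lit 0) [nat_lit 2300, nat_lit 356, nat_lit 1004, nat_lit 788, nat_lit 896, nat_lit 824, nat_lit 848, nat_lit 844] (nat_lit 1) [nat_lit 3028] true,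
   Spec.mk (nat_lit 844) (nat_lit 0) [nat_lit 2302, nat_lit 358, nat_lit 1006, nat_lit 790, nat_lit 898, nat_lit 826, nat_lit 850, nat_lit 842] (nat_lit 1) [nat_lit 3030] true,
   Spec.mk (nat_lit 848) (nat_lit 0) [nat_lit 2306, nat_lit 362, nat_lit 1010, nat_lit 794, nat_lit 902, nat_lit 830, nat_lit 866, nat_lit 842, nat_lit 850] (nat_lit 2) [nat_lit 3034] true,
   Spec.mk (nat_lit 850) (nat_lit 0) [nat_lit 2308, nat_lit 364, nat_lit 1012, nat_lit 796, nat_lit 904, nat_lit 832, nat_lit 868, nat_lit 844, nat_lit 856, nat_lit 848, nat_lit 852] (nat_lit 0) [nat_lit 3036] true,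
   Spec.mk (nat_lit 852) (nat_lit 0) [nat_lit 2310, nat_lit 366, nat_lit 1014, nat_lit 798, nat_lit 906, nat_lit 834, nat_lit 870, nat_lit 858, nat_lit 850] (nat_lit 0) [] false,
   Spec.mk (nat_lit 856) (nat_lit 0) [nat_lit 2314, nat_lit 370, nat_lit 1018, nat_lit 802, nat_lit 910, nat_lit 874, nat_lit 850, nat_lit 858] (nat_lit 1) [nat_lit 3042] false,
   Spec.mk (nat_lit 858) (nat_lit 1) [nat_lit 2316, nat_lit 372, nat_lit 1020, nat_lit 804, nat_lit 912, nat_lit 876, nat_lit 852, nat_lit 856] (nat_lit 0) [] false,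
   Spec.mk (nat_lit 866) (nat_lit 0) [nat_lit 2324, nat_lit 380, nat_lit 1028, nat_lit 920, nat_lit 848, nat_lit 868] (nat_lit 2) [nat_lit 3052] false,
   Spec.mk (nat_lit 868) (nat_lit 0) [nat_lit 2326, nat_lit 382, nat_lit 1030, nat_lit 922, nat_lit 850, nat_lit 874, nat_lit 866, nat_lit 870] (nat_lit 1) [nat_lit 3054] false,
   Spec.mk (nat_lit 870) (nat_lit 0) [nat_lit 2328, nat_lit 384, nat_lit 1032, nat_lit 924, nat_lit 852, nat_lit 876, nat_lit 868] (nat_lit 2) [] false,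
   Spec.mk (nat_lit 874) (nat_lit 0) [nat_lit 2332, nat_lit 388, nat_lit 1036, nat_lit 928, nat_lit 856, nat_lit 868, nat_lit 876] (nat_lit 0) [nat_lit 3060] false,
   Spec.mk (nat_lit 876) (nat_lit 1) [nat_lit 2334, nat_lit 390, nat_lit 1038, nat_lit 930, nat_lit 858, nat_lit 870, nat_lit 882, nat_lit 874] (nat_lit 0) [] false,
   Spec.mk (nat_lit 882) (nat_lit 2) [nat_lit 2340, nat_lit 396, nat_lit 1044, nat_lit 936, nat_lit 876] (nat_lit 0) [] false,
   Spec.mk (nat_lit 896) (nat_lit 0) [nat_lit 2354, nat_lit 410, nat_lit 1058, nat_lit 842, nat_lit 902, nat_lit 898] (nat_lit 2) [nat_lit 3082] false,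
   Spec.mk (nat_lit 898) (nat_lit 0) [nat_lit 2356, nat_lit 412, nat_lit 1060, nat_lit 844, nat_lit 904, nat_lit 896] (nat_lit 2) [nat_lit 3084] false,
   Spec.mk (nat_lit 902) (nat_lit 0) [nat_lit 2360, nat_lit 416, nat_lit 1064, nat_lit 848, nat_lit 920, nat_lit 896, nat_lit 904] (nat_lit 4) [nat_lit 3088] true,
   Spec.mk (nat_lit 904) (nat_lit 0) [nat_lit 2362, nat_lit 418, nat_lit 1066, nat_lit 850, nat_lit 922, nat_lit 898, nat_lit 910, nat_lit 902, nat_lit 906] (nat_lit 2) [nat_lit 3090] false]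

noncomputable def sp3 : List Spec :=
  [Spec.mk (nat_lit 906) (nat_lit 0) [nat_lit 2364, nat_lit 420, nat_lit 1068, nat_lit 852, nat_lit 924, nat_lit 912, nat_lit 904] (nat_lit 2) [] false,
   Spec.mk (nat_lit 910) (nat_lit 0) [nat_lit 2368, nat_lit 424, nat_lit 1072, nat_lit 856, nat_lit 928, nat_lit 904, nat_lit 912] (nat_lit 4) [nat_lit 3096] false,
   Spec.mk (nat_lit 912) (nat_lit 0) [nat_lit 2370, nat_lit 426, nat_lit 1074, nat_lit 858, nat_lit 930, nat_lit 906, nat_lit 910] (nat_lit 2) [] false,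
   Spec.mk (nat_lit 920) (nat_lit 0) [nat_lit 2378, nat_lit 434, nat_lit 1082, nat_lit 866, nat_lit 902, nat_lit 922] (nat_lit 2) [nat_lit 3106] false,
   Spec.mk (nat_lit 922) (nat_lit 0) [nat_lit 2380, nat_lit 436, nat_lit 1084, nat_lit 868, nat_lit 904, nat_lit 928, nat_lit 920, nat_lit 924] (nat_lit 1) [nat_lit 3108] false,
   Spec.mk (nat_lit 924) (nat_lit 0) [nat_lit 2382, nat_lit 438, nat_lit 1086, nat_lit 870, nat_lit 906, nat_lit 930, nat_lit 922] (nat_lit 2) [] false,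
   Spec.mk (nat_lit 928) (nat_lit 0) [nat_lit 2386, nat_lit 442, nat_lit 1090, nat_lit 874, nat_lit 910, nat_lit 946, nat_lit 922, nat_lit 930] (nat_lit 1) [nat_lit 3114] false,
   Spec.mk (nat_lit 930) (nat_lit 0) [nat_lit 2388, nat_lit 444, nat_lit 1092, nat_lit 876, nat_lit 912, nat_lit 948, nat_lit 924, nat_lit 936, nat_lit 928] (nat_lit 0) [] false,
   Spec.mk (nat_lit 936) (nat_lit 0) [nat_lit 2394, nat_lit 450, nat_lit 1098, nat_lit 882, nat_lit 954, nat_lit 930] (nat_lit 0) [] false,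
   Spec.mk (nat_lit 946) (nat_lit 0) [nat_lit 2404, nat_lit 460, nat_lit 1108, nat_lit 928, nat_lit 948] (nat_lit 0) [nat_lit 3132] false,
   Spec.mk (nat_lit 948) (nat_lit 0) [nat_lit 2406, nat_lit 462, nat_lit 1110, nat_lit 930, nat_lit 954, nat_lit 946] (nat_lit 0) [] false,
   Spec.mk (nat_lit 954) (nat_lit 2) [nat_lit 2412, nat_lit 468, nat_lit 1116, nat_lit 936, nat_lit 948] (nat_lit 0) [] false,
   Spec.mk (nat_lit 980) (nat_lit 1) [nat_lit 2438, nat_lit 494, nat_lit 1466, nat_lit 818, nat_lit 986] (nat_lit 0) [nat_lit 3166] false,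
   Spec.mk (nat_lit 986) (nat_lit 0) [nat_lit 2444, nat_lit 500, nat_lit 1472, nat_lit 824, nat_lit 1004, nat_lit 980, nat_lit 992, nat_lit 988] (nat_lit 0) [nat_lit 3172] false,
   Spec.mk (nat_lit 988) (nat_lit 1) [nat_lit 2446, nat_lit 502, nat_lit 1474, nat_lit 826, nat_lit 1006, nat_lit 994, nat_lit 986] (nat_lit 0) [nat_lit 3174] false,
   Spec.mk (nat_lit 992) (nat_lit 0) [nat_lit 2450, nat_lit 506, nat_lit 1478, nat_lit 830, nat_lit 1010, nat_lit 986, nat_lit 994] (nat_lit 3) [nat_lit 3178] false,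
   Spec.mk (nat_lit 994) (nat_lit 0) [nat_lit 2452, nat_lit 508, nat_lit 1480, nat_lit 832, nat_lit 1012, nat_lit 988, nat_lit 992, nat_lit 996] (nat_lit 0) [nat_lit 3180] false,
   Spec.mk (nat_lit 996) (nat_lit 1) [nat_lit 2454, nat_lit 510, nat_lit 1482, nat_lit 834, nat_lit 1014, nat_lit 994] (nat_lit 0) [] false,
   Spec.mk (nat_lit 1004) (nat_lit 0) [nat_lit 2462, nat_lit 518, nat_lit 1490, nat_lit 842, nat_lit 1058, nat_lit 986, nat_lit 1010, nat_lit 1006] (nat_lit 1) [nat_lit 3190] false,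
   Spec.mk (nat_lit 1006) (nat_lit 0) [nat_lit 2464, nat_lit 520, nat_lit 1492, nat_lit 844, nat_lit 1060, nat_lit 988, nat_lit 1012, nat_lit 1004] (nat_lit 1) [nat_lit 3192] false,
   Spec.mk (nat_lit 1010) (nat_lit 0) [nat_lit 2468, nat_lit 524, nat_lit 1496, nat_lit 848, nat_lit 1064, nat_lit 992, nat_lit 1028, nat_lit 1004, nat_lit 1012] (nat_lit 2) [nat_lit 3196] true,
   Spec.mk (nat_lit 1012) (nat_lit 0) [nat_lit 2470, nat_lit 526, nat_lit 1498, nat_lit 850, nat_lit 1066, nat_lit 994, nat_lit 1030, nat_lit 1006, nat_lit 1018, nat_lit 1010, nat_lit 1014] (nat_lit 0) [nat_lit 3198] true,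
   Spec.mk (nat_lit 1014) (nat_lit 0) [nat_lit 2472, nat_lit 528, nat_lit 1500, nat_lit 852, nat_lit 1068, nat_lit 996, nat_lit 1032, nat_lit 1020, nat_lit 1012] (nat_lit 0) [] false,
   Spec.mk (nat_lit 1018) (nat_lit 0) [nat_lit 2476, nat_lit 532, nat_lit 1504, nat_lit 856, nat_lit 1072, nat_lit 1036, nat_lit 1012, nat_lit 1020] (nat_lit 1) [nat_lit 3204] false,
   Spec.mk (nat_lit 1020) (nat_lit 1) [nat_lit 2478, nat_lit 534, nat_lit 1506, nat_lit 858, nat_lit 1074, nat_lit 1038, nat_lit 1014, nat_lit 1018] (nat_lit 0) [] false,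
   Spec.mk (nat_lit 1028) (nat_lit 0) [nat_lit 2486, nat_lit 542, nat_lit 1514, nat_lit 866, nat_lit 1082, nat_lit 1010, nat_lit 1030] (nat_lit 3) [nat_lit 3214] false,
   Spec.mk (nat_lit 1030) (nat_lit 0) [nat_lit 2488, nat_lit 544, nat_lit 1516, nat_lit 868, nat_lit 1084, nat_lit 1012, nat_lit 1036, nat_lit 1028, nat_lit 1032] (nat_lit 2) [nat_lit 3216] false,
   Spec.mk (nat_lit 1032) (nat_lit 0) [nat_lit 2490, nat_lit 546, nat_lit 1518, nat_lit 870, nat_lit 1086, nat_lit 1014, nat_lit 1038, nat_lit 1030] (nat_lit 3) [] false,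
   Spec.mk (nat_lit 1036) (nat_lit 0) [nat_lit 2494, nat_lit 550, nat_lit 1522, nat_lit 874, nat_lit 1090, nat_lit 1018, nat_lit 1030, nat_lit 1038] (nat_lit 1) [nat_lit 3222] false,
   Spec.mk (nat_lit 1038) (nat_lit 0) [nat_lit 2496, nat_lit 552, nat_lit 1524, nat_lit 876, nat_lit 1092, nat_lit 1020, nat_lit 1032, nat_lit 1044, nat_lit 1036] (nat_lit 0) [] false,
   Spec.mk (nat_lit 1044) (nat_lit 1) [nat_lit 2502, nat_lit 558, nat_lit 1530, nat_lit 882, nat_lit 1098, nat_lit 1038] (nat_lit 0) [] false,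
   Spec.mk (nat_lit 1058) (nat_lit 0) [nat_lit 2516, nat_lit 572, nat_lit 1544, nat_lit 896, nat_lit 1220, nat_lit 1004, nat_lit 1064, nat_lit 1060] (nat_lit 0) [nat_lit 3244] false,
   Spec.mk (nat_lit 1060) (nat_lit 0) [nat_lit 2518, nat_lit 574, nat_lit 1546, nat_lit 898, nat_lit 1222, nat_lit 1006, nat_lit 1066, nat_lit 1058] (nat_lit 0) [nat_lit 3246] false,
   Spec.mk (nat_lit 1064) (nat_lit 0) [nat_lit 2522, nat_lit 578, nat_lit 1550, nat_lit 902, nat_lit 1226, nat_lit 1010, nat_lit 1082, nat_lit 1058, nat_lit 1066] (nat_lit 2) [nat_lit 3250] false,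
   Spec.mk (nat_lit 1066) (nat_lit 0) [nat_lit 2524, nat_lit 580, nat_lit 1552, nat_lit 904, nat_lit 1228, nat_lit 1012, nat_lit 1084, nat_lit 1060, nat_lit 1072, nat_lit 1064, nat_lit 1068] (nat_lit 0) [nat_lit 3252] true,
   Spec.mk (nat_lit 1068) (nat_lit 0) [nat_lit 2526, nat_lit 582, nat_lit 1554, nat_lit 906, nat_lit 1230, nat_lit 1014, nat_lit 1086, nat_lit 1074, nat_lit 1066] (nat_lit 0) [] false,
   Spec.mk (nat_lit 1072) (nat_lit 0) [nat_lit 2530, nat_lit 586, nat_lit 1558, nat_lit 910, nat_lit 1234, nat_lit 1018, nat_lit 1090, nat_lit 1066, nat_lit 1074] (nat_lit 2) [nat_lit 3258] false,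
   Spec.mk (nat_lit 1074) (nat_lit 0) [nat_lit 2532, nat_lit 588, nat_lit 1560, nat_lit 912, nat_lit 1236, nat_lit 1020, nat_lit 1092, nat_lit 1068, nat_lit 1072] (nat_lit 0) [] false,
   Spec.mk (nat_lit 1082) (nat_lit 0) [nat_lit 2540, nat_lit 596, nat_lit 1568, nat_lit 920, nat_lit 1244, nat_lit 1028, nat_lit 1136, nat_lit 1064, nat_lit 1084] (nat_lit 1) [nat_lit 3268] false,
   Spec.mk (nat_lit 1084) (nat_lit 0) [nat_lit 2542, nat_lit 598, nat_lit 1570, nat_lit 922, nat_lit 1246, nat_lit 1030, nat_lit 1138, nat_lit 1066, nat_lit 1090, nat_lit 1082, nat_lit 1086] (nat_lit 0) [nat_lit 3270] false,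
   Spec.mk (nat_lit 1086) (nat_lit 0) [nat_lit 2544, nat_lit 600, nat_lit 1572, nat_lit 924, nat_lit 1248, nat_lit 1032, nat_lit 1140, nat_lit 1068, nat_lit 1092, nat_lit 1084] (nat_lit 1) [] false,
   Spec.mk (nat_lit 1090) (nat_lit 0) [nat_lit 2548, nat_lit 604, nat_lit 1576, nat_lit 928, nat_lit 1252, nat_lit 1036, nat_lit 1144, nat_lit 1072, nat_lit 1108, nat_lit 1084, nat_lit 1092] (nat_lit 0) [nat_lit 3276] false,
   Spec.mk (nat_lit 1092) (nat_lit 1) [nat_lit 2550, nat_lit 606, nat_lit 1578, nat_lit 930, nat_lit 1254, nat_lit 1038, nat_lit 1146, nat_lit 1074, nat_lit 1110, nat_lit 1086, nat_lit 1098, nat_lit 1090] (nat_lit 0) [] false,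
   Spec.mk (nat_lit 1098) (nat_lit 1) [nat_lit 2556, nat_lit 612, nat_lit 1584, nat_lit 936, nat_lit 1260, nat_lit 1044, nat_lit 1152, nat_lit 1116, nat_lit 1092] (nat_lit 0) [] false,
   Spec.mk (nat_lit 1108) (nat_lit 0) [nat_lit 2566, nat_lit 622, nat_lit 1594, nat_lit 946, nat_lit 1270, nat_lit 1162, nat_lit 1090, nat_lit 1110] (nat_lit 0) [nat_lit 3294] false,
   Spec.mk (nat_lit 1110) (nat_lit 0) [nat_lit 2568, nat_lit 624, nat_lit 1596, nat_lit 948, nat_lit 1272, nat_lit 1164, nat_lit 1092, nat_lit 1116, nat_lit 1108] (nat_lit 0) [] false,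
   Spec.mk (nat_lit 1116) (nat_lit 2) [nat_lit 2574, nat_lit 630, nat_lit 1602, nat_lit 954, nat_lit 1278, nat_lit 1170, nat_lit 1098, nat_lit 1110] (nat_lit 0) [] false,
   Spec.mk (nat_lit 1136) (nat_lit 0) [nat_lit 2594, nat_lit 650, nat_lit 1622, nat_lit 1298, nat_lit 1082, nat_lit 1138] (nat_lit 1) [nat_lit 3322] false,
   Spec.mk (nat_lit 1138) (nat_lit 0) [nat_lit 2596, nat_lit 652, nat_lit 1624, nat_lit 1300, nat_lit 1084, nat_lit 1144, nat_lit 1136, nat_lit 1140] (nat_lit 0) [nat_lit 3324] false,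
   Spec.mk (nat_lit 1140) (nat_lit 0) [nat_lit 2598, nat_lit 654, nat_lit 1626, nat_lit 1302, nat_lit 1086, nat_lit 1146, nat_lit 1138] (nat_lit 1) [] false,
   Spec.mk (nat_lit 1144) (nat_lit 0) [nat_lit 2602, nat_lit 658, nat_lit 1630, nat_lit 1306, nat_lit 1090, nat_lit 1162, nat_lit 1138, nat_lit 1146] (nat_lit 1) [nat_lit 3330] false,
   Spec.mk (nat_lit 1146) (nat_lit 0) [nat_lit 2604, nat_lit 660, nat_lit 1632, nat_lit 1308, nat_lit 1092, nat_lit 1164, nat_lit 1140, nat_lit 1152, nat_lit 1144] (nat_lit 0) [] false,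
   Spec.mk (nat_lit 1152) (nat_lit 0) [nat_lit 2610, nat_lit 666, nat_lit 1638, nat_lit 1314, nat_lit 1098, nat_lit 1170, nat_lit 1146] (nat_lit 1) [] false,
   Spec.mk (nat_lit 1162) (nat_lit 1) [nat_lit 2620, nat_lit 676, nat_lit 1648, nat_lit 1324, nat_lit 1108, nat_lit 1144, nat_lit 1164] (nat_lit 0) [nat_lit 3348] false,
   Spec.mk (nat_lit 1164) (nat_lit 1) [nat_lit 2622, nat_lit 678, nat_lit 1650, nat_lit 1326, nat_lit 1110, nat_lit 1146, nat_lit 1170, nat_lit 1162] (nat_lit 0) [] false,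
   Spec.mk (nat_lit 1170) (nat_lit 2) [nat_lit 2628, nat_lit 684, nat_lit 1656, nat_lit 1332, nat_lit 1116, nat_lit 1152, nat_lit 1188, nat_lit 1164] (nat_lit 0) [] false,
   Spec.mk (nat_lit 1188) (nat_lit 3) [nat_lit 2646, nat_lit 702, nat_lit 1674, nat_lit 1350, nat_lit 1170] (nat_lit 0) [] false,
   Spec.mk (nat_lit 1220) (nat_lit 0) [nat_lit 2678, nat_lit 1706, nat_lit 1058, nat_lit 1226, nat_lit 1222] (nat_lit 0) [nat_lit 3406] false,
   Spec.mk (nat_lit 1222) (nat_lit 0) [nat_lit 2680, nat_lit 1708, nat_lit 1060, nat_lit 1228, nat_lit 1220] (nat_lit 0) [nat_lit 3408] false,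
   Spec.mk (nat_lit 1226) (nat_lit 0) [nat_lit 2684, nat_lit 1712, nat_lit 1064, nat_lit 1244, nat_lit 1220, nat_lit 1228] (nat_lit 2) [nat_lit 3412] false]

noncomputable def sp4 : List Spec :=
  [Spec.mk (nat_lit 1228) (nat_lit 0) [nat_lit 2686, nat_lit 1714, nat_lit 1066, nat_lit 1246, nat_lit 1222, nat_lit 1234, nat_lit 1226, nat_lit 1230] (nat_lit 0) [nat_lit 3414] false,
   Spec.mk (nat_lit 1230) (nat_lit 0) [nat_lit 2688, nat_lit 1716, nat_lit 1068, nat_lit 1248, nat_lit 1236, nat_lit 1228] (nat_lit 0) [] false,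
   Spec.mk (nat_lit 1234) (nat_lit 0) [nat_lit 2692, nat_lit 1720, nat_lit 1072, nat_lit 1252, nat_lit 1228, nat_lit 1236] (nat_lit 2) [nat_lit 3420] false,
   Spec.mk (nat_lit 1236) (nat_lit 0) [nat_lit 2694, nat_lit 1722, nat_lit 1074, nat_lit 1254, nat_lit 1230, nat_lit 1234] (nat_lit 0) [] false,
   Spec.mk (nat_lit 1244) (nat_lit 0) [nat_lit 2702, nat_lit 1730, nat_lit 1082, nat_lit 1298, nat_lit 1226, nat_lit 1246] (nat_lit 2) [nat_lit 3430] false,
   Spec.mk (nat_lit 1246) (nat_lit 0) [nat_lit 2704, nat_lit 1732, nat_lit 1084, nat_lit 1300, nat_lit 1228, nat_lit 1252, nat_lit 1244, nat_lit 1248] (nat_lit 1) [nat_lit 3432] false,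
   Spec.mk (nat_lit 1248) (nat_lit 0) [nat_lit 2706, nat_lit 1734, nat_lit 1086, nat_lit 1302, nat_lit 1230, nat_lit 1254, nat_lit 1246] (nat_lit 2) [] false,
   Spec.mk (nat_lit 1252) (nat_lit 0) [nat_lit 2710, nat_lit 1738, nat_lit 1090, nat_lit 1306, nat_lit 1234, nat_lit 1270, nat_lit 1246, nat_lit 1254] (nat_lit 1) [nat_lit 3438] false,
   Spec.mk (nat_lit 1254) (nat_lit 0) [nat_lit 2712, nat_lit 1740, nat_lit 1092, nat_lit 1308, nat_lit 1236, nat_lit 1272, nat_lit 1248, nat_lit 1260, nat_lit 1252] (nat_lit 0) [] false,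
   Spec.mk (nat_lit 1260) (nat_lit 0) [nat_lit 2718, nat_lit 1746, nat_lit 1098, nat_lit 1314, nat_lit 1278, nat_lit 1254] (nat_lit 0) [] false,
   Spec.mk (nat_lit 1270) (nat_lit 0) [nat_lit 2728, nat_lit 1756, nat_lit 1108, nat_lit 1324, nat_lit 1252, nat_lit 1272] (nat_lit 2) [nat_lit 3456] false,
   Spec.mk (nat_lit 1272) (nat_lit 0) [nat_lit 2730, nat_lit 1758, nat_lit 1110, nat_lit 1326, nat_lit 1254, nat_lit 1278, nat_lit 1270] (nat_lit 2) [] false,
   Spec.mk (nat_lit 1278) (nat_lit 0) [nat_lit 2736, nat_lit 1764, nat_lit 1116, nat_lit 1332, nat_lit 1260, nat_lit 1272] (nat_lit 0) [] false,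
   Spec.mk (nat_lit 1298) (nat_lit 0) [nat_lit 2756, nat_lit 1784, nat_lit 1136, nat_lit 1244, nat_lit 1300] (nat_lit 0) [nat_lit 3484] false,
   Spec.mk (nat_lit 1300) (nat_lit 1) [nat_lit 2758, nat_lit 1786, nat_lit 1138, nat_lit 1246, nat_lit 1306, nat_lit 1298, nat_lit 1302] (nat_lit 0) [nat_lit 3486] false,
   Spec.mk (nat_lit 1302) (nat_lit 0) [nat_lit 2760, nat_lit 1788, nat_lit 1140, nat_lit 1248, nat_lit 1308, nat_lit 1300] (nat_lit 0) [] false,
   Spec.mk (nat_lit 1306) (nat_lit 0) [nat_lit 2764, nat_lit 1792, nat_lit 1144, nat_lit 1252, nat_lit 1324, nat_lit 1300, nat_lit 1308] (nat_lit 0) [nat_lit 3492] false,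
   Spec.mk (nat_lit 1308) (nat_lit 1) [nat_lit 2766, nat_lit 1794, nat_lit 1146, nat_lit 1254, nat_lit 1326, nat_lit 1302, nat_lit 1314, nat_lit 1306] (nat_lit 0) [] false,
   Spec.mk (nat_lit 1314) (nat_lit 0) [nat_lit 2772, nat_lit 1800, nat_lit 1152, nat_lit 1260, nat_lit 1332, nat_lit 1308] (nat_lit 0) [] false,
   Spec.mk (nat_lit 1324) (nat_lit 1) [nat_lit 2782, nat_lit 1810, nat_lit 1162, nat_lit 1270, nat_lit 1378, nat_lit 1306, nat_lit 1326] (nat_lit 0) [nat_lit 3510] false,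
   Spec.mk (nat_lit 1326) (nat_lit 1) [nat_lit 2784, nat_lit 1812, nat_lit 1164, nat_lit 1272, nat_lit 1380, nat_lit 1308, nat_lit 1332, nat_lit 1324] (nat_lit 0) [] false,
   Spec.mk (nat_lit 1332) (nat_lit 2) [nat_lit 2790, nat_lit 1818, nat_lit 1170, nat_lit 1278, nat_lit 1386, nat_lit 1314, nat_lit 1350, nat_lit 1326] (nat_lit 0) [] false,
   Spec.mk (nat_lit 1350) (nat_lit 2) [nat_lit 2808, nat_lit 1836, nat_lit 1188, nat_lit 1404, nat_lit 1332] (nat_lit 0) [] false,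
   Spec.mk (nat_lit 1378) (nat_lit 2) [nat_lit 2836, nat_lit 1864, nat_lit 1324, nat_lit 1380] (nat_lit 0) [nat_lit 3564] false,
   Spec.mk (nat_lit 1380) (nat_lit 2) [nat_lit 2838, nat_lit 1866, nat_lit 1326, nat_lit 1386, nat_lit 1378] (nat_lit 0) [] false,
   Spec.mk (nat_lit 1386) (nat_lit 2) [nat_lit 2844, nat_lit 1872, nat_lit 1332, nat_lit 1404, nat_lit 1380] (nat_lit 0) [] false,
   Spec.mk (nat_lit 1404) (nat_lit 4) [nat_lit 2862, nat_lit 1890, nat_lit 1350, nat_lit 1386] (nat_lit 0) [] false,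
   Spec.mk (nat_lit 1466) (nat_lit 0) [nat_lit 2924, nat_lit 980, nat_lit 1472] (nat_lit 0) [nat_lit 3652] false,
   Spec.mk (nat_lit 1472) (nat_lit 0) [nat_lit 2930, nat_lit 986, nat_lit 1490, nat_lit 1466, nat_lit 1478, nat_lit 1474] (nat_lit 1) [nat_lit 3658] false,
   Spec.mk (nat_lit 1474) (nat_lit 0) [nat_lit 2932, nat_lit 988, nat_lit 1492, nat_lit 1480, nat_lit 1472] (nat_lit 0) [nat_lit 3660] false,
   Spec.mk (nat_lit 1478) (nat_lit 0) [nat_lit 2936, nat_lit 992, nat_lit 1496, nat_lit 1472, nat_lit 1480] (nat_lit 4) [nat_lit 3664] false,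
   Spec.mk (nat_lit 1480) (nat_lit 0) [nat_lit 2938, nat_lit 994, nat_lit 1498, nat_lit 1474, nat_lit 1478, nat_lit 1482] (nat_lit 1) [nat_lit 3666] false,
   Spec.mk (nat_lit 1482) (nat_lit 0) [nat_lit 2940, nat_lit 996, nat_lit 1500, nat_lit 1480] (nat_lit 0) [] false,
   Spec.mk (nat_lit 1490) (nat_lit 0) [nat_lit 2948, nat_lit 1004, nat_lit 1544, nat_lit 1472, nat_lit 1496, nat_lit 1492] (nat_lit 2) [nat_lit 3676] false,
   Spec.mk (nat_lit 1492) (nat_lit 0) [nat_lit 2950, nat_lit 1006, nat_lit 1546, nat_lit 1474, nat_lit 1498, nat_lit 1490] (nat_lit 2) [nat_lit 3678] false,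
   Spec.mk (nat_lit 1496) (nat_lit 0) [nat_lit 2954, nat_lit 1010, nat_lit 1550, nat_lit 1478, nat_lit 1514, nat_lit 1490, nat_lit 1498] (nat_lit 3) [nat_lit 3682] false,
   Spec.mk (nat_lit 1498) (nat_lit 0) [nat_lit 2956, nat_lit 1012, nat_lit 1552, nat_lit 1480, nat_lit 1516, nat_lit 1492, nat_lit 1504, nat_lit 1496, nat_lit 1500] (nat_lit 1) [nat_lit 3684] false,
   Spec.mk (nat_lit 1500) (nat_lit 0) [nat_lit 2958, nat_lit 1014, nat_lit 1554, nat_lit 1482, nat_lit 1518, nat_lit 1506, nat_lit 1498] (nat_lit 1) [] false,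
   Spec.mk (nat_lit 1504) (nat_lit 0) [nat_lit 2962, nat_lit 1018, nat_lit 1558, nat_lit 1522, nat_lit 1498, nat_lit 1506] (nat_lit 2) [nat_lit 3690] false,
   Spec.mk (nat_lit 1506) (nat_lit 0) [nat_lit 2964, nat_lit 1020, nat_lit 1560, nat_lit 1524, nat_lit 1500, nat_lit 1504] (nat_lit 0) [] false,
   Spec.mk (nat_lit 1514) (nat_lit 0) [nat_lit 2972, nat_lit 1028, nat_lit 1568, nat_lit 1496, nat_lit 1516] (nat_lit 4) [nat_lit 3700] false,
   Spec.mk (nat_lit 1516) (nat_lit 0) [nat_lit 2974, nat_lit 1030, nat_lit 1570, nat_lit 1498, nat_lit 1522, nat_lit 1514, nat_lit 1518] (nat_lit 3) [nat_lit 3702] false,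
   Spec.mk (nat_lit 1518) (nat_lit 0) [nat_lit 2976, nat_lit 1032, nat_lit 1572, nat_lit 1500, nat_lit 1524, nat_lit 1516] (nat_lit 4) [] false,
   Spec.mk (nat_lit 1522) (nat_lit 0) [nat_lit 2980, nat_lit 1036, nat_lit 1576, nat_lit 1504, nat_lit 1516, nat_lit 1524] (nat_lit 2) [nat_lit 3708] false,
   Spec.mk (nat_lit 1524) (nat_lit 0) [nat_lit 2982, nat_lit 1038, nat_lit 1578, nat_lit 1506, nat_lit 1518, nat_lit 1530, nat_lit 1522] (nat_lit 1) [] false,
   Spec.mk (nat_lit 1530) (nat_lit 0) [nat_lit 2988, nat_lit 1044, nat_lit 1584, nat_lit 1524] (nat_lit 0) [] false,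
   Spec.mk (nat_lit 1544) (nat_lit 0) [nat_lit 3002, nat_lit 1058, nat_lit 1706, nat_lit 1490, nat_lit 1550, nat_lit 1546] (nat_lit 2) [nat_lit 3730] false,
   Spec.mk (nat_lit 1546) (nat_lit 0) [nat_lit 3004, nat_lit 1060, nat_lit 1708, nat_lit 1492, nat_lit 1552, nat_lit 1544] (nat_lit 2) [nat_lit 3732] false,
   Spec.mk (nat_lit 1550) (nat_lit 0) [nat_lit 3008, nat_lit 1064, nat_lit 1712, nat_lit 1496, nat_lit 1568, nat_lit 1544, nat_lit 1552] (nat_lit 4) [nat_lit 3736] false,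
   Spec.mk (nat_lit 1552) (nat_lit 0) [nat_lit 3010, nat_lit 1066, nat_lit 1714, nat_lit 1498, nat_lit 1570, nat_lit 1546, nat_lit 1558, nat_lit 1550, nat_lit 1554] (nat_lit 2) [nat_lit 3738] false,
   Spec.mk (nat_lit 1554) (nat_lit 0) [nat_lit 3012, nat_lit 1068, nat_lit 1716, nat_lit 1500, nat_lit 1572, nat_lit 1560, nat_lit 1552] (nat_lit 2) [] false,
   Spec.mk (nat_lit 1558) (nat_lit 0) [nat_lit 3016, nat_lit 1072, nat_lit 1720, nat_lit 1504, nat_lit 1576, nat_lit 1552, nat_lit 1560] (nat_lit 4) [nat_lit 3744] false,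
   Spec.mk (nat_lit 1560) (nat_lit 0) [nat_lit 3018, nat_lit 1074, nat_lit 1722, nat_lit 1506, nat_lit 1578, nat_lit 1554, nat_lit 1558] (nat_lit 2) [] false,
   Spec.mk (nat_lit 1568) (nat_lit 0) [nat_lit 3026, nat_lit 1082, nat_lit 1730, nat_lit 1514, nat_lit 1622, nat_lit 1550, nat_lit 1570] (nat_lit 3) [nat_lit 3754] false,
   Spec.mk (nat_lit 1570) (nat_lit 0) [nat_lit 3028, nat_lit 1084, nat_lit 1732, nat_lit 1516, nat_lit 1624, nat_lit 1552, nat_lit 1576, nat_lit 1568, nat_lit 1572] (nat_lit 2) [nat_lit 3756] false,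
   Spec.mk (nat_lit 1572) (nat_lit 0) [nat_lit 3030, nat_lit 1086, nat_lit 1734, nat_lit 1518, nat_lit 1626, nat_lit 1554, nat_lit 1578, nat_lit 1570] (nat_lit 3) [] false,
   Spec.mk (nat_lit 1576) (nat_lit 0) [nat_lit 3034, nat_lit 1090, nat_lit 1738, nat_lit 1522, nat_lit 1630, nat_lit 1558, nat_lit 1594, nat_lit 1570, nat_lit 1578] (nat_lit 2) [nat_lit 3762] false,
   Spec.mk (nat_lit 1578) (nat_lit 0) [nat_lit 3036, nat_lit 1092, nat_lit 1740, nat_lit 1524, nat_lit 1632, nat_lit 1560, nat_lit 1596, nat_lit 1572, nat_lit 1584, nat_lit 1576] (nat_lit 1) [] false,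
   Spec.mk (nat_lit 1584) (nat_lit 0) [nat_lit 3042, nat_lit 1098, nat_lit 1746, nat_lit 1530, nat_lit 1638, nat_lit 1602, nat_lit 1578] (nat_lit 1) [] false,
   Spec.mk (nat_lit 1594) (nat_lit 0) [nat_lit 3052, nat_lit 1108, nat_lit 1756, nat_lit 1648, nat_lit 1576, nat_lit 1596] (nat_lit 2) [nat_lit 3780] false]

noncomputable def sp5 : List Spec :=
  [Spec.mk (nat_lit 1596) (nat_lit 0) [nat_lit 3054, nat_lit 1110, nat_lit 1758, nat_lit 1650, nat_lit 1578, nat_lit 1602, nat_lit 1594] (nat_lit 2) [] false,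
   Spec.mk (nat_lit 1602) (nat_lit 0) [nat_lit 3060, nat_lit 1116, nat_lit 1764, nat_lit 1656, nat_lit 1584, nat_lit 1596] (nat_lit 0) [] false,
   Spec.mk (nat_lit 1622) (nat_lit 0) [nat_lit 3080, nat_lit 1136, nat_lit 1784, nat_lit 1568, nat_lit 1624] (nat_lit 4) [nat_lit 3808] false,
   Spec.mk (nat_lit 1624) (nat_lit 0) [nat_lit 3082, nat_lit 1138, nat_lit 1786, nat_lit 1570, nat_lit 1630, nat_lit 1622, nat_lit 1626] (nat_lit 3) [nat_lit 3810] false,
   Spec.mk (nat_lit 1626) (nat_lit 0) [nat_lit 3084, nat_lit 1140, nat_lit 1788, nat_lit 1572, nat_lit 1632, nat_lit 1624] (nat_lit 4) [] false,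
   Spec.mk (nat_lit 1630) (nat_lit 0) [nat_lit 3088, nat_lit 1144, nat_lit 1792, nat_lit 1576, nat_lit 1648, nat_lit 1624, nat_lit 1632] (nat_lit 4) [nat_lit 3816] false,
   Spec.mk (nat_lit 1632) (nat_lit 0) [nat_lit 3090, nat_lit 1146, nat_lit 1794, nat_lit 1578, nat_lit 1650, nat_lit 1626, nat_lit 1638, nat_lit 1630] (nat_lit 3) [] false,
   Spec.mk (nat_lit 1638) (nat_lit 0) [nat_lit 3096, nat_lit 1152, nat_lit 1800, nat_lit 1584, nat_lit 1656, nat_lit 1632] (nat_lit 4) [] false,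
   Spec.mk (nat_lit 1648) (nat_lit 0) [nat_lit 3106, nat_lit 1162, nat_lit 1810, nat_lit 1594, nat_lit 1630, nat_lit 1650] (nat_lit 2) [nat_lit 3834] false,
   Spec.mk (nat_lit 1650) (nat_lit 0) [nat_lit 3108, nat_lit 1164, nat_lit 1812, nat_lit 1596, nat_lit 1632, nat_lit 1656, nat_lit 1648] (nat_lit 2) [] false,
   Spec.mk (nat_lit 1656) (nat_lit 0) [nat_lit 3114, nat_lit 1170, nat_lit 1818, nat_lit 1602, nat_lit 1638, nat_lit 1674, nat_lit 1650] (nat_lit 1) [] false,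
   Spec.mk (nat_lit 1674) (nat_lit 0) [nat_lit 3132, nat_lit 1188, nat_lit 1836, nat_lit 1656] (nat_lit 0) [] false,
   Spec.mk (nat_lit 1706) (nat_lit 0) [nat_lit 3164, nat_lit 1220, nat_lit 1544, nat_lit 1712, nat_lit 1708] (nat_lit 0) [nat_lit 3892] false,
   Spec.mk (nat_lit 1708) (nat_lit 0) [nat_lit 3166, nat_lit 1222, nat_lit 1546, nat_lit 1714, nat_lit 1706] (nat_lit 0) [nat_lit 3894] false,
   Spec.mk (nat_lit 1712) (nat_lit 0) [nat_lit 3170, nat_lit 1226, nat_lit 1550, nat_lit 1730, nat_lit 1706, nat_lit 1714] (nat_lit 2) [nat_lit 3898] false,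
   Spec.mk (nat_lit 1714) (nat_lit 0) [nat_lit 3172, nat_lit 1228, nat_lit 1552, nat_lit 1732, nat_lit 1708, nat_lit 1720, nat_lit 1712, nat_lit 1716] (nat_lit 0) [nat_lit 3900] false,
   Spec.mk (nat_lit 1716) (nat_lit 0) [nat_lit 3174, nat_lit 1230, nat_lit 1554, nat_lit 1734, nat_lit 1722, nat_lit 1714] (nat_lit 0) [] false,
   Spec.mk (nat_lit 1720) (nat_lit 0) [nat_lit 3178, nat_lit 1234, nat_lit 1558, nat_lit 1738, nat_lit 1714, nat_lit 1722] (nat_lit 2) [nat_lit 3906] false,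
   Spec.mk (nat_lit 1722) (nat_lit 0) [nat_lit 3180, nat_lit 1236, nat_lit 1560, nat_lit 1740, nat_lit 1716, nat_lit 1720] (nat_lit 0) [] false,
   Spec.mk (nat_lit 1730) (nat_lit 0) [nat_lit 3188, nat_lit 1244, nat_lit 1568, nat_lit 1784, nat_lit 1712, nat_lit 1732] (nat_lit 2) [nat_lit 3916] false,
   Spec.mk (nat_lit 1732) (nat_lit 0) [nat_lit 3190, nat_lit 1246, nat_lit 1570, nat_lit 1786, nat_lit 1714, nat_lit 1738, nat_lit 1730, nat_lit 1734] (nat_lit 1) [nat_lit 3918] false,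
   Spec.mk (nat_lit 1734) (nat_lit 0) [nat_lit 3192, nat_lit 1248, nat_lit 1572, nat_lit 1788, nat_lit 1716, nat_lit 1740, nat_lit 1732] (nat_lit 2) [] false,
   Spec.mk (nat_lit 1738) (nat_lit 0) [nat_lit 3196, nat_lit 1252, nat_lit 1576, nat_lit 1792, nat_lit 1720, nat_lit 1756, nat_lit 1732, nat_lit 1740] (nat_lit 1) [nat_lit 3924] false,
   Spec.mk (nat_lit 1740) (nat_lit 0) [nat_lit 3198, nat_lit 1254, nat_lit 1578, nat_lit 1794, nat_lit 1722, nat_lit 1758, nat_lit 1734, nat_lit 1746, nat_lit 1738] (nat_lit 0) [] false,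
   Spec.mk (nat_lit 1746) (nat_lit 0) [nat_lit 3204, nat_lit 1260, nat_lit 1584, nat_lit 1800, nat_lit 1764, nat_lit 1740] (nat_lit 0) [] false,
   Spec.mk (nat_lit 1756) (nat_lit 0) [nat_lit 3214, nat_lit 1270, nat_lit 1594, nat_lit 1810, nat_lit 1738, nat_lit 1758] (nat_lit 2) [nat_lit 3942] false,
   Spec.mk (nat_lit 1758) (nat_lit 0) [nat_lit 3216, nat_lit 1272, nat_lit 1596, nat_lit 1812, nat_lit 1740, nat_lit 1764, nat_lit 1756] (nat_lit 2) [] false,
   Spec.mk (nat_lit 1764) (nat_lit 0) [nat_lit 3222, nat_lit 1278, nat_lit 1602, nat_lit 1818, nat_lit 1746, nat_lit 1758] (nat_lit 0) [] false,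
   Spec.mk (nat_lit 1784) (nat_lit 0) [nat_lit 3242, nat_lit 1298, nat_lit 1622, nat_lit 1946, nat_lit 1730, nat_lit 1786] (nat_lit 1) [nat_lit 3970] false,
   Spec.mk (nat_lit 1786) (nat_lit 0) [nat_lit 3244, nat_lit 1300, nat_lit 1624, nat_lit 1948, nat_lit 1732, nat_lit 1792, nat_lit 1784, nat_lit 1788] (nat_lit 0) [nat_lit 3972] false,
   Spec.mk (nat_lit 1788) (nat_lit 0) [nat_lit 3246, nat_lit 1302, nat_lit 1626, nat_lit 1950, nat_lit 1734, nat_lit 1794, nat_lit 1786] (nat_lit 1) [] false,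
   Spec.mk (nat_lit 1792) (nat_lit 0) [nat_lit 3250, nat_lit 1306, nat_lit 1630, nat_lit 1954, nat_lit 1738, nat_lit 1810, nat_lit 1786, nat_lit 1794] (nat_lit 1) [nat_lit 3978] false,
   Spec.mk (nat_lit 1794) (nat_lit 0) [nat_lit 3252, nat_lit 1308, nat_lit 1632, nat_lit 1956, nat_lit 1740, nat_lit 1812, nat_lit 1788, nat_lit 1800, nat_lit 1792] (nat_lit 0) [] false,
   Spec.mk (nat_lit 1800) (nat_lit 0) [nat_lit 3258, nat_lit 1314, nat_lit 1638, nat_lit 1962, nat_lit 1746, nat_lit 1818, nat_lit 1794] (nat_lit 1) [] false,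
   Spec.mk (nat_lit 1810) (nat_lit 0) [nat_lit 3268, nat_lit 1324, nat_lit 1648, nat_lit 1972, nat_lit 1756, nat_lit 1864, nat_lit 1792, nat_lit 1812] (nat_lit 0) [nat_lit 3996] false,
   Spec.mk (nat_lit 1812) (nat_lit 0) [nat_lit 3270, nat_lit 1326, nat_lit 1650, nat_lit 1974, nat_lit 1758, nat_lit 1866, nat_lit 1794, nat_lit 1818, nat_lit 1810] (nat_lit 0) [] false,
   Spec.mk (nat_lit 1818) (nat_lit 1) [nat_lit 3276, nat_lit 1332, nat_lit 1656, nat_lit 1980, nat_lit 1764, nat_lit 1872, nat_lit 1800, nat_lit 1836, nat_lit 1812] (nat_lit 0) [] false,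
   Spec.mk (nat_lit 1836) (nat_lit 1) [nat_lit 3294, nat_lit 1350, nat_lit 1674, nat_lit 1998, nat_lit 1890, nat_lit 1818] (nat_lit 0) [] false,
   Spec.mk (nat_lit 1864) (nat_lit 0) [nat_lit 3322, nat_lit 1378, nat_lit 2026, nat_lit 1810, nat_lit 1866] (nat_lit 0) [nat_lit 4050] false,
   Spec.mk (nat_lit 1866) (nat_lit 0) [nat_lit 3324, nat_lit 1380, nat_lit 2028, nat_lit 1812, nat_lit 1872, nat_lit 1864] (nat_lit 0) [] false,
   Spec.mk (nat_lit 1872) (nat_lit 0) [nat_lit 3330, nat_lit 1386, nat_lit 2034, nat_lit 1818, nat_lit 1890, nat_lit 1866] (nat_lit 0) [] false,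
   Spec.mk (nat_lit 1890) (nat_lit 2) [nat_lit 3348, nat_lit 1404, nat_lit 2052, nat_lit 1836, nat_lit 1872] (nat_lit 0) [] false,
   Spec.mk (nat_lit 1946) (nat_lit 0) [nat_lit 3404, nat_lit 1784, nat_lit 1948] (nat_lit 0) [nat_lit 4132] false,
   Spec.mk (nat_lit 1948) (nat_lit 1) [nat_lit 3406, nat_lit 1786, nat_lit 1954, nat_lit 1946, nat_lit 1950] (nat_lit 0) [nat_lit 4134] false,
   Spec.mk (nat_lit 1950) (nat_lit 0) [nat_lit 3408, nat_lit 1788, nat_lit 1956, nat_lit 1948] (nat_lit 0) [] false,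
   Spec.mk (nat_lit 1954) (nat_lit 0) [nat_lit 3412, nat_lit 1792, nat_lit 1972, nat_lit 1948, nat_lit 1956] (nat_lit 0) [nat_lit 4140] false,
   Spec.mk (nat_lit 1956) (nat_lit 1) [nat_lit 3414, nat_lit 1794, nat_lit 1974, nat_lit 1950, nat_lit 1962, nat_lit 1954] (nat_lit 0) [] false,
   Spec.mk (nat_lit 1962) (nat_lit 0) [nat_lit 3420, nat_lit 1800, nat_lit 1980, nat_lit 1956] (nat_lit 0) [] false,
   Spec.mk (nat_lit 1972) (nat_lit 0) [nat_lit 3430, nat_lit 1810, nat_lit 2026, nat_lit 1954, nat_lit 1974] (nat_lit 0) [nat_lit 4158] false,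
   Spec.mk (nat_lit 1974) (nat_lit 0) [nat_lit 3432, nat_lit 1812, nat_lit 2028, nat_lit 1956, nat_lit 1980, nat_lit 1972] (nat_lit 0) [] false,
   Spec.mk (nat_lit 1980) (nat_lit 1) [nat_lit 3438, nat_lit 1818, nat_lit 2034, nat_lit 1962, nat_lit 1998, nat_lit 1974] (nat_lit 0) [] false,
   Spec.mk (nat_lit 1998) (nat_lit 0) [nat_lit 3456, nat_lit 1836, nat_lit 2052, nat_lit 1980] (nat_lit 0) [] false,
   Spec.mk (nat_lit 2026) (nat_lit 2) [nat_lit 3484, nat_lit 1864, nat_lit 1972, nat_lit 2028] (nat_lit 0) [nat_lit 4212] false,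
   Spec.mk (nat_lit 2028) (nat_lit 2) [nat_lit 3486, nat_lit 1866, nat_lit 1974, nat_lit 2034, nat_lit 2026] (nat_lit 0) [] false,
   Spec.mk (nat_lit 2034) (nat_lit 2) [nat_lit 3492, nat_lit 1872, nat_lit 1980, nat_lit 2052, nat_lit 2028] (nat_lit 0) [] false,
   Spec.mk (nat_lit 2052) (nat_lit 3) [nat_lit 3510, nat_lit 1890, nat_lit 1998, nat_lit 2106, nat_lit 2034] (nat_lit 0) [] false,
   Spec.mk (nat_lit 2106) (nat_lit 4) [nat_lit 3564, nat_lit 2052] (nat_lit 0) [] false,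
   Spec.mk (nat_lit 2204) (nat_lit 4) [nat_lit 746, nat_lit 2222, nat_lit 2210] (nat_lit 0) [nat_lit 4390] false,
   Spec.mk (nat_lit 2210) (nat_lit 2) [nat_lit 752, nat_lit 2228, nat_lit 2204, nat_lit 2212] (nat_lit 0) [nat_lit 4396] false,
   Spec.mk (nat_lit 2212) (nat_lit 3) [nat_lit 754, nat_lit 2230, nat_lit 2210] (nat_lit 0) [nat_lit 4398, nat_lit 26] false]

noncomputable def sp6 : List Spec :=
  [Spec.mk (nat_lit 2222) (nat_lit 2) [nat_lit 764, nat_lit 2276, nat_lit 2204, nat_lit 2228] (nat_lit 0) [nat_lit 4408] false,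
   Spec.mk (nat_lit 2228) (nat_lit 2) [nat_lit 770, nat_lit 2282, nat_lit 2210, nat_lit 2246, nat_lit 2222, nat_lit 2234, nat_lit 2230] (nat_lit 0) [nat_lit 4414] false,
   Spec.mk (nat_lit 2230) (nat_lit 2) [nat_lit 772, nat_lit 2284, nat_lit 2212, nat_lit 2248, nat_lit 2236, nat_lit 2228] (nat_lit 0) [nat_lit 4416, nat_lit 44] false,
   Spec.mk (nat_lit 2234) (nat_lit 0) [nat_lit 776, nat_lit 2288, nat_lit 2252, nat_lit 2228, nat_lit 2236] (nat_lit 0) [nat_lit 4420] false,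
   Spec.mk (nat_lit 2236) (nat_lit 2) [nat_lit 778, nat_lit 2290, nat_lit 2254, nat_lit 2230, nat_lit 2234, nat_lit 2238] (nat_lit 0) [nat_lit 4422, nat_lit 50] false,
   Spec.mk (nat_lit 2238) (nat_lit 2) [nat_lit 780, nat_lit 2292, nat_lit 2256, nat_lit 2236] (nat_lit 0) [nat_lit 52] false,
   Spec.mk (nat_lit 2246) (nat_lit 0) [nat_lit 788, nat_lit 2300, nat_lit 2228, nat_lit 2252, nat_lit 2248] (nat_lit 0) [nat_lit 4432] false,
   Spec.mk (nat_lit 2248) (nat_lit 0) [nat_lit 790, nat_lit 2302, nat_lit 2230, nat_lit 2254, nat_lit 2246] (nat_lit 1) [nat_lit 4434, nat_lit 62] false,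
   Spec.mk (nat_lit 2252) (nat_lit 0) [nat_lit 794, nat_lit 2306, nat_lit 2234, nat_lit 2246, nat_lit 2254] (nat_lit 0) [nat_lit 4438] false,
   Spec.mk (nat_lit 2254) (nat_lit 1) [nat_lit 796, nat_lit 2308, nat_lit 2236, nat_lit 2248, nat_lit 2260, nat_lit 2252, nat_lit 2256] (nat_lit 0) [nat_lit 4440, nat_lit 68] false,
   Spec.mk (nat_lit 2256) (nat_lit 0) [nat_lit 798, nat_lit 2310, nat_lit 2238, nat_lit 2262, nat_lit 2254] (nat_lit 0) [nat_lit 70] false,
   Spec.mk (nat_lit 2260) (nat_lit 1) [nat_lit 802, nat_lit 2314, nat_lit 2254, nat_lit 2262] (nat_lit 0) [nat_lit 4446, nat_lit 74] false,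
   Spec.mk (nat_lit 2262) (nat_lit 2) [nat_lit 804, nat_lit 2316, nat_lit 2256, nat_lit 2260] (nat_lit 0) [nat_lit 76] false,
   Spec.mk (nat_lit 2276) (nat_lit 2) [nat_lit 818, nat_lit 2438, nat_lit 2222, nat_lit 2282] (nat_lit 0) [nat_lit 4462] false,
   Spec.mk (nat_lit 2282) (nat_lit 1) [nat_lit 824, nat_lit 2444, nat_lit 2228, nat_lit 2300, nat_lit 2276, nat_lit 2288, nat_lit 2284] (nat_lit 0) [nat_lit 4468] false,
   Spec.mk (nat_lit 2284) (nat_lit 1) [nat_lit 826, nat_lit 2446, nat_lit 2230, nat_lit 2302, nat_lit 2290, nat_lit 2282] (nat_lit 0) [nat_lit 4470, nat_lit 98] false,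
   Spec.mk (nat_lit 2288) (nat_lit 0) [nat_lit 830, nat_lit 2450, nat_lit 2234, nat_lit 2306, nat_lit 2282, nat_lit 2290] (nat_lit 2) [nat_lit 4474] false,
   Spec.mk (nat_lit 2290) (nat_lit 0) [nat_lit 832, nat_lit 2452, nat_lit 2236, nat_lit 2308, nat_lit 2284, nat_lit 2288, nat_lit 2292] (nat_lit 0) [nat_lit 4476, nat_lit 104] false,
   Spec.mk (nat_lit 2292) (nat_lit 0) [nat_lit 834, nat_lit 2454, nat_lit 2238, nat_lit 2310, nat_lit 2290] (nat_lit 0) [nat_lit 106] false,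
   Spec.mk (nat_lit 2300) (nat_lit 1) [nat_lit 842, nat_lit 2462, nat_lit 2246, nat_lit 2354, nat_lit 2282, nat_lit 2306, nat_lit 2302] (nat_lit 0) [nat_lit 4486] false,
   Spec.mk (nat_lit 2302) (nat_lit 0) [nat_lit 844, nat_lit 2464, nat_lit 2248, nat_lit 2356, nat_lit 2284, nat_lit 2308, nat_lit 2300] (nat_lit 0) [nat_lit 4488, nat_lit 116] false,
   Spec.mk (nat_lit 2306) (nat_lit 0) [nat_lit 848, nat_lit 2468, nat_lit 2252, nat_lit 2360, nat_lit 2288, nat_lit 2324, nat_lit 2300, nat_lit 2308] (nat_lit 0) [nat_lit 4492] false,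
   Spec.mk (nat_lit 2308) (nat_lit 1) [nat_lit 850, nat_lit 2470, nat_lit 2254, nat_lit 2362, nat_lit 2290, nat_lit 2326, nat_lit 2302, nat_lit 2314, nat_lit 2306, nat_lit 2310] (nat_lit 0) [nat_lit 4494, nat_lit 122] false,
   Spec.mk (nat_lit 2310) (nat_lit 0) [nat_lit 852, nat_lit 2472, nat_lit 2256, nat_lit 2364, nat_lit 2292, nat_lit 2328, nat_lit 2316, nat_lit 2308] (nat_lit 0) [nat_lit 124] false,
   Spec.mk (nat_lit 2314) (nat_lit 0) [nat_lit 856, nat_lit 2476, nat_lit 2260, nat_lit 2368, nat_lit 2332, nat_lit 2308, nat_lit 2316] (nat_lit 0) [nat_lit 4500, nat_lit 128] false,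
   Spec.mk (nat_lit 2316) (nat_lit 1) [nat_lit 858, nat_lit 2478, nat_lit 2262, nat_lit 2370, nat_lit 2334, nat_lit 2310, nat_lit 2314] (nat_lit 0) [nat_lit 130] false,
   Spec.mk (nat_lit 2324) (nat_lit 0) [nat_lit 866, nat_lit 2486, nat_lit 2378, nat_lit 2306, nat_lit 2326] (nat_lit 0) [nat_lit 4510] false,
   Spec.mk (nat_lit 2326) (nat_lit 0) [nat_lit 868, nat_lit 2488, nat_lit 2380, nat_lit 2308, nat_lit 2332, nat_lit 2324, nat_lit 2328] (nat_lit 0) [nat_lit 4512, nat_lit 140] false,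
   Spec.mk (nat_lit 2328) (nat_lit 0) [nat_lit 870, nat_lit 2490, nat_lit 2382, nat_lit 2310, nat_lit 2334, nat_lit 2326] (nat_lit 2) [nat_lit 142] false,
   Spec.mk (nat_lit 2332) (nat_lit 1) [nat_lit 874, nat_lit 2494, nat_lit 2386, nat_lit 2314, nat_lit 2326, nat_lit 2334] (nat_lit 0) [nat_lit 4518, nat_lit 146] false,
   Spec.mk (nat_lit 2334) (nat_lit 1) [nat_lit 876, nat_lit 2496, nat_lit 2388, nat_lit 2316, nat_lit 2328, nat_lit 2340, nat_lit 2332] (nat_lit 0) [nat_lit 148] false,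
   Spec.mk (nat_lit 2340) (nat_lit 2) [nat_lit 882, nat_lit 2502, nat_lit 2394, nat_lit 2334] (nat_lit 0) [nat_lit 154] false,
   Spec.mk (nat_lit 2354) (nat_lit 0) [nat_lit 896, nat_lit 2516, nat_lit 2300, nat_lit 2360, nat_lit 2356] (nat_lit 0) [nat_lit 4540] false,
   Spec.mk (nat_lit 2356) (nat_lit 0) [nat_lit 898, nat_lit 2518, nat_lit 2302, nat_lit 2362, nat_lit 2354] (nat_lit 1) [nat_lit 4542, nat_lit 170] false,
   Spec.mk (nat_lit 2360) (nat_lit 0) [nat_lit 902, nat_lit 2522, nat_lit 2306, nat_lit 2378, nat_lit 2354, nat_lit 2362] (nat_lit 2) [nat_lit 4546] false,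
   Spec.mk (nat_lit 2362) (nat_lit 0) [nat_lit 904, nat_lit 2524, nat_lit 2308, nat_lit 2380, nat_lit 2356, nat_lit 2368, nat_lit 2360, nat_lit 2364] (nat_lit 1) [nat_lit 4548, nat_lit 176] false,
   Spec.mk (nat_lit 2364) (nat_lit 0) [nat_lit 906, nat_lit 2526, nat_lit 2310, nat_lit 2382, nat_lit 2370, nat_lit 2362] (nat_lit 2) [nat_lit 178] false,
   Spec.mk (nat_lit 2368) (nat_lit 0) [nat_lit 910, nat_lit 2530, nat_lit 2314, nat_lit 2386, nat_lit 2362, nat_lit 2370] (nat_lit 3) [nat_lit 4554, nat_lit 182] false,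
   Spec.mk (nat_lit 2370) (nat_lit 0) [nat_lit 912, nat_lit 2532, nat_lit 2316, nat_lit 2388, nat_lit 2364, nat_lit 2368] (nat_lit 2) [nat_lit 184] false,
   Spec.mk (nat_lit 2378) (nat_lit 0) [nat_lit 920, nat_lit 2540, nat_lit 2324, nat_lit 2360, nat_lit 2380] (nat_lit 0) [nat_lit 4564] false,
   Spec.mk (nat_lit 2380) (nat_lit 0) [nat_lit 922, nat_lit 2542, nat_lit 2326, nat_lit 2362, nat_lit 2386, nat_lit 2378, nat_lit 2382] (nat_lit 0) [nat_lit 4566, nat_lit 194] false,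
   Spec.mk (nat_lit 2382) (nat_lit 0) [nat_lit 924, nat_lit 2544, nat_lit 2328, nat_lit 2364, nat_lit 2388, nat_lit 2380] (nat_lit 2) [nat_lit 196] false,
   Spec.mk (nat_lit 2386) (nat_lit 0) [nat_lit 928, nat_lit 2548, nat_lit 2332, nat_lit 2368, nat_lit 2404, nat_lit 2380, nat_lit 2388] (nat_lit 0) [nat_lit 4572, nat_lit 200] false,
   Spec.mk (nat_lit 2388) (nat_lit 0) [nat_lit 930, nat_lit 2550, nat_lit 2334, nat_lit 2370, nat_lit 2406, nat_lit 2382, nat_lit 2394, nat_lit 2386] (nat_lit 0) [nat_lit 202] false,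
   Spec.mk (nat_lit 2394) (nat_lit 0) [nat_lit 936, nat_lit 2556, nat_lit 2340, nat_lit 2412, nat_lit 2388] (nat_lit 0) [nat_lit 208] false,
   Spec.mk (nat_lit 2404) (nat_lit 1) [nat_lit 946, nat_lit 2566, nat_lit 2386, nat_lit 2406] (nat_lit 0) [nat_lit 4590, nat_lit 218] false,
   Spec.mk (nat_lit 2406) (nat_lit 0) [nat_lit 948, nat_lit 2568, nat_lit 2388, nat_lit 2412, nat_lit 2404] (nat_lit 0) [nat_lit 220] false,
   Spec.mk (nat_lit 2412) (nat_lit 2) [nat_lit 954, nat_lit 2574, nat_lit 2394, nat_lit 2406] (nat_lit 0) [nat_lit 226] false,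
   Spec.mk (nat_lit 2438) (nat_lit 2) [nat_lit 980, nat_lit 2924, nat_lit 2276, nat_lit 2444] (nat_lit 0) [nat_lit 4624] false,
   Spec.mk (nat_lit 2444) (nat_lit 1) [nat_lit 986, nat_lit 2930, nat_lit 2282, nat_lit 2462, nat_lit 2438, nat_lit 2450, nat_lit 2446] (nat_lit 0) [nat_lit 4630] false,
   Spec.mk (nat_lit 2446) (nat_lit 1) [nat_lit 988, nat_lit 2932, nat_lit 2284, nat_lit 2464, nat_lit 2452, nat_lit 2444] (nat_lit 0) [nat_lit 4632, nat_lit 260] false,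
   Spec.mk (nat_lit 2450) (nat_lit 0) [nat_lit 992, nat_lit 2936, nat_lit 2288, nat_lit 2468, nat_lit 2444, nat_lit 2452] (nat_lit 2) [nat_lit 4636] false,
   Spec.mk (nat_lit 2452) (nat_lit 0) [nat_lit 994, nat_lit 2938, nat_lit 2290, nat_lit 2470, nat_lit 2446, nat_lit 2450, nat_lit 2454] (nat_lit 0) [nat_lit 4638, nat_lit 266] false,
   Spec.mk (nat_lit 2454) (nat_lit 0) [nat_lit 996, nat_lit 2940, nat_lit 2292, nat_lit 2472, nat_lit 2452] (nat_lit 0) [nat_lit 268] false,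
   Spec.mk (nat_lit 2462) (nat_lit 0) [nat_lit 1004, nat_lit 2948, nat_lit 2300, nat_lit 2516, nat_lit 2444, nat_lit 2468, nat_lit 2464] (nat_lit 0) [nat_lit 4648] false,
   Spec.mk (nat_lit 2464) (nat_lit 0) [nat_lit 1006, nat_lit 2950, nat_lit 2302, nat_lit 2518, nat_lit 2446, nat_lit 2470, nat_lit 2462] (nat_lit 1) [nat_lit 4650, nat_lit 278] false,
   Spec.mk (nat_lit 2468) (nat_lit 0) [nat_lit 1010, nat_lit 2954, nat_lit 2306, nat_lit 2522, nat_lit 2450, nat_lit 2486, nat_lit 2462, nat_lit 2470] (nat_lit 1) [nat_lit 4654] false,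
   Spec.mk (nat_lit 2470) (nat_lit 0) [nat_lit 1012, nat_lit 2956, nat_lit 2308, nat_lit 2524, nat_lit 2452, nat_lit 2488, nat_lit 2464, nat_lit 2476, nat_lit 2468, nat_lit 2472] (nat_lit 0) [nat_lit 4656, nat_lit 284] false,
   Spec.mk (nat_lit 2472) (nat_lit 0) [nat_lit 1014, nat_lit 2958, nat_lit 2310, nat_lit 2526, nat_lit 2454, nat_lit 2490, nat_lit 2478, nat_lit 2470] (nat_lit 1) [nat_lit 286] false,
   Spec.mk (nat_lit 2476) (nat_lit 0) [nat_lit 1018, nat_lit 2962, nat_lit 2314, nat_lit 2530, nat_lit 2494, nat_lit 2470, nat_lit 2478] (nat_lit 1) [nat_lit 4662, nat_lit 290] false]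

noncomputable def sp7 : List Spec :=
  [Spec.mk (nat_lit 2478) (nat_lit 0) [nat_lit 1020, nat_lit 2964, nat_lit 2316, nat_lit 2532, nat_lit 2496, nat_lit 2472, nat_lit 2476] (nat_lit 0) [nat_lit 292] false,
   Spec.mk (nat_lit 2486) (nat_lit 0) [nat_lit 1028, nat_lit 2972, nat_lit 2324, nat_lit 2540, nat_lit 2468, nat_lit 2488] (nat_lit 2) [nat_lit 4672] false,
   Spec.mk (nat_lit 2488) (nat_lit 0) [nat_lit 1030, nat_lit 2974, nat_lit 2326, nat_lit 2542, nat_lit 2470, nat_lit 2494, nat_lit 2486, nat_lit 2490] (nat_lit 2) [nat_lit 4674, nat_lit 302] false,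
   Spec.mk (nat_lit 2490) (nat_lit 0) [nat_lit 1032, nat_lit 2976, nat_lit 2328, nat_lit 2544, nat_lit 2472, nat_lit 2496, nat_lit 2488] (nat_lit 4) [nat_lit 304] false,
   Spec.mk (nat_lit 2494) (nat_lit 0) [nat_lit 1036, nat_lit 2980, nat_lit 2332, nat_lit 2548, nat_lit 2476, nat_lit 2488, nat_lit 2496] (nat_lit 1) [nat_lit 4680, nat_lit 308] false,
   Spec.mk (nat_lit 2496) (nat_lit 0) [nat_lit 1038, nat_lit 2982, nat_lit 2334, nat_lit 2550, nat_lit 2478, nat_lit 2490, nat_lit 2502, nat_lit 2494] (nat_lit 1) [nat_lit 310] false,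
   Spec.mk (nat_lit 2502) (nat_lit 0) [nat_lit 1044, nat_lit 2988, nat_lit 2340, nat_lit 2556, nat_lit 2496] (nat_lit 0) [nat_lit 316] false,
   Spec.mk (nat_lit 2516) (nat_lit 1) [nat_lit 1058, nat_lit 3002, nat_lit 2354, nat_lit 2678, nat_lit 2462, nat_lit 2522, nat_lit 2518] (nat_lit 0) [nat_lit 4702] false,
   Spec.mk (nat_lit 2518) (nat_lit 0) [nat_lit 1060, nat_lit 3004, nat_lit 2356, nat_lit 2680, nat_lit 2464, nat_lit 2524, nat_lit 2516] (nat_lit 0) [nat_lit 4704, nat_lit 332] false,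
   Spec.mk (nat_lit 2522) (nat_lit 0) [nat_lit 1064, nat_lit 3008, nat_lit 2360, nat_lit 2684, nat_lit 2468, nat_lit 2540, nat_lit 2516, nat_lit 2524] (nat_lit 1) [nat_lit 4708] false,
   Spec.mk (nat_lit 2524) (nat_lit 0) [nat_lit 1066, nat_lit 3010, nat_lit 2362, nat_lit 2686, nat_lit 2470, nat_lit 2542, nat_lit 2518, nat_lit 2530, nat_lit 2522, nat_lit 2526] (nat_lit 0) [nat_lit 4710, nat_lit 338] false,
   Spec.mk (nat_lit 2526) (nat_lit 0) [nat_lit 1068, nat_lit 3012, nat_lit 2364, nat_lit 2688, nat_lit 2472, nat_lit 2544, nat_lit 2532, nat_lit 2524] (nat_lit 1) [nat_lit 340] false,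
   Spec.mk (nat_lit 2530) (nat_lit 0) [nat_lit 1072, nat_lit 3016, nat_lit 2368, nat_lit 2692, nat_lit 2476, nat_lit 2548, nat_lit 2524, nat_lit 2532] (nat_lit 2) [nat_lit 4716, nat_lit 344] false,
   Spec.mk (nat_lit 2532) (nat_lit 0) [nat_lit 1074, nat_lit 3018, nat_lit 2370, nat_lit 2694, nat_lit 2478, nat_lit 2550, nat_lit 2526, nat_lit 2530] (nat_lit 1) [nat_lit 346] false,
   Spec.mk (nat_lit 2540) (nat_lit 0) [nat_lit 1082, nat_lit 3026, nat_lit 2378, nat_lit 2702, nat_lit 2486, nat_lit 2594, nat_lit 2522, nat_lit 2542] (nat_lit 0) [nat_lit 4726] false,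
   Spec.mk (nat_lit 2542) (nat_lit 0) [nat_lit 1084, nat_lit 3028, nat_lit 2380, nat_lit 2704, nat_lit 2488, nat_lit 2596, nat_lit 2524, nat_lit 2548, nat_lit 2540, nat_lit 2544] (nat_lit 0) [nat_lit 4728, nat_lit 356] false,
   Spec.mk (nat_lit 2544) (nat_lit 0) [nat_lit 1086, nat_lit 3030, nat_lit 2382, nat_lit 2706, nat_lit 2490, nat_lit 2598, nat_lit 2526, nat_lit 2550, nat_lit 2542] (nat_lit 2) [nat_lit 358] false,
   Spec.mk (nat_lit 2548) (nat_lit 0) [nat_lit 1090, nat_lit 3034, nat_lit 2386, nat_lit 2710, nat_lit 2494, nat_lit 2602, nat_lit 2530, nat_lit 2566, nat_lit 2542, nat_lit 2550] (nat_lit 0) [nat_lit 4734, nat_lit 362] false,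
   Spec.mk (nat_lit 2550) (nat_lit 0) [nat_lit 1092, nat_lit 3036, nat_lit 2388, nat_lit 2712, nat_lit 2496, nat_lit 2604, nat_lit 2532, nat_lit 2568, nat_lit 2544, nat_lit 2556, nat_lit 2548] (nat_lit 0) [nat_lit 364] false,
   Spec.mk (nat_lit 2556) (nat_lit 0) [nat_lit 1098, nat_lit 3042, nat_lit 2394, nat_lit 2718, nat_lit 2502, nat_lit 2610, nat_lit 2574, nat_lit 2550] (nat_lit 0) [nat_lit 370] false,
   Spec.mk (nat_lit 2566) (nat_lit 0) [nat_lit 1108, nat_lit 3052, nat_lit 2404, nat_lit 2728, nat_lit 2620, nat_lit 2548, nat_lit 2568] (nat_lit 0) [nat_lit 4752, nat_lit 380] false,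
   Spec.mk (nat_lit 2568) (nat_lit 0) [nat_lit 1110, nat_lit 3054, nat_lit 2406, nat_lit 2730, nat_lit 2622, nat_lit 2550, nat_lit 2574, nat_lit 2566] (nat_lit 1) [nat_lit 382] false,
   Spec.mk (nat_lit 2574) (nat_lit 1) [nat_lit 1116, nat_lit 3060, nat_lit 2412, nat_lit 2736, nat_lit 2628, nat_lit 2556, nat_lit 2568] (nat_lit 0) [nat_lit 388] false,
   Spec.mk (nat_lit 2594) (nat_lit 0) [nat_lit 1136, nat_lit 3080, nat_lit 2756, nat_lit 2540, nat_lit 2596] (nat_lit 0) [nat_lit 4780] false,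
   Spec.mk (nat_lit 2596) (nat_lit 0) [nat_lit 1138, nat_lit 3082, nat_lit 2758, nat_lit 2542, nat_lit 2602, nat_lit 2594, nat_lit 2598] (nat_lit 0) [nat_lit 4782, nat_lit 410] false,
   Spec.mk (nat_lit 2598) (nat_lit 0) [nat_lit 1140, nat_lit 3084, nat_lit 2760, nat_lit 2544, nat_lit 2604, nat_lit 2596] (nat_lit 2) [nat_lit 412] false,
   Spec.mk (nat_lit 2602) (nat_lit 0) [nat_lit 1144, nat_lit 3088, nat_lit 2764, nat_lit 2548, nat_lit 2620, nat_lit 2596, nat_lit 2604] (nat_lit 1) [nat_lit 4788, nat_lit 416] false,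
   Spec.mk (nat_lit 2604) (nat_lit 0) [nat_lit 1146, nat_lit 3090, nat_lit 2766, nat_lit 2550, nat_lit 2622, nat_lit 2598, nat_lit 2610, nat_lit 2602] (nat_lit 1) [nat_lit 418] false,
   Spec.mk (nat_lit 2610) (nat_lit 0) [nat_lit 1152, nat_lit 3096, nat_lit 2772, nat_lit 2556, nat_lit 2628, nat_lit 2604] (nat_lit 2) [nat_lit 424] false,
   Spec.mk (nat_lit 2620) (nat_lit 1) [nat_lit 1162, nat_lit 3106, nat_lit 2782, nat_lit 2566, nat_lit 2602, nat_lit 2622] (nat_lit 0) [nat_lit 4806, nat_lit 434] false,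
   Spec.mk (nat_lit 2622) (nat_lit 0) [nat_lit 1164, nat_lit 3108, nat_lit 2784, nat_lit 2568, nat_lit 2604, nat_lit 2628, nat_lit 2620] (nat_lit 0) [nat_lit 436] false,
   Spec.mk (nat_lit 2628) (nat_lit 1) [nat_lit 1170, nat_lit 3114, nat_lit 2790, nat_lit 2574, nat_lit 2610, nat_lit 2646, nat_lit 2622] (nat_lit 0) [nat_lit 442] false,
   Spec.mk (nat_lit 2646) (nat_lit 2) [nat_lit 1188, nat_lit 3132, nat_lit 2808, nat_lit 2628] (nat_lit 0) [nat_lit 460] false,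
   Spec.mk (nat_lit 2678) (nat_lit 0) [nat_lit 1220, nat_lit 3164, nat_lit 2516, nat_lit 2684, nat_lit 2680] (nat_lit 0) [nat_lit 4864] false,
   Spec.mk (nat_lit 2680) (nat_lit 0) [nat_lit 1222, nat_lit 3166, nat_lit 2518, nat_lit 2686, nat_lit 2678] (nat_lit 1) [nat_lit 4866, nat_lit 494] false,
   Spec.mk (nat_lit 2684) (nat_lit 0) [nat_lit 1226, nat_lit 3170, nat_lit 2522, nat_lit 2702, nat_lit 2678, nat_lit 2686] (nat_lit 2) [nat_lit 4870] false,
   Spec.mk (nat_lit 2686) (nat_lit 0) [nat_lit 1228, nat_lit 3172, nat_lit 2524, nat_lit 2704, nat_lit 2680, nat_lit 2692, nat_lit 2684, nat_lit 2688] (nat_lit 1) [nat_lit 4872, nat_lit 500] false,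
   Spec.mk (nat_lit 2688) (nat_lit 0) [nat_lit 1230, nat_lit 3174, nat_lit 2526, nat_lit 2706, nat_lit 2694, nat_lit 2686] (nat_lit 2) [nat_lit 502] false,
   Spec.mk (nat_lit 2692) (nat_lit 0) [nat_lit 1234, nat_lit 3178, nat_lit 2530, nat_lit 2710, nat_lit 2686, nat_lit 2694] (nat_lit 3) [nat_lit 4878, nat_lit 506] false,
   Spec.mk (nat_lit 2694) (nat_lit 0) [nat_lit 1236, nat_lit 3180, nat_lit 2532, nat_lit 2712, nat_lit 2688, nat_lit 2692] (nat_lit 2) [nat_lit 508] false,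
   Spec.mk (nat_lit 2702) (nat_lit 0) [nat_lit 1244, nat_lit 3188, nat_lit 2540, nat_lit 2756, nat_lit 2684, nat_lit 2704] (nat_lit 2) [nat_lit 4888] false,
   Spec.mk (nat_lit 2704) (nat_lit 0) [nat_lit 1246, nat_lit 3190, nat_lit 2542, nat_lit 2758, nat_lit 2686, nat_lit 2710, nat_lit 2702, nat_lit 2706] (nat_lit 2) [nat_lit 4890, nat_lit 518] false,
   Spec.mk (nat_lit 2706) (nat_lit 0) [nat_lit 1248, nat_lit 3192, nat_lit 2544, nat_lit 2760, nat_lit 2688, nat_lit 2712, nat_lit 2704] (nat_lit 4) [nat_lit 520] false,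
   Spec.mk (nat_lit 2710) (nat_lit 0) [nat_lit 1252, nat_lit 3196, nat_lit 2548, nat_lit 2764, nat_lit 2692, nat_lit 2728, nat_lit 2704, nat_lit 2712] (nat_lit 2) [nat_lit 4896, nat_lit 524] false,
   Spec.mk (nat_lit 2712) (nat_lit 0) [nat_lit 1254, nat_lit 3198, nat_lit 2550, nat_lit 2766, nat_lit 2694, nat_lit 2730, nat_lit 2706, nat_lit 2718, nat_lit 2710] (nat_lit 2) [nat_lit 526] false,
   Spec.mk (nat_lit 2718) (nat_lit 0) [nat_lit 1260, nat_lit 3204, nat_lit 2556, nat_lit 2772, nat_lit 2736, nat_lit 2712] (nat_lit 2) [nat_lit 532] false,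
   Spec.mk (nat_lit 2728) (nat_lit 0) [nat_lit 1270, nat_lit 3214, nat_lit 2566, nat_lit 2782, nat_lit 2710, nat_lit 2730] (nat_lit 3) [nat_lit 4914, nat_lit 542] false,
   Spec.mk (nat_lit 2730) (nat_lit 0) [nat_lit 1272, nat_lit 3216, nat_lit 2568, nat_lit 2784, nat_lit 2712, nat_lit 2736, nat_lit 2728] (nat_lit 4) [nat_lit 544] false,
   Spec.mk (nat_lit 2736) (nat_lit 0) [nat_lit 1278, nat_lit 3222, nat_lit 2574, nat_lit 2790, nat_lit 2718, nat_lit 2730] (nat_lit 2) [nat_lit 550] false,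
   Spec.mk (nat_lit 2756) (nat_lit 0) [nat_lit 1298, nat_lit 3242, nat_lit 2594, nat_lit 2702, nat_lit 2758] (nat_lit 0) [nat_lit 4942] false,
   Spec.mk (nat_lit 2758) (nat_lit 0) [nat_lit 1300, nat_lit 3244, nat_lit 2596, nat_lit 2704, nat_lit 2764, nat_lit 2756, nat_lit 2760] (nat_lit 0) [nat_lit 4944, nat_lit 572] false,
   Spec.mk (nat_lit 2760) (nat_lit 0) [nat_lit 1302, nat_lit 3246, nat_lit 2598, nat_lit 2706, nat_lit 2766, nat_lit 2758] (nat_lit 2) [nat_lit 574] false,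
   Spec.mk (nat_lit 2764) (nat_lit 0) [nat_lit 1306, nat_lit 3250, nat_lit 2602, nat_lit 2710, nat_lit 2782, nat_lit 2758, nat_lit 2766] (nat_lit 1) [nat_lit 4950, nat_lit 578] false,
   Spec.mk (nat_lit 2766) (nat_lit 0) [nat_lit 1308, nat_lit 3252, nat_lit 2604, nat_lit 2712, nat_lit 2784, nat_lit 2760, nat_lit 2772, nat_lit 2764] (nat_lit 1) [nat_lit 580] false,
   Spec.mk (nat_lit 2772) (nat_lit 0) [nat_lit 1314, nat_lit 3258, nat_lit 2610, nat_lit 2718, nat_lit 2790, nat_lit 2766] (nat_lit 2) [nat_lit 586] false,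
   Spec.mk (nat_lit 2782) (nat_lit 0) [nat_lit 1324, nat_lit 3268, nat_lit 2620, nat_lit 2728, nat_lit 2836, nat_lit 2764, nat_lit 2784] (nat_lit 0) [nat_lit 4968, nat_lit 596] false,
   Spec.mk (nat_lit 2784) (nat_lit 0) [nat_lit 1326, nat_lit 3270, nat_lit 2622, nat_lit 2730, nat_lit 2838, nat_lit 2766, nat_lit 2790, nat_lit 2782] (nat_lit 1) [nat_lit 598] false,
   Spec.mk (nat_lit 2790) (nat_lit 0) [nat_lit 1332, nat_lit 3276, nat_lit 2628, nat_lit 2736, nat_lit 2844, nat_lit 2772, nat_lit 2808, nat_lit 2784] (nat_lit 0) [nat_lit 604] false,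
   Spec.mk (nat_lit 2808) (nat_lit 0) [nat_lit 1350, nat_lit 3294, nat_lit 2646, nat_lit 2862, nat_lit 2790] (nat_lit 0) [nat_lit 622] false,
   Spec.mk (nat_lit 2836) (nat_lit 1) [nat_lit 1378, nat_lit 3322, nat_lit 2782, nat_lit 2838] (nat_lit 0) [nat_lit 5022, nat_lit 650] false]

noncomputable def sp8 : List Spec :=
  [Spec.mk (nat_lit 2838) (nat_lit 0) [nat_lit 1380, nat_lit 3324, nat_lit 2784, nat_lit 2844, nat_lit 2836] (nat_lit 0) [nat_lit 652] false,
   Spec.mk (nat_lit 2844) (nat_lit 0) [nat_lit 1386, nat_lit 3330, nat_lit 2790, nat_lit 2862, nat_lit 2838] (nat_lit 0) [nat_lit 658] false,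
   Spec.mk (nat_lit 2862) (nat_lit 2) [nat_lit 1404, nat_lit 3348, nat_lit 2808, nat_lit 2844] (nat_lit 0) [nat_lit 676] false,
   Spec.mk (nat_lit 2924) (nat_lit 3) [nat_lit 1466, nat_lit 4382, nat_lit 2438, nat_lit 2930] (nat_lit 0) [nat_lit 5110] false,
   Spec.mk (nat_lit 2930) (nat_lit 2) [nat_lit 1472, nat_lit 4388, nat_lit 2444, nat_lit 2948, nat_lit 2924, nat_lit 2936, nat_lit 2932] (nat_lit 0) [nat_lit 5116] false,
   Spec.mk (nat_lit 2932) (nat_lit 2) [nat_lit 1474, nat_lit 4390, nat_lit 2446, nat_lit 2950, nat_lit 2938, nat_lit 2930] (nat_lit 0) [nat_lit 5118, nat_lit 746] false,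
   Spec.mk (nat_lit 2936) (nat_lit 0) [nat_lit 1478, nat_lit 4394, nat_lit 2450, nat_lit 2954, nat_lit 2930, nat_lit 2938] (nat_lit 1) [nat_lit 5122] false,
   Spec.mk (nat_lit 2938) (nat_lit 1) [nat_lit 1480, nat_lit 4396, nat_lit 2452, nat_lit 2956, nat_lit 2932, nat_lit 2936, nat_lit 2940] (nat_lit 0) [nat_lit 5124, nat_lit 752] false,
   Spec.mk (nat_lit 2940) (nat_lit 1) [nat_lit 1482, nat_lit 4398, nat_lit 2454, nat_lit 2958, nat_lit 2938] (nat_lit 0) [nat_lit 754] false,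
   Spec.mk (nat_lit 2948) (nat_lit 1) [nat_lit 1490, nat_lit 4406, nat_lit 2462, nat_lit 3002, nat_lit 2930, nat_lit 2954, nat_lit 2950] (nat_lit 0) [nat_lit 5134] false,
   Spec.mk (nat_lit 2950) (nat_lit 0) [nat_lit 1492, nat_lit 4408, nat_lit 2464, nat_lit 3004, nat_lit 2932, nat_lit 2956, nat_lit 2948] (nat_lit 0) [nat_lit 5136, nat_lit 764] false,
   Spec.mk (nat_lit 2954) (nat_lit 0) [nat_lit 1496, nat_lit 4412, nat_lit 2468, nat_lit 3008, nat_lit 2936, nat_lit 2972, nat_lit 2948, nat_lit 2956] (nat_lit 0) [nat_lit 5140] false,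
   Spec.mk (nat_lit 2956) (nat_lit 1) [nat_lit 1498, nat_lit 4414, nat_lit 2470, nat_lit 3010, nat_lit 2938, nat_lit 2974, nat_lit 2950, nat_lit 2962, nat_lit 2954, nat_lit 2958] (nat_lit 0) [nat_lit 5142, nat_lit 770] false,
   Spec.mk (nat_lit 2958) (nat_lit 0) [nat_lit 1500, nat_lit 4416, nat_lit 2472, nat_lit 3012, nat_lit 2940, nat_lit 2976, nat_lit 2964, nat_lit 2956] (nat_lit 0) [nat_lit 772] false,
   Spec.mk (nat_lit 2962) (nat_lit 0) [nat_lit 1504, nat_lit 4420, nat_lit 2476, nat_lit 3016, nat_lit 2980, nat_lit 2956, nat_lit 2964] (nat_lit 0) [nat_lit 5148, nat_lit 776] false,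
   Spec.mk (nat_lit 2964) (nat_lit 1) [nat_lit 1506, nat_lit 4422, nat_lit 2478, nat_lit 3018, nat_lit 2982, nat_lit 2958, nat_lit 2962] (nat_lit 0) [nat_lit 778] false,
   Spec.mk (nat_lit 2972) (nat_lit 0) [nat_lit 1514, nat_lit 4430, nat_lit 2486, nat_lit 3026, nat_lit 2954, nat_lit 2974] (nat_lit 1) [nat_lit 5158] false,
   Spec.mk (nat_lit 2974) (nat_lit 0) [nat_lit 1516, nat_lit 4432, nat_lit 2488, nat_lit 3028, nat_lit 2956, nat_lit 2980, nat_lit 2972, nat_lit 2976] (nat_lit 1) [nat_lit 5160, nat_lit 788] false,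
   Spec.mk (nat_lit 2976) (nat_lit 0) [nat_lit 1518, nat_lit 4434, nat_lit 2490, nat_lit 3030, nat_lit 2958, nat_lit 2982, nat_lit 2974] (nat_lit 3) [nat_lit 790] false,
   Spec.mk (nat_lit 2980) (nat_lit 0) [nat_lit 1522, nat_lit 4438, nat_lit 2494, nat_lit 3034, nat_lit 2962, nat_lit 2974, nat_lit 2982] (nat_lit 0) [nat_lit 5166, nat_lit 794] false,
   Spec.mk (nat_lit 2982) (nat_lit 0) [nat_lit 1524, nat_lit 4440, nat_lit 2496, nat_lit 3036, nat_lit 2964, nat_lit 2976, nat_lit 2988, nat_lit 2980] (nat_lit 0) [nat_lit 796] false,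
   Spec.mk (nat_lit 2988) (nat_lit 1) [nat_lit 1530, nat_lit 4446, nat_lit 2502, nat_lit 3042, nat_lit 2982] (nat_lit 0) [nat_lit 802] false,
   Spec.mk (nat_lit 3002) (nat_lit 1) [nat_lit 1544, nat_lit 4460, nat_lit 2516, nat_lit 3164, nat_lit 2948, nat_lit 3008, nat_lit 3004] (nat_lit 0) [nat_lit 5188] false,
   Spec.mk (nat_lit 3004) (nat_lit 0) [nat_lit 1546, nat_lit 4462, nat_lit 2518, nat_lit 3166, nat_lit 2950, nat_lit 3010, nat_lit 3002] (nat_lit 0) [nat_lit 5190, nat_lit 818] false,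
   Spec.mk (nat_lit 3008) (nat_lit 0) [nat_lit 1550, nat_lit 4466, nat_lit 2522, nat_lit 3170, nat_lit 2954, nat_lit 3026, nat_lit 3002, nat_lit 3010] (nat_lit 1) [nat_lit 5194] false,
   Spec.mk (nat_lit 3010) (nat_lit 0) [nat_lit 1552, nat_lit 4468, nat_lit 2524, nat_lit 3172, nat_lit 2956, nat_lit 3028, nat_lit 3004, nat_lit 3016, nat_lit 3008, nat_lit 3012] (nat_lit 0) [nat_lit 5196, nat_lit 824] false,
   Spec.mk (nat_lit 3012) (nat_lit 0) [nat_lit 1554, nat_lit 4470, nat_lit 2526, nat_lit 3174, nat_lit 2958, nat_lit 3030, nat_lit 3018, nat_lit 3010] (nat_lit 1) [nat_lit 826] false,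
   Spec.mk (nat_lit 3016) (nat_lit 0) [nat_lit 1558, nat_lit 4474, nat_lit 2530, nat_lit 3178, nat_lit 2962, nat_lit 3034, nat_lit 3010, nat_lit 3018] (nat_lit 2) [nat_lit 5202, nat_lit 830] false,
   Spec.mk (nat_lit 3018) (nat_lit 0) [nat_lit 1560, nat_lit 4476, nat_lit 2532, nat_lit 3180, nat_lit 2964, nat_lit 3036, nat_lit 3012, nat_lit 3016] (nat_lit 1) [nat_lit 832] false,
   Spec.mk (nat_lit 3026) (nat_lit 0) [nat_lit 1568, nat_lit 4484, nat_lit 2540, nat_lit 3188, nat_lit 2972, nat_lit 3080, nat_lit 3008, nat_lit 3028] (nat_lit 0) [nat_lit 5212] false,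
   Spec.mk (nat_lit 3028) (nat_lit 0) [nat_lit 1570, nat_lit 4486, nat_lit 2542, nat_lit 3190, nat_lit 2974, nat_lit 3082, nat_lit 3010, nat_lit 3034, nat_lit 3026, nat_lit 3030] (nat_lit 0) [nat_lit 5214, nat_lit 842] false,
   Spec.mk (nat_lit 3030) (nat_lit 0) [nat_lit 1572, nat_lit 4488, nat_lit 2544, nat_lit 3192, nat_lit 2976, nat_lit 3084, nat_lit 3012, nat_lit 3036, nat_lit 3028] (nat_lit 2) [nat_lit 844] false,
   Spec.mk (nat_lit 3034) (nat_lit 0) [nat_lit 1576, nat_lit 4492, nat_lit 2548, nat_lit 3196, nat_lit 2980, nat_lit 3088, nat_lit 3016, nat_lit 3052, nat_lit 3028, nat_lit 3036] (nat_lit 0) [nat_lit 5220, nat_lit 848] false,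
   Spec.mk (nat_lit 3036) (nat_lit 0) [nat_lit 1578, nat_lit 4494, nat_lit 2550, nat_lit 3198, nat_lit 2982, nat_lit 3090, nat_lit 3018, nat_lit 3054, nat_lit 3030, nat_lit 3042, nat_lit 3034] (nat_lit 0) [nat_lit 850] false,
   Spec.mk (nat_lit 3042) (nat_lit 0) [nat_lit 1584, nat_lit 4500, nat_lit 2556, nat_lit 3204, nat_lit 2988, nat_lit 3096, nat_lit 3060, nat_lit 3036] (nat_lit 0) [nat_lit 856] false,
   Spec.mk (nat_lit 3052) (nat_lit 0) [nat_lit 1594, nat_lit 4510, nat_lit 2566, nat_lit 3214, nat_lit 3106, nat_lit 3034, nat_lit 3054] (nat_lit 0) [nat_lit 5238, nat_lit 866] false,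
   Spec.mk (nat_lit 3054) (nat_lit 0) [nat_lit 1596, nat_lit 4512, nat_lit 2568, nat_lit 3216, nat_lit 3108, nat_lit 3036, nat_lit 3060, nat_lit 3052] (nat_lit 1) [nat_lit 868] false,
   Spec.mk (nat_lit 3060) (nat_lit 1) [nat_lit 1602, nat_lit 4518, nat_lit 2574, nat_lit 3222, nat_lit 3114, nat_lit 3042, nat_lit 3054] (nat_lit 0) [nat_lit 874] false,
   Spec.mk (nat_lit 3080) (nat_lit 0) [nat_lit 1622, nat_lit 4538, nat_lit 2594, nat_lit 3242, nat_lit 3026, nat_lit 3082] (nat_lit 1) [nat_lit 5266] false,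
   Spec.mk (nat_lit 3082) (nat_lit 0) [nat_lit 1624, nat_lit 4540, nat_lit 2596, nat_lit 3244, nat_lit 3028, nat_lit 3088, nat_lit 3080, nat_lit 3084] (nat_lit 1) [nat_lit 5268, nat_lit 896] false,
   Spec.mk (nat_lit 3084) (nat_lit 0) [nat_lit 1626, nat_lit 4542, nat_lit 2598, nat_lit 3246, nat_lit 3030, nat_lit 3090, nat_lit 3082] (nat_lit 3) [nat_lit 898] false,
   Spec.mk (nat_lit 3088) (nat_lit 0) [nat_lit 1630, nat_lit 4546, nat_lit 2602, nat_lit 3250, nat_lit 3034, nat_lit 3106, nat_lit 3082, nat_lit 3090] (nat_lit 2) [nat_lit 5274, nat_lit 902] false,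
   Spec.mk (nat_lit 3090) (nat_lit 0) [nat_lit 1632, nat_lit 4548, nat_lit 2604, nat_lit 3252, nat_lit 3036, nat_lit 3108, nat_lit 3084, nat_lit 3096, nat_lit 3088] (nat_lit 2) [nat_lit 904] false,
   Spec.mk (nat_lit 3096) (nat_lit 0) [nat_lit 1638, nat_lit 4554, nat_lit 2610, nat_lit 3258, nat_lit 3042, nat_lit 3114, nat_lit 3090] (nat_lit 3) [nat_lit 910] false,
   Spec.mk (nat_lit 3106) (nat_lit 0) [nat_lit 1648, nat_lit 4564, nat_lit 2620, nat_lit 3268, nat_lit 3052, nat_lit 3088, nat_lit 3108] (nat_lit 0) [nat_lit 5292, nat_lit 920] false,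
   Spec.mk (nat_lit 3108) (nat_lit 0) [nat_lit 1650, nat_lit 4566, nat_lit 2622, nat_lit 3270, nat_lit 3054, nat_lit 3090, nat_lit 3114, nat_lit 3106] (nat_lit 1) [nat_lit 922] false,
   Spec.mk (nat_lit 3114) (nat_lit 0) [nat_lit 1656, nat_lit 4572, nat_lit 2628, nat_lit 3276, nat_lit 3060, nat_lit 3096, nat_lit 3132, nat_lit 3108] (nat_lit 0) [nat_lit 928] false,
   Spec.mk (nat_lit 3132) (nat_lit 1) [nat_lit 1674, nat_lit 4590, nat_lit 2646, nat_lit 3294, nat_lit 3114] (nat_lit 0) [nat_lit 946] false,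
   Spec.mk (nat_lit 3164) (nat_lit 2) [nat_lit 1706, nat_lit 4622, nat_lit 2678, nat_lit 3650, nat_lit 3002, nat_lit 3170, nat_lit 3166] (nat_lit 0) [nat_lit 5350] false,
   Spec.mk (nat_lit 3166) (nat_lit 1) [nat_lit 1708, nat_lit 4624, nat_lit 2680, nat_lit 3652, nat_lit 3004, nat_lit 3172, nat_lit 3164] (nat_lit 0) [nat_lit 5352, nat_lit 980] false,
   Spec.mk (nat_lit 3170) (nat_lit 0) [nat_lit 1712, nat_lit 4628, nat_lit 2684, nat_lit 3656, nat_lit 3008, nat_lit 3188, nat_lit 3164, nat_lit 3172] (nat_lit 0) [nat_lit 5356] false,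
   Spec.mk (nat_lit 3172) (nat_lit 1) [nat_lit 1714, nat_lit 4630, nat_lit 2686, nat_lit 3658, nat_lit 3010, nat_lit 3190, nat_lit 3166, nat_lit 3178, nat_lit 3170, nat_lit 3174] (nat_lit 0) [nat_lit 5358, nat_lit 986] false,
   Spec.mk (nat_lit 3174) (nat_lit 0) [nat_lit 1716, nat_lit 4632, nat_lit 2688, nat_lit 3660, nat_lit 3012, nat_lit 3192, nat_lit 3180, nat_lit 3172] (nat_lit 0) [nat_lit 988] false,
   Spec.mk (nat_lit 3178) (nat_lit 0) [nat_lit 1720, nat_lit 4636, nat_lit 2692, nat_lit 3664, nat_lit 3016, nat_lit 3196, nat_lit 3172, nat_lit 3180] (nat_lit 1) [nat_lit 5364, nat_lit 992] false,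
   Spec.mk (nat_lit 3180) (nat_lit 0) [nat_lit 1722, nat_lit 4638, nat_lit 2694, nat_lit 3666, nat_lit 3018, nat_lit 3198, nat_lit 3174, nat_lit 3178] (nat_lit 0) [nat_lit 994] false,
   Spec.mk (nat_lit 3188) (nat_lit 0) [nat_lit 1730, nat_lit 4646, nat_lit 2702, nat_lit 3674, nat_lit 3026, nat_lit 3242, nat_lit 3170, nat_lit 3190] (nat_lit 0) [nat_lit 5374] false,
   Spec.mk (nat_lit 3190) (nat_lit 0) [nat_lit 1732, nat_lit 4648, nat_lit 2704, nat_lit 3676, nat_lit 3028, nat_lit 3244, nat_lit 3172, nat_lit 3196, nat_lit 3188, nat_lit 3192] (nat_lit 0) [nat_lit 5376, nat_lit 1004] false,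
   Spec.mk (nat_lit 3192) (nat_lit 0) [nat_lit 1734, nat_lit 4650, nat_lit 2706, nat_lit 3678, nat_lit 3030, nat_lit 3246, nat_lit 3174, nat_lit 3198, nat_lit 3190] (nat_lit 2) [nat_lit 1006] false,
   Spec.mk (nat_lit 3196) (nat_lit 0) [nat_lit 1738, nat_lit 4654, nat_lit 2710, nat_lit 3682, nat_lit 3034, nat_lit 3250, nat_lit 3178, nat_lit 3214, nat_lit 3190, nat_lit 3198] (nat_lit 0) [nat_lit 5382, nat_lit 1010] false,
   Spec.mk (nat_lit 3198) (nat_lit 0) [nat_lit 1740, nat_lit 4656, nat_lit 2712, nat_lit 3684, nat_lit 3036, nat_lit 3252, nat_lit 3180, nat_lit 3216, nat_lit 3192, nat_lit 3204, nat_lit 3196] (nat_lit 0) [nat_lit 1012] false]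

noncomputable def sp9 : List Spec :=
  [Spec.mk (nat_lit 3204) (nat_lit 0) [nat_lit 1746, nat_lit 4662, nat_lit 2718, nat_lit 3690, nat_lit 3042, nat_lit 3258, nat_lit 3222, nat_lit 3198] (nat_lit 0) [nat_lit 1018] false,
   Spec.mk (nat_lit 3214) (nat_lit 0) [nat_lit 1756, nat_lit 4672, nat_lit 2728, nat_lit 3700, nat_lit 3052, nat_lit 3268, nat_lit 3196, nat_lit 3216] (nat_lit 1) [nat_lit 5400, nat_lit 1028] false,
   Spec.mk (nat_lit 3216) (nat_lit 0) [nat_lit 1758, nat_lit 4674, nat_lit 2730, nat_lit 3702, nat_lit 3054, nat_lit 3270, nat_lit 3198, nat_lit 3222, nat_lit 3214] (nat_lit 2) [nat_lit 1030] false,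
   Spec.mk (nat_lit 3222) (nat_lit 0) [nat_lit 1764, nat_lit 4680, nat_lit 2736, nat_lit 3708, nat_lit 3060, nat_lit 3276, nat_lit 3204, nat_lit 3216] (nat_lit 0) [nat_lit 1036] false,
   Spec.mk (nat_lit 3242) (nat_lit 1) [nat_lit 1784, nat_lit 4700, nat_lit 2756, nat_lit 3728, nat_lit 3080, nat_lit 3404, nat_lit 3188, nat_lit 3244] (nat_lit 0) [nat_lit 5428] false,
   Spec.mk (nat_lit 3244) (nat_lit 1) [nat_lit 1786, nat_lit 4702, nat_lit 2758, nat_lit 3730, nat_lit 3082, nat_lit 3406, nat_lit 3190, nat_lit 3250, nat_lit 3242, nat_lit 3246] (nat_lit 0) [nat_lit 5430, nat_lit 1058] false,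
   Spec.mk (nat_lit 3246) (nat_lit 0) [nat_lit 1788, nat_lit 4704, nat_lit 2760, nat_lit 3732, nat_lit 3084, nat_lit 3408, nat_lit 3192, nat_lit 3252, nat_lit 3244] (nat_lit 1) [nat_lit 1060] false,
   Spec.mk (nat_lit 3250) (nat_lit 0) [nat_lit 1792, nat_lit 4708, nat_lit 2764, nat_lit 3736, nat_lit 3088, nat_lit 3412, nat_lit 3196, nat_lit 3268, nat_lit 3244, nat_lit 3252] (nat_lit 0) [nat_lit 5436, nat_lit 1064] false,
   Spec.mk (nat_lit 3252) (nat_lit 0) [nat_lit 1794, nat_lit 4710, nat_lit 2766, nat_lit 3738, nat_lit 3090, nat_lit 3414, nat_lit 3198, nat_lit 3270, nat_lit 3246, nat_lit 3258, nat_lit 3250] (nat_lit 0) [nat_lit 1066] false,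
   Spec.mk (nat_lit 3258) (nat_lit 0) [nat_lit 1800, nat_lit 4716, nat_lit 2772, nat_lit 3744, nat_lit 3096, nat_lit 3420, nat_lit 3204, nat_lit 3276, nat_lit 3252] (nat_lit 1) [nat_lit 1072] false,
   Spec.mk (nat_lit 3268) (nat_lit 1) [nat_lit 1810, nat_lit 4726, nat_lit 2782, nat_lit 3754, nat_lit 3106, nat_lit 3430, nat_lit 3214, nat_lit 3322, nat_lit 3250, nat_lit 3270] (nat_lit 0) [nat_lit 5454, nat_lit 1082] false,
   Spec.mk (nat_lit 3270) (nat_lit 0) [nat_lit 1812, nat_lit 4728, nat_lit 2784, nat_lit 3756, nat_lit 3108, nat_lit 3432, nat_lit 3216, nat_lit 3324, nat_lit 3252, nat_lit 3276, nat_lit 3268] (nat_lit 0) [nat_lit 1084] false,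
   Spec.mk (nat_lit 3276) (nat_lit 1) [nat_lit 1818, nat_lit 4734, nat_lit 2790, nat_lit 3762, nat_lit 3114, nat_lit 3438, nat_lit 3222, nat_lit 3330, nat_lit 3258, nat_lit 3294, nat_lit 3270] (nat_lit 0) [nat_lit 1090] false,
   Spec.mk (nat_lit 3294) (nat_lit 1) [nat_lit 1836, nat_lit 4752, nat_lit 2808, nat_lit 3780, nat_lit 3132, nat_lit 3456, nat_lit 3348, nat_lit 3276] (nat_lit 0) [nat_lit 1108] false,
   Spec.mk (nat_lit 3322) (nat_lit 1) [nat_lit 1864, nat_lit 4780, nat_lit 2836, nat_lit 3808, nat_lit 3484, nat_lit 3268, nat_lit 3324] (nat_lit 0) [nat_lit 5508, nat_lit 1136] false,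
   Spec.mk (nat_lit 3324) (nat_lit 0) [nat_lit 1866, nat_lit 4782, nat_lit 2838, nat_lit 3810, nat_lit 3486, nat_lit 3270, nat_lit 3330, nat_lit 3322] (nat_lit 0) [nat_lit 1138] false,
   Spec.mk (nat_lit 3330) (nat_lit 0) [nat_lit 1872, nat_lit 4788, nat_lit 2844, nat_lit 3816, nat_lit 3492, nat_lit 3276, nat_lit 3348, nat_lit 3324] (nat_lit 0) [nat_lit 1144] false,
   Spec.mk (nat_lit 3348) (nat_lit 2) [nat_lit 1890, nat_lit 4806, nat_lit 2862, nat_lit 3834, nat_lit 3510, nat_lit 3294, nat_lit 3330] (nat_lit 0) [nat_lit 1162] false,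
   Spec.mk (nat_lit 3404) (nat_lit 1) [nat_lit 1946, nat_lit 4862, nat_lit 3890, nat_lit 3242, nat_lit 3406] (nat_lit 0) [nat_lit 5590] false,
   Spec.mk (nat_lit 3406) (nat_lit 1) [nat_lit 1948, nat_lit 4864, nat_lit 3892, nat_lit 3244, nat_lit 3412, nat_lit 3404, nat_lit 3408] (nat_lit 0) [nat_lit 5592, nat_lit 1220] false,
   Spec.mk (nat_lit 3408) (nat_lit 0) [nat_lit 1950, nat_lit 4866, nat_lit 3894, nat_lit 3246, nat_lit 3414, nat_lit 3406] (nat_lit 1) [nat_lit 1222] false,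
   Spec.mk (nat_lit 3412) (nat_lit 0) [nat_lit 1954, nat_lit 4870, nat_lit 3898, nat_lit 3250, nat_lit 3430, nat_lit 3406, nat_lit 3414] (nat_lit 0) [nat_lit 5598, nat_lit 1226] false,
   Spec.mk (nat_lit 3414) (nat_lit 0) [nat_lit 1956, nat_lit 4872, nat_lit 3900, nat_lit 3252, nat_lit 3432, nat_lit 3408, nat_lit 3420, nat_lit 3412] (nat_lit 0) [nat_lit 1228] false,
   Spec.mk (nat_lit 3420) (nat_lit 0) [nat_lit 1962, nat_lit 4878, nat_lit 3906, nat_lit 3258, nat_lit 3438, nat_lit 3414] (nat_lit 1) [nat_lit 1234] false,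
   Spec.mk (nat_lit 3430) (nat_lit 0) [nat_lit 1972, nat_lit 4888, nat_lit 3916, nat_lit 3268, nat_lit 3484, nat_lit 3412, nat_lit 3432] (nat_lit 0) [nat_lit 5616, nat_lit 1244] false,
   Spec.mk (nat_lit 3432) (nat_lit 0) [nat_lit 1974, nat_lit 4890, nat_lit 3918, nat_lit 3270, nat_lit 3486, nat_lit 3414, nat_lit 3438, nat_lit 3430] (nat_lit 1) [nat_lit 1246] false,
   Spec.mk (nat_lit 3438) (nat_lit 0) [nat_lit 1980, nat_lit 4896, nat_lit 3924, nat_lit 3276, nat_lit 3492, nat_lit 3420, nat_lit 3456, nat_lit 3432] (nat_lit 0) [nat_lit 1252] false,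
   Spec.mk (nat_lit 3456) (nat_lit 0) [nat_lit 1998, nat_lit 4914, nat_lit 3942, nat_lit 3294, nat_lit 3510, nat_lit 3438] (nat_lit 1) [nat_lit 1270] false,
   Spec.mk (nat_lit 3484) (nat_lit 2) [nat_lit 2026, nat_lit 4942, nat_lit 3970, nat_lit 3322, nat_lit 3430, nat_lit 3486] (nat_lit 0) [nat_lit 5670, nat_lit 1298] false,
   Spec.mk (nat_lit 3486) (nat_lit 1) [nat_lit 2028, nat_lit 4944, nat_lit 3972, nat_lit 3324, nat_lit 3432, nat_lit 3492, nat_lit 3484] (nat_lit 0) [nat_lit 1300] false,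
   Spec.mk (nat_lit 3492) (nat_lit 1) [nat_lit 2034, nat_lit 4950, nat_lit 3978, nat_lit 3330, nat_lit 3438, nat_lit 3510, nat_lit 3486] (nat_lit 0) [nat_lit 1306] false,
   Spec.mk (nat_lit 3510) (nat_lit 2) [nat_lit 2052, nat_lit 4968, nat_lit 3996, nat_lit 3348, nat_lit 3456, nat_lit 3564, nat_lit 3492] (nat_lit 0) [nat_lit 1324] false,
   Spec.mk (nat_lit 3564) (nat_lit 3) [nat_lit 2106, nat_lit 5022, nat_lit 4050, nat_lit 3510] (nat_lit 0) [nat_lit 1378] false,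
   Spec.mk (nat_lit 3650) (nat_lit 2) [nat_lit 5108, nat_lit 3164, nat_lit 3656, nat_lit 3652] (nat_lit 0) [nat_lit 5836] false,
   Spec.mk (nat_lit 3652) (nat_lit 1) [nat_lit 5110, nat_lit 3166, nat_lit 3658, nat_lit 3650] (nat_lit 0) [nat_lit 5838, nat_lit 1466] false,
   Spec.mk (nat_lit 3656) (nat_lit 0) [nat_lit 5114, nat_lit 3170, nat_lit 3674, nat_lit 3650, nat_lit 3658] (nat_lit 0) [nat_lit 5842] false,
   Spec.mk (nat_lit 3658) (nat_lit 1) [nat_lit 5116, nat_lit 3172, nat_lit 3676, nat_lit 3652, nat_lit 3664, nat_lit 3656, nat_lit 3660] (nat_lit 0) [nat_lit 5844, nat_lit 1472] false,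
   Spec.mk (nat_lit 3660) (nat_lit 0) [nat_lit 5118, nat_lit 3174, nat_lit 3678, nat_lit 3666, nat_lit 3658] (nat_lit 0) [nat_lit 1474] false,
   Spec.mk (nat_lit 3664) (nat_lit 0) [nat_lit 5122, nat_lit 3178, nat_lit 3682, nat_lit 3658, nat_lit 3666] (nat_lit 1) [nat_lit 5850, nat_lit 1478] false,
   Spec.mk (nat_lit 3666) (nat_lit 0) [nat_lit 5124, nat_lit 3180, nat_lit 3684, nat_lit 3660, nat_lit 3664] (nat_lit 0) [nat_lit 1480] false,
   Spec.mk (nat_lit 3674) (nat_lit 0) [nat_lit 5132, nat_lit 3188, nat_lit 3728, nat_lit 3656, nat_lit 3676] (nat_lit 0) [nat_lit 5860] false,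
   Spec.mk (nat_lit 3676) (nat_lit 0) [nat_lit 5134, nat_lit 3190, nat_lit 3730, nat_lit 3658, nat_lit 3682, nat_lit 3674, nat_lit 3678] (nat_lit 0) [nat_lit 5862, nat_lit 1490] false,
   Spec.mk (nat_lit 3678) (nat_lit 0) [nat_lit 5136, nat_lit 3192, nat_lit 3732, nat_lit 3660, nat_lit 3684, nat_lit 3676] (nat_lit 2) [nat_lit 1492] false,
   Spec.mk (nat_lit 3682) (nat_lit 0) [nat_lit 5140, nat_lit 3196, nat_lit 3736, nat_lit 3664, nat_lit 3700, nat_lit 3676, nat_lit 3684] (nat_lit 0) [nat_lit 5868, nat_lit 1496] false,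
   Spec.mk (nat_lit 3684) (nat_lit 0) [nat_lit 5142, nat_lit 3198, nat_lit 3738, nat_lit 3666, nat_lit 3702, nat_lit 3678, nat_lit 3690, nat_lit 3682] (nat_lit 0) [nat_lit 1498] false,
   Spec.mk (nat_lit 3690) (nat_lit 0) [nat_lit 5148, nat_lit 3204, nat_lit 3744, nat_lit 3708, nat_lit 3684] (nat_lit 0) [nat_lit 1504] false,
   Spec.mk (nat_lit 3700) (nat_lit 0) [nat_lit 5158, nat_lit 3214, nat_lit 3754, nat_lit 3682, nat_lit 3702] (nat_lit 1) [nat_lit 5886, nat_lit 1514] false,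
   Spec.mk (nat_lit 3702) (nat_lit 0) [nat_lit 5160, nat_lit 3216, nat_lit 3756, nat_lit 3684, nat_lit 3708, nat_lit 3700] (nat_lit 2) [nat_lit 1516] false,
   Spec.mk (nat_lit 3708) (nat_lit 0) [nat_lit 5166, nat_lit 3222, nat_lit 3762, nat_lit 3690, nat_lit 3702] (nat_lit 0) [nat_lit 1522] false,
   Spec.mk (nat_lit 3728) (nat_lit 0) [nat_lit 5186, nat_lit 3242, nat_lit 3890, nat_lit 3674, nat_lit 3730] (nat_lit 0) [nat_lit 5914] false,
   Spec.mk (nat_lit 3730) (nat_lit 0) [nat_lit 5188, nat_lit 3244, nat_lit 3892, nat_lit 3676, nat_lit 3736, nat_lit 3728, nat_lit 3732] (nat_lit 0) [nat_lit 5916, nat_lit 1544] false,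
   Spec.mk (nat_lit 3732) (nat_lit 0) [nat_lit 5190, nat_lit 3246, nat_lit 3894, nat_lit 3678, nat_lit 3738, nat_lit 3730] (nat_lit 2) [nat_lit 1546] false,
   Spec.mk (nat_lit 3736) (nat_lit 0) [nat_lit 5194, nat_lit 3250, nat_lit 3898, nat_lit 3682, nat_lit 3754, nat_lit 3730, nat_lit 3738] (nat_lit 1) [nat_lit 5922, nat_lit 1550] false,
   Spec.mk (nat_lit 3738) (nat_lit 0) [nat_lit 5196, nat_lit 3252, nat_lit 3900, nat_lit 3684, nat_lit 3756, nat_lit 3732, nat_lit 3744, nat_lit 3736] (nat_lit 1) [nat_lit 1552] false,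
   Spec.mk (nat_lit 3744) (nat_lit 0) [nat_lit 5202, nat_lit 3258, nat_lit 3906, nat_lit 3690, nat_lit 3762, nat_lit 3738] (nat_lit 2) [nat_lit 1558] false,
   Spec.mk (nat_lit 3754) (nat_lit 0) [nat_lit 5212, nat_lit 3268, nat_lit 3916, nat_lit 3700, nat_lit 3808, nat_lit 3736, nat_lit 3756] (nat_lit 0) [nat_lit 5940, nat_lit 1568] false,
   Spec.mk (nat_lit 3756) (nat_lit 0) [nat_lit 5214, nat_lit 3270, nat_lit 3918, nat_lit 3702, nat_lit 3810, nat_lit 3738, nat_lit 3762, nat_lit 3754] (nat_lit 1) [nat_lit 1570] false,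
   Spec.mk (nat_lit 3762) (nat_lit 0) [nat_lit 5220, nat_lit 3276, nat_lit 3924, nat_lit 3708, nat_lit 3816, nat_lit 3744, nat_lit 3780, nat_lit 3756] (nat_lit 0) [nat_lit 1576] false,
   Spec.mk (nat_lit 3780) (nat_lit 0) [nat_lit 5238, nat_lit 3294, nat_lit 3942, nat_lit 3834, nat_lit 3762] (nat_lit 0) [nat_lit 1594] false,
   Spec.mk (nat_lit 3808) (nat_lit 0) [nat_lit 5266, nat_lit 3322, nat_lit 3970, nat_lit 3754, nat_lit 3810] (nat_lit 1) [nat_lit 5994, nat_lit 1622] false]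

noncomputable def sp10 : List Spec :=
  [Spec.mk (nat_lit 3810) (nat_lit 0) [nat_lit 5268, nat_lit 3324, nat_lit 3972, nat_lit 3756, nat_lit 3816, nat_lit 3808] (nat_lit 2) [nat_lit 1624] false,
   Spec.mk (nat_lit 3816) (nat_lit 0) [nat_lit 5274, nat_lit 3330, nat_lit 3978, nat_lit 3762, nat_lit 3834, nat_lit 3810] (nat_lit 2) [nat_lit 1630] false,
   Spec.mk (nat_lit 3834) (nat_lit 0) [nat_lit 5292, nat_lit 3348, nat_lit 3996, nat_lit 3780, nat_lit 3816] (nat_lit 0) [nat_lit 1648] false,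
   Spec.mk (nat_lit 3890) (nat_lit 2) [nat_lit 5348, nat_lit 3404, nat_lit 3728, nat_lit 3892] (nat_lit 0) [nat_lit 6076] false,
   Spec.mk (nat_lit 3892) (nat_lit 2) [nat_lit 5350, nat_lit 3406, nat_lit 3730, nat_lit 3898, nat_lit 3890, nat_lit 3894] (nat_lit 0) [nat_lit 6078, nat_lit 1706] false,
   Spec.mk (nat_lit 3894) (nat_lit 0) [nat_lit 5352, nat_lit 3408, nat_lit 3732, nat_lit 3900, nat_lit 3892] (nat_lit 0) [nat_lit 1708] false,
   Spec.mk (nat_lit 3898) (nat_lit 1) [nat_lit 5356, nat_lit 3412, nat_lit 3736, nat_lit 3916, nat_lit 3892, nat_lit 3900] (nat_lit 0) [nat_lit 6084, nat_lit 1712] false,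
   Spec.mk (nat_lit 3900) (nat_lit 1) [nat_lit 5358, nat_lit 3414, nat_lit 3738, nat_lit 3918, nat_lit 3894, nat_lit 3906, nat_lit 3898] (nat_lit 0) [nat_lit 1714] false,
   Spec.mk (nat_lit 3906) (nat_lit 0) [nat_lit 5364, nat_lit 3420, nat_lit 3744, nat_lit 3924, nat_lit 3900] (nat_lit 0) [nat_lit 1720] false,
   Spec.mk (nat_lit 3916) (nat_lit 1) [nat_lit 5374, nat_lit 3430, nat_lit 3754, nat_lit 3970, nat_lit 3898, nat_lit 3918] (nat_lit 0) [nat_lit 6102, nat_lit 1730] false,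
   Spec.mk (nat_lit 3918) (nat_lit 0) [nat_lit 5376, nat_lit 3432, nat_lit 3756, nat_lit 3972, nat_lit 3900, nat_lit 3924, nat_lit 3916] (nat_lit 0) [nat_lit 1732] false,
   Spec.mk (nat_lit 3924) (nat_lit 1) [nat_lit 5382, nat_lit 3438, nat_lit 3762, nat_lit 3978, nat_lit 3906, nat_lit 3942, nat_lit 3918] (nat_lit 0) [nat_lit 1738] false,
   Spec.mk (nat_lit 3942) (nat_lit 0) [nat_lit 5400, nat_lit 3456, nat_lit 3780, nat_lit 3996, nat_lit 3924] (nat_lit 0) [nat_lit 1756] false,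
   Spec.mk (nat_lit 3970) (nat_lit 2) [nat_lit 5428, nat_lit 3484, nat_lit 3808, nat_lit 4132, nat_lit 3916, nat_lit 3972] (nat_lit 0) [nat_lit 6156, nat_lit 1784] false,
   Spec.mk (nat_lit 3972) (nat_lit 1) [nat_lit 5430, nat_lit 3486, nat_lit 3810, nat_lit 4134, nat_lit 3918, nat_lit 3978, nat_lit 3970] (nat_lit 0) [nat_lit 1786] false,
   Spec.mk (nat_lit 3978) (nat_lit 1) [nat_lit 5436, nat_lit 3492, nat_lit 3816, nat_lit 4140, nat_lit 3924, nat_lit 3996, nat_lit 3972] (nat_lit 0) [nat_lit 1792] false,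
   Spec.mk (nat_lit 3996) (nat_lit 2) [nat_lit 5454, nat_lit 3510, nat_lit 3834, nat_lit 4158, nat_lit 3942, nat_lit 4050, nat_lit 3978] (nat_lit 0) [nat_lit 1810] false,
   Spec.mk (nat_lit 4050) (nat_lit 2) [nat_lit 5508, nat_lit 3564, nat_lit 4212, nat_lit 3996] (nat_lit 0) [nat_lit 1864] false,
   Spec.mk (nat_lit 4132) (nat_lit 3) [nat_lit 5590, nat_lit 3970, nat_lit 4134] (nat_lit 0) [nat_lit 6318, nat_lit 1946] false,
   Spec.mk (nat_lit 4134) (nat_lit 2) [nat_lit 5592, nat_lit 3972, nat_lit 4140, nat_lit 4132] (nat_lit 0) [nat_lit 1948] false,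
   Spec.mk (nat_lit 4140) (nat_lit 2) [nat_lit 5598, nat_lit 3978, nat_lit 4158, nat_lit 4134] (nat_lit 0) [nat_lit 1954] false,
   Spec.mk (nat_lit 4158) (nat_lit 2) [nat_lit 5616, nat_lit 3996, nat_lit 4212, nat_lit 4140] (nat_lit 0) [nat_lit 1972] false,
   Spec.mk (nat_lit 4212) (nat_lit 4) [nat_lit 5670, nat_lit 4050, nat_lit 4158] (nat_lit 0) [nat_lit 2026] false,
   Spec.mk (nat_lit 4382) (nat_lit 4) [nat_lit 2924, nat_lit 4388] (nat_lit 0) [] false,
   Spec.mk (nat_lit 4388) (nat_lit 3) [nat_lit 2930, nat_lit 4406, nat_lit 4382, nat_lit 4394, nat_lit 4390] (nat_lit 0) [] false,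
   Spec.mk (nat_lit 4390) (nat_lit 2) [nat_lit 2932, nat_lit 4408, nat_lit 4396, nat_lit 4388] (nat_lit 0) [nat_lit 2204] false,
   Spec.mk (nat_lit 4394) (nat_lit 0) [nat_lit 2936, nat_lit 4412, nat_lit 4388, nat_lit 4396] (nat_lit 0) [] false,
   Spec.mk (nat_lit 4396) (nat_lit 1) [nat_lit 2938, nat_lit 4414, nat_lit 4390, nat_lit 4394, nat_lit 4398] (nat_lit 0) [nat_lit 2210] false,
   Spec.mk (nat_lit 4398) (nat_lit 0) [nat_lit 2940, nat_lit 4416, nat_lit 4396] (nat_lit 0) [nat_lit 2212] false,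
   Spec.mk (nat_lit 4406) (nat_lit 2) [nat_lit 2948, nat_lit 4460, nat_lit 4388, nat_lit 4412, nat_lit 4408] (nat_lit 0) [] false,
   Spec.mk (nat_lit 4408) (nat_lit 0) [nat_lit 2950, nat_lit 4462, nat_lit 4390, nat_lit 4414, nat_lit 4406] (nat_lit 0) [nat_lit 2222] false,
   Spec.mk (nat_lit 4412) (nat_lit 1) [nat_lit 2954, nat_lit 4466, nat_lit 4394, nat_lit 4430, nat_lit 4406, nat_lit 4414] (nat_lit 0) [] false,
   Spec.mk (nat_lit 4414) (nat_lit 1) [nat_lit 2956, nat_lit 4468, nat_lit 4396, nat_lit 4432, nat_lit 4408, nat_lit 4420, nat_lit 4412, nat_lit 4416] (nat_lit 0) [nat_lit 2228] false,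
   Spec.mk (nat_lit 4416) (nat_lit 0) [nat_lit 2958, nat_lit 4470, nat_lit 4398, nat_lit 4434, nat_lit 4422, nat_lit 4414] (nat_lit 1) [nat_lit 2230] false,
   Spec.mk (nat_lit 4420) (nat_lit 0) [nat_lit 2962, nat_lit 4474, nat_lit 4438, nat_lit 4414, nat_lit 4422] (nat_lit 0) [nat_lit 2234] false,
   Spec.mk (nat_lit 4422) (nat_lit 0) [nat_lit 2964, nat_lit 4476, nat_lit 4440, nat_lit 4416, nat_lit 4420] (nat_lit 0) [nat_lit 2236] false,
   Spec.mk (nat_lit 4430) (nat_lit 0) [nat_lit 2972, nat_lit 4484, nat_lit 4412, nat_lit 4432] (nat_lit 0) [] false,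
   Spec.mk (nat_lit 4432) (nat_lit 0) [nat_lit 2974, nat_lit 4486, nat_lit 4414, nat_lit 4438, nat_lit 4430, nat_lit 4434] (nat_lit 1) [nat_lit 2246] false,
   Spec.mk (nat_lit 4434) (nat_lit 0) [nat_lit 2976, nat_lit 4488, nat_lit 4416, nat_lit 4440, nat_lit 4432] (nat_lit 4) [nat_lit 2248] false,
   Spec.mk (nat_lit 4438) (nat_lit 0) [nat_lit 2980, nat_lit 4492, nat_lit 4420, nat_lit 4432, nat_lit 4440] (nat_lit 0) [nat_lit 2252] false,
   Spec.mk (nat_lit 4440) (nat_lit 0) [nat_lit 2982, nat_lit 4494, nat_lit 4422, nat_lit 4434, nat_lit 4446, nat_lit 4438] (nat_lit 1) [nat_lit 2254] false,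
   Spec.mk (nat_lit 4446) (nat_lit 0) [nat_lit 2988, nat_lit 4500, nat_lit 4440] (nat_lit 0) [nat_lit 2260] false,
   Spec.mk (nat_lit 4460) (nat_lit 2) [nat_lit 3002, nat_lit 4622, nat_lit 4406, nat_lit 4466, nat_lit 4462] (nat_lit 0) [] false,
   Spec.mk (nat_lit 4462) (nat_lit 0) [nat_lit 3004, nat_lit 4624, nat_lit 4408, nat_lit 4468, nat_lit 4460] (nat_lit 0) [nat_lit 2276] false,
   Spec.mk (nat_lit 4466) (nat_lit 0) [nat_lit 3008, nat_lit 4628, nat_lit 4412, nat_lit 4484, nat_lit 4460, nat_lit 4468] (nat_lit 0) [] false,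
   Spec.mk (nat_lit 4468) (nat_lit 0) [nat_lit 3010, nat_lit 4630, nat_lit 4414, nat_lit 4486, nat_lit 4462, nat_lit 4474, nat_lit 4466, nat_lit 4470] (nat_lit 0) [nat_lit 2282] false,
   Spec.mk (nat_lit 4470) (nat_lit 0) [nat_lit 3012, nat_lit 4632, nat_lit 4416, nat_lit 4488, nat_lit 4476, nat_lit 4468] (nat_lit 2) [nat_lit 2284] false,
   Spec.mk (nat_lit 4474) (nat_lit 0) [nat_lit 3016, nat_lit 4636, nat_lit 4420, nat_lit 4492, nat_lit 4468, nat_lit 4476] (nat_lit 2) [nat_lit 2288] false,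
   Spec.mk (nat_lit 4476) (nat_lit 0) [nat_lit 3018, nat_lit 4638, nat_lit 4422, nat_lit 4494, nat_lit 4470, nat_lit 4474] (nat_lit 2) [nat_lit 2290] false,
   Spec.mk (nat_lit 4484) (nat_lit 1) [nat_lit 3026, nat_lit 4646, nat_lit 4430, nat_lit 4538, nat_lit 4466, nat_lit 4486] (nat_lit 0) [] false,
   Spec.mk (nat_lit 4486) (nat_lit 0) [nat_lit 3028, nat_lit 4648, nat_lit 4432, nat_lit 4540, nat_lit 4468, nat_lit 4492, nat_lit 4484, nat_lit 4488] (nat_lit 0) [nat_lit 2300] false,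
   Spec.mk (nat_lit 4488) (nat_lit 0) [nat_lit 3030, nat_lit 4650, nat_lit 4434, nat_lit 4542, nat_lit 4470, nat_lit 4494, nat_lit 4486] (nat_lit 3) [nat_lit 2302] false,
   Spec.mk (nat_lit 4492) (nat_lit 0) [nat_lit 3034, nat_lit 4654, nat_lit 4438, nat_lit 4546, nat_lit 4474, nat_lit 4510, nat_lit 4486, nat_lit 4494] (nat_lit 0) [nat_lit 2306] false,
   Spec.mk (nat_lit 4494) (nat_lit 0) [nat_lit 3036, nat_lit 4656, nat_lit 4440, nat_lit 4548, nat_lit 4476, nat_lit 4512, nat_lit 4488, nat_lit 4500, nat_lit 4492] (nat_lit 1) [nat_lit 2308] false,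
   Spec.mk (nat_lit 4500) (nat_lit 0) [nat_lit 3042, nat_lit 4662, nat_lit 4446, nat_lit 4554, nat_lit 4518, nat_lit 4494] (nat_lit 1) [nat_lit 2314] false,
   Spec.mk (nat_lit 4510) (nat_lit 0) [nat_lit 3052, nat_lit 4672, nat_lit 4564, nat_lit 4492, nat_lit 4512] (nat_lit 0) [nat_lit 2324] false,
   Spec.mk (nat_lit 4512) (nat_lit 0) [nat_lit 3054, nat_lit 4674, nat_lit 4566, nat_lit 4494, nat_lit 4518, nat_lit 4510] (nat_lit 2) [nat_lit 2326] false,
   Spec.mk (nat_lit 4518) (nat_lit 0) [nat_lit 3060, nat_lit 4680, nat_lit 4572, nat_lit 4500, nat_lit 4512] (nat_lit 0) [nat_lit 2332] false,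
   Spec.mk (nat_lit 4538) (nat_lit 0) [nat_lit 3080, nat_lit 4700, nat_lit 4484, nat_lit 4540] (nat_lit 0) [] false,
   Spec.mk (nat_lit 4540) (nat_lit 0) [nat_lit 3082, nat_lit 4702, nat_lit 4486, nat_lit 4546, nat_lit 4538, nat_lit 4542] (nat_lit 1) [nat_lit 2354] false]

noncomputable def sp11 : List Spec :=
  [Spec.mk (nat_lit 4542) (nat_lit 0) [nat_lit 3084, nat_lit 4704, nat_lit 4488, nat_lit 4548, nat_lit 4540] (nat_lit 4) [nat_lit 2356] false,
   Spec.mk (nat_lit 4546) (nat_lit 0) [nat_lit 3088, nat_lit 4708, nat_lit 4492, nat_lit 4564, nat_lit 4540, nat_lit 4548] (nat_lit 2) [nat_lit 2360] false,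
   Spec.mk (nat_lit 4548) (nat_lit 0) [nat_lit 3090, nat_lit 4710, nat_lit 4494, nat_lit 4566, nat_lit 4542, nat_lit 4554, nat_lit 4546] (nat_lit 3) [nat_lit 2362] false,
   Spec.mk (nat_lit 4554) (nat_lit 0) [nat_lit 3096, nat_lit 4716, nat_lit 4500, nat_lit 4572, nat_lit 4548] (nat_lit 4) [nat_lit 2368] false,
   Spec.mk (nat_lit 4564) (nat_lit 0) [nat_lit 3106, nat_lit 4726, nat_lit 4510, nat_lit 4546, nat_lit 4566] (nat_lit 0) [nat_lit 2378] false,
   Spec.mk (nat_lit 4566) (nat_lit 0) [nat_lit 3108, nat_lit 4728, nat_lit 4512, nat_lit 4548, nat_lit 4572, nat_lit 4564] (nat_lit 2) [nat_lit 2380] false,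
   Spec.mk (nat_lit 4572) (nat_lit 0) [nat_lit 3114, nat_lit 4734, nat_lit 4518, nat_lit 4554, nat_lit 4590, nat_lit 4566] (nat_lit 1) [nat_lit 2386] false,
   Spec.mk (nat_lit 4590) (nat_lit 0) [nat_lit 3132, nat_lit 4752, nat_lit 4572] (nat_lit 0) [nat_lit 2404] false,
   Spec.mk (nat_lit 4622) (nat_lit 2) [nat_lit 3164, nat_lit 5108, nat_lit 4460, nat_lit 4628, nat_lit 4624] (nat_lit 0) [] false,
   Spec.mk (nat_lit 4624) (nat_lit 0) [nat_lit 3166, nat_lit 5110, nat_lit 4462, nat_lit 4630, nat_lit 4622] (nat_lit 0) [nat_lit 2438] false,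
   Spec.mk (nat_lit 4628) (nat_lit 0) [nat_lit 3170, nat_lit 5114, nat_lit 4466, nat_lit 4646, nat_lit 4622, nat_lit 4630] (nat_lit 0) [] false,
   Spec.mk (nat_lit 4630) (nat_lit 0) [nat_lit 3172, nat_lit 5116, nat_lit 4468, nat_lit 4648, nat_lit 4624, nat_lit 4636, nat_lit 4628, nat_lit 4632] (nat_lit 0) [nat_lit 2444] false,
   Spec.mk (nat_lit 4632) (nat_lit 0) [nat_lit 3174, nat_lit 5118, nat_lit 4470, nat_lit 4650, nat_lit 4638, nat_lit 4630] (nat_lit 2) [nat_lit 2446] false,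
   Spec.mk (nat_lit 4636) (nat_lit 0) [nat_lit 3178, nat_lit 5122, nat_lit 4474, nat_lit 4654, nat_lit 4630, nat_lit 4638] (nat_lit 2) [nat_lit 2450] false,
   Spec.mk (nat_lit 4638) (nat_lit 0) [nat_lit 3180, nat_lit 5124, nat_lit 4476, nat_lit 4656, nat_lit 4632, nat_lit 4636] (nat_lit 2) [nat_lit 2452] false,
   Spec.mk (nat_lit 4646) (nat_lit 0) [nat_lit 3188, nat_lit 5132, nat_lit 4484, nat_lit 4700, nat_lit 4628, nat_lit 4648] (nat_lit 0) [] false,
   Spec.mk (nat_lit 4648) (nat_lit 0) [nat_lit 3190, nat_lit 5134, nat_lit 4486, nat_lit 4702, nat_lit 4630, nat_lit 4654, nat_lit 4646, nat_lit 4650] (nat_lit 1) [nat_lit 2462] false,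
   Spec.mk (nat_lit 4650) (nat_lit 0) [nat_lit 3192, nat_lit 5136, nat_lit 4488, nat_lit 4704, nat_lit 4632, nat_lit 4656, nat_lit 4648] (nat_lit 4) [nat_lit 2464] false,
   Spec.mk (nat_lit 4654) (nat_lit 0) [nat_lit 3196, nat_lit 5140, nat_lit 4492, nat_lit 4708, nat_lit 4636, nat_lit 4672, nat_lit 4648, nat_lit 4656] (nat_lit 1) [nat_lit 2468] false,
   Spec.mk (nat_lit 4656) (nat_lit 0) [nat_lit 3198, nat_lit 5142, nat_lit 4494, nat_lit 4710, nat_lit 4638, nat_lit 4674, nat_lit 4650, nat_lit 4662, nat_lit 4654] (nat_lit 2) [nat_lit 2470] false,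
   Spec.mk (nat_lit 4662) (nat_lit 0) [nat_lit 3204, nat_lit 5148, nat_lit 4500, nat_lit 4716, nat_lit 4680, nat_lit 4656] (nat_lit 2) [nat_lit 2476] false,
   Spec.mk (nat_lit 4672) (nat_lit 0) [nat_lit 3214, nat_lit 5158, nat_lit 4510, nat_lit 4726, nat_lit 4654, nat_lit 4674] (nat_lit 2) [nat_lit 2486] false,
   Spec.mk (nat_lit 4674) (nat_lit 0) [nat_lit 3216, nat_lit 5160, nat_lit 4512, nat_lit 4728, nat_lit 4656, nat_lit 4680, nat_lit 4672] (nat_lit 4) [nat_lit 2488] false,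
   Spec.mk (nat_lit 4680) (nat_lit 0) [nat_lit 3222, nat_lit 5166, nat_lit 4518, nat_lit 4734, nat_lit 4662, nat_lit 4674] (nat_lit 2) [nat_lit 2494] false,
   Spec.mk (nat_lit 4700) (nat_lit 1) [nat_lit 3242, nat_lit 5186, nat_lit 4538, nat_lit 4862, nat_lit 4646, nat_lit 4702] (nat_lit 0) [] false,
   Spec.mk (nat_lit 4702) (nat_lit 0) [nat_lit 3244, nat_lit 5188, nat_lit 4540, nat_lit 4864, nat_lit 4648, nat_lit 4708, nat_lit 4700, nat_lit 4704] (nat_lit 0) [nat_lit 2516] false,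
   Spec.mk (nat_lit 4704) (nat_lit 0) [nat_lit 3246, nat_lit 5190, nat_lit 4542, nat_lit 4866, nat_lit 4650, nat_lit 4710, nat_lit 4702] (nat_lit 3) [nat_lit 2518] false,
   Spec.mk (nat_lit 4708) (nat_lit 0) [nat_lit 3250, nat_lit 5194, nat_lit 4546, nat_lit 4870, nat_lit 4654, nat_lit 4726, nat_lit 4702, nat_lit 4710] (nat_lit 1) [nat_lit 2522] false,
   Spec.mk (nat_lit 4710) (nat_lit 0) [nat_lit 3252, nat_lit 5196, nat_lit 4548, nat_lit 4872, nat_lit 4656, nat_lit 4728, nat_lit 4704, nat_lit 4716, nat_lit 4708] (nat_lit 2) [nat_lit 2524] false,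
   Spec.mk (nat_lit 4716) (nat_lit 0) [nat_lit 3258, nat_lit 5202, nat_lit 4554, nat_lit 4878, nat_lit 4662, nat_lit 4734, nat_lit 4710] (nat_lit 3) [nat_lit 2530] false,
   Spec.mk (nat_lit 4726) (nat_lit 0) [nat_lit 3268, nat_lit 5212, nat_lit 4564, nat_lit 4888, nat_lit 4672, nat_lit 4780, nat_lit 4708, nat_lit 4728] (nat_lit 0) [nat_lit 2540] false,
   Spec.mk (nat_lit 4728) (nat_lit 0) [nat_lit 3270, nat_lit 5214, nat_lit 4566, nat_lit 4890, nat_lit 4674, nat_lit 4782, nat_lit 4710, nat_lit 4734, nat_lit 4726] (nat_lit 2) [nat_lit 2542] false,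
   Spec.mk (nat_lit 4734) (nat_lit 0) [nat_lit 3276, nat_lit 5220, nat_lit 4572, nat_lit 4896, nat_lit 4680, nat_lit 4788, nat_lit 4716, nat_lit 4752, nat_lit 4728] (nat_lit 1) [nat_lit 2548] false,
   Spec.mk (nat_lit 4752) (nat_lit 0) [nat_lit 3294, nat_lit 5238, nat_lit 4590, nat_lit 4914, nat_lit 4806, nat_lit 4734] (nat_lit 1) [nat_lit 2566] false,
   Spec.mk (nat_lit 4780) (nat_lit 0) [nat_lit 3322, nat_lit 5266, nat_lit 4942, nat_lit 4726, nat_lit 4782] (nat_lit 0) [nat_lit 2594] false,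
   Spec.mk (nat_lit 4782) (nat_lit 0) [nat_lit 3324, nat_lit 5268, nat_lit 4944, nat_lit 4728, nat_lit 4788, nat_lit 4780] (nat_lit 2) [nat_lit 2596] false,
   Spec.mk (nat_lit 4788) (nat_lit 0) [nat_lit 3330, nat_lit 5274, nat_lit 4950, nat_lit 4734, nat_lit 4806, nat_lit 4782] (nat_lit 2) [nat_lit 2602] false,
   Spec.mk (nat_lit 4806) (nat_lit 0) [nat_lit 3348, nat_lit 5292, nat_lit 4968, nat_lit 4752, nat_lit 4788] (nat_lit 0) [nat_lit 2620] false,
   Spec.mk (nat_lit 4862) (nat_lit 0) [nat_lit 3404, nat_lit 5348, nat_lit 4700, nat_lit 4864] (nat_lit 0) [] false,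
   Spec.mk (nat_lit 4864) (nat_lit 0) [nat_lit 3406, nat_lit 5350, nat_lit 4702, nat_lit 4870, nat_lit 4862, nat_lit 4866] (nat_lit 1) [nat_lit 2678] false,
   Spec.mk (nat_lit 4866) (nat_lit 0) [nat_lit 3408, nat_lit 5352, nat_lit 4704, nat_lit 4872, nat_lit 4864] (nat_lit 4) [nat_lit 2680] false,
   Spec.mk (nat_lit 4870) (nat_lit 0) [nat_lit 3412, nat_lit 5356, nat_lit 4708, nat_lit 4888, nat_lit 4864, nat_lit 4872] (nat_lit 2) [nat_lit 2684] false,
   Spec.mk (nat_lit 4872) (nat_lit 0) [nat_lit 3414, nat_lit 5358, nat_lit 4710, nat_lit 4890, nat_lit 4866, nat_lit 4878, nat_lit 4870] (nat_lit 3) [nat_lit 2686] false,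
   Spec.mk (nat_lit 4878) (nat_lit 0) [nat_lit 3420, nat_lit 5364, nat_lit 4716, nat_lit 4896, nat_lit 4872] (nat_lit 4) [nat_lit 2692] false,
   Spec.mk (nat_lit 4888) (nat_lit 0) [nat_lit 3430, nat_lit 5374, nat_lit 4726, nat_lit 4942, nat_lit 4870, nat_lit 4890] (nat_lit 2) [nat_lit 2702] false,
   Spec.mk (nat_lit 4890) (nat_lit 0) [nat_lit 3432, nat_lit 5376, nat_lit 4728, nat_lit 4944, nat_lit 4872, nat_lit 4896, nat_lit 4888] (nat_lit 4) [nat_lit 2704] false,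
   Spec.mk (nat_lit 4896) (nat_lit 0) [nat_lit 3438, nat_lit 5382, nat_lit 4734, nat_lit 4950, nat_lit 4878, nat_lit 4914, nat_lit 4890] (nat_lit 3) [nat_lit 2710] false,
   Spec.mk (nat_lit 4914) (nat_lit 0) [nat_lit 3456, nat_lit 5400, nat_lit 4752, nat_lit 4968, nat_lit 4896] (nat_lit 4) [nat_lit 2728] false,
   Spec.mk (nat_lit 4942) (nat_lit 0) [nat_lit 3484, nat_lit 5428, nat_lit 4780, nat_lit 4888, nat_lit 4944] (nat_lit 0) [nat_lit 2756] false,
   Spec.mk (nat_lit 4944) (nat_lit 0) [nat_lit 3486, nat_lit 5430, nat_lit 4782, nat_lit 4890, nat_lit 4950, nat_lit 4942] (nat_lit 2) [nat_lit 2758] false,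
   Spec.mk (nat_lit 4950) (nat_lit 0) [nat_lit 3492, nat_lit 5436, nat_lit 4788, nat_lit 4896, nat_lit 4968, nat_lit 4944] (nat_lit 2) [nat_lit 2764] false,
   Spec.mk (nat_lit 4968) (nat_lit 0) [nat_lit 3510, nat_lit 5454, nat_lit 4806, nat_lit 4914, nat_lit 5022, nat_lit 4950] (nat_lit 1) [nat_lit 2782] false,
   Spec.mk (nat_lit 5022) (nat_lit 0) [nat_lit 3564, nat_lit 5508, nat_lit 4968] (nat_lit 0) [nat_lit 2836] false,
   Spec.mk (nat_lit 5108) (nat_lit 4) [nat_lit 3650, nat_lit 4622, nat_lit 5114, nat_lit 5110] (nat_lit 0) [] false,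
   Spec.mk (nat_lit 5110) (nat_lit 2) [nat_lit 3652, nat_lit 4624, nat_lit 5116, nat_lit 5108] (nat_lit 0) [nat_lit 2924] false,
   Spec.mk (nat_lit 5114) (nat_lit 2) [nat_lit 3656, nat_lit 4628, nat_lit 5132, nat_lit 5108, nat_lit 5116] (nat_lit 0) [] false,
   Spec.mk (nat_lit 5116) (nat_lit 2) [nat_lit 3658, nat_lit 4630, nat_lit 5134, nat_lit 5110, nat_lit 5122, nat_lit 5114, nat_lit 5118] (nat_lit 0) [nat_lit 2930] false,
   Spec.mk (nat_lit 5118) (nat_lit 0) [nat_lit 3660, nat_lit 4632, nat_lit 5136, nat_lit 5124, nat_lit 5116] (nat_lit 0) [nat_lit 2932] false,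
   Spec.mk (nat_lit 5122) (nat_lit 0) [nat_lit 3664, nat_lit 4636, nat_lit 5140, nat_lit 5116, nat_lit 5124] (nat_lit 0) [nat_lit 2936] false,
   Spec.mk (nat_lit 5124) (nat_lit 0) [nat_lit 3666, nat_lit 4638, nat_lit 5142, nat_lit 5118, nat_lit 5122] (nat_lit 0) [nat_lit 2938] false]

noncomputable def sp12 : List Spec :=
  [Spec.mk (nat_lit 5132) (nat_lit 2) [nat_lit 3674, nat_lit 4646, nat_lit 5186, nat_lit 5114, nat_lit 5134] (nat_lit 0) [] false,
   Spec.mk (nat_lit 5134) (nat_lit 1) [nat_lit 3676, nat_lit 4648, nat_lit 5188, nat_lit 5116, nat_lit 5140, nat_lit 5132, nat_lit 5136] (nat_lit 0) [nat_lit 2948] false,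
   Spec.mk (nat_lit 5136) (nat_lit 0) [nat_lit 3678, nat_lit 4650, nat_lit 5190, nat_lit 5118, nat_lit 5142, nat_lit 5134] (nat_lit 2) [nat_lit 2950] false,
   Spec.mk (nat_lit 5140) (nat_lit 1) [nat_lit 3682, nat_lit 4654, nat_lit 5194, nat_lit 5122, nat_lit 5158, nat_lit 5134, nat_lit 5142] (nat_lit 0) [nat_lit 2954] false,
   Spec.mk (nat_lit 5142) (nat_lit 0) [nat_lit 3684, nat_lit 4656, nat_lit 5196, nat_lit 5124, nat_lit 5160, nat_lit 5136, nat_lit 5148, nat_lit 5140] (nat_lit 0) [nat_lit 2956] false,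
   Spec.mk (nat_lit 5148) (nat_lit 0) [nat_lit 3690, nat_lit 4662, nat_lit 5202, nat_lit 5166, nat_lit 5142] (nat_lit 0) [nat_lit 2962] false,
   Spec.mk (nat_lit 5158) (nat_lit 0) [nat_lit 3700, nat_lit 4672, nat_lit 5212, nat_lit 5140, nat_lit 5160] (nat_lit 0) [nat_lit 2972] false,
   Spec.mk (nat_lit 5160) (nat_lit 0) [nat_lit 3702, nat_lit 4674, nat_lit 5214, nat_lit 5142, nat_lit 5166, nat_lit 5158] (nat_lit 2) [nat_lit 2974] false,
   Spec.mk (nat_lit 5166) (nat_lit 0) [nat_lit 3708, nat_lit 4680, nat_lit 5220, nat_lit 5148, nat_lit 5160] (nat_lit 0) [nat_lit 2980] false,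
   Spec.mk (nat_lit 5186) (nat_lit 2) [nat_lit 3728, nat_lit 4700, nat_lit 5348, nat_lit 5132, nat_lit 5188] (nat_lit 0) [] false,
   Spec.mk (nat_lit 5188) (nat_lit 1) [nat_lit 3730, nat_lit 4702, nat_lit 5350, nat_lit 5134, nat_lit 5194, nat_lit 5186, nat_lit 5190] (nat_lit 0) [nat_lit 3002] false,
   Spec.mk (nat_lit 5190) (nat_lit 0) [nat_lit 3732, nat_lit 4704, nat_lit 5352, nat_lit 5136, nat_lit 5196, nat_lit 5188] (nat_lit 2) [nat_lit 3004] false,
   Spec.mk (nat_lit 5194) (nat_lit 0) [nat_lit 3736, nat_lit 4708, nat_lit 5356, nat_lit 5140, nat_lit 5212, nat_lit 5188, nat_lit 5196] (nat_lit 0) [nat_lit 3008] false,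
   Spec.mk (nat_lit 5196) (nat_lit 0) [nat_lit 3738, nat_lit 4710, nat_lit 5358, nat_lit 5142, nat_lit 5214, nat_lit 5190, nat_lit 5202, nat_lit 5194] (nat_lit 1) [nat_lit 3010] false,
   Spec.mk (nat_lit 5202) (nat_lit 0) [nat_lit 3744, nat_lit 4716, nat_lit 5364, nat_lit 5148, nat_lit 5220, nat_lit 5196] (nat_lit 2) [nat_lit 3016] false,
   Spec.mk (nat_lit 5212) (nat_lit 1) [nat_lit 3754, nat_lit 4726, nat_lit 5374, nat_lit 5158, nat_lit 5266, nat_lit 5194, nat_lit 5214] (nat_lit 0) [nat_lit 3026] false,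
   Spec.mk (nat_lit 5214) (nat_lit 0) [nat_lit 3756, nat_lit 4728, nat_lit 5376, nat_lit 5160, nat_lit 5268, nat_lit 5196, nat_lit 5220, nat_lit 5212] (nat_lit 1) [nat_lit 3028] false,
   Spec.mk (nat_lit 5220) (nat_lit 0) [nat_lit 3762, nat_lit 4734, nat_lit 5382, nat_lit 5166, nat_lit 5274, nat_lit 5202, nat_lit 5238, nat_lit 5214] (nat_lit 0) [nat_lit 3034] false,
   Spec.mk (nat_lit 5238) (nat_lit 0) [nat_lit 3780, nat_lit 4752, nat_lit 5400, nat_lit 5292, nat_lit 5220] (nat_lit 0) [nat_lit 3052] false,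
   Spec.mk (nat_lit 5266) (nat_lit 0) [nat_lit 3808, nat_lit 4780, nat_lit 5428, nat_lit 5212, nat_lit 5268] (nat_lit 0) [nat_lit 3080] false,
   Spec.mk (nat_lit 5268) (nat_lit 0) [nat_lit 3810, nat_lit 4782, nat_lit 5430, nat_lit 5214, nat_lit 5274, nat_lit 5266] (nat_lit 2) [nat_lit 3082] false,
   Spec.mk (nat_lit 5274) (nat_lit 0) [nat_lit 3816, nat_lit 4788, nat_lit 5436, nat_lit 5220, nat_lit 5292, nat_lit 5268] (nat_lit 2) [nat_lit 3088] false,
   Spec.mk (nat_lit 5292) (nat_lit 0) [nat_lit 3834, nat_lit 4806, nat_lit 5454, nat_lit 5238, nat_lit 5274] (nat_lit 0) [nat_lit 3106] false,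
   Spec.mk (nat_lit 5348) (nat_lit 3) [nat_lit 3890, nat_lit 4862, nat_lit 5834, nat_lit 5186, nat_lit 5350] (nat_lit 0) [] false,
   Spec.mk (nat_lit 5350) (nat_lit 2) [nat_lit 3892, nat_lit 4864, nat_lit 5836, nat_lit 5188, nat_lit 5356, nat_lit 5348, nat_lit 5352] (nat_lit 0) [nat_lit 3164] false,
   Spec.mk (nat_lit 5352) (nat_lit 0) [nat_lit 3894, nat_lit 4866, nat_lit 5838, nat_lit 5190, nat_lit 5358, nat_lit 5350] (nat_lit 1) [nat_lit 3166] false,
   Spec.mk (nat_lit 5356) (nat_lit 1) [nat_lit 3898, nat_lit 4870, nat_lit 5842, nat_lit 5194, nat_lit 5374, nat_lit 5350, nat_lit 5358] (nat_lit 0) [nat_lit 3170] false,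
   Spec.mk (nat_lit 5358) (nat_lit 0) [nat_lit 3900, nat_lit 4872, nat_lit 5844, nat_lit 5196, nat_lit 5376, nat_lit 5352, nat_lit 5364, nat_lit 5356] (nat_lit 0) [nat_lit 3172] false,
   Spec.mk (nat_lit 5364) (nat_lit 0) [nat_lit 3906, nat_lit 4878, nat_lit 5850, nat_lit 5202, nat_lit 5382, nat_lit 5358] (nat_lit 1) [nat_lit 3178] false,
   Spec.mk (nat_lit 5374) (nat_lit 1) [nat_lit 3916, nat_lit 4888, nat_lit 5860, nat_lit 5212, nat_lit 5428, nat_lit 5356, nat_lit 5376] (nat_lit 0) [nat_lit 3188] false,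
   Spec.mk (nat_lit 5376) (nat_lit 0) [nat_lit 3918, nat_lit 4890, nat_lit 5862, nat_lit 5214, nat_lit 5430, nat_lit 5358, nat_lit 5382, nat_lit 5374] (nat_lit 1) [nat_lit 3190] false,
   Spec.mk (nat_lit 5382) (nat_lit 0) [nat_lit 3924, nat_lit 4896, nat_lit 5868, nat_lit 5220, nat_lit 5436, nat_lit 5364, nat_lit 5400, nat_lit 5376] (nat_lit 0) [nat_lit 3196] false,
   Spec.mk (nat_lit 5400) (nat_lit 0) [nat_lit 3942, nat_lit 4914, nat_lit 5886, nat_lit 5238, nat_lit 5454, nat_lit 5382] (nat_lit 1) [nat_lit 3214] false,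
   Spec.mk (nat_lit 5428) (nat_lit 2) [nat_lit 3970, nat_lit 4942, nat_lit 5914, nat_lit 5266, nat_lit 5590, nat_lit 5374, nat_lit 5430] (nat_lit 0) [nat_lit 3242] false,
   Spec.mk (nat_lit 5430) (nat_lit 0) [nat_lit 3972, nat_lit 4944, nat_lit 5916, nat_lit 5268, nat_lit 5592, nat_lit 5376, nat_lit 5436, nat_lit 5428] (nat_lit 0) [nat_lit 3244] false,
   Spec.mk (nat_lit 5436) (nat_lit 0) [nat_lit 3978, nat_lit 4950, nat_lit 5922, nat_lit 5274, nat_lit 5598, nat_lit 5382, nat_lit 5454, nat_lit 5430] (nat_lit 0) [nat_lit 3250] false,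
   Spec.mk (nat_lit 5454) (nat_lit 1) [nat_lit 3996, nat_lit 4968, nat_lit 5940, nat_lit 5292, nat_lit 5616, nat_lit 5400, nat_lit 5508, nat_lit 5436] (nat_lit 0) [nat_lit 3268] false,
   Spec.mk (nat_lit 5508) (nat_lit 1) [nat_lit 4050, nat_lit 5022, nat_lit 5994, nat_lit 5670, nat_lit 5454] (nat_lit 0) [nat_lit 3322] false,
   Spec.mk (nat_lit 5590) (nat_lit 2) [nat_lit 4132, nat_lit 6076, nat_lit 5428, nat_lit 5592] (nat_lit 0) [nat_lit 3404] false,
   Spec.mk (nat_lit 5592) (nat_lit 0) [nat_lit 4134, nat_lit 6078, nat_lit 5430, nat_lit 5598, nat_lit 5590] (nat_lit 0) [nat_lit 3406] false,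
   Spec.mk (nat_lit 5598) (nat_lit 0) [nat_lit 4140, nat_lit 6084, nat_lit 5436, nat_lit 5616, nat_lit 5592] (nat_lit 0) [nat_lit 3412] false,
   Spec.mk (nat_lit 5616) (nat_lit 0) [nat_lit 4158, nat_lit 6102, nat_lit 5454, nat_lit 5670, nat_lit 5598] (nat_lit 0) [nat_lit 3430] false,
   Spec.mk (nat_lit 5670) (nat_lit 2) [nat_lit 4212, nat_lit 6156, nat_lit 5508, nat_lit 5616] (nat_lit 0) [nat_lit 3484] false,
   Spec.mk (nat_lit 5834) (nat_lit 4) [nat_lit 5348, nat_lit 5836] (nat_lit 0) [] false,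
   Spec.mk (nat_lit 5836) (nat_lit 3) [nat_lit 5350, nat_lit 5842, nat_lit 5834, nat_lit 5838] (nat_lit 0) [nat_lit 3650] false,
   Spec.mk (nat_lit 5838) (nat_lit 0) [nat_lit 5352, nat_lit 5844, nat_lit 5836] (nat_lit 0) [nat_lit 3652] false,
   Spec.mk (nat_lit 5842) (nat_lit 2) [nat_lit 5356, nat_lit 5860, nat_lit 5836, nat_lit 5844] (nat_lit 0) [nat_lit 3656] false,
   Spec.mk (nat_lit 5844) (nat_lit 1) [nat_lit 5358, nat_lit 5862, nat_lit 5838, nat_lit 5850, nat_lit 5842] (nat_lit 0) [nat_lit 3658] false,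
   Spec.mk (nat_lit 5850) (nat_lit 0) [nat_lit 5364, nat_lit 5868, nat_lit 5844] (nat_lit 0) [nat_lit 3664] false,
   Spec.mk (nat_lit 5860) (nat_lit 2) [nat_lit 5374, nat_lit 5914, nat_lit 5842, nat_lit 5862] (nat_lit 0) [nat_lit 3674] false,
   Spec.mk (nat_lit 5862) (nat_lit 0) [nat_lit 5376, nat_lit 5916, nat_lit 5844, nat_lit 5868, nat_lit 5860] (nat_lit 0) [nat_lit 3676] false,
   Spec.mk (nat_lit 5868) (nat_lit 1) [nat_lit 5382, nat_lit 5922, nat_lit 5850, nat_lit 5886, nat_lit 5862] (nat_lit 0) [nat_lit 3682] false,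
   Spec.mk (nat_lit 5886) (nat_lit 0) [nat_lit 5400, nat_lit 5940, nat_lit 5868] (nat_lit 0) [nat_lit 3700] false,
   Spec.mk (nat_lit 5914) (nat_lit 2) [nat_lit 5428, nat_lit 6076, nat_lit 5860, nat_lit 5916] (nat_lit 0) [nat_lit 3728] false,
   Spec.mk (nat_lit 5916) (nat_lit 0) [nat_lit 5430, nat_lit 6078, nat_lit 5862, nat_lit 5922, nat_lit 5914] (nat_lit 0) [nat_lit 3730] false,
   Spec.mk (nat_lit 5922) (nat_lit 0) [nat_lit 5436, nat_lit 6084, nat_lit 5868, nat_lit 5940, nat_lit 5916] (nat_lit 0) [nat_lit 3736] false,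
   Spec.mk (nat_lit 5940) (nat_lit 1) [nat_lit 5454, nat_lit 6102, nat_lit 5886, nat_lit 5994, nat_lit 5922] (nat_lit 0) [nat_lit 3754] false,
   Spec.mk (nat_lit 5994) (nat_lit 0) [nat_lit 5508, nat_lit 6156, nat_lit 5940] (nat_lit 0) [nat_lit 3808] false,
   Spec.mk (nat_lit 6076) (nat_lit 4) [nat_lit 5590, nat_lit 5914, nat_lit 6078] (nat_lit 0) [nat_lit 3890] false,
   Spec.mk (nat_lit 6078) (nat_lit 2) [nat_lit 5592, nat_lit 5916, nat_lit 6084, nat_lit 6076] (nat_lit 0) [nat_lit 3892] false]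

noncomputable def sp13 : List Spec :=
  [Spec.mk (nat_lit 6084) (nat_lit 2) [nat_lit 5598, nat_lit 5922, nat_lit 6102, nat_lit 6078] (nat_lit 0) [nat_lit 3898] false,
   Spec.mk (nat_lit 6102) (nat_lit 2) [nat_lit 5616, nat_lit 5940, nat_lit 6156, nat_lit 6084] (nat_lit 0) [nat_lit 3916] false,
   Spec.mk (nat_lit 6156) (nat_lit 3) [nat_lit 5670, nat_lit 5994, nat_lit 6318, nat_lit 6102] (nat_lit 0) [nat_lit 3970] false,
   Spec.mk (nat_lit 6318) (nat_lit 4) [nat_lit 6156] (nat_lit 0) [nat_lit 4132] false]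

noncomputable def specs : List (List Spec) :=
    sp0 :: sp1 :: sp2 :: sp3 :: sp4 :: sp5 :: sp6 :: sp7 :: sp8 :: sp9 :: sp10 :: sp11 :: sp12 ::
    sp13 :: []

noncomputable def step (e : Nat → Nat) (C ap an : Nat) (k :
    Nat → Nat → Nat → Nat → Nat → Nat → Nat → Nat → Nat → Nat → Nat → Nat → Nat → Nat → Nat → Nat →
    Nat → Nat → Nat → Nat → Nat → Nat → Nat → Nat → Nat → Nat → Nat → Nat → Nat → Nat → Nat → Nat →
    Nat → Nat → Nat → Nat → Nat → Nat → Nat → Nat → Nat → Nat → Nat → Nat → Nat → Nat → Nat → Nat →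
    Nat → Nat → Nat → Nat → Nat → Nat → Nat → Nat → Nat → Nat → Nat → Nat → Nat → Nat → Nat → Nat →
    Nat → Nat → Nat → Nat → Nat → Nat → Nat → Nat → Nat → Nat → Nat → Nat → Nat → Nat → Nat → Nat →
    Nat → Nat → Nat → Nat → Nat → Nat → Nat → Nat → Nat → Nat → Nat → Nat → Nat → Nat → Nat → Nat →
    Nat → Nat → Nat → Nat → Nat → Nat → Nat → Nat → Nat → Nat → Nat → Nat → Nat → Nat → Nat → Nat →
    Nat → Nat → Nat → Nat → Nat → Nat → Nat → Nat → Nat → Nat → Nat → Nat → Nat → Nat → Nat → Nat →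
    Nat → Nat → Nat → Nat → Nat → Nat → Nat → Nat → Nat → Nat → Nat → Nat → Nat → Nat → Nat → Nat →
    Nat → Nat → Nat → Nat → Nat → Nat → Nat → Nat → Nat → Nat → Nat → Nat → Nat → Nat → Nat → Nat →
    Nat → Nat → Nat → Nat → Nat → Nat → Nat → Nat → Nat → Nat → Nat → Nat → Nat → Nat → Nat → Nat →
    Nat → Nat → Nat → Nat → Nat → Nat → Nat → Nat → Nat → Nat → Nat → Nat → Nat → Nat → Nat → Nat →
    Nat → Nat → Nat → Nat → Nat → Nat → Nat → Nat → Nat → Nat → Nat → Nat → Nat → Nat → Nat → Nat →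
    Nat → Nat → Nat → Nat → Nat → Nat → Nat → Nat → Nat → Nat → Nat → Nat → Nat → Nat → Nat → Nat →
    Nat → Nat → Nat → Nat → Nat → Nat → Nat → Nat → Nat → Nat → Nat → Nat → Nat → Nat → Nat → Nat →
    Nat → Nat → Nat → Nat → Nat → Nat → Nat → Nat → Nat → Nat → Nat → Nat → Nat → Nat → Nat → Nat →
    Nat → Nat → Nat → Nat → Nat → Nat → Nat → Nat → Nat → Nat → Nat → Nat → Nat → Nat → Nat → Nat →
    Nat → Nat → Nat → Nat → Nat → Nat → Nat → Nat → Nat → Nat → Nat → Nat → Nat → Nat → Nat → Nat →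
    Nat → Nat → Nat → Nat → Nat → Nat → Nat → Nat → Nat → Nat → Nat → Nat → Nat → Nat → Nat → Nat →
    Nat → Nat → Nat → Nat → Nat → Nat → Nat → Nat → Nat → Nat → Nat → Nat → Nat → Nat → Nat → Nat →
    Nat → Nat → Nat → Nat → Nat → Nat → Nat → Nat → Nat → Nat → Nat → Nat → Nat → Nat → Nat → Nat →
    Nat → Nat → Nat → Nat → Nat → Nat → Nat → Nat → Nat → Nat → Nat → Nat → Nat → Nat → Nat → Nat →
    Nat → Nat → Nat → Nat → Nat → Nat → Nat → Nat → Nat → Nat → Nat → Nat → Nat → Nat → Nat → Nat →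
    Nat → Nat → Nat → Nat → Nat → Nat → Nat → Nat → Nat → Nat → Nat → Nat → Nat → Nat → Nat → Nat →
    Nat → Nat → Nat → Nat → Nat → Nat → Nat → Nat → Nat → Nat → Nat → Nat → Nat → Nat → Nat → Nat →
    Nat → Nat → Nat → Nat → Nat → Nat → Nat → Nat → Nat → Nat → Nat → Nat → Nat → Nat → Nat → Nat →
    Nat → Nat → Nat → Nat → Nat → Nat → Nat → Nat → Nat → Nat → Nat → Nat → Nat → Nat → Nat → Nat →
    Nat → Nat → Nat → Nat → Nat → Nat → Nat → Nat → Nat → Nat → Nat → Nat → Nat → Nat → Nat → Nat →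
    Nat → Nat → Nat → Nat → Nat → Nat → Nat → Nat → Nat → Nat → Nat → Nat → Nat → Nat → Nat → Nat →
    Nat → Nat → Nat → Nat → Nat → Nat → Nat → Nat → Nat → Nat → Nat → Nat → Nat → Nat → Nat → Nat →
    Nat → Nat → Nat → Nat → Nat → Nat → Nat → Nat → Nat → Nat → Nat → Nat → Nat → Nat → Nat → Nat →
    Nat → Nat → Nat → Nat → Nat → Nat → Nat → Nat → Nat → Nat → Nat → Nat → Nat → Nat → Nat → Nat →
    Nat → Nat → Nat → Nat → Nat → Nat → Nat → Nat → Nat → Nat → Nat → Nat → Nat → Nat → Nat → Nat →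
    Nat → Nat → Nat → Nat → Nat → Nat → Nat → Nat → Nat → Nat → Nat → Nat → Nat → Nat → Nat → Nat →
    Nat → Nat → Nat → Nat → Nat → Nat → Nat → Nat → Nat → Nat → Nat → Nat → Nat → Nat → Nat → Nat →
    Nat → Nat → Nat → Nat → Nat → Nat → Nat → Nat → Nat → Nat → Nat → Nat → Nat → Nat → Nat → Nat →
    Nat → Nat → Nat → Nat → Nat → Nat → Nat → Nat → Nat → Nat → Nat → Nat → Nat → Nat → Nat → Nat →
    Nat → Nat → Nat → Nat → Nat → Nat → Nat → Nat → Nat → Nat → Nat → Nat → Nat → Nat → Nat → Nat →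
    Nat → Nat → Nat → Nat → Nat → Nat → Nat → Nat → Nat → Nat → Nat → Nat → Nat → Nat → Nat → Nat →
    Nat → Nat → Nat → Nat → Nat → Nat → Nat → Nat → Nat → Nat → Nat → Nat → Nat → Nat → Nat → Nat →
    Nat → Nat → Nat → Nat → Nat → Nat → Nat → Nat → Nat → Nat → Nat → Nat → Nat → Nat → Nat → Nat →
    Nat → Nat → Nat → Nat → Nat → Nat → Nat → Nat → Nat → Nat → Nat → Nat → Nat → Nat → Nat → Nat →
    Nat → Nat → Nat → Nat → Nat → Nat → Nat → Nat → Nat → Nat → Nat → Nat → Nat → Nat → Nat → Nat →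
    Nat → Nat → Nat → Nat → Nat → Nat → Nat → Nat → Nat → Nat → Nat → Nat → Nat → Nat → Nat → Nat →
    Nat → Nat → Nat → Nat → Nat → Nat → Nat → Nat → Nat → Nat → Nat → Nat → Nat → Nat → Nat → Nat →
    Nat → Nat → Nat → Nat → Nat → Nat → Nat → Nat → Nat → Nat → Nat → Nat → Nat → Nat → Nat → Nat →
    Nat → Nat → Nat → Nat → Nat → Nat → Nat → Nat → Nat → Nat → Nat → Nat → Nat → Nat → Nat → Nat →
    Nat → Nat → Nat → Nat → Nat → Nat → Nat → Nat → Nat → Nat → Nat → Nat → Nat → Nat → Nat → Nat →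
    Nat → Nat → Nat → Nat → Nat → Nat → Nat → Nat → Nat → Nat → Nat → Nat → Nat → Nat → Nat → Nat →
    Bool)
  (
    x26 x44 x50 x52 x62 x68 x70 x74 x76 x78 x98 x104 x106 x116 x122 x124 x128 x130 x132 x140 x142
    x146 x148 x150 x154 x156 x170 x176 x178 x182 x184 x186 x194 x196 x200 x202 x204 x208 x210 x218
    x220 x222 x226 x228 x234 x260 x266 x268 x278 x284 x286 x290 x292 x294 x302 x304 x308 x310 x312
    x316 x318 x332 x338 x340 x344 x346 x348 x356 x358 x362 x364 x366 x370 x372 x380 x382 x384 x388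
    x390 x396 x410 x412 x416 x418 x420 x424 x426 x434 x436 x438 x442 x444 x450 x460 x462 x468 x494
    x500 x502 x506 x508 x510 x518 x520 x524 x526 x528 x532 x534 x542 x544 x546 x550 x552 x558 x572
    x574 x578 x580 x582 x586 x588 x596 x598 x600 x604 x606 x612 x622 x624 x630 x650 x652 x654 x658
    x660 x666 x676 x678 x684 x702 x746 x752 x754 x764 x770 x772 x776 x778 x780 x788 x790 x794 x796
    x798 x802 x804 x818 x824 x826 x830 x832 x834 x842 x844 x848 x850 x852 x856 x858 x866 x868 x870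
    x874 x876 x882 x896 x898 x902 x904 x906 x910 x912 x920 x922 x924 x928 x930 x936 x946 x948 x954
    x980 x986 x988 x992 x994 x996 x1004 x1006 x1010 x1012 x1014 x1018 x1020 x1028 x1030 x1032 x1036
    x1038 x1044 x1058 x1060 x1064 x1066 x1068 x1072 x1074 x1082 x1084 x1086 x1090 x1092 x1098 x1108
    x1110 x1116 x1136 x1138 x1140 x1144 x1146 x1152 x1162 x1164 x1170 x1188 x1220 x1222 x1226 x1228
    x1230 x1234 x1236 x1244 x1246 x1248 x1252 x1254 x1260 x1270 x1272 x1278 x1298 x1300 x1302 x1306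
    x1308 x1314 x1324 x1326 x1332 x1350 x1378 x1380 x1386 x1404 x1466 x1472 x1474 x1478 x1480 x1482
    x1490 x1492 x1496 x1498 x1500 x1504 x1506 x1514 x1516 x1518 x1522 x1524 x1530 x1544 x1546 x1550
    x1552 x1554 x1558 x1560 x1568 x1570 x1572 x1576 x1578 x1584 x1594 x1596 x1602 x1622 x1624 x1626
    x1630 x1632 x1638 x1648 x1650 x1656 x1674 x1706 x1708 x1712 x1714 x1716 x1720 x1722 x1730 x1732
    x1734 x1738 x1740 x1746 x1756 x1758 x1764 x1784 x1786 x1788 x1792 x1794 x1800 x1810 x1812 x1818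
    x1836 x1864 x1866 x1872 x1890 x1946 x1948 x1950 x1954 x1956 x1962 x1972 x1974 x1980 x1998 x2026
    x2028 x2034 x2052 x2106 x2204 x2210 x2212 x2222 x2228 x2230 x2234 x2236 x2238 x2246 x2248 x2252
    x2254 x2256 x2260 x2262 x2276 x2282 x2284 x2288 x2290 x2292 x2300 x2302 x2306 x2308 x2310 x2314
    x2316 x2324 x2326 x2328 x2332 x2334 x2340 x2354 x2356 x2360 x2362 x2364 x2368 x2370 x2378 x2380
    x2382 x2386 x2388 x2394 x2404 x2406 x2412 x2438 x2444 x2446 x2450 x2452 x2454 x2462 x2464 x2468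
    x2470 x2472 x2476 x2478 x2486 x2488 x2490 x2494 x2496 x2502 x2516 x2518 x2522 x2524 x2526 x2530
    x2532 x2540 x2542 x2544 x2548 x2550 x2556 x2566 x2568 x2574 x2594 x2596 x2598 x2602 x2604 x2610
    x2620 x2622 x2628 x2646 x2678 x2680 x2684 x2686 x2688 x2692 x2694 x2702 x2704 x2706 x2710 x2712
    x2718 x2728 x2730 x2736 x2756 x2758 x2760 x2764 x2766 x2772 x2782 x2784 x2790 x2808 x2836 x2838
    x2844 x2862 x2924 x2930 x2932 x2936 x2938 x2940 x2948 x2950 x2954 x2956 x2958 x2962 x2964 x2972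
    x2974 x2976 x2980 x2982 x2988 x3002 x3004 x3008 x3010 x3012 x3016 x3018 x3026 x3028 x3030 x3034
    x3036 x3042 x3052 x3054 x3060 x3080 x3082 x3084 x3088 x3090 x3096 x3106 x3108 x3114 x3132 x3164
    x3166 x3170 x3172 x3174 x3178 x3180 x3188 x3190 x3192 x3196 x3198 x3204 x3214 x3216 x3222 x3242
    x3244 x3246 x3250 x3252 x3258 x3268 x3270 x3276 x3294 x3322 x3324 x3330 x3348 x3404 x3406 x3408
    x3412 x3414 x3420 x3430 x3432 x3438 x3456 x3484 x3486 x3492 x3510 x3564 x3650 x3652 x3656 x3658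
    x3660 x3664 x3666 x3674 x3676 x3678 x3682 x3684 x3690 x3700 x3702 x3708 x3728 x3730 x3732 x3736
    x3738 x3744 x3754 x3756 x3762 x3780 x3808 x3810 x3816 x3834 x3890 x3892 x3894 x3898 x3900 x3906
    x3916 x3918 x3924 x3942 x3970 x3972 x3978 x3996 x4050 x4132 x4134 x4140 x4158 x4212 x4382 x4388
    x4390 x4394 x4396 x4398 x4406 x4408 x4412 x4414 x4416 x4420 x4422 x4430 x4432 x4434 x4438 x4440
    x4446 x4460 x4462 x4466 x4468 x4470 x4474 x4476 x4484 x4486 x4488 x4492 x4494 x4500 x4510 x4512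
    x4518 x4538 x4540 x4542 x4546 x4548 x4554 x4564 x4566 x4572 x4590 x4622 x4624 x4628 x4630 x4632
    x4636 x4638 x4646 x4648 x4650 x4654 x4656 x4662 x4672 x4674 x4680 x4700 x4702 x4704 x4708 x4710
    x4716 x4726 x4728 x4734 x4752 x4780 x4782 x4788 x4806 x4862 x4864 x4866 x4870 x4872 x4878 x4888
    x4890 x4896 x4914 x4942 x4944 x4950 x4968 x5022 x5108 x5110 x5114 x5116 x5118 x5122 x5124 x5132
    x5134 x5136 x5140 x5142 x5148 x5158 x5160 x5166 x5186 x5188 x5190 x5194 x5196 x5202 x5212 x5214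
    x5220 x5238 x5266 x5268 x5274 x5292 x5348 x5350 x5352 x5356 x5358 x5364 x5374 x5376 x5382 x5400
    x5428 x5430 x5436 x5454 x5508 x5590 x5592 x5598 x5616 x5670 x5834 x5836 x5838 x5842 x5844 x5850
    x5860 x5862 x5868 x5886 x5914 x5916 x5922 x5940 x5994 x6076 x6078 x6084 x6102 x6156 x6318 : Nat) : Bool :=
  k
    (Nat.sub (Nat.sub (Nat.add (Nat.add (Nat.add C (Nat.mul x26 (nat_lit 4))) x44) (Nat.mul (e (nat_lit 26)) ap)) x2212) (Nat.mul (e (nat_lit 26)) an))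
    (Nat.sub (Nat.sub (Nat.add (Nat.add (Nat.add (Nat.add (Nat.add (Nat.add C (Nat.mul x44 (nat_lit 3))) x98) x26) x62) x50) (Nat.mul (e (nat_lit 44)) ap)) x2230) (Nat.mul (e (nat_lit 44)) an))
    (Nat.sub (Nat.sub (Nat.add (Nat.add (Nat.add (Nat.add (Nat.add (Nat.add C (Nat.mul x50 (nat_lit 2))) x104) x68) x44) x52) (Nat.mul (e (nat_lit 50)) ap)) x2236) (Nat.mul (e (nat_lit 50)) an))
    (Nat.sub (Nat.sub (Nat.add (Nat.add (Nat.add (Nat.add (Nat.add C (Nat.mul x52 (nat_lit 4))) x106) x70) x50) (Nat.mul (e (nat_lit 52)) ap)) x2238) (Nat.mul (e (nat_lit 52)) an))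
    (Nat.sub (Nat.sub (Nat.add (Nat.add (Nat.add (Nat.add C x116) x44) x68) (Nat.mul (e (nat_lit 62)) ap)) x2248) (Nat.mul (e (nat_lit 62)) an))
    (Nat.sub (Nat.sub (Nat.add (Nat.add (Nat.add (Nat.add (Nat.add (Nat.add (Nat.add C x68) x122) x50) x62) x74) x70) (Nat.mul (e (nat_lit 68)) ap)) x2254) (Nat.mul (e (nat_lit 68)) an))
    (Nat.sub (Nat.add (Nat.add (Nat.add (Nat.add (Nat.add C (Nat.mul x70 (nat_lit 2))) x124) x52) x76) x68) x2256)
    (Nat.sub (Nat.add (Nat.add (Nat.add C x128) x68) x76) x2260)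
    (Nat.sub (Nat.add (Nat.add (Nat.add (Nat.add (Nat.add C (Nat.mul x76 (nat_lit 3))) x130) x70) x74) x78) x2262)
    (Nat.add (Nat.add (Nat.add C (Nat.mul x78 (nat_lit 4))) x132) x76)
    (Nat.sub (Nat.sub (Nat.add (Nat.add (Nat.add (Nat.add (Nat.add (Nat.add C (Nat.mul x98 (nat_lit 2))) x260) x44) x116) x104) (Nat.mul (e (nat_lit 98)) ap)) x2284) (Nat.mul (e (nat_lit 98)) an))
    (Nat.sub (Nat.sub (Nat.add (Nat.add (Nat.add (Nat.add (Nat.add (Nat.add C x266) x50) x122) x98) x106) (Nat.mul (e (nat_lit 104)) ap)) x2290) (Nat.mul (e (nat_lit 104)) an))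
    (Nat.sub (Nat.sub (Nat.add (Nat.add (Nat.add (Nat.add (Nat.add (Nat.add C (Nat.mul x106 (nat_lit 2))) x268) x52) x124) x104) (Nat.mul (e (nat_lit 106)) ap)) x2292) (Nat.mul (e (nat_lit 106)) an))
    (Nat.sub (Nat.sub (Nat.add (Nat.add (Nat.add (Nat.add (Nat.add (Nat.add (Nat.add C x116) x278) x62) x170) x98) x122) (Nat.mul (e (nat_lit 116)) ap)) x2302) (Nat.mul (e (nat_lit 116)) an))
    (Nat.sub (Nat.sub (Nat.add (Nat.add (Nat.add (Nat.add (Nat.add (Nat.add (Nat.add (Nat.add (Nat.add (Nat.add C x122) x284) x68) x176) x104) x140) x116) x128) x124) (Nat.mul (e (nat_lit 122)) ap)) x2308) (Nat.mul (e (nat_lit 122)) an))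
    (Nat.sub (Nat.sub (Nat.add (Nat.add (Nat.add (Nat.add (Nat.add (Nat.add (Nat.add (Nat.add (Nat.add C (Nat.mul x124 (nat_lit 2))) x286) x70) x178) x106) x142) x130) x122) (Nat.mul (e (nat_lit 124)) ap)) x2310) (Nat.mul (e (nat_lit 124)) an))
    (Nat.sub (Nat.sub (Nat.sub (Nat.add (Nat.add (Nat.add (Nat.add (Nat.add (Nat.add (Nat.add C x290) x74) x182) x146) x122) x130) (Nat.mul (e (nat_lit 128)) ap)) x128) x2314) (Nat.mul (e (nat_lit 128)) an))
    (Nat.sub (Nat.sub (Nat.add (Nat.add (Nat.add (Nat.add (Nat.add (Nat.add (Nat.add (Nat.add (Nat.add C (Nat.mul x130 (nat_lit 2))) x292) x76) x184) x148) x124) x128) x132) (Nat.mul (e (nat_lit 130)) ap)) x2316) (Nat.mul (e (nat_lit 130)) an))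
    (Nat.add (Nat.add (Nat.add (Nat.add (Nat.add (Nat.add C (Nat.mul x132 (nat_lit 3))) x294) x78) x186) x150) x130)
    (Nat.sub (Nat.sub (Nat.add (Nat.add (Nat.add (Nat.add (Nat.add (Nat.add C x302) x194) x122) x146) x142) (Nat.mul (e (nat_lit 140)) ap)) x2326) (Nat.mul (e (nat_lit 140)) an))
    (Nat.sub (Nat.sub (Nat.add (Nat.add (Nat.add (Nat.add (Nat.add (Nat.add C x304) x196) x124) x148) x140) (Nat.mul (e (nat_lit 142)) ap)) x2328) (Nat.mul (e (nat_lit 142)) an))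
    (Nat.sub (Nat.sub (Nat.add (Nat.add (Nat.add (Nat.add (Nat.add (Nat.add C x308) x200) x128) x140) x148) (Nat.mul (e (nat_lit 146)) ap)) x2332) (Nat.mul (e (nat_lit 146)) an))
    (Nat.sub (Nat.add (Nat.add (Nat.add (Nat.add (Nat.add (Nat.add (Nat.add (Nat.add C (Nat.mul x148 (nat_lit 2))) x310) x202) x130) x142) x154) x146) x150) x2334)
    (Nat.add (Nat.add (Nat.add (Nat.add (Nat.add (Nat.add C (Nat.mul x150 (nat_lit 2))) x312) x204) x132) x156) x148)
    (Nat.sub (Nat.add (Nat.add (Nat.add (Nat.add (Nat.add C (Nat.mul x154 (nat_lit 2))) x316) x208) x148) x156) x2340)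
    (Nat.add (Nat.add (Nat.add (Nat.add (Nat.add C (Nat.mul x156 (nat_lit 4))) x318) x210) x150) x154)
    (Nat.sub (Nat.sub (Nat.add (Nat.add (Nat.add (Nat.add C x332) x116) x176) (Nat.mul (e (nat_lit 170)) ap)) x2356) (Nat.mul (e (nat_lit 170)) an))
    (Nat.sub (Nat.sub (Nat.sub (Nat.add (Nat.add (Nat.add (Nat.add (Nat.add (Nat.add (Nat.add C x338) x122) x194) x170) x182) x178) (Nat.mul (e (nat_lit 176)) ap)) x176) x2362) (Nat.mul (e (nat_lit 176)) an))
    (Nat.sub (Nat.add (Nat.add (Nat.add (Nat.add (Nat.add C x340) x124) x196) x184) x176) x2364)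
    (Nat.sub (Nat.sub (Nat.sub (Nat.add (Nat.add (Nat.add (Nat.add (Nat.add (Nat.add C x344) x128) x200) x176) x184) (Nat.mul (e (nat_lit 182)) ap)) (Nat.mul x182 (nat_lit 4))) x2368) (Nat.mul (e (nat_lit 182)) an))
    (Nat.sub (Nat.sub (Nat.add (Nat.add (Nat.add (Nat.add (Nat.add (Nat.add C x346) x130) x202) x178) x182) x186) x184) x2370)
    (Nat.add (Nat.add (Nat.add (Nat.add C x348) x132) x204) x184)
    (Nat.sub (Nat.sub (Nat.add (Nat.add (Nat.add (Nat.add (Nat.add (Nat.add C x356) x140) x176) x200) x196) (Nat.mul (e (nat_lit 194)) ap)) x2380) (Nat.mul (e (nat_lit 194)) an))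
    (Nat.sub (Nat.add (Nat.add (Nat.add (Nat.add (Nat.add C x358) x142) x178) x202) x194) x2382)
    (Nat.sub (Nat.sub (Nat.add (Nat.add (Nat.add (Nat.add (Nat.add (Nat.add C x362) x146) x182) x218) x194) x202) x200) x2386)
    (Nat.sub (Nat.add (Nat.add (Nat.add (Nat.add (Nat.add (Nat.add (Nat.add (Nat.add (Nat.add C x202) x364) x148) x184) x220) x196) x208) x200) x204) x2388)
    (Nat.add (Nat.add (Nat.add (Nat.add (Nat.add (Nat.add (Nat.add C x204) x366) x150) x186) x222) x210) x202)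
    (Nat.sub (Nat.add (Nat.add (Nat.add (Nat.add (Nat.add C x370) x154) x226) x202) x210) x2394)
    (Nat.add (Nat.add (Nat.add (Nat.add (Nat.add (Nat.add C (Nat.mul x210 (nat_lit 2))) x372) x156) x228) x204) x208)
    (Nat.sub (Nat.add (Nat.add (Nat.add C x380) x200) x220) x2404)
    (Nat.sub (Nat.add (Nat.add (Nat.add (Nat.add (Nat.add (Nat.add C x220) x382) x202) x226) x218) x222) x2406)
    (Nat.add (Nat.add (Nat.add (Nat.add C x384) x204) x228) x220)
    (Nat.sub (Nat.add (Nat.add (Nat.add (Nat.add (Nat.add C (Nat.mul x226 (nat_lit 2))) x388) x208) x220) x228) x2412)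
    (Nat.add (Nat.add (Nat.add (Nat.add (Nat.add (Nat.add C (Nat.mul x228 (nat_lit 3))) x390) x210) x222) x234) x226)
    (Nat.add (Nat.add (Nat.add C (Nat.mul x234 (nat_lit 4))) x396) x228)
    (Nat.sub (Nat.sub (Nat.add (Nat.add (Nat.add (Nat.add (Nat.add (Nat.add C (Nat.mul x260 (nat_lit 2))) x746) x98) x278) x266) (Nat.mul (e (nat_lit 260)) ap)) x2446) (Nat.mul (e (nat_lit 260)) an))
    (Nat.sub (Nat.sub (Nat.add (Nat.add (Nat.add (Nat.add (Nat.add (Nat.add C x752) x104) x284) x260) x268) (Nat.mul (e (nat_lit 266)) ap)) x2452) (Nat.mul (e (nat_lit 266)) an))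
    (Nat.sub (Nat.add (Nat.add (Nat.add (Nat.add (Nat.add C (Nat.mul x268 (nat_lit 2))) x754) x106) x286) x266) x2454)
    (Nat.sub (Nat.sub (Nat.add (Nat.add (Nat.add (Nat.add (Nat.add (Nat.add C x764) x116) x332) x260) x284) (Nat.mul (e (nat_lit 278)) ap)) x2464) (Nat.mul (e (nat_lit 278)) an))
    (Nat.sub (Nat.sub (Nat.add (Nat.add (Nat.add (Nat.add (Nat.add (Nat.add (Nat.add (Nat.add (Nat.add C x770) x122) x338) x266) x302) x278) x290) x286) (Nat.mul (e (nat_lit 284)) ap)) x2470) (Nat.mul (e (nat_lit 284)) an))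
    (Nat.sub (Nat.sub (Nat.add (Nat.add (Nat.add (Nat.add (Nat.add (Nat.add (Nat.add (Nat.add (Nat.add C x286) x772) x124) x340) x268) x304) x292) x284) (Nat.mul (e (nat_lit 286)) ap)) x2472) (Nat.mul (e (nat_lit 286)) an))
    (Nat.sub (Nat.sub (Nat.sub (Nat.add (Nat.add (Nat.add (Nat.add (Nat.add (Nat.add (Nat.add C x776) x128) x344) x308) x284) x292) (Nat.mul (e (nat_lit 290)) ap)) (Nat.mul x290 (nat_lit 2))) x2476) (Nat.mul (e (nat_lit 290)) an))
    (Nat.sub (Nat.sub (Nat.add (Nat.add (Nat.add (Nat.add (Nat.add (Nat.add (Nat.add (Nat.add (Nat.add C x292) x778) x130) x346) x310) x286) x290) x294) (Nat.mul (e (nat_lit 292)) ap)) x2478) (Nat.mul (e (nat_lit 292)) an))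
    (Nat.add (Nat.add (Nat.add (Nat.add (Nat.add (Nat.add C (Nat.mul x294 (nat_lit 2))) x780) x132) x348) x312) x292)
    (Nat.sub (Nat.sub (Nat.sub (Nat.add (Nat.add (Nat.add (Nat.add (Nat.add (Nat.add (Nat.add C x788) x140) x356) x284) x308) x304) (Nat.mul (e (nat_lit 302)) ap)) (Nat.mul x302 (nat_lit 2))) x2488) (Nat.mul (e (nat_lit 302)) an))
    (Nat.sub (Nat.sub (Nat.sub (Nat.add (Nat.add (Nat.add (Nat.add (Nat.add (Nat.add (Nat.add C x790) x142) x358) x286) x310) x302) (Nat.mul (e (nat_lit 304)) ap)) (Nat.mul x304 (nat_lit 2))) x2490) (Nat.mul (e (nat_lit 304)) an))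
    (Nat.sub (Nat.sub (Nat.sub (Nat.add (Nat.add (Nat.add (Nat.add (Nat.add (Nat.add (Nat.add C x794) x146) x362) x290) x302) x310) (Nat.mul (e (nat_lit 308)) ap)) (Nat.mul x308 (nat_lit 2))) x2494) (Nat.mul (e (nat_lit 308)) an))
    (Nat.sub (Nat.sub (Nat.add (Nat.add (Nat.add (Nat.add (Nat.add (Nat.add (Nat.add (Nat.add (Nat.add C x796) x148) x364) x292) x304) x316) x308) x312) (Nat.mul (e (nat_lit 310)) ap)) x2496) (Nat.mul (e (nat_lit 310)) an))
    (Nat.add (Nat.add (Nat.add (Nat.add (Nat.add (Nat.add C x798) x150) x366) x294) x318) x310)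
    (Nat.sub (Nat.sub (Nat.add (Nat.add (Nat.add (Nat.add (Nat.add (Nat.add C x802) x154) x370) x310) x318) (Nat.mul (e (nat_lit 316)) ap)) x2502) (Nat.mul (e (nat_lit 316)) an))
    (Nat.add (Nat.add (Nat.add (Nat.add (Nat.add (Nat.add C (Nat.mul x318 (nat_lit 2))) x804) x156) x372) x312) x316)
    (Nat.sub (Nat.sub (Nat.add (Nat.add (Nat.add (Nat.add (Nat.add (Nat.add (Nat.add C x332) x818) x170) x494) x278) x338) (Nat.mul (e (nat_lit 332)) ap)) x2518) (Nat.mul (e (nat_lit 332)) an))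
    (Nat.sub (Nat.sub (Nat.add (Nat.add (Nat.add (Nat.add (Nat.add (Nat.add (Nat.add (Nat.add (Nat.add C x824) x176) x500) x284) x356) x332) x344) x340) (Nat.mul (e (nat_lit 338)) ap)) x2524) (Nat.mul (e (nat_lit 338)) an))
    (Nat.sub (Nat.sub (Nat.add (Nat.add (Nat.add (Nat.add (Nat.add (Nat.add (Nat.add (Nat.add (Nat.add C x340) x826) x178) x502) x286) x358) x346) x338) (Nat.mul (e (nat_lit 340)) ap)) x2526) (Nat.mul (e (nat_lit 340)) an))
    (Nat.sub (Nat.sub (Nat.sub (Nat.add (Nat.add (Nat.add (Nat.add (Nat.add (Nat.add (Nat.add (Nat.add C x830) x182) x506) x290) x362) x338) x346) (Nat.mul (e (nat_lit 344)) ap)) (Nat.mul x344 (nat_lit 3))) x2530) (Nat.mul (e (nat_lit 344)) an))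
    (Nat.sub (Nat.sub (Nat.add (Nat.add (Nat.add (Nat.add (Nat.add (Nat.add (Nat.add (Nat.add (Nat.add C x832) x184) x508) x292) x364) x340) x344) x348) (Nat.mul (e (nat_lit 346)) ap)) x2532) (Nat.mul (e (nat_lit 346)) an))
    (Nat.add (Nat.add (Nat.add (Nat.add (Nat.add (Nat.add (Nat.add C x348) x834) x186) x510) x294) x366) x346)
    (Nat.sub (Nat.sub (Nat.add (Nat.add (Nat.add (Nat.add (Nat.add (Nat.add (Nat.add (Nat.add (Nat.add C x842) x194) x518) x302) x410) x338) x362) x358) (Nat.mul (e (nat_lit 356)) ap)) x2542) (Nat.mul (e (nat_lit 356)) an))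
    (Nat.sub (Nat.sub (Nat.add (Nat.add (Nat.add (Nat.add (Nat.add (Nat.add (Nat.add (Nat.add (Nat.add C x844) x196) x520) x304) x412) x340) x364) x356) (Nat.mul (e (nat_lit 358)) ap)) x2544) (Nat.mul (e (nat_lit 358)) an))
    (Nat.sub (Nat.sub (Nat.sub (Nat.add (Nat.add (Nat.add (Nat.add (Nat.add (Nat.add (Nat.add (Nat.add (Nat.add (Nat.add C x848) x200) x524) x308) x416) x344) x380) x356) x364) (Nat.mul (e (nat_lit 362)) ap)) x362) x2548) (Nat.mul (e (nat_lit 362)) an))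
    (Nat.sub (Nat.sub (Nat.add (Nat.add (Nat.add (Nat.add (Nat.add (Nat.add (Nat.add (Nat.add (Nat.add (Nat.add (Nat.add (Nat.add (Nat.add C x364) x850) x202) x526) x310) x418) x346) x382) x358) x370) x362) x366) (Nat.mul (e (nat_lit 364)) ap)) x2550) (Nat.mul (e (nat_lit 364)) an))
    (Nat.add (Nat.add (Nat.add (Nat.add (Nat.add (Nat.add (Nat.add (Nat.add (Nat.add (Nat.add C x366) x852) x204) x528) x312) x420) x348) x384) x372) x364)
    (Nat.sub (Nat.add (Nat.add (Nat.add (Nat.add (Nat.add (Nat.add (Nat.add (Nat.add C x856) x208) x532) x316) x424) x388) x364) x372) x2556)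
    (Nat.add (Nat.add (Nat.add (Nat.add (Nat.add (Nat.add (Nat.add (Nat.add (Nat.add C (Nat.mul x372 (nat_lit 2))) x858) x210) x534) x318) x426) x390) x366) x370)
    (Nat.sub (Nat.sub (Nat.sub (Nat.add (Nat.add (Nat.add (Nat.add (Nat.add (Nat.add (Nat.add C x866) x218) x542) x434) x362) x382) (Nat.mul (e (nat_lit 380)) ap)) x380) x2566) (Nat.mul (e (nat_lit 380)) an))
    (Nat.sub (Nat.add (Nat.add (Nat.add (Nat.add (Nat.add (Nat.add (Nat.add (Nat.add C x868) x220) x544) x436) x364) x388) x380) x384) x2568)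
    (Nat.sub (Nat.add (Nat.add (Nat.add (Nat.add (Nat.add (Nat.add (Nat.add C x870) x222) x546) x438) x366) x390) x382) x384)
    (Nat.sub (Nat.add (Nat.add (Nat.add (Nat.add (Nat.add (Nat.add (Nat.add (Nat.add C x388) x874) x226) x550) x442) x370) x382) x390) x2574)
    (Nat.add (Nat.add (Nat.add (Nat.add (Nat.add (Nat.add (Nat.add (Nat.add (Nat.add C (Nat.mul x390 (nat_lit 2))) x876) x228) x552) x444) x372) x384) x396) x388)
    (Nat.add (Nat.add (Nat.add (Nat.add (Nat.add (Nat.add C (Nat.mul x396 (nat_lit 3))) x882) x234) x558) x450) x390)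
    (Nat.sub (Nat.sub (Nat.add (Nat.add (Nat.add (Nat.add (Nat.add (Nat.add C x896) x572) x356) x416) x412) (Nat.mul (e (nat_lit 410)) ap)) x2596) (Nat.mul (e (nat_lit 410)) an))
    (Nat.sub (Nat.sub (Nat.add (Nat.add (Nat.add (Nat.add (Nat.add (Nat.add C x898) x574) x358) x418) x410) (Nat.mul (e (nat_lit 412)) ap)) x2598) (Nat.mul (e (nat_lit 412)) an))
    (Nat.sub (Nat.sub (Nat.sub (Nat.add (Nat.add (Nat.add (Nat.add (Nat.add (Nat.add (Nat.add C x902) x578) x362) x434) x410) x418) (Nat.mul (e (nat_lit 416)) ap)) (Nat.mul x416 (nat_lit 2))) x2602) (Nat.mul (e (nat_lit 416)) an))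
    (Nat.sub (Nat.add (Nat.add (Nat.add (Nat.add (Nat.add (Nat.add (Nat.add (Nat.add C x904) x580) x364) x436) x412) x424) x416) x420) x2604)
    (Nat.add (Nat.add (Nat.add (Nat.add (Nat.add (Nat.add C x906) x582) x366) x438) x426) x418)
    (Nat.sub (Nat.sub (Nat.add (Nat.add (Nat.add (Nat.add (Nat.add (Nat.add C x910) x586) x370) x442) x418) x426) (Nat.mul x424 (nat_lit 2))) x2610)
    (Nat.add (Nat.add (Nat.add (Nat.add (Nat.add (Nat.add C x912) x588) x372) x444) x420) x424)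
    (Nat.sub (Nat.sub (Nat.add (Nat.add (Nat.add (Nat.add (Nat.add (Nat.add C x920) x596) x380) x416) x436) (Nat.mul (e (nat_lit 434)) ap)) x2620) (Nat.mul (e (nat_lit 434)) an))
    (Nat.sub (Nat.add (Nat.add (Nat.add (Nat.add (Nat.add (Nat.add (Nat.add (Nat.add C x436) x922) x598) x382) x418) x442) x434) x438) x2622)
    (Nat.add (Nat.add (Nat.add (Nat.add (Nat.add (Nat.add C x924) x600) x384) x420) x444) x436)
    (Nat.sub (Nat.add (Nat.add (Nat.add (Nat.add (Nat.add (Nat.add (Nat.add (Nat.add C x442) x928) x604) x388) x424) x460) x436) x444) x2628)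
    (Nat.add (Nat.add (Nat.add (Nat.add (Nat.add (Nat.add (Nat.add (Nat.add (Nat.add C (Nat.mul x444 (nat_lit 2))) x930) x606) x390) x426) x462) x438) x450) x442)
    (Nat.add (Nat.add (Nat.add (Nat.add (Nat.add (Nat.add C (Nat.mul x450 (nat_lit 2))) x936) x612) x396) x468) x444)
    (Nat.sub (Nat.add (Nat.add (Nat.add (Nat.add (Nat.add C (Nat.mul x460 (nat_lit 2))) x946) x622) x442) x462) x2646)
    (Nat.add (Nat.add (Nat.add (Nat.add (Nat.add (Nat.add C (Nat.mul x462 (nat_lit 2))) x948) x624) x444) x468) x460)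
    (Nat.add (Nat.add (Nat.add (Nat.add (Nat.add C (Nat.mul x468 (nat_lit 4))) x954) x630) x450) x462)
    (Nat.sub (Nat.add (Nat.add (Nat.add C x980) x332) x500) x2680)
    (Nat.sub (Nat.sub (Nat.add (Nat.add (Nat.add (Nat.add (Nat.add (Nat.add C x986) x338) x518) x494) x506) x502) x500) x2686)
    (Nat.sub (Nat.add (Nat.add (Nat.add (Nat.add (Nat.add C x988) x340) x520) x508) x500) x2688)
    (Nat.sub (Nat.sub (Nat.sub (Nat.add (Nat.add (Nat.add (Nat.add (Nat.add (Nat.add C x992) x344) x524) x500) x508) (Nat.mul (e (nat_lit 506)) ap)) (Nat.mul x506 (nat_lit 4))) x2692) (Nat.mul (e (nat_lit 506)) an))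
    (Nat.sub (Nat.sub (Nat.add (Nat.add (Nat.add (Nat.add (Nat.add (Nat.add C x994) x346) x526) x502) x506) x510) x508) x2694)
    (Nat.add (Nat.add (Nat.add (Nat.add C x996) x348) x528) x508)
    (Nat.sub (Nat.sub (Nat.sub (Nat.add (Nat.add (Nat.add (Nat.add (Nat.add (Nat.add (Nat.add C x1004) x356) x572) x500) x524) x520) (Nat.mul (e (nat_lit 518)) ap)) (Nat.mul x518 (nat_lit 2))) x2704) (Nat.mul (e (nat_lit 518)) an))
    (Nat.sub (Nat.sub (Nat.add (Nat.add (Nat.add (Nat.add (Nat.add (Nat.add C x1006) x358) x574) x502) x526) x518) (Nat.mul x520 (nat_lit 2))) x2706)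
    (Nat.sub (Nat.sub (Nat.sub (Nat.add (Nat.add (Nat.add (Nat.add (Nat.add (Nat.add (Nat.add (Nat.add C x1010) x362) x578) x506) x542) x518) x526) (Nat.mul (e (nat_lit 524)) ap)) (Nat.mul x524 (nat_lit 3))) x2710) (Nat.mul (e (nat_lit 524)) an))
    (Nat.sub (Nat.sub (Nat.add (Nat.add (Nat.add (Nat.add (Nat.add (Nat.add (Nat.add (Nat.add (Nat.add C x1012) x364) x580) x508) x544) x520) x532) x524) x528) x526) x2712)
    (Nat.sub (Nat.add (Nat.add (Nat.add (Nat.add (Nat.add (Nat.add (Nat.add C x1014) x366) x582) x510) x546) x534) x526) x528)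
    (Nat.sub (Nat.sub (Nat.add (Nat.add (Nat.add (Nat.add (Nat.add (Nat.add C x1018) x370) x586) x550) x526) x534) (Nat.mul x532 (nat_lit 2))) x2718)
    (Nat.add (Nat.add (Nat.add (Nat.add (Nat.add (Nat.add C x1020) x372) x588) x552) x528) x532)
    (Nat.sub (Nat.sub (Nat.add (Nat.add (Nat.add (Nat.add (Nat.add C x1028) x380) x596) x524) x544) (Nat.mul x542 (nat_lit 4))) x2728)
    (Nat.sub (Nat.sub (Nat.add (Nat.add (Nat.add (Nat.add (Nat.add (Nat.add (Nat.add C x1030) x382) x598) x526) x550) x542) x546) (Nat.mul x544 (nat_lit 3))) x2730)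
    (Nat.sub (Nat.add (Nat.add (Nat.add (Nat.add (Nat.add (Nat.add C x1032) x384) x600) x528) x552) x544) (Nat.mul x546 (nat_lit 4)))
    (Nat.sub (Nat.sub (Nat.add (Nat.add (Nat.add (Nat.add (Nat.add (Nat.add C x1036) x388) x604) x532) x544) x552) (Nat.mul x550 (nat_lit 2))) x2736)
    (Nat.sub (Nat.add (Nat.add (Nat.add (Nat.add (Nat.add (Nat.add (Nat.add C x1038) x390) x606) x534) x546) x558) x550) x552)
    (Nat.add (Nat.add (Nat.add (Nat.add C x1044) x396) x612) x552)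
    (Nat.sub (Nat.add (Nat.add (Nat.add (Nat.add (Nat.add C x1058) x410) x518) x578) x574) x2758)
    (Nat.sub (Nat.add (Nat.add (Nat.add (Nat.add (Nat.add C x1060) x412) x520) x580) x572) x2760)
    (Nat.sub (Nat.sub (Nat.add (Nat.add (Nat.add (Nat.add (Nat.add (Nat.add C x1064) x416) x524) x596) x572) x580) (Nat.mul x578 (nat_lit 2))) x2764)
    (Nat.sub (Nat.add (Nat.add (Nat.add (Nat.add (Nat.add (Nat.add (Nat.add (Nat.add C x1066) x418) x526) x598) x574) x586) x578) x582) x2766)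
    (Nat.add (Nat.add (Nat.add (Nat.add (Nat.add (Nat.add C x1068) x420) x528) x600) x588) x580)
    (Nat.sub (Nat.sub (Nat.add (Nat.add (Nat.add (Nat.add (Nat.add (Nat.add C x1072) x424) x532) x604) x580) x588) (Nat.mul x586 (nat_lit 2))) x2772)
    (Nat.add (Nat.add (Nat.add (Nat.add (Nat.add (Nat.add C x1074) x426) x534) x606) x582) x586)
    (Nat.sub (Nat.sub (Nat.add (Nat.add (Nat.add (Nat.add (Nat.add (Nat.add C x1082) x434) x542) x650) x578) x598) x596) x2782)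
    (Nat.sub (Nat.add (Nat.add (Nat.add (Nat.add (Nat.add (Nat.add (Nat.add (Nat.add C x1084) x436) x544) x652) x580) x604) x596) x600) x2784)
    (Nat.sub (Nat.add (Nat.add (Nat.add (Nat.add (Nat.add (Nat.add (Nat.add C x1086) x438) x546) x654) x582) x606) x598) x600)
    (Nat.sub (Nat.add (Nat.add (Nat.add (Nat.add (Nat.add (Nat.add (Nat.add (Nat.add C x1090) x442) x550) x658) x586) x622) x598) x606) x2790)
    (Nat.add (Nat.add (Nat.add (Nat.add (Nat.add (Nat.add (Nat.add (Nat.add (Nat.add (Nat.add C x606) x1092) x444) x552) x660) x588) x624) x600) x612) x604)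
    (Nat.add (Nat.add (Nat.add (Nat.add (Nat.add (Nat.add (Nat.add C x612) x1098) x450) x558) x666) x630) x606)
    (Nat.sub (Nat.add (Nat.add (Nat.add (Nat.add (Nat.add C x1108) x460) x676) x604) x624) x2808)
    (Nat.add (Nat.add (Nat.add (Nat.add (Nat.add (Nat.add C x1110) x462) x678) x606) x630) x622)
    (Nat.add (Nat.add (Nat.add (Nat.add (Nat.add (Nat.add C (Nat.mul x630 (nat_lit 2))) x1116) x468) x684) x612) x624)
    (Nat.sub (Nat.add (Nat.add (Nat.add C x1136) x596) x652) x2836)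
    (Nat.sub (Nat.add (Nat.add (Nat.add (Nat.add (Nat.add (Nat.add C x652) x1138) x598) x658) x650) x654) x2838)
    (Nat.add (Nat.add (Nat.add (Nat.add C x1140) x600) x660) x652)
    (Nat.sub (Nat.add (Nat.add (Nat.add (Nat.add (Nat.add C x1144) x604) x676) x652) x660) x2844)
    (Nat.add (Nat.add (Nat.add (Nat.add (Nat.add (Nat.add (Nat.add C x660) x1146) x606) x678) x654) x666) x658)
    (Nat.add (Nat.add (Nat.add (Nat.add C x1152) x612) x684) x660)
    (Nat.sub (Nat.add (Nat.add (Nat.add (Nat.add (Nat.add C (Nat.mul x676 (nat_lit 2))) x1162) x622) x658) x678) x2862)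
    (Nat.add (Nat.add (Nat.add (Nat.add (Nat.add (Nat.add C (Nat.mul x678 (nat_lit 2))) x1164) x624) x660) x684) x676)
    (Nat.add (Nat.add (Nat.add (Nat.add (Nat.add (Nat.add C (Nat.mul x684 (nat_lit 3))) x1170) x630) x666) x702) x678)
    (Nat.add (Nat.add (Nat.add C (Nat.mul x702 (nat_lit 4))) x1188) x684)
    (Nat.sub (Nat.add (Nat.add (Nat.add (Nat.add (Nat.add C (Nat.mul x746 (nat_lit 2))) x2204) x260) x764) x752) x2932)
    (Nat.sub (Nat.add (Nat.add (Nat.add (Nat.add (Nat.add C x2210) x266) x770) x746) x754) x2938)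
    (Nat.sub (Nat.add (Nat.add (Nat.add (Nat.add (Nat.add C (Nat.mul x754 (nat_lit 2))) x2212) x268) x772) x752) x2940)
    (Nat.sub (Nat.add (Nat.add (Nat.add (Nat.add (Nat.add C x2222) x278) x818) x746) x770) x2950)
    (Nat.sub (Nat.add (Nat.add (Nat.add (Nat.add (Nat.add (Nat.add (Nat.add (Nat.add C x2228) x284) x824) x752) x788) x764) x776) x772) x2956)
    (Nat.sub (Nat.add (Nat.add (Nat.add (Nat.add (Nat.add (Nat.add (Nat.add (Nat.add C x772) x2230) x286) x826) x754) x790) x778) x770) x2958)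
    (Nat.sub (Nat.sub (Nat.add (Nat.add (Nat.add (Nat.add (Nat.add (Nat.add C x2234) x290) x830) x794) x770) x778) (Nat.mul x776 (nat_lit 2))) x2962)
    (Nat.sub (Nat.add (Nat.add (Nat.add (Nat.add (Nat.add (Nat.add (Nat.add (Nat.add C x778) x2236) x292) x832) x796) x772) x776) x780) x2964)
    (Nat.add (Nat.add (Nat.add (Nat.add (Nat.add (Nat.add C (Nat.mul x780 (nat_lit 2))) x2238) x294) x834) x798) x778)
    (Nat.sub (Nat.sub (Nat.add (Nat.add (Nat.add (Nat.add (Nat.add (Nat.add C x2246) x302) x842) x770) x794) x790) (Nat.mul x788 (nat_lit 2))) x2974)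
    (Nat.sub (Nat.sub (Nat.add (Nat.add (Nat.add (Nat.add (Nat.add (Nat.add C x2248) x304) x844) x772) x796) x788) (Nat.mul x790 (nat_lit 2))) x2976)
    (Nat.sub (Nat.sub (Nat.add (Nat.add (Nat.add (Nat.add (Nat.add (Nat.add C x2252) x308) x848) x776) x788) x796) (Nat.mul x794 (nat_lit 2))) x2980)
    (Nat.sub (Nat.add (Nat.add (Nat.add (Nat.add (Nat.add (Nat.add (Nat.add (Nat.add C x2254) x310) x850) x778) x790) x802) x794) x798) x2982)
    (Nat.add (Nat.add (Nat.add (Nat.add (Nat.add (Nat.add C x2256) x312) x852) x780) x804) x796)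
    (Nat.sub (Nat.add (Nat.add (Nat.add (Nat.add (Nat.add C x2260) x316) x856) x796) x804) x2988)
    (Nat.add (Nat.add (Nat.add (Nat.add (Nat.add (Nat.add C (Nat.mul x804 (nat_lit 2))) x2262) x318) x858) x798) x802)
    (Nat.sub (Nat.add (Nat.add (Nat.add (Nat.add (Nat.add C x2276) x332) x980) x764) x824) x3004)
    (Nat.sub (Nat.sub (Nat.sub (Nat.add (Nat.add (Nat.add (Nat.add (Nat.add (Nat.add (Nat.add (Nat.add (Nat.add C x2282) x338) x986) x770) x842) x818) x830) x826) (Nat.mul (e (nat_lit 824)) ap)) x824) x3010) (Nat.mul (e (nat_lit 824)) an))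
    (Nat.sub (Nat.sub (Nat.add (Nat.add (Nat.add (Nat.add (Nat.add (Nat.add (Nat.add (Nat.add C x2284) x340) x988) x772) x844) x832) x824) (Nat.mul (e (nat_lit 826)) ap)) x3012) (Nat.mul (e (nat_lit 826)) an))
    (Nat.sub (Nat.sub (Nat.sub (Nat.add (Nat.add (Nat.add (Nat.add (Nat.add (Nat.add (Nat.add (Nat.add C x2288) x344) x992) x776) x848) x824) x832) (Nat.mul (e (nat_lit 830)) ap)) (Nat.mul x830 (nat_lit 4))) x3016) (Nat.mul (e (nat_lit 830)) an))
    (Nat.sub (Nat.sub (Nat.add (Nat.add (Nat.add (Nat.add (Nat.add (Nat.add (Nat.add (Nat.add C x2290) x346) x994) x778) x850) x826) x830) x834) x832) x3018)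
    (Nat.add (Nat.add (Nat.add (Nat.add (Nat.add (Nat.add C x2292) x348) x996) x780) x852) x832)
    (Nat.sub (Nat.sub (Nat.sub (Nat.add (Nat.add (Nat.add (Nat.add (Nat.add (Nat.add (Nat.add (Nat.add (Nat.add C x2300) x356) x1004) x788) x896) x824) x848) x844) (Nat.mul (e (nat_lit 842)) ap)) x842) x3028) (Nat.mul (e (nat_lit 842)) an))
    (Nat.sub (Nat.sub (Nat.sub (Nat.add (Nat.add (Nat.add (Nat.add (Nat.add (Nat.add (Nat.add (Nat.add (Nat.add C x2302) x358) x1006) x790) x898) x826) x850) x842) (Nat.mul (e (nat_lit 844)) ap)) x844) x3030) (Nat.mul (e (nat_lit 844)) an))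
    (Nat.sub (Nat.sub (Nat.sub (Nat.add (Nat.add (Nat.add (Nat.add (Nat.add (Nat.add (Nat.add (Nat.add (Nat.add (Nat.add C x2306) x362) x1010) x794) x902) x830) x866) x842) x850) (Nat.mul (e (nat_lit 848)) ap)) (Nat.mul x848 (nat_lit 2))) x3034) (Nat.mul (e (nat_lit 848)) an))
    (Nat.sub (Nat.sub (Nat.add (Nat.add (Nat.add (Nat.add (Nat.add (Nat.add (Nat.add (Nat.add (Nat.add (Nat.add (Nat.add (Nat.add C x2308) x364) x1012) x796) x904) x832) x868) x844) x856) x848) x852) (Nat.mul (e (nat_lit 850)) ap)) x3036) (Nat.mul (e (nat_lit 850)) an))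
    (Nat.add (Nat.add (Nat.add (Nat.add (Nat.add (Nat.add (Nat.add (Nat.add (Nat.add C x2310) x366) x1014) x798) x906) x834) x870) x858) x850)
    (Nat.sub (Nat.sub (Nat.add (Nat.add (Nat.add (Nat.add (Nat.add (Nat.add (Nat.add (Nat.add C x2314) x370) x1018) x802) x910) x874) x850) x858) x856) x3042)
    (Nat.add (Nat.add (Nat.add (Nat.add (Nat.add (Nat.add (Nat.add (Nat.add (Nat.add C x858) x2316) x372) x1020) x804) x912) x876) x852) x856)
    (Nat.sub (Nat.sub (Nat.add (Nat.add (Nat.add (Nat.add (Nat.add (Nat.add C x2324) x380) x1028) x920) x848) x868) (Nat.mul x866 (nat_lit 2))) x3052)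
    (Nat.sub (Nat.sub (Nat.add (Nat.add (Nat.add (Nat.add (Nat.add (Nat.add (Nat.add (Nat.add C x2326) x382) x1030) x922) x850) x874) x866) x870) x868) x3054)
    (Nat.sub (Nat.add (Nat.add (Nat.add (Nat.add (Nat.add (Nat.add (Nat.add C x2328) x384) x1032) x924) x852) x876) x868) (Nat.mul x870 (nat_lit 2)))
    (Nat.sub (Nat.add (Nat.add (Nat.add (Nat.add (Nat.add (Nat.add (Nat.add C x2332) x388) x1036) x928) x856) x868) x876) x3060)
    (Nat.add (Nat.add (Nat.add (Nat.add (Nat.add (Nat.add (Nat.add (Nat.add (Nat.add C x876) x2334) x390) x1038) x930) x858) x870) x882) x874)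
    (Nat.add (Nat.add (Nat.add (Nat.add (Nat.add (Nat.add C (Nat.mul x882 (nat_lit 2))) x2340) x396) x1044) x936) x876)
    (Nat.sub (Nat.sub (Nat.add (Nat.add (Nat.add (Nat.add (Nat.add (Nat.add C x2354) x410) x1058) x842) x902) x898) (Nat.mul x896 (nat_lit 2))) x3082)
    (Nat.sub (Nat.sub (Nat.add (Nat.add (Nat.add (Nat.add (Nat.add (Nat.add C x2356) x412) x1060) x844) x904) x896) (Nat.mul x898 (nat_lit 2))) x3084)
    (Nat.sub (Nat.sub (Nat.sub (Nat.add (Nat.add (Nat.add (Nat.add (Nat.add (Nat.add (Nat.add (Nat.add C x2360) x416) x1064) x848) x920) x896) x904) (Nat.mul (e (nat_lit 902)) ap)) (Nat.mul x902 (nat_lit 4))) x3088) (Nat.mul (e (nat_lit 902)) an))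
    (Nat.sub (Nat.sub (Nat.add (Nat.add (Nat.add (Nat.add (Nat.add (Nat.add (Nat.add (Nat.add (Nat.add C x2362) x418) x1066) x850) x922) x898) x910) x902) x906) (Nat.mul x904 (nat_lit 2))) x3090)
    (Nat.sub (Nat.add (Nat.add (Nat.add (Nat.add (Nat.add (Nat.add (Nat.add C x2364) x420) x1068) x852) x924) x912) x904) (Nat.mul x906 (nat_lit 2)))
    (Nat.sub (Nat.sub (Nat.add (Nat.add (Nat.add (Nat.add (Nat.add (Nat.add (Nat.add C x2368) x424) x1072) x856) x928) x904) x912) (Nat.mul x910 (nat_lit 4))) x3096)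
    (Nat.sub (Nat.add (Nat.add (Nat.add (Nat.add (Nat.add (Nat.add (Nat.add C x2370) x426) x1074) x858) x930) x906) x910) (Nat.mul x912 (nat_lit 2)))
    (Nat.sub (Nat.sub (Nat.add (Nat.add (Nat.add (Nat.add (Nat.add (Nat.add C x2378) x434) x1082) x866) x902) x922) (Nat.mul x920 (nat_lit 2))) x3106)
    (Nat.sub (Nat.sub (Nat.add (Nat.add (Nat.add (Nat.add (Nat.add (Nat.add (Nat.add (Nat.add C x2380) x436) x1084) x868) x904) x928) x920) x924) x922) x3108)
    (Nat.sub (Nat.add (Nat.add (Nat.add (Nat.add (Nat.add (Nat.add (Nat.add C x2382) x438) x1086) x870) x906) x930) x922) (Nat.mul x924 (nat_lit 2)))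
    (Nat.sub (Nat.sub (Nat.add (Nat.add (Nat.add (Nat.add (Nat.add (Nat.add (Nat.add (Nat.add C x2386) x442) x1090) x874) x910) x946) x922) x930) x928) x3114)
    (Nat.add (Nat.add (Nat.add (Nat.add (Nat.add (Nat.add (Nat.add (Nat.add (Nat.add C x2388) x444) x1092) x876) x912) x948) x924) x936) x928)
    (Nat.add (Nat.add (Nat.add (Nat.add (Nat.add (Nat.add C x2394) x450) x1098) x882) x954) x930)
    (Nat.sub (Nat.add (Nat.add (Nat.add (Nat.add (Nat.add C x2404) x460) x1108) x928) x948) x3132)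
    (Nat.add (Nat.add (Nat.add (Nat.add (Nat.add (Nat.add C x2406) x462) x1110) x930) x954) x946)
    (Nat.add (Nat.add (Nat.add (Nat.add (Nat.add (Nat.add C (Nat.mul x954 (nat_lit 2))) x2412) x468) x1116) x936) x948)
    (Nat.sub (Nat.add (Nat.add (Nat.add (Nat.add (Nat.add (Nat.add C x980) x2438) x494) x1466) x818) x986) x3166)
    (Nat.sub (Nat.add (Nat.add (Nat.add (Nat.add (Nat.add (Nat.add (Nat.add (Nat.add C x2444) x500) x1472) x824) x1004) x980) x992) x988) x3172)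
    (Nat.sub (Nat.add (Nat.add (Nat.add (Nat.add (Nat.add (Nat.add (Nat.add (Nat.add C x988) x2446) x502) x1474) x826) x1006) x994) x986) x3174)
    (Nat.sub (Nat.sub (Nat.add (Nat.add (Nat.add (Nat.add (Nat.add (Nat.add (Nat.add C x2450) x506) x1478) x830) x1010) x986) x994) (Nat.mul x992 (nat_lit 3))) x3178)
    (Nat.sub (Nat.add (Nat.add (Nat.add (Nat.add (Nat.add (Nat.add (Nat.add (Nat.add C x2452) x508) x1480) x832) x1012) x988) x992) x996) x3180)
    (Nat.add (Nat.add (Nat.add (Nat.add (Nat.add (Nat.add (Nat.add C x996) x2454) x510) x1482) x834) x1014) x994)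
    (Nat.sub (Nat.sub (Nat.add (Nat.add (Nat.add (Nat.add (Nat.add (Nat.add (Nat.add (Nat.add C x2462) x518) x1490) x842) x1058) x986) x1010) x1006) x1004) x3190)
    (Nat.sub (Nat.sub (Nat.add (Nat.add (Nat.add (Nat.add (Nat.add (Nat.add (Nat.add (Nat.add C x2464) x520) x1492) x844) x1060) x988) x1012) x1004) x1006) x3192)
    (Nat.sub (Nat.sub (Nat.sub (Nat.add (Nat.add (Nat.add (Nat.add (Nat.add (Nat.add (Nat.add (Nat.add (Nat.add (Nat.add C x2468) x524) x1496) x848) x1064) x992) x1028) x1004) x1012) (Nat.mul (e (nat_lit 1010)) ap)) (Nat.mul x1010 (nat_lit 2))) x3196) (Nat.mul (e (nat_lit 1010)) an))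
    (Nat.sub (Nat.sub (Nat.add (Nat.add (Nat.add (Nat.add (Nat.add (Nat.add (Nat.add (Nat.add (Nat.add (Nat.add (Nat.add (Nat.add C x2470) x526) x1498) x850) x1066) x994) x1030) x1006) x1018) x1010) x1014) (Nat.mul (e (nat_lit 1012)) ap)) x3198) (Nat.mul (e (nat_lit 1012)) an))
    (Nat.add (Nat.add (Nat.add (Nat.add (Nat.add (Nat.add (Nat.add (Nat.add (Nat.add C x2472) x528) x1500) x852) x1068) x996) x1032) x1020) x1012)
    (Nat.sub (Nat.sub (Nat.add (Nat.add (Nat.add (Nat.add (Nat.add (Nat.add (Nat.add (Nat.add C x2476) x532) x1504) x856) x1072) x1036) x1012) x1020) x1018) x3204)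
    (Nat.add (Nat.add (Nat.add (Nat.add (Nat.add (Nat.add (Nat.add (Nat.add (Nat.add C x1020) x2478) x534) x1506) x858) x1074) x1038) x1014) x1018)
    (Nat.sub (Nat.sub (Nat.add (Nat.add (Nat.add (Nat.add (Nat.add (Nat.add (Nat.add C x2486) x542) x1514) x866) x1082) x1010) x1030) (Nat.mul x1028 (nat_lit 3))) x3214)
    (Nat.sub (Nat.sub (Nat.add (Nat.add (Nat.add (Nat.add (Nat.add (Nat.add (Nat.add (Nat.add (Nat.add C x2488) x544) x1516) x868) x1084) x1012) x1036) x1028) x1032) (Nat.mul x1030 (nat_lit 2))) x3216)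
    (Nat.sub (Nat.add (Nat.add (Nat.add (Nat.add (Nat.add (Nat.add (Nat.add (Nat.add C x2490) x546) x1518) x870) x1086) x1014) x1038) x1030) (Nat.mul x1032 (nat_lit 3)))
    (Nat.sub (Nat.sub (Nat.add (Nat.add (Nat.add (Nat.add (Nat.add (Nat.add (Nat.add (Nat.add C x2494) x550) x1522) x874) x1090) x1018) x1030) x1038) x1036) x3222)
    (Nat.add (Nat.add (Nat.add (Nat.add (Nat.add (Nat.add (Nat.add (Nat.add (Nat.add C x2496) x552) x1524) x876) x1092) x1020) x1032) x1044) x1036)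
    (Nat.add (Nat.add (Nat.add (Nat.add (Nat.add (Nat.add (Nat.add C x1044) x2502) x558) x1530) x882) x1098) x1038)
    (Nat.sub (Nat.add (Nat.add (Nat.add (Nat.add (Nat.add (Nat.add (Nat.add (Nat.add C x2516) x572) x1544) x896) x1220) x1004) x1064) x1060) x3244)
    (Nat.sub (Nat.add (Nat.add (Nat.add (Nat.add (Nat.add (Nat.add (Nat.add (Nat.add C x2518) x574) x1546) x898) x1222) x1006) x1066) x1058) x3246)
    (Nat.sub (Nat.sub (Nat.add (Nat.add (Nat.add (Nat.add (Nat.add (Nat.add (Nat.add (Nat.add (Nat.add C x2522) x578) x1550) x902) x1226) x1010) x1082) x1058) x1066) (Nat.mul x1064 (nat_lit 2))) x3250)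
    (Nat.sub (Nat.sub (Nat.add (Nat.add (Nat.add (Nat.add (Nat.add (Nat.add (Nat.add (Nat.add (Nat.add (Nat.add (Nat.add (Nat.add C x2524) x580) x1552) x904) x1228) x1012) x1084) x1060) x1072) x1064) x1068) (Nat.mul (e (nat_lit 1066)) ap)) x3252) (Nat.mul (e (nat_lit 1066)) an))
    (Nat.add (Nat.add (Nat.add (Nat.add (Nat.add (Nat.add (Nat.add (Nat.add (Nat.add C x2526) x582) x1554) x906) x1230) x1014) x1086) x1074) x1066)
    (Nat.sub (Nat.sub (Nat.add (Nat.add (Nat.add (Nat.add (Nat.add (Nat.add (Nat.add (Nat.add (Nat.add C x2530) x586) x1558) x910) x1234) x1018) x1090) x1066) x1074) (Nat.mul x1072 (nat_lit 2))) x3258)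
    (Nat.add (Nat.add (Nat.add (Nat.add (Nat.add (Nat.add (Nat.add (Nat.add (Nat.add C x2532) x588) x1560) x912) x1236) x1020) x1092) x1068) x1072)
    (Nat.sub (Nat.sub (Nat.add (Nat.add (Nat.add (Nat.add (Nat.add (Nat.add (Nat.add (Nat.add (Nat.add C x2540) x596) x1568) x920) x1244) x1028) x1136) x1064) x1084) x1082) x3268)
    (Nat.sub (Nat.add (Nat.add (Nat.add (Nat.add (Nat.add (Nat.add (Nat.add (Nat.add (Nat.add (Nat.add (Nat.add C x2542) x598) x1570) x922) x1246) x1030) x1138) x1066) x1090) x1082) x1086) x3270)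
    (Nat.sub (Nat.add (Nat.add (Nat.add (Nat.add (Nat.add (Nat.add (Nat.add (Nat.add (Nat.add (Nat.add C x2544) x600) x1572) x924) x1248) x1032) x1140) x1068) x1092) x1084) x1086)
    (Nat.sub (Nat.add (Nat.add (Nat.add (Nat.add (Nat.add (Nat.add (Nat.add (Nat.add (Nat.add (Nat.add (Nat.add C x2548) x604) x1576) x928) x1252) x1036) x1144) x1072) x1108) x1084) x1092) x3276)
    (Nat.add (Nat.add (Nat.add (Nat.add (Nat.add (Nat.add (Nat.add (Nat.add (Nat.add (Nat.add (Nat.add (Nat.add (Nat.add C x1092) x2550) x606) x1578) x930) x1254) x1038) x1146) x1074) x1110) x1086) x1098) x1090)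
    (Nat.add (Nat.add (Nat.add (Nat.add (Nat.add (Nat.add (Nat.add (Nat.add (Nat.add (Nat.add C x1098) x2556) x612) x1584) x936) x1260) x1044) x1152) x1116) x1092)
    (Nat.sub (Nat.add (Nat.add (Nat.add (Nat.add (Nat.add (Nat.add (Nat.add (Nat.add C x2566) x622) x1594) x946) x1270) x1162) x1090) x1110) x3294)
    (Nat.add (Nat.add (Nat.add (Nat.add (Nat.add (Nat.add (Nat.add (Nat.add (Nat.add C x2568) x624) x1596) x948) x1272) x1164) x1092) x1116) x1108)
    (Nat.add (Nat.add (Nat.add (Nat.add (Nat.add (Nat.add (Nat.add (Nat.add (Nat.add C (Nat.mul x1116 (nat_lit 2))) x2574) x630) x1602) x954) x1278) x1170) x1098) x1110)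
    (Nat.sub (Nat.sub (Nat.add (Nat.add (Nat.add (Nat.add (Nat.add (Nat.add C x2594) x650) x1622) x1298) x1082) x1138) x1136) x3322)
    (Nat.sub (Nat.add (Nat.add (Nat.add (Nat.add (Nat.add (Nat.add (Nat.add (Nat.add C x2596) x652) x1624) x1300) x1084) x1144) x1136) x1140) x3324)
    (Nat.sub (Nat.add (Nat.add (Nat.add (Nat.add (Nat.add (Nat.add (Nat.add C x2598) x654) x1626) x1302) x1086) x1146) x1138) x1140)
    (Nat.sub (Nat.sub (Nat.add (Nat.add (Nat.add (Nat.add (Nat.add (Nat.add (Nat.add (Nat.add C x2602) x658) x1630) x1306) x1090) x1162) x1138) x1146) x1144) x3330)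
    (Nat.add (Nat.add (Nat.add (Nat.add (Nat.add (Nat.add (Nat.add (Nat.add (Nat.add C x2604) x660) x1632) x1308) x1092) x1164) x1140) x1152) x1144)
    (Nat.sub (Nat.add (Nat.add (Nat.add (Nat.add (Nat.add (Nat.add (Nat.add C x2610) x666) x1638) x1314) x1098) x1170) x1146) x1152)
    (Nat.sub (Nat.add (Nat.add (Nat.add (Nat.add (Nat.add (Nat.add (Nat.add (Nat.add C x1162) x2620) x676) x1648) x1324) x1108) x1144) x1164) x3348)
    (Nat.add (Nat.add (Nat.add (Nat.add (Nat.add (Nat.add (Nat.add (Nat.add (Nat.add C x1164) x2622) x678) x1650) x1326) x1110) x1146) x1170) x1162)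
    (Nat.add (Nat.add (Nat.add (Nat.add (Nat.add (Nat.add (Nat.add (Nat.add (Nat.add C (Nat.mul x1170 (nat_lit 2))) x2628) x684) x1656) x1332) x1116) x1152) x1188) x1164)
    (Nat.add (Nat.add (Nat.add (Nat.add (Nat.add (Nat.add C (Nat.mul x1188 (nat_lit 3))) x2646) x702) x1674) x1350) x1170)
    (Nat.sub (Nat.add (Nat.add (Nat.add (Nat.add (Nat.add C x2678) x1706) x1058) x1226) x1222) x3406)
    (Nat.sub (Nat.add (Nat.add (Nat.add (Nat.add (Nat.add C x2680) x1708) x1060) x1228) x1220) x3408)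
    (Nat.sub (Nat.sub (Nat.add (Nat.add (Nat.add (Nat.add (Nat.add (Nat.add C x2684) x1712) x1064) x1244) x1220) x1228) (Nat.mul x1226 (nat_lit 2))) x3412)
    (Nat.sub (Nat.add (Nat.add (Nat.add (Nat.add (Nat.add (Nat.add (Nat.add (Nat.add C x2686) x1714) x1066) x1246) x1222) x1234) x1226) x1230) x3414)
    (Nat.add (Nat.add (Nat.add (Nat.add (Nat.add (Nat.add C x2688) x1716) x1068) x1248) x1236) x1228)
    (Nat.sub (Nat.sub (Nat.add (Nat.add (Nat.add (Nat.add (Nat.add (Nat.add C x2692) x1720) x1072) x1252) x1228) x1236) (Nat.mul x1234 (nat_lit 2))) x3420)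
    (Nat.add (Nat.add (Nat.add (Nat.add (Nat.add (Nat.add C x2694) x1722) x1074) x1254) x1230) x1234)
    (Nat.sub (Nat.sub (Nat.add (Nat.add (Nat.add (Nat.add (Nat.add (Nat.add C x2702) x1730) x1082) x1298) x1226) x1246) (Nat.mul x1244 (nat_lit 2))) x3430)
    (Nat.sub (Nat.sub (Nat.add (Nat.add (Nat.add (Nat.add (Nat.add (Nat.add (Nat.add (Nat.add C x2704) x1732) x1084) x1300) x1228) x1252) x1244) x1248) x1246) x3432)
    (Nat.sub (Nat.add (Nat.add (Nat.add (Nat.add (Nat.add (Nat.add (Nat.add C x2706) x1734) x1086) x1302) x1230) x1254) x1246) (Nat.mul x1248 (nat_lit 2)))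
    (Nat.sub (Nat.sub (Nat.add (Nat.add (Nat.add (Nat.add (Nat.add (Nat.add (Nat.add (Nat.add C x2710) x1738) x1090) x1306) x1234) x1270) x1246) x1254) x1252) x3438)
    (Nat.add (Nat.add (Nat.add (Nat.add (Nat.add (Nat.add (Nat.add (Nat.add (Nat.add C x2712) x1740) x1092) x1308) x1236) x1272) x1248) x1260) x1252)
    (Nat.add (Nat.add (Nat.add (Nat.add (Nat.add (Nat.add C x2718) x1746) x1098) x1314) x1278) x1254)
    (Nat.sub (Nat.sub (Nat.add (Nat.add (Nat.add (Nat.add (Nat.add (Nat.add C x2728) x1756) x1108) x1324) x1252) x1272) (Nat.mul x1270 (nat_lit 2))) x3456)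
    (Nat.sub (Nat.add (Nat.add (Nat.add (Nat.add (Nat.add (Nat.add (Nat.add C x2730) x1758) x1110) x1326) x1254) x1278) x1270) (Nat.mul x1272 (nat_lit 2)))
    (Nat.add (Nat.add (Nat.add (Nat.add (Nat.add (Nat.add C x2736) x1764) x1116) x1332) x1260) x1272)
    (Nat.sub (Nat.add (Nat.add (Nat.add (Nat.add (Nat.add C x2756) x1784) x1136) x1244) x1300) x3484)
    (Nat.sub (Nat.add (Nat.add (Nat.add (Nat.add (Nat.add (Nat.add (Nat.add (Nat.add C x1300) x2758) x1786) x1138) x1246) x1306) x1298) x1302) x3486)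
    (Nat.add (Nat.add (Nat.add (Nat.add (Nat.add (Nat.add C x2760) x1788) x1140) x1248) x1308) x1300)
    (Nat.sub (Nat.add (Nat.add (Nat.add (Nat.add (Nat.add (Nat.add (Nat.add C x2764) x1792) x1144) x1252) x1324) x1300) x1308) x3492)
    (Nat.add (Nat.add (Nat.add (Nat.add (Nat.add (Nat.add (Nat.add (Nat.add (Nat.add C x1308) x2766) x1794) x1146) x1254) x1326) x1302) x1314) x1306)
    (Nat.add (Nat.add (Nat.add (Nat.add (Nat.add (Nat.add C x2772) x1800) x1152) x1260) x1332) x1308)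
    (Nat.sub (Nat.add (Nat.add (Nat.add (Nat.add (Nat.add (Nat.add (Nat.add (Nat.add C x1324) x2782) x1810) x1162) x1270) x1378) x1306) x1326) x3510)
    (Nat.add (Nat.add (Nat.add (Nat.add (Nat.add (Nat.add (Nat.add (Nat.add (Nat.add C x1326) x2784) x1812) x1164) x1272) x1380) x1308) x1332) x1324)
    (Nat.add (Nat.add (Nat.add (Nat.add (Nat.add (Nat.add (Nat.add (Nat.add (Nat.add C (Nat.mul x1332 (nat_lit 2))) x2790) x1818) x1170) x1278) x1386) x1314) x1350) x1326)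
    (Nat.add (Nat.add (Nat.add (Nat.add (Nat.add (Nat.add C (Nat.mul x1350 (nat_lit 2))) x2808) x1836) x1188) x1404) x1332)
    (Nat.sub (Nat.add (Nat.add (Nat.add (Nat.add (Nat.add C (Nat.mul x1378 (nat_lit 2))) x2836) x1864) x1324) x1380) x3564)
    (Nat.add (Nat.add (Nat.add (Nat.add (Nat.add (Nat.add C (Nat.mul x1380 (nat_lit 2))) x2838) x1866) x1326) x1386) x1378)
    (Nat.add (Nat.add (Nat.add (Nat.add (Nat.add (Nat.add C (Nat.mul x1386 (nat_lit 2))) x2844) x1872) x1332) x1404) x1380)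
    (Nat.add (Nat.add (Nat.add (Nat.add (Nat.add C (Nat.mul x1404 (nat_lit 4))) x2862) x1890) x1350) x1386)
    (Nat.sub (Nat.add (Nat.add (Nat.add C x2924) x980) x1472) x3652)
    (Nat.sub (Nat.sub (Nat.add (Nat.add (Nat.add (Nat.add (Nat.add (Nat.add C x2930) x986) x1490) x1466) x1478) x1474) x1472) x3658)
    (Nat.sub (Nat.add (Nat.add (Nat.add (Nat.add (Nat.add C x2932) x988) x1492) x1480) x1472) x3660)
    (Nat.sub (Nat.sub (Nat.add (Nat.add (Nat.add (Nat.add (Nat.add C x2936) x992) x1496) x1472) x1480) (Nat.mul x1478 (nat_lit 4))) x3664)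
    (Nat.sub (Nat.sub (Nat.add (Nat.add (Nat.add (Nat.add (Nat.add (Nat.add C x2938) x994) x1498) x1474) x1478) x1482) x1480) x3666)
    (Nat.add (Nat.add (Nat.add (Nat.add C x2940) x996) x1500) x1480)
    (Nat.sub (Nat.sub (Nat.add (Nat.add (Nat.add (Nat.add (Nat.add (Nat.add C x2948) x1004) x1544) x1472) x1496) x1492) (Nat.mul x1490 (nat_lit 2))) x3676)
    (Nat.sub (Nat.sub (Nat.add (Nat.add (Nat.add (Nat.add (Nat.add (Nat.add C x2950) x1006) x1546) x1474) x1498) x1490) (Nat.mul x1492 (nat_lit 2))) x3678)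
    (Nat.sub (Nat.sub (Nat.add (Nat.add (Nat.add (Nat.add (Nat.add (Nat.add (Nat.add C x2954) x1010) x1550) x1478) x1514) x1490) x1498) (Nat.mul x1496 (nat_lit 3))) x3682)
    (Nat.sub (Nat.sub (Nat.add (Nat.add (Nat.add (Nat.add (Nat.add (Nat.add (Nat.add (Nat.add (Nat.add C x2956) x1012) x1552) x1480) x1516) x1492) x1504) x1496) x1500) x1498) x3684)
    (Nat.sub (Nat.add (Nat.add (Nat.add (Nat.add (Nat.add (Nat.add (Nat.add C x2958) x1014) x1554) x1482) x1518) x1506) x1498) x1500)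
    (Nat.sub (Nat.sub (Nat.add (Nat.add (Nat.add (Nat.add (Nat.add (Nat.add C x2962) x1018) x1558) x1522) x1498) x1506) (Nat.mul x1504 (nat_lit 2))) x3690)
    (Nat.add (Nat.add (Nat.add (Nat.add (Nat.add (Nat.add C x2964) x1020) x1560) x1524) x1500) x1504)
    (Nat.sub (Nat.sub (Nat.add (Nat.add (Nat.add (Nat.add (Nat.add C x2972) x1028) x1568) x1496) x1516) (Nat.mul x1514 (nat_lit 4))) x3700)
    (Nat.sub (Nat.sub (Nat.add (Nat.add (Nat.add (Nat.add (Nat.add (Nat.add (Nat.add C x2974) x1030) x1570) x1498) x1522) x1514) x1518) (Nat.mul x1516 (nat_lit 3))) x3702)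
    (Nat.sub (Nat.add (Nat.add (Nat.add (Nat.add (Nat.add (Nat.add C x2976) x1032) x1572) x1500) x1524) x1516) (Nat.mul x1518 (nat_lit 4)))
    (Nat.sub (Nat.sub (Nat.add (Nat.add (Nat.add (Nat.add (Nat.add (Nat.add C x2980) x1036) x1576) x1504) x1516) x1524) (Nat.mul x1522 (nat_lit 2))) x3708)
    (Nat.sub (Nat.add (Nat.add (Nat.add (Nat.add (Nat.add (Nat.add (Nat.add C x2982) x1038) x1578) x1506) x1518) x1530) x1522) x1524)
    (Nat.add (Nat.add (Nat.add (Nat.add C x2988) x1044) x1584) x1524)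
    (Nat.sub (Nat.sub (Nat.add (Nat.add (Nat.add (Nat.add (Nat.add (Nat.add C x3002) x1058) x1706) x1490) x1550) x1546) (Nat.mul x1544 (nat_lit 2))) x3730)
    (Nat.sub (Nat.sub (Nat.add (Nat.add (Nat.add (Nat.add (Nat.add (Nat.add C x3004) x1060) x1708) x1492) x1552) x1544) (Nat.mul x1546 (nat_lit 2))) x3732)
    (Nat.sub (Nat.sub (Nat.add (Nat.add (Nat.add (Nat.add (Nat.add (Nat.add (Nat.add C x3008) x1064) x1712) x1496) x1568) x1544) x1552) (Nat.mul x1550 (nat_lit 4))) x3736)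
    (Nat.sub (Nat.sub (Nat.add (Nat.add (Nat.add (Nat.add (Nat.add (Nat.add (Nat.add (Nat.add (Nat.add C x3010) x1066) x1714) x1498) x1570) x1546) x1558) x1550) x1554) (Nat.mul x1552 (nat_lit 2))) x3738)
    (Nat.sub (Nat.add (Nat.add (Nat.add (Nat.add (Nat.add (Nat.add (Nat.add C x3012) x1068) x1716) x1500) x1572) x1560) x1552) (Nat.mul x1554 (nat_lit 2)))
    (Nat.sub (Nat.sub (Nat.add (Nat.add (Nat.add (Nat.add (Nat.add (Nat.add (Nat.add C x3016) x1072) x1720) x1504) x1576) x1552) x1560) (Nat.mul x1558 (nat_lit 4))) x3744)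
    (Nat.sub (Nat.add (Nat.add (Nat.add (Nat.add (Nat.add (Nat.add (Nat.add C x3018) x1074) x1722) x1506) x1578) x1554) x1558) (Nat.mul x1560 (nat_lit 2)))
    (Nat.sub (Nat.sub (Nat.add (Nat.add (Nat.add (Nat.add (Nat.add (Nat.add (Nat.add C x3026) x1082) x1730) x1514) x1622) x1550) x1570) (Nat.mul x1568 (nat_lit 3))) x3754)
    (Nat.sub (Nat.sub (Nat.add (Nat.add (Nat.add (Nat.add (Nat.add (Nat.add (Nat.add (Nat.add (Nat.add C x3028) x1084) x1732) x1516) x1624) x1552) x1576) x1568) x1572) (Nat.mul x1570 (nat_lit 2))) x3756)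
    (Nat.sub (Nat.add (Nat.add (Nat.add (Nat.add (Nat.add (Nat.add (Nat.add (Nat.add C x3030) x1086) x1734) x1518) x1626) x1554) x1578) x1570) (Nat.mul x1572 (nat_lit 3)))
    (Nat.sub (Nat.sub (Nat.add (Nat.add (Nat.add (Nat.add (Nat.add (Nat.add (Nat.add (Nat.add (Nat.add C x3034) x1090) x1738) x1522) x1630) x1558) x1594) x1570) x1578) (Nat.mul x1576 (nat_lit 2))) x3762)
    (Nat.sub (Nat.add (Nat.add (Nat.add (Nat.add (Nat.add (Nat.add (Nat.add (Nat.add (Nat.add (Nat.add C x3036) x1092) x1740) x1524) x1632) x1560) x1596) x1572) x1584) x1576) x1578)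
    (Nat.sub (Nat.add (Nat.add (Nat.add (Nat.add (Nat.add (Nat.add (Nat.add C x3042) x1098) x1746) x1530) x1638) x1602) x1578) x1584)
    (Nat.sub (Nat.sub (Nat.add (Nat.add (Nat.add (Nat.add (Nat.add (Nat.add C x3052) x1108) x1756) x1648) x1576) x1596) (Nat.mul x1594 (nat_lit 2))) x3780)
    (Nat.sub (Nat.add (Nat.add (Nat.add (Nat.add (Nat.add (Nat.add (Nat.add C x3054) x1110) x1758) x1650) x1578) x1602) x1594) (Nat.mul x1596 (nat_lit 2)))
    (Nat.add (Nat.add (Nat.add (Nat.add (Nat.add (Nat.add C x3060) x1116) x1764) x1656) x1584) x1596)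
    (Nat.sub (Nat.sub (Nat.add (Nat.add (Nat.add (Nat.add (Nat.add C x3080) x1136) x1784) x1568) x1624) (Nat.mul x1622 (nat_lit 4))) x3808)
    (Nat.sub (Nat.sub (Nat.add (Nat.add (Nat.add (Nat.add (Nat.add (Nat.add (Nat.add C x3082) x1138) x1786) x1570) x1630) x1622) x1626) (Nat.mul x1624 (nat_lit 3))) x3810)
    (Nat.sub (Nat.add (Nat.add (Nat.add (Nat.add (Nat.add (Nat.add C x3084) x1140) x1788) x1572) x1632) x1624) (Nat.mul x1626 (nat_lit 4)))
    (Nat.sub (Nat.sub (Nat.add (Nat.add (Nat.add (Nat.add (Nat.add (Nat.add (Nat.add C x3088) x1144) x1792) x1576) x1648) x1624) x1632) (Nat.mul x1630 (nat_lit 4))) x3816)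
    (Nat.sub (Nat.add (Nat.add (Nat.add (Nat.add (Nat.add (Nat.add (Nat.add (Nat.add C x3090) x1146) x1794) x1578) x1650) x1626) x1638) x1630) (Nat.mul x1632 (nat_lit 3)))
    (Nat.sub (Nat.add (Nat.add (Nat.add (Nat.add (Nat.add (Nat.add C x3096) x1152) x1800) x1584) x1656) x1632) (Nat.mul x1638 (nat_lit 4)))
    (Nat.sub (Nat.sub (Nat.add (Nat.add (Nat.add (Nat.add (Nat.add (Nat.add C x3106) x1162) x1810) x1594) x1630) x1650) (Nat.mul x1648 (nat_lit 2))) x3834)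
    (Nat.sub (Nat.add (Nat.add (Nat.add (Nat.add (Nat.add (Nat.add (Nat.add C x3108) x1164) x1812) x1596) x1632) x1656) x1648) (Nat.mul x1650 (nat_lit 2)))
    (Nat.sub (Nat.add (Nat.add (Nat.add (Nat.add (Nat.add (Nat.add (Nat.add C x3114) x1170) x1818) x1602) x1638) x1674) x1650) x1656)
    (Nat.add (Nat.add (Nat.add (Nat.add C x3132) x1188) x1836) x1656)
    (Nat.sub (Nat.add (Nat.add (Nat.add (Nat.add (Nat.add C x3164) x1220) x1544) x1712) x1708) x3892)
    (Nat.sub (Nat.add (Nat.add (Nat.add (Nat.add (Nat.add C x3166) x1222) x1546) x1714) x1706) x3894)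
    (Nat.sub (Nat.sub (Nat.add (Nat.add (Nat.add (Nat.add (Nat.add (Nat.add C x3170) x1226) x1550) x1730) x1706) x1714) (Nat.mul x1712 (nat_lit 2))) x3898)
    (Nat.sub (Nat.add (Nat.add (Nat.add (Nat.add (Nat.add (Nat.add (Nat.add (Nat.add C x3172) x1228) x1552) x1732) x1708) x1720) x1712) x1716) x3900)
    (Nat.add (Nat.add (Nat.add (Nat.add (Nat.add (Nat.add C x3174) x1230) x1554) x1734) x1722) x1714)
    (Nat.sub (Nat.sub (Nat.add (Nat.add (Nat.add (Nat.add (Nat.add (Nat.add C x3178) x1234) x1558) x1738) x1714) x1722) (Nat.mul x1720 (nat_lit 2))) x3906)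
    (Nat.add (Nat.add (Nat.add (Nat.add (Nat.add (Nat.add C x3180) x1236) x1560) x1740) x1716) x1720)
    (Nat.sub (Nat.sub (Nat.add (Nat.add (Nat.add (Nat.add (Nat.add (Nat.add C x3188) x1244) x1568) x1784) x1712) x1732) (Nat.mul x1730 (nat_lit 2))) x3916)
    (Nat.sub (Nat.sub (Nat.add (Nat.add (Nat.add (Nat.add (Nat.add (Nat.add (Nat.add (Nat.add C x3190) x1246) x1570) x1786) x1714) x1738) x1730) x1734) x1732) x3918)
    (Nat.sub (Nat.add (Nat.add (Nat.add (Nat.add (Nat.add (Nat.add (Nat.add C x3192) x1248) x1572) x1788) x1716) x1740) x1732) (Nat.mul x1734 (nat_lit 2)))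
    (Nat.sub (Nat.sub (Nat.add (Nat.add (Nat.add (Nat.add (Nat.add (Nat.add (Nat.add (Nat.add C x3196) x1252) x1576) x1792) x1720) x1756) x1732) x1740) x1738) x3924)
    (Nat.add (Nat.add (Nat.add (Nat.add (Nat.add (Nat.add (Nat.add (Nat.add (Nat.add C x3198) x1254) x1578) x1794) x1722) x1758) x1734) x1746) x1738)
    (Nat.add (Nat.add (Nat.add (Nat.add (Nat.add (Nat.add C x3204) x1260) x1584) x1800) x1764) x1740)
    (Nat.sub (Nat.sub (Nat.add (Nat.add (Nat.add (Nat.add (Nat.add (Nat.add C x3214) x1270) x1594) x1810) x1738) x1758) (Nat.mul x1756 (nat_lit 2))) x3942)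
    (Nat.sub (Nat.add (Nat.add (Nat.add (Nat.add (Nat.add (Nat.add (Nat.add C x3216) x1272) x1596) x1812) x1740) x1764) x1756) (Nat.mul x1758 (nat_lit 2)))
    (Nat.add (Nat.add (Nat.add (Nat.add (Nat.add (Nat.add C x3222) x1278) x1602) x1818) x1746) x1758)
    (Nat.sub (Nat.sub (Nat.add (Nat.add (Nat.add (Nat.add (Nat.add (Nat.add C x3242) x1298) x1622) x1946) x1730) x1786) x1784) x3970)
    (Nat.sub (Nat.add (Nat.add (Nat.add (Nat.add (Nat.add (Nat.add (Nat.add (Nat.add C x3244) x1300) x1624) x1948) x1732) x1792) x1784) x1788) x3972)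
    (Nat.sub (Nat.add (Nat.add (Nat.add (Nat.add (Nat.add (Nat.add (Nat.add C x3246) x1302) x1626) x1950) x1734) x1794) x1786) x1788)
    (Nat.sub (Nat.sub (Nat.add (Nat.add (Nat.add (Nat.add (Nat.add (Nat.add (Nat.add (Nat.add C x3250) x1306) x1630) x1954) x1738) x1810) x1786) x1794) x1792) x3978)
    (Nat.add (Nat.add (Nat.add (Nat.add (Nat.add (Nat.add (Nat.add (Nat.add (Nat.add C x3252) x1308) x1632) x1956) x1740) x1812) x1788) x1800) x1792)
    (Nat.sub (Nat.add (Nat.add (Nat.add (Nat.add (Nat.add (Nat.add (Nat.add C x3258) x1314) x1638) x1962) x1746) x1818) x1794) x1800)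
    (Nat.sub (Nat.add (Nat.add (Nat.add (Nat.add (Nat.add (Nat.add (Nat.add (Nat.add C x3268) x1324) x1648) x1972) x1756) x1864) x1792) x1812) x3996)
    (Nat.add (Nat.add (Nat.add (Nat.add (Nat.add (Nat.add (Nat.add (Nat.add (Nat.add C x3270) x1326) x1650) x1974) x1758) x1866) x1794) x1818) x1810)
    (Nat.add (Nat.add (Nat.add (Nat.add (Nat.add (Nat.add (Nat.add (Nat.add (Nat.add (Nat.add C x1818) x3276) x1332) x1656) x1980) x1764) x1872) x1800) x1836) x1812)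
    (Nat.add (Nat.add (Nat.add (Nat.add (Nat.add (Nat.add (Nat.add C x1836) x3294) x1350) x1674) x1998) x1890) x1818)
    (Nat.sub (Nat.add (Nat.add (Nat.add (Nat.add (Nat.add C x3322) x1378) x2026) x1810) x1866) x4050)
    (Nat.add (Nat.add (Nat.add (Nat.add (Nat.add (Nat.add C x3324) x1380) x2028) x1812) x1872) x1864)
    (Nat.add (Nat.add (Nat.add (Nat.add (Nat.add (Nat.add C x3330) x1386) x2034) x1818) x1890) x1866)
    (Nat.add (Nat.add (Nat.add (Nat.add (Nat.add (Nat.add C (Nat.mul x1890 (nat_lit 2))) x3348) x1404) x2052) x1836) x1872)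
    (Nat.sub (Nat.add (Nat.add (Nat.add C x3404) x1784) x1948) x4132)
    (Nat.sub (Nat.add (Nat.add (Nat.add (Nat.add (Nat.add (Nat.add C x1948) x3406) x1786) x1954) x1946) x1950) x4134)
    (Nat.add (Nat.add (Nat.add (Nat.add C x3408) x1788) x1956) x1948)
    (Nat.sub (Nat.add (Nat.add (Nat.add (Nat.add (Nat.add C x3412) x1792) x1972) x1948) x1956) x4140)
    (Nat.add (Nat.add (Nat.add (Nat.add (Nat.add (Nat.add (Nat.add C x1956) x3414) x1794) x1974) x1950) x1962) x1954)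
    (Nat.add (Nat.add (Nat.add (Nat.add C x3420) x1800) x1980) x1956)
    (Nat.sub (Nat.add (Nat.add (Nat.add (Nat.add (Nat.add C x3430) x1810) x2026) x1954) x1974) x4158)
    (Nat.add (Nat.add (Nat.add (Nat.add (Nat.add (Nat.add C x3432) x1812) x2028) x1956) x1980) x1972)
    (Nat.add (Nat.add (Nat.add (Nat.add (Nat.add (Nat.add (Nat.add C x1980) x3438) x1818) x2034) x1962) x1998) x1974)
    (Nat.add (Nat.add (Nat.add (Nat.add C x3456) x1836) x2052) x1980)
    (Nat.sub (Nat.add (Nat.add (Nat.add (Nat.add (Nat.add C (Nat.mul x2026 (nat_lit 2))) x3484) x1864) x1972) x2028) x4212)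
    (Nat.add (Nat.add (Nat.add (Nat.add (Nat.add (Nat.add C (Nat.mul x2028 (nat_lit 2))) x3486) x1866) x1974) x2034) x2026)
    (Nat.add (Nat.add (Nat.add (Nat.add (Nat.add (Nat.add C (Nat.mul x2034 (nat_lit 2))) x3492) x1872) x1980) x2052) x2028)
    (Nat.add (Nat.add (Nat.add (Nat.add (Nat.add (Nat.add C (Nat.mul x2052 (nat_lit 3))) x3510) x1890) x1998) x2106) x2034)
    (Nat.add (Nat.add (Nat.add C (Nat.mul x2106 (nat_lit 4))) x3564) x2052)
    (Nat.sub (Nat.add (Nat.add (Nat.add (Nat.add C (Nat.mul x2204 (nat_lit 4))) x746) x2222) x2210) x4390)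
    (Nat.sub (Nat.add (Nat.add (Nat.add (Nat.add (Nat.add C (Nat.mul x2210 (nat_lit 2))) x752) x2228) x2204) x2212) x4396)
    (Nat.sub (Nat.sub (Nat.add (Nat.add (Nat.add (Nat.add C (Nat.mul x2212 (nat_lit 3))) x754) x2230) x2210) x4398) x26)
    (Nat.sub (Nat.add (Nat.add (Nat.add (Nat.add (Nat.add C (Nat.mul x2222 (nat_lit 2))) x764) x2276) x2204) x2228) x4408)
    (Nat.sub (Nat.add (Nat.add (Nat.add (Nat.add (Nat.add (Nat.add (Nat.add (Nat.add C (Nat.mul x2228 (nat_lit 2))) x770) x2282) x2210) x2246) x2222) x2234) x2230) x4414)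
    (Nat.sub (Nat.sub (Nat.add (Nat.add (Nat.add (Nat.add (Nat.add (Nat.add (Nat.add C (Nat.mul x2230 (nat_lit 2))) x772) x2284) x2212) x2248) x2236) x2228) x4416) x44)
    (Nat.sub (Nat.add (Nat.add (Nat.add (Nat.add (Nat.add C x776) x2288) x2252) x2228) x2236) x4420)
    (Nat.sub (Nat.sub (Nat.add (Nat.add (Nat.add (Nat.add (Nat.add (Nat.add (Nat.add C (Nat.mul x2236 (nat_lit 2))) x778) x2290) x2254) x2230) x2234) x2238) x4422) x50)
    (Nat.sub (Nat.add (Nat.add (Nat.add (Nat.add (Nat.add C (Nat.mul x2238 (nat_lit 2))) x780) x2292) x2256) x2236) x52)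
    (Nat.sub (Nat.add (Nat.add (Nat.add (Nat.add (Nat.add C x788) x2300) x2228) x2252) x2248) x4432)
    (Nat.sub (Nat.sub (Nat.sub (Nat.add (Nat.add (Nat.add (Nat.add (Nat.add C x790) x2302) x2230) x2254) x2246) x2248) x4434) x62)
    (Nat.sub (Nat.add (Nat.add (Nat.add (Nat.add (Nat.add C x794) x2306) x2234) x2246) x2254) x4438)
    (Nat.sub (Nat.sub (Nat.add (Nat.add (Nat.add (Nat.add (Nat.add (Nat.add (Nat.add (Nat.add C x2254) x796) x2308) x2236) x2248) x2260) x2252) x2256) x4440) x68)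
    (Nat.sub (Nat.add (Nat.add (Nat.add (Nat.add (Nat.add C x798) x2310) x2238) x2262) x2254) x70)
    (Nat.sub (Nat.sub (Nat.add (Nat.add (Nat.add (Nat.add (Nat.add C x2260) x802) x2314) x2254) x2262) x4446) x74)
    (Nat.sub (Nat.add (Nat.add (Nat.add (Nat.add (Nat.add C (Nat.mul x2262 (nat_lit 2))) x804) x2316) x2256) x2260) x76)
    (Nat.sub (Nat.add (Nat.add (Nat.add (Nat.add (Nat.add C (Nat.mul x2276 (nat_lit 2))) x818) x2438) x2222) x2282) x4462)
    (Nat.sub (Nat.add (Nat.add (Nat.add (Nat.add (Nat.add (Nat.add (Nat.add (Nat.add C x2282) x824) x2444) x2228) x2300) x2276) x2288) x2284) x4468)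
    (Nat.sub (Nat.sub (Nat.add (Nat.add (Nat.add (Nat.add (Nat.add (Nat.add (Nat.add C x2284) x826) x2446) x2230) x2302) x2290) x2282) x4470) x98)
    (Nat.sub (Nat.sub (Nat.add (Nat.add (Nat.add (Nat.add (Nat.add (Nat.add C x830) x2450) x2234) x2306) x2282) x2290) (Nat.mul x2288 (nat_lit 2))) x4474)
    (Nat.sub (Nat.sub (Nat.add (Nat.add (Nat.add (Nat.add (Nat.add (Nat.add (Nat.add C x832) x2452) x2236) x2308) x2284) x2288) x2292) x4476) x104)
    (Nat.sub (Nat.add (Nat.add (Nat.add (Nat.add (Nat.add C x834) x2454) x2238) x2310) x2290) x106)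
    (Nat.sub (Nat.add (Nat.add (Nat.add (Nat.add (Nat.add (Nat.add (Nat.add (Nat.add C x2300) x842) x2462) x2246) x2354) x2282) x2306) x2302) x4486)
    (Nat.sub (Nat.sub (Nat.add (Nat.add (Nat.add (Nat.add (Nat.add (Nat.add (Nat.add C x844) x2464) x2248) x2356) x2284) x2308) x2300) x4488) x116)
    (Nat.sub (Nat.add (Nat.add (Nat.add (Nat.add (Nat.add (Nat.add (Nat.add (Nat.add C x848) x2468) x2252) x2360) x2288) x2324) x2300) x2308) x4492)
    (Nat.sub (Nat.sub (Nat.add (Nat.add (Nat.add (Nat.add (Nat.add (Nat.add (Nat.add (Nat.add (Nat.add (Nat.add (Nat.add C x2308) x850) x2470) x2254) x2362) x2290) x2326) x2302) x2314) x2306) x2310) x4494) x122)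
    (Nat.sub (Nat.add (Nat.add (Nat.add (Nat.add (Nat.add (Nat.add (Nat.add (Nat.add C x852) x2472) x2256) x2364) x2292) x2328) x2316) x2308) x124)
    (Nat.sub (Nat.sub (Nat.add (Nat.add (Nat.add (Nat.add (Nat.add (Nat.add (Nat.add C x856) x2476) x2260) x2368) x2332) x2308) x2316) x4500) x128)
    (Nat.sub (Nat.add (Nat.add (Nat.add (Nat.add (Nat.add (Nat.add (Nat.add (Nat.add C x2316) x858) x2478) x2262) x2370) x2334) x2310) x2314) x130)
    (Nat.sub (Nat.add (Nat.add (Nat.add (Nat.add (Nat.add C x866) x2486) x2378) x2306) x2326) x4510)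
    (Nat.sub (Nat.sub (Nat.add (Nat.add (Nat.add (Nat.add (Nat.add (Nat.add (Nat.add C x868) x2488) x2380) x2308) x2332) x2324) x2328) x4512) x140)
    (Nat.sub (Nat.sub (Nat.add (Nat.add (Nat.add (Nat.add (Nat.add (Nat.add C x870) x2490) x2382) x2310) x2334) x2326) (Nat.mul x2328 (nat_lit 2))) x142)
    (Nat.sub (Nat.sub (Nat.add (Nat.add (Nat.add (Nat.add (Nat.add (Nat.add (Nat.add C x2332) x874) x2494) x2386) x2314) x2326) x2334) x4518) x146)
    (Nat.sub (Nat.add (Nat.add (Nat.add (Nat.add (Nat.add (Nat.add (Nat.add (Nat.add C x2334) x876) x2496) x2388) x2316) x2328) x2340) x2332) x148)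
    (Nat.sub (Nat.add (Nat.add (Nat.add (Nat.add (Nat.add C (Nat.mul x2340 (nat_lit 2))) x882) x2502) x2394) x2334) x154)
    (Nat.sub (Nat.add (Nat.add (Nat.add (Nat.add (Nat.add C x896) x2516) x2300) x2360) x2356) x4540)
    (Nat.sub (Nat.sub (Nat.sub (Nat.add (Nat.add (Nat.add (Nat.add (Nat.add C x898) x2518) x2302) x2362) x2354) x2356) x4542) x170)
    (Nat.sub (Nat.sub (Nat.add (Nat.add (Nat.add (Nat.add (Nat.add (Nat.add C x902) x2522) x2306) x2378) x2354) x2362) (Nat.mul x2360 (nat_lit 2))) x4546)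
    (Nat.sub (Nat.sub (Nat.sub (Nat.add (Nat.add (Nat.add (Nat.add (Nat.add (Nat.add (Nat.add (Nat.add C x904) x2524) x2308) x2380) x2356) x2368) x2360) x2364) x2362) x4548) x176)
    (Nat.sub (Nat.sub (Nat.add (Nat.add (Nat.add (Nat.add (Nat.add (Nat.add C x906) x2526) x2310) x2382) x2370) x2362) (Nat.mul x2364 (nat_lit 2))) x178)
    (Nat.sub (Nat.sub (Nat.sub (Nat.add (Nat.add (Nat.add (Nat.add (Nat.add (Nat.add C x910) x2530) x2314) x2386) x2362) x2370) (Nat.mul x2368 (nat_lit 3))) x4554) x182)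
    (Nat.sub (Nat.sub (Nat.add (Nat.add (Nat.add (Nat.add (Nat.add (Nat.add C x912) x2532) x2316) x2388) x2364) x2368) (Nat.mul x2370 (nat_lit 2))) x184)
    (Nat.sub (Nat.add (Nat.add (Nat.add (Nat.add (Nat.add C x920) x2540) x2324) x2360) x2380) x4564)
    (Nat.sub (Nat.sub (Nat.add (Nat.add (Nat.add (Nat.add (Nat.add (Nat.add (Nat.add C x922) x2542) x2326) x2362) x2386) x2378) x2382) x4566) x194)
    (Nat.sub (Nat.sub (Nat.add (Nat.add (Nat.add (Nat.add (Nat.add (Nat.add C x924) x2544) x2328) x2364) x2388) x2380) (Nat.mul x2382 (nat_lit 2))) x196)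
    (Nat.sub (Nat.sub (Nat.add (Nat.add (Nat.add (Nat.add (Nat.add (Nat.add (Nat.add C x928) x2548) x2332) x2368) x2404) x2380) x2388) x4572) x200)
    (Nat.sub (Nat.add (Nat.add (Nat.add (Nat.add (Nat.add (Nat.add (Nat.add (Nat.add C x930) x2550) x2334) x2370) x2406) x2382) x2394) x2386) x202)
    (Nat.sub (Nat.add (Nat.add (Nat.add (Nat.add (Nat.add C x936) x2556) x2340) x2412) x2388) x208)
    (Nat.sub (Nat.sub (Nat.add (Nat.add (Nat.add (Nat.add (Nat.add C x2404) x946) x2566) x2386) x2406) x4590) x218)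
    (Nat.sub (Nat.add (Nat.add (Nat.add (Nat.add (Nat.add C x948) x2568) x2388) x2412) x2404) x220)
    (Nat.sub (Nat.add (Nat.add (Nat.add (Nat.add (Nat.add C (Nat.mul x2412 (nat_lit 2))) x954) x2574) x2394) x2406) x226)
    (Nat.sub (Nat.add (Nat.add (Nat.add (Nat.add (Nat.add C (Nat.mul x2438 (nat_lit 2))) x980) x2924) x2276) x2444) x4624)
    (Nat.sub (Nat.add (Nat.add (Nat.add (Nat.add (Nat.add (Nat.add (Nat.add (Nat.add C x2444) x986) x2930) x2282) x2462) x2438) x2450) x2446) x4630)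
    (Nat.sub (Nat.sub (Nat.add (Nat.add (Nat.add (Nat.add (Nat.add (Nat.add (Nat.add C x2446) x988) x2932) x2284) x2464) x2452) x2444) x4632) x260)
    (Nat.sub (Nat.sub (Nat.add (Nat.add (Nat.add (Nat.add (Nat.add (Nat.add C x992) x2936) x2288) x2468) x2444) x2452) (Nat.mul x2450 (nat_lit 2))) x4636)
    (Nat.sub (Nat.sub (Nat.add (Nat.add (Nat.add (Nat.add (Nat.add (Nat.add (Nat.add C x994) x2938) x2290) x2470) x2446) x2450) x2454) x4638) x266)
    (Nat.sub (Nat.add (Nat.add (Nat.add (Nat.add (Nat.add C x996) x2940) x2292) x2472) x2452) x268)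
    (Nat.sub (Nat.add (Nat.add (Nat.add (Nat.add (Nat.add (Nat.add (Nat.add C x1004) x2948) x2300) x2516) x2444) x2468) x2464) x4648)
    (Nat.sub (Nat.sub (Nat.sub (Nat.add (Nat.add (Nat.add (Nat.add (Nat.add (Nat.add (Nat.add C x1006) x2950) x2302) x2518) x2446) x2470) x2462) x2464) x4650) x278)
    (Nat.sub (Nat.sub (Nat.add (Nat.add (Nat.add (Nat.add (Nat.add (Nat.add (Nat.add (Nat.add C x1010) x2954) x2306) x2522) x2450) x2486) x2462) x2470) x2468) x4654)
    (Nat.sub (Nat.sub (Nat.add (Nat.add (Nat.add (Nat.add (Nat.add (Nat.add (Nat.add (Nat.add (Nat.add (Nat.add C x1012) x2956) x2308) x2524) x2452) x2488) x2464) x2476) x2468) x2472) x4656) x284)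
    (Nat.sub (Nat.sub (Nat.add (Nat.add (Nat.add (Nat.add (Nat.add (Nat.add (Nat.add (Nat.add C x1014) x2958) x2310) x2526) x2454) x2490) x2478) x2470) x2472) x286)
    (Nat.sub (Nat.sub (Nat.sub (Nat.add (Nat.add (Nat.add (Nat.add (Nat.add (Nat.add (Nat.add C x1018) x2962) x2314) x2530) x2494) x2470) x2478) x2476) x4662) x290)
    (Nat.sub (Nat.add (Nat.add (Nat.add (Nat.add (Nat.add (Nat.add (Nat.add C x1020) x2964) x2316) x2532) x2496) x2472) x2476) x292)
    (Nat.sub (Nat.sub (Nat.add (Nat.add (Nat.add (Nat.add (Nat.add (Nat.add C x1028) x2972) x2324) x2540) x2468) x2488) (Nat.mul x2486 (nat_lit 2))) x4672)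
    (Nat.sub (Nat.sub (Nat.sub (Nat.add (Nat.add (Nat.add (Nat.add (Nat.add (Nat.add (Nat.add (Nat.add C x1030) x2974) x2326) x2542) x2470) x2494) x2486) x2490) (Nat.mul x2488 (nat_lit 2))) x4674) x302)
    (Nat.sub (Nat.sub (Nat.add (Nat.add (Nat.add (Nat.add (Nat.add (Nat.add (Nat.add C x1032) x2976) x2328) x2544) x2472) x2496) x2488) (Nat.mul x2490 (nat_lit 4))) x304)
    (Nat.sub (Nat.sub (Nat.sub (Nat.add (Nat.add (Nat.add (Nat.add (Nat.add (Nat.add (Nat.add C x1036) x2980) x2332) x2548) x2476) x2488) x2496) x2494) x4680) x308)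
    (Nat.sub (Nat.sub (Nat.add (Nat.add (Nat.add (Nat.add (Nat.add (Nat.add (Nat.add (Nat.add C x1038) x2982) x2334) x2550) x2478) x2490) x2502) x2494) x2496) x310)
    (Nat.sub (Nat.add (Nat.add (Nat.add (Nat.add (Nat.add C x1044) x2988) x2340) x2556) x2496) x316)
    (Nat.sub (Nat.add (Nat.add (Nat.add (Nat.add (Nat.add (Nat.add (Nat.add (Nat.add C x2516) x1058) x3002) x2354) x2678) x2462) x2522) x2518) x4702)
    (Nat.sub (Nat.sub (Nat.add (Nat.add (Nat.add (Nat.add (Nat.add (Nat.add (Nat.add C x1060) x3004) x2356) x2680) x2464) x2524) x2516) x4704) x332)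
    (Nat.sub (Nat.sub (Nat.add (Nat.add (Nat.add (Nat.add (Nat.add (Nat.add (Nat.add (Nat.add C x1064) x3008) x2360) x2684) x2468) x2540) x2516) x2524) x2522) x4708)
    (Nat.sub (Nat.sub (Nat.add (Nat.add (Nat.add (Nat.add (Nat.add (Nat.add (Nat.add (Nat.add (Nat.add (Nat.add C x1066) x3010) x2362) x2686) x2470) x2542) x2518) x2530) x2522) x2526) x4710) x338)
    (Nat.sub (Nat.sub (Nat.add (Nat.add (Nat.add (Nat.add (Nat.add (Nat.add (Nat.add (Nat.add C x1068) x3012) x2364) x2688) x2472) x2544) x2532) x2524) x2526) x340)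
    (Nat.sub (Nat.sub (Nat.sub (Nat.add (Nat.add (Nat.add (Nat.add (Nat.add (Nat.add (Nat.add (Nat.add C x1072) x3016) x2368) x2692) x2476) x2548) x2524) x2532) (Nat.mul x2530 (nat_lit 2))) x4716) x344)
    (Nat.sub (Nat.sub (Nat.add (Nat.add (Nat.add (Nat.add (Nat.add (Nat.add (Nat.add (Nat.add C x1074) x3018) x2370) x2694) x2478) x2550) x2526) x2530) x2532) x346)
    (Nat.sub (Nat.add (Nat.add (Nat.add (Nat.add (Nat.add (Nat.add (Nat.add (Nat.add C x1082) x3026) x2378) x2702) x2486) x2594) x2522) x2542) x4726)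
    (Nat.sub (Nat.sub (Nat.add (Nat.add (Nat.add (Nat.add (Nat.add (Nat.add (Nat.add (Nat.add (Nat.add (Nat.add C x1084) x3028) x2380) x2704) x2488) x2596) x2524) x2548) x2540) x2544) x4728) x356)
    (Nat.sub (Nat.sub (Nat.add (Nat.add (Nat.add (Nat.add (Nat.add (Nat.add (Nat.add (Nat.add (Nat.add C x1086) x3030) x2382) x2706) x2490) x2598) x2526) x2550) x2542) (Nat.mul x2544 (nat_lit 2))) x358)
    (Nat.sub (Nat.sub (Nat.add (Nat.add (Nat.add (Nat.add (Nat.add (Nat.add (Nat.add (Nat.add (Nat.add (Nat.add C x1090) x3034) x2386) x2710) x2494) x2602) x2530) x2566) x2542) x2550) x4734) x362)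
    (Nat.sub (Nat.add (Nat.add (Nat.add (Nat.add (Nat.add (Nat.add (Nat.add (Nat.add (Nat.add (Nat.add (Nat.add C x1092) x3036) x2388) x2712) x2496) x2604) x2532) x2568) x2544) x2556) x2548) x364)
    (Nat.sub (Nat.add (Nat.add (Nat.add (Nat.add (Nat.add (Nat.add (Nat.add (Nat.add C x1098) x3042) x2394) x2718) x2502) x2610) x2574) x2550) x370)
    (Nat.sub (Nat.sub (Nat.add (Nat.add (Nat.add (Nat.add (Nat.add (Nat.add (Nat.add C x1108) x3052) x2404) x2728) x2620) x2548) x2568) x4752) x380)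
    (Nat.sub (Nat.sub (Nat.add (Nat.add (Nat.add (Nat.add (Nat.add (Nat.add (Nat.add (Nat.add C x1110) x3054) x2406) x2730) x2622) x2550) x2574) x2566) x2568) x382)
    (Nat.sub (Nat.add (Nat.add (Nat.add (Nat.add (Nat.add (Nat.add (Nat.add (Nat.add C x2574) x1116) x3060) x2412) x2736) x2628) x2556) x2568) x388)
    (Nat.sub (Nat.add (Nat.add (Nat.add (Nat.add (Nat.add C x1136) x3080) x2756) x2540) x2596) x4780)
    (Nat.sub (Nat.sub (Nat.add (Nat.add (Nat.add (Nat.add (Nat.add (Nat.add (Nat.add C x1138) x3082) x2758) x2542) x2602) x2594) x2598) x4782) x410)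
    (Nat.sub (Nat.sub (Nat.add (Nat.add (Nat.add (Nat.add (Nat.add (Nat.add C x1140) x3084) x2760) x2544) x2604) x2596) (Nat.mul x2598 (nat_lit 2))) x412)
    (Nat.sub (Nat.sub (Nat.sub (Nat.add (Nat.add (Nat.add (Nat.add (Nat.add (Nat.add (Nat.add C x1144) x3088) x2764) x2548) x2620) x2596) x2604) x2602) x4788) x416)
    (Nat.sub (Nat.sub (Nat.add (Nat.add (Nat.add (Nat.add (Nat.add (Nat.add (Nat.add (Nat.add C x1146) x3090) x2766) x2550) x2622) x2598) x2610) x2602) x2604) x418)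
    (Nat.sub (Nat.sub (Nat.add (Nat.add (Nat.add (Nat.add (Nat.add (Nat.add C x1152) x3096) x2772) x2556) x2628) x2604) (Nat.mul x2610 (nat_lit 2))) x424)
    (Nat.sub (Nat.sub (Nat.add (Nat.add (Nat.add (Nat.add (Nat.add (Nat.add (Nat.add C x2620) x1162) x3106) x2782) x2566) x2602) x2622) x4806) x434)
    (Nat.sub (Nat.add (Nat.add (Nat.add (Nat.add (Nat.add (Nat.add (Nat.add C x1164) x3108) x2784) x2568) x2604) x2628) x2620) x436)
    (Nat.sub (Nat.add (Nat.add (Nat.add (Nat.add (Nat.add (Nat.add (Nat.add (Nat.add C x2628) x1170) x3114) x2790) x2574) x2610) x2646) x2622) x442)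
    (Nat.sub (Nat.add (Nat.add (Nat.add (Nat.add (Nat.add C (Nat.mul x2646 (nat_lit 2))) x1188) x3132) x2808) x2628) x460)
    (Nat.sub (Nat.add (Nat.add (Nat.add (Nat.add (Nat.add C x1220) x3164) x2516) x2684) x2680) x4864)
    (Nat.sub (Nat.sub (Nat.sub (Nat.add (Nat.add (Nat.add (Nat.add (Nat.add C x1222) x3166) x2518) x2686) x2678) x2680) x4866) x494)
    (Nat.sub (Nat.sub (Nat.add (Nat.add (Nat.add (Nat.add (Nat.add (Nat.add C x1226) x3170) x2522) x2702) x2678) x2686) (Nat.mul x2684 (nat_lit 2))) x4870)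
    (Nat.sub (Nat.sub (Nat.sub (Nat.add (Nat.add (Nat.add (Nat.add (Nat.add (Nat.add (Nat.add (Nat.add C x1228) x3172) x2524) x2704) x2680) x2692) x2684) x2688) x2686) x4872) x500)
    (Nat.sub (Nat.sub (Nat.add (Nat.add (Nat.add (Nat.add (Nat.add (Nat.add C x1230) x3174) x2526) x2706) x2694) x2686) (Nat.mul x2688 (nat_lit 2))) x502)
    (Nat.sub (Nat.sub (Nat.sub (Nat.add (Nat.add (Nat.add (Nat.add (Nat.add (Nat.add C x1234) x3178) x2530) x2710) x2686) x2694) (Nat.mul x2692 (nat_lit 3))) x4878) x506)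
    (Nat.sub (Nat.sub (Nat.add (Nat.add (Nat.add (Nat.add (Nat.add (Nat.add C x1236) x3180) x2532) x2712) x2688) x2692) (Nat.mul x2694 (nat_lit 2))) x508)
    (Nat.sub (Nat.sub (Nat.add (Nat.add (Nat.add (Nat.add (Nat.add (Nat.add C x1244) x3188) x2540) x2756) x2684) x2704) (Nat.mul x2702 (nat_lit 2))) x4888)
    (Nat.sub (Nat.sub (Nat.sub (Nat.add (Nat.add (Nat.add (Nat.add (Nat.add (Nat.add (Nat.add (Nat.add C x1246) x3190) x2542) x2758) x2686) x2710) x2702) x2706) (Nat.mul x2704 (nat_lit 2))) x4890) x518)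
    (Nat.sub (Nat.sub (Nat.add (Nat.add (Nat.add (Nat.add (Nat.add (Nat.add (Nat.add C x1248) x3192) x2544) x2760) x2688) x2712) x2704) (Nat.mul x2706 (nat_lit 4))) x520)
    (Nat.sub (Nat.sub (Nat.sub (Nat.add (Nat.add (Nat.add (Nat.add (Nat.add (Nat.add (Nat.add (Nat.add C x1252) x3196) x2548) x2764) x2692) x2728) x2704) x2712) (Nat.mul x2710 (nat_lit 2))) x4896) x524)
    (Nat.sub (Nat.sub (Nat.add (Nat.add (Nat.add (Nat.add (Nat.add (Nat.add (Nat.add (Nat.add (Nat.add C x1254) x3198) x2550) x2766) x2694) x2730) x2706) x2718) x2710) (Nat.mul x2712 (nat_lit 2))) x526)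
    (Nat.sub (Nat.sub (Nat.add (Nat.add (Nat.add (Nat.add (Nat.add (Nat.add C x1260) x3204) x2556) x2772) x2736) x2712) (Nat.mul x2718 (nat_lit 2))) x532)
    (Nat.sub (Nat.sub (Nat.sub (Nat.add (Nat.add (Nat.add (Nat.add (Nat.add (Nat.add C x1270) x3214) x2566) x2782) x2710) x2730) (Nat.mul x2728 (nat_lit 3))) x4914) x542)
    (Nat.sub (Nat.sub (Nat.add (Nat.add (Nat.add (Nat.add (Nat.add (Nat.add (Nat.add C x1272) x3216) x2568) x2784) x2712) x2736) x2728) (Nat.mul x2730 (nat_lit 4))) x544)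
    (Nat.sub (Nat.sub (Nat.add (Nat.add (Nat.add (Nat.add (Nat.add (Nat.add C x1278) x3222) x2574) x2790) x2718) x2730) (Nat.mul x2736 (nat_lit 2))) x550)
    (Nat.sub (Nat.add (Nat.add (Nat.add (Nat.add (Nat.add C x1298) x3242) x2594) x2702) x2758) x4942)
    (Nat.sub (Nat.sub (Nat.add (Nat.add (Nat.add (Nat.add (Nat.add (Nat.add (Nat.add C x1300) x3244) x2596) x2704) x2764) x2756) x2760) x4944) x572)
    (Nat.sub (Nat.sub (Nat.add (Nat.add (Nat.add (Nat.add (Nat.add (Nat.add C x1302) x3246) x2598) x2706) x2766) x2758) (Nat.mul x2760 (nat_lit 2))) x574)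
    (Nat.sub (Nat.sub (Nat.sub (Nat.add (Nat.add (Nat.add (Nat.add (Nat.add (Nat.add (Nat.add C x1306) x3250) x2602) x2710) x2782) x2758) x2766) x2764) x4950) x578)
    (Nat.sub (Nat.sub (Nat.add (Nat.add (Nat.add (Nat.add (Nat.add (Nat.add (Nat.add (Nat.add C x1308) x3252) x2604) x2712) x2784) x2760) x2772) x2764) x2766) x580)
    (Nat.sub (Nat.sub (Nat.add (Nat.add (Nat.add (Nat.add (Nat.add (Nat.add C x1314) x3258) x2610) x2718) x2790) x2766) (Nat.mul x2772 (nat_lit 2))) x586)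
    (Nat.sub (Nat.sub (Nat.add (Nat.add (Nat.add (Nat.add (Nat.add (Nat.add (Nat.add C x1324) x3268) x2620) x2728) x2836) x2764) x2784) x4968) x596)
    (Nat.sub (Nat.sub (Nat.add (Nat.add (Nat.add (Nat.add (Nat.add (Nat.add (Nat.add (Nat.add C x1326) x3270) x2622) x2730) x2838) x2766) x2790) x2782) x2784) x598)
    (Nat.sub (Nat.add (Nat.add (Nat.add (Nat.add (Nat.add (Nat.add (Nat.add (Nat.add C x1332) x3276) x2628) x2736) x2844) x2772) x2808) x2784) x604)
    (Nat.sub (Nat.add (Nat.add (Nat.add (Nat.add (Nat.add C x1350) x3294) x2646) x2862) x2790) x622)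
    (Nat.sub (Nat.sub (Nat.add (Nat.add (Nat.add (Nat.add (Nat.add C x2836) x1378) x3322) x2782) x2838) x5022) x650)
    (Nat.sub (Nat.add (Nat.add (Nat.add (Nat.add (Nat.add C x1380) x3324) x2784) x2844) x2836) x652)
    (Nat.sub (Nat.add (Nat.add (Nat.add (Nat.add (Nat.add C x1386) x3330) x2790) x2862) x2838) x658)
    (Nat.sub (Nat.add (Nat.add (Nat.add (Nat.add (Nat.add C (Nat.mul x2862 (nat_lit 2))) x1404) x3348) x2808) x2844) x676)
    (Nat.sub (Nat.add (Nat.add (Nat.add (Nat.add (Nat.add C (Nat.mul x2924 (nat_lit 3))) x1466) x4382) x2438) x2930) x5110)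
    (Nat.sub (Nat.add (Nat.add (Nat.add (Nat.add (Nat.add (Nat.add (Nat.add (Nat.add C (Nat.mul x2930 (nat_lit 2))) x1472) x4388) x2444) x2948) x2924) x2936) x2932) x5116)
    (Nat.sub (Nat.sub (Nat.add (Nat.add (Nat.add (Nat.add (Nat.add (Nat.add (Nat.add C (Nat.mul x2932 (nat_lit 2))) x1474) x4390) x2446) x2950) x2938) x2930) x5118) x746)
    (Nat.sub (Nat.sub (Nat.add (Nat.add (Nat.add (Nat.add (Nat.add (Nat.add C x1478) x4394) x2450) x2954) x2930) x2938) x2936) x5122)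
    (Nat.sub (Nat.sub (Nat.add (Nat.add (Nat.add (Nat.add (Nat.add (Nat.add (Nat.add (Nat.add C x2938) x1480) x4396) x2452) x2956) x2932) x2936) x2940) x5124) x752)
    (Nat.sub (Nat.add (Nat.add (Nat.add (Nat.add (Nat.add (Nat.add C x2940) x1482) x4398) x2454) x2958) x2938) x754)
    (Nat.sub (Nat.add (Nat.add (Nat.add (Nat.add (Nat.add (Nat.add (Nat.add (Nat.add C x2948) x1490) x4406) x2462) x3002) x2930) x2954) x2950) x5134)
    (Nat.sub (Nat.sub (Nat.add (Nat.add (Nat.add (Nat.add (Nat.add (Nat.add (Nat.add C x1492) x4408) x2464) x3004) x2932) x2956) x2948) x5136) x764)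
    (Nat.sub (Nat.add (Nat.add (Nat.add (Nat.add (Nat.add (Nat.add (Nat.add (Nat.add C x1496) x4412) x2468) x3008) x2936) x2972) x2948) x2956) x5140)
    (Nat.sub (Nat.sub (Nat.add (Nat.add (Nat.add (Nat.add (Nat.add (Nat.add (Nat.add (Nat.add (Nat.add (Nat.add (Nat.add C x2956) x1498) x4414) x2470) x3010) x2938) x2974) x2950) x2962) x2954) x2958) x5142) x770)
    (Nat.sub (Nat.add (Nat.add (Nat.add (Nat.add (Nat.add (Nat.add (Nat.add (Nat.add C x1500) x4416) x2472) x3012) x2940) x2976) x2964) x2956) x772)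
    (Nat.sub (Nat.sub (Nat.add (Nat.add (Nat.add (Nat.add (Nat.add (Nat.add (Nat.add C x1504) x4420) x2476) x3016) x2980) x2956) x2964) x5148) x776)
    (Nat.sub (Nat.add (Nat.add (Nat.add (Nat.add (Nat.add (Nat.add (Nat.add (Nat.add C x2964) x1506) x4422) x2478) x3018) x2982) x2958) x2962) x778)
    (Nat.sub (Nat.sub (Nat.add (Nat.add (Nat.add (Nat.add (Nat.add (Nat.add C x1514) x4430) x2486) x3026) x2954) x2974) x2972) x5158)
    (Nat.sub (Nat.sub (Nat.sub (Nat.add (Nat.add (Nat.add (Nat.add (Nat.add (Nat.add (Nat.add (Nat.add C x1516) x4432) x2488) x3028) x2956) x2980) x2972) x2976) x2974) x5160) x788)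
    (Nat.sub (Nat.sub (Nat.add (Nat.add (Nat.add (Nat.add (Nat.add (Nat.add (Nat.add C x1518) x4434) x2490) x3030) x2958) x2982) x2974) (Nat.mul x2976 (nat_lit 3))) x790)
    (Nat.sub (Nat.sub (Nat.add (Nat.add (Nat.add (Nat.add (Nat.add (Nat.add (Nat.add C x1522) x4438) x2494) x3034) x2962) x2974) x2982) x5166) x794)
    (Nat.sub (Nat.add (Nat.add (Nat.add (Nat.add (Nat.add (Nat.add (Nat.add (Nat.add C x1524) x4440) x2496) x3036) x2964) x2976) x2988) x2980) x796)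
    (Nat.sub (Nat.add (Nat.add (Nat.add (Nat.add (Nat.add (Nat.add C x2988) x1530) x4446) x2502) x3042) x2982) x802)
    (Nat.sub (Nat.add (Nat.add (Nat.add (Nat.add (Nat.add (Nat.add (Nat.add (Nat.add C x3002) x1544) x4460) x2516) x3164) x2948) x3008) x3004) x5188)
    (Nat.sub (Nat.sub (Nat.add (Nat.add (Nat.add (Nat.add (Nat.add (Nat.add (Nat.add C x1546) x4462) x2518) x3166) x2950) x3010) x3002) x5190) x818)
    (Nat.sub (Nat.sub (Nat.add (Nat.add (Nat.add (Nat.add (Nat.add (Nat.add (Nat.add (Nat.add C x1550) x4466) x2522) x3170) x2954) x3026) x3002) x3010) x3008) x5194)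
    (Nat.sub (Nat.sub (Nat.add (Nat.add (Nat.add (Nat.add (Nat.add (Nat.add (Nat.add (Nat.add (Nat.add (Nat.add C x1552) x4468) x2524) x3172) x2956) x3028) x3004) x3016) x3008) x3012) x5196) x824)
    (Nat.sub (Nat.sub (Nat.add (Nat.add (Nat.add (Nat.add (Nat.add (Nat.add (Nat.add (Nat.add C x1554) x4470) x2526) x3174) x2958) x3030) x3018) x3010) x3012) x826)
    (Nat.sub (Nat.sub (Nat.sub (Nat.add (Nat.add (Nat.add (Nat.add (Nat.add (Nat.add (Nat.add (Nat.add C x1558) x4474) x2530) x3178) x2962) x3034) x3010) x3018) (Nat.mul x3016 (nat_lit 2))) x5202) x830)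
    (Nat.sub (Nat.sub (Nat.add (Nat.add (Nat.add (Nat.add (Nat.add (Nat.add (Nat.add (Nat.add C x1560) x4476) x2532) x3180) x2964) x3036) x3012) x3016) x3018) x832)
    (Nat.sub (Nat.add (Nat.add (Nat.add (Nat.add (Nat.add (Nat.add (Nat.add (Nat.add C x1568) x4484) x2540) x3188) x2972) x3080) x3008) x3028) x5212)
    (Nat.sub (Nat.sub (Nat.add (Nat.add (Nat.add (Nat.add (Nat.add (Nat.add (Nat.add (Nat.add (Nat.add (Nat.add C x1570) x4486) x2542) x3190) x2974) x3082) x3010) x3034) x3026) x3030) x5214) x842)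
    (Nat.sub (Nat.sub (Nat.add (Nat.add (Nat.add (Nat.add (Nat.add (Nat.add (Nat.add (Nat.add (Nat.add C x1572) x4488) x2544) x3192) x2976) x3084) x3012) x3036) x3028) (Nat.mul x3030 (nat_lit 2))) x844)
    (Nat.sub (Nat.sub (Nat.add (Nat.add (Nat.add (Nat.add (Nat.add (Nat.add (Nat.add (Nat.add (Nat.add (Nat.add C x1576) x4492) x2548) x3196) x2980) x3088) x3016) x3052) x3028) x3036) x5220) x848)
    (Nat.sub (Nat.add (Nat.add (Nat.add (Nat.add (Nat.add (Nat.add (Nat.add (Nat.add (Nat.add (Nat.add (Nat.add C x1578) x4494) x2550) x3198) x2982) x3090) x3018) x3054) x3030) x3042) x3034) x850)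
    (Nat.sub (Nat.add (Nat.add (Nat.add (Nat.add (Nat.add (Nat.add (Nat.add (Nat.add C x1584) x4500) x2556) x3204) x2988) x3096) x3060) x3036) x856)
    (Nat.sub (Nat.sub (Nat.add (Nat.add (Nat.add (Nat.add (Nat.add (Nat.add (Nat.add C x1594) x4510) x2566) x3214) x3106) x3034) x3054) x5238) x866)
    (Nat.sub (Nat.sub (Nat.add (Nat.add (Nat.add (Nat.add (Nat.add (Nat.add (Nat.add (Nat.add C x1596) x4512) x2568) x3216) x3108) x3036) x3060) x3052) x3054) x868)
    (Nat.sub (Nat.add (Nat.add (Nat.add (Nat.add (Nat.add (Nat.add (Nat.add (Nat.add C x3060) x1602) x4518) x2574) x3222) x3114) x3042) x3054) x874)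
    (Nat.sub (Nat.sub (Nat.add (Nat.add (Nat.add (Nat.add (Nat.add (Nat.add C x1622) x4538) x2594) x3242) x3026) x3082) x3080) x5266)
    (Nat.sub (Nat.sub (Nat.sub (Nat.add (Nat.add (Nat.add (Nat.add (Nat.add (Nat.add (Nat.add (Nat.add C x1624) x4540) x2596) x3244) x3028) x3088) x3080) x3084) x3082) x5268) x896)
    (Nat.sub (Nat.sub (Nat.add (Nat.add (Nat.add (Nat.add (Nat.add (Nat.add (Nat.add C x1626) x4542) x2598) x3246) x3030) x3090) x3082) (Nat.mul x3084 (nat_lit 3))) x898)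
    (Nat.sub (Nat.sub (Nat.sub (Nat.add (Nat.add (Nat.add (Nat.add (Nat.add (Nat.add (Nat.add (Nat.add C x1630) x4546) x2602) x3250) x3034) x3106) x3082) x3090) (Nat.mul x3088 (nat_lit 2))) x5274) x902)
    (Nat.sub (Nat.sub (Nat.add (Nat.add (Nat.add (Nat.add (Nat.add (Nat.add (Nat.add (Nat.add (Nat.add C x1632) x4548) x2604) x3252) x3036) x3108) x3084) x3096) x3088) (Nat.mul x3090 (nat_lit 2))) x904)
    (Nat.sub (Nat.sub (Nat.add (Nat.add (Nat.add (Nat.add (Nat.add (Nat.add (Nat.add C x1638) x4554) x2610) x3258) x3042) x3114) x3090) (Nat.mul x3096 (nat_lit 3))) x910)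
    (Nat.sub (Nat.sub (Nat.add (Nat.add (Nat.add (Nat.add (Nat.add (Nat.add (Nat.add C x1648) x4564) x2620) x3268) x3052) x3088) x3108) x5292) x920)
    (Nat.sub (Nat.sub (Nat.add (Nat.add (Nat.add (Nat.add (Nat.add (Nat.add (Nat.add (Nat.add C x1650) x4566) x2622) x3270) x3054) x3090) x3114) x3106) x3108) x922)
    (Nat.sub (Nat.add (Nat.add (Nat.add (Nat.add (Nat.add (Nat.add (Nat.add (Nat.add C x1656) x4572) x2628) x3276) x3060) x3096) x3132) x3108) x928)
    (Nat.sub (Nat.add (Nat.add (Nat.add (Nat.add (Nat.add (Nat.add C x3132) x1674) x4590) x2646) x3294) x3114) x946)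
    (Nat.sub (Nat.add (Nat.add (Nat.add (Nat.add (Nat.add (Nat.add (Nat.add (Nat.add C (Nat.mul x3164 (nat_lit 2))) x1706) x4622) x2678) x3650) x3002) x3170) x3166) x5350)
    (Nat.sub (Nat.sub (Nat.add (Nat.add (Nat.add (Nat.add (Nat.add (Nat.add (Nat.add (Nat.add C x3166) x1708) x4624) x2680) x3652) x3004) x3172) x3164) x5352) x980)
    (Nat.sub (Nat.add (Nat.add (Nat.add (Nat.add (Nat.add (Nat.add (Nat.add (Nat.add C x1712) x4628) x2684) x3656) x3008) x3188) x3164) x3172) x5356)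
    (Nat.sub (Nat.sub (Nat.add (Nat.add (Nat.add (Nat.add (Nat.add (Nat.add (Nat.add (Nat.add (Nat.add (Nat.add (Nat.add C x3172) x1714) x4630) x2686) x3658) x3010) x3190) x3166) x3178) x3170) x3174) x5358) x986)
    (Nat.sub (Nat.add (Nat.add (Nat.add (Nat.add (Nat.add (Nat.add (Nat.add (Nat.add C x1716) x4632) x2688) x3660) x3012) x3192) x3180) x3172) x988)
    (Nat.sub (Nat.sub (Nat.sub (Nat.add (Nat.add (Nat.add (Nat.add (Nat.add (Nat.add (Nat.add (Nat.add C x1720) x4636) x2692) x3664) x3016) x3196) x3172) x3180) x3178) x5364) x992)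
    (Nat.sub (Nat.add (Nat.add (Nat.add (Nat.add (Nat.add (Nat.add (Nat.add (Nat.add C x1722) x4638) x2694) x3666) x3018) x3198) x3174) x3178) x994)
    (Nat.sub (Nat.add (Nat.add (Nat.add (Nat.add (Nat.add (Nat.add (Nat.add (Nat.add C x1730) x4646) x2702) x3674) x3026) x3242) x3170) x3190) x5374)
    (Nat.sub (Nat.sub (Nat.add (Nat.add (Nat.add (Nat.add (Nat.add (Nat.add (Nat.add (Nat.add (Nat.add (Nat.add C x1732) x4648) x2704) x3676) x3028) x3244) x3172) x3196) x3188) x3192) x5376) x1004)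
    (Nat.sub (Nat.sub (Nat.add (Nat.add (Nat.add (Nat.add (Nat.add (Nat.add (Nat.add (Nat.add (Nat.add C x1734) x4650) x2706) x3678) x3030) x3246) x3174) x3198) x3190) (Nat.mul x3192 (nat_lit 2))) x1006)
    (Nat.sub (Nat.sub (Nat.add (Nat.add (Nat.add (Nat.add (Nat.add (Nat.add (Nat.add (Nat.add (Nat.add (Nat.add C x1738) x4654) x2710) x3682) x3034) x3250) x3178) x3214) x3190) x3198) x5382) x1010)
    (Nat.sub (Nat.add (Nat.add (Nat.add (Nat.add (Nat.add (Nat.add (Nat.add (Nat.add (Nat.add (Nat.add (Nat.add C x1740) x4656) x2712) x3684) x3036) x3252) x3180) x3216) x3192) x3204) x3196) x1012)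
    (Nat.sub (Nat.add (Nat.add (Nat.add (Nat.add (Nat.add (Nat.add (Nat.add (Nat.add C x1746) x4662) x2718) x3690) x3042) x3258) x3222) x3198) x1018)
    (Nat.sub (Nat.sub (Nat.sub (Nat.add (Nat.add (Nat.add (Nat.add (Nat.add (Nat.add (Nat.add (Nat.add C x1756) x4672) x2728) x3700) x3052) x3268) x3196) x3216) x3214) x5400) x1028)
    (Nat.sub (Nat.sub (Nat.add (Nat.add (Nat.add (Nat.add (Nat.add (Nat.add (Nat.add (Nat.add (Nat.add C x1758) x4674) x2730) x3702) x3054) x3270) x3198) x3222) x3214) (Nat.mul x3216 (nat_lit 2))) x1030)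
    (Nat.sub (Nat.add (Nat.add (Nat.add (Nat.add (Nat.add (Nat.add (Nat.add (Nat.add C x1764) x4680) x2736) x3708) x3060) x3276) x3204) x3216) x1036)
    (Nat.sub (Nat.add (Nat.add (Nat.add (Nat.add (Nat.add (Nat.add (Nat.add (Nat.add (Nat.add C x3242) x1784) x4700) x2756) x3728) x3080) x3404) x3188) x3244) x5428)
    (Nat.sub (Nat.sub (Nat.add (Nat.add (Nat.add (Nat.add (Nat.add (Nat.add (Nat.add (Nat.add (Nat.add (Nat.add (Nat.add C x3244) x1786) x4702) x2758) x3730) x3082) x3406) x3190) x3250) x3242) x3246) x5430) x1058)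
    (Nat.sub (Nat.sub (Nat.add (Nat.add (Nat.add (Nat.add (Nat.add (Nat.add (Nat.add (Nat.add (Nat.add C x1788) x4704) x2760) x3732) x3084) x3408) x3192) x3252) x3244) x3246) x1060)
    (Nat.sub (Nat.sub (Nat.add (Nat.add (Nat.add (Nat.add (Nat.add (Nat.add (Nat.add (Nat.add (Nat.add (Nat.add C x1792) x4708) x2764) x3736) x3088) x3412) x3196) x3268) x3244) x3252) x5436) x1064)
    (Nat.sub (Nat.add (Nat.add (Nat.add (Nat.add (Nat.add (Nat.add (Nat.add (Nat.add (Nat.add (Nat.add (Nat.add C x1794) x4710) x2766) x3738) x3090) x3414) x3198) x3270) x3246) x3258) x3250) x1066)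
    (Nat.sub (Nat.sub (Nat.add (Nat.add (Nat.add (Nat.add (Nat.add (Nat.add (Nat.add (Nat.add (Nat.add C x1800) x4716) x2772) x3744) x3096) x3420) x3204) x3276) x3252) x3258) x1072)
    (Nat.sub (Nat.sub (Nat.add (Nat.add (Nat.add (Nat.add (Nat.add (Nat.add (Nat.add (Nat.add (Nat.add (Nat.add (Nat.add C x3268) x1810) x4726) x2782) x3754) x3106) x3430) x3214) x3322) x3250) x3270) x5454) x1082)
    (Nat.sub (Nat.add (Nat.add (Nat.add (Nat.add (Nat.add (Nat.add (Nat.add (Nat.add (Nat.add (Nat.add (Nat.add C x1812) x4728) x2784) x3756) x3108) x3432) x3216) x3324) x3252) x3276) x3268) x1084)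
    (Nat.sub (Nat.add (Nat.add (Nat.add (Nat.add (Nat.add (Nat.add (Nat.add (Nat.add (Nat.add (Nat.add (Nat.add (Nat.add C x3276) x1818) x4734) x2790) x3762) x3114) x3438) x3222) x3330) x3258) x3294) x3270) x1090)
    (Nat.sub (Nat.add (Nat.add (Nat.add (Nat.add (Nat.add (Nat.add (Nat.add (Nat.add (Nat.add C x3294) x1836) x4752) x2808) x3780) x3132) x3456) x3348) x3276) x1108)
    (Nat.sub (Nat.sub (Nat.add (Nat.add (Nat.add (Nat.add (Nat.add (Nat.add (Nat.add (Nat.add C x3322) x1864) x4780) x2836) x3808) x3484) x3268) x3324) x5508) x1136)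
    (Nat.sub (Nat.add (Nat.add (Nat.add (Nat.add (Nat.add (Nat.add (Nat.add (Nat.add C x1866) x4782) x2838) x3810) x3486) x3270) x3330) x3322) x1138)
    (Nat.sub (Nat.add (Nat.add (Nat.add (Nat.add (Nat.add (Nat.add (Nat.add (Nat.add C x1872) x4788) x2844) x3816) x3492) x3276) x3348) x3324) x1144)
    (Nat.sub (Nat.add (Nat.add (Nat.add (Nat.add (Nat.add (Nat.add (Nat.add (Nat.add C (Nat.mul x3348 (nat_lit 2))) x1890) x4806) x2862) x3834) x3510) x3294) x3330) x1162)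
    (Nat.sub (Nat.add (Nat.add (Nat.add (Nat.add (Nat.add (Nat.add C x3404) x1946) x4862) x3890) x3242) x3406) x5590)
    (Nat.sub (Nat.sub (Nat.add (Nat.add (Nat.add (Nat.add (Nat.add (Nat.add (Nat.add (Nat.add C x3406) x1948) x4864) x3892) x3244) x3412) x3404) x3408) x5592) x1220)
    (Nat.sub (Nat.sub (Nat.add (Nat.add (Nat.add (Nat.add (Nat.add (Nat.add C x1950) x4866) x3894) x3246) x3414) x3406) x3408) x1222)
    (Nat.sub (Nat.sub (Nat.add (Nat.add (Nat.add (Nat.add (Nat.add (Nat.add (Nat.add C x1954) x4870) x3898) x3250) x3430) x3406) x3414) x5598) x1226)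
    (Nat.sub (Nat.add (Nat.add (Nat.add (Nat.add (Nat.add (Nat.add (Nat.add (Nat.add C x1956) x4872) x3900) x3252) x3432) x3408) x3420) x3412) x1228)
    (Nat.sub (Nat.sub (Nat.add (Nat.add (Nat.add (Nat.add (Nat.add (Nat.add C x1962) x4878) x3906) x3258) x3438) x3414) x3420) x1234)
    (Nat.sub (Nat.sub (Nat.add (Nat.add (Nat.add (Nat.add (Nat.add (Nat.add (Nat.add C x1972) x4888) x3916) x3268) x3484) x3412) x3432) x5616) x1244)
    (Nat.sub (Nat.sub (Nat.add (Nat.add (Nat.add (Nat.add (Nat.add (Nat.add (Nat.add (Nat.add C x1974) x4890) x3918) x3270) x3486) x3414) x3438) x3430) x3432) x1246)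
    (Nat.sub (Nat.add (Nat.add (Nat.add (Nat.add (Nat.add (Nat.add (Nat.add (Nat.add C x1980) x4896) x3924) x3276) x3492) x3420) x3456) x3432) x1252)
    (Nat.sub (Nat.sub (Nat.add (Nat.add (Nat.add (Nat.add (Nat.add (Nat.add C x1998) x4914) x3942) x3294) x3510) x3438) x3456) x1270)
    (Nat.sub (Nat.sub (Nat.add (Nat.add (Nat.add (Nat.add (Nat.add (Nat.add (Nat.add C (Nat.mul x3484 (nat_lit 2))) x2026) x4942) x3970) x3322) x3430) x3486) x5670) x1298)
    (Nat.sub (Nat.add (Nat.add (Nat.add (Nat.add (Nat.add (Nat.add (Nat.add (Nat.add C x3486) x2028) x4944) x3972) x3324) x3432) x3492) x3484) x1300)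
    (Nat.sub (Nat.add (Nat.add (Nat.add (Nat.add (Nat.add (Nat.add (Nat.add (Nat.add C x3492) x2034) x4950) x3978) x3330) x3438) x3510) x3486) x1306)
    (Nat.sub (Nat.add (Nat.add (Nat.add (Nat.add (Nat.add (Nat.add (Nat.add (Nat.add C (Nat.mul x3510 (nat_lit 2))) x2052) x4968) x3996) x3348) x3456) x3564) x3492) x1324)
    (Nat.sub (Nat.add (Nat.add (Nat.add (Nat.add (Nat.add C (Nat.mul x3564 (nat_lit 3))) x2106) x5022) x4050) x3510) x1378)
    (Nat.sub (Nat.add (Nat.add (Nat.add (Nat.add (Nat.add C (Nat.mul x3650 (nat_lit 2))) x5108) x3164) x3656) x3652) x5836)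
    (Nat.sub (Nat.sub (Nat.add (Nat.add (Nat.add (Nat.add (Nat.add C x3652) x5110) x3166) x3658) x3650) x5838) x1466)
    (Nat.sub (Nat.add (Nat.add (Nat.add (Nat.add (Nat.add C x5114) x3170) x3674) x3650) x3658) x5842)
    (Nat.sub (Nat.sub (Nat.add (Nat.add (Nat.add (Nat.add (Nat.add (Nat.add (Nat.add (Nat.add C x3658) x5116) x3172) x3676) x3652) x3664) x3656) x3660) x5844) x1472)
    (Nat.sub (Nat.add (Nat.add (Nat.add (Nat.add (Nat.add C x5118) x3174) x3678) x3666) x3658) x1474)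
    (Nat.sub (Nat.sub (Nat.sub (Nat.add (Nat.add (Nat.add (Nat.add (Nat.add C x5122) x3178) x3682) x3658) x3666) x3664) x5850) x1478)
    (Nat.sub (Nat.add (Nat.add (Nat.add (Nat.add (Nat.add C x5124) x3180) x3684) x3660) x3664) x1480)
    (Nat.sub (Nat.add (Nat.add (Nat.add (Nat.add (Nat.add C x5132) x3188) x3728) x3656) x3676) x5860)
    (Nat.sub (Nat.sub (Nat.add (Nat.add (Nat.add (Nat.add (Nat.add (Nat.add (Nat.add C x5134) x3190) x3730) x3658) x3682) x3674) x3678) x5862) x1490)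
    (Nat.sub (Nat.sub (Nat.add (Nat.add (Nat.add (Nat.add (Nat.add (Nat.add C x5136) x3192) x3732) x3660) x3684) x3676) (Nat.mul x3678 (nat_lit 2))) x1492)
    (Nat.sub (Nat.sub (Nat.add (Nat.add (Nat.add (Nat.add (Nat.add (Nat.add (Nat.add C x5140) x3196) x3736) x3664) x3700) x3676) x3684) x5868) x1496)
    (Nat.sub (Nat.add (Nat.add (Nat.add (Nat.add (Nat.add (Nat.add (Nat.add (Nat.add C x5142) x3198) x3738) x3666) x3702) x3678) x3690) x3682) x1498)
    (Nat.sub (Nat.add (Nat.add (Nat.add (Nat.add (Nat.add C x5148) x3204) x3744) x3708) x3684) x1504)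
    (Nat.sub (Nat.sub (Nat.sub (Nat.add (Nat.add (Nat.add (Nat.add (Nat.add C x5158) x3214) x3754) x3682) x3702) x3700) x5886) x1514)
    (Nat.sub (Nat.sub (Nat.add (Nat.add (Nat.add (Nat.add (Nat.add (Nat.add C x5160) x3216) x3756) x3684) x3708) x3700) (Nat.mul x3702 (nat_lit 2))) x1516)
    (Nat.sub (Nat.add (Nat.add (Nat.add (Nat.add (Nat.add C x5166) x3222) x3762) x3690) x3702) x1522)
    (Nat.sub (Nat.add (Nat.add (Nat.add (Nat.add (Nat.add C x5186) x3242) x3890) x3674) x3730) x5914)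
    (Nat.sub (Nat.sub (Nat.add (Nat.add (Nat.add (Nat.add (Nat.add (Nat.add (Nat.add C x5188) x3244) x3892) x3676) x3736) x3728) x3732) x5916) x1544)
    (Nat.sub (Nat.sub (Nat.add (Nat.add (Nat.add (Nat.add (Nat.add (Nat.add C x5190) x3246) x3894) x3678) x3738) x3730) (Nat.mul x3732 (nat_lit 2))) x1546)
    (Nat.sub (Nat.sub (Nat.sub (Nat.add (Nat.add (Nat.add (Nat.add (Nat.add (Nat.add (Nat.add C x5194) x3250) x3898) x3682) x3754) x3730) x3738) x3736) x5922) x1550)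
    (Nat.sub (Nat.sub (Nat.add (Nat.add (Nat.add (Nat.add (Nat.add (Nat.add (Nat.add (Nat.add C x5196) x3252) x3900) x3684) x3756) x3732) x3744) x3736) x3738) x1552)
    (Nat.sub (Nat.sub (Nat.add (Nat.add (Nat.add (Nat.add (Nat.add (Nat.add C x5202) x3258) x3906) x3690) x3762) x3738) (Nat.mul x3744 (nat_lit 2))) x1558)
    (Nat.sub (Nat.sub (Nat.add (Nat.add (Nat.add (Nat.add (Nat.add (Nat.add (Nat.add C x5212) x3268) x3916) x3700) x3808) x3736) x3756) x5940) x1568)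
    (Nat.sub (Nat.sub (Nat.add (Nat.add (Nat.add (Nat.add (Nat.add (Nat.add (Nat.add (Nat.add C x5214) x3270) x3918) x3702) x3810) x3738) x3762) x3754) x3756) x1570)
    (Nat.sub (Nat.add (Nat.add (Nat.add (Nat.add (Nat.add (Nat.add (Nat.add (Nat.add C x5220) x3276) x3924) x3708) x3816) x3744) x3780) x3756) x1576)
    (Nat.sub (Nat.add (Nat.add (Nat.add (Nat.add (Nat.add C x5238) x3294) x3942) x3834) x3762) x1594)
    (Nat.sub (Nat.sub (Nat.sub (Nat.add (Nat.add (Nat.add (Nat.add (Nat.add C x5266) x3322) x3970) x3754) x3810) x3808) x5994) x1622)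
    (Nat.sub (Nat.sub (Nat.add (Nat.add (Nat.add (Nat.add (Nat.add (Nat.add C x5268) x3324) x3972) x3756) x3816) x3808) (Nat.mul x3810 (nat_lit 2))) x1624)
    (Nat.sub (Nat.sub (Nat.add (Nat.add (Nat.add (Nat.add (Nat.add (Nat.add C x5274) x3330) x3978) x3762) x3834) x3810) (Nat.mul x3816 (nat_lit 2))) x1630)
    (Nat.sub (Nat.add (Nat.add (Nat.add (Nat.add (Nat.add C x5292) x3348) x3996) x3780) x3816) x1648)
    (Nat.sub (Nat.add (Nat.add (Nat.add (Nat.add (Nat.add C (Nat.mul x3890 (nat_lit 2))) x5348) x3404) x3728) x3892) x6076)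
    (Nat.sub (Nat.sub (Nat.add (Nat.add (Nat.add (Nat.add (Nat.add (Nat.add (Nat.add C (Nat.mul x3892 (nat_lit 2))) x5350) x3406) x3730) x3898) x3890) x3894) x6078) x1706)
    (Nat.sub (Nat.add (Nat.add (Nat.add (Nat.add (Nat.add C x5352) x3408) x3732) x3900) x3892) x1708)
    (Nat.sub (Nat.sub (Nat.add (Nat.add (Nat.add (Nat.add (Nat.add (Nat.add (Nat.add C x3898) x5356) x3412) x3736) x3916) x3892) x3900) x6084) x1712)
    (Nat.sub (Nat.add (Nat.add (Nat.add (Nat.add (Nat.add (Nat.add (Nat.add (Nat.add C x3900) x5358) x3414) x3738) x3918) x3894) x3906) x3898) x1714)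
    (Nat.sub (Nat.add (Nat.add (Nat.add (Nat.add (Nat.add C x5364) x3420) x3744) x3924) x3900) x1720)
    (Nat.sub (Nat.sub (Nat.add (Nat.add (Nat.add (Nat.add (Nat.add (Nat.add (Nat.add C x3916) x5374) x3430) x3754) x3970) x3898) x3918) x6102) x1730)
    (Nat.sub (Nat.add (Nat.add (Nat.add (Nat.add (Nat.add (Nat.add (Nat.add C x5376) x3432) x3756) x3972) x3900) x3924) x3916) x1732)
    (Nat.sub (Nat.add (Nat.add (Nat.add (Nat.add (Nat.add (Nat.add (Nat.add (Nat.add C x3924) x5382) x3438) x3762) x3978) x3906) x3942) x3918) x1738)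
    (Nat.sub (Nat.add (Nat.add (Nat.add (Nat.add (Nat.add C x5400) x3456) x3780) x3996) x3924) x1756)
    (Nat.sub (Nat.sub (Nat.add (Nat.add (Nat.add (Nat.add (Nat.add (Nat.add (Nat.add C (Nat.mul x3970 (nat_lit 2))) x5428) x3484) x3808) x4132) x3916) x3972) x6156) x1784)
    (Nat.sub (Nat.add (Nat.add (Nat.add (Nat.add (Nat.add (Nat.add (Nat.add (Nat.add C x3972) x5430) x3486) x3810) x4134) x3918) x3978) x3970) x1786)
    (Nat.sub (Nat.add (Nat.add (Nat.add (Nat.add (Nat.add (Nat.add (Nat.add (Nat.add C x3978) x5436) x3492) x3816) x4140) x3924) x3996) x3972) x1792)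
    (Nat.sub (Nat.add (Nat.add (Nat.add (Nat.add (Nat.add (Nat.add (Nat.add (Nat.add C (Nat.mul x3996 (nat_lit 2))) x5454) x3510) x3834) x4158) x3942) x4050) x3978) x1810)
    (Nat.sub (Nat.add (Nat.add (Nat.add (Nat.add (Nat.add C (Nat.mul x4050 (nat_lit 2))) x5508) x3564) x4212) x3996) x1864)
    (Nat.sub (Nat.sub (Nat.add (Nat.add (Nat.add (Nat.add C (Nat.mul x4132 (nat_lit 3))) x5590) x3970) x4134) x6318) x1946)
    (Nat.sub (Nat.add (Nat.add (Nat.add (Nat.add (Nat.add C (Nat.mul x4134 (nat_lit 2))) x5592) x3972) x4140) x4132) x1948)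
    (Nat.sub (Nat.add (Nat.add (Nat.add (Nat.add (Nat.add C (Nat.mul x4140 (nat_lit 2))) x5598) x3978) x4158) x4134) x1954)
    (Nat.sub (Nat.add (Nat.add (Nat.add (Nat.add (Nat.add C (Nat.mul x4158 (nat_lit 2))) x5616) x3996) x4212) x4140) x1972)
    (Nat.sub (Nat.add (Nat.add (Nat.add (Nat.add C (Nat.mul x4212 (nat_lit 4))) x5670) x4050) x4158) x2026)
    (Nat.add (Nat.add (Nat.add C (Nat.mul x4382 (nat_lit 4))) x2924) x4388)
    (Nat.add (Nat.add (Nat.add (Nat.add (Nat.add (Nat.add C (Nat.mul x4388 (nat_lit 3))) x2930) x4406) x4382) x4394) x4390)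
    (Nat.sub (Nat.add (Nat.add (Nat.add (Nat.add (Nat.add C (Nat.mul x4390 (nat_lit 2))) x2932) x4408) x4396) x4388) x2204)
    (Nat.add (Nat.add (Nat.add (Nat.add C x2936) x4412) x4388) x4396)
    (Nat.sub (Nat.add (Nat.add (Nat.add (Nat.add (Nat.add (Nat.add C x4396) x2938) x4414) x4390) x4394) x4398) x2210)
    (Nat.sub (Nat.add (Nat.add (Nat.add C x2940) x4416) x4396) x2212)
    (Nat.add (Nat.add (Nat.add (Nat.add (Nat.add (Nat.add C (Nat.mul x4406 (nat_lit 2))) x2948) x4460) x4388) x4412) x4408)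
    (Nat.sub (Nat.add (Nat.add (Nat.add (Nat.add (Nat.add C x2950) x4462) x4390) x4414) x4406) x2222)
    (Nat.add (Nat.add (Nat.add (Nat.add (Nat.add (Nat.add (Nat.add C x4412) x2954) x4466) x4394) x4430) x4406) x4414)
    (Nat.sub (Nat.add (Nat.add (Nat.add (Nat.add (Nat.add (Nat.add (Nat.add (Nat.add (Nat.add C x4414) x2956) x4468) x4396) x4432) x4408) x4420) x4412) x4416) x2228)
    (Nat.sub (Nat.sub (Nat.add (Nat.add (Nat.add (Nat.add (Nat.add (Nat.add C x2958) x4470) x4398) x4434) x4422) x4414) x4416) x2230)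
    (Nat.sub (Nat.add (Nat.add (Nat.add (Nat.add (Nat.add C x2962) x4474) x4438) x4414) x4422) x2234)
    (Nat.sub (Nat.add (Nat.add (Nat.add (Nat.add (Nat.add C x2964) x4476) x4440) x4416) x4420) x2236)
    (Nat.add (Nat.add (Nat.add (Nat.add C x2972) x4484) x4412) x4432)
    (Nat.sub (Nat.sub (Nat.add (Nat.add (Nat.add (Nat.add (Nat.add (Nat.add C x2974) x4486) x4414) x4438) x4430) x4434) x4432) x2246)
    (Nat.sub (Nat.sub (Nat.add (Nat.add (Nat.add (Nat.add (Nat.add C x2976) x4488) x4416) x4440) x4432) (Nat.mul x4434 (nat_lit 4))) x2248)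
    (Nat.sub (Nat.add (Nat.add (Nat.add (Nat.add (Nat.add C x2980) x4492) x4420) x4432) x4440) x2252)
    (Nat.sub (Nat.sub (Nat.add (Nat.add (Nat.add (Nat.add (Nat.add (Nat.add C x2982) x4494) x4422) x4434) x4446) x4438) x4440) x2254)
    (Nat.sub (Nat.add (Nat.add (Nat.add C x2988) x4500) x4440) x2260)
    (Nat.add (Nat.add (Nat.add (Nat.add (Nat.add (Nat.add C (Nat.mul x4460 (nat_lit 2))) x3002) x4622) x4406) x4466) x4462)
    (Nat.sub (Nat.add (Nat.add (Nat.add (Nat.add (Nat.add C x3004) x4624) x4408) x4468) x4460) x2276)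
    (Nat.add (Nat.add (Nat.add (Nat.add (Nat.add (Nat.add C x3008) x4628) x4412) x4484) x4460) x4468)
    (Nat.sub (Nat.add (Nat.add (Nat.add (Nat.add (Nat.add (Nat.add (Nat.add (Nat.add C x3010) x4630) x4414) x4486) x4462) x4474) x4466) x4470) x2282)
    (Nat.sub (Nat.sub (Nat.add (Nat.add (Nat.add (Nat.add (Nat.add (Nat.add C x3012) x4632) x4416) x4488) x4476) x4468) (Nat.mul x4470 (nat_lit 2))) x2284)
    (Nat.sub (Nat.sub (Nat.add (Nat.add (Nat.add (Nat.add (Nat.add (Nat.add C x3016) x4636) x4420) x4492) x4468) x4476) (Nat.mul x4474 (nat_lit 2))) x2288)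
    (Nat.sub (Nat.sub (Nat.add (Nat.add (Nat.add (Nat.add (Nat.add (Nat.add C x3018) x4638) x4422) x4494) x4470) x4474) (Nat.mul x4476 (nat_lit 2))) x2290)
    (Nat.add (Nat.add (Nat.add (Nat.add (Nat.add (Nat.add (Nat.add C x4484) x3026) x4646) x4430) x4538) x4466) x4486)
    (Nat.sub (Nat.add (Nat.add (Nat.add (Nat.add (Nat.add (Nat.add (Nat.add (Nat.add C x3028) x4648) x4432) x4540) x4468) x4492) x4484) x4488) x2300)
    (Nat.sub (Nat.sub (Nat.add (Nat.add (Nat.add (Nat.add (Nat.add (Nat.add (Nat.add C x3030) x4650) x4434) x4542) x4470) x4494) x4486) (Nat.mul x4488 (nat_lit 3))) x2302)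
    (Nat.sub (Nat.add (Nat.add (Nat.add (Nat.add (Nat.add (Nat.add (Nat.add (Nat.add C x3034) x4654) x4438) x4546) x4474) x4510) x4486) x4494) x2306)
    (Nat.sub (Nat.sub (Nat.add (Nat.add (Nat.add (Nat.add (Nat.add (Nat.add (Nat.add (Nat.add (Nat.add C x3036) x4656) x4440) x4548) x4476) x4512) x4488) x4500) x4492) x4494) x2308)
    (Nat.sub (Nat.sub (Nat.add (Nat.add (Nat.add (Nat.add (Nat.add (Nat.add C x3042) x4662) x4446) x4554) x4518) x4494) x4500) x2314)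
    (Nat.sub (Nat.add (Nat.add (Nat.add (Nat.add (Nat.add C x3052) x4672) x4564) x4492) x4512) x2324)
    (Nat.sub (Nat.sub (Nat.add (Nat.add (Nat.add (Nat.add (Nat.add (Nat.add C x3054) x4674) x4566) x4494) x4518) x4510) (Nat.mul x4512 (nat_lit 2))) x2326)
    (Nat.sub (Nat.add (Nat.add (Nat.add (Nat.add (Nat.add C x3060) x4680) x4572) x4500) x4512) x2332)
    (Nat.add (Nat.add (Nat.add (Nat.add C x3080) x4700) x4484) x4540)
    (Nat.sub (Nat.sub (Nat.add (Nat.add (Nat.add (Nat.add (Nat.add (Nat.add C x3082) x4702) x4486) x4546) x4538) x4542) x4540) x2354)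
    (Nat.sub (Nat.sub (Nat.add (Nat.add (Nat.add (Nat.add (Nat.add C x3084) x4704) x4488) x4548) x4540) (Nat.mul x4542 (nat_lit 4))) x2356)
    (Nat.sub (Nat.sub (Nat.add (Nat.add (Nat.add (Nat.add (Nat.add (Nat.add C x3088) x4708) x4492) x4564) x4540) x4548) (Nat.mul x4546 (nat_lit 2))) x2360)
    (Nat.sub (Nat.sub (Nat.add (Nat.add (Nat.add (Nat.add (Nat.add (Nat.add (Nat.add C x3090) x4710) x4494) x4566) x4542) x4554) x4546) (Nat.mul x4548 (nat_lit 3))) x2362)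
    (Nat.sub (Nat.sub (Nat.add (Nat.add (Nat.add (Nat.add (Nat.add C x3096) x4716) x4500) x4572) x4548) (Nat.mul x4554 (nat_lit 4))) x2368)
    (Nat.sub (Nat.add (Nat.add (Nat.add (Nat.add (Nat.add C x3106) x4726) x4510) x4546) x4566) x2378)
    (Nat.sub (Nat.sub (Nat.add (Nat.add (Nat.add (Nat.add (Nat.add (Nat.add C x3108) x4728) x4512) x4548) x4572) x4564) (Nat.mul x4566 (nat_lit 2))) x2380)
    (Nat.sub (Nat.sub (Nat.add (Nat.add (Nat.add (Nat.add (Nat.add (Nat.add C x3114) x4734) x4518) x4554) x4590) x4566) x4572) x2386)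
    (Nat.sub (Nat.add (Nat.add (Nat.add C x3132) x4752) x4572) x2404)
    (Nat.add (Nat.add (Nat.add (Nat.add (Nat.add (Nat.add C (Nat.mul x4622 (nat_lit 2))) x3164) x5108) x4460) x4628) x4624)
    (Nat.sub (Nat.add (Nat.add (Nat.add (Nat.add (Nat.add C x3166) x5110) x4462) x4630) x4622) x2438)
    (Nat.add (Nat.add (Nat.add (Nat.add (Nat.add (Nat.add C x3170) x5114) x4466) x4646) x4622) x4630)
    (Nat.sub (Nat.add (Nat.add (Nat.add (Nat.add (Nat.add (Nat.add (Nat.add (Nat.add C x3172) x5116) x4468) x4648) x4624) x4636) x4628) x4632) x2444)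
    (Nat.sub (Nat.sub (Nat.add (Nat.add (Nat.add (Nat.add (Nat.add (Nat.add C x3174) x5118) x4470) x4650) x4638) x4630) (Nat.mul x4632 (nat_lit 2))) x2446)
    (Nat.sub (Nat.sub (Nat.add (Nat.add (Nat.add (Nat.add (Nat.add (Nat.add C x3178) x5122) x4474) x4654) x4630) x4638) (Nat.mul x4636 (nat_lit 2))) x2450)
    (Nat.sub (Nat.sub (Nat.add (Nat.add (Nat.add (Nat.add (Nat.add (Nat.add C x3180) x5124) x4476) x4656) x4632) x4636) (Nat.mul x4638 (nat_lit 2))) x2452)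
    (Nat.add (Nat.add (Nat.add (Nat.add (Nat.add (Nat.add C x3188) x5132) x4484) x4700) x4628) x4648)
    (Nat.sub (Nat.sub (Nat.add (Nat.add (Nat.add (Nat.add (Nat.add (Nat.add (Nat.add (Nat.add C x3190) x5134) x4486) x4702) x4630) x4654) x4646) x4650) x4648) x2462)
    (Nat.sub (Nat.sub (Nat.add (Nat.add (Nat.add (Nat.add (Nat.add (Nat.add (Nat.add C x3192) x5136) x4488) x4704) x4632) x4656) x4648) (Nat.mul x4650 (nat_lit 4))) x2464)
    (Nat.sub (Nat.sub (Nat.add (Nat.add (Nat.add (Nat.add (Nat.add (Nat.add (Nat.add (Nat.add C x3196) x5140) x4492) x4708) x4636) x4672) x4648) x4656) x4654) x2468)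
    (Nat.sub (Nat.sub (Nat.add (Nat.add (Nat.add (Nat.add (Nat.add (Nat.add (Nat.add (Nat.add (Nat.add C x3198) x5142) x4494) x4710) x4638) x4674) x4650) x4662) x4654) (Nat.mul x4656 (nat_lit 2))) x2470)
    (Nat.sub (Nat.sub (Nat.add (Nat.add (Nat.add (Nat.add (Nat.add (Nat.add C x3204) x5148) x4500) x4716) x4680) x4656) (Nat.mul x4662 (nat_lit 2))) x2476)
    (Nat.sub (Nat.sub (Nat.add (Nat.add (Nat.add (Nat.add (Nat.add (Nat.add C x3214) x5158) x4510) x4726) x4654) x4674) (Nat.mul x4672 (nat_lit 2))) x2486)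
    (Nat.sub (Nat.sub (Nat.add (Nat.add (Nat.add (Nat.add (Nat.add (Nat.add (Nat.add C x3216) x5160) x4512) x4728) x4656) x4680) x4672) (Nat.mul x4674 (nat_lit 4))) x2488)
    (Nat.sub (Nat.sub (Nat.add (Nat.add (Nat.add (Nat.add (Nat.add (Nat.add C x3222) x5166) x4518) x4734) x4662) x4674) (Nat.mul x4680 (nat_lit 2))) x2494)
    (Nat.add (Nat.add (Nat.add (Nat.add (Nat.add (Nat.add (Nat.add C x4700) x3242) x5186) x4538) x4862) x4646) x4702)
    (Nat.sub (Nat.add (Nat.add (Nat.add (Nat.add (Nat.add (Nat.add (Nat.add (Nat.add C x3244) x5188) x4540) x4864) x4648) x4708) x4700) x4704) x2516)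
    (Nat.sub (Nat.sub (Nat.add (Nat.add (Nat.add (Nat.add (Nat.add (Nat.add (Nat.add C x3246) x5190) x4542) x4866) x4650) x4710) x4702) (Nat.mul x4704 (nat_lit 3))) x2518)
    (Nat.sub (Nat.sub (Nat.add (Nat.add (Nat.add (Nat.add (Nat.add (Nat.add (Nat.add (Nat.add C x3250) x5194) x4546) x4870) x4654) x4726) x4702) x4710) x4708) x2522)
    (Nat.sub (Nat.sub (Nat.add (Nat.add (Nat.add (Nat.add (Nat.add (Nat.add (Nat.add (Nat.add (Nat.add C x3252) x5196) x4548) x4872) x4656) x4728) x4704) x4716) x4708) (Nat.mul x4710 (nat_lit 2))) x2524)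
    (Nat.sub (Nat.sub (Nat.add (Nat.add (Nat.add (Nat.add (Nat.add (Nat.add (Nat.add C x3258) x5202) x4554) x4878) x4662) x4734) x4710) (Nat.mul x4716 (nat_lit 3))) x2530)
    (Nat.sub (Nat.add (Nat.add (Nat.add (Nat.add (Nat.add (Nat.add (Nat.add (Nat.add C x3268) x5212) x4564) x4888) x4672) x4780) x4708) x4728) x2540)
    (Nat.sub (Nat.sub (Nat.add (Nat.add (Nat.add (Nat.add (Nat.add (Nat.add (Nat.add (Nat.add (Nat.add C x3270) x5214) x4566) x4890) x4674) x4782) x4710) x4734) x4726) (Nat.mul x4728 (nat_lit 2))) x2542)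
    (Nat.sub (Nat.sub (Nat.add (Nat.add (Nat.add (Nat.add (Nat.add (Nat.add (Nat.add (Nat.add (Nat.add C x3276) x5220) x4572) x4896) x4680) x4788) x4716) x4752) x4728) x4734) x2548)
    (Nat.sub (Nat.sub (Nat.add (Nat.add (Nat.add (Nat.add (Nat.add (Nat.add C x3294) x5238) x4590) x4914) x4806) x4734) x4752) x2566)
    (Nat.sub (Nat.add (Nat.add (Nat.add (Nat.add (Nat.add C x3322) x5266) x4942) x4726) x4782) x2594)
    (Nat.sub (Nat.sub (Nat.add (Nat.add (Nat.add (Nat.add (Nat.add (Nat.add C x3324) x5268) x4944) x4728) x4788) x4780) (Nat.mul x4782 (nat_lit 2))) x2596)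
    (Nat.sub (Nat.sub (Nat.add (Nat.add (Nat.add (Nat.add (Nat.add (Nat.add C x3330) x5274) x4950) x4734) x4806) x4782) (Nat.mul x4788 (nat_lit 2))) x2602)
    (Nat.sub (Nat.add (Nat.add (Nat.add (Nat.add (Nat.add C x3348) x5292) x4968) x4752) x4788) x2620)
    (Nat.add (Nat.add (Nat.add (Nat.add C x3404) x5348) x4700) x4864)
    (Nat.sub (Nat.sub (Nat.add (Nat.add (Nat.add (Nat.add (Nat.add (Nat.add C x3406) x5350) x4702) x4870) x4862) x4866) x4864) x2678)
    (Nat.sub (Nat.sub (Nat.add (Nat.add (Nat.add (Nat.add (Nat.add C x3408) x5352) x4704) x4872) x4864) (Nat.mul x4866 (nat_lit 4))) x2680)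
    (Nat.sub (Nat.sub (Nat.add (Nat.add (Nat.add (Nat.add (Nat.add (Nat.add C x3412) x5356) x4708) x4888) x4864) x4872) (Nat.mul x4870 (nat_lit 2))) x2684)
    (Nat.sub (Nat.sub (Nat.add (Nat.add (Nat.add (Nat.add (Nat.add (Nat.add (Nat.add C x3414) x5358) x4710) x4890) x4866) x4878) x4870) (Nat.mul x4872 (nat_lit 3))) x2686)
    (Nat.sub (Nat.sub (Nat.add (Nat.add (Nat.add (Nat.add (Nat.add C x3420) x5364) x4716) x4896) x4872) (Nat.mul x4878 (nat_lit 4))) x2692)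
    (Nat.sub (Nat.sub (Nat.add (Nat.add (Nat.add (Nat.add (Nat.add (Nat.add C x3430) x5374) x4726) x4942) x4870) x4890) (Nat.mul x4888 (nat_lit 2))) x2702)
    (Nat.sub (Nat.sub (Nat.add (Nat.add (Nat.add (Nat.add (Nat.add (Nat.add (Nat.add C x3432) x5376) x4728) x4944) x4872) x4896) x4888) (Nat.mul x4890 (nat_lit 4))) x2704)
    (Nat.sub (Nat.sub (Nat.add (Nat.add (Nat.add (Nat.add (Nat.add (Nat.add (Nat.add C x3438) x5382) x4734) x4950) x4878) x4914) x4890) (Nat.mul x4896 (nat_lit 3))) x2710)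
    (Nat.sub (Nat.sub (Nat.add (Nat.add (Nat.add (Nat.add (Nat.add C x3456) x5400) x4752) x4968) x4896) (Nat.mul x4914 (nat_lit 4))) x2728)
    (Nat.sub (Nat.add (Nat.add (Nat.add (Nat.add (Nat.add C x3484) x5428) x4780) x4888) x4944) x2756)
    (Nat.sub (Nat.sub (Nat.add (Nat.add (Nat.add (Nat.add (Nat.add (Nat.add C x3486) x5430) x4782) x4890) x4950) x4942) (Nat.mul x4944 (nat_lit 2))) x2758)
    (Nat.sub (Nat.sub (Nat.add (Nat.add (Nat.add (Nat.add (Nat.add (Nat.add C x3492) x5436) x4788) x4896) x4968) x4944) (Nat.mul x4950 (nat_lit 2))) x2764)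
    (Nat.sub (Nat.sub (Nat.add (Nat.add (Nat.add (Nat.add (Nat.add (Nat.add C x3510) x5454) x4806) x4914) x5022) x4950) x4968) x2782)
    (Nat.sub (Nat.add (Nat.add (Nat.add C x3564) x5508) x4968) x2836)
    (Nat.add (Nat.add (Nat.add (Nat.add (Nat.add C (Nat.mul x5108 (nat_lit 4))) x3650) x4622) x5114) x5110)
    (Nat.sub (Nat.add (Nat.add (Nat.add (Nat.add (Nat.add C (Nat.mul x5110 (nat_lit 2))) x3652) x4624) x5116) x5108) x2924)
    (Nat.add (Nat.add (Nat.add (Nat.add (Nat.add (Nat.add C (Nat.mul x5114 (nat_lit 2))) x3656) x4628) x5132) x5108) x5116)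
    (Nat.sub (Nat.add (Nat.add (Nat.add (Nat.add (Nat.add (Nat.add (Nat.add (Nat.add C (Nat.mul x5116 (nat_lit 2))) x3658) x4630) x5134) x5110) x5122) x5114) x5118) x2930)
    (Nat.sub (Nat.add (Nat.add (Nat.add (Nat.add (Nat.add C x3660) x4632) x5136) x5124) x5116) x2932)
    (Nat.sub (Nat.add (Nat.add (Nat.add (Nat.add (Nat.add C x3664) x4636) x5140) x5116) x5124) x2936)
    (Nat.sub (Nat.add (Nat.add (Nat.add (Nat.add (Nat.add C x3666) x4638) x5142) x5118) x5122) x2938)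
    (Nat.add (Nat.add (Nat.add (Nat.add (Nat.add (Nat.add C (Nat.mul x5132 (nat_lit 2))) x3674) x4646) x5186) x5114) x5134)
    (Nat.sub (Nat.add (Nat.add (Nat.add (Nat.add (Nat.add (Nat.add (Nat.add (Nat.add C x5134) x3676) x4648) x5188) x5116) x5140) x5132) x5136) x2948)
    (Nat.sub (Nat.sub (Nat.add (Nat.add (Nat.add (Nat.add (Nat.add (Nat.add C x3678) x4650) x5190) x5118) x5142) x5134) (Nat.mul x5136 (nat_lit 2))) x2950)
    (Nat.sub (Nat.add (Nat.add (Nat.add (Nat.add (Nat.add (Nat.add (Nat.add (Nat.add C x5140) x3682) x4654) x5194) x5122) x5158) x5134) x5142) x2954)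
    (Nat.sub (Nat.add (Nat.add (Nat.add (Nat.add (Nat.add (Nat.add (Nat.add (Nat.add C x3684) x4656) x5196) x5124) x5160) x5136) x5148) x5140) x2956)
    (Nat.sub (Nat.add (Nat.add (Nat.add (Nat.add (Nat.add C x3690) x4662) x5202) x5166) x5142) x2962)
    (Nat.sub (Nat.add (Nat.add (Nat.add (Nat.add (Nat.add C x3700) x4672) x5212) x5140) x5160) x2972)
    (Nat.sub (Nat.sub (Nat.add (Nat.add (Nat.add (Nat.add (Nat.add (Nat.add C x3702) x4674) x5214) x5142) x5166) x5158) (Nat.mul x5160 (nat_lit 2))) x2974)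
    (Nat.sub (Nat.add (Nat.add (Nat.add (Nat.add (Nat.add C x3708) x4680) x5220) x5148) x5160) x2980)
    (Nat.add (Nat.add (Nat.add (Nat.add (Nat.add (Nat.add C (Nat.mul x5186 (nat_lit 2))) x3728) x4700) x5348) x5132) x5188)
    (Nat.sub (Nat.add (Nat.add (Nat.add (Nat.add (Nat.add (Nat.add (Nat.add (Nat.add C x5188) x3730) x4702) x5350) x5134) x5194) x5186) x5190) x3002)
    (Nat.sub (Nat.sub (Nat.add (Nat.add (Nat.add (Nat.add (Nat.add (Nat.add C x3732) x4704) x5352) x5136) x5196) x5188) (Nat.mul x5190 (nat_lit 2))) x3004)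
    (Nat.sub (Nat.add (Nat.add (Nat.add (Nat.add (Nat.add (Nat.add (Nat.add C x3736) x4708) x5356) x5140) x5212) x5188) x5196) x3008)
    (Nat.sub (Nat.sub (Nat.add (Nat.add (Nat.add (Nat.add (Nat.add (Nat.add (Nat.add (Nat.add C x3738) x4710) x5358) x5142) x5214) x5190) x5202) x5194) x5196) x3010)
    (Nat.sub (Nat.sub (Nat.add (Nat.add (Nat.add (Nat.add (Nat.add (Nat.add C x3744) x4716) x5364) x5148) x5220) x5196) (Nat.mul x5202 (nat_lit 2))) x3016)
    (Nat.sub (Nat.add (Nat.add (Nat.add (Nat.add (Nat.add (Nat.add (Nat.add (Nat.add C x5212) x3754) x4726) x5374) x5158) x5266) x5194) x5214) x3026)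
    (Nat.sub (Nat.sub (Nat.add (Nat.add (Nat.add (Nat.add (Nat.add (Nat.add (Nat.add (Nat.add C x3756) x4728) x5376) x5160) x5268) x5196) x5220) x5212) x5214) x3028)
    (Nat.sub (Nat.add (Nat.add (Nat.add (Nat.add (Nat.add (Nat.add (Nat.add (Nat.add C x3762) x4734) x5382) x5166) x5274) x5202) x5238) x5214) x3034)
    (Nat.sub (Nat.add (Nat.add (Nat.add (Nat.add (Nat.add C x3780) x4752) x5400) x5292) x5220) x3052)
    (Nat.sub (Nat.add (Nat.add (Nat.add (Nat.add (Nat.add C x3808) x4780) x5428) x5212) x5268) x3080)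
    (Nat.sub (Nat.sub (Nat.add (Nat.add (Nat.add (Nat.add (Nat.add (Nat.add C x3810) x4782) x5430) x5214) x5274) x5266) (Nat.mul x5268 (nat_lit 2))) x3082)
    (Nat.sub (Nat.sub (Nat.add (Nat.add (Nat.add (Nat.add (Nat.add (Nat.add C x3816) x4788) x5436) x5220) x5292) x5268) (Nat.mul x5274 (nat_lit 2))) x3088)
    (Nat.sub (Nat.add (Nat.add (Nat.add (Nat.add (Nat.add C x3834) x4806) x5454) x5238) x5274) x3106)
    (Nat.add (Nat.add (Nat.add (Nat.add (Nat.add (Nat.add C (Nat.mul x5348 (nat_lit 3))) x3890) x4862) x5834) x5186) x5350)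
    (Nat.sub (Nat.add (Nat.add (Nat.add (Nat.add (Nat.add (Nat.add (Nat.add (Nat.add C (Nat.mul x5350 (nat_lit 2))) x3892) x4864) x5836) x5188) x5356) x5348) x5352) x3164)
    (Nat.sub (Nat.sub (Nat.add (Nat.add (Nat.add (Nat.add (Nat.add (Nat.add C x3894) x4866) x5838) x5190) x5358) x5350) x5352) x3166)
    (Nat.sub (Nat.add (Nat.add (Nat.add (Nat.add (Nat.add (Nat.add (Nat.add (Nat.add C x5356) x3898) x4870) x5842) x5194) x5374) x5350) x5358) x3170)
    (Nat.sub (Nat.add (Nat.add (Nat.add (Nat.add (Nat.add (Nat.add (Nat.add (Nat.add C x3900) x4872) x5844) x5196) x5376) x5352) x5364) x5356) x3172)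
    (Nat.sub (Nat.sub (Nat.add (Nat.add (Nat.add (Nat.add (Nat.add (Nat.add C x3906) x4878) x5850) x5202) x5382) x5358) x5364) x3178)
    (Nat.sub (Nat.add (Nat.add (Nat.add (Nat.add (Nat.add (Nat.add (Nat.add (Nat.add C x5374) x3916) x4888) x5860) x5212) x5428) x5356) x5376) x3188)
    (Nat.sub (Nat.sub (Nat.add (Nat.add (Nat.add (Nat.add (Nat.add (Nat.add (Nat.add (Nat.add C x3918) x4890) x5862) x5214) x5430) x5358) x5382) x5374) x5376) x3190)
    (Nat.sub (Nat.add (Nat.add (Nat.add (Nat.add (Nat.add (Nat.add (Nat.add (Nat.add C x3924) x4896) x5868) x5220) x5436) x5364) x5400) x5376) x3196)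
    (Nat.sub (Nat.sub (Nat.add (Nat.add (Nat.add (Nat.add (Nat.add (Nat.add C x3942) x4914) x5886) x5238) x5454) x5382) x5400) x3214)
    (Nat.sub (Nat.add (Nat.add (Nat.add (Nat.add (Nat.add (Nat.add (Nat.add (Nat.add C (Nat.mul x5428 (nat_lit 2))) x3970) x4942) x5914) x5266) x5590) x5374) x5430) x3242)
    (Nat.sub (Nat.add (Nat.add (Nat.add (Nat.add (Nat.add (Nat.add (Nat.add (Nat.add C x3972) x4944) x5916) x5268) x5592) x5376) x5436) x5428) x3244)
    (Nat.sub (Nat.add (Nat.add (Nat.add (Nat.add (Nat.add (Nat.add (Nat.add (Nat.add C x3978) x4950) x5922) x5274) x5598) x5382) x5454) x5430) x3250)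
    (Nat.sub (Nat.add (Nat.add (Nat.add (Nat.add (Nat.add (Nat.add (Nat.add (Nat.add (Nat.add C x5454) x3996) x4968) x5940) x5292) x5616) x5400) x5508) x5436) x3268)
    (Nat.sub (Nat.add (Nat.add (Nat.add (Nat.add (Nat.add (Nat.add C x5508) x4050) x5022) x5994) x5670) x5454) x3322)
    (Nat.sub (Nat.add (Nat.add (Nat.add (Nat.add (Nat.add C (Nat.mul x5590 (nat_lit 2))) x4132) x6076) x5428) x5592) x3404)
    (Nat.sub (Nat.add (Nat.add (Nat.add (Nat.add (Nat.add C x4134) x6078) x5430) x5598) x5590) x3406)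
    (Nat.sub (Nat.add (Nat.add (Nat.add (Nat.add (Nat.add C x4140) x6084) x5436) x5616) x5592) x3412)
    (Nat.sub (Nat.add (Nat.add (Nat.add (Nat.add (Nat.add C x4158) x6102) x5454) x5670) x5598) x3430)
    (Nat.sub (Nat.add (Nat.add (Nat.add (Nat.add (Nat.add C (Nat.mul x5670 (nat_lit 2))) x4212) x6156) x5508) x5616) x3484)
    (Nat.add (Nat.add (Nat.add C (Nat.mul x5834 (nat_lit 4))) x5348) x5836)
    (Nat.sub (Nat.add (Nat.add (Nat.add (Nat.add (Nat.add C (Nat.mul x5836 (nat_lit 3))) x5350) x5842) x5834) x5838) x3650)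
    (Nat.sub (Nat.add (Nat.add (Nat.add C x5352) x5844) x5836) x3652)
    (Nat.sub (Nat.add (Nat.add (Nat.add (Nat.add (Nat.add C (Nat.mul x5842 (nat_lit 2))) x5356) x5860) x5836) x5844) x3656)
    (Nat.sub (Nat.add (Nat.add (Nat.add (Nat.add (Nat.add (Nat.add C x5844) x5358) x5862) x5838) x5850) x5842) x3658)
    (Nat.sub (Nat.add (Nat.add (Nat.add C x5364) x5868) x5844) x3664)
    (Nat.sub (Nat.add (Nat.add (Nat.add (Nat.add (Nat.add C (Nat.mul x5860 (nat_lit 2))) x5374) x5914) x5842) x5862) x3674)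
    (Nat.sub (Nat.add (Nat.add (Nat.add (Nat.add (Nat.add C x5376) x5916) x5844) x5868) x5860) x3676)
    (Nat.sub (Nat.add (Nat.add (Nat.add (Nat.add (Nat.add (Nat.add C x5868) x5382) x5922) x5850) x5886) x5862) x3682)
    (Nat.sub (Nat.add (Nat.add (Nat.add C x5400) x5940) x5868) x3700)
    (Nat.sub (Nat.add (Nat.add (Nat.add (Nat.add (Nat.add C (Nat.mul x5914 (nat_lit 2))) x5428) x6076) x5860) x5916) x3728)
    (Nat.sub (Nat.add (Nat.add (Nat.add (Nat.add (Nat.add C x5430) x6078) x5862) x5922) x5914) x3730)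
    (Nat.sub (Nat.add (Nat.add (Nat.add (Nat.add (Nat.add C x5436) x6084) x5868) x5940) x5916) x3736)
    (Nat.sub (Nat.add (Nat.add (Nat.add (Nat.add (Nat.add (Nat.add C x5940) x5454) x6102) x5886) x5994) x5922) x3754)
    (Nat.sub (Nat.add (Nat.add (Nat.add C x5508) x6156) x5940) x3808)
    (Nat.sub (Nat.add (Nat.add (Nat.add (Nat.add C (Nat.mul x6076 (nat_lit 4))) x5590) x5914) x6078) x3890)
    (Nat.sub (Nat.add (Nat.add (Nat.add (Nat.add (Nat.add C (Nat.mul x6078 (nat_lit 2))) x5592) x5916) x6084) x6076) x3892)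
    (Nat.sub (Nat.add (Nat.add (Nat.add (Nat.add (Nat.add C (Nat.mul x6084 (nat_lit 2))) x5598) x5922) x6102) x6078) x3898)
    (Nat.sub (Nat.add (Nat.add (Nat.add (Nat.add (Nat.add C (Nat.mul x6102 (nat_lit 2))) x5616) x5940) x6156) x6084) x3916)
    (Nat.sub (Nat.add (Nat.add (Nat.add (Nat.add (Nat.add C (Nat.mul x6156 (nat_lit 3))) x5670) x5994) x6318) x6102) x3970)
    (Nat.sub (Nat.add (Nat.add C (Nat.mul x6318 (nat_lit 4))) x6156) x4132)

theorem ap_eq (x : Nat → Nat) (k : FnLL specs) : apLL (fun t => x t.cd) specs k = A8_6.ap x k :=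
  Eq.refl (A8_6.ap x k)

theorem step_eq0 (e : Nat → Nat) (C p r : Nat) (k : FnLL specs) (x : Nat → Nat) :
    A8_6.ap x (step e C p r k) = apLL (interp e C p r x) specs k :=
  Eq.refl (A8_6.ap x (step e C p r k))

theorem spec_ok : specOK 7 true A8_6.mask specs = true := by decide +kernel

theorem step_eq (e : Nat → Nat) (C p r : Nat) (k : A8_6.KK) (x : Nat → Nat) :
    A8_6.ap x (step e C p r k) = A8_6.ap (row 7 true A8_6.mask e C p r x) k :=
  ((step_eq0 e C p r k x).trans (apLL_row 7 true A8_6.mask specs spec_ok e C p r x k)).trans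
    (ap_eq (row 7 true A8_6.mask e C p r x) k)

end Vale.Agent.P348.G8_6_1

namespace Vale.Agent.P348.G8_7_1

noncomputable def sp0 : List Spec :=
  [Spec.mk (nat_lit 53) (nat_lit 4) [nat_lit 107, nat_lit 71] (nat_lit 0) [nat_lit 2239] true,
   Spec.mk (nat_lit 71) (nat_lit 2) [nat_lit 125, nat_lit 53, nat_lit 77] (nat_lit 0) [nat_lit 2257] true,
   Spec.mk (nat_lit 77) (nat_lit 2) [nat_lit 131, nat_lit 71, nat_lit 79] (nat_lit 0) [nat_lit 2263] false,
   Spec.mk (nat_lit 79) (nat_lit 4) [nat_lit 133, nat_lit 77] (nat_lit 0) [nat_lit 2265] false,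
   Spec.mk (nat_lit 107) (nat_lit 2) [nat_lit 269, nat_lit 53, nat_lit 125] (nat_lit 0) [nat_lit 2293] true,
   Spec.mk (nat_lit 125) (nat_lit 2) [nat_lit 287, nat_lit 71, nat_lit 179, nat_lit 107, nat_lit 143, nat_lit 131] (nat_lit 0) [nat_lit 2311] true,
   Spec.mk (nat_lit 131) (nat_lit 1) [nat_lit 293, nat_lit 77, nat_lit 185, nat_lit 149, nat_lit 125, nat_lit 133] (nat_lit 0) [nat_lit 2317] true,
   Spec.mk (nat_lit 133) (nat_lit 3) [nat_lit 295, nat_lit 79, nat_lit 187, nat_lit 151, nat_lit 131] (nat_lit 0) [nat_lit 2319] true,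
   Spec.mk (nat_lit 143) (nat_lit 0) [nat_lit 305, nat_lit 197, nat_lit 125, nat_lit 149] (nat_lit 0) [nat_lit 2329] true,
   Spec.mk (nat_lit 149) (nat_lit 1) [nat_lit 311, nat_lit 203, nat_lit 131, nat_lit 143, nat_lit 155, nat_lit 151] (nat_lit 0) [nat_lit 2335] true,
   Spec.mk (nat_lit 151) (nat_lit 2) [nat_lit 313, nat_lit 205, nat_lit 133, nat_lit 157, nat_lit 149] (nat_lit 0) [nat_lit 2337] true,
   Spec.mk (nat_lit 155) (nat_lit 0) [nat_lit 317, nat_lit 209, nat_lit 149, nat_lit 157] (nat_lit 0) [nat_lit 2341] true,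
   Spec.mk (nat_lit 157) (nat_lit 3) [nat_lit 319, nat_lit 211, nat_lit 151, nat_lit 155, nat_lit 159] (nat_lit 0) [nat_lit 2343] false,
   Spec.mk (nat_lit 159) (nat_lit 4) [nat_lit 321, nat_lit 213, nat_lit 157] (nat_lit 0) [] false,
   Spec.mk (nat_lit 179) (nat_lit 0) [nat_lit 341, nat_lit 125, nat_lit 197, nat_lit 185] (nat_lit 0) [nat_lit 2365] true,
   Spec.mk (nat_lit 185) (nat_lit 0) [nat_lit 347, nat_lit 131, nat_lit 203, nat_lit 179, nat_lit 187] (nat_lit 2) [nat_lit 2371] true,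
   Spec.mk (nat_lit 187) (nat_lit 0) [nat_lit 349, nat_lit 133, nat_lit 205, nat_lit 185] (nat_lit 0) [nat_lit 2373] false,
   Spec.mk (nat_lit 197) (nat_lit 0) [nat_lit 359, nat_lit 143, nat_lit 179, nat_lit 203] (nat_lit 0) [nat_lit 2383] true,
   Spec.mk (nat_lit 203) (nat_lit 0) [nat_lit 365, nat_lit 149, nat_lit 185, nat_lit 221, nat_lit 197, nat_lit 209, nat_lit 205] (nat_lit 0) [nat_lit 2389] true,
   Spec.mk (nat_lit 205) (nat_lit 1) [nat_lit 367, nat_lit 151, nat_lit 187, nat_lit 223, nat_lit 211, nat_lit 203] (nat_lit 0) [nat_lit 2391] false,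
   Spec.mk (nat_lit 209) (nat_lit 0) [nat_lit 371, nat_lit 155, nat_lit 227, nat_lit 203, nat_lit 211] (nat_lit 2) [nat_lit 2395] false,
   Spec.mk (nat_lit 211) (nat_lit 1) [nat_lit 373, nat_lit 157, nat_lit 229, nat_lit 205, nat_lit 209, nat_lit 213] (nat_lit 0) [nat_lit 2397] false,
   Spec.mk (nat_lit 213) (nat_lit 2) [nat_lit 375, nat_lit 159, nat_lit 231, nat_lit 211] (nat_lit 0) [] false,
   Spec.mk (nat_lit 221) (nat_lit 0) [nat_lit 383, nat_lit 203, nat_lit 227, nat_lit 223] (nat_lit 0) [nat_lit 2407] false,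
   Spec.mk (nat_lit 223) (nat_lit 0) [nat_lit 385, nat_lit 205, nat_lit 229, nat_lit 221] (nat_lit 0) [nat_lit 2409] false,
   Spec.mk (nat_lit 227) (nat_lit 0) [nat_lit 389, nat_lit 209, nat_lit 221, nat_lit 229] (nat_lit 0) [nat_lit 2413] false,
   Spec.mk (nat_lit 229) (nat_lit 2) [nat_lit 391, nat_lit 211, nat_lit 223, nat_lit 235, nat_lit 227, nat_lit 231] (nat_lit 0) [nat_lit 2415] false,
   Spec.mk (nat_lit 231) (nat_lit 2) [nat_lit 393, nat_lit 213, nat_lit 237, nat_lit 229] (nat_lit 0) [] false,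
   Spec.mk (nat_lit 235) (nat_lit 2) [nat_lit 397, nat_lit 229, nat_lit 237] (nat_lit 0) [nat_lit 2421] false,
   Spec.mk (nat_lit 237) (nat_lit 4) [nat_lit 399, nat_lit 231, nat_lit 235] (nat_lit 0) [] false,
   Spec.mk (nat_lit 269) (nat_lit 2) [nat_lit 755, nat_lit 107, nat_lit 287] (nat_lit 0) [nat_lit 2455] true,
   Spec.mk (nat_lit 287) (nat_lit 1) [nat_lit 773, nat_lit 125, nat_lit 341, nat_lit 269, nat_lit 305, nat_lit 293] (nat_lit 0) [nat_lit 2473] true,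
   Spec.mk (nat_lit 293) (nat_lit 0) [nat_lit 779, nat_lit 131, nat_lit 347, nat_lit 311, nat_lit 287, nat_lit 295] (nat_lit 0) [nat_lit 2479] true,
   Spec.mk (nat_lit 295) (nat_lit 2) [nat_lit 781, nat_lit 133, nat_lit 349, nat_lit 313, nat_lit 293] (nat_lit 0) [nat_lit 2481] true,
   Spec.mk (nat_lit 305) (nat_lit 0) [nat_lit 791, nat_lit 143, nat_lit 359, nat_lit 287, nat_lit 311] (nat_lit 2) [nat_lit 2491] true,
   Spec.mk (nat_lit 311) (nat_lit 0) [nat_lit 797, nat_lit 149, nat_lit 365, nat_lit 293, nat_lit 305, nat_lit 317, nat_lit 313] (nat_lit 1) [nat_lit 2497] true,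
   Spec.mk (nat_lit 313) (nat_lit 0) [nat_lit 799, nat_lit 151, nat_lit 367, nat_lit 295, nat_lit 319, nat_lit 311] (nat_lit 0) [nat_lit 2499] true,
   Spec.mk (nat_lit 317) (nat_lit 0) [nat_lit 803, nat_lit 155, nat_lit 371, nat_lit 311, nat_lit 319] (nat_lit 2) [nat_lit 2503] true,
   Spec.mk (nat_lit 319) (nat_lit 1) [nat_lit 805, nat_lit 157, nat_lit 373, nat_lit 313, nat_lit 317, nat_lit 321] (nat_lit 0) [nat_lit 2505] true,
   Spec.mk (nat_lit 321) (nat_lit 2) [nat_lit 807, nat_lit 159, nat_lit 375, nat_lit 319] (nat_lit 0) [] false,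
   Spec.mk (nat_lit 341) (nat_lit 1) [nat_lit 827, nat_lit 179, nat_lit 503, nat_lit 287, nat_lit 359, nat_lit 347] (nat_lit 0) [nat_lit 2527] true,
   Spec.mk (nat_lit 347) (nat_lit 0) [nat_lit 833, nat_lit 185, nat_lit 509, nat_lit 293, nat_lit 365, nat_lit 341, nat_lit 349] (nat_lit 1) [nat_lit 2533] true,
   Spec.mk (nat_lit 349) (nat_lit 1) [nat_lit 835, nat_lit 187, nat_lit 511, nat_lit 295, nat_lit 367, nat_lit 347] (nat_lit 0) [nat_lit 2535] true,
   Spec.mk (nat_lit 359) (nat_lit 0) [nat_lit 845, nat_lit 197, nat_lit 521, nat_lit 305, nat_lit 413, nat_lit 341, nat_lit 365] (nat_lit 0) [nat_lit 2545] true,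
   Spec.mk (nat_lit 365) (nat_lit 0) [nat_lit 851, nat_lit 203, nat_lit 527, nat_lit 311, nat_lit 419, nat_lit 347, nat_lit 383, nat_lit 359, nat_lit 371, nat_lit 367] (nat_lit 0) [nat_lit 2551] true,
   Spec.mk (nat_lit 367) (nat_lit 1) [nat_lit 853, nat_lit 205, nat_lit 529, nat_lit 313, nat_lit 421, nat_lit 349, nat_lit 385, nat_lit 373, nat_lit 365] (nat_lit 0) [nat_lit 2553] true,
   Spec.mk (nat_lit 371) (nat_lit 0) [nat_lit 857, nat_lit 209, nat_lit 533, nat_lit 317, nat_lit 425, nat_lit 389, nat_lit 365, nat_lit 373] (nat_lit 2) [nat_lit 2557] true,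
   Spec.mk (nat_lit 373) (nat_lit 1) [nat_lit 859, nat_lit 211, nat_lit 535, nat_lit 319, nat_lit 427, nat_lit 391, nat_lit 367, nat_lit 371, nat_lit 375] (nat_lit 0) [nat_lit 2559] true,
   Spec.mk (nat_lit 375) (nat_lit 2) [nat_lit 861, nat_lit 213, nat_lit 537, nat_lit 321, nat_lit 429, nat_lit 393, nat_lit 373] (nat_lit 0) [] false,
   Spec.mk (nat_lit 383) (nat_lit 0) [nat_lit 869, nat_lit 221, nat_lit 545, nat_lit 437, nat_lit 365, nat_lit 389, nat_lit 385] (nat_lit 1) [nat_lit 2569] true,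
   Spec.mk (nat_lit 385) (nat_lit 0) [nat_lit 871, nat_lit 223, nat_lit 547, nat_lit 439, nat_lit 367, nat_lit 391, nat_lit 383] (nat_lit 1) [nat_lit 2571] true,
   Spec.mk (nat_lit 389) (nat_lit 0) [nat_lit 875, nat_lit 227, nat_lit 551, nat_lit 443, nat_lit 371, nat_lit 383, nat_lit 391] (nat_lit 1) [nat_lit 2575] true,
   Spec.mk (nat_lit 391) (nat_lit 1) [nat_lit 877, nat_lit 229, nat_lit 553, nat_lit 445, nat_lit 373, nat_lit 385, nat_lit 397, nat_lit 389, nat_lit 393] (nat_lit 0) [nat_lit 2577] false,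
   Spec.mk (nat_lit 393) (nat_lit 1) [nat_lit 879, nat_lit 231, nat_lit 555, nat_lit 447, nat_lit 375, nat_lit 399, nat_lit 391] (nat_lit 0) [] false,
   Spec.mk (nat_lit 397) (nat_lit 1) [nat_lit 883, nat_lit 235, nat_lit 559, nat_lit 451, nat_lit 391, nat_lit 399] (nat_lit 0) [nat_lit 2583] false,
   Spec.mk (nat_lit 399) (nat_lit 3) [nat_lit 885, nat_lit 237, nat_lit 561, nat_lit 453, nat_lit 393, nat_lit 397] (nat_lit 0) [] false,
   Spec.mk (nat_lit 413) (nat_lit 0) [nat_lit 899, nat_lit 575, nat_lit 359, nat_lit 419] (nat_lit 0) [nat_lit 2599] true,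
   Spec.mk (nat_lit 419) (nat_lit 0) [nat_lit 905, nat_lit 581, nat_lit 365, nat_lit 437, nat_lit 413, nat_lit 425, nat_lit 421] (nat_lit 1) [nat_lit 2605] true,
   Spec.mk (nat_lit 421) (nat_lit 0) [nat_lit 907, nat_lit 583, nat_lit 367, nat_lit 439, nat_lit 427, nat_lit 419] (nat_lit 0) [nat_lit 2607] true,
   Spec.mk (nat_lit 425) (nat_lit 0) [nat_lit 911, nat_lit 587, nat_lit 371, nat_lit 443, nat_lit 419, nat_lit 427] (nat_lit 4) [nat_lit 2611] true]

noncomputable def sp1 : List Spec :=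
  [Spec.mk (nat_lit 427) (nat_lit 0) [nat_lit 913, nat_lit 589, nat_lit 373, nat_lit 445, nat_lit 421, nat_lit 425, nat_lit 429] (nat_lit 1) [nat_lit 2613] false,
   Spec.mk (nat_lit 429) (nat_lit 0) [nat_lit 915, nat_lit 591, nat_lit 375, nat_lit 447, nat_lit 427] (nat_lit 0) [] false,
   Spec.mk (nat_lit 437) (nat_lit 0) [nat_lit 923, nat_lit 599, nat_lit 383, nat_lit 419, nat_lit 443, nat_lit 439] (nat_lit 0) [nat_lit 2623] true,
   Spec.mk (nat_lit 439) (nat_lit 0) [nat_lit 925, nat_lit 601, nat_lit 385, nat_lit 421, nat_lit 445, nat_lit 437] (nat_lit 0) [nat_lit 2625] false,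
   Spec.mk (nat_lit 443) (nat_lit 0) [nat_lit 929, nat_lit 605, nat_lit 389, nat_lit 425, nat_lit 461, nat_lit 437, nat_lit 445] (nat_lit 1) [nat_lit 2629] true,
   Spec.mk (nat_lit 445) (nat_lit 1) [nat_lit 931, nat_lit 607, nat_lit 391, nat_lit 427, nat_lit 463, nat_lit 439, nat_lit 451, nat_lit 443, nat_lit 447] (nat_lit 0) [nat_lit 2631] false,
   Spec.mk (nat_lit 447) (nat_lit 1) [nat_lit 933, nat_lit 609, nat_lit 393, nat_lit 429, nat_lit 465, nat_lit 453, nat_lit 445] (nat_lit 0) [] false,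
   Spec.mk (nat_lit 451) (nat_lit 0) [nat_lit 937, nat_lit 613, nat_lit 397, nat_lit 469, nat_lit 445, nat_lit 453] (nat_lit 0) [nat_lit 2637] false,
   Spec.mk (nat_lit 453) (nat_lit 2) [nat_lit 939, nat_lit 615, nat_lit 399, nat_lit 471, nat_lit 447, nat_lit 451] (nat_lit 0) [] false,
   Spec.mk (nat_lit 461) (nat_lit 0) [nat_lit 947, nat_lit 623, nat_lit 443, nat_lit 463] (nat_lit 0) [nat_lit 2647] true,
   Spec.mk (nat_lit 463) (nat_lit 1) [nat_lit 949, nat_lit 625, nat_lit 445, nat_lit 469, nat_lit 461, nat_lit 465] (nat_lit 0) [nat_lit 2649] false,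
   Spec.mk (nat_lit 465) (nat_lit 0) [nat_lit 951, nat_lit 627, nat_lit 447, nat_lit 471, nat_lit 463] (nat_lit 0) [] false,
   Spec.mk (nat_lit 469) (nat_lit 2) [nat_lit 955, nat_lit 631, nat_lit 451, nat_lit 463, nat_lit 471] (nat_lit 0) [nat_lit 2655] false,
   Spec.mk (nat_lit 471) (nat_lit 3) [nat_lit 957, nat_lit 633, nat_lit 453, nat_lit 465, nat_lit 477, nat_lit 469] (nat_lit 0) [] false,
   Spec.mk (nat_lit 477) (nat_lit 4) [nat_lit 963, nat_lit 639, nat_lit 471] (nat_lit 0) [] false,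
   Spec.mk (nat_lit 503) (nat_lit 0) [nat_lit 989, nat_lit 341, nat_lit 521, nat_lit 509] (nat_lit 0) [nat_lit 2689] false,
   Spec.mk (nat_lit 509) (nat_lit 0) [nat_lit 995, nat_lit 347, nat_lit 527, nat_lit 503, nat_lit 511] (nat_lit 2) [nat_lit 2695] true,
   Spec.mk (nat_lit 511) (nat_lit 0) [nat_lit 997, nat_lit 349, nat_lit 529, nat_lit 509] (nat_lit 0) [nat_lit 2697] false,
   Spec.mk (nat_lit 521) (nat_lit 0) [nat_lit 1007, nat_lit 359, nat_lit 575, nat_lit 503, nat_lit 527] (nat_lit 2) [nat_lit 2707] true,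
   Spec.mk (nat_lit 527) (nat_lit 0) [nat_lit 1013, nat_lit 365, nat_lit 581, nat_lit 509, nat_lit 545, nat_lit 521, nat_lit 533, nat_lit 529] (nat_lit 2) [nat_lit 2713] true,
   Spec.mk (nat_lit 529) (nat_lit 0) [nat_lit 1015, nat_lit 367, nat_lit 583, nat_lit 511, nat_lit 547, nat_lit 535, nat_lit 527] (nat_lit 1) [nat_lit 2715] false,
   Spec.mk (nat_lit 533) (nat_lit 0) [nat_lit 1019, nat_lit 371, nat_lit 587, nat_lit 551, nat_lit 527, nat_lit 535] (nat_lit 4) [nat_lit 2719] true,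
   Spec.mk (nat_lit 535) (nat_lit 0) [nat_lit 1021, nat_lit 373, nat_lit 589, nat_lit 553, nat_lit 529, nat_lit 533, nat_lit 537] (nat_lit 1) [nat_lit 2721] false,
   Spec.mk (nat_lit 537) (nat_lit 0) [nat_lit 1023, nat_lit 375, nat_lit 591, nat_lit 555, nat_lit 535] (nat_lit 0) [] false,
   Spec.mk (nat_lit 545) (nat_lit 0) [nat_lit 1031, nat_lit 383, nat_lit 599, nat_lit 527, nat_lit 551, nat_lit 547] (nat_lit 4) [nat_lit 2731] true,
   Spec.mk (nat_lit 547) (nat_lit 0) [nat_lit 1033, nat_lit 385, nat_lit 601, nat_lit 529, nat_lit 553, nat_lit 545] (nat_lit 4) [nat_lit 2733] false,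
   Spec.mk (nat_lit 551) (nat_lit 0) [nat_lit 1037, nat_lit 389, nat_lit 605, nat_lit 533, nat_lit 545, nat_lit 553] (nat_lit 4) [nat_lit 2737] false,
   Spec.mk (nat_lit 553) (nat_lit 0) [nat_lit 1039, nat_lit 391, nat_lit 607, nat_lit 535, nat_lit 547, nat_lit 559, nat_lit 551, nat_lit 555] (nat_lit 2) [nat_lit 2739] false,
   Spec.mk (nat_lit 555) (nat_lit 0) [nat_lit 1041, nat_lit 393, nat_lit 609, nat_lit 537, nat_lit 561, nat_lit 553] (nat_lit 2) [] false,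
   Spec.mk (nat_lit 559) (nat_lit 0) [nat_lit 1045, nat_lit 397, nat_lit 613, nat_lit 553, nat_lit 561] (nat_lit 2) [nat_lit 2745] false,
   Spec.mk (nat_lit 561) (nat_lit 0) [nat_lit 1047, nat_lit 399, nat_lit 615, nat_lit 555, nat_lit 559] (nat_lit 0) [] false,
   Spec.mk (nat_lit 575) (nat_lit 0) [nat_lit 1061, nat_lit 413, nat_lit 521, nat_lit 581] (nat_lit 0) [nat_lit 2761] false,
   Spec.mk (nat_lit 581) (nat_lit 0) [nat_lit 1067, nat_lit 419, nat_lit 527, nat_lit 599, nat_lit 575, nat_lit 587, nat_lit 583] (nat_lit 1) [nat_lit 2767] true,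
   Spec.mk (nat_lit 583) (nat_lit 0) [nat_lit 1069, nat_lit 421, nat_lit 529, nat_lit 601, nat_lit 589, nat_lit 581] (nat_lit 0) [nat_lit 2769] false,
   Spec.mk (nat_lit 587) (nat_lit 0) [nat_lit 1073, nat_lit 425, nat_lit 533, nat_lit 605, nat_lit 581, nat_lit 589] (nat_lit 4) [nat_lit 2773] false,
   Spec.mk (nat_lit 589) (nat_lit 0) [nat_lit 1075, nat_lit 427, nat_lit 535, nat_lit 607, nat_lit 583, nat_lit 587, nat_lit 591] (nat_lit 1) [nat_lit 2775] false,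
   Spec.mk (nat_lit 591) (nat_lit 0) [nat_lit 1077, nat_lit 429, nat_lit 537, nat_lit 609, nat_lit 589] (nat_lit 0) [] false,
   Spec.mk (nat_lit 599) (nat_lit 0) [nat_lit 1085, nat_lit 437, nat_lit 545, nat_lit 653, nat_lit 581, nat_lit 605, nat_lit 601] (nat_lit 1) [nat_lit 2785] false,
   Spec.mk (nat_lit 601) (nat_lit 0) [nat_lit 1087, nat_lit 439, nat_lit 547, nat_lit 655, nat_lit 583, nat_lit 607, nat_lit 599] (nat_lit 1) [nat_lit 2787] false,
   Spec.mk (nat_lit 605) (nat_lit 0) [nat_lit 1091, nat_lit 443, nat_lit 551, nat_lit 659, nat_lit 587, nat_lit 623, nat_lit 599, nat_lit 607] (nat_lit 2) [nat_lit 2791] false,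
   Spec.mk (nat_lit 607) (nat_lit 0) [nat_lit 1093, nat_lit 445, nat_lit 553, nat_lit 661, nat_lit 589, nat_lit 625, nat_lit 601, nat_lit 613, nat_lit 605, nat_lit 609] (nat_lit 0) [nat_lit 2793] false,
   Spec.mk (nat_lit 609) (nat_lit 0) [nat_lit 1095, nat_lit 447, nat_lit 555, nat_lit 663, nat_lit 591, nat_lit 627, nat_lit 615, nat_lit 607] (nat_lit 0) [] false,
   Spec.mk (nat_lit 613) (nat_lit 0) [nat_lit 1099, nat_lit 451, nat_lit 559, nat_lit 667, nat_lit 631, nat_lit 607, nat_lit 615] (nat_lit 1) [nat_lit 2799] false,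
   Spec.mk (nat_lit 615) (nat_lit 1) [nat_lit 1101, nat_lit 453, nat_lit 561, nat_lit 669, nat_lit 633, nat_lit 609, nat_lit 613] (nat_lit 0) [] false,
   Spec.mk (nat_lit 623) (nat_lit 0) [nat_lit 1109, nat_lit 461, nat_lit 677, nat_lit 605, nat_lit 625] (nat_lit 2) [nat_lit 2809] false,
   Spec.mk (nat_lit 625) (nat_lit 0) [nat_lit 1111, nat_lit 463, nat_lit 679, nat_lit 607, nat_lit 631, nat_lit 623, nat_lit 627] (nat_lit 1) [nat_lit 2811] false,
   Spec.mk (nat_lit 627) (nat_lit 0) [nat_lit 1113, nat_lit 465, nat_lit 681, nat_lit 609, nat_lit 633, nat_lit 625] (nat_lit 2) [] false,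
   Spec.mk (nat_lit 631) (nat_lit 0) [nat_lit 1117, nat_lit 469, nat_lit 685, nat_lit 613, nat_lit 625, nat_lit 633] (nat_lit 0) [nat_lit 2817] false,
   Spec.mk (nat_lit 633) (nat_lit 1) [nat_lit 1119, nat_lit 471, nat_lit 687, nat_lit 615, nat_lit 627, nat_lit 639, nat_lit 631] (nat_lit 0) [] false,
   Spec.mk (nat_lit 639) (nat_lit 2) [nat_lit 1125, nat_lit 477, nat_lit 693, nat_lit 633] (nat_lit 0) [] false,
   Spec.mk (nat_lit 653) (nat_lit 0) [nat_lit 1139, nat_lit 599, nat_lit 659, nat_lit 655] (nat_lit 0) [nat_lit 2839] false,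
   Spec.mk (nat_lit 655) (nat_lit 0) [nat_lit 1141, nat_lit 601, nat_lit 661, nat_lit 653] (nat_lit 0) [nat_lit 2841] false,
   Spec.mk (nat_lit 659) (nat_lit 0) [nat_lit 1145, nat_lit 605, nat_lit 677, nat_lit 653, nat_lit 661] (nat_lit 2) [nat_lit 2845] false,
   Spec.mk (nat_lit 661) (nat_lit 0) [nat_lit 1147, nat_lit 607, nat_lit 679, nat_lit 655, nat_lit 667, nat_lit 659, nat_lit 663] (nat_lit 0) [nat_lit 2847] false,
   Spec.mk (nat_lit 663) (nat_lit 0) [nat_lit 1149, nat_lit 609, nat_lit 681, nat_lit 669, nat_lit 661] (nat_lit 0) [] false,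
   Spec.mk (nat_lit 667) (nat_lit 0) [nat_lit 1153, nat_lit 613, nat_lit 685, nat_lit 661, nat_lit 669] (nat_lit 2) [nat_lit 2853] false,
   Spec.mk (nat_lit 669) (nat_lit 0) [nat_lit 1155, nat_lit 615, nat_lit 687, nat_lit 663, nat_lit 667] (nat_lit 0) [] false,
   Spec.mk (nat_lit 677) (nat_lit 0) [nat_lit 1163, nat_lit 623, nat_lit 659, nat_lit 679] (nat_lit 0) [nat_lit 2863] false,
   Spec.mk (nat_lit 679) (nat_lit 1) [nat_lit 1165, nat_lit 625, nat_lit 661, nat_lit 685, nat_lit 677, nat_lit 681] (nat_lit 0) [nat_lit 2865] false,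
   Spec.mk (nat_lit 681) (nat_lit 0) [nat_lit 1167, nat_lit 627, nat_lit 663, nat_lit 687, nat_lit 679] (nat_lit 0) [] false]

noncomputable def sp2 : List Spec :=
  [Spec.mk (nat_lit 685) (nat_lit 1) [nat_lit 1171, nat_lit 631, nat_lit 667, nat_lit 703, nat_lit 679, nat_lit 687] (nat_lit 0) [nat_lit 2871] false,
   Spec.mk (nat_lit 687) (nat_lit 2) [nat_lit 1173, nat_lit 633, nat_lit 669, nat_lit 705, nat_lit 681, nat_lit 693, nat_lit 685] (nat_lit 0) [] false,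
   Spec.mk (nat_lit 693) (nat_lit 2) [nat_lit 1179, nat_lit 639, nat_lit 711, nat_lit 687] (nat_lit 0) [] false,
   Spec.mk (nat_lit 703) (nat_lit 2) [nat_lit 1189, nat_lit 685, nat_lit 705] (nat_lit 0) [nat_lit 2889] false,
   Spec.mk (nat_lit 705) (nat_lit 2) [nat_lit 1191, nat_lit 687, nat_lit 711, nat_lit 703] (nat_lit 0) [] false,
   Spec.mk (nat_lit 711) (nat_lit 4) [nat_lit 1197, nat_lit 693, nat_lit 705] (nat_lit 0) [] false,
   Spec.mk (nat_lit 755) (nat_lit 2) [nat_lit 2213, nat_lit 269, nat_lit 773] (nat_lit 0) [nat_lit 2941] false,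
   Spec.mk (nat_lit 773) (nat_lit 1) [nat_lit 2231, nat_lit 287, nat_lit 827, nat_lit 755, nat_lit 791, nat_lit 779] (nat_lit 0) [nat_lit 2959] false,
   Spec.mk (nat_lit 779) (nat_lit 0) [nat_lit 2237, nat_lit 293, nat_lit 833, nat_lit 797, nat_lit 773, nat_lit 781] (nat_lit 0) [nat_lit 2965] false,
   Spec.mk (nat_lit 781) (nat_lit 2) [nat_lit 2239, nat_lit 295, nat_lit 835, nat_lit 799, nat_lit 779] (nat_lit 0) [nat_lit 2967] false,
   Spec.mk (nat_lit 791) (nat_lit 0) [nat_lit 2249, nat_lit 305, nat_lit 845, nat_lit 773, nat_lit 797] (nat_lit 2) [nat_lit 2977] false,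
   Spec.mk (nat_lit 797) (nat_lit 0) [nat_lit 2255, nat_lit 311, nat_lit 851, nat_lit 779, nat_lit 791, nat_lit 803, nat_lit 799] (nat_lit 1) [nat_lit 2983] false,
   Spec.mk (nat_lit 799) (nat_lit 0) [nat_lit 2257, nat_lit 313, nat_lit 853, nat_lit 781, nat_lit 805, nat_lit 797] (nat_lit 0) [nat_lit 2985] false,
   Spec.mk (nat_lit 803) (nat_lit 0) [nat_lit 2261, nat_lit 317, nat_lit 857, nat_lit 797, nat_lit 805] (nat_lit 2) [nat_lit 2989] false,
   Spec.mk (nat_lit 805) (nat_lit 1) [nat_lit 2263, nat_lit 319, nat_lit 859, nat_lit 799, nat_lit 803, nat_lit 807] (nat_lit 0) [nat_lit 2991] false,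
   Spec.mk (nat_lit 807) (nat_lit 2) [nat_lit 2265, nat_lit 321, nat_lit 861, nat_lit 805] (nat_lit 0) [] false,
   Spec.mk (nat_lit 827) (nat_lit 0) [nat_lit 2285, nat_lit 341, nat_lit 989, nat_lit 773, nat_lit 845, nat_lit 833] (nat_lit 0) [nat_lit 3013] true,
   Spec.mk (nat_lit 833) (nat_lit 0) [nat_lit 2291, nat_lit 347, nat_lit 995, nat_lit 779, nat_lit 851, nat_lit 827, nat_lit 835] (nat_lit 2) [nat_lit 3019] true,
   Spec.mk (nat_lit 835) (nat_lit 0) [nat_lit 2293, nat_lit 349, nat_lit 997, nat_lit 781, nat_lit 853, nat_lit 833] (nat_lit 0) [nat_lit 3021] false,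
   Spec.mk (nat_lit 845) (nat_lit 0) [nat_lit 2303, nat_lit 359, nat_lit 1007, nat_lit 791, nat_lit 899, nat_lit 827, nat_lit 851] (nat_lit 1) [nat_lit 3031] true,
   Spec.mk (nat_lit 851) (nat_lit 0) [nat_lit 2309, nat_lit 365, nat_lit 1013, nat_lit 797, nat_lit 905, nat_lit 833, nat_lit 869, nat_lit 845, nat_lit 857, nat_lit 853] (nat_lit 1) [nat_lit 3037] true,
   Spec.mk (nat_lit 853) (nat_lit 0) [nat_lit 2311, nat_lit 367, nat_lit 1015, nat_lit 799, nat_lit 907, nat_lit 835, nat_lit 871, nat_lit 859, nat_lit 851] (nat_lit 0) [nat_lit 3039] true,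
   Spec.mk (nat_lit 857) (nat_lit 0) [nat_lit 2315, nat_lit 371, nat_lit 1019, nat_lit 803, nat_lit 911, nat_lit 875, nat_lit 851, nat_lit 859] (nat_lit 3) [nat_lit 3043] true,
   Spec.mk (nat_lit 859) (nat_lit 0) [nat_lit 2317, nat_lit 373, nat_lit 1021, nat_lit 805, nat_lit 913, nat_lit 877, nat_lit 853, nat_lit 857, nat_lit 861] (nat_lit 0) [nat_lit 3045] true,
   Spec.mk (nat_lit 861) (nat_lit 1) [nat_lit 2319, nat_lit 375, nat_lit 1023, nat_lit 807, nat_lit 915, nat_lit 879, nat_lit 859] (nat_lit 0) [] false,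
   Spec.mk (nat_lit 869) (nat_lit 0) [nat_lit 2327, nat_lit 383, nat_lit 1031, nat_lit 923, nat_lit 851, nat_lit 875, nat_lit 871] (nat_lit 2) [nat_lit 3055] true,
   Spec.mk (nat_lit 871) (nat_lit 0) [nat_lit 2329, nat_lit 385, nat_lit 1033, nat_lit 925, nat_lit 853, nat_lit 877, nat_lit 869] (nat_lit 2) [nat_lit 3057] true,
   Spec.mk (nat_lit 875) (nat_lit 0) [nat_lit 2333, nat_lit 389, nat_lit 1037, nat_lit 929, nat_lit 857, nat_lit 869, nat_lit 877] (nat_lit 2) [nat_lit 3061] true,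
   Spec.mk (nat_lit 877) (nat_lit 0) [nat_lit 2335, nat_lit 391, nat_lit 1039, nat_lit 931, nat_lit 859, nat_lit 871, nat_lit 883, nat_lit 875, nat_lit 879] (nat_lit 0) [nat_lit 3063] false,
   Spec.mk (nat_lit 879) (nat_lit 0) [nat_lit 2337, nat_lit 393, nat_lit 1041, nat_lit 933, nat_lit 861, nat_lit 885, nat_lit 877] (nat_lit 0) [] false,
   Spec.mk (nat_lit 883) (nat_lit 0) [nat_lit 2341, nat_lit 397, nat_lit 1045, nat_lit 937, nat_lit 877, nat_lit 885] (nat_lit 0) [nat_lit 3069] false,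
   Spec.mk (nat_lit 885) (nat_lit 2) [nat_lit 2343, nat_lit 399, nat_lit 1047, nat_lit 939, nat_lit 879, nat_lit 883] (nat_lit 0) [] false,
   Spec.mk (nat_lit 899) (nat_lit 0) [nat_lit 2357, nat_lit 413, nat_lit 1061, nat_lit 845, nat_lit 905] (nat_lit 2) [nat_lit 3085] false,
   Spec.mk (nat_lit 905) (nat_lit 0) [nat_lit 2363, nat_lit 419, nat_lit 1067, nat_lit 851, nat_lit 923, nat_lit 899, nat_lit 911, nat_lit 907] (nat_lit 3) [nat_lit 3091] true,
   Spec.mk (nat_lit 907) (nat_lit 0) [nat_lit 2365, nat_lit 421, nat_lit 1069, nat_lit 853, nat_lit 925, nat_lit 913, nat_lit 905] (nat_lit 2) [nat_lit 3093] false,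
   Spec.mk (nat_lit 911) (nat_lit 0) [nat_lit 2369, nat_lit 425, nat_lit 1073, nat_lit 857, nat_lit 929, nat_lit 905, nat_lit 913] (nat_lit 6) [nat_lit 3097] true,
   Spec.mk (nat_lit 913) (nat_lit 0) [nat_lit 2371, nat_lit 427, nat_lit 1075, nat_lit 859, nat_lit 931, nat_lit 907, nat_lit 911, nat_lit 915] (nat_lit 3) [nat_lit 3099] false,
   Spec.mk (nat_lit 915) (nat_lit 0) [nat_lit 2373, nat_lit 429, nat_lit 1077, nat_lit 861, nat_lit 933, nat_lit 913] (nat_lit 2) [] false,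
   Spec.mk (nat_lit 923) (nat_lit 0) [nat_lit 2381, nat_lit 437, nat_lit 1085, nat_lit 869, nat_lit 905, nat_lit 929, nat_lit 925] (nat_lit 2) [nat_lit 3109] true,
   Spec.mk (nat_lit 925) (nat_lit 0) [nat_lit 2383, nat_lit 439, nat_lit 1087, nat_lit 871, nat_lit 907, nat_lit 931, nat_lit 923] (nat_lit 2) [nat_lit 3111] false,
   Spec.mk (nat_lit 929) (nat_lit 0) [nat_lit 2387, nat_lit 443, nat_lit 1091, nat_lit 875, nat_lit 911, nat_lit 947, nat_lit 923, nat_lit 931] (nat_lit 3) [nat_lit 3115] false,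
   Spec.mk (nat_lit 931) (nat_lit 0) [nat_lit 2389, nat_lit 445, nat_lit 1093, nat_lit 877, nat_lit 913, nat_lit 949, nat_lit 925, nat_lit 937, nat_lit 929, nat_lit 933] (nat_lit 1) [nat_lit 3117] false,
   Spec.mk (nat_lit 933) (nat_lit 0) [nat_lit 2391, nat_lit 447, nat_lit 1095, nat_lit 879, nat_lit 915, nat_lit 951, nat_lit 939, nat_lit 931] (nat_lit 1) [] false,
   Spec.mk (nat_lit 937) (nat_lit 0) [nat_lit 2395, nat_lit 451, nat_lit 1099, nat_lit 883, nat_lit 955, nat_lit 931, nat_lit 939] (nat_lit 2) [nat_lit 3123] false,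
   Spec.mk (nat_lit 939) (nat_lit 0) [nat_lit 2397, nat_lit 453, nat_lit 1101, nat_lit 885, nat_lit 957, nat_lit 933, nat_lit 937] (nat_lit 0) [] false,
   Spec.mk (nat_lit 947) (nat_lit 0) [nat_lit 2405, nat_lit 461, nat_lit 1109, nat_lit 929, nat_lit 949] (nat_lit 2) [nat_lit 3133] false,
   Spec.mk (nat_lit 949) (nat_lit 0) [nat_lit 2407, nat_lit 463, nat_lit 1111, nat_lit 931, nat_lit 955, nat_lit 947, nat_lit 951] (nat_lit 1) [nat_lit 3135] false,
   Spec.mk (nat_lit 951) (nat_lit 0) [nat_lit 2409, nat_lit 465, nat_lit 1113, nat_lit 933, nat_lit 957, nat_lit 949] (nat_lit 2) [] false,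
   Spec.mk (nat_lit 955) (nat_lit 0) [nat_lit 2413, nat_lit 469, nat_lit 1117, nat_lit 937, nat_lit 949, nat_lit 957] (nat_lit 0) [nat_lit 3141] false,
   Spec.mk (nat_lit 957) (nat_lit 1) [nat_lit 2415, nat_lit 471, nat_lit 1119, nat_lit 939, nat_lit 951, nat_lit 963, nat_lit 955] (nat_lit 0) [] false,
   Spec.mk (nat_lit 963) (nat_lit 2) [nat_lit 2421, nat_lit 477, nat_lit 1125, nat_lit 957] (nat_lit 0) [] false,
   Spec.mk (nat_lit 989) (nat_lit 1) [nat_lit 2447, nat_lit 503, nat_lit 1475, nat_lit 827, nat_lit 1007, nat_lit 995] (nat_lit 0) [nat_lit 3175] false,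
   Spec.mk (nat_lit 995) (nat_lit 0) [nat_lit 2453, nat_lit 509, nat_lit 1481, nat_lit 833, nat_lit 1013, nat_lit 989, nat_lit 997] (nat_lit 1) [nat_lit 3181] false,
   Spec.mk (nat_lit 997) (nat_lit 1) [nat_lit 2455, nat_lit 511, nat_lit 1483, nat_lit 835, nat_lit 1015, nat_lit 995] (nat_lit 0) [nat_lit 3183] false,
   Spec.mk (nat_lit 1007) (nat_lit 0) [nat_lit 2465, nat_lit 521, nat_lit 1493, nat_lit 845, nat_lit 1061, nat_lit 989, nat_lit 1013] (nat_lit 1) [nat_lit 3193] false,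
   Spec.mk (nat_lit 1013) (nat_lit 0) [nat_lit 2471, nat_lit 527, nat_lit 1499, nat_lit 851, nat_lit 1067, nat_lit 995, nat_lit 1031, nat_lit 1007, nat_lit 1019, nat_lit 1015] (nat_lit 1) [nat_lit 3199] true,
   Spec.mk (nat_lit 1015) (nat_lit 0) [nat_lit 2473, nat_lit 529, nat_lit 1501, nat_lit 853, nat_lit 1069, nat_lit 997, nat_lit 1033, nat_lit 1021, nat_lit 1013] (nat_lit 0) [nat_lit 3201] true,
   Spec.mk (nat_lit 1019) (nat_lit 0) [nat_lit 2477, nat_lit 533, nat_lit 1505, nat_lit 857, nat_lit 1073, nat_lit 1037, nat_lit 1013, nat_lit 1021] (nat_lit 3) [nat_lit 3205] true,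
   Spec.mk (nat_lit 1021) (nat_lit 0) [nat_lit 2479, nat_lit 535, nat_lit 1507, nat_lit 859, nat_lit 1075, nat_lit 1039, nat_lit 1015, nat_lit 1019, nat_lit 1023] (nat_lit 0) [nat_lit 3207] false,
   Spec.mk (nat_lit 1023) (nat_lit 1) [nat_lit 2481, nat_lit 537, nat_lit 1509, nat_lit 861, nat_lit 1077, nat_lit 1041, nat_lit 1021] (nat_lit 0) [] false]

noncomputable def sp3 : List Spec :=
  [Spec.mk (nat_lit 1031) (nat_lit 0) [nat_lit 2489, nat_lit 545, nat_lit 1517, nat_lit 869, nat_lit 1085, nat_lit 1013, nat_lit 1037, nat_lit 1033] (nat_lit 3) [nat_lit 3217] true,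
   Spec.mk (nat_lit 1033) (nat_lit 0) [nat_lit 2491, nat_lit 547, nat_lit 1519, nat_lit 871, nat_lit 1087, nat_lit 1015, nat_lit 1039, nat_lit 1031] (nat_lit 3) [nat_lit 3219] false,
   Spec.mk (nat_lit 1037) (nat_lit 0) [nat_lit 2495, nat_lit 551, nat_lit 1523, nat_lit 875, nat_lit 1091, nat_lit 1019, nat_lit 1031, nat_lit 1039] (nat_lit 3) [nat_lit 3223] false,
   Spec.mk (nat_lit 1039) (nat_lit 0) [nat_lit 2497, nat_lit 553, nat_lit 1525, nat_lit 877, nat_lit 1093, nat_lit 1021, nat_lit 1033, nat_lit 1045, nat_lit 1037, nat_lit 1041] (nat_lit 1) [nat_lit 3225] false,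
   Spec.mk (nat_lit 1041) (nat_lit 0) [nat_lit 2499, nat_lit 555, nat_lit 1527, nat_lit 879, nat_lit 1095, nat_lit 1023, nat_lit 1047, nat_lit 1039] (nat_lit 1) [] false,
   Spec.mk (nat_lit 1045) (nat_lit 0) [nat_lit 2503, nat_lit 559, nat_lit 1531, nat_lit 883, nat_lit 1099, nat_lit 1039, nat_lit 1047] (nat_lit 1) [nat_lit 3231] false,
   Spec.mk (nat_lit 1047) (nat_lit 1) [nat_lit 2505, nat_lit 561, nat_lit 1533, nat_lit 885, nat_lit 1101, nat_lit 1041, nat_lit 1045] (nat_lit 0) [] false,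
   Spec.mk (nat_lit 1061) (nat_lit 0) [nat_lit 2519, nat_lit 575, nat_lit 1547, nat_lit 899, nat_lit 1223, nat_lit 1007, nat_lit 1067] (nat_lit 0) [nat_lit 3247] false,
   Spec.mk (nat_lit 1067) (nat_lit 0) [nat_lit 2525, nat_lit 581, nat_lit 1553, nat_lit 905, nat_lit 1229, nat_lit 1013, nat_lit 1085, nat_lit 1061, nat_lit 1073, nat_lit 1069] (nat_lit 1) [nat_lit 3253] true,
   Spec.mk (nat_lit 1069) (nat_lit 0) [nat_lit 2527, nat_lit 583, nat_lit 1555, nat_lit 907, nat_lit 1231, nat_lit 1015, nat_lit 1087, nat_lit 1075, nat_lit 1067] (nat_lit 0) [nat_lit 3255] true,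
   Spec.mk (nat_lit 1073) (nat_lit 0) [nat_lit 2531, nat_lit 587, nat_lit 1559, nat_lit 911, nat_lit 1235, nat_lit 1019, nat_lit 1091, nat_lit 1067, nat_lit 1075] (nat_lit 4) [nat_lit 3259] true,
   Spec.mk (nat_lit 1075) (nat_lit 0) [nat_lit 2533, nat_lit 589, nat_lit 1561, nat_lit 913, nat_lit 1237, nat_lit 1021, nat_lit 1093, nat_lit 1069, nat_lit 1073, nat_lit 1077] (nat_lit 1) [nat_lit 3261] false,
   Spec.mk (nat_lit 1077) (nat_lit 0) [nat_lit 2535, nat_lit 591, nat_lit 1563, nat_lit 915, nat_lit 1239, nat_lit 1023, nat_lit 1095, nat_lit 1075] (nat_lit 0) [] false,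
   Spec.mk (nat_lit 1085) (nat_lit 0) [nat_lit 2543, nat_lit 599, nat_lit 1571, nat_lit 923, nat_lit 1247, nat_lit 1031, nat_lit 1139, nat_lit 1067, nat_lit 1091, nat_lit 1087] (nat_lit 1) [nat_lit 3271] true,
   Spec.mk (nat_lit 1087) (nat_lit 0) [nat_lit 2545, nat_lit 601, nat_lit 1573, nat_lit 925, nat_lit 1249, nat_lit 1033, nat_lit 1141, nat_lit 1069, nat_lit 1093, nat_lit 1085] (nat_lit 1) [nat_lit 3273] false,
   Spec.mk (nat_lit 1091) (nat_lit 0) [nat_lit 2549, nat_lit 605, nat_lit 1577, nat_lit 929, nat_lit 1253, nat_lit 1037, nat_lit 1145, nat_lit 1073, nat_lit 1109, nat_lit 1085, nat_lit 1093] (nat_lit 2) [nat_lit 3277] true,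
   Spec.mk (nat_lit 1093) (nat_lit 0) [nat_lit 2551, nat_lit 607, nat_lit 1579, nat_lit 931, nat_lit 1255, nat_lit 1039, nat_lit 1147, nat_lit 1075, nat_lit 1111, nat_lit 1087, nat_lit 1099, nat_lit 1091, nat_lit 1095] (nat_lit 0) [nat_lit 3279] true,
   Spec.mk (nat_lit 1095) (nat_lit 0) [nat_lit 2553, nat_lit 609, nat_lit 1581, nat_lit 933, nat_lit 1257, nat_lit 1041, nat_lit 1149, nat_lit 1077, nat_lit 1113, nat_lit 1101, nat_lit 1093] (nat_lit 0) [] false,
   Spec.mk (nat_lit 1099) (nat_lit 0) [nat_lit 2557, nat_lit 613, nat_lit 1585, nat_lit 937, nat_lit 1261, nat_lit 1045, nat_lit 1153, nat_lit 1117, nat_lit 1093, nat_lit 1101] (nat_lit 1) [nat_lit 3285] false,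
   Spec.mk (nat_lit 1101) (nat_lit 1) [nat_lit 2559, nat_lit 615, nat_lit 1587, nat_lit 939, nat_lit 1263, nat_lit 1047, nat_lit 1155, nat_lit 1119, nat_lit 1095, nat_lit 1099] (nat_lit 0) [] false,
   Spec.mk (nat_lit 1109) (nat_lit 0) [nat_lit 2567, nat_lit 623, nat_lit 1595, nat_lit 947, nat_lit 1271, nat_lit 1163, nat_lit 1091, nat_lit 1111] (nat_lit 2) [nat_lit 3295] false,
   Spec.mk (nat_lit 1111) (nat_lit 0) [nat_lit 2569, nat_lit 625, nat_lit 1597, nat_lit 949, nat_lit 1273, nat_lit 1165, nat_lit 1093, nat_lit 1117, nat_lit 1109, nat_lit 1113] (nat_lit 1) [nat_lit 3297] false,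
   Spec.mk (nat_lit 1113) (nat_lit 0) [nat_lit 2571, nat_lit 627, nat_lit 1599, nat_lit 951, nat_lit 1275, nat_lit 1167, nat_lit 1095, nat_lit 1119, nat_lit 1111] (nat_lit 2) [] false,
   Spec.mk (nat_lit 1117) (nat_lit 0) [nat_lit 2575, nat_lit 631, nat_lit 1603, nat_lit 955, nat_lit 1279, nat_lit 1171, nat_lit 1099, nat_lit 1111, nat_lit 1119] (nat_lit 0) [nat_lit 3303] false,
   Spec.mk (nat_lit 1119) (nat_lit 1) [nat_lit 2577, nat_lit 633, nat_lit 1605, nat_lit 957, nat_lit 1281, nat_lit 1173, nat_lit 1101, nat_lit 1113, nat_lit 1125, nat_lit 1117] (nat_lit 0) [] false,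
   Spec.mk (nat_lit 1125) (nat_lit 2) [nat_lit 2583, nat_lit 639, nat_lit 1611, nat_lit 963, nat_lit 1287, nat_lit 1179, nat_lit 1119] (nat_lit 0) [] false,
   Spec.mk (nat_lit 1139) (nat_lit 0) [nat_lit 2597, nat_lit 653, nat_lit 1625, nat_lit 1301, nat_lit 1085, nat_lit 1145, nat_lit 1141] (nat_lit 1) [nat_lit 3325] false,
   Spec.mk (nat_lit 1141) (nat_lit 0) [nat_lit 2599, nat_lit 655, nat_lit 1627, nat_lit 1303, nat_lit 1087, nat_lit 1147, nat_lit 1139] (nat_lit 1) [nat_lit 3327] false,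
   Spec.mk (nat_lit 1145) (nat_lit 0) [nat_lit 2603, nat_lit 659, nat_lit 1631, nat_lit 1307, nat_lit 1091, nat_lit 1163, nat_lit 1139, nat_lit 1147] (nat_lit 3) [nat_lit 3331] false,
   Spec.mk (nat_lit 1147) (nat_lit 0) [nat_lit 2605, nat_lit 661, nat_lit 1633, nat_lit 1309, nat_lit 1093, nat_lit 1165, nat_lit 1141, nat_lit 1153, nat_lit 1145, nat_lit 1149] (nat_lit 1) [nat_lit 3333] false,
   Spec.mk (nat_lit 1149) (nat_lit 0) [nat_lit 2607, nat_lit 663, nat_lit 1635, nat_lit 1311, nat_lit 1095, nat_lit 1167, nat_lit 1155, nat_lit 1147] (nat_lit 1) [] false,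
   Spec.mk (nat_lit 1153) (nat_lit 0) [nat_lit 2611, nat_lit 667, nat_lit 1639, nat_lit 1315, nat_lit 1099, nat_lit 1171, nat_lit 1147, nat_lit 1155] (nat_lit 3) [nat_lit 3339] false,
   Spec.mk (nat_lit 1155) (nat_lit 0) [nat_lit 2613, nat_lit 669, nat_lit 1641, nat_lit 1317, nat_lit 1101, nat_lit 1173, nat_lit 1149, nat_lit 1153] (nat_lit 1) [] false,
   Spec.mk (nat_lit 1163) (nat_lit 0) [nat_lit 2621, nat_lit 677, nat_lit 1649, nat_lit 1325, nat_lit 1109, nat_lit 1145, nat_lit 1165] (nat_lit 1) [nat_lit 3349] false,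
   Spec.mk (nat_lit 1165) (nat_lit 0) [nat_lit 2623, nat_lit 679, nat_lit 1651, nat_lit 1327, nat_lit 1111, nat_lit 1147, nat_lit 1171, nat_lit 1163, nat_lit 1167] (nat_lit 0) [nat_lit 3351] false,
   Spec.mk (nat_lit 1167) (nat_lit 0) [nat_lit 2625, nat_lit 681, nat_lit 1653, nat_lit 1329, nat_lit 1113, nat_lit 1149, nat_lit 1173, nat_lit 1165] (nat_lit 1) [] false,
   Spec.mk (nat_lit 1171) (nat_lit 0) [nat_lit 2629, nat_lit 685, nat_lit 1657, nat_lit 1333, nat_lit 1117, nat_lit 1153, nat_lit 1189, nat_lit 1165, nat_lit 1173] (nat_lit 0) [nat_lit 3357] false,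
   Spec.mk (nat_lit 1173) (nat_lit 1) [nat_lit 2631, nat_lit 687, nat_lit 1659, nat_lit 1335, nat_lit 1119, nat_lit 1155, nat_lit 1191, nat_lit 1167, nat_lit 1179, nat_lit 1171] (nat_lit 0) [] false,
   Spec.mk (nat_lit 1179) (nat_lit 1) [nat_lit 2637, nat_lit 693, nat_lit 1665, nat_lit 1341, nat_lit 1125, nat_lit 1197, nat_lit 1173] (nat_lit 0) [] false,
   Spec.mk (nat_lit 1189) (nat_lit 1) [nat_lit 2647, nat_lit 703, nat_lit 1675, nat_lit 1351, nat_lit 1171, nat_lit 1191] (nat_lit 0) [nat_lit 3375] false,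
   Spec.mk (nat_lit 1191) (nat_lit 1) [nat_lit 2649, nat_lit 705, nat_lit 1677, nat_lit 1353, nat_lit 1173, nat_lit 1197, nat_lit 1189] (nat_lit 0) [] false,
   Spec.mk (nat_lit 1197) (nat_lit 3) [nat_lit 2655, nat_lit 711, nat_lit 1683, nat_lit 1359, nat_lit 1179, nat_lit 1191] (nat_lit 0) [] false,
   Spec.mk (nat_lit 1223) (nat_lit 0) [nat_lit 2681, nat_lit 1709, nat_lit 1061, nat_lit 1229] (nat_lit 0) [nat_lit 3409] false,
   Spec.mk (nat_lit 1229) (nat_lit 0) [nat_lit 2687, nat_lit 1715, nat_lit 1067, nat_lit 1247, nat_lit 1223, nat_lit 1235, nat_lit 1231] (nat_lit 1) [nat_lit 3415] false,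
   Spec.mk (nat_lit 1231) (nat_lit 0) [nat_lit 2689, nat_lit 1717, nat_lit 1069, nat_lit 1249, nat_lit 1237, nat_lit 1229] (nat_lit 0) [nat_lit 3417] false,
   Spec.mk (nat_lit 1235) (nat_lit 0) [nat_lit 2693, nat_lit 1721, nat_lit 1073, nat_lit 1253, nat_lit 1229, nat_lit 1237] (nat_lit 4) [nat_lit 3421] false,
   Spec.mk (nat_lit 1237) (nat_lit 0) [nat_lit 2695, nat_lit 1723, nat_lit 1075, nat_lit 1255, nat_lit 1231, nat_lit 1235, nat_lit 1239] (nat_lit 1) [nat_lit 3423] false,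
   Spec.mk (nat_lit 1239) (nat_lit 0) [nat_lit 2697, nat_lit 1725, nat_lit 1077, nat_lit 1257, nat_lit 1237] (nat_lit 0) [] false,
   Spec.mk (nat_lit 1247) (nat_lit 0) [nat_lit 2705, nat_lit 1733, nat_lit 1085, nat_lit 1301, nat_lit 1229, nat_lit 1253, nat_lit 1249] (nat_lit 2) [nat_lit 3433] false,
   Spec.mk (nat_lit 1249) (nat_lit 0) [nat_lit 2707, nat_lit 1735, nat_lit 1087, nat_lit 1303, nat_lit 1231, nat_lit 1255, nat_lit 1247] (nat_lit 2) [nat_lit 3435] false,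
   Spec.mk (nat_lit 1253) (nat_lit 0) [nat_lit 2711, nat_lit 1739, nat_lit 1091, nat_lit 1307, nat_lit 1235, nat_lit 1271, nat_lit 1247, nat_lit 1255] (nat_lit 3) [nat_lit 3439] false,
   Spec.mk (nat_lit 1255) (nat_lit 0) [nat_lit 2713, nat_lit 1741, nat_lit 1093, nat_lit 1309, nat_lit 1237, nat_lit 1273, nat_lit 1249, nat_lit 1261, nat_lit 1253, nat_lit 1257] (nat_lit 1) [nat_lit 3441] false,
   Spec.mk (nat_lit 1257) (nat_lit 0) [nat_lit 2715, nat_lit 1743, nat_lit 1095, nat_lit 1311, nat_lit 1239, nat_lit 1275, nat_lit 1263, nat_lit 1255] (nat_lit 1) [] false,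
   Spec.mk (nat_lit 1261) (nat_lit 0) [nat_lit 2719, nat_lit 1747, nat_lit 1099, nat_lit 1315, nat_lit 1279, nat_lit 1255, nat_lit 1263] (nat_lit 2) [nat_lit 3447] false,
   Spec.mk (nat_lit 1263) (nat_lit 0) [nat_lit 2721, nat_lit 1749, nat_lit 1101, nat_lit 1317, nat_lit 1281, nat_lit 1257, nat_lit 1261] (nat_lit 0) [] false,
   Spec.mk (nat_lit 1271) (nat_lit 0) [nat_lit 2729, nat_lit 1757, nat_lit 1109, nat_lit 1325, nat_lit 1253, nat_lit 1273] (nat_lit 4) [nat_lit 3457] false,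
   Spec.mk (nat_lit 1273) (nat_lit 0) [nat_lit 2731, nat_lit 1759, nat_lit 1111, nat_lit 1327, nat_lit 1255, nat_lit 1279, nat_lit 1271, nat_lit 1275] (nat_lit 3) [nat_lit 3459] false,
   Spec.mk (nat_lit 1275) (nat_lit 0) [nat_lit 2733, nat_lit 1761, nat_lit 1113, nat_lit 1329, nat_lit 1257, nat_lit 1281, nat_lit 1273] (nat_lit 4) [] false,
   Spec.mk (nat_lit 1279) (nat_lit 0) [nat_lit 2737, nat_lit 1765, nat_lit 1117, nat_lit 1333, nat_lit 1261, nat_lit 1273, nat_lit 1281] (nat_lit 2) [nat_lit 3465] false,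
   Spec.mk (nat_lit 1281) (nat_lit 0) [nat_lit 2739, nat_lit 1767, nat_lit 1119, nat_lit 1335, nat_lit 1263, nat_lit 1275, nat_lit 1287, nat_lit 1279] (nat_lit 1) [] false]

noncomputable def sp4 : List Spec :=
  [Spec.mk (nat_lit 1287) (nat_lit 0) [nat_lit 2745, nat_lit 1773, nat_lit 1125, nat_lit 1341, nat_lit 1281] (nat_lit 0) [] false,
   Spec.mk (nat_lit 1301) (nat_lit 0) [nat_lit 2759, nat_lit 1787, nat_lit 1139, nat_lit 1247, nat_lit 1307, nat_lit 1303] (nat_lit 0) [nat_lit 3487] false,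
   Spec.mk (nat_lit 1303) (nat_lit 0) [nat_lit 2761, nat_lit 1789, nat_lit 1141, nat_lit 1249, nat_lit 1309, nat_lit 1301] (nat_lit 0) [nat_lit 3489] false,
   Spec.mk (nat_lit 1307) (nat_lit 0) [nat_lit 2765, nat_lit 1793, nat_lit 1145, nat_lit 1253, nat_lit 1325, nat_lit 1301, nat_lit 1309] (nat_lit 2) [nat_lit 3493] false,
   Spec.mk (nat_lit 1309) (nat_lit 0) [nat_lit 2767, nat_lit 1795, nat_lit 1147, nat_lit 1255, nat_lit 1327, nat_lit 1303, nat_lit 1315, nat_lit 1307, nat_lit 1311] (nat_lit 0) [nat_lit 3495] false,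
   Spec.mk (nat_lit 1311) (nat_lit 0) [nat_lit 2769, nat_lit 1797, nat_lit 1149, nat_lit 1257, nat_lit 1329, nat_lit 1317, nat_lit 1309] (nat_lit 0) [] false,
   Spec.mk (nat_lit 1315) (nat_lit 0) [nat_lit 2773, nat_lit 1801, nat_lit 1153, nat_lit 1261, nat_lit 1333, nat_lit 1309, nat_lit 1317] (nat_lit 2) [nat_lit 3501] false,
   Spec.mk (nat_lit 1317) (nat_lit 0) [nat_lit 2775, nat_lit 1803, nat_lit 1155, nat_lit 1263, nat_lit 1335, nat_lit 1311, nat_lit 1315] (nat_lit 0) [] false,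
   Spec.mk (nat_lit 1325) (nat_lit 0) [nat_lit 2783, nat_lit 1811, nat_lit 1163, nat_lit 1271, nat_lit 1379, nat_lit 1307, nat_lit 1327] (nat_lit 1) [nat_lit 3511] false,
   Spec.mk (nat_lit 1327) (nat_lit 0) [nat_lit 2785, nat_lit 1813, nat_lit 1165, nat_lit 1273, nat_lit 1381, nat_lit 1309, nat_lit 1333, nat_lit 1325, nat_lit 1329] (nat_lit 0) [nat_lit 3513] false,
   Spec.mk (nat_lit 1329) (nat_lit 0) [nat_lit 2787, nat_lit 1815, nat_lit 1167, nat_lit 1275, nat_lit 1383, nat_lit 1311, nat_lit 1335, nat_lit 1327] (nat_lit 1) [] false,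
   Spec.mk (nat_lit 1333) (nat_lit 0) [nat_lit 2791, nat_lit 1819, nat_lit 1171, nat_lit 1279, nat_lit 1387, nat_lit 1315, nat_lit 1351, nat_lit 1327, nat_lit 1335] (nat_lit 0) [nat_lit 3519] false,
   Spec.mk (nat_lit 1335) (nat_lit 1) [nat_lit 2793, nat_lit 1821, nat_lit 1173, nat_lit 1281, nat_lit 1389, nat_lit 1317, nat_lit 1353, nat_lit 1329, nat_lit 1341, nat_lit 1333] (nat_lit 0) [] false,
   Spec.mk (nat_lit 1341) (nat_lit 1) [nat_lit 2799, nat_lit 1827, nat_lit 1179, nat_lit 1287, nat_lit 1395, nat_lit 1359, nat_lit 1335] (nat_lit 0) [] false,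
   Spec.mk (nat_lit 1351) (nat_lit 0) [nat_lit 2809, nat_lit 1837, nat_lit 1189, nat_lit 1405, nat_lit 1333, nat_lit 1353] (nat_lit 0) [nat_lit 3537] false,
   Spec.mk (nat_lit 1353) (nat_lit 0) [nat_lit 2811, nat_lit 1839, nat_lit 1191, nat_lit 1407, nat_lit 1335, nat_lit 1359, nat_lit 1351] (nat_lit 0) [] false,
   Spec.mk (nat_lit 1359) (nat_lit 2) [nat_lit 2817, nat_lit 1845, nat_lit 1197, nat_lit 1413, nat_lit 1341, nat_lit 1353] (nat_lit 0) [] false,
   Spec.mk (nat_lit 1379) (nat_lit 0) [nat_lit 2837, nat_lit 1865, nat_lit 1325, nat_lit 1381] (nat_lit 0) [nat_lit 3565] false,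
   Spec.mk (nat_lit 1381) (nat_lit 1) [nat_lit 2839, nat_lit 1867, nat_lit 1327, nat_lit 1387, nat_lit 1379, nat_lit 1383] (nat_lit 0) [nat_lit 3567] false,
   Spec.mk (nat_lit 1383) (nat_lit 0) [nat_lit 2841, nat_lit 1869, nat_lit 1329, nat_lit 1389, nat_lit 1381] (nat_lit 0) [] false,
   Spec.mk (nat_lit 1387) (nat_lit 0) [nat_lit 2845, nat_lit 1873, nat_lit 1333, nat_lit 1405, nat_lit 1381, nat_lit 1389] (nat_lit 0) [nat_lit 3573] false,
   Spec.mk (nat_lit 1389) (nat_lit 1) [nat_lit 2847, nat_lit 1875, nat_lit 1335, nat_lit 1407, nat_lit 1383, nat_lit 1395, nat_lit 1387] (nat_lit 0) [] false,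
   Spec.mk (nat_lit 1395) (nat_lit 0) [nat_lit 2853, nat_lit 1881, nat_lit 1341, nat_lit 1413, nat_lit 1389] (nat_lit 0) [] false,
   Spec.mk (nat_lit 1405) (nat_lit 2) [nat_lit 2863, nat_lit 1891, nat_lit 1351, nat_lit 1387, nat_lit 1407] (nat_lit 0) [nat_lit 3591] false,
   Spec.mk (nat_lit 1407) (nat_lit 2) [nat_lit 2865, nat_lit 1893, nat_lit 1353, nat_lit 1389, nat_lit 1413, nat_lit 1405] (nat_lit 0) [] false,
   Spec.mk (nat_lit 1413) (nat_lit 3) [nat_lit 2871, nat_lit 1899, nat_lit 1359, nat_lit 1395, nat_lit 1431, nat_lit 1407] (nat_lit 0) [] false,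
   Spec.mk (nat_lit 1431) (nat_lit 4) [nat_lit 2889, nat_lit 1917, nat_lit 1413] (nat_lit 0) [] false,
   Spec.mk (nat_lit 1475) (nat_lit 0) [nat_lit 2933, nat_lit 989, nat_lit 1493, nat_lit 1481] (nat_lit 0) [nat_lit 3661] false,
   Spec.mk (nat_lit 1481) (nat_lit 0) [nat_lit 2939, nat_lit 995, nat_lit 1499, nat_lit 1475, nat_lit 1483] (nat_lit 2) [nat_lit 3667] false,
   Spec.mk (nat_lit 1483) (nat_lit 0) [nat_lit 2941, nat_lit 997, nat_lit 1501, nat_lit 1481] (nat_lit 0) [nat_lit 3669] false,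
   Spec.mk (nat_lit 1493) (nat_lit 0) [nat_lit 2951, nat_lit 1007, nat_lit 1547, nat_lit 1475, nat_lit 1499] (nat_lit 2) [nat_lit 3679] false,
   Spec.mk (nat_lit 1499) (nat_lit 0) [nat_lit 2957, nat_lit 1013, nat_lit 1553, nat_lit 1481, nat_lit 1517, nat_lit 1493, nat_lit 1505, nat_lit 1501] (nat_lit 2) [nat_lit 3685] false,
   Spec.mk (nat_lit 1501) (nat_lit 0) [nat_lit 2959, nat_lit 1015, nat_lit 1555, nat_lit 1483, nat_lit 1519, nat_lit 1507, nat_lit 1499] (nat_lit 1) [nat_lit 3687] false,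
   Spec.mk (nat_lit 1505) (nat_lit 0) [nat_lit 2963, nat_lit 1019, nat_lit 1559, nat_lit 1523, nat_lit 1499, nat_lit 1507] (nat_lit 4) [nat_lit 3691] false,
   Spec.mk (nat_lit 1507) (nat_lit 0) [nat_lit 2965, nat_lit 1021, nat_lit 1561, nat_lit 1525, nat_lit 1501, nat_lit 1505, nat_lit 1509] (nat_lit 1) [nat_lit 3693] false,
   Spec.mk (nat_lit 1509) (nat_lit 0) [nat_lit 2967, nat_lit 1023, nat_lit 1563, nat_lit 1527, nat_lit 1507] (nat_lit 0) [] false,
   Spec.mk (nat_lit 1517) (nat_lit 0) [nat_lit 2975, nat_lit 1031, nat_lit 1571, nat_lit 1499, nat_lit 1523, nat_lit 1519] (nat_lit 4) [nat_lit 3703] false,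
   Spec.mk (nat_lit 1519) (nat_lit 0) [nat_lit 2977, nat_lit 1033, nat_lit 1573, nat_lit 1501, nat_lit 1525, nat_lit 1517] (nat_lit 4) [nat_lit 3705] false,
   Spec.mk (nat_lit 1523) (nat_lit 0) [nat_lit 2981, nat_lit 1037, nat_lit 1577, nat_lit 1505, nat_lit 1517, nat_lit 1525] (nat_lit 4) [nat_lit 3709] false,
   Spec.mk (nat_lit 1525) (nat_lit 0) [nat_lit 2983, nat_lit 1039, nat_lit 1579, nat_lit 1507, nat_lit 1519, nat_lit 1531, nat_lit 1523, nat_lit 1527] (nat_lit 2) [nat_lit 3711] false,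
   Spec.mk (nat_lit 1527) (nat_lit 0) [nat_lit 2985, nat_lit 1041, nat_lit 1581, nat_lit 1509, nat_lit 1533, nat_lit 1525] (nat_lit 2) [] false,
   Spec.mk (nat_lit 1531) (nat_lit 0) [nat_lit 2989, nat_lit 1045, nat_lit 1585, nat_lit 1525, nat_lit 1533] (nat_lit 2) [nat_lit 3717] false,
   Spec.mk (nat_lit 1533) (nat_lit 0) [nat_lit 2991, nat_lit 1047, nat_lit 1587, nat_lit 1527, nat_lit 1531] (nat_lit 0) [] false,
   Spec.mk (nat_lit 1547) (nat_lit 0) [nat_lit 3005, nat_lit 1061, nat_lit 1709, nat_lit 1493, nat_lit 1553] (nat_lit 2) [nat_lit 3733] false,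
   Spec.mk (nat_lit 1553) (nat_lit 0) [nat_lit 3011, nat_lit 1067, nat_lit 1715, nat_lit 1499, nat_lit 1571, nat_lit 1547, nat_lit 1559, nat_lit 1555] (nat_lit 3) [nat_lit 3739] false,
   Spec.mk (nat_lit 1555) (nat_lit 0) [nat_lit 3013, nat_lit 1069, nat_lit 1717, nat_lit 1501, nat_lit 1573, nat_lit 1561, nat_lit 1553] (nat_lit 2) [nat_lit 3741] false,
   Spec.mk (nat_lit 1559) (nat_lit 0) [nat_lit 3017, nat_lit 1073, nat_lit 1721, nat_lit 1505, nat_lit 1577, nat_lit 1553, nat_lit 1561] (nat_lit 6) [nat_lit 3745] false,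
   Spec.mk (nat_lit 1561) (nat_lit 0) [nat_lit 3019, nat_lit 1075, nat_lit 1723, nat_lit 1507, nat_lit 1579, nat_lit 1555, nat_lit 1559, nat_lit 1563] (nat_lit 3) [nat_lit 3747] false,
   Spec.mk (nat_lit 1563) (nat_lit 0) [nat_lit 3021, nat_lit 1077, nat_lit 1725, nat_lit 1509, nat_lit 1581, nat_lit 1561] (nat_lit 2) [] false,
   Spec.mk (nat_lit 1571) (nat_lit 0) [nat_lit 3029, nat_lit 1085, nat_lit 1733, nat_lit 1517, nat_lit 1625, nat_lit 1553, nat_lit 1577, nat_lit 1573] (nat_lit 3) [nat_lit 3757] false,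
   Spec.mk (nat_lit 1573) (nat_lit 0) [nat_lit 3031, nat_lit 1087, nat_lit 1735, nat_lit 1519, nat_lit 1627, nat_lit 1555, nat_lit 1579, nat_lit 1571] (nat_lit 3) [nat_lit 3759] false,
   Spec.mk (nat_lit 1577) (nat_lit 0) [nat_lit 3035, nat_lit 1091, nat_lit 1739, nat_lit 1523, nat_lit 1631, nat_lit 1559, nat_lit 1595, nat_lit 1571, nat_lit 1579] (nat_lit 4) [nat_lit 3763] false,
   Spec.mk (nat_lit 1579) (nat_lit 0) [nat_lit 3037, nat_lit 1093, nat_lit 1741, nat_lit 1525, nat_lit 1633, nat_lit 1561, nat_lit 1597, nat_lit 1573, nat_lit 1585, nat_lit 1577, nat_lit 1581] (nat_lit 2) [nat_lit 3765] false,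
   Spec.mk (nat_lit 1581) (nat_lit 0) [nat_lit 3039, nat_lit 1095, nat_lit 1743, nat_lit 1527, nat_lit 1635, nat_lit 1563, nat_lit 1599, nat_lit 1587, nat_lit 1579] (nat_lit 2) [] false,
   Spec.mk (nat_lit 1585) (nat_lit 0) [nat_lit 3043, nat_lit 1099, nat_lit 1747, nat_lit 1531, nat_lit 1639, nat_lit 1603, nat_lit 1579, nat_lit 1587] (nat_lit 3) [nat_lit 3771] false,
   Spec.mk (nat_lit 1587) (nat_lit 0) [nat_lit 3045, nat_lit 1101, nat_lit 1749, nat_lit 1533, nat_lit 1641, nat_lit 1605, nat_lit 1581, nat_lit 1585] (nat_lit 1) [] false,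
   Spec.mk (nat_lit 1595) (nat_lit 0) [nat_lit 3053, nat_lit 1109, nat_lit 1757, nat_lit 1649, nat_lit 1577, nat_lit 1597] (nat_lit 4) [nat_lit 3781] false,
   Spec.mk (nat_lit 1597) (nat_lit 0) [nat_lit 3055, nat_lit 1111, nat_lit 1759, nat_lit 1651, nat_lit 1579, nat_lit 1603, nat_lit 1595, nat_lit 1599] (nat_lit 3) [nat_lit 3783] false,
   Spec.mk (nat_lit 1599) (nat_lit 0) [nat_lit 3057, nat_lit 1113, nat_lit 1761, nat_lit 1653, nat_lit 1581, nat_lit 1605, nat_lit 1597] (nat_lit 4) [] false,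
   Spec.mk (nat_lit 1603) (nat_lit 0) [nat_lit 3061, nat_lit 1117, nat_lit 1765, nat_lit 1657, nat_lit 1585, nat_lit 1597, nat_lit 1605] (nat_lit 2) [nat_lit 3789] false]

noncomputable def sp5 : List Spec :=
  [Spec.mk (nat_lit 1605) (nat_lit 0) [nat_lit 3063, nat_lit 1119, nat_lit 1767, nat_lit 1659, nat_lit 1587, nat_lit 1599, nat_lit 1611, nat_lit 1603] (nat_lit 1) [] false,
   Spec.mk (nat_lit 1611) (nat_lit 0) [nat_lit 3069, nat_lit 1125, nat_lit 1773, nat_lit 1665, nat_lit 1605] (nat_lit 0) [] false,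
   Spec.mk (nat_lit 1625) (nat_lit 0) [nat_lit 3083, nat_lit 1139, nat_lit 1787, nat_lit 1571, nat_lit 1631, nat_lit 1627] (nat_lit 4) [nat_lit 3811] false,
   Spec.mk (nat_lit 1627) (nat_lit 0) [nat_lit 3085, nat_lit 1141, nat_lit 1789, nat_lit 1573, nat_lit 1633, nat_lit 1625] (nat_lit 4) [nat_lit 3813] false,
   Spec.mk (nat_lit 1631) (nat_lit 0) [nat_lit 3089, nat_lit 1145, nat_lit 1793, nat_lit 1577, nat_lit 1649, nat_lit 1625, nat_lit 1633] (nat_lit 6) [nat_lit 3817] false,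
   Spec.mk (nat_lit 1633) (nat_lit 0) [nat_lit 3091, nat_lit 1147, nat_lit 1795, nat_lit 1579, nat_lit 1651, nat_lit 1627, nat_lit 1639, nat_lit 1631, nat_lit 1635] (nat_lit 4) [nat_lit 3819] false,
   Spec.mk (nat_lit 1635) (nat_lit 0) [nat_lit 3093, nat_lit 1149, nat_lit 1797, nat_lit 1581, nat_lit 1653, nat_lit 1641, nat_lit 1633] (nat_lit 4) [] false,
   Spec.mk (nat_lit 1639) (nat_lit 0) [nat_lit 3097, nat_lit 1153, nat_lit 1801, nat_lit 1585, nat_lit 1657, nat_lit 1633, nat_lit 1641] (nat_lit 6) [nat_lit 3825] false,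
   Spec.mk (nat_lit 1641) (nat_lit 0) [nat_lit 3099, nat_lit 1155, nat_lit 1803, nat_lit 1587, nat_lit 1659, nat_lit 1635, nat_lit 1639] (nat_lit 4) [] false,
   Spec.mk (nat_lit 1649) (nat_lit 0) [nat_lit 3107, nat_lit 1163, nat_lit 1811, nat_lit 1595, nat_lit 1631, nat_lit 1651] (nat_lit 4) [nat_lit 3835] false,
   Spec.mk (nat_lit 1651) (nat_lit 0) [nat_lit 3109, nat_lit 1165, nat_lit 1813, nat_lit 1597, nat_lit 1633, nat_lit 1657, nat_lit 1649, nat_lit 1653] (nat_lit 3) [nat_lit 3837] false,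
   Spec.mk (nat_lit 1653) (nat_lit 0) [nat_lit 3111, nat_lit 1167, nat_lit 1815, nat_lit 1599, nat_lit 1635, nat_lit 1659, nat_lit 1651] (nat_lit 4) [] false,
   Spec.mk (nat_lit 1657) (nat_lit 0) [nat_lit 3115, nat_lit 1171, nat_lit 1819, nat_lit 1603, nat_lit 1639, nat_lit 1675, nat_lit 1651, nat_lit 1659] (nat_lit 3) [nat_lit 3843] false,
   Spec.mk (nat_lit 1659) (nat_lit 0) [nat_lit 3117, nat_lit 1173, nat_lit 1821, nat_lit 1605, nat_lit 1641, nat_lit 1677, nat_lit 1653, nat_lit 1665, nat_lit 1657] (nat_lit 2) [] false,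
   Spec.mk (nat_lit 1665) (nat_lit 0) [nat_lit 3123, nat_lit 1179, nat_lit 1827, nat_lit 1611, nat_lit 1683, nat_lit 1659] (nat_lit 2) [] false,
   Spec.mk (nat_lit 1675) (nat_lit 0) [nat_lit 3133, nat_lit 1189, nat_lit 1837, nat_lit 1657, nat_lit 1677] (nat_lit 2) [nat_lit 3861] false,
   Spec.mk (nat_lit 1677) (nat_lit 0) [nat_lit 3135, nat_lit 1191, nat_lit 1839, nat_lit 1659, nat_lit 1683, nat_lit 1675] (nat_lit 2) [] false,
   Spec.mk (nat_lit 1683) (nat_lit 0) [nat_lit 3141, nat_lit 1197, nat_lit 1845, nat_lit 1665, nat_lit 1677] (nat_lit 0) [] false,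
   Spec.mk (nat_lit 1709) (nat_lit 0) [nat_lit 3167, nat_lit 1223, nat_lit 1547, nat_lit 1715] (nat_lit 0) [nat_lit 3895] false,
   Spec.mk (nat_lit 1715) (nat_lit 0) [nat_lit 3173, nat_lit 1229, nat_lit 1553, nat_lit 1733, nat_lit 1709, nat_lit 1721, nat_lit 1717] (nat_lit 1) [nat_lit 3901] false,
   Spec.mk (nat_lit 1717) (nat_lit 0) [nat_lit 3175, nat_lit 1231, nat_lit 1555, nat_lit 1735, nat_lit 1723, nat_lit 1715] (nat_lit 0) [nat_lit 3903] false,
   Spec.mk (nat_lit 1721) (nat_lit 0) [nat_lit 3179, nat_lit 1235, nat_lit 1559, nat_lit 1739, nat_lit 1715, nat_lit 1723] (nat_lit 4) [nat_lit 3907] false,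
   Spec.mk (nat_lit 1723) (nat_lit 0) [nat_lit 3181, nat_lit 1237, nat_lit 1561, nat_lit 1741, nat_lit 1717, nat_lit 1721, nat_lit 1725] (nat_lit 1) [nat_lit 3909] false,
   Spec.mk (nat_lit 1725) (nat_lit 0) [nat_lit 3183, nat_lit 1239, nat_lit 1563, nat_lit 1743, nat_lit 1723] (nat_lit 0) [] false,
   Spec.mk (nat_lit 1733) (nat_lit 0) [nat_lit 3191, nat_lit 1247, nat_lit 1571, nat_lit 1787, nat_lit 1715, nat_lit 1739, nat_lit 1735] (nat_lit 2) [nat_lit 3919] false,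
   Spec.mk (nat_lit 1735) (nat_lit 0) [nat_lit 3193, nat_lit 1249, nat_lit 1573, nat_lit 1789, nat_lit 1717, nat_lit 1741, nat_lit 1733] (nat_lit 2) [nat_lit 3921] false,
   Spec.mk (nat_lit 1739) (nat_lit 0) [nat_lit 3197, nat_lit 1253, nat_lit 1577, nat_lit 1793, nat_lit 1721, nat_lit 1757, nat_lit 1733, nat_lit 1741] (nat_lit 3) [nat_lit 3925] false,
   Spec.mk (nat_lit 1741) (nat_lit 0) [nat_lit 3199, nat_lit 1255, nat_lit 1579, nat_lit 1795, nat_lit 1723, nat_lit 1759, nat_lit 1735, nat_lit 1747, nat_lit 1739, nat_lit 1743] (nat_lit 1) [nat_lit 3927] false,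
   Spec.mk (nat_lit 1743) (nat_lit 0) [nat_lit 3201, nat_lit 1257, nat_lit 1581, nat_lit 1797, nat_lit 1725, nat_lit 1761, nat_lit 1749, nat_lit 1741] (nat_lit 1) [] false,
   Spec.mk (nat_lit 1747) (nat_lit 0) [nat_lit 3205, nat_lit 1261, nat_lit 1585, nat_lit 1801, nat_lit 1765, nat_lit 1741, nat_lit 1749] (nat_lit 2) [nat_lit 3933] false,
   Spec.mk (nat_lit 1749) (nat_lit 0) [nat_lit 3207, nat_lit 1263, nat_lit 1587, nat_lit 1803, nat_lit 1767, nat_lit 1743, nat_lit 1747] (nat_lit 0) [] false,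
   Spec.mk (nat_lit 1757) (nat_lit 0) [nat_lit 3215, nat_lit 1271, nat_lit 1595, nat_lit 1811, nat_lit 1739, nat_lit 1759] (nat_lit 4) [nat_lit 3943] false,
   Spec.mk (nat_lit 1759) (nat_lit 0) [nat_lit 3217, nat_lit 1273, nat_lit 1597, nat_lit 1813, nat_lit 1741, nat_lit 1765, nat_lit 1757, nat_lit 1761] (nat_lit 3) [nat_lit 3945] false,
   Spec.mk (nat_lit 1761) (nat_lit 0) [nat_lit 3219, nat_lit 1275, nat_lit 1599, nat_lit 1815, nat_lit 1743, nat_lit 1767, nat_lit 1759] (nat_lit 4) [] false,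
   Spec.mk (nat_lit 1765) (nat_lit 0) [nat_lit 3223, nat_lit 1279, nat_lit 1603, nat_lit 1819, nat_lit 1747, nat_lit 1759, nat_lit 1767] (nat_lit 2) [nat_lit 3951] false,
   Spec.mk (nat_lit 1767) (nat_lit 0) [nat_lit 3225, nat_lit 1281, nat_lit 1605, nat_lit 1821, nat_lit 1749, nat_lit 1761, nat_lit 1773, nat_lit 1765] (nat_lit 1) [] false,
   Spec.mk (nat_lit 1773) (nat_lit 0) [nat_lit 3231, nat_lit 1287, nat_lit 1611, nat_lit 1827, nat_lit 1767] (nat_lit 0) [] false,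
   Spec.mk (nat_lit 1787) (nat_lit 0) [nat_lit 3245, nat_lit 1301, nat_lit 1625, nat_lit 1949, nat_lit 1733, nat_lit 1793, nat_lit 1789] (nat_lit 1) [nat_lit 3973] false,
   Spec.mk (nat_lit 1789) (nat_lit 0) [nat_lit 3247, nat_lit 1303, nat_lit 1627, nat_lit 1951, nat_lit 1735, nat_lit 1795, nat_lit 1787] (nat_lit 1) [nat_lit 3975] false,
   Spec.mk (nat_lit 1793) (nat_lit 0) [nat_lit 3251, nat_lit 1307, nat_lit 1631, nat_lit 1955, nat_lit 1739, nat_lit 1811, nat_lit 1787, nat_lit 1795] (nat_lit 3) [nat_lit 3979] false,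
   Spec.mk (nat_lit 1795) (nat_lit 0) [nat_lit 3253, nat_lit 1309, nat_lit 1633, nat_lit 1957, nat_lit 1741, nat_lit 1813, nat_lit 1789, nat_lit 1801, nat_lit 1793, nat_lit 1797] (nat_lit 1) [nat_lit 3981] false,
   Spec.mk (nat_lit 1797) (nat_lit 0) [nat_lit 3255, nat_lit 1311, nat_lit 1635, nat_lit 1959, nat_lit 1743, nat_lit 1815, nat_lit 1803, nat_lit 1795] (nat_lit 1) [] false,
   Spec.mk (nat_lit 1801) (nat_lit 0) [nat_lit 3259, nat_lit 1315, nat_lit 1639, nat_lit 1963, nat_lit 1747, nat_lit 1819, nat_lit 1795, nat_lit 1803] (nat_lit 3) [nat_lit 3987] false,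
   Spec.mk (nat_lit 1803) (nat_lit 0) [nat_lit 3261, nat_lit 1317, nat_lit 1641, nat_lit 1965, nat_lit 1749, nat_lit 1821, nat_lit 1797, nat_lit 1801] (nat_lit 1) [] false,
   Spec.mk (nat_lit 1811) (nat_lit 0) [nat_lit 3269, nat_lit 1325, nat_lit 1649, nat_lit 1973, nat_lit 1757, nat_lit 1865, nat_lit 1793, nat_lit 1813] (nat_lit 2) [nat_lit 3997] false,
   Spec.mk (nat_lit 1813) (nat_lit 0) [nat_lit 3271, nat_lit 1327, nat_lit 1651, nat_lit 1975, nat_lit 1759, nat_lit 1867, nat_lit 1795, nat_lit 1819, nat_lit 1811, nat_lit 1815] (nat_lit 1) [nat_lit 3999] false,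
   Spec.mk (nat_lit 1815) (nat_lit 0) [nat_lit 3273, nat_lit 1329, nat_lit 1653, nat_lit 1977, nat_lit 1761, nat_lit 1869, nat_lit 1797, nat_lit 1821, nat_lit 1813] (nat_lit 2) [] false,
   Spec.mk (nat_lit 1819) (nat_lit 0) [nat_lit 3277, nat_lit 1333, nat_lit 1657, nat_lit 1981, nat_lit 1765, nat_lit 1873, nat_lit 1801, nat_lit 1837, nat_lit 1813, nat_lit 1821] (nat_lit 1) [nat_lit 4005] false,
   Spec.mk (nat_lit 1821) (nat_lit 0) [nat_lit 3279, nat_lit 1335, nat_lit 1659, nat_lit 1983, nat_lit 1767, nat_lit 1875, nat_lit 1803, nat_lit 1839, nat_lit 1815, nat_lit 1827, nat_lit 1819] (nat_lit 0) [] false,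
   Spec.mk (nat_lit 1827) (nat_lit 0) [nat_lit 3285, nat_lit 1341, nat_lit 1665, nat_lit 1989, nat_lit 1773, nat_lit 1881, nat_lit 1845, nat_lit 1821] (nat_lit 0) [] false,
   Spec.mk (nat_lit 1837) (nat_lit 0) [nat_lit 3295, nat_lit 1351, nat_lit 1675, nat_lit 1999, nat_lit 1891, nat_lit 1819, nat_lit 1839] (nat_lit 1) [nat_lit 4023] false,
   Spec.mk (nat_lit 1839) (nat_lit 0) [nat_lit 3297, nat_lit 1353, nat_lit 1677, nat_lit 2001, nat_lit 1893, nat_lit 1821, nat_lit 1845, nat_lit 1837] (nat_lit 1) [] false,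
   Spec.mk (nat_lit 1845) (nat_lit 1) [nat_lit 3303, nat_lit 1359, nat_lit 1683, nat_lit 2007, nat_lit 1899, nat_lit 1827, nat_lit 1839] (nat_lit 0) [] false,
   Spec.mk (nat_lit 1865) (nat_lit 0) [nat_lit 3323, nat_lit 1379, nat_lit 2027, nat_lit 1811, nat_lit 1867] (nat_lit 2) [nat_lit 4051] false,
   Spec.mk (nat_lit 1867) (nat_lit 0) [nat_lit 3325, nat_lit 1381, nat_lit 2029, nat_lit 1813, nat_lit 1873, nat_lit 1865, nat_lit 1869] (nat_lit 1) [nat_lit 4053] false,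
   Spec.mk (nat_lit 1869) (nat_lit 0) [nat_lit 3327, nat_lit 1383, nat_lit 2031, nat_lit 1815, nat_lit 1875, nat_lit 1867] (nat_lit 2) [] false,
   Spec.mk (nat_lit 1873) (nat_lit 0) [nat_lit 3331, nat_lit 1387, nat_lit 2035, nat_lit 1819, nat_lit 1891, nat_lit 1867, nat_lit 1875] (nat_lit 2) [nat_lit 4059] false,
   Spec.mk (nat_lit 1875) (nat_lit 0) [nat_lit 3333, nat_lit 1389, nat_lit 2037, nat_lit 1821, nat_lit 1893, nat_lit 1869, nat_lit 1881, nat_lit 1873] (nat_lit 1) [] false,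
   Spec.mk (nat_lit 1881) (nat_lit 0) [nat_lit 3339, nat_lit 1395, nat_lit 2043, nat_lit 1827, nat_lit 1899, nat_lit 1875] (nat_lit 2) [] false,
   Spec.mk (nat_lit 1891) (nat_lit 0) [nat_lit 3349, nat_lit 1405, nat_lit 2053, nat_lit 1837, nat_lit 1873, nat_lit 1893] (nat_lit 0) [nat_lit 4077] false]

noncomputable def sp6 : List Spec :=
  [Spec.mk (nat_lit 1893) (nat_lit 0) [nat_lit 3351, nat_lit 1407, nat_lit 2055, nat_lit 1839, nat_lit 1875, nat_lit 1899, nat_lit 1891] (nat_lit 0) [] false,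
   Spec.mk (nat_lit 1899) (nat_lit 1) [nat_lit 3357, nat_lit 1413, nat_lit 2061, nat_lit 1845, nat_lit 1881, nat_lit 1917, nat_lit 1893] (nat_lit 0) [] false,
   Spec.mk (nat_lit 1917) (nat_lit 2) [nat_lit 3375, nat_lit 1431, nat_lit 2079, nat_lit 1899] (nat_lit 0) [] false,
   Spec.mk (nat_lit 1949) (nat_lit 0) [nat_lit 3407, nat_lit 1787, nat_lit 1955, nat_lit 1951] (nat_lit 0) [nat_lit 4135] false,
   Spec.mk (nat_lit 1951) (nat_lit 0) [nat_lit 3409, nat_lit 1789, nat_lit 1957, nat_lit 1949] (nat_lit 0) [nat_lit 4137] false,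
   Spec.mk (nat_lit 1955) (nat_lit 0) [nat_lit 3413, nat_lit 1793, nat_lit 1973, nat_lit 1949, nat_lit 1957] (nat_lit 2) [nat_lit 4141] false,
   Spec.mk (nat_lit 1957) (nat_lit 0) [nat_lit 3415, nat_lit 1795, nat_lit 1975, nat_lit 1951, nat_lit 1963, nat_lit 1955, nat_lit 1959] (nat_lit 0) [nat_lit 4143] false,
   Spec.mk (nat_lit 1959) (nat_lit 0) [nat_lit 3417, nat_lit 1797, nat_lit 1977, nat_lit 1965, nat_lit 1957] (nat_lit 0) [] false,
   Spec.mk (nat_lit 1963) (nat_lit 0) [nat_lit 3421, nat_lit 1801, nat_lit 1981, nat_lit 1957, nat_lit 1965] (nat_lit 2) [nat_lit 4149] false,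
   Spec.mk (nat_lit 1965) (nat_lit 0) [nat_lit 3423, nat_lit 1803, nat_lit 1983, nat_lit 1959, nat_lit 1963] (nat_lit 0) [] false,
   Spec.mk (nat_lit 1973) (nat_lit 0) [nat_lit 3431, nat_lit 1811, nat_lit 2027, nat_lit 1955, nat_lit 1975] (nat_lit 2) [nat_lit 4159] false,
   Spec.mk (nat_lit 1975) (nat_lit 0) [nat_lit 3433, nat_lit 1813, nat_lit 2029, nat_lit 1957, nat_lit 1981, nat_lit 1973, nat_lit 1977] (nat_lit 1) [nat_lit 4161] false,
   Spec.mk (nat_lit 1977) (nat_lit 0) [nat_lit 3435, nat_lit 1815, nat_lit 2031, nat_lit 1959, nat_lit 1983, nat_lit 1975] (nat_lit 2) [] false,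
   Spec.mk (nat_lit 1981) (nat_lit 0) [nat_lit 3439, nat_lit 1819, nat_lit 2035, nat_lit 1963, nat_lit 1999, nat_lit 1975, nat_lit 1983] (nat_lit 1) [nat_lit 4167] false,
   Spec.mk (nat_lit 1983) (nat_lit 0) [nat_lit 3441, nat_lit 1821, nat_lit 2037, nat_lit 1965, nat_lit 2001, nat_lit 1977, nat_lit 1989, nat_lit 1981] (nat_lit 0) [] false,
   Spec.mk (nat_lit 1989) (nat_lit 0) [nat_lit 3447, nat_lit 1827, nat_lit 2043, nat_lit 2007, nat_lit 1983] (nat_lit 0) [] false,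
   Spec.mk (nat_lit 1999) (nat_lit 0) [nat_lit 3457, nat_lit 1837, nat_lit 2053, nat_lit 1981, nat_lit 2001] (nat_lit 2) [nat_lit 4185] false,
   Spec.mk (nat_lit 2001) (nat_lit 0) [nat_lit 3459, nat_lit 1839, nat_lit 2055, nat_lit 1983, nat_lit 2007, nat_lit 1999] (nat_lit 2) [] false,
   Spec.mk (nat_lit 2007) (nat_lit 0) [nat_lit 3465, nat_lit 1845, nat_lit 2061, nat_lit 1989, nat_lit 2001] (nat_lit 0) [] false,
   Spec.mk (nat_lit 2027) (nat_lit 0) [nat_lit 3485, nat_lit 1865, nat_lit 1973, nat_lit 2029] (nat_lit 0) [nat_lit 4213] false,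
   Spec.mk (nat_lit 2029) (nat_lit 1) [nat_lit 3487, nat_lit 1867, nat_lit 1975, nat_lit 2035, nat_lit 2027, nat_lit 2031] (nat_lit 0) [nat_lit 4215] false,
   Spec.mk (nat_lit 2031) (nat_lit 0) [nat_lit 3489, nat_lit 1869, nat_lit 1977, nat_lit 2037, nat_lit 2029] (nat_lit 0) [] false,
   Spec.mk (nat_lit 2035) (nat_lit 0) [nat_lit 3493, nat_lit 1873, nat_lit 1981, nat_lit 2053, nat_lit 2029, nat_lit 2037] (nat_lit 0) [nat_lit 4221] false,
   Spec.mk (nat_lit 2037) (nat_lit 1) [nat_lit 3495, nat_lit 1875, nat_lit 1983, nat_lit 2055, nat_lit 2031, nat_lit 2043, nat_lit 2035] (nat_lit 0) [] false,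
   Spec.mk (nat_lit 2043) (nat_lit 0) [nat_lit 3501, nat_lit 1881, nat_lit 1989, nat_lit 2061, nat_lit 2037] (nat_lit 0) [] false,
   Spec.mk (nat_lit 2053) (nat_lit 1) [nat_lit 3511, nat_lit 1891, nat_lit 1999, nat_lit 2107, nat_lit 2035, nat_lit 2055] (nat_lit 0) [nat_lit 4239] false,
   Spec.mk (nat_lit 2055) (nat_lit 1) [nat_lit 3513, nat_lit 1893, nat_lit 2001, nat_lit 2109, nat_lit 2037, nat_lit 2061, nat_lit 2053] (nat_lit 0) [] false,
   Spec.mk (nat_lit 2061) (nat_lit 2) [nat_lit 3519, nat_lit 1899, nat_lit 2007, nat_lit 2115, nat_lit 2043, nat_lit 2079, nat_lit 2055] (nat_lit 0) [] false,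
   Spec.mk (nat_lit 2079) (nat_lit 2) [nat_lit 3537, nat_lit 1917, nat_lit 2133, nat_lit 2061] (nat_lit 0) [] false,
   Spec.mk (nat_lit 2107) (nat_lit 2) [nat_lit 3565, nat_lit 2053, nat_lit 2109] (nat_lit 0) [nat_lit 4293] false,
   Spec.mk (nat_lit 2109) (nat_lit 2) [nat_lit 3567, nat_lit 2055, nat_lit 2115, nat_lit 2107] (nat_lit 0) [] false,
   Spec.mk (nat_lit 2115) (nat_lit 2) [nat_lit 3573, nat_lit 2061, nat_lit 2133, nat_lit 2109] (nat_lit 0) [] false,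
   Spec.mk (nat_lit 2133) (nat_lit 4) [nat_lit 3591, nat_lit 2079, nat_lit 2115] (nat_lit 0) [] false,
   Spec.mk (nat_lit 2213) (nat_lit 4) [nat_lit 755, nat_lit 2231] (nat_lit 0) [nat_lit 4399] false,
   Spec.mk (nat_lit 2231) (nat_lit 3) [nat_lit 773, nat_lit 2285, nat_lit 2213, nat_lit 2249, nat_lit 2237] (nat_lit 0) [nat_lit 4417] false,
   Spec.mk (nat_lit 2237) (nat_lit 2) [nat_lit 779, nat_lit 2291, nat_lit 2255, nat_lit 2231, nat_lit 2239] (nat_lit 0) [nat_lit 4423] false,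
   Spec.mk (nat_lit 2239) (nat_lit 3) [nat_lit 781, nat_lit 2293, nat_lit 2257, nat_lit 2237] (nat_lit 0) [nat_lit 4425, nat_lit 53] false,
   Spec.mk (nat_lit 2249) (nat_lit 0) [nat_lit 791, nat_lit 2303, nat_lit 2231, nat_lit 2255] (nat_lit 0) [nat_lit 4435] false,
   Spec.mk (nat_lit 2255) (nat_lit 1) [nat_lit 797, nat_lit 2309, nat_lit 2237, nat_lit 2249, nat_lit 2261, nat_lit 2257] (nat_lit 0) [nat_lit 4441] false,
   Spec.mk (nat_lit 2257) (nat_lit 1) [nat_lit 799, nat_lit 2311, nat_lit 2239, nat_lit 2263, nat_lit 2255] (nat_lit 0) [nat_lit 4443, nat_lit 71] false,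
   Spec.mk (nat_lit 2261) (nat_lit 0) [nat_lit 803, nat_lit 2315, nat_lit 2255, nat_lit 2263] (nat_lit 0) [nat_lit 4447] false,
   Spec.mk (nat_lit 2263) (nat_lit 2) [nat_lit 805, nat_lit 2317, nat_lit 2257, nat_lit 2261, nat_lit 2265] (nat_lit 0) [nat_lit 4449, nat_lit 77] false,
   Spec.mk (nat_lit 2265) (nat_lit 2) [nat_lit 807, nat_lit 2319, nat_lit 2263] (nat_lit 0) [nat_lit 79] false,
   Spec.mk (nat_lit 2285) (nat_lit 2) [nat_lit 827, nat_lit 2447, nat_lit 2231, nat_lit 2303, nat_lit 2291] (nat_lit 0) [nat_lit 4471] false,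
   Spec.mk (nat_lit 2291) (nat_lit 0) [nat_lit 833, nat_lit 2453, nat_lit 2237, nat_lit 2309, nat_lit 2285, nat_lit 2293] (nat_lit 0) [nat_lit 4477] false,
   Spec.mk (nat_lit 2293) (nat_lit 1) [nat_lit 835, nat_lit 2455, nat_lit 2239, nat_lit 2311, nat_lit 2291] (nat_lit 0) [nat_lit 4479, nat_lit 107] false,
   Spec.mk (nat_lit 2303) (nat_lit 1) [nat_lit 845, nat_lit 2465, nat_lit 2249, nat_lit 2357, nat_lit 2285, nat_lit 2309] (nat_lit 0) [nat_lit 4489] false,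
   Spec.mk (nat_lit 2309) (nat_lit 1) [nat_lit 851, nat_lit 2471, nat_lit 2255, nat_lit 2363, nat_lit 2291, nat_lit 2327, nat_lit 2303, nat_lit 2315, nat_lit 2311] (nat_lit 0) [nat_lit 4495] false,
   Spec.mk (nat_lit 2311) (nat_lit 1) [nat_lit 853, nat_lit 2473, nat_lit 2257, nat_lit 2365, nat_lit 2293, nat_lit 2329, nat_lit 2317, nat_lit 2309] (nat_lit 0) [nat_lit 4497, nat_lit 125] false,
   Spec.mk (nat_lit 2315) (nat_lit 0) [nat_lit 857, nat_lit 2477, nat_lit 2261, nat_lit 2369, nat_lit 2333, nat_lit 2309, nat_lit 2317] (nat_lit 1) [nat_lit 4501] false,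
   Spec.mk (nat_lit 2317) (nat_lit 1) [nat_lit 859, nat_lit 2479, nat_lit 2263, nat_lit 2371, nat_lit 2335, nat_lit 2311, nat_lit 2315, nat_lit 2319] (nat_lit 0) [nat_lit 4503, nat_lit 131] false,
   Spec.mk (nat_lit 2319) (nat_lit 1) [nat_lit 861, nat_lit 2481, nat_lit 2265, nat_lit 2373, nat_lit 2337, nat_lit 2317] (nat_lit 0) [nat_lit 133] false,
   Spec.mk (nat_lit 2327) (nat_lit 0) [nat_lit 869, nat_lit 2489, nat_lit 2381, nat_lit 2309, nat_lit 2333, nat_lit 2329] (nat_lit 0) [nat_lit 4513] false,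
   Spec.mk (nat_lit 2329) (nat_lit 0) [nat_lit 871, nat_lit 2491, nat_lit 2383, nat_lit 2311, nat_lit 2335, nat_lit 2327] (nat_lit 1) [nat_lit 4515, nat_lit 143] false,
   Spec.mk (nat_lit 2333) (nat_lit 0) [nat_lit 875, nat_lit 2495, nat_lit 2387, nat_lit 2315, nat_lit 2327, nat_lit 2335] (nat_lit 0) [nat_lit 4519] false,
   Spec.mk (nat_lit 2335) (nat_lit 1) [nat_lit 877, nat_lit 2497, nat_lit 2389, nat_lit 2317, nat_lit 2329, nat_lit 2341, nat_lit 2333, nat_lit 2337] (nat_lit 0) [nat_lit 4521, nat_lit 149] false,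
   Spec.mk (nat_lit 2337) (nat_lit 0) [nat_lit 879, nat_lit 2499, nat_lit 2391, nat_lit 2319, nat_lit 2343, nat_lit 2335] (nat_lit 0) [nat_lit 151] false,
   Spec.mk (nat_lit 2341) (nat_lit 1) [nat_lit 883, nat_lit 2503, nat_lit 2395, nat_lit 2335, nat_lit 2343] (nat_lit 0) [nat_lit 4527, nat_lit 155] false,
   Spec.mk (nat_lit 2343) (nat_lit 2) [nat_lit 885, nat_lit 2505, nat_lit 2397, nat_lit 2337, nat_lit 2341] (nat_lit 0) [nat_lit 157] false,
   Spec.mk (nat_lit 2357) (nat_lit 0) [nat_lit 899, nat_lit 2519, nat_lit 2303, nat_lit 2363] (nat_lit 0) [nat_lit 4543] false]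

noncomputable def sp7 : List Spec :=
  [Spec.mk (nat_lit 2363) (nat_lit 0) [nat_lit 905, nat_lit 2525, nat_lit 2309, nat_lit 2381, nat_lit 2357, nat_lit 2369, nat_lit 2365] (nat_lit 1) [nat_lit 4549] false,
   Spec.mk (nat_lit 2365) (nat_lit 0) [nat_lit 907, nat_lit 2527, nat_lit 2311, nat_lit 2383, nat_lit 2371, nat_lit 2363] (nat_lit 1) [nat_lit 4551, nat_lit 179] false,
   Spec.mk (nat_lit 2369) (nat_lit 0) [nat_lit 911, nat_lit 2531, nat_lit 2315, nat_lit 2387, nat_lit 2363, nat_lit 2371] (nat_lit 4) [nat_lit 4555] false,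
   Spec.mk (nat_lit 2371) (nat_lit 0) [nat_lit 913, nat_lit 2533, nat_lit 2317, nat_lit 2389, nat_lit 2365, nat_lit 2369, nat_lit 2373] (nat_lit 2) [nat_lit 4557, nat_lit 185] false,
   Spec.mk (nat_lit 2373) (nat_lit 0) [nat_lit 915, nat_lit 2535, nat_lit 2319, nat_lit 2391, nat_lit 2371] (nat_lit 2) [nat_lit 187] false,
   Spec.mk (nat_lit 2381) (nat_lit 0) [nat_lit 923, nat_lit 2543, nat_lit 2327, nat_lit 2363, nat_lit 2387, nat_lit 2383] (nat_lit 0) [nat_lit 4567] false,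
   Spec.mk (nat_lit 2383) (nat_lit 0) [nat_lit 925, nat_lit 2545, nat_lit 2329, nat_lit 2365, nat_lit 2389, nat_lit 2381] (nat_lit 1) [nat_lit 4569, nat_lit 197] false,
   Spec.mk (nat_lit 2387) (nat_lit 0) [nat_lit 929, nat_lit 2549, nat_lit 2333, nat_lit 2369, nat_lit 2405, nat_lit 2381, nat_lit 2389] (nat_lit 1) [nat_lit 4573] false,
   Spec.mk (nat_lit 2389) (nat_lit 0) [nat_lit 931, nat_lit 2551, nat_lit 2335, nat_lit 2371, nat_lit 2407, nat_lit 2383, nat_lit 2395, nat_lit 2387, nat_lit 2391] (nat_lit 0) [nat_lit 4575, nat_lit 203] false,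
   Spec.mk (nat_lit 2391) (nat_lit 0) [nat_lit 933, nat_lit 2553, nat_lit 2337, nat_lit 2373, nat_lit 2409, nat_lit 2397, nat_lit 2389] (nat_lit 1) [nat_lit 205] false,
   Spec.mk (nat_lit 2395) (nat_lit 0) [nat_lit 937, nat_lit 2557, nat_lit 2341, nat_lit 2413, nat_lit 2389, nat_lit 2397] (nat_lit 1) [nat_lit 4581, nat_lit 209] false,
   Spec.mk (nat_lit 2397) (nat_lit 0) [nat_lit 939, nat_lit 2559, nat_lit 2343, nat_lit 2415, nat_lit 2391, nat_lit 2395] (nat_lit 0) [nat_lit 211] false,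
   Spec.mk (nat_lit 2405) (nat_lit 0) [nat_lit 947, nat_lit 2567, nat_lit 2387, nat_lit 2407] (nat_lit 0) [nat_lit 4591] false,
   Spec.mk (nat_lit 2407) (nat_lit 0) [nat_lit 949, nat_lit 2569, nat_lit 2389, nat_lit 2413, nat_lit 2405, nat_lit 2409] (nat_lit 0) [nat_lit 4593, nat_lit 221] false,
   Spec.mk (nat_lit 2409) (nat_lit 0) [nat_lit 951, nat_lit 2571, nat_lit 2391, nat_lit 2415, nat_lit 2407] (nat_lit 2) [nat_lit 223] false,
   Spec.mk (nat_lit 2413) (nat_lit 1) [nat_lit 955, nat_lit 2575, nat_lit 2395, nat_lit 2407, nat_lit 2415] (nat_lit 0) [nat_lit 4599, nat_lit 227] false,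
   Spec.mk (nat_lit 2415) (nat_lit 1) [nat_lit 957, nat_lit 2577, nat_lit 2397, nat_lit 2409, nat_lit 2421, nat_lit 2413] (nat_lit 0) [nat_lit 229] false,
   Spec.mk (nat_lit 2421) (nat_lit 2) [nat_lit 963, nat_lit 2583, nat_lit 2415] (nat_lit 0) [nat_lit 235] false,
   Spec.mk (nat_lit 2447) (nat_lit 2) [nat_lit 989, nat_lit 2933, nat_lit 2285, nat_lit 2465, nat_lit 2453] (nat_lit 0) [nat_lit 4633] false,
   Spec.mk (nat_lit 2453) (nat_lit 0) [nat_lit 995, nat_lit 2939, nat_lit 2291, nat_lit 2471, nat_lit 2447, nat_lit 2455] (nat_lit 0) [nat_lit 4639] false,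
   Spec.mk (nat_lit 2455) (nat_lit 1) [nat_lit 997, nat_lit 2941, nat_lit 2293, nat_lit 2473, nat_lit 2453] (nat_lit 0) [nat_lit 4641, nat_lit 269] false,
   Spec.mk (nat_lit 2465) (nat_lit 0) [nat_lit 1007, nat_lit 2951, nat_lit 2303, nat_lit 2519, nat_lit 2447, nat_lit 2471] (nat_lit 0) [nat_lit 4651] false,
   Spec.mk (nat_lit 2471) (nat_lit 0) [nat_lit 1013, nat_lit 2957, nat_lit 2309, nat_lit 2525, nat_lit 2453, nat_lit 2489, nat_lit 2465, nat_lit 2477, nat_lit 2473] (nat_lit 0) [nat_lit 4657] false,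
   Spec.mk (nat_lit 2473) (nat_lit 0) [nat_lit 1015, nat_lit 2959, nat_lit 2311, nat_lit 2527, nat_lit 2455, nat_lit 2491, nat_lit 2479, nat_lit 2471] (nat_lit 0) [nat_lit 4659, nat_lit 287] false,
   Spec.mk (nat_lit 2477) (nat_lit 0) [nat_lit 1019, nat_lit 2963, nat_lit 2315, nat_lit 2531, nat_lit 2495, nat_lit 2471, nat_lit 2479] (nat_lit 2) [nat_lit 4663] false,
   Spec.mk (nat_lit 2479) (nat_lit 0) [nat_lit 1021, nat_lit 2965, nat_lit 2317, nat_lit 2533, nat_lit 2497, nat_lit 2473, nat_lit 2477, nat_lit 2481] (nat_lit 0) [nat_lit 4665, nat_lit 293] false,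
   Spec.mk (nat_lit 2481) (nat_lit 0) [nat_lit 1023, nat_lit 2967, nat_lit 2319, nat_lit 2535, nat_lit 2499, nat_lit 2479] (nat_lit 0) [nat_lit 295] false,
   Spec.mk (nat_lit 2489) (nat_lit 0) [nat_lit 1031, nat_lit 2975, nat_lit 2327, nat_lit 2543, nat_lit 2471, nat_lit 2495, nat_lit 2491] (nat_lit 2) [nat_lit 4675] false,
   Spec.mk (nat_lit 2491) (nat_lit 0) [nat_lit 1033, nat_lit 2977, nat_lit 2329, nat_lit 2545, nat_lit 2473, nat_lit 2497, nat_lit 2489] (nat_lit 3) [nat_lit 4677, nat_lit 305] false,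
   Spec.mk (nat_lit 2495) (nat_lit 0) [nat_lit 1037, nat_lit 2981, nat_lit 2333, nat_lit 2549, nat_lit 2477, nat_lit 2489, nat_lit 2497] (nat_lit 2) [nat_lit 4681] false,
   Spec.mk (nat_lit 2497) (nat_lit 0) [nat_lit 1039, nat_lit 2983, nat_lit 2335, nat_lit 2551, nat_lit 2479, nat_lit 2491, nat_lit 2503, nat_lit 2495, nat_lit 2499] (nat_lit 1) [nat_lit 4683, nat_lit 311] false,
   Spec.mk (nat_lit 2499) (nat_lit 0) [nat_lit 1041, nat_lit 2985, nat_lit 2337, nat_lit 2553, nat_lit 2481, nat_lit 2505, nat_lit 2497] (nat_lit 2) [nat_lit 313] false,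
   Spec.mk (nat_lit 2503) (nat_lit 0) [nat_lit 1045, nat_lit 2989, nat_lit 2341, nat_lit 2557, nat_lit 2497, nat_lit 2505] (nat_lit 1) [nat_lit 4689, nat_lit 317] false,
   Spec.mk (nat_lit 2505) (nat_lit 0) [nat_lit 1047, nat_lit 2991, nat_lit 2343, nat_lit 2559, nat_lit 2499, nat_lit 2503] (nat_lit 0) [nat_lit 319] false,
   Spec.mk (nat_lit 2519) (nat_lit 1) [nat_lit 1061, nat_lit 3005, nat_lit 2357, nat_lit 2681, nat_lit 2465, nat_lit 2525] (nat_lit 0) [nat_lit 4705] false,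
   Spec.mk (nat_lit 2525) (nat_lit 0) [nat_lit 1067, nat_lit 3011, nat_lit 2363, nat_lit 2687, nat_lit 2471, nat_lit 2543, nat_lit 2519, nat_lit 2531, nat_lit 2527] (nat_lit 0) [nat_lit 4711] false,
   Spec.mk (nat_lit 2527) (nat_lit 0) [nat_lit 1069, nat_lit 3013, nat_lit 2365, nat_lit 2689, nat_lit 2473, nat_lit 2545, nat_lit 2533, nat_lit 2525] (nat_lit 0) [nat_lit 4713, nat_lit 341] false,
   Spec.mk (nat_lit 2531) (nat_lit 0) [nat_lit 1073, nat_lit 3017, nat_lit 2369, nat_lit 2693, nat_lit 2477, nat_lit 2549, nat_lit 2525, nat_lit 2533] (nat_lit 3) [nat_lit 4717] false,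
   Spec.mk (nat_lit 2533) (nat_lit 0) [nat_lit 1075, nat_lit 3019, nat_lit 2371, nat_lit 2695, nat_lit 2479, nat_lit 2551, nat_lit 2527, nat_lit 2531, nat_lit 2535] (nat_lit 1) [nat_lit 4719, nat_lit 347] false,
   Spec.mk (nat_lit 2535) (nat_lit 0) [nat_lit 1077, nat_lit 3021, nat_lit 2373, nat_lit 2697, nat_lit 2481, nat_lit 2553, nat_lit 2533] (nat_lit 1) [nat_lit 349] false,
   Spec.mk (nat_lit 2543) (nat_lit 0) [nat_lit 1085, nat_lit 3029, nat_lit 2381, nat_lit 2705, nat_lit 2489, nat_lit 2597, nat_lit 2525, nat_lit 2549, nat_lit 2545] (nat_lit 0) [nat_lit 4729] false,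
   Spec.mk (nat_lit 2545) (nat_lit 0) [nat_lit 1087, nat_lit 3031, nat_lit 2383, nat_lit 2707, nat_lit 2491, nat_lit 2599, nat_lit 2527, nat_lit 2551, nat_lit 2543] (nat_lit 1) [nat_lit 4731, nat_lit 359] false,
   Spec.mk (nat_lit 2549) (nat_lit 0) [nat_lit 1091, nat_lit 3035, nat_lit 2387, nat_lit 2711, nat_lit 2495, nat_lit 2603, nat_lit 2531, nat_lit 2567, nat_lit 2543, nat_lit 2551] (nat_lit 1) [nat_lit 4735] false,
   Spec.mk (nat_lit 2551) (nat_lit 0) [nat_lit 1093, nat_lit 3037, nat_lit 2389, nat_lit 2713, nat_lit 2497, nat_lit 2605, nat_lit 2533, nat_lit 2569, nat_lit 2545, nat_lit 2557, nat_lit 2549, nat_lit 2553] (nat_lit 0) [nat_lit 4737, nat_lit 365] false,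
   Spec.mk (nat_lit 2553) (nat_lit 0) [nat_lit 1095, nat_lit 3039, nat_lit 2391, nat_lit 2715, nat_lit 2499, nat_lit 2607, nat_lit 2535, nat_lit 2571, nat_lit 2559, nat_lit 2551] (nat_lit 1) [nat_lit 367] false,
   Spec.mk (nat_lit 2557) (nat_lit 0) [nat_lit 1099, nat_lit 3043, nat_lit 2395, nat_lit 2719, nat_lit 2503, nat_lit 2611, nat_lit 2575, nat_lit 2551, nat_lit 2559] (nat_lit 1) [nat_lit 4743, nat_lit 371] false,
   Spec.mk (nat_lit 2559) (nat_lit 0) [nat_lit 1101, nat_lit 3045, nat_lit 2397, nat_lit 2721, nat_lit 2505, nat_lit 2613, nat_lit 2577, nat_lit 2553, nat_lit 2557] (nat_lit 0) [nat_lit 373] false,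
   Spec.mk (nat_lit 2567) (nat_lit 0) [nat_lit 1109, nat_lit 3053, nat_lit 2405, nat_lit 2729, nat_lit 2621, nat_lit 2549, nat_lit 2569] (nat_lit 1) [nat_lit 4753] false,
   Spec.mk (nat_lit 2569) (nat_lit 0) [nat_lit 1111, nat_lit 3055, nat_lit 2407, nat_lit 2731, nat_lit 2623, nat_lit 2551, nat_lit 2575, nat_lit 2567, nat_lit 2571] (nat_lit 1) [nat_lit 4755, nat_lit 383] false,
   Spec.mk (nat_lit 2571) (nat_lit 0) [nat_lit 1113, nat_lit 3057, nat_lit 2409, nat_lit 2733, nat_lit 2625, nat_lit 2553, nat_lit 2577, nat_lit 2569] (nat_lit 3) [nat_lit 385] false,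
   Spec.mk (nat_lit 2575) (nat_lit 0) [nat_lit 1117, nat_lit 3061, nat_lit 2413, nat_lit 2737, nat_lit 2629, nat_lit 2557, nat_lit 2569, nat_lit 2577] (nat_lit 0) [nat_lit 4761, nat_lit 389] false,
   Spec.mk (nat_lit 2577) (nat_lit 0) [nat_lit 1119, nat_lit 3063, nat_lit 2415, nat_lit 2739, nat_lit 2631, nat_lit 2559, nat_lit 2571, nat_lit 2583, nat_lit 2575] (nat_lit 0) [nat_lit 391] false,
   Spec.mk (nat_lit 2583) (nat_lit 1) [nat_lit 1125, nat_lit 3069, nat_lit 2421, nat_lit 2745, nat_lit 2637, nat_lit 2577] (nat_lit 0) [nat_lit 397] false,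
   Spec.mk (nat_lit 2597) (nat_lit 0) [nat_lit 1139, nat_lit 3083, nat_lit 2759, nat_lit 2543, nat_lit 2603, nat_lit 2599] (nat_lit 0) [nat_lit 4783] false,
   Spec.mk (nat_lit 2599) (nat_lit 0) [nat_lit 1141, nat_lit 3085, nat_lit 2761, nat_lit 2545, nat_lit 2605, nat_lit 2597] (nat_lit 1) [nat_lit 4785, nat_lit 413] false,
   Spec.mk (nat_lit 2603) (nat_lit 0) [nat_lit 1145, nat_lit 3089, nat_lit 2765, nat_lit 2549, nat_lit 2621, nat_lit 2597, nat_lit 2605] (nat_lit 2) [nat_lit 4789] false,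
   Spec.mk (nat_lit 2605) (nat_lit 0) [nat_lit 1147, nat_lit 3091, nat_lit 2767, nat_lit 2551, nat_lit 2623, nat_lit 2599, nat_lit 2611, nat_lit 2603, nat_lit 2607] (nat_lit 1) [nat_lit 4791, nat_lit 419] false,
   Spec.mk (nat_lit 2607) (nat_lit 0) [nat_lit 1149, nat_lit 3093, nat_lit 2769, nat_lit 2553, nat_lit 2625, nat_lit 2613, nat_lit 2605] (nat_lit 2) [nat_lit 421] false,
   Spec.mk (nat_lit 2611) (nat_lit 0) [nat_lit 1153, nat_lit 3097, nat_lit 2773, nat_lit 2557, nat_lit 2629, nat_lit 2605, nat_lit 2613] (nat_lit 3) [nat_lit 4797, nat_lit 425] false,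
   Spec.mk (nat_lit 2613) (nat_lit 0) [nat_lit 1155, nat_lit 3099, nat_lit 2775, nat_lit 2559, nat_lit 2631, nat_lit 2607, nat_lit 2611] (nat_lit 2) [nat_lit 427] false]

noncomputable def sp8 : List Spec :=
  [Spec.mk (nat_lit 2621) (nat_lit 0) [nat_lit 1163, nat_lit 3107, nat_lit 2783, nat_lit 2567, nat_lit 2603, nat_lit 2623] (nat_lit 0) [nat_lit 4807] false,
   Spec.mk (nat_lit 2623) (nat_lit 0) [nat_lit 1165, nat_lit 3109, nat_lit 2785, nat_lit 2569, nat_lit 2605, nat_lit 2629, nat_lit 2621, nat_lit 2625] (nat_lit 0) [nat_lit 4809, nat_lit 437] false,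
   Spec.mk (nat_lit 2625) (nat_lit 0) [nat_lit 1167, nat_lit 3111, nat_lit 2787, nat_lit 2571, nat_lit 2607, nat_lit 2631, nat_lit 2623] (nat_lit 2) [nat_lit 439] false,
   Spec.mk (nat_lit 2629) (nat_lit 0) [nat_lit 1171, nat_lit 3115, nat_lit 2791, nat_lit 2575, nat_lit 2611, nat_lit 2647, nat_lit 2623, nat_lit 2631] (nat_lit 0) [nat_lit 4815, nat_lit 443] false,
   Spec.mk (nat_lit 2631) (nat_lit 0) [nat_lit 1173, nat_lit 3117, nat_lit 2793, nat_lit 2577, nat_lit 2613, nat_lit 2649, nat_lit 2625, nat_lit 2637, nat_lit 2629] (nat_lit 0) [nat_lit 445] false,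
   Spec.mk (nat_lit 2637) (nat_lit 0) [nat_lit 1179, nat_lit 3123, nat_lit 2799, nat_lit 2583, nat_lit 2655, nat_lit 2631] (nat_lit 0) [nat_lit 451] false,
   Spec.mk (nat_lit 2647) (nat_lit 1) [nat_lit 1189, nat_lit 3133, nat_lit 2809, nat_lit 2629, nat_lit 2649] (nat_lit 0) [nat_lit 4833, nat_lit 461] false,
   Spec.mk (nat_lit 2649) (nat_lit 0) [nat_lit 1191, nat_lit 3135, nat_lit 2811, nat_lit 2631, nat_lit 2655, nat_lit 2647] (nat_lit 0) [nat_lit 463] false,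
   Spec.mk (nat_lit 2655) (nat_lit 2) [nat_lit 1197, nat_lit 3141, nat_lit 2817, nat_lit 2637, nat_lit 2649] (nat_lit 0) [nat_lit 469] false,
   Spec.mk (nat_lit 2681) (nat_lit 0) [nat_lit 1223, nat_lit 3167, nat_lit 2519, nat_lit 2687] (nat_lit 0) [nat_lit 4867] false,
   Spec.mk (nat_lit 2687) (nat_lit 0) [nat_lit 1229, nat_lit 3173, nat_lit 2525, nat_lit 2705, nat_lit 2681, nat_lit 2693, nat_lit 2689] (nat_lit 1) [nat_lit 4873] false,
   Spec.mk (nat_lit 2689) (nat_lit 0) [nat_lit 1231, nat_lit 3175, nat_lit 2527, nat_lit 2707, nat_lit 2695, nat_lit 2687] (nat_lit 1) [nat_lit 4875, nat_lit 503] false,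
   Spec.mk (nat_lit 2693) (nat_lit 0) [nat_lit 1235, nat_lit 3179, nat_lit 2531, nat_lit 2711, nat_lit 2687, nat_lit 2695] (nat_lit 4) [nat_lit 4879] false,
   Spec.mk (nat_lit 2695) (nat_lit 0) [nat_lit 1237, nat_lit 3181, nat_lit 2533, nat_lit 2713, nat_lit 2689, nat_lit 2693, nat_lit 2697] (nat_lit 2) [nat_lit 4881, nat_lit 509] false,
   Spec.mk (nat_lit 2697) (nat_lit 0) [nat_lit 1239, nat_lit 3183, nat_lit 2535, nat_lit 2715, nat_lit 2695] (nat_lit 2) [nat_lit 511] false,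
   Spec.mk (nat_lit 2705) (nat_lit 0) [nat_lit 1247, nat_lit 3191, nat_lit 2543, nat_lit 2759, nat_lit 2687, nat_lit 2711, nat_lit 2707] (nat_lit 2) [nat_lit 4891] false,
   Spec.mk (nat_lit 2707) (nat_lit 0) [nat_lit 1249, nat_lit 3193, nat_lit 2545, nat_lit 2761, nat_lit 2689, nat_lit 2713, nat_lit 2705] (nat_lit 3) [nat_lit 4893, nat_lit 521] false,
   Spec.mk (nat_lit 2711) (nat_lit 0) [nat_lit 1253, nat_lit 3197, nat_lit 2549, nat_lit 2765, nat_lit 2693, nat_lit 2729, nat_lit 2705, nat_lit 2713] (nat_lit 3) [nat_lit 4897] false,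
   Spec.mk (nat_lit 2713) (nat_lit 0) [nat_lit 1255, nat_lit 3199, nat_lit 2551, nat_lit 2767, nat_lit 2695, nat_lit 2731, nat_lit 2707, nat_lit 2719, nat_lit 2711, nat_lit 2715] (nat_lit 2) [nat_lit 4899, nat_lit 527] false,
   Spec.mk (nat_lit 2715) (nat_lit 0) [nat_lit 1257, nat_lit 3201, nat_lit 2553, nat_lit 2769, nat_lit 2697, nat_lit 2733, nat_lit 2721, nat_lit 2713] (nat_lit 3) [nat_lit 529] false,
   Spec.mk (nat_lit 2719) (nat_lit 0) [nat_lit 1261, nat_lit 3205, nat_lit 2557, nat_lit 2773, nat_lit 2737, nat_lit 2713, nat_lit 2721] (nat_lit 3) [nat_lit 4905, nat_lit 533] false,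
   Spec.mk (nat_lit 2721) (nat_lit 0) [nat_lit 1263, nat_lit 3207, nat_lit 2559, nat_lit 2775, nat_lit 2739, nat_lit 2715, nat_lit 2719] (nat_lit 2) [nat_lit 535] false,
   Spec.mk (nat_lit 2729) (nat_lit 0) [nat_lit 1271, nat_lit 3215, nat_lit 2567, nat_lit 2783, nat_lit 2711, nat_lit 2731] (nat_lit 4) [nat_lit 4915] false,
   Spec.mk (nat_lit 2731) (nat_lit 0) [nat_lit 1273, nat_lit 3217, nat_lit 2569, nat_lit 2785, nat_lit 2713, nat_lit 2737, nat_lit 2729, nat_lit 2733] (nat_lit 4) [nat_lit 4917, nat_lit 545] false,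
   Spec.mk (nat_lit 2733) (nat_lit 0) [nat_lit 1275, nat_lit 3219, nat_lit 2571, nat_lit 2787, nat_lit 2715, nat_lit 2739, nat_lit 2731] (nat_lit 6) [nat_lit 547] false,
   Spec.mk (nat_lit 2737) (nat_lit 0) [nat_lit 1279, nat_lit 3223, nat_lit 2575, nat_lit 2791, nat_lit 2719, nat_lit 2731, nat_lit 2739] (nat_lit 3) [nat_lit 4923, nat_lit 551] false,
   Spec.mk (nat_lit 2739) (nat_lit 0) [nat_lit 1281, nat_lit 3225, nat_lit 2577, nat_lit 2793, nat_lit 2721, nat_lit 2733, nat_lit 2745, nat_lit 2737] (nat_lit 3) [nat_lit 553] false,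
   Spec.mk (nat_lit 2745) (nat_lit 0) [nat_lit 1287, nat_lit 3231, nat_lit 2583, nat_lit 2799, nat_lit 2739] (nat_lit 2) [nat_lit 559] false,
   Spec.mk (nat_lit 2759) (nat_lit 0) [nat_lit 1301, nat_lit 3245, nat_lit 2597, nat_lit 2705, nat_lit 2765, nat_lit 2761] (nat_lit 0) [nat_lit 4945] false,
   Spec.mk (nat_lit 2761) (nat_lit 0) [nat_lit 1303, nat_lit 3247, nat_lit 2599, nat_lit 2707, nat_lit 2767, nat_lit 2759] (nat_lit 1) [nat_lit 4947, nat_lit 575] false,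
   Spec.mk (nat_lit 2765) (nat_lit 0) [nat_lit 1307, nat_lit 3251, nat_lit 2603, nat_lit 2711, nat_lit 2783, nat_lit 2759, nat_lit 2767] (nat_lit 2) [nat_lit 4951] false,
   Spec.mk (nat_lit 2767) (nat_lit 0) [nat_lit 1309, nat_lit 3253, nat_lit 2605, nat_lit 2713, nat_lit 2785, nat_lit 2761, nat_lit 2773, nat_lit 2765, nat_lit 2769] (nat_lit 1) [nat_lit 4953, nat_lit 581] false,
   Spec.mk (nat_lit 2769) (nat_lit 0) [nat_lit 1311, nat_lit 3255, nat_lit 2607, nat_lit 2715, nat_lit 2787, nat_lit 2775, nat_lit 2767] (nat_lit 2) [nat_lit 583] false,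
   Spec.mk (nat_lit 2773) (nat_lit 0) [nat_lit 1315, nat_lit 3259, nat_lit 2611, nat_lit 2719, nat_lit 2791, nat_lit 2767, nat_lit 2775] (nat_lit 3) [nat_lit 4959, nat_lit 587] false,
   Spec.mk (nat_lit 2775) (nat_lit 0) [nat_lit 1317, nat_lit 3261, nat_lit 2613, nat_lit 2721, nat_lit 2793, nat_lit 2769, nat_lit 2773] (nat_lit 2) [nat_lit 589] false,
   Spec.mk (nat_lit 2783) (nat_lit 0) [nat_lit 1325, nat_lit 3269, nat_lit 2621, nat_lit 2729, nat_lit 2837, nat_lit 2765, nat_lit 2785] (nat_lit 1) [nat_lit 4969] false,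
   Spec.mk (nat_lit 2785) (nat_lit 0) [nat_lit 1327, nat_lit 3271, nat_lit 2623, nat_lit 2731, nat_lit 2839, nat_lit 2767, nat_lit 2791, nat_lit 2783, nat_lit 2787] (nat_lit 1) [nat_lit 4971, nat_lit 599] false,
   Spec.mk (nat_lit 2787) (nat_lit 0) [nat_lit 1329, nat_lit 3273, nat_lit 2625, nat_lit 2733, nat_lit 2841, nat_lit 2769, nat_lit 2793, nat_lit 2785] (nat_lit 3) [nat_lit 601] false,
   Spec.mk (nat_lit 2791) (nat_lit 0) [nat_lit 1333, nat_lit 3277, nat_lit 2629, nat_lit 2737, nat_lit 2845, nat_lit 2773, nat_lit 2809, nat_lit 2785, nat_lit 2793] (nat_lit 1) [nat_lit 4977, nat_lit 605] false,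
   Spec.mk (nat_lit 2793) (nat_lit 0) [nat_lit 1335, nat_lit 3279, nat_lit 2631, nat_lit 2739, nat_lit 2847, nat_lit 2775, nat_lit 2811, nat_lit 2787, nat_lit 2799, nat_lit 2791] (nat_lit 1) [nat_lit 607] false,
   Spec.mk (nat_lit 2799) (nat_lit 0) [nat_lit 1341, nat_lit 3285, nat_lit 2637, nat_lit 2745, nat_lit 2853, nat_lit 2817, nat_lit 2793] (nat_lit 1) [nat_lit 613] false,
   Spec.mk (nat_lit 2809) (nat_lit 0) [nat_lit 1351, nat_lit 3295, nat_lit 2647, nat_lit 2863, nat_lit 2791, nat_lit 2811] (nat_lit 1) [nat_lit 4995, nat_lit 623] false,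
   Spec.mk (nat_lit 2811) (nat_lit 0) [nat_lit 1353, nat_lit 3297, nat_lit 2649, nat_lit 2865, nat_lit 2793, nat_lit 2817, nat_lit 2809] (nat_lit 2) [nat_lit 625] false,
   Spec.mk (nat_lit 2817) (nat_lit 0) [nat_lit 1359, nat_lit 3303, nat_lit 2655, nat_lit 2871, nat_lit 2799, nat_lit 2811] (nat_lit 0) [nat_lit 631] false,
   Spec.mk (nat_lit 2837) (nat_lit 0) [nat_lit 1379, nat_lit 3323, nat_lit 2783, nat_lit 2839] (nat_lit 0) [nat_lit 5023] false,
   Spec.mk (nat_lit 2839) (nat_lit 0) [nat_lit 1381, nat_lit 3325, nat_lit 2785, nat_lit 2845, nat_lit 2837, nat_lit 2841] (nat_lit 0) [nat_lit 5025, nat_lit 653] false,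
   Spec.mk (nat_lit 2841) (nat_lit 0) [nat_lit 1383, nat_lit 3327, nat_lit 2787, nat_lit 2847, nat_lit 2839] (nat_lit 2) [nat_lit 655] false,
   Spec.mk (nat_lit 2845) (nat_lit 0) [nat_lit 1387, nat_lit 3331, nat_lit 2791, nat_lit 2863, nat_lit 2839, nat_lit 2847] (nat_lit 1) [nat_lit 5031, nat_lit 659] false,
   Spec.mk (nat_lit 2847) (nat_lit 0) [nat_lit 1389, nat_lit 3333, nat_lit 2793, nat_lit 2865, nat_lit 2841, nat_lit 2853, nat_lit 2845] (nat_lit 1) [nat_lit 661] false,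
   Spec.mk (nat_lit 2853) (nat_lit 0) [nat_lit 1395, nat_lit 3339, nat_lit 2799, nat_lit 2871, nat_lit 2847] (nat_lit 2) [nat_lit 667] false,
   Spec.mk (nat_lit 2863) (nat_lit 1) [nat_lit 1405, nat_lit 3349, nat_lit 2809, nat_lit 2845, nat_lit 2865] (nat_lit 0) [nat_lit 5049, nat_lit 677] false,
   Spec.mk (nat_lit 2865) (nat_lit 0) [nat_lit 1407, nat_lit 3351, nat_lit 2811, nat_lit 2847, nat_lit 2871, nat_lit 2863] (nat_lit 0) [nat_lit 679] false,
   Spec.mk (nat_lit 2871) (nat_lit 1) [nat_lit 1413, nat_lit 3357, nat_lit 2817, nat_lit 2853, nat_lit 2889, nat_lit 2865] (nat_lit 0) [nat_lit 685] false,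
   Spec.mk (nat_lit 2889) (nat_lit 2) [nat_lit 1431, nat_lit 3375, nat_lit 2871] (nat_lit 0) [nat_lit 703] false,
   Spec.mk (nat_lit 2933) (nat_lit 3) [nat_lit 1475, nat_lit 4391, nat_lit 2447, nat_lit 2951, nat_lit 2939] (nat_lit 0) [nat_lit 5119] false,
   Spec.mk (nat_lit 2939) (nat_lit 1) [nat_lit 1481, nat_lit 4397, nat_lit 2453, nat_lit 2957, nat_lit 2933, nat_lit 2941] (nat_lit 0) [nat_lit 5125] false,
   Spec.mk (nat_lit 2941) (nat_lit 2) [nat_lit 1483, nat_lit 4399, nat_lit 2455, nat_lit 2959, nat_lit 2939] (nat_lit 0) [nat_lit 5127, nat_lit 755] false,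
   Spec.mk (nat_lit 2951) (nat_lit 1) [nat_lit 1493, nat_lit 4409, nat_lit 2465, nat_lit 3005, nat_lit 2933, nat_lit 2957] (nat_lit 0) [nat_lit 5137] false,
   Spec.mk (nat_lit 2957) (nat_lit 1) [nat_lit 1499, nat_lit 4415, nat_lit 2471, nat_lit 3011, nat_lit 2939, nat_lit 2975, nat_lit 2951, nat_lit 2963, nat_lit 2959] (nat_lit 0) [nat_lit 5143] false,
   Spec.mk (nat_lit 2959) (nat_lit 1) [nat_lit 1501, nat_lit 4417, nat_lit 2473, nat_lit 3013, nat_lit 2941, nat_lit 2977, nat_lit 2965, nat_lit 2957] (nat_lit 0) [nat_lit 5145, nat_lit 773] false]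

noncomputable def sp9 : List Spec :=
  [Spec.mk (nat_lit 2963) (nat_lit 0) [nat_lit 1505, nat_lit 4421, nat_lit 2477, nat_lit 3017, nat_lit 2981, nat_lit 2957, nat_lit 2965] (nat_lit 1) [nat_lit 5149] false,
   Spec.mk (nat_lit 2965) (nat_lit 1) [nat_lit 1507, nat_lit 4423, nat_lit 2479, nat_lit 3019, nat_lit 2983, nat_lit 2959, nat_lit 2963, nat_lit 2967] (nat_lit 0) [nat_lit 5151, nat_lit 779] false,
   Spec.mk (nat_lit 2967) (nat_lit 1) [nat_lit 1509, nat_lit 4425, nat_lit 2481, nat_lit 3021, nat_lit 2985, nat_lit 2965] (nat_lit 0) [nat_lit 781] false,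
   Spec.mk (nat_lit 2975) (nat_lit 0) [nat_lit 1517, nat_lit 4433, nat_lit 2489, nat_lit 3029, nat_lit 2957, nat_lit 2981, nat_lit 2977] (nat_lit 1) [nat_lit 5161] false,
   Spec.mk (nat_lit 2977) (nat_lit 0) [nat_lit 1519, nat_lit 4435, nat_lit 2491, nat_lit 3031, nat_lit 2959, nat_lit 2983, nat_lit 2975] (nat_lit 2) [nat_lit 5163, nat_lit 791] false,
   Spec.mk (nat_lit 2981) (nat_lit 0) [nat_lit 1523, nat_lit 4439, nat_lit 2495, nat_lit 3035, nat_lit 2963, nat_lit 2975, nat_lit 2983] (nat_lit 1) [nat_lit 5167] false,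
   Spec.mk (nat_lit 2983) (nat_lit 0) [nat_lit 1525, nat_lit 4441, nat_lit 2497, nat_lit 3037, nat_lit 2965, nat_lit 2977, nat_lit 2989, nat_lit 2981, nat_lit 2985] (nat_lit 0) [nat_lit 5169, nat_lit 797] false,
   Spec.mk (nat_lit 2985) (nat_lit 0) [nat_lit 1527, nat_lit 4443, nat_lit 2499, nat_lit 3039, nat_lit 2967, nat_lit 2991, nat_lit 2983] (nat_lit 1) [nat_lit 799] false,
   Spec.mk (nat_lit 2989) (nat_lit 0) [nat_lit 1531, nat_lit 4447, nat_lit 2503, nat_lit 3043, nat_lit 2983, nat_lit 2991] (nat_lit 0) [nat_lit 5175, nat_lit 803] false,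
   Spec.mk (nat_lit 2991) (nat_lit 1) [nat_lit 1533, nat_lit 4449, nat_lit 2505, nat_lit 3045, nat_lit 2985, nat_lit 2989] (nat_lit 0) [nat_lit 805] false,
   Spec.mk (nat_lit 3005) (nat_lit 1) [nat_lit 1547, nat_lit 4463, nat_lit 2519, nat_lit 3167, nat_lit 2951, nat_lit 3011] (nat_lit 0) [nat_lit 5191] false,
   Spec.mk (nat_lit 3011) (nat_lit 0) [nat_lit 1553, nat_lit 4469, nat_lit 2525, nat_lit 3173, nat_lit 2957, nat_lit 3029, nat_lit 3005, nat_lit 3017, nat_lit 3013] (nat_lit 0) [nat_lit 5197] false,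
   Spec.mk (nat_lit 3013) (nat_lit 0) [nat_lit 1555, nat_lit 4471, nat_lit 2527, nat_lit 3175, nat_lit 2959, nat_lit 3031, nat_lit 3019, nat_lit 3011] (nat_lit 0) [nat_lit 5199, nat_lit 827] false,
   Spec.mk (nat_lit 3017) (nat_lit 0) [nat_lit 1559, nat_lit 4475, nat_lit 2531, nat_lit 3179, nat_lit 2963, nat_lit 3035, nat_lit 3011, nat_lit 3019] (nat_lit 3) [nat_lit 5203] false,
   Spec.mk (nat_lit 3019) (nat_lit 0) [nat_lit 1561, nat_lit 4477, nat_lit 2533, nat_lit 3181, nat_lit 2965, nat_lit 3037, nat_lit 3013, nat_lit 3017, nat_lit 3021] (nat_lit 1) [nat_lit 5205, nat_lit 833] false,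
   Spec.mk (nat_lit 3021) (nat_lit 0) [nat_lit 1563, nat_lit 4479, nat_lit 2535, nat_lit 3183, nat_lit 2967, nat_lit 3039, nat_lit 3019] (nat_lit 1) [nat_lit 835] false,
   Spec.mk (nat_lit 3029) (nat_lit 0) [nat_lit 1571, nat_lit 4487, nat_lit 2543, nat_lit 3191, nat_lit 2975, nat_lit 3083, nat_lit 3011, nat_lit 3035, nat_lit 3031] (nat_lit 0) [nat_lit 5215] false,
   Spec.mk (nat_lit 3031) (nat_lit 0) [nat_lit 1573, nat_lit 4489, nat_lit 2545, nat_lit 3193, nat_lit 2977, nat_lit 3085, nat_lit 3013, nat_lit 3037, nat_lit 3029] (nat_lit 1) [nat_lit 5217, nat_lit 845] false,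
   Spec.mk (nat_lit 3035) (nat_lit 0) [nat_lit 1577, nat_lit 4493, nat_lit 2549, nat_lit 3197, nat_lit 2981, nat_lit 3089, nat_lit 3017, nat_lit 3053, nat_lit 3029, nat_lit 3037] (nat_lit 1) [nat_lit 5221] false,
   Spec.mk (nat_lit 3037) (nat_lit 0) [nat_lit 1579, nat_lit 4495, nat_lit 2551, nat_lit 3199, nat_lit 2983, nat_lit 3091, nat_lit 3019, nat_lit 3055, nat_lit 3031, nat_lit 3043, nat_lit 3035, nat_lit 3039] (nat_lit 0) [nat_lit 5223, nat_lit 851] false,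
   Spec.mk (nat_lit 3039) (nat_lit 0) [nat_lit 1581, nat_lit 4497, nat_lit 2553, nat_lit 3201, nat_lit 2985, nat_lit 3093, nat_lit 3021, nat_lit 3057, nat_lit 3045, nat_lit 3037] (nat_lit 1) [nat_lit 853] false,
   Spec.mk (nat_lit 3043) (nat_lit 0) [nat_lit 1585, nat_lit 4501, nat_lit 2557, nat_lit 3205, nat_lit 2989, nat_lit 3097, nat_lit 3061, nat_lit 3037, nat_lit 3045] (nat_lit 1) [nat_lit 5229, nat_lit 857] false,
   Spec.mk (nat_lit 3045) (nat_lit 0) [nat_lit 1587, nat_lit 4503, nat_lit 2559, nat_lit 3207, nat_lit 2991, nat_lit 3099, nat_lit 3063, nat_lit 3039, nat_lit 3043] (nat_lit 0) [nat_lit 859] false,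
   Spec.mk (nat_lit 3053) (nat_lit 0) [nat_lit 1595, nat_lit 4511, nat_lit 2567, nat_lit 3215, nat_lit 3107, nat_lit 3035, nat_lit 3055] (nat_lit 1) [nat_lit 5239] false,
   Spec.mk (nat_lit 3055) (nat_lit 0) [nat_lit 1597, nat_lit 4513, nat_lit 2569, nat_lit 3217, nat_lit 3109, nat_lit 3037, nat_lit 3061, nat_lit 3053, nat_lit 3057] (nat_lit 1) [nat_lit 5241, nat_lit 869] false,
   Spec.mk (nat_lit 3057) (nat_lit 0) [nat_lit 1599, nat_lit 4515, nat_lit 2571, nat_lit 3219, nat_lit 3111, nat_lit 3039, nat_lit 3063, nat_lit 3055] (nat_lit 3) [nat_lit 871] false,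
   Spec.mk (nat_lit 3061) (nat_lit 0) [nat_lit 1603, nat_lit 4519, nat_lit 2575, nat_lit 3223, nat_lit 3115, nat_lit 3043, nat_lit 3055, nat_lit 3063] (nat_lit 0) [nat_lit 5247, nat_lit 875] false,
   Spec.mk (nat_lit 3063) (nat_lit 0) [nat_lit 1605, nat_lit 4521, nat_lit 2577, nat_lit 3225, nat_lit 3117, nat_lit 3045, nat_lit 3057, nat_lit 3069, nat_lit 3061] (nat_lit 0) [nat_lit 877] false,
   Spec.mk (nat_lit 3069) (nat_lit 1) [nat_lit 1611, nat_lit 4527, nat_lit 2583, nat_lit 3231, nat_lit 3123, nat_lit 3063] (nat_lit 0) [nat_lit 883] false,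
   Spec.mk (nat_lit 3083) (nat_lit 0) [nat_lit 1625, nat_lit 4541, nat_lit 2597, nat_lit 3245, nat_lit 3029, nat_lit 3089, nat_lit 3085] (nat_lit 1) [nat_lit 5269] false,
   Spec.mk (nat_lit 3085) (nat_lit 0) [nat_lit 1627, nat_lit 4543, nat_lit 2599, nat_lit 3247, nat_lit 3031, nat_lit 3091, nat_lit 3083] (nat_lit 2) [nat_lit 5271, nat_lit 899] false,
   Spec.mk (nat_lit 3089) (nat_lit 0) [nat_lit 1631, nat_lit 4547, nat_lit 2603, nat_lit 3251, nat_lit 3035, nat_lit 3107, nat_lit 3083, nat_lit 3091] (nat_lit 3) [nat_lit 5275] false,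
   Spec.mk (nat_lit 3091) (nat_lit 0) [nat_lit 1633, nat_lit 4549, nat_lit 2605, nat_lit 3253, nat_lit 3037, nat_lit 3109, nat_lit 3085, nat_lit 3097, nat_lit 3089, nat_lit 3093] (nat_lit 2) [nat_lit 5277, nat_lit 905] false,
   Spec.mk (nat_lit 3093) (nat_lit 0) [nat_lit 1635, nat_lit 4551, nat_lit 2607, nat_lit 3255, nat_lit 3039, nat_lit 3111, nat_lit 3099, nat_lit 3091] (nat_lit 3) [nat_lit 907] false,
   Spec.mk (nat_lit 3097) (nat_lit 0) [nat_lit 1639, nat_lit 4555, nat_lit 2611, nat_lit 3259, nat_lit 3043, nat_lit 3115, nat_lit 3091, nat_lit 3099] (nat_lit 4) [nat_lit 5283, nat_lit 911] false,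
   Spec.mk (nat_lit 3099) (nat_lit 0) [nat_lit 1641, nat_lit 4557, nat_lit 2613, nat_lit 3261, nat_lit 3045, nat_lit 3117, nat_lit 3093, nat_lit 3097] (nat_lit 3) [nat_lit 913] false,
   Spec.mk (nat_lit 3107) (nat_lit 0) [nat_lit 1649, nat_lit 4565, nat_lit 2621, nat_lit 3269, nat_lit 3053, nat_lit 3089, nat_lit 3109] (nat_lit 1) [nat_lit 5293] false,
   Spec.mk (nat_lit 3109) (nat_lit 0) [nat_lit 1651, nat_lit 4567, nat_lit 2623, nat_lit 3271, nat_lit 3055, nat_lit 3091, nat_lit 3115, nat_lit 3107, nat_lit 3111] (nat_lit 1) [nat_lit 5295, nat_lit 923] false,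
   Spec.mk (nat_lit 3111) (nat_lit 0) [nat_lit 1653, nat_lit 4569, nat_lit 2625, nat_lit 3273, nat_lit 3057, nat_lit 3093, nat_lit 3117, nat_lit 3109] (nat_lit 3) [nat_lit 925] false,
   Spec.mk (nat_lit 3115) (nat_lit 0) [nat_lit 1657, nat_lit 4573, nat_lit 2629, nat_lit 3277, nat_lit 3061, nat_lit 3097, nat_lit 3133, nat_lit 3109, nat_lit 3117] (nat_lit 1) [nat_lit 5301, nat_lit 929] false,
   Spec.mk (nat_lit 3117) (nat_lit 0) [nat_lit 1659, nat_lit 4575, nat_lit 2631, nat_lit 3279, nat_lit 3063, nat_lit 3099, nat_lit 3135, nat_lit 3111, nat_lit 3123, nat_lit 3115] (nat_lit 1) [nat_lit 931] false,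
   Spec.mk (nat_lit 3123) (nat_lit 0) [nat_lit 1665, nat_lit 4581, nat_lit 2637, nat_lit 3285, nat_lit 3069, nat_lit 3141, nat_lit 3117] (nat_lit 1) [nat_lit 937] false,
   Spec.mk (nat_lit 3133) (nat_lit 0) [nat_lit 1675, nat_lit 4591, nat_lit 2647, nat_lit 3295, nat_lit 3115, nat_lit 3135] (nat_lit 0) [nat_lit 5319, nat_lit 947] false,
   Spec.mk (nat_lit 3135) (nat_lit 0) [nat_lit 1677, nat_lit 4593, nat_lit 2649, nat_lit 3297, nat_lit 3117, nat_lit 3141, nat_lit 3133] (nat_lit 1) [nat_lit 949] false,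
   Spec.mk (nat_lit 3141) (nat_lit 1) [nat_lit 1683, nat_lit 4599, nat_lit 2655, nat_lit 3303, nat_lit 3123, nat_lit 3135] (nat_lit 0) [nat_lit 955] false,
   Spec.mk (nat_lit 3167) (nat_lit 2) [nat_lit 1709, nat_lit 4625, nat_lit 2681, nat_lit 3653, nat_lit 3005, nat_lit 3173] (nat_lit 0) [nat_lit 5353] false,
   Spec.mk (nat_lit 3173) (nat_lit 1) [nat_lit 1715, nat_lit 4631, nat_lit 2687, nat_lit 3659, nat_lit 3011, nat_lit 3191, nat_lit 3167, nat_lit 3179, nat_lit 3175] (nat_lit 0) [nat_lit 5359] false,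
   Spec.mk (nat_lit 3175) (nat_lit 1) [nat_lit 1717, nat_lit 4633, nat_lit 2689, nat_lit 3661, nat_lit 3013, nat_lit 3193, nat_lit 3181, nat_lit 3173] (nat_lit 0) [nat_lit 5361, nat_lit 989] false,
   Spec.mk (nat_lit 3179) (nat_lit 0) [nat_lit 1721, nat_lit 4637, nat_lit 2693, nat_lit 3665, nat_lit 3017, nat_lit 3197, nat_lit 3173, nat_lit 3181] (nat_lit 2) [nat_lit 5365] false,
   Spec.mk (nat_lit 3181) (nat_lit 0) [nat_lit 1723, nat_lit 4639, nat_lit 2695, nat_lit 3667, nat_lit 3019, nat_lit 3199, nat_lit 3175, nat_lit 3179, nat_lit 3183] (nat_lit 0) [nat_lit 5367, nat_lit 995] false,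
   Spec.mk (nat_lit 3183) (nat_lit 0) [nat_lit 1725, nat_lit 4641, nat_lit 2697, nat_lit 3669, nat_lit 3021, nat_lit 3201, nat_lit 3181] (nat_lit 0) [nat_lit 997] false,
   Spec.mk (nat_lit 3191) (nat_lit 0) [nat_lit 1733, nat_lit 4649, nat_lit 2705, nat_lit 3677, nat_lit 3029, nat_lit 3245, nat_lit 3173, nat_lit 3197, nat_lit 3193] (nat_lit 0) [nat_lit 5377] false,
   Spec.mk (nat_lit 3193) (nat_lit 0) [nat_lit 1735, nat_lit 4651, nat_lit 2707, nat_lit 3679, nat_lit 3031, nat_lit 3247, nat_lit 3175, nat_lit 3199, nat_lit 3191] (nat_lit 1) [nat_lit 5379, nat_lit 1007] false,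
   Spec.mk (nat_lit 3197) (nat_lit 0) [nat_lit 1739, nat_lit 4655, nat_lit 2711, nat_lit 3683, nat_lit 3035, nat_lit 3251, nat_lit 3179, nat_lit 3215, nat_lit 3191, nat_lit 3199] (nat_lit 1) [nat_lit 5383] false,
   Spec.mk (nat_lit 3199) (nat_lit 0) [nat_lit 1741, nat_lit 4657, nat_lit 2713, nat_lit 3685, nat_lit 3037, nat_lit 3253, nat_lit 3181, nat_lit 3217, nat_lit 3193, nat_lit 3205, nat_lit 3197, nat_lit 3201] (nat_lit 0) [nat_lit 5385, nat_lit 1013] false,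
   Spec.mk (nat_lit 3201) (nat_lit 0) [nat_lit 1743, nat_lit 4659, nat_lit 2715, nat_lit 3687, nat_lit 3039, nat_lit 3255, nat_lit 3183, nat_lit 3219, nat_lit 3207, nat_lit 3199] (nat_lit 1) [nat_lit 1015] false,
   Spec.mk (nat_lit 3205) (nat_lit 0) [nat_lit 1747, nat_lit 4663, nat_lit 2719, nat_lit 3691, nat_lit 3043, nat_lit 3259, nat_lit 3223, nat_lit 3199, nat_lit 3207] (nat_lit 1) [nat_lit 5391, nat_lit 1019] false,
   Spec.mk (nat_lit 3207) (nat_lit 0) [nat_lit 1749, nat_lit 4665, nat_lit 2721, nat_lit 3693, nat_lit 3045, nat_lit 3261, nat_lit 3225, nat_lit 3201, nat_lit 3205] (nat_lit 0) [nat_lit 1021] false,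
   Spec.mk (nat_lit 3215) (nat_lit 0) [nat_lit 1757, nat_lit 4673, nat_lit 2729, nat_lit 3701, nat_lit 3053, nat_lit 3269, nat_lit 3197, nat_lit 3217] (nat_lit 2) [nat_lit 5401] false,
   Spec.mk (nat_lit 3217) (nat_lit 0) [nat_lit 1759, nat_lit 4675, nat_lit 2731, nat_lit 3703, nat_lit 3055, nat_lit 3271, nat_lit 3199, nat_lit 3223, nat_lit 3215, nat_lit 3219] (nat_lit 2) [nat_lit 5403, nat_lit 1031] false]

noncomputable def sp10 : List Spec :=
  [Spec.mk (nat_lit 3219) (nat_lit 0) [nat_lit 1761, nat_lit 4677, nat_lit 2733, nat_lit 3705, nat_lit 3057, nat_lit 3273, nat_lit 3201, nat_lit 3225, nat_lit 3217] (nat_lit 4) [nat_lit 1033] false,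
   Spec.mk (nat_lit 3223) (nat_lit 0) [nat_lit 1765, nat_lit 4681, nat_lit 2737, nat_lit 3709, nat_lit 3061, nat_lit 3277, nat_lit 3205, nat_lit 3217, nat_lit 3225] (nat_lit 1) [nat_lit 5409, nat_lit 1037] false,
   Spec.mk (nat_lit 3225) (nat_lit 0) [nat_lit 1767, nat_lit 4683, nat_lit 2739, nat_lit 3711, nat_lit 3063, nat_lit 3279, nat_lit 3207, nat_lit 3219, nat_lit 3231, nat_lit 3223] (nat_lit 1) [nat_lit 1039] false,
   Spec.mk (nat_lit 3231) (nat_lit 0) [nat_lit 1773, nat_lit 4689, nat_lit 2745, nat_lit 3717, nat_lit 3069, nat_lit 3285, nat_lit 3225] (nat_lit 0) [nat_lit 1045] false,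
   Spec.mk (nat_lit 3245) (nat_lit 1) [nat_lit 1787, nat_lit 4703, nat_lit 2759, nat_lit 3731, nat_lit 3083, nat_lit 3407, nat_lit 3191, nat_lit 3251, nat_lit 3247] (nat_lit 0) [nat_lit 5431] false,
   Spec.mk (nat_lit 3247) (nat_lit 0) [nat_lit 1789, nat_lit 4705, nat_lit 2761, nat_lit 3733, nat_lit 3085, nat_lit 3409, nat_lit 3193, nat_lit 3253, nat_lit 3245] (nat_lit 0) [nat_lit 5433, nat_lit 1061] false,
   Spec.mk (nat_lit 3251) (nat_lit 0) [nat_lit 1793, nat_lit 4709, nat_lit 2765, nat_lit 3737, nat_lit 3089, nat_lit 3413, nat_lit 3197, nat_lit 3269, nat_lit 3245, nat_lit 3253] (nat_lit 1) [nat_lit 5437] false,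
   Spec.mk (nat_lit 3253) (nat_lit 0) [nat_lit 1795, nat_lit 4711, nat_lit 2767, nat_lit 3739, nat_lit 3091, nat_lit 3415, nat_lit 3199, nat_lit 3271, nat_lit 3247, nat_lit 3259, nat_lit 3251, nat_lit 3255] (nat_lit 0) [nat_lit 5439, nat_lit 1067] false,
   Spec.mk (nat_lit 3255) (nat_lit 0) [nat_lit 1797, nat_lit 4713, nat_lit 2769, nat_lit 3741, nat_lit 3093, nat_lit 3417, nat_lit 3201, nat_lit 3273, nat_lit 3261, nat_lit 3253] (nat_lit 1) [nat_lit 1069] false,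
   Spec.mk (nat_lit 3259) (nat_lit 0) [nat_lit 1801, nat_lit 4717, nat_lit 2773, nat_lit 3745, nat_lit 3097, nat_lit 3421, nat_lit 3205, nat_lit 3277, nat_lit 3253, nat_lit 3261] (nat_lit 2) [nat_lit 5445, nat_lit 1073] false,
   Spec.mk (nat_lit 3261) (nat_lit 0) [nat_lit 1803, nat_lit 4719, nat_lit 2775, nat_lit 3747, nat_lit 3099, nat_lit 3423, nat_lit 3207, nat_lit 3279, nat_lit 3255, nat_lit 3259] (nat_lit 1) [nat_lit 1075] false,
   Spec.mk (nat_lit 3269) (nat_lit 0) [nat_lit 1811, nat_lit 4727, nat_lit 2783, nat_lit 3755, nat_lit 3107, nat_lit 3431, nat_lit 3215, nat_lit 3323, nat_lit 3251, nat_lit 3271] (nat_lit 0) [nat_lit 5455] false,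
   Spec.mk (nat_lit 3271) (nat_lit 0) [nat_lit 1813, nat_lit 4729, nat_lit 2785, nat_lit 3757, nat_lit 3109, nat_lit 3433, nat_lit 3217, nat_lit 3325, nat_lit 3253, nat_lit 3277, nat_lit 3269, nat_lit 3273] (nat_lit 0) [nat_lit 5457, nat_lit 1085] false,
   Spec.mk (nat_lit 3273) (nat_lit 0) [nat_lit 1815, nat_lit 4731, nat_lit 2787, nat_lit 3759, nat_lit 3111, nat_lit 3435, nat_lit 3219, nat_lit 3327, nat_lit 3255, nat_lit 3279, nat_lit 3271] (nat_lit 2) [nat_lit 1087] false,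
   Spec.mk (nat_lit 3277) (nat_lit 0) [nat_lit 1819, nat_lit 4735, nat_lit 2791, nat_lit 3763, nat_lit 3115, nat_lit 3439, nat_lit 3223, nat_lit 3331, nat_lit 3259, nat_lit 3295, nat_lit 3271, nat_lit 3279] (nat_lit 0) [nat_lit 5463, nat_lit 1091] false,
   Spec.mk (nat_lit 3279) (nat_lit 0) [nat_lit 1821, nat_lit 4737, nat_lit 2793, nat_lit 3765, nat_lit 3117, nat_lit 3441, nat_lit 3225, nat_lit 3333, nat_lit 3261, nat_lit 3297, nat_lit 3273, nat_lit 3285, nat_lit 3277] (nat_lit 0) [nat_lit 1093] false,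
   Spec.mk (nat_lit 3285) (nat_lit 0) [nat_lit 1827, nat_lit 4743, nat_lit 2799, nat_lit 3771, nat_lit 3123, nat_lit 3447, nat_lit 3231, nat_lit 3339, nat_lit 3303, nat_lit 3279] (nat_lit 0) [nat_lit 1099] false,
   Spec.mk (nat_lit 3295) (nat_lit 0) [nat_lit 1837, nat_lit 4753, nat_lit 2809, nat_lit 3781, nat_lit 3133, nat_lit 3457, nat_lit 3349, nat_lit 3277, nat_lit 3297] (nat_lit 0) [nat_lit 5481, nat_lit 1109] false,
   Spec.mk (nat_lit 3297) (nat_lit 0) [nat_lit 1839, nat_lit 4755, nat_lit 2811, nat_lit 3783, nat_lit 3135, nat_lit 3459, nat_lit 3351, nat_lit 3279, nat_lit 3303, nat_lit 3295] (nat_lit 1) [nat_lit 1111] false,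
   Spec.mk (nat_lit 3303) (nat_lit 1) [nat_lit 1845, nat_lit 4761, nat_lit 2817, nat_lit 3789, nat_lit 3141, nat_lit 3465, nat_lit 3357, nat_lit 3285, nat_lit 3297] (nat_lit 0) [nat_lit 1117] false,
   Spec.mk (nat_lit 3323) (nat_lit 0) [nat_lit 1865, nat_lit 4781, nat_lit 2837, nat_lit 3809, nat_lit 3485, nat_lit 3269, nat_lit 3325] (nat_lit 0) [nat_lit 5509] false,
   Spec.mk (nat_lit 3325) (nat_lit 0) [nat_lit 1867, nat_lit 4783, nat_lit 2839, nat_lit 3811, nat_lit 3487, nat_lit 3271, nat_lit 3331, nat_lit 3323, nat_lit 3327] (nat_lit 0) [nat_lit 5511, nat_lit 1139] false,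
   Spec.mk (nat_lit 3327) (nat_lit 0) [nat_lit 1869, nat_lit 4785, nat_lit 2841, nat_lit 3813, nat_lit 3489, nat_lit 3273, nat_lit 3333, nat_lit 3325] (nat_lit 2) [nat_lit 1141] false,
   Spec.mk (nat_lit 3331) (nat_lit 0) [nat_lit 1873, nat_lit 4789, nat_lit 2845, nat_lit 3817, nat_lit 3493, nat_lit 3277, nat_lit 3349, nat_lit 3325, nat_lit 3333] (nat_lit 1) [nat_lit 5517, nat_lit 1145] false,
   Spec.mk (nat_lit 3333) (nat_lit 0) [nat_lit 1875, nat_lit 4791, nat_lit 2847, nat_lit 3819, nat_lit 3495, nat_lit 3279, nat_lit 3351, nat_lit 3327, nat_lit 3339, nat_lit 3331] (nat_lit 1) [nat_lit 1147] false,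
   Spec.mk (nat_lit 3339) (nat_lit 0) [nat_lit 1881, nat_lit 4797, nat_lit 2853, nat_lit 3825, nat_lit 3501, nat_lit 3285, nat_lit 3357, nat_lit 3333] (nat_lit 2) [nat_lit 1153] false,
   Spec.mk (nat_lit 3349) (nat_lit 1) [nat_lit 1891, nat_lit 4807, nat_lit 2863, nat_lit 3835, nat_lit 3511, nat_lit 3295, nat_lit 3331, nat_lit 3351] (nat_lit 0) [nat_lit 5535, nat_lit 1163] false,
   Spec.mk (nat_lit 3351) (nat_lit 0) [nat_lit 1893, nat_lit 4809, nat_lit 2865, nat_lit 3837, nat_lit 3513, nat_lit 3297, nat_lit 3333, nat_lit 3357, nat_lit 3349] (nat_lit 0) [nat_lit 1165] false,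
   Spec.mk (nat_lit 3357) (nat_lit 1) [nat_lit 1899, nat_lit 4815, nat_lit 2871, nat_lit 3843, nat_lit 3519, nat_lit 3303, nat_lit 3339, nat_lit 3375, nat_lit 3351] (nat_lit 0) [nat_lit 1171] false,
   Spec.mk (nat_lit 3375) (nat_lit 2) [nat_lit 1917, nat_lit 4833, nat_lit 2889, nat_lit 3861, nat_lit 3537, nat_lit 3357] (nat_lit 0) [nat_lit 1189] false,
   Spec.mk (nat_lit 3407) (nat_lit 1) [nat_lit 1949, nat_lit 4865, nat_lit 3893, nat_lit 3245, nat_lit 3413, nat_lit 3409] (nat_lit 0) [nat_lit 5593] false,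
   Spec.mk (nat_lit 3409) (nat_lit 0) [nat_lit 1951, nat_lit 4867, nat_lit 3895, nat_lit 3247, nat_lit 3415, nat_lit 3407] (nat_lit 0) [nat_lit 5595, nat_lit 1223] false,
   Spec.mk (nat_lit 3413) (nat_lit 0) [nat_lit 1955, nat_lit 4871, nat_lit 3899, nat_lit 3251, nat_lit 3431, nat_lit 3407, nat_lit 3415] (nat_lit 1) [nat_lit 5599] false,
   Spec.mk (nat_lit 3415) (nat_lit 0) [nat_lit 1957, nat_lit 4873, nat_lit 3901, nat_lit 3253, nat_lit 3433, nat_lit 3409, nat_lit 3421, nat_lit 3413, nat_lit 3417] (nat_lit 0) [nat_lit 5601, nat_lit 1229] false,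
   Spec.mk (nat_lit 3417) (nat_lit 0) [nat_lit 1959, nat_lit 4875, nat_lit 3903, nat_lit 3255, nat_lit 3435, nat_lit 3423, nat_lit 3415] (nat_lit 1) [nat_lit 1231] false,
   Spec.mk (nat_lit 3421) (nat_lit 0) [nat_lit 1963, nat_lit 4879, nat_lit 3907, nat_lit 3259, nat_lit 3439, nat_lit 3415, nat_lit 3423] (nat_lit 2) [nat_lit 5607, nat_lit 1235] false,
   Spec.mk (nat_lit 3423) (nat_lit 0) [nat_lit 1965, nat_lit 4881, nat_lit 3909, nat_lit 3261, nat_lit 3441, nat_lit 3417, nat_lit 3421] (nat_lit 1) [nat_lit 1237] false,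
   Spec.mk (nat_lit 3431) (nat_lit 0) [nat_lit 1973, nat_lit 4889, nat_lit 3917, nat_lit 3269, nat_lit 3485, nat_lit 3413, nat_lit 3433] (nat_lit 1) [nat_lit 5617] false,
   Spec.mk (nat_lit 3433) (nat_lit 0) [nat_lit 1975, nat_lit 4891, nat_lit 3919, nat_lit 3271, nat_lit 3487, nat_lit 3415, nat_lit 3439, nat_lit 3431, nat_lit 3435] (nat_lit 1) [nat_lit 5619, nat_lit 1247] false,
   Spec.mk (nat_lit 3435) (nat_lit 0) [nat_lit 1977, nat_lit 4893, nat_lit 3921, nat_lit 3273, nat_lit 3489, nat_lit 3417, nat_lit 3441, nat_lit 3433] (nat_lit 3) [nat_lit 1249] false,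
   Spec.mk (nat_lit 3439) (nat_lit 0) [nat_lit 1981, nat_lit 4897, nat_lit 3925, nat_lit 3277, nat_lit 3493, nat_lit 3421, nat_lit 3457, nat_lit 3433, nat_lit 3441] (nat_lit 1) [nat_lit 5625, nat_lit 1253] false,
   Spec.mk (nat_lit 3441) (nat_lit 0) [nat_lit 1983, nat_lit 4899, nat_lit 3927, nat_lit 3279, nat_lit 3495, nat_lit 3423, nat_lit 3459, nat_lit 3435, nat_lit 3447, nat_lit 3439] (nat_lit 1) [nat_lit 1255] false,
   Spec.mk (nat_lit 3447) (nat_lit 0) [nat_lit 1989, nat_lit 4905, nat_lit 3933, nat_lit 3285, nat_lit 3501, nat_lit 3465, nat_lit 3441] (nat_lit 1) [nat_lit 1261] false,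
   Spec.mk (nat_lit 3457) (nat_lit 0) [nat_lit 1999, nat_lit 4915, nat_lit 3943, nat_lit 3295, nat_lit 3511, nat_lit 3439, nat_lit 3459] (nat_lit 2) [nat_lit 5643, nat_lit 1271] false,
   Spec.mk (nat_lit 3459) (nat_lit 0) [nat_lit 2001, nat_lit 4917, nat_lit 3945, nat_lit 3297, nat_lit 3513, nat_lit 3441, nat_lit 3465, nat_lit 3457] (nat_lit 3) [nat_lit 1273] false,
   Spec.mk (nat_lit 3465) (nat_lit 0) [nat_lit 2007, nat_lit 4923, nat_lit 3951, nat_lit 3303, nat_lit 3519, nat_lit 3447, nat_lit 3459] (nat_lit 1) [nat_lit 1279] false,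
   Spec.mk (nat_lit 3485) (nat_lit 1) [nat_lit 2027, nat_lit 4943, nat_lit 3971, nat_lit 3323, nat_lit 3431, nat_lit 3487] (nat_lit 0) [nat_lit 5671] false,
   Spec.mk (nat_lit 3487) (nat_lit 1) [nat_lit 2029, nat_lit 4945, nat_lit 3973, nat_lit 3325, nat_lit 3433, nat_lit 3493, nat_lit 3485, nat_lit 3489] (nat_lit 0) [nat_lit 5673, nat_lit 1301] false,
   Spec.mk (nat_lit 3489) (nat_lit 0) [nat_lit 2031, nat_lit 4947, nat_lit 3975, nat_lit 3327, nat_lit 3435, nat_lit 3495, nat_lit 3487] (nat_lit 1) [nat_lit 1303] false,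
   Spec.mk (nat_lit 3493) (nat_lit 0) [nat_lit 2035, nat_lit 4951, nat_lit 3979, nat_lit 3331, nat_lit 3439, nat_lit 3511, nat_lit 3487, nat_lit 3495] (nat_lit 0) [nat_lit 5679, nat_lit 1307] false,
   Spec.mk (nat_lit 3495) (nat_lit 0) [nat_lit 2037, nat_lit 4953, nat_lit 3981, nat_lit 3333, nat_lit 3441, nat_lit 3513, nat_lit 3489, nat_lit 3501, nat_lit 3493] (nat_lit 0) [nat_lit 1309] false,
   Spec.mk (nat_lit 3501) (nat_lit 0) [nat_lit 2043, nat_lit 4959, nat_lit 3987, nat_lit 3339, nat_lit 3447, nat_lit 3519, nat_lit 3495] (nat_lit 1) [nat_lit 1315] false,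
   Spec.mk (nat_lit 3511) (nat_lit 1) [nat_lit 2053, nat_lit 4969, nat_lit 3997, nat_lit 3349, nat_lit 3457, nat_lit 3565, nat_lit 3493, nat_lit 3513] (nat_lit 0) [nat_lit 5697, nat_lit 1325] false,
   Spec.mk (nat_lit 3513) (nat_lit 0) [nat_lit 2055, nat_lit 4971, nat_lit 3999, nat_lit 3351, nat_lit 3459, nat_lit 3567, nat_lit 3495, nat_lit 3519, nat_lit 3511] (nat_lit 0) [nat_lit 1327] false,
   Spec.mk (nat_lit 3519) (nat_lit 1) [nat_lit 2061, nat_lit 4977, nat_lit 4005, nat_lit 3357, nat_lit 3465, nat_lit 3573, nat_lit 3501, nat_lit 3537, nat_lit 3513] (nat_lit 0) [nat_lit 1333] false,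
   Spec.mk (nat_lit 3537) (nat_lit 1) [nat_lit 2079, nat_lit 4995, nat_lit 4023, nat_lit 3375, nat_lit 3591, nat_lit 3519] (nat_lit 0) [nat_lit 1351] false,
   Spec.mk (nat_lit 3565) (nat_lit 2) [nat_lit 2107, nat_lit 5023, nat_lit 4051, nat_lit 3511, nat_lit 3567] (nat_lit 0) [nat_lit 5751, nat_lit 1379] false,
   Spec.mk (nat_lit 3567) (nat_lit 1) [nat_lit 2109, nat_lit 5025, nat_lit 4053, nat_lit 3513, nat_lit 3573, nat_lit 3565] (nat_lit 0) [nat_lit 1381] false,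
   Spec.mk (nat_lit 3573) (nat_lit 1) [nat_lit 2115, nat_lit 5031, nat_lit 4059, nat_lit 3519, nat_lit 3591, nat_lit 3567] (nat_lit 0) [nat_lit 1387] false,
   Spec.mk (nat_lit 3591) (nat_lit 3) [nat_lit 2133, nat_lit 5049, nat_lit 4077, nat_lit 3537, nat_lit 3573] (nat_lit 0) [nat_lit 1405] false]

noncomputable def sp11 : List Spec :=
  [Spec.mk (nat_lit 3653) (nat_lit 2) [nat_lit 5111, nat_lit 3167, nat_lit 3659] (nat_lit 0) [nat_lit 5839] false,
   Spec.mk (nat_lit 3659) (nat_lit 1) [nat_lit 5117, nat_lit 3173, nat_lit 3677, nat_lit 3653, nat_lit 3665, nat_lit 3661] (nat_lit 0) [nat_lit 5845] false,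
   Spec.mk (nat_lit 3661) (nat_lit 1) [nat_lit 5119, nat_lit 3175, nat_lit 3679, nat_lit 3667, nat_lit 3659] (nat_lit 0) [nat_lit 5847, nat_lit 1475] false,
   Spec.mk (nat_lit 3665) (nat_lit 0) [nat_lit 5123, nat_lit 3179, nat_lit 3683, nat_lit 3659, nat_lit 3667] (nat_lit 2) [nat_lit 5851] false,
   Spec.mk (nat_lit 3667) (nat_lit 0) [nat_lit 5125, nat_lit 3181, nat_lit 3685, nat_lit 3661, nat_lit 3665, nat_lit 3669] (nat_lit 0) [nat_lit 5853, nat_lit 1481] false,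
   Spec.mk (nat_lit 3669) (nat_lit 0) [nat_lit 5127, nat_lit 3183, nat_lit 3687, nat_lit 3667] (nat_lit 0) [nat_lit 1483] false,
   Spec.mk (nat_lit 3677) (nat_lit 0) [nat_lit 5135, nat_lit 3191, nat_lit 3731, nat_lit 3659, nat_lit 3683, nat_lit 3679] (nat_lit 0) [nat_lit 5863] false,
   Spec.mk (nat_lit 3679) (nat_lit 0) [nat_lit 5137, nat_lit 3193, nat_lit 3733, nat_lit 3661, nat_lit 3685, nat_lit 3677] (nat_lit 1) [nat_lit 5865, nat_lit 1493] false,
   Spec.mk (nat_lit 3683) (nat_lit 0) [nat_lit 5141, nat_lit 3197, nat_lit 3737, nat_lit 3665, nat_lit 3701, nat_lit 3677, nat_lit 3685] (nat_lit 1) [nat_lit 5869] false,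
   Spec.mk (nat_lit 3685) (nat_lit 0) [nat_lit 5143, nat_lit 3199, nat_lit 3739, nat_lit 3667, nat_lit 3703, nat_lit 3679, nat_lit 3691, nat_lit 3683, nat_lit 3687] (nat_lit 0) [nat_lit 5871, nat_lit 1499] false,
   Spec.mk (nat_lit 3687) (nat_lit 0) [nat_lit 5145, nat_lit 3201, nat_lit 3741, nat_lit 3669, nat_lit 3705, nat_lit 3693, nat_lit 3685] (nat_lit 1) [nat_lit 1501] false,
   Spec.mk (nat_lit 3691) (nat_lit 0) [nat_lit 5149, nat_lit 3205, nat_lit 3745, nat_lit 3709, nat_lit 3685, nat_lit 3693] (nat_lit 1) [nat_lit 5877, nat_lit 1505] false,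
   Spec.mk (nat_lit 3693) (nat_lit 0) [nat_lit 5151, nat_lit 3207, nat_lit 3747, nat_lit 3711, nat_lit 3687, nat_lit 3691] (nat_lit 0) [nat_lit 1507] false,
   Spec.mk (nat_lit 3701) (nat_lit 0) [nat_lit 5159, nat_lit 3215, nat_lit 3755, nat_lit 3683, nat_lit 3703] (nat_lit 2) [nat_lit 5887] false,
   Spec.mk (nat_lit 3703) (nat_lit 0) [nat_lit 5161, nat_lit 3217, nat_lit 3757, nat_lit 3685, nat_lit 3709, nat_lit 3701, nat_lit 3705] (nat_lit 2) [nat_lit 5889, nat_lit 1517] false,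
   Spec.mk (nat_lit 3705) (nat_lit 0) [nat_lit 5163, nat_lit 3219, nat_lit 3759, nat_lit 3687, nat_lit 3711, nat_lit 3703] (nat_lit 4) [nat_lit 1519] false,
   Spec.mk (nat_lit 3709) (nat_lit 0) [nat_lit 5167, nat_lit 3223, nat_lit 3763, nat_lit 3691, nat_lit 3703, nat_lit 3711] (nat_lit 1) [nat_lit 5895, nat_lit 1523] false,
   Spec.mk (nat_lit 3711) (nat_lit 0) [nat_lit 5169, nat_lit 3225, nat_lit 3765, nat_lit 3693, nat_lit 3705, nat_lit 3717, nat_lit 3709] (nat_lit 1) [nat_lit 1525] false,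
   Spec.mk (nat_lit 3717) (nat_lit 0) [nat_lit 5175, nat_lit 3231, nat_lit 3771, nat_lit 3711] (nat_lit 0) [nat_lit 1531] false,
   Spec.mk (nat_lit 3731) (nat_lit 0) [nat_lit 5189, nat_lit 3245, nat_lit 3893, nat_lit 3677, nat_lit 3737, nat_lit 3733] (nat_lit 0) [nat_lit 5917] false,
   Spec.mk (nat_lit 3733) (nat_lit 0) [nat_lit 5191, nat_lit 3247, nat_lit 3895, nat_lit 3679, nat_lit 3739, nat_lit 3731] (nat_lit 1) [nat_lit 5919, nat_lit 1547] false,
   Spec.mk (nat_lit 3737) (nat_lit 0) [nat_lit 5195, nat_lit 3251, nat_lit 3899, nat_lit 3683, nat_lit 3755, nat_lit 3731, nat_lit 3739] (nat_lit 2) [nat_lit 5923] false,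
   Spec.mk (nat_lit 3739) (nat_lit 0) [nat_lit 5197, nat_lit 3253, nat_lit 3901, nat_lit 3685, nat_lit 3757, nat_lit 3733, nat_lit 3745, nat_lit 3737, nat_lit 3741] (nat_lit 1) [nat_lit 5925, nat_lit 1553] false,
   Spec.mk (nat_lit 3741) (nat_lit 0) [nat_lit 5199, nat_lit 3255, nat_lit 3903, nat_lit 3687, nat_lit 3759, nat_lit 3747, nat_lit 3739] (nat_lit 2) [nat_lit 1555] false,
   Spec.mk (nat_lit 3745) (nat_lit 0) [nat_lit 5203, nat_lit 3259, nat_lit 3907, nat_lit 3691, nat_lit 3763, nat_lit 3739, nat_lit 3747] (nat_lit 3) [nat_lit 5931, nat_lit 1559] false,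
   Spec.mk (nat_lit 3747) (nat_lit 0) [nat_lit 5205, nat_lit 3261, nat_lit 3909, nat_lit 3693, nat_lit 3765, nat_lit 3741, nat_lit 3745] (nat_lit 2) [nat_lit 1561] false,
   Spec.mk (nat_lit 3755) (nat_lit 0) [nat_lit 5213, nat_lit 3269, nat_lit 3917, nat_lit 3701, nat_lit 3809, nat_lit 3737, nat_lit 3757] (nat_lit 1) [nat_lit 5941] false,
   Spec.mk (nat_lit 3757) (nat_lit 0) [nat_lit 5215, nat_lit 3271, nat_lit 3919, nat_lit 3703, nat_lit 3811, nat_lit 3739, nat_lit 3763, nat_lit 3755, nat_lit 3759] (nat_lit 1) [nat_lit 5943, nat_lit 1571] false,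
   Spec.mk (nat_lit 3759) (nat_lit 0) [nat_lit 5217, nat_lit 3273, nat_lit 3921, nat_lit 3705, nat_lit 3813, nat_lit 3741, nat_lit 3765, nat_lit 3757] (nat_lit 3) [nat_lit 1573] false,
   Spec.mk (nat_lit 3763) (nat_lit 0) [nat_lit 5221, nat_lit 3277, nat_lit 3925, nat_lit 3709, nat_lit 3817, nat_lit 3745, nat_lit 3781, nat_lit 3757, nat_lit 3765] (nat_lit 1) [nat_lit 5949, nat_lit 1577] false,
   Spec.mk (nat_lit 3765) (nat_lit 0) [nat_lit 5223, nat_lit 3279, nat_lit 3927, nat_lit 3711, nat_lit 3819, nat_lit 3747, nat_lit 3783, nat_lit 3759, nat_lit 3771, nat_lit 3763] (nat_lit 1) [nat_lit 1579] false,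
   Spec.mk (nat_lit 3771) (nat_lit 0) [nat_lit 5229, nat_lit 3285, nat_lit 3933, nat_lit 3717, nat_lit 3825, nat_lit 3789, nat_lit 3765] (nat_lit 1) [nat_lit 1585] false,
   Spec.mk (nat_lit 3781) (nat_lit 0) [nat_lit 5239, nat_lit 3295, nat_lit 3943, nat_lit 3835, nat_lit 3763, nat_lit 3783] (nat_lit 1) [nat_lit 5967, nat_lit 1595] false,
   Spec.mk (nat_lit 3783) (nat_lit 0) [nat_lit 5241, nat_lit 3297, nat_lit 3945, nat_lit 3837, nat_lit 3765, nat_lit 3789, nat_lit 3781] (nat_lit 2) [nat_lit 1597] false,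
   Spec.mk (nat_lit 3789) (nat_lit 0) [nat_lit 5247, nat_lit 3303, nat_lit 3951, nat_lit 3843, nat_lit 3771, nat_lit 3783] (nat_lit 0) [nat_lit 1603] false,
   Spec.mk (nat_lit 3809) (nat_lit 0) [nat_lit 5267, nat_lit 3323, nat_lit 3971, nat_lit 3755, nat_lit 3811] (nat_lit 2) [nat_lit 5995] false,
   Spec.mk (nat_lit 3811) (nat_lit 0) [nat_lit 5269, nat_lit 3325, nat_lit 3973, nat_lit 3757, nat_lit 3817, nat_lit 3809, nat_lit 3813] (nat_lit 2) [nat_lit 5997, nat_lit 1625] false,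
   Spec.mk (nat_lit 3813) (nat_lit 0) [nat_lit 5271, nat_lit 3327, nat_lit 3975, nat_lit 3759, nat_lit 3819, nat_lit 3811] (nat_lit 4) [nat_lit 1627] false,
   Spec.mk (nat_lit 3817) (nat_lit 0) [nat_lit 5275, nat_lit 3331, nat_lit 3979, nat_lit 3763, nat_lit 3835, nat_lit 3811, nat_lit 3819] (nat_lit 3) [nat_lit 6003, nat_lit 1631] false,
   Spec.mk (nat_lit 3819) (nat_lit 0) [nat_lit 5277, nat_lit 3333, nat_lit 3981, nat_lit 3765, nat_lit 3837, nat_lit 3813, nat_lit 3825, nat_lit 3817] (nat_lit 3) [nat_lit 1633] false,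
   Spec.mk (nat_lit 3825) (nat_lit 0) [nat_lit 5283, nat_lit 3339, nat_lit 3987, nat_lit 3771, nat_lit 3843, nat_lit 3819] (nat_lit 4) [nat_lit 1639] false,
   Spec.mk (nat_lit 3835) (nat_lit 0) [nat_lit 5293, nat_lit 3349, nat_lit 3997, nat_lit 3781, nat_lit 3817, nat_lit 3837] (nat_lit 1) [nat_lit 6021, nat_lit 1649] false,
   Spec.mk (nat_lit 3837) (nat_lit 0) [nat_lit 5295, nat_lit 3351, nat_lit 3999, nat_lit 3783, nat_lit 3819, nat_lit 3843, nat_lit 3835] (nat_lit 2) [nat_lit 1651] false,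
   Spec.mk (nat_lit 3843) (nat_lit 0) [nat_lit 5301, nat_lit 3357, nat_lit 4005, nat_lit 3789, nat_lit 3825, nat_lit 3861, nat_lit 3837] (nat_lit 1) [nat_lit 1657] false,
   Spec.mk (nat_lit 3861) (nat_lit 0) [nat_lit 5319, nat_lit 3375, nat_lit 4023, nat_lit 3843] (nat_lit 0) [nat_lit 1675] false,
   Spec.mk (nat_lit 3893) (nat_lit 2) [nat_lit 5351, nat_lit 3407, nat_lit 3731, nat_lit 3899, nat_lit 3895] (nat_lit 0) [nat_lit 6079] false,
   Spec.mk (nat_lit 3895) (nat_lit 1) [nat_lit 5353, nat_lit 3409, nat_lit 3733, nat_lit 3901, nat_lit 3893] (nat_lit 0) [nat_lit 6081, nat_lit 1709] false,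
   Spec.mk (nat_lit 3899) (nat_lit 0) [nat_lit 5357, nat_lit 3413, nat_lit 3737, nat_lit 3917, nat_lit 3893, nat_lit 3901] (nat_lit 0) [nat_lit 6085] false,
   Spec.mk (nat_lit 3901) (nat_lit 1) [nat_lit 5359, nat_lit 3415, nat_lit 3739, nat_lit 3919, nat_lit 3895, nat_lit 3907, nat_lit 3899, nat_lit 3903] (nat_lit 0) [nat_lit 6087, nat_lit 1715] false,
   Spec.mk (nat_lit 3903) (nat_lit 0) [nat_lit 5361, nat_lit 3417, nat_lit 3741, nat_lit 3921, nat_lit 3909, nat_lit 3901] (nat_lit 0) [nat_lit 1717] false,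
   Spec.mk (nat_lit 3907) (nat_lit 0) [nat_lit 5365, nat_lit 3421, nat_lit 3745, nat_lit 3925, nat_lit 3901, nat_lit 3909] (nat_lit 1) [nat_lit 6093, nat_lit 1721] false,
   Spec.mk (nat_lit 3909) (nat_lit 0) [nat_lit 5367, nat_lit 3423, nat_lit 3747, nat_lit 3927, nat_lit 3903, nat_lit 3907] (nat_lit 0) [nat_lit 1723] false,
   Spec.mk (nat_lit 3917) (nat_lit 0) [nat_lit 5375, nat_lit 3431, nat_lit 3755, nat_lit 3971, nat_lit 3899, nat_lit 3919] (nat_lit 0) [nat_lit 6103] false,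
   Spec.mk (nat_lit 3919) (nat_lit 0) [nat_lit 5377, nat_lit 3433, nat_lit 3757, nat_lit 3973, nat_lit 3901, nat_lit 3925, nat_lit 3917, nat_lit 3921] (nat_lit 0) [nat_lit 6105, nat_lit 1733] false,
   Spec.mk (nat_lit 3921) (nat_lit 0) [nat_lit 5379, nat_lit 3435, nat_lit 3759, nat_lit 3975, nat_lit 3903, nat_lit 3927, nat_lit 3919] (nat_lit 2) [nat_lit 1735] false,
   Spec.mk (nat_lit 3925) (nat_lit 0) [nat_lit 5383, nat_lit 3439, nat_lit 3763, nat_lit 3979, nat_lit 3907, nat_lit 3943, nat_lit 3919, nat_lit 3927] (nat_lit 0) [nat_lit 6111, nat_lit 1739] false,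
   Spec.mk (nat_lit 3927) (nat_lit 0) [nat_lit 5385, nat_lit 3441, nat_lit 3765, nat_lit 3981, nat_lit 3909, nat_lit 3945, nat_lit 3921, nat_lit 3933, nat_lit 3925] (nat_lit 0) [nat_lit 1741] false,
   Spec.mk (nat_lit 3933) (nat_lit 0) [nat_lit 5391, nat_lit 3447, nat_lit 3771, nat_lit 3987, nat_lit 3951, nat_lit 3927] (nat_lit 0) [nat_lit 1747] false,
   Spec.mk (nat_lit 3943) (nat_lit 0) [nat_lit 5401, nat_lit 3457, nat_lit 3781, nat_lit 3997, nat_lit 3925, nat_lit 3945] (nat_lit 1) [nat_lit 6129, nat_lit 1757] false,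
   Spec.mk (nat_lit 3945) (nat_lit 0) [nat_lit 5403, nat_lit 3459, nat_lit 3783, nat_lit 3999, nat_lit 3927, nat_lit 3951, nat_lit 3943] (nat_lit 2) [nat_lit 1759] false]

noncomputable def sp12 : List Spec :=
  [Spec.mk (nat_lit 3951) (nat_lit 0) [nat_lit 5409, nat_lit 3465, nat_lit 3789, nat_lit 4005, nat_lit 3933, nat_lit 3945] (nat_lit 0) [nat_lit 1765] false,
   Spec.mk (nat_lit 3971) (nat_lit 1) [nat_lit 5429, nat_lit 3485, nat_lit 3809, nat_lit 4133, nat_lit 3917, nat_lit 3973] (nat_lit 0) [nat_lit 6157] false,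
   Spec.mk (nat_lit 3973) (nat_lit 1) [nat_lit 5431, nat_lit 3487, nat_lit 3811, nat_lit 4135, nat_lit 3919, nat_lit 3979, nat_lit 3971, nat_lit 3975] (nat_lit 0) [nat_lit 6159, nat_lit 1787] false,
   Spec.mk (nat_lit 3975) (nat_lit 0) [nat_lit 5433, nat_lit 3489, nat_lit 3813, nat_lit 4137, nat_lit 3921, nat_lit 3981, nat_lit 3973] (nat_lit 1) [nat_lit 1789] false,
   Spec.mk (nat_lit 3979) (nat_lit 0) [nat_lit 5437, nat_lit 3493, nat_lit 3817, nat_lit 4141, nat_lit 3925, nat_lit 3997, nat_lit 3973, nat_lit 3981] (nat_lit 0) [nat_lit 6165, nat_lit 1793] false,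
   Spec.mk (nat_lit 3981) (nat_lit 0) [nat_lit 5439, nat_lit 3495, nat_lit 3819, nat_lit 4143, nat_lit 3927, nat_lit 3999, nat_lit 3975, nat_lit 3987, nat_lit 3979] (nat_lit 0) [nat_lit 1795] false,
   Spec.mk (nat_lit 3987) (nat_lit 0) [nat_lit 5445, nat_lit 3501, nat_lit 3825, nat_lit 4149, nat_lit 3933, nat_lit 4005, nat_lit 3981] (nat_lit 1) [nat_lit 1801] false,
   Spec.mk (nat_lit 3997) (nat_lit 1) [nat_lit 5455, nat_lit 3511, nat_lit 3835, nat_lit 4159, nat_lit 3943, nat_lit 4051, nat_lit 3979, nat_lit 3999] (nat_lit 0) [nat_lit 6183, nat_lit 1811] false,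
   Spec.mk (nat_lit 3999) (nat_lit 0) [nat_lit 5457, nat_lit 3513, nat_lit 3837, nat_lit 4161, nat_lit 3945, nat_lit 4053, nat_lit 3981, nat_lit 4005, nat_lit 3997] (nat_lit 0) [nat_lit 1813] false,
   Spec.mk (nat_lit 4005) (nat_lit 1) [nat_lit 5463, nat_lit 3519, nat_lit 3843, nat_lit 4167, nat_lit 3951, nat_lit 4059, nat_lit 3987, nat_lit 4023, nat_lit 3999] (nat_lit 0) [nat_lit 1819] false,
   Spec.mk (nat_lit 4023) (nat_lit 1) [nat_lit 5481, nat_lit 3537, nat_lit 3861, nat_lit 4185, nat_lit 4077, nat_lit 4005] (nat_lit 0) [nat_lit 1837] false,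
   Spec.mk (nat_lit 4051) (nat_lit 1) [nat_lit 5509, nat_lit 3565, nat_lit 4213, nat_lit 3997, nat_lit 4053] (nat_lit 0) [nat_lit 6237, nat_lit 1865] false,
   Spec.mk (nat_lit 4053) (nat_lit 0) [nat_lit 5511, nat_lit 3567, nat_lit 4215, nat_lit 3999, nat_lit 4059, nat_lit 4051] (nat_lit 0) [nat_lit 1867] false,
   Spec.mk (nat_lit 4059) (nat_lit 0) [nat_lit 5517, nat_lit 3573, nat_lit 4221, nat_lit 4005, nat_lit 4077, nat_lit 4053] (nat_lit 0) [nat_lit 1873] false,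
   Spec.mk (nat_lit 4077) (nat_lit 2) [nat_lit 5535, nat_lit 3591, nat_lit 4239, nat_lit 4023, nat_lit 4059] (nat_lit 0) [nat_lit 1891] false,
   Spec.mk (nat_lit 4133) (nat_lit 2) [nat_lit 5591, nat_lit 3971, nat_lit 4135] (nat_lit 0) [nat_lit 6319] false,
   Spec.mk (nat_lit 4135) (nat_lit 2) [nat_lit 5593, nat_lit 3973, nat_lit 4141, nat_lit 4133, nat_lit 4137] (nat_lit 0) [nat_lit 6321, nat_lit 1949] false,
   Spec.mk (nat_lit 4137) (nat_lit 0) [nat_lit 5595, nat_lit 3975, nat_lit 4143, nat_lit 4135] (nat_lit 0) [nat_lit 1951] false,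
   Spec.mk (nat_lit 4141) (nat_lit 1) [nat_lit 5599, nat_lit 3979, nat_lit 4159, nat_lit 4135, nat_lit 4143] (nat_lit 0) [nat_lit 6327, nat_lit 1955] false,
   Spec.mk (nat_lit 4143) (nat_lit 1) [nat_lit 5601, nat_lit 3981, nat_lit 4161, nat_lit 4137, nat_lit 4149, nat_lit 4141] (nat_lit 0) [nat_lit 1957] false,
   Spec.mk (nat_lit 4149) (nat_lit 0) [nat_lit 5607, nat_lit 3987, nat_lit 4167, nat_lit 4143] (nat_lit 0) [nat_lit 1963] false,
   Spec.mk (nat_lit 4159) (nat_lit 1) [nat_lit 5617, nat_lit 3997, nat_lit 4213, nat_lit 4141, nat_lit 4161] (nat_lit 0) [nat_lit 6345, nat_lit 1973] false,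
   Spec.mk (nat_lit 4161) (nat_lit 0) [nat_lit 5619, nat_lit 3999, nat_lit 4215, nat_lit 4143, nat_lit 4167, nat_lit 4159] (nat_lit 0) [nat_lit 1975] false,
   Spec.mk (nat_lit 4167) (nat_lit 1) [nat_lit 5625, nat_lit 4005, nat_lit 4221, nat_lit 4149, nat_lit 4185, nat_lit 4161] (nat_lit 0) [nat_lit 1981] false,
   Spec.mk (nat_lit 4185) (nat_lit 0) [nat_lit 5643, nat_lit 4023, nat_lit 4239, nat_lit 4167] (nat_lit 0) [nat_lit 1999] false,
   Spec.mk (nat_lit 4213) (nat_lit 3) [nat_lit 5671, nat_lit 4051, nat_lit 4159, nat_lit 4215] (nat_lit 0) [nat_lit 6399, nat_lit 2027] false,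
   Spec.mk (nat_lit 4215) (nat_lit 2) [nat_lit 5673, nat_lit 4053, nat_lit 4161, nat_lit 4221, nat_lit 4213] (nat_lit 0) [nat_lit 2029] false,
   Spec.mk (nat_lit 4221) (nat_lit 2) [nat_lit 5679, nat_lit 4059, nat_lit 4167, nat_lit 4239, nat_lit 4215] (nat_lit 0) [nat_lit 2035] false,
   Spec.mk (nat_lit 4239) (nat_lit 3) [nat_lit 5697, nat_lit 4077, nat_lit 4185, nat_lit 4293, nat_lit 4221] (nat_lit 0) [nat_lit 2053] false,
   Spec.mk (nat_lit 4293) (nat_lit 4) [nat_lit 5751, nat_lit 4239] (nat_lit 0) [nat_lit 2107] false,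
   Spec.mk (nat_lit 4391) (nat_lit 4) [nat_lit 2933, nat_lit 4409, nat_lit 4397] (nat_lit 0) [] false,
   Spec.mk (nat_lit 4397) (nat_lit 2) [nat_lit 2939, nat_lit 4415, nat_lit 4391, nat_lit 4399] (nat_lit 0) [] false,
   Spec.mk (nat_lit 4399) (nat_lit 2) [nat_lit 2941, nat_lit 4417, nat_lit 4397] (nat_lit 0) [nat_lit 2213] false,
   Spec.mk (nat_lit 4409) (nat_lit 2) [nat_lit 2951, nat_lit 4463, nat_lit 4391, nat_lit 4415] (nat_lit 0) [] false,
   Spec.mk (nat_lit 4415) (nat_lit 2) [nat_lit 2957, nat_lit 4469, nat_lit 4397, nat_lit 4433, nat_lit 4409, nat_lit 4421, nat_lit 4417] (nat_lit 0) [] false,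
   Spec.mk (nat_lit 4417) (nat_lit 1) [nat_lit 2959, nat_lit 4471, nat_lit 4399, nat_lit 4435, nat_lit 4423, nat_lit 4415] (nat_lit 0) [nat_lit 2231] false,
   Spec.mk (nat_lit 4421) (nat_lit 0) [nat_lit 2963, nat_lit 4475, nat_lit 4439, nat_lit 4415, nat_lit 4423] (nat_lit 0) [] false,
   Spec.mk (nat_lit 4423) (nat_lit 1) [nat_lit 2965, nat_lit 4477, nat_lit 4441, nat_lit 4417, nat_lit 4421, nat_lit 4425] (nat_lit 0) [nat_lit 2237] false,
   Spec.mk (nat_lit 4425) (nat_lit 0) [nat_lit 2967, nat_lit 4479, nat_lit 4443, nat_lit 4423] (nat_lit 0) [nat_lit 2239] false,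
   Spec.mk (nat_lit 4433) (nat_lit 0) [nat_lit 2975, nat_lit 4487, nat_lit 4415, nat_lit 4439, nat_lit 4435] (nat_lit 0) [] false,
   Spec.mk (nat_lit 4435) (nat_lit 0) [nat_lit 2977, nat_lit 4489, nat_lit 4417, nat_lit 4441, nat_lit 4433] (nat_lit 2) [nat_lit 2249] false,
   Spec.mk (nat_lit 4439) (nat_lit 0) [nat_lit 2981, nat_lit 4493, nat_lit 4421, nat_lit 4433, nat_lit 4441] (nat_lit 0) [] false,
   Spec.mk (nat_lit 4441) (nat_lit 0) [nat_lit 2983, nat_lit 4495, nat_lit 4423, nat_lit 4435, nat_lit 4447, nat_lit 4439, nat_lit 4443] (nat_lit 0) [nat_lit 2255] false,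
   Spec.mk (nat_lit 4443) (nat_lit 0) [nat_lit 2985, nat_lit 4497, nat_lit 4425, nat_lit 4449, nat_lit 4441] (nat_lit 2) [nat_lit 2257] false,
   Spec.mk (nat_lit 4447) (nat_lit 0) [nat_lit 2989, nat_lit 4501, nat_lit 4441, nat_lit 4449] (nat_lit 0) [nat_lit 2261] false,
   Spec.mk (nat_lit 4449) (nat_lit 0) [nat_lit 2991, nat_lit 4503, nat_lit 4443, nat_lit 4447] (nat_lit 0) [nat_lit 2263] false,
   Spec.mk (nat_lit 4463) (nat_lit 2) [nat_lit 3005, nat_lit 4625, nat_lit 4409, nat_lit 4469] (nat_lit 0) [] false,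
   Spec.mk (nat_lit 4469) (nat_lit 1) [nat_lit 3011, nat_lit 4631, nat_lit 4415, nat_lit 4487, nat_lit 4463, nat_lit 4475, nat_lit 4471] (nat_lit 0) [] false,
   Spec.mk (nat_lit 4471) (nat_lit 0) [nat_lit 3013, nat_lit 4633, nat_lit 4417, nat_lit 4489, nat_lit 4477, nat_lit 4469] (nat_lit 0) [nat_lit 2285] false,
   Spec.mk (nat_lit 4475) (nat_lit 0) [nat_lit 3017, nat_lit 4637, nat_lit 4421, nat_lit 4493, nat_lit 4469, nat_lit 4477] (nat_lit 2) [] false,
   Spec.mk (nat_lit 4477) (nat_lit 0) [nat_lit 3019, nat_lit 4639, nat_lit 4423, nat_lit 4495, nat_lit 4471, nat_lit 4475, nat_lit 4479] (nat_lit 1) [nat_lit 2291] false,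
   Spec.mk (nat_lit 4479) (nat_lit 0) [nat_lit 3021, nat_lit 4641, nat_lit 4425, nat_lit 4497, nat_lit 4477] (nat_lit 2) [nat_lit 2293] false,
   Spec.mk (nat_lit 4487) (nat_lit 1) [nat_lit 3029, nat_lit 4649, nat_lit 4433, nat_lit 4541, nat_lit 4469, nat_lit 4493, nat_lit 4489] (nat_lit 0) [] false,
   Spec.mk (nat_lit 4489) (nat_lit 0) [nat_lit 3031, nat_lit 4651, nat_lit 4435, nat_lit 4543, nat_lit 4471, nat_lit 4495, nat_lit 4487] (nat_lit 1) [nat_lit 2303] false,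
   Spec.mk (nat_lit 4493) (nat_lit 0) [nat_lit 3035, nat_lit 4655, nat_lit 4439, nat_lit 4547, nat_lit 4475, nat_lit 4511, nat_lit 4487, nat_lit 4495] (nat_lit 0) [] false,
   Spec.mk (nat_lit 4495) (nat_lit 0) [nat_lit 3037, nat_lit 4657, nat_lit 4441, nat_lit 4549, nat_lit 4477, nat_lit 4513, nat_lit 4489, nat_lit 4501, nat_lit 4493, nat_lit 4497] (nat_lit 0) [nat_lit 2309] false,
   Spec.mk (nat_lit 4497) (nat_lit 0) [nat_lit 3039, nat_lit 4659, nat_lit 4443, nat_lit 4551, nat_lit 4479, nat_lit 4515, nat_lit 4503, nat_lit 4495] (nat_lit 2) [nat_lit 2311] false,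
   Spec.mk (nat_lit 4501) (nat_lit 0) [nat_lit 3043, nat_lit 4663, nat_lit 4447, nat_lit 4555, nat_lit 4519, nat_lit 4495, nat_lit 4503] (nat_lit 1) [nat_lit 2315] false,
   Spec.mk (nat_lit 4503) (nat_lit 0) [nat_lit 3045, nat_lit 4665, nat_lit 4449, nat_lit 4557, nat_lit 4521, nat_lit 4497, nat_lit 4501] (nat_lit 1) [nat_lit 2317] false,
   Spec.mk (nat_lit 4511) (nat_lit 0) [nat_lit 3053, nat_lit 4673, nat_lit 4565, nat_lit 4493, nat_lit 4513] (nat_lit 0) [] false]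

noncomputable def sp13 : List Spec :=
  [Spec.mk (nat_lit 4513) (nat_lit 0) [nat_lit 3055, nat_lit 4675, nat_lit 4567, nat_lit 4495, nat_lit 4519, nat_lit 4511, nat_lit 4515] (nat_lit 1) [nat_lit 2327] false,
   Spec.mk (nat_lit 4515) (nat_lit 0) [nat_lit 3057, nat_lit 4677, nat_lit 4569, nat_lit 4497, nat_lit 4521, nat_lit 4513] (nat_lit 4) [nat_lit 2329] false,
   Spec.mk (nat_lit 4519) (nat_lit 0) [nat_lit 3061, nat_lit 4681, nat_lit 4573, nat_lit 4501, nat_lit 4513, nat_lit 4521] (nat_lit 0) [nat_lit 2333] false,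
   Spec.mk (nat_lit 4521) (nat_lit 0) [nat_lit 3063, nat_lit 4683, nat_lit 4575, nat_lit 4503, nat_lit 4515, nat_lit 4527, nat_lit 4519] (nat_lit 1) [nat_lit 2335] false,
   Spec.mk (nat_lit 4527) (nat_lit 0) [nat_lit 3069, nat_lit 4689, nat_lit 4581, nat_lit 4521] (nat_lit 0) [nat_lit 2341] false,
   Spec.mk (nat_lit 4541) (nat_lit 0) [nat_lit 3083, nat_lit 4703, nat_lit 4487, nat_lit 4547, nat_lit 4543] (nat_lit 0) [] false,
   Spec.mk (nat_lit 4543) (nat_lit 0) [nat_lit 3085, nat_lit 4705, nat_lit 4489, nat_lit 4549, nat_lit 4541] (nat_lit 2) [nat_lit 2357] false,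
   Spec.mk (nat_lit 4547) (nat_lit 0) [nat_lit 3089, nat_lit 4709, nat_lit 4493, nat_lit 4565, nat_lit 4541, nat_lit 4549] (nat_lit 2) [] false,
   Spec.mk (nat_lit 4549) (nat_lit 0) [nat_lit 3091, nat_lit 4711, nat_lit 4495, nat_lit 4567, nat_lit 4543, nat_lit 4555, nat_lit 4547, nat_lit 4551] (nat_lit 2) [nat_lit 2363] false,
   Spec.mk (nat_lit 4551) (nat_lit 0) [nat_lit 3093, nat_lit 4713, nat_lit 4497, nat_lit 4569, nat_lit 4557, nat_lit 4549] (nat_lit 4) [nat_lit 2365] false,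
   Spec.mk (nat_lit 4555) (nat_lit 0) [nat_lit 3097, nat_lit 4717, nat_lit 4501, nat_lit 4573, nat_lit 4549, nat_lit 4557] (nat_lit 4) [nat_lit 2369] false,
   Spec.mk (nat_lit 4557) (nat_lit 0) [nat_lit 3099, nat_lit 4719, nat_lit 4503, nat_lit 4575, nat_lit 4551, nat_lit 4555] (nat_lit 4) [nat_lit 2371] false,
   Spec.mk (nat_lit 4565) (nat_lit 0) [nat_lit 3107, nat_lit 4727, nat_lit 4511, nat_lit 4547, nat_lit 4567] (nat_lit 0) [] false,
   Spec.mk (nat_lit 4567) (nat_lit 0) [nat_lit 3109, nat_lit 4729, nat_lit 4513, nat_lit 4549, nat_lit 4573, nat_lit 4565, nat_lit 4569] (nat_lit 1) [nat_lit 2381] false,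
   Spec.mk (nat_lit 4569) (nat_lit 0) [nat_lit 3111, nat_lit 4731, nat_lit 4515, nat_lit 4551, nat_lit 4575, nat_lit 4567] (nat_lit 4) [nat_lit 2383] false,
   Spec.mk (nat_lit 4573) (nat_lit 0) [nat_lit 3115, nat_lit 4735, nat_lit 4519, nat_lit 4555, nat_lit 4591, nat_lit 4567, nat_lit 4575] (nat_lit 1) [nat_lit 2387] false,
   Spec.mk (nat_lit 4575) (nat_lit 0) [nat_lit 3117, nat_lit 4737, nat_lit 4521, nat_lit 4557, nat_lit 4593, nat_lit 4569, nat_lit 4581, nat_lit 4573] (nat_lit 2) [nat_lit 2389] false,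
   Spec.mk (nat_lit 4581) (nat_lit 0) [nat_lit 3123, nat_lit 4743, nat_lit 4527, nat_lit 4599, nat_lit 4575] (nat_lit 2) [nat_lit 2395] false,
   Spec.mk (nat_lit 4591) (nat_lit 0) [nat_lit 3133, nat_lit 4753, nat_lit 4573, nat_lit 4593] (nat_lit 0) [nat_lit 2405] false,
   Spec.mk (nat_lit 4593) (nat_lit 0) [nat_lit 3135, nat_lit 4755, nat_lit 4575, nat_lit 4599, nat_lit 4591] (nat_lit 2) [nat_lit 2407] false,
   Spec.mk (nat_lit 4599) (nat_lit 0) [nat_lit 3141, nat_lit 4761, nat_lit 4581, nat_lit 4593] (nat_lit 0) [nat_lit 2413] false,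
   Spec.mk (nat_lit 4625) (nat_lit 2) [nat_lit 3167, nat_lit 5111, nat_lit 4463, nat_lit 4631] (nat_lit 0) [] false,
   Spec.mk (nat_lit 4631) (nat_lit 1) [nat_lit 3173, nat_lit 5117, nat_lit 4469, nat_lit 4649, nat_lit 4625, nat_lit 4637, nat_lit 4633] (nat_lit 0) [] false,
   Spec.mk (nat_lit 4633) (nat_lit 0) [nat_lit 3175, nat_lit 5119, nat_lit 4471, nat_lit 4651, nat_lit 4639, nat_lit 4631] (nat_lit 0) [nat_lit 2447] false,
   Spec.mk (nat_lit 4637) (nat_lit 0) [nat_lit 3179, nat_lit 5123, nat_lit 4475, nat_lit 4655, nat_lit 4631, nat_lit 4639] (nat_lit 2) [] false,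
   Spec.mk (nat_lit 4639) (nat_lit 0) [nat_lit 3181, nat_lit 5125, nat_lit 4477, nat_lit 4657, nat_lit 4633, nat_lit 4637, nat_lit 4641] (nat_lit 1) [nat_lit 2453] false,
   Spec.mk (nat_lit 4641) (nat_lit 0) [nat_lit 3183, nat_lit 5127, nat_lit 4479, nat_lit 4659, nat_lit 4639] (nat_lit 2) [nat_lit 2455] false,
   Spec.mk (nat_lit 4649) (nat_lit 0) [nat_lit 3191, nat_lit 5135, nat_lit 4487, nat_lit 4703, nat_lit 4631, nat_lit 4655, nat_lit 4651] (nat_lit 0) [] false,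
   Spec.mk (nat_lit 4651) (nat_lit 0) [nat_lit 3193, nat_lit 5137, nat_lit 4489, nat_lit 4705, nat_lit 4633, nat_lit 4657, nat_lit 4649] (nat_lit 2) [nat_lit 2465] false,
   Spec.mk (nat_lit 4655) (nat_lit 0) [nat_lit 3197, nat_lit 5141, nat_lit 4493, nat_lit 4709, nat_lit 4637, nat_lit 4673, nat_lit 4649, nat_lit 4657] (nat_lit 1) [] false,
   Spec.mk (nat_lit 4657) (nat_lit 0) [nat_lit 3199, nat_lit 5143, nat_lit 4495, nat_lit 4711, nat_lit 4639, nat_lit 4675, nat_lit 4651, nat_lit 4663, nat_lit 4655, nat_lit 4659] (nat_lit 1) [nat_lit 2471] false,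
   Spec.mk (nat_lit 4659) (nat_lit 0) [nat_lit 3201, nat_lit 5145, nat_lit 4497, nat_lit 4713, nat_lit 4641, nat_lit 4677, nat_lit 4665, nat_lit 4657] (nat_lit 3) [nat_lit 2473] false,
   Spec.mk (nat_lit 4663) (nat_lit 0) [nat_lit 3205, nat_lit 5149, nat_lit 4501, nat_lit 4717, nat_lit 4681, nat_lit 4657, nat_lit 4665] (nat_lit 2) [nat_lit 2477] false,
   Spec.mk (nat_lit 4665) (nat_lit 0) [nat_lit 3207, nat_lit 5151, nat_lit 4503, nat_lit 4719, nat_lit 4683, nat_lit 4659, nat_lit 4663] (nat_lit 2) [nat_lit 2479] false,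
   Spec.mk (nat_lit 4673) (nat_lit 0) [nat_lit 3215, nat_lit 5159, nat_lit 4511, nat_lit 4727, nat_lit 4655, nat_lit 4675] (nat_lit 2) [] false,
   Spec.mk (nat_lit 4675) (nat_lit 0) [nat_lit 3217, nat_lit 5161, nat_lit 4513, nat_lit 4729, nat_lit 4657, nat_lit 4681, nat_lit 4673, nat_lit 4677] (nat_lit 3) [nat_lit 2489] false,
   Spec.mk (nat_lit 4677) (nat_lit 0) [nat_lit 3219, nat_lit 5163, nat_lit 4515, nat_lit 4731, nat_lit 4659, nat_lit 4683, nat_lit 4675] (nat_lit 6) [nat_lit 2491] false,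
   Spec.mk (nat_lit 4681) (nat_lit 0) [nat_lit 3223, nat_lit 5167, nat_lit 4519, nat_lit 4735, nat_lit 4663, nat_lit 4675, nat_lit 4683] (nat_lit 2) [nat_lit 2495] false,
   Spec.mk (nat_lit 4683) (nat_lit 0) [nat_lit 3225, nat_lit 5169, nat_lit 4521, nat_lit 4737, nat_lit 4665, nat_lit 4677, nat_lit 4689, nat_lit 4681] (nat_lit 3) [nat_lit 2497] false,
   Spec.mk (nat_lit 4689) (nat_lit 0) [nat_lit 3231, nat_lit 5175, nat_lit 4527, nat_lit 4743, nat_lit 4683] (nat_lit 2) [nat_lit 2503] false,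
   Spec.mk (nat_lit 4703) (nat_lit 1) [nat_lit 3245, nat_lit 5189, nat_lit 4541, nat_lit 4865, nat_lit 4649, nat_lit 4709, nat_lit 4705] (nat_lit 0) [] false,
   Spec.mk (nat_lit 4705) (nat_lit 0) [nat_lit 3247, nat_lit 5191, nat_lit 4543, nat_lit 4867, nat_lit 4651, nat_lit 4711, nat_lit 4703] (nat_lit 1) [nat_lit 2519] false,
   Spec.mk (nat_lit 4709) (nat_lit 0) [nat_lit 3251, nat_lit 5195, nat_lit 4547, nat_lit 4871, nat_lit 4655, nat_lit 4727, nat_lit 4703, nat_lit 4711] (nat_lit 1) [] false,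
   Spec.mk (nat_lit 4711) (nat_lit 0) [nat_lit 3253, nat_lit 5197, nat_lit 4549, nat_lit 4873, nat_lit 4657, nat_lit 4729, nat_lit 4705, nat_lit 4717, nat_lit 4709, nat_lit 4713] (nat_lit 1) [nat_lit 2525] false,
   Spec.mk (nat_lit 4713) (nat_lit 0) [nat_lit 3255, nat_lit 5199, nat_lit 4551, nat_lit 4875, nat_lit 4659, nat_lit 4731, nat_lit 4719, nat_lit 4711] (nat_lit 3) [nat_lit 2527] false,
   Spec.mk (nat_lit 4717) (nat_lit 0) [nat_lit 3259, nat_lit 5203, nat_lit 4555, nat_lit 4879, nat_lit 4663, nat_lit 4735, nat_lit 4711, nat_lit 4719] (nat_lit 3) [nat_lit 2531] false,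
   Spec.mk (nat_lit 4719) (nat_lit 0) [nat_lit 3261, nat_lit 5205, nat_lit 4557, nat_lit 4881, nat_lit 4665, nat_lit 4737, nat_lit 4713, nat_lit 4717] (nat_lit 3) [nat_lit 2533] false,
   Spec.mk (nat_lit 4727) (nat_lit 0) [nat_lit 3269, nat_lit 5213, nat_lit 4565, nat_lit 4889, nat_lit 4673, nat_lit 4781, nat_lit 4709, nat_lit 4729] (nat_lit 0) [] false,
   Spec.mk (nat_lit 4729) (nat_lit 0) [nat_lit 3271, nat_lit 5215, nat_lit 4567, nat_lit 4891, nat_lit 4675, nat_lit 4783, nat_lit 4711, nat_lit 4735, nat_lit 4727, nat_lit 4731] (nat_lit 1) [nat_lit 2543] false,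
   Spec.mk (nat_lit 4731) (nat_lit 0) [nat_lit 3273, nat_lit 5217, nat_lit 4569, nat_lit 4893, nat_lit 4677, nat_lit 4785, nat_lit 4713, nat_lit 4737, nat_lit 4729] (nat_lit 4) [nat_lit 2545] false,
   Spec.mk (nat_lit 4735) (nat_lit 0) [nat_lit 3277, nat_lit 5221, nat_lit 4573, nat_lit 4897, nat_lit 4681, nat_lit 4789, nat_lit 4717, nat_lit 4753, nat_lit 4729, nat_lit 4737] (nat_lit 1) [nat_lit 2549] false,
   Spec.mk (nat_lit 4737) (nat_lit 0) [nat_lit 3279, nat_lit 5223, nat_lit 4575, nat_lit 4899, nat_lit 4683, nat_lit 4791, nat_lit 4719, nat_lit 4755, nat_lit 4731, nat_lit 4743, nat_lit 4735] (nat_lit 2) [nat_lit 2551] false,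
   Spec.mk (nat_lit 4743) (nat_lit 0) [nat_lit 3285, nat_lit 5229, nat_lit 4581, nat_lit 4905, nat_lit 4689, nat_lit 4797, nat_lit 4761, nat_lit 4737] (nat_lit 2) [nat_lit 2557] false,
   Spec.mk (nat_lit 4753) (nat_lit 0) [nat_lit 3295, nat_lit 5239, nat_lit 4591, nat_lit 4915, nat_lit 4807, nat_lit 4735, nat_lit 4755] (nat_lit 1) [nat_lit 2567] false,
   Spec.mk (nat_lit 4755) (nat_lit 0) [nat_lit 3297, nat_lit 5241, nat_lit 4593, nat_lit 4917, nat_lit 4809, nat_lit 4737, nat_lit 4761, nat_lit 4753] (nat_lit 3) [nat_lit 2569] false,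
   Spec.mk (nat_lit 4761) (nat_lit 0) [nat_lit 3303, nat_lit 5247, nat_lit 4599, nat_lit 4923, nat_lit 4815, nat_lit 4743, nat_lit 4755] (nat_lit 1) [nat_lit 2575] false,
   Spec.mk (nat_lit 4781) (nat_lit 0) [nat_lit 3323, nat_lit 5267, nat_lit 4943, nat_lit 4727, nat_lit 4783] (nat_lit 0) [] false,
   Spec.mk (nat_lit 4783) (nat_lit 0) [nat_lit 3325, nat_lit 5269, nat_lit 4945, nat_lit 4729, nat_lit 4789, nat_lit 4781, nat_lit 4785] (nat_lit 1) [nat_lit 2597] false,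
   Spec.mk (nat_lit 4785) (nat_lit 0) [nat_lit 3327, nat_lit 5271, nat_lit 4947, nat_lit 4731, nat_lit 4791, nat_lit 4783] (nat_lit 4) [nat_lit 2599] false,
   Spec.mk (nat_lit 4789) (nat_lit 0) [nat_lit 3331, nat_lit 5275, nat_lit 4951, nat_lit 4735, nat_lit 4807, nat_lit 4783, nat_lit 4791] (nat_lit 2) [nat_lit 2603] false]

noncomputable def sp14 : List Spec :=
  [Spec.mk (nat_lit 4791) (nat_lit 0) [nat_lit 3333, nat_lit 5277, nat_lit 4953, nat_lit 4737, nat_lit 4809, nat_lit 4785, nat_lit 4797, nat_lit 4789] (nat_lit 3) [nat_lit 2605] false,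
   Spec.mk (nat_lit 4797) (nat_lit 0) [nat_lit 3339, nat_lit 5283, nat_lit 4959, nat_lit 4743, nat_lit 4815, nat_lit 4791] (nat_lit 4) [nat_lit 2611] false,
   Spec.mk (nat_lit 4807) (nat_lit 0) [nat_lit 3349, nat_lit 5293, nat_lit 4969, nat_lit 4753, nat_lit 4789, nat_lit 4809] (nat_lit 0) [nat_lit 2621] false,
   Spec.mk (nat_lit 4809) (nat_lit 0) [nat_lit 3351, nat_lit 5295, nat_lit 4971, nat_lit 4755, nat_lit 4791, nat_lit 4815, nat_lit 4807] (nat_lit 2) [nat_lit 2623] false,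
   Spec.mk (nat_lit 4815) (nat_lit 0) [nat_lit 3357, nat_lit 5301, nat_lit 4977, nat_lit 4761, nat_lit 4797, nat_lit 4833, nat_lit 4809] (nat_lit 1) [nat_lit 2629] false,
   Spec.mk (nat_lit 4833) (nat_lit 0) [nat_lit 3375, nat_lit 5319, nat_lit 4995, nat_lit 4815] (nat_lit 0) [nat_lit 2647] false,
   Spec.mk (nat_lit 4865) (nat_lit 0) [nat_lit 3407, nat_lit 5351, nat_lit 4703, nat_lit 4871, nat_lit 4867] (nat_lit 0) [] false,
   Spec.mk (nat_lit 4867) (nat_lit 0) [nat_lit 3409, nat_lit 5353, nat_lit 4705, nat_lit 4873, nat_lit 4865] (nat_lit 2) [nat_lit 2681] false,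
   Spec.mk (nat_lit 4871) (nat_lit 0) [nat_lit 3413, nat_lit 5357, nat_lit 4709, nat_lit 4889, nat_lit 4865, nat_lit 4873] (nat_lit 2) [] false,
   Spec.mk (nat_lit 4873) (nat_lit 0) [nat_lit 3415, nat_lit 5359, nat_lit 4711, nat_lit 4891, nat_lit 4867, nat_lit 4879, nat_lit 4871, nat_lit 4875] (nat_lit 2) [nat_lit 2687] false,
   Spec.mk (nat_lit 4875) (nat_lit 0) [nat_lit 3417, nat_lit 5361, nat_lit 4713, nat_lit 4893, nat_lit 4881, nat_lit 4873] (nat_lit 4) [nat_lit 2689] false,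
   Spec.mk (nat_lit 4879) (nat_lit 0) [nat_lit 3421, nat_lit 5365, nat_lit 4717, nat_lit 4897, nat_lit 4873, nat_lit 4881] (nat_lit 4) [nat_lit 2693] false,
   Spec.mk (nat_lit 4881) (nat_lit 0) [nat_lit 3423, nat_lit 5367, nat_lit 4719, nat_lit 4899, nat_lit 4875, nat_lit 4879] (nat_lit 4) [nat_lit 2695] false,
   Spec.mk (nat_lit 4889) (nat_lit 0) [nat_lit 3431, nat_lit 5375, nat_lit 4727, nat_lit 4943, nat_lit 4871, nat_lit 4891] (nat_lit 2) [] false,
   Spec.mk (nat_lit 4891) (nat_lit 0) [nat_lit 3433, nat_lit 5377, nat_lit 4729, nat_lit 4945, nat_lit 4873, nat_lit 4897, nat_lit 4889, nat_lit 4893] (nat_lit 3) [nat_lit 2705] false,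
   Spec.mk (nat_lit 4893) (nat_lit 0) [nat_lit 3435, nat_lit 5379, nat_lit 4731, nat_lit 4947, nat_lit 4875, nat_lit 4899, nat_lit 4891] (nat_lit 6) [nat_lit 2707] false,
   Spec.mk (nat_lit 4897) (nat_lit 0) [nat_lit 3439, nat_lit 5383, nat_lit 4735, nat_lit 4951, nat_lit 4879, nat_lit 4915, nat_lit 4891, nat_lit 4899] (nat_lit 3) [nat_lit 2711] false,
   Spec.mk (nat_lit 4899) (nat_lit 0) [nat_lit 3441, nat_lit 5385, nat_lit 4737, nat_lit 4953, nat_lit 4881, nat_lit 4917, nat_lit 4893, nat_lit 4905, nat_lit 4897] (nat_lit 4) [nat_lit 2713] false,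
   Spec.mk (nat_lit 4905) (nat_lit 0) [nat_lit 3447, nat_lit 5391, nat_lit 4743, nat_lit 4959, nat_lit 4923, nat_lit 4899] (nat_lit 4) [nat_lit 2719] false,
   Spec.mk (nat_lit 4915) (nat_lit 0) [nat_lit 3457, nat_lit 5401, nat_lit 4753, nat_lit 4969, nat_lit 4897, nat_lit 4917] (nat_lit 4) [nat_lit 2729] false,
   Spec.mk (nat_lit 4917) (nat_lit 0) [nat_lit 3459, nat_lit 5403, nat_lit 4755, nat_lit 4971, nat_lit 4899, nat_lit 4923, nat_lit 4915] (nat_lit 6) [nat_lit 2731] false,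
   Spec.mk (nat_lit 4923) (nat_lit 0) [nat_lit 3465, nat_lit 5409, nat_lit 4761, nat_lit 4977, nat_lit 4905, nat_lit 4917] (nat_lit 4) [nat_lit 2737] false,
   Spec.mk (nat_lit 4943) (nat_lit 0) [nat_lit 3485, nat_lit 5429, nat_lit 4781, nat_lit 4889, nat_lit 4945] (nat_lit 0) [] false,
   Spec.mk (nat_lit 4945) (nat_lit 0) [nat_lit 3487, nat_lit 5431, nat_lit 4783, nat_lit 4891, nat_lit 4951, nat_lit 4943, nat_lit 4947] (nat_lit 1) [nat_lit 2759] false,
   Spec.mk (nat_lit 4947) (nat_lit 0) [nat_lit 3489, nat_lit 5433, nat_lit 4785, nat_lit 4893, nat_lit 4953, nat_lit 4945] (nat_lit 4) [nat_lit 2761] false,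
   Spec.mk (nat_lit 4951) (nat_lit 0) [nat_lit 3493, nat_lit 5437, nat_lit 4789, nat_lit 4897, nat_lit 4969, nat_lit 4945, nat_lit 4953] (nat_lit 2) [nat_lit 2765] false,
   Spec.mk (nat_lit 4953) (nat_lit 0) [nat_lit 3495, nat_lit 5439, nat_lit 4791, nat_lit 4899, nat_lit 4971, nat_lit 4947, nat_lit 4959, nat_lit 4951] (nat_lit 3) [nat_lit 2767] false,
   Spec.mk (nat_lit 4959) (nat_lit 0) [nat_lit 3501, nat_lit 5445, nat_lit 4797, nat_lit 4905, nat_lit 4977, nat_lit 4953] (nat_lit 4) [nat_lit 2773] false,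
   Spec.mk (nat_lit 4969) (nat_lit 0) [nat_lit 3511, nat_lit 5455, nat_lit 4807, nat_lit 4915, nat_lit 5023, nat_lit 4951, nat_lit 4971] (nat_lit 1) [nat_lit 2783] false,
   Spec.mk (nat_lit 4971) (nat_lit 0) [nat_lit 3513, nat_lit 5457, nat_lit 4809, nat_lit 4917, nat_lit 5025, nat_lit 4953, nat_lit 4977, nat_lit 4969] (nat_lit 3) [nat_lit 2785] false,
   Spec.mk (nat_lit 4977) (nat_lit 0) [nat_lit 3519, nat_lit 5463, nat_lit 4815, nat_lit 4923, nat_lit 5031, nat_lit 4959, nat_lit 4995, nat_lit 4971] (nat_lit 2) [nat_lit 2791] false,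
   Spec.mk (nat_lit 4995) (nat_lit 0) [nat_lit 3537, nat_lit 5481, nat_lit 4833, nat_lit 5049, nat_lit 4977] (nat_lit 2) [nat_lit 2809] false,
   Spec.mk (nat_lit 5023) (nat_lit 0) [nat_lit 3565, nat_lit 5509, nat_lit 4969, nat_lit 5025] (nat_lit 0) [nat_lit 2837] false,
   Spec.mk (nat_lit 5025) (nat_lit 0) [nat_lit 3567, nat_lit 5511, nat_lit 4971, nat_lit 5031, nat_lit 5023] (nat_lit 2) [nat_lit 2839] false,
   Spec.mk (nat_lit 5031) (nat_lit 0) [nat_lit 3573, nat_lit 5517, nat_lit 4977, nat_lit 5049, nat_lit 5025] (nat_lit 2) [nat_lit 2845] false,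
   Spec.mk (nat_lit 5049) (nat_lit 0) [nat_lit 3591, nat_lit 5535, nat_lit 4995, nat_lit 5031] (nat_lit 0) [nat_lit 2863] false,
   Spec.mk (nat_lit 5111) (nat_lit 4) [nat_lit 3653, nat_lit 4625, nat_lit 5117] (nat_lit 0) [] false,
   Spec.mk (nat_lit 5117) (nat_lit 3) [nat_lit 3659, nat_lit 4631, nat_lit 5135, nat_lit 5111, nat_lit 5123, nat_lit 5119] (nat_lit 0) [] false,
   Spec.mk (nat_lit 5119) (nat_lit 2) [nat_lit 3661, nat_lit 4633, nat_lit 5137, nat_lit 5125, nat_lit 5117] (nat_lit 0) [nat_lit 2933] false,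
   Spec.mk (nat_lit 5123) (nat_lit 0) [nat_lit 3665, nat_lit 4637, nat_lit 5141, nat_lit 5117, nat_lit 5125] (nat_lit 0) [] false,
   Spec.mk (nat_lit 5125) (nat_lit 1) [nat_lit 3667, nat_lit 4639, nat_lit 5143, nat_lit 5119, nat_lit 5123, nat_lit 5127] (nat_lit 0) [nat_lit 2939] false,
   Spec.mk (nat_lit 5127) (nat_lit 0) [nat_lit 3669, nat_lit 4641, nat_lit 5145, nat_lit 5125] (nat_lit 0) [nat_lit 2941] false,
   Spec.mk (nat_lit 5135) (nat_lit 2) [nat_lit 3677, nat_lit 4649, nat_lit 5189, nat_lit 5117, nat_lit 5141, nat_lit 5137] (nat_lit 0) [] false,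
   Spec.mk (nat_lit 5137) (nat_lit 0) [nat_lit 3679, nat_lit 4651, nat_lit 5191, nat_lit 5119, nat_lit 5143, nat_lit 5135] (nat_lit 0) [nat_lit 2951] false,
   Spec.mk (nat_lit 5141) (nat_lit 1) [nat_lit 3683, nat_lit 4655, nat_lit 5195, nat_lit 5123, nat_lit 5159, nat_lit 5135, nat_lit 5143] (nat_lit 0) [] false,
   Spec.mk (nat_lit 5143) (nat_lit 1) [nat_lit 3685, nat_lit 4657, nat_lit 5197, nat_lit 5125, nat_lit 5161, nat_lit 5137, nat_lit 5149, nat_lit 5141, nat_lit 5145] (nat_lit 0) [nat_lit 2957] false,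
   Spec.mk (nat_lit 5145) (nat_lit 0) [nat_lit 3687, nat_lit 4659, nat_lit 5199, nat_lit 5127, nat_lit 5163, nat_lit 5151, nat_lit 5143] (nat_lit 1) [nat_lit 2959] false,
   Spec.mk (nat_lit 5149) (nat_lit 0) [nat_lit 3691, nat_lit 4663, nat_lit 5203, nat_lit 5167, nat_lit 5143, nat_lit 5151] (nat_lit 0) [nat_lit 2963] false,
   Spec.mk (nat_lit 5151) (nat_lit 0) [nat_lit 3693, nat_lit 4665, nat_lit 5205, nat_lit 5169, nat_lit 5145, nat_lit 5149] (nat_lit 0) [nat_lit 2965] false,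
   Spec.mk (nat_lit 5159) (nat_lit 0) [nat_lit 3701, nat_lit 4673, nat_lit 5213, nat_lit 5141, nat_lit 5161] (nat_lit 0) [] false,
   Spec.mk (nat_lit 5161) (nat_lit 0) [nat_lit 3703, nat_lit 4675, nat_lit 5215, nat_lit 5143, nat_lit 5167, nat_lit 5159, nat_lit 5163] (nat_lit 1) [nat_lit 2975] false,
   Spec.mk (nat_lit 5163) (nat_lit 0) [nat_lit 3705, nat_lit 4677, nat_lit 5217, nat_lit 5145, nat_lit 5169, nat_lit 5161] (nat_lit 4) [nat_lit 2977] false,
   Spec.mk (nat_lit 5167) (nat_lit 0) [nat_lit 3709, nat_lit 4681, nat_lit 5221, nat_lit 5149, nat_lit 5161, nat_lit 5169] (nat_lit 0) [nat_lit 2981] false,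
   Spec.mk (nat_lit 5169) (nat_lit 0) [nat_lit 3711, nat_lit 4683, nat_lit 5223, nat_lit 5151, nat_lit 5163, nat_lit 5175, nat_lit 5167] (nat_lit 1) [nat_lit 2983] false,
   Spec.mk (nat_lit 5175) (nat_lit 0) [nat_lit 3717, nat_lit 4689, nat_lit 5229, nat_lit 5169] (nat_lit 0) [nat_lit 2989] false,
   Spec.mk (nat_lit 5189) (nat_lit 2) [nat_lit 3731, nat_lit 4703, nat_lit 5351, nat_lit 5135, nat_lit 5195, nat_lit 5191] (nat_lit 0) [] false,
   Spec.mk (nat_lit 5191) (nat_lit 0) [nat_lit 3733, nat_lit 4705, nat_lit 5353, nat_lit 5137, nat_lit 5197, nat_lit 5189] (nat_lit 0) [nat_lit 3005] false,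
   Spec.mk (nat_lit 5195) (nat_lit 0) [nat_lit 3737, nat_lit 4709, nat_lit 5357, nat_lit 5141, nat_lit 5213, nat_lit 5189, nat_lit 5197] (nat_lit 0) [] false,
   Spec.mk (nat_lit 5197) (nat_lit 0) [nat_lit 3739, nat_lit 4711, nat_lit 5359, nat_lit 5143, nat_lit 5215, nat_lit 5191, nat_lit 5203, nat_lit 5195, nat_lit 5199] (nat_lit 0) [nat_lit 3011] false,
   Spec.mk (nat_lit 5199) (nat_lit 0) [nat_lit 3741, nat_lit 4713, nat_lit 5361, nat_lit 5145, nat_lit 5217, nat_lit 5205, nat_lit 5197] (nat_lit 2) [nat_lit 3013] false]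

noncomputable def sp15 : List Spec :=
  [Spec.mk (nat_lit 5203) (nat_lit 0) [nat_lit 3745, nat_lit 4717, nat_lit 5365, nat_lit 5149, nat_lit 5221, nat_lit 5197, nat_lit 5205] (nat_lit 2) [nat_lit 3017] false,
   Spec.mk (nat_lit 5205) (nat_lit 0) [nat_lit 3747, nat_lit 4719, nat_lit 5367, nat_lit 5151, nat_lit 5223, nat_lit 5199, nat_lit 5203] (nat_lit 2) [nat_lit 3019] false,
   Spec.mk (nat_lit 5213) (nat_lit 1) [nat_lit 3755, nat_lit 4727, nat_lit 5375, nat_lit 5159, nat_lit 5267, nat_lit 5195, nat_lit 5215] (nat_lit 0) [] false,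
   Spec.mk (nat_lit 5215) (nat_lit 0) [nat_lit 3757, nat_lit 4729, nat_lit 5377, nat_lit 5161, nat_lit 5269, nat_lit 5197, nat_lit 5221, nat_lit 5213, nat_lit 5217] (nat_lit 0) [nat_lit 3029] false,
   Spec.mk (nat_lit 5217) (nat_lit 0) [nat_lit 3759, nat_lit 4731, nat_lit 5379, nat_lit 5163, nat_lit 5271, nat_lit 5199, nat_lit 5223, nat_lit 5215] (nat_lit 3) [nat_lit 3031] false,
   Spec.mk (nat_lit 5221) (nat_lit 0) [nat_lit 3763, nat_lit 4735, nat_lit 5383, nat_lit 5167, nat_lit 5275, nat_lit 5203, nat_lit 5239, nat_lit 5215, nat_lit 5223] (nat_lit 0) [nat_lit 3035] false,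
   Spec.mk (nat_lit 5223) (nat_lit 0) [nat_lit 3765, nat_lit 4737, nat_lit 5385, nat_lit 5169, nat_lit 5277, nat_lit 5205, nat_lit 5241, nat_lit 5217, nat_lit 5229, nat_lit 5221] (nat_lit 1) [nat_lit 3037] false,
   Spec.mk (nat_lit 5229) (nat_lit 0) [nat_lit 3771, nat_lit 4743, nat_lit 5391, nat_lit 5175, nat_lit 5283, nat_lit 5247, nat_lit 5223] (nat_lit 1) [nat_lit 3043] false,
   Spec.mk (nat_lit 5239) (nat_lit 0) [nat_lit 3781, nat_lit 4753, nat_lit 5401, nat_lit 5293, nat_lit 5221, nat_lit 5241] (nat_lit 0) [nat_lit 3053] false,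
   Spec.mk (nat_lit 5241) (nat_lit 0) [nat_lit 3783, nat_lit 4755, nat_lit 5403, nat_lit 5295, nat_lit 5223, nat_lit 5247, nat_lit 5239] (nat_lit 2) [nat_lit 3055] false,
   Spec.mk (nat_lit 5247) (nat_lit 0) [nat_lit 3789, nat_lit 4761, nat_lit 5409, nat_lit 5301, nat_lit 5229, nat_lit 5241] (nat_lit 0) [nat_lit 3061] false,
   Spec.mk (nat_lit 5267) (nat_lit 0) [nat_lit 3809, nat_lit 4781, nat_lit 5429, nat_lit 5213, nat_lit 5269] (nat_lit 0) [] false,
   Spec.mk (nat_lit 5269) (nat_lit 0) [nat_lit 3811, nat_lit 4783, nat_lit 5431, nat_lit 5215, nat_lit 5275, nat_lit 5267, nat_lit 5271] (nat_lit 1) [nat_lit 3083] false,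
   Spec.mk (nat_lit 5271) (nat_lit 0) [nat_lit 3813, nat_lit 4785, nat_lit 5433, nat_lit 5217, nat_lit 5277, nat_lit 5269] (nat_lit 4) [nat_lit 3085] false,
   Spec.mk (nat_lit 5275) (nat_lit 0) [nat_lit 3817, nat_lit 4789, nat_lit 5437, nat_lit 5221, nat_lit 5293, nat_lit 5269, nat_lit 5277] (nat_lit 2) [nat_lit 3089] false,
   Spec.mk (nat_lit 5277) (nat_lit 0) [nat_lit 3819, nat_lit 4791, nat_lit 5439, nat_lit 5223, nat_lit 5295, nat_lit 5271, nat_lit 5283, nat_lit 5275] (nat_lit 3) [nat_lit 3091] false,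
   Spec.mk (nat_lit 5283) (nat_lit 0) [nat_lit 3825, nat_lit 4797, nat_lit 5445, nat_lit 5229, nat_lit 5301, nat_lit 5277] (nat_lit 4) [nat_lit 3097] false,
   Spec.mk (nat_lit 5293) (nat_lit 0) [nat_lit 3835, nat_lit 4807, nat_lit 5455, nat_lit 5239, nat_lit 5275, nat_lit 5295] (nat_lit 0) [nat_lit 3107] false,
   Spec.mk (nat_lit 5295) (nat_lit 0) [nat_lit 3837, nat_lit 4809, nat_lit 5457, nat_lit 5241, nat_lit 5277, nat_lit 5301, nat_lit 5293] (nat_lit 2) [nat_lit 3109] false,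
   Spec.mk (nat_lit 5301) (nat_lit 0) [nat_lit 3843, nat_lit 4815, nat_lit 5463, nat_lit 5247, nat_lit 5283, nat_lit 5319, nat_lit 5295] (nat_lit 1) [nat_lit 3115] false,
   Spec.mk (nat_lit 5319) (nat_lit 0) [nat_lit 3861, nat_lit 4833, nat_lit 5481, nat_lit 5301] (nat_lit 0) [nat_lit 3133] false,
   Spec.mk (nat_lit 5351) (nat_lit 3) [nat_lit 3893, nat_lit 4865, nat_lit 5837, nat_lit 5189, nat_lit 5357, nat_lit 5353] (nat_lit 0) [] false,
   Spec.mk (nat_lit 5353) (nat_lit 1) [nat_lit 3895, nat_lit 4867, nat_lit 5839, nat_lit 5191, nat_lit 5359, nat_lit 5351] (nat_lit 0) [nat_lit 3167] false,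
   Spec.mk (nat_lit 5357) (nat_lit 1) [nat_lit 3899, nat_lit 4871, nat_lit 5843, nat_lit 5195, nat_lit 5375, nat_lit 5351, nat_lit 5359] (nat_lit 0) [] false,
   Spec.mk (nat_lit 5359) (nat_lit 1) [nat_lit 3901, nat_lit 4873, nat_lit 5845, nat_lit 5197, nat_lit 5377, nat_lit 5353, nat_lit 5365, nat_lit 5357, nat_lit 5361] (nat_lit 0) [nat_lit 3173] false,
   Spec.mk (nat_lit 5361) (nat_lit 0) [nat_lit 3903, nat_lit 4875, nat_lit 5847, nat_lit 5199, nat_lit 5379, nat_lit 5367, nat_lit 5359] (nat_lit 1) [nat_lit 3175] false,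
   Spec.mk (nat_lit 5365) (nat_lit 0) [nat_lit 3907, nat_lit 4879, nat_lit 5851, nat_lit 5203, nat_lit 5383, nat_lit 5359, nat_lit 5367] (nat_lit 1) [nat_lit 3179] false,
   Spec.mk (nat_lit 5367) (nat_lit 0) [nat_lit 3909, nat_lit 4881, nat_lit 5853, nat_lit 5205, nat_lit 5385, nat_lit 5361, nat_lit 5365] (nat_lit 1) [nat_lit 3181] false,
   Spec.mk (nat_lit 5375) (nat_lit 1) [nat_lit 3917, nat_lit 4889, nat_lit 5861, nat_lit 5213, nat_lit 5429, nat_lit 5357, nat_lit 5377] (nat_lit 0) [] false,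
   Spec.mk (nat_lit 5377) (nat_lit 0) [nat_lit 3919, nat_lit 4891, nat_lit 5863, nat_lit 5215, nat_lit 5431, nat_lit 5359, nat_lit 5383, nat_lit 5375, nat_lit 5379] (nat_lit 0) [nat_lit 3191] false,
   Spec.mk (nat_lit 5379) (nat_lit 0) [nat_lit 3921, nat_lit 4893, nat_lit 5865, nat_lit 5217, nat_lit 5433, nat_lit 5361, nat_lit 5385, nat_lit 5377] (nat_lit 3) [nat_lit 3193] false,
   Spec.mk (nat_lit 5383) (nat_lit 0) [nat_lit 3925, nat_lit 4897, nat_lit 5869, nat_lit 5221, nat_lit 5437, nat_lit 5365, nat_lit 5401, nat_lit 5377, nat_lit 5385] (nat_lit 0) [nat_lit 3197] false,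
   Spec.mk (nat_lit 5385) (nat_lit 0) [nat_lit 3927, nat_lit 4899, nat_lit 5871, nat_lit 5223, nat_lit 5439, nat_lit 5367, nat_lit 5403, nat_lit 5379, nat_lit 5391, nat_lit 5383] (nat_lit 1) [nat_lit 3199] false,
   Spec.mk (nat_lit 5391) (nat_lit 0) [nat_lit 3933, nat_lit 4905, nat_lit 5877, nat_lit 5229, nat_lit 5445, nat_lit 5409, nat_lit 5385] (nat_lit 1) [nat_lit 3205] false,
   Spec.mk (nat_lit 5401) (nat_lit 0) [nat_lit 3943, nat_lit 4915, nat_lit 5887, nat_lit 5239, nat_lit 5455, nat_lit 5383, nat_lit 5403] (nat_lit 1) [nat_lit 3215] false,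
   Spec.mk (nat_lit 5403) (nat_lit 0) [nat_lit 3945, nat_lit 4917, nat_lit 5889, nat_lit 5241, nat_lit 5457, nat_lit 5385, nat_lit 5409, nat_lit 5401] (nat_lit 3) [nat_lit 3217] false,
   Spec.mk (nat_lit 5409) (nat_lit 0) [nat_lit 3951, nat_lit 4923, nat_lit 5895, nat_lit 5247, nat_lit 5463, nat_lit 5391, nat_lit 5403] (nat_lit 1) [nat_lit 3223] false,
   Spec.mk (nat_lit 5429) (nat_lit 2) [nat_lit 3971, nat_lit 4943, nat_lit 5915, nat_lit 5267, nat_lit 5591, nat_lit 5375, nat_lit 5431] (nat_lit 0) [] false,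
   Spec.mk (nat_lit 5431) (nat_lit 1) [nat_lit 3973, nat_lit 4945, nat_lit 5917, nat_lit 5269, nat_lit 5593, nat_lit 5377, nat_lit 5437, nat_lit 5429, nat_lit 5433] (nat_lit 0) [nat_lit 3245] false,
   Spec.mk (nat_lit 5433) (nat_lit 0) [nat_lit 3975, nat_lit 4947, nat_lit 5919, nat_lit 5271, nat_lit 5595, nat_lit 5379, nat_lit 5439, nat_lit 5431] (nat_lit 2) [nat_lit 3247] false,
   Spec.mk (nat_lit 5437) (nat_lit 0) [nat_lit 3979, nat_lit 4951, nat_lit 5923, nat_lit 5275, nat_lit 5599, nat_lit 5383, nat_lit 5455, nat_lit 5431, nat_lit 5439] (nat_lit 0) [nat_lit 3251] false,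
   Spec.mk (nat_lit 5439) (nat_lit 0) [nat_lit 3981, nat_lit 4953, nat_lit 5925, nat_lit 5277, nat_lit 5601, nat_lit 5385, nat_lit 5457, nat_lit 5433, nat_lit 5445, nat_lit 5437] (nat_lit 1) [nat_lit 3253] false,
   Spec.mk (nat_lit 5445) (nat_lit 0) [nat_lit 3987, nat_lit 4959, nat_lit 5931, nat_lit 5283, nat_lit 5607, nat_lit 5391, nat_lit 5463, nat_lit 5439] (nat_lit 2) [nat_lit 3259] false,
   Spec.mk (nat_lit 5455) (nat_lit 1) [nat_lit 3997, nat_lit 4969, nat_lit 5941, nat_lit 5293, nat_lit 5617, nat_lit 5401, nat_lit 5509, nat_lit 5437, nat_lit 5457] (nat_lit 0) [nat_lit 3269] false,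
   Spec.mk (nat_lit 5457) (nat_lit 0) [nat_lit 3999, nat_lit 4971, nat_lit 5943, nat_lit 5295, nat_lit 5619, nat_lit 5403, nat_lit 5511, nat_lit 5439, nat_lit 5463, nat_lit 5455] (nat_lit 1) [nat_lit 3271] false,
   Spec.mk (nat_lit 5463) (nat_lit 0) [nat_lit 4005, nat_lit 4977, nat_lit 5949, nat_lit 5301, nat_lit 5625, nat_lit 5409, nat_lit 5517, nat_lit 5445, nat_lit 5481, nat_lit 5457] (nat_lit 0) [nat_lit 3277] false,
   Spec.mk (nat_lit 5481) (nat_lit 0) [nat_lit 4023, nat_lit 4995, nat_lit 5967, nat_lit 5319, nat_lit 5643, nat_lit 5535, nat_lit 5463] (nat_lit 0) [nat_lit 3295] false,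
   Spec.mk (nat_lit 5509) (nat_lit 1) [nat_lit 4051, nat_lit 5023, nat_lit 5995, nat_lit 5671, nat_lit 5455, nat_lit 5511] (nat_lit 0) [nat_lit 3323] false,
   Spec.mk (nat_lit 5511) (nat_lit 0) [nat_lit 4053, nat_lit 5025, nat_lit 5997, nat_lit 5673, nat_lit 5457, nat_lit 5517, nat_lit 5509] (nat_lit 1) [nat_lit 3325] false,
   Spec.mk (nat_lit 5517) (nat_lit 0) [nat_lit 4059, nat_lit 5031, nat_lit 6003, nat_lit 5679, nat_lit 5463, nat_lit 5535, nat_lit 5511] (nat_lit 1) [nat_lit 3331] false,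
   Spec.mk (nat_lit 5535) (nat_lit 1) [nat_lit 4077, nat_lit 5049, nat_lit 6021, nat_lit 5697, nat_lit 5481, nat_lit 5517] (nat_lit 0) [nat_lit 3349] false,
   Spec.mk (nat_lit 5591) (nat_lit 2) [nat_lit 4133, nat_lit 6077, nat_lit 5429, nat_lit 5593] (nat_lit 0) [] false,
   Spec.mk (nat_lit 5593) (nat_lit 1) [nat_lit 4135, nat_lit 6079, nat_lit 5431, nat_lit 5599, nat_lit 5591, nat_lit 5595] (nat_lit 0) [nat_lit 3407] false,
   Spec.mk (nat_lit 5595) (nat_lit 0) [nat_lit 4137, nat_lit 6081, nat_lit 5433, nat_lit 5601, nat_lit 5593] (nat_lit 2) [nat_lit 3409] false,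
   Spec.mk (nat_lit 5599) (nat_lit 0) [nat_lit 4141, nat_lit 6085, nat_lit 5437, nat_lit 5617, nat_lit 5593, nat_lit 5601] (nat_lit 0) [nat_lit 3413] false,
   Spec.mk (nat_lit 5601) (nat_lit 0) [nat_lit 4143, nat_lit 6087, nat_lit 5439, nat_lit 5619, nat_lit 5595, nat_lit 5607, nat_lit 5599] (nat_lit 1) [nat_lit 3415] false,
   Spec.mk (nat_lit 5607) (nat_lit 0) [nat_lit 4149, nat_lit 6093, nat_lit 5445, nat_lit 5625, nat_lit 5601] (nat_lit 2) [nat_lit 3421] false,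
   Spec.mk (nat_lit 5617) (nat_lit 0) [nat_lit 4159, nat_lit 6103, nat_lit 5455, nat_lit 5671, nat_lit 5599, nat_lit 5619] (nat_lit 0) [nat_lit 3431] false,
   Spec.mk (nat_lit 5619) (nat_lit 0) [nat_lit 4161, nat_lit 6105, nat_lit 5457, nat_lit 5673, nat_lit 5601, nat_lit 5625, nat_lit 5617] (nat_lit 2) [nat_lit 3433] false,
   Spec.mk (nat_lit 5625) (nat_lit 0) [nat_lit 4167, nat_lit 6111, nat_lit 5463, nat_lit 5679, nat_lit 5607, nat_lit 5643, nat_lit 5619] (nat_lit 1) [nat_lit 3439] false]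

noncomputable def sp16 : List Spec :=
  [Spec.mk (nat_lit 5643) (nat_lit 0) [nat_lit 4185, nat_lit 6129, nat_lit 5481, nat_lit 5697, nat_lit 5625] (nat_lit 2) [nat_lit 3457] false,
   Spec.mk (nat_lit 5671) (nat_lit 2) [nat_lit 4213, nat_lit 6157, nat_lit 5509, nat_lit 5617, nat_lit 5673] (nat_lit 0) [nat_lit 3485] false,
   Spec.mk (nat_lit 5673) (nat_lit 0) [nat_lit 4215, nat_lit 6159, nat_lit 5511, nat_lit 5619, nat_lit 5679, nat_lit 5671] (nat_lit 0) [nat_lit 3487] false,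
   Spec.mk (nat_lit 5679) (nat_lit 0) [nat_lit 4221, nat_lit 6165, nat_lit 5517, nat_lit 5625, nat_lit 5697, nat_lit 5673] (nat_lit 0) [nat_lit 3493] false,
   Spec.mk (nat_lit 5697) (nat_lit 1) [nat_lit 4239, nat_lit 6183, nat_lit 5535, nat_lit 5643, nat_lit 5751, nat_lit 5679] (nat_lit 0) [nat_lit 3511] false,
   Spec.mk (nat_lit 5751) (nat_lit 2) [nat_lit 4293, nat_lit 6237, nat_lit 5697] (nat_lit 0) [nat_lit 3565] false,
   Spec.mk (nat_lit 5837) (nat_lit 4) [nat_lit 5351, nat_lit 5843, nat_lit 5839] (nat_lit 0) [] false,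
   Spec.mk (nat_lit 5839) (nat_lit 2) [nat_lit 5353, nat_lit 5845, nat_lit 5837] (nat_lit 0) [nat_lit 3653] false,
   Spec.mk (nat_lit 5843) (nat_lit 2) [nat_lit 5357, nat_lit 5861, nat_lit 5837, nat_lit 5845] (nat_lit 0) [] false,
   Spec.mk (nat_lit 5845) (nat_lit 2) [nat_lit 5359, nat_lit 5863, nat_lit 5839, nat_lit 5851, nat_lit 5843, nat_lit 5847] (nat_lit 0) [nat_lit 3659] false,
   Spec.mk (nat_lit 5847) (nat_lit 0) [nat_lit 5361, nat_lit 5865, nat_lit 5853, nat_lit 5845] (nat_lit 0) [nat_lit 3661] false,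
   Spec.mk (nat_lit 5851) (nat_lit 0) [nat_lit 5365, nat_lit 5869, nat_lit 5845, nat_lit 5853] (nat_lit 0) [nat_lit 3665] false,
   Spec.mk (nat_lit 5853) (nat_lit 0) [nat_lit 5367, nat_lit 5871, nat_lit 5847, nat_lit 5851] (nat_lit 0) [nat_lit 3667] false,
   Spec.mk (nat_lit 5861) (nat_lit 2) [nat_lit 5375, nat_lit 5915, nat_lit 5843, nat_lit 5863] (nat_lit 0) [] false,
   Spec.mk (nat_lit 5863) (nat_lit 1) [nat_lit 5377, nat_lit 5917, nat_lit 5845, nat_lit 5869, nat_lit 5861, nat_lit 5865] (nat_lit 0) [nat_lit 3677] false,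
   Spec.mk (nat_lit 5865) (nat_lit 0) [nat_lit 5379, nat_lit 5919, nat_lit 5847, nat_lit 5871, nat_lit 5863] (nat_lit 2) [nat_lit 3679] false,
   Spec.mk (nat_lit 5869) (nat_lit 1) [nat_lit 5383, nat_lit 5923, nat_lit 5851, nat_lit 5887, nat_lit 5863, nat_lit 5871] (nat_lit 0) [nat_lit 3683] false,
   Spec.mk (nat_lit 5871) (nat_lit 0) [nat_lit 5385, nat_lit 5925, nat_lit 5853, nat_lit 5889, nat_lit 5865, nat_lit 5877, nat_lit 5869] (nat_lit 0) [nat_lit 3685] false,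
   Spec.mk (nat_lit 5877) (nat_lit 0) [nat_lit 5391, nat_lit 5931, nat_lit 5895, nat_lit 5871] (nat_lit 0) [nat_lit 3691] false,
   Spec.mk (nat_lit 5887) (nat_lit 0) [nat_lit 5401, nat_lit 5941, nat_lit 5869, nat_lit 5889] (nat_lit 0) [nat_lit 3701] false,
   Spec.mk (nat_lit 5889) (nat_lit 0) [nat_lit 5403, nat_lit 5943, nat_lit 5871, nat_lit 5895, nat_lit 5887] (nat_lit 2) [nat_lit 3703] false,
   Spec.mk (nat_lit 5895) (nat_lit 0) [nat_lit 5409, nat_lit 5949, nat_lit 5877, nat_lit 5889] (nat_lit 0) [nat_lit 3709] false,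
   Spec.mk (nat_lit 5915) (nat_lit 2) [nat_lit 5429, nat_lit 6077, nat_lit 5861, nat_lit 5917] (nat_lit 0) [] false,
   Spec.mk (nat_lit 5917) (nat_lit 1) [nat_lit 5431, nat_lit 6079, nat_lit 5863, nat_lit 5923, nat_lit 5915, nat_lit 5919] (nat_lit 0) [nat_lit 3731] false,
   Spec.mk (nat_lit 5919) (nat_lit 0) [nat_lit 5433, nat_lit 6081, nat_lit 5865, nat_lit 5925, nat_lit 5917] (nat_lit 2) [nat_lit 3733] false,
   Spec.mk (nat_lit 5923) (nat_lit 0) [nat_lit 5437, nat_lit 6085, nat_lit 5869, nat_lit 5941, nat_lit 5917, nat_lit 5925] (nat_lit 0) [nat_lit 3737] false,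
   Spec.mk (nat_lit 5925) (nat_lit 0) [nat_lit 5439, nat_lit 6087, nat_lit 5871, nat_lit 5943, nat_lit 5919, nat_lit 5931, nat_lit 5923] (nat_lit 1) [nat_lit 3739] false,
   Spec.mk (nat_lit 5931) (nat_lit 0) [nat_lit 5445, nat_lit 6093, nat_lit 5877, nat_lit 5949, nat_lit 5925] (nat_lit 2) [nat_lit 3745] false,
   Spec.mk (nat_lit 5941) (nat_lit 1) [nat_lit 5455, nat_lit 6103, nat_lit 5887, nat_lit 5995, nat_lit 5923, nat_lit 5943] (nat_lit 0) [nat_lit 3755] false,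
   Spec.mk (nat_lit 5943) (nat_lit 0) [nat_lit 5457, nat_lit 6105, nat_lit 5889, nat_lit 5997, nat_lit 5925, nat_lit 5949, nat_lit 5941] (nat_lit 1) [nat_lit 3757] false,
   Spec.mk (nat_lit 5949) (nat_lit 0) [nat_lit 5463, nat_lit 6111, nat_lit 5895, nat_lit 6003, nat_lit 5931, nat_lit 5967, nat_lit 5943] (nat_lit 0) [nat_lit 3763] false,
   Spec.mk (nat_lit 5967) (nat_lit 0) [nat_lit 5481, nat_lit 6129, nat_lit 6021, nat_lit 5949] (nat_lit 0) [nat_lit 3781] false,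
   Spec.mk (nat_lit 5995) (nat_lit 0) [nat_lit 5509, nat_lit 6157, nat_lit 5941, nat_lit 5997] (nat_lit 0) [nat_lit 3809] false,
   Spec.mk (nat_lit 5997) (nat_lit 0) [nat_lit 5511, nat_lit 6159, nat_lit 5943, nat_lit 6003, nat_lit 5995] (nat_lit 2) [nat_lit 3811] false,
   Spec.mk (nat_lit 6003) (nat_lit 0) [nat_lit 5517, nat_lit 6165, nat_lit 5949, nat_lit 6021, nat_lit 5997] (nat_lit 2) [nat_lit 3817] false,
   Spec.mk (nat_lit 6021) (nat_lit 0) [nat_lit 5535, nat_lit 6183, nat_lit 5967, nat_lit 6003] (nat_lit 0) [nat_lit 3835] false,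
   Spec.mk (nat_lit 6077) (nat_lit 4) [nat_lit 5591, nat_lit 5915, nat_lit 6079] (nat_lit 0) [] false,
   Spec.mk (nat_lit 6079) (nat_lit 3) [nat_lit 5593, nat_lit 5917, nat_lit 6085, nat_lit 6077, nat_lit 6081] (nat_lit 0) [nat_lit 3893] false,
   Spec.mk (nat_lit 6081) (nat_lit 0) [nat_lit 5595, nat_lit 5919, nat_lit 6087, nat_lit 6079] (nat_lit 0) [nat_lit 3895] false,
   Spec.mk (nat_lit 6085) (nat_lit 2) [nat_lit 5599, nat_lit 5923, nat_lit 6103, nat_lit 6079, nat_lit 6087] (nat_lit 0) [nat_lit 3899] false,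
   Spec.mk (nat_lit 6087) (nat_lit 1) [nat_lit 5601, nat_lit 5925, nat_lit 6105, nat_lit 6081, nat_lit 6093, nat_lit 6085] (nat_lit 0) [nat_lit 3901] false,
   Spec.mk (nat_lit 6093) (nat_lit 0) [nat_lit 5607, nat_lit 5931, nat_lit 6111, nat_lit 6087] (nat_lit 0) [nat_lit 3907] false,
   Spec.mk (nat_lit 6103) (nat_lit 2) [nat_lit 5617, nat_lit 5941, nat_lit 6157, nat_lit 6085, nat_lit 6105] (nat_lit 0) [nat_lit 3917] false,
   Spec.mk (nat_lit 6105) (nat_lit 0) [nat_lit 5619, nat_lit 5943, nat_lit 6159, nat_lit 6087, nat_lit 6111, nat_lit 6103] (nat_lit 0) [nat_lit 3919] false,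
   Spec.mk (nat_lit 6111) (nat_lit 1) [nat_lit 5625, nat_lit 5949, nat_lit 6165, nat_lit 6093, nat_lit 6129, nat_lit 6105] (nat_lit 0) [nat_lit 3925] false,
   Spec.mk (nat_lit 6129) (nat_lit 0) [nat_lit 5643, nat_lit 5967, nat_lit 6183, nat_lit 6111] (nat_lit 0) [nat_lit 3943] false,
   Spec.mk (nat_lit 6157) (nat_lit 3) [nat_lit 5671, nat_lit 5995, nat_lit 6319, nat_lit 6103, nat_lit 6159] (nat_lit 0) [nat_lit 3971] false,
   Spec.mk (nat_lit 6159) (nat_lit 1) [nat_lit 5673, nat_lit 5997, nat_lit 6321, nat_lit 6105, nat_lit 6165, nat_lit 6157] (nat_lit 0) [nat_lit 3973] false,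
   Spec.mk (nat_lit 6165) (nat_lit 1) [nat_lit 5679, nat_lit 6003, nat_lit 6327, nat_lit 6111, nat_lit 6183, nat_lit 6159] (nat_lit 0) [nat_lit 3979] false,
   Spec.mk (nat_lit 6183) (nat_lit 2) [nat_lit 5697, nat_lit 6021, nat_lit 6345, nat_lit 6129, nat_lit 6237, nat_lit 6165] (nat_lit 0) [nat_lit 3997] false,
   Spec.mk (nat_lit 6237) (nat_lit 2) [nat_lit 5751, nat_lit 6399, nat_lit 6183] (nat_lit 0) [nat_lit 4051] false,
   Spec.mk (nat_lit 6319) (nat_lit 4) [nat_lit 6157, nat_lit 6321] (nat_lit 0) [nat_lit 4133] false,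
   Spec.mk (nat_lit 6321) (nat_lit 2) [nat_lit 6159, nat_lit 6327, nat_lit 6319] (nat_lit 0) [nat_lit 4135] false,
   Spec.mk (nat_lit 6327) (nat_lit 2) [nat_lit 6165, nat_lit 6345, nat_lit 6321] (nat_lit 0) [nat_lit 4141] false,
   Spec.mk (nat_lit 6345) (nat_lit 2) [nat_lit 6183, nat_lit 6399, nat_lit 6327] (nat_lit 0) [nat_lit 4159] false,
   Spec.mk (nat_lit 6399) (nat_lit 4) [nat_lit 6237, nat_lit 6345] (nat_lit 0) [nat_lit 4213] false]

noncomputable def specs : List (List Spec) :=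
    sp0 :: sp1 :: sp2 :: sp3 :: sp4 :: sp5 :: sp6 :: sp7 :: sp8 :: sp9 :: sp10 :: sp11 :: sp12 ::
    sp13 :: sp14 :: sp15 :: sp16 :: []

noncomputable def step (e : Nat → Nat) (C ap an : Nat) (k :
    Nat → Nat → Nat → Nat → Nat → Nat → Nat → Nat → Nat → Nat → Nat → Nat → Nat → Nat → Nat → Nat →
    Nat → Nat → Nat → Nat → Nat → Nat → Nat → Nat → Nat → Nat → Nat → Nat → Nat → Nat → Nat → Nat →
    Nat → Nat → Nat → Nat → Nat → Nat → Nat → Nat → Nat → Nat → Nat → Nat → Nat → Nat → Nat → Nat →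
    Nat → Nat → Nat → Nat → Nat → Nat → Nat → Nat → Nat → Nat → Nat → Nat → Nat → Nat → Nat → Nat →
    Nat → Nat → Nat → Nat → Nat → Nat → Nat → Nat → Nat → Nat → Nat → Nat → Nat → Nat → Nat → Nat →
    Nat → Nat → Nat → Nat → Nat → Nat → Nat → Nat → Nat → Nat → Nat → Nat → Nat → Nat → Nat → Nat →
    Nat → Nat → Nat → Nat → Nat → Nat → Nat → Nat → Nat → Nat → Nat → Nat → Nat → Nat → Nat → Nat →
    Nat → Nat → Nat → Nat → Nat → Nat → Nat → Nat → Nat → Nat → Nat → Nat → Nat → Nat → Nat → Nat →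
    Nat → Nat → Nat → Nat → Nat → Nat → Nat → Nat → Nat → Nat → Nat → Nat → Nat → Nat → Nat → Nat →
    Nat → Nat → Nat → Nat → Nat → Nat → Nat → Nat → Nat → Nat → Nat → Nat → Nat → Nat → Nat → Nat →
    Nat → Nat → Nat → Nat → Nat → Nat → Nat → Nat → Nat → Nat → Nat → Nat → Nat → Nat → Nat → Nat →
    Nat → Nat → Nat → Nat → Nat → Nat → Nat → Nat → Nat → Nat → Nat → Nat → Nat → Nat → Nat → Nat →
    Nat → Nat → Nat → Nat → Nat → Nat → Nat → Nat → Nat → Nat → Nat → Nat → Nat → Nat → Nat → Nat →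
    Nat → Nat → Nat → Nat → Nat → Nat → Nat → Nat → Nat → Nat → Nat → Nat → Nat → Nat → Nat → Nat →
    Nat → Nat → Nat → Nat → Nat → Nat → Nat → Nat → Nat → Nat → Nat → Nat → Nat → Nat → Nat → Nat →
    Nat → Nat → Nat → Nat → Nat → Nat → Nat → Nat → Nat → Nat → Nat → Nat → Nat → Nat → Nat → Nat →
    Nat → Nat → Nat → Nat → Nat → Nat → Nat → Nat → Nat → Nat → Nat → Nat → Nat → Nat → Nat → Nat →
    Nat → Nat → Nat → Nat → Nat → Nat → Nat → Nat → Nat → Nat → Nat → Nat → Nat → Nat → Nat → Nat →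
    Nat → Nat → Nat → Nat → Nat → Nat → Nat → Nat → Nat → Nat → Nat → Nat → Nat → Nat → Nat → Nat →
    Nat → Nat → Nat → Nat → Nat → Nat → Nat → Nat → Nat → Nat → Nat → Nat → Nat → Nat → Nat → Nat →
    Nat → Nat → Nat → Nat → Nat → Nat → Nat → Nat → Nat → Nat → Nat → Nat → Nat → Nat → Nat → Nat →
    Nat → Nat → Nat → Nat → Nat → Nat → Nat → Nat → Nat → Nat → Nat → Nat → Nat → Nat → Nat → Nat →
    Nat → Nat → Nat → Nat → Nat → Nat → Nat → Nat → Nat → Nat → Nat → Nat → Nat → Nat → Nat → Nat →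
    Nat → Nat → Nat → Nat → Nat → Nat → Nat → Nat → Nat → Nat → Nat → Nat → Nat → Nat → Nat → Nat →
    Nat → Nat → Nat → Nat → Nat → Nat → Nat → Nat → Nat → Nat → Nat → Nat → Nat → Nat → Nat → Nat →
    Nat → Nat → Nat → Nat → Nat → Nat → Nat → Nat → Nat → Nat → Nat → Nat → Nat → Nat → Nat → Nat →
    Nat → Nat → Nat → Nat → Nat → Nat → Nat → Nat → Nat → Nat → Nat → Nat → Nat → Nat → Nat → Nat →
    Nat → Nat → Nat → Nat → Nat → Nat → Nat → Nat → Nat → Nat → Nat → Nat → Nat → Nat → Nat → Nat →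
    Nat → Nat → Nat → Nat → Nat → Nat → Nat → Nat → Nat → Nat → Nat → Nat → Nat → Nat → Nat → Nat →
    Nat → Nat → Nat → Nat → Nat → Nat → Nat → Nat → Nat → Nat → Nat → Nat → Nat → Nat → Nat → Nat →
    Nat → Nat → Nat → Nat → Nat → Nat → Nat → Nat → Nat → Nat → Nat → Nat → Nat → Nat → Nat → Nat →
    Nat → Nat → Nat → Nat → Nat → Nat → Nat → Nat → Nat → Nat → Nat → Nat → Nat → Nat → Nat → Nat →
    Nat → Nat → Nat → Nat → Nat → Nat → Nat → Nat → Nat → Nat → Nat → Nat → Nat → Nat → Nat → Nat →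
    Nat → Nat → Nat → Nat → Nat → Nat → Nat → Nat → Nat → Nat → Nat → Nat → Nat → Nat → Nat → Nat →
    Nat → Nat → Nat → Nat → Nat → Nat → Nat → Nat → Nat → Nat → Nat → Nat → Nat → Nat → Nat → Nat →
    Nat → Nat → Nat → Nat → Nat → Nat → Nat → Nat → Nat → Nat → Nat → Nat → Nat → Nat → Nat → Nat →
    Nat → Nat → Nat → Nat → Nat → Nat → Nat → Nat → Nat → Nat → Nat → Nat → Nat → Nat → Nat → Nat →
    Nat → Nat → Nat → Nat → Nat → Nat → Nat → Nat → Nat → Nat → Nat → Nat → Nat → Nat → Nat → Nat →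
    Nat → Nat → Nat → Nat → Nat → Nat → Nat → Nat → Nat → Nat → Nat → Nat → Nat → Nat → Nat → Nat →
    Nat → Nat → Nat → Nat → Nat → Nat → Nat → Nat → Nat → Nat → Nat → Nat → Nat → Nat → Nat → Nat →
    Nat → Nat → Nat → Nat → Nat → Nat → Nat → Nat → Nat → Nat → Nat → Nat → Nat → Nat → Nat → Nat →
    Nat → Nat → Nat → Nat → Nat → Nat → Nat → Nat → Nat → Nat → Nat → Nat → Nat → Nat → Nat → Nat →
    Nat → Nat → Nat → Nat → Nat → Nat → Nat → Nat → Nat → Nat → Nat → Nat → Nat → Nat → Nat → Nat →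
    Nat → Nat → Nat → Nat → Nat → Nat → Nat → Nat → Nat → Nat → Nat → Nat → Nat → Nat → Nat → Nat →
    Nat → Nat → Nat → Nat → Nat → Nat → Nat → Nat → Nat → Nat → Nat → Nat → Nat → Nat → Nat → Nat →
    Nat → Nat → Nat → Nat → Nat → Nat → Nat → Nat → Nat → Nat → Nat → Nat → Nat → Nat → Nat → Nat →
    Nat → Nat → Nat → Nat → Nat → Nat → Nat → Nat → Nat → Nat → Nat → Nat → Nat → Nat → Nat → Nat →
    Nat → Nat → Nat → Nat → Nat → Nat → Nat → Nat → Nat → Nat → Nat → Nat → Nat → Nat → Nat → Nat →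
    Nat → Nat → Nat → Nat → Nat → Nat → Nat → Nat → Nat → Nat → Nat → Nat → Nat → Nat → Nat → Nat →
    Nat → Nat → Nat → Nat → Nat → Nat → Nat → Nat → Nat → Nat → Nat → Nat → Nat → Nat → Nat → Nat →
    Nat → Nat → Nat → Nat → Nat → Nat → Nat → Nat → Nat → Nat → Nat → Nat → Nat → Nat → Nat → Nat →
    Nat → Nat → Nat → Nat → Nat → Nat → Nat → Nat → Nat → Nat → Nat → Nat → Nat → Nat → Nat → Nat →
    Nat → Nat → Nat → Nat → Nat → Nat → Nat → Nat → Nat → Nat → Nat → Nat → Nat → Nat → Nat → Nat →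
    Nat → Nat → Nat → Nat → Nat → Nat → Nat → Nat → Nat → Nat → Nat → Nat → Nat → Nat → Nat → Nat →
    Nat → Nat → Nat → Nat → Nat → Nat → Nat → Nat → Nat → Nat → Nat → Nat → Nat → Nat → Nat → Nat →
    Nat → Nat → Nat → Nat → Nat → Nat → Nat → Nat → Nat → Nat → Nat → Nat → Nat → Nat → Nat → Nat →
    Nat → Nat → Nat → Nat → Nat → Nat → Nat → Nat → Nat → Nat → Nat → Nat → Nat → Nat → Nat → Nat →
    Nat → Nat → Nat → Nat → Nat → Nat → Nat → Nat → Nat → Nat → Nat → Nat → Nat → Nat → Nat → Nat →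
    Nat → Nat → Nat → Nat → Nat → Nat → Nat → Nat → Nat → Nat → Nat → Nat → Nat → Nat → Nat → Nat →
    Nat → Nat → Nat → Nat → Nat → Nat → Nat → Nat → Nat → Nat → Nat → Nat → Nat → Nat → Nat → Nat →
    Nat → Nat → Nat → Nat → Nat → Nat → Nat → Nat → Nat → Nat → Nat → Nat → Nat → Nat → Nat → Nat →
    Nat → Nat → Nat → Nat → Nat → Nat → Nat → Nat → Nat → Nat → Nat → Nat → Nat → Nat → Nat → Nat →
    Nat → Nat → Nat → Nat → Nat → Nat → Nat → Nat → Nat → Nat → Nat → Nat → Nat → Nat → Nat → Nat →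
    Nat → Nat → Nat → Nat → Nat → Nat → Nat → Nat → Bool)
  (
    x53 x71 x77 x79 x107 x125 x131 x133 x143 x149 x151 x155 x157 x159 x179 x185 x187 x197 x203 x205
    x209 x211 x213 x221 x223 x227 x229 x231 x235 x237 x269 x287 x293 x295 x305 x311 x313 x317 x319
    x321 x341 x347 x349 x359 x365 x367 x371 x373 x375 x383 x385 x389 x391 x393 x397 x399 x413 x419
    x421 x425 x427 x429 x437 x439 x443 x445 x447 x451 x453 x461 x463 x465 x469 x471 x477 x503 x509
    x511 x521 x527 x529 x533 x535 x537 x545 x547 x551 x553 x555 x559 x561 x575 x581 x583 x587 x589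
    x591 x599 x601 x605 x607 x609 x613 x615 x623 x625 x627 x631 x633 x639 x653 x655 x659 x661 x663
    x667 x669 x677 x679 x681 x685 x687 x693 x703 x705 x711 x755 x773 x779 x781 x791 x797 x799 x803
    x805 x807 x827 x833 x835 x845 x851 x853 x857 x859 x861 x869 x871 x875 x877 x879 x883 x885 x899
    x905 x907 x911 x913 x915 x923 x925 x929 x931 x933 x937 x939 x947 x949 x951 x955 x957 x963 x989
    x995 x997 x1007 x1013 x1015 x1019 x1021 x1023 x1031 x1033 x1037 x1039 x1041 x1045 x1047 x1061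
    x1067 x1069 x1073 x1075 x1077 x1085 x1087 x1091 x1093 x1095 x1099 x1101 x1109 x1111 x1113 x1117
    x1119 x1125 x1139 x1141 x1145 x1147 x1149 x1153 x1155 x1163 x1165 x1167 x1171 x1173 x1179 x1189
    x1191 x1197 x1223 x1229 x1231 x1235 x1237 x1239 x1247 x1249 x1253 x1255 x1257 x1261 x1263 x1271
    x1273 x1275 x1279 x1281 x1287 x1301 x1303 x1307 x1309 x1311 x1315 x1317 x1325 x1327 x1329 x1333
    x1335 x1341 x1351 x1353 x1359 x1379 x1381 x1383 x1387 x1389 x1395 x1405 x1407 x1413 x1431 x1475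
    x1481 x1483 x1493 x1499 x1501 x1505 x1507 x1509 x1517 x1519 x1523 x1525 x1527 x1531 x1533 x1547
    x1553 x1555 x1559 x1561 x1563 x1571 x1573 x1577 x1579 x1581 x1585 x1587 x1595 x1597 x1599 x1603
    x1605 x1611 x1625 x1627 x1631 x1633 x1635 x1639 x1641 x1649 x1651 x1653 x1657 x1659 x1665 x1675
    x1677 x1683 x1709 x1715 x1717 x1721 x1723 x1725 x1733 x1735 x1739 x1741 x1743 x1747 x1749 x1757
    x1759 x1761 x1765 x1767 x1773 x1787 x1789 x1793 x1795 x1797 x1801 x1803 x1811 x1813 x1815 x1819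
    x1821 x1827 x1837 x1839 x1845 x1865 x1867 x1869 x1873 x1875 x1881 x1891 x1893 x1899 x1917 x1949
    x1951 x1955 x1957 x1959 x1963 x1965 x1973 x1975 x1977 x1981 x1983 x1989 x1999 x2001 x2007 x2027
    x2029 x2031 x2035 x2037 x2043 x2053 x2055 x2061 x2079 x2107 x2109 x2115 x2133 x2213 x2231 x2237
    x2239 x2249 x2255 x2257 x2261 x2263 x2265 x2285 x2291 x2293 x2303 x2309 x2311 x2315 x2317 x2319
    x2327 x2329 x2333 x2335 x2337 x2341 x2343 x2357 x2363 x2365 x2369 x2371 x2373 x2381 x2383 x2387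
    x2389 x2391 x2395 x2397 x2405 x2407 x2409 x2413 x2415 x2421 x2447 x2453 x2455 x2465 x2471 x2473
    x2477 x2479 x2481 x2489 x2491 x2495 x2497 x2499 x2503 x2505 x2519 x2525 x2527 x2531 x2533 x2535
    x2543 x2545 x2549 x2551 x2553 x2557 x2559 x2567 x2569 x2571 x2575 x2577 x2583 x2597 x2599 x2603
    x2605 x2607 x2611 x2613 x2621 x2623 x2625 x2629 x2631 x2637 x2647 x2649 x2655 x2681 x2687 x2689
    x2693 x2695 x2697 x2705 x2707 x2711 x2713 x2715 x2719 x2721 x2729 x2731 x2733 x2737 x2739 x2745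
    x2759 x2761 x2765 x2767 x2769 x2773 x2775 x2783 x2785 x2787 x2791 x2793 x2799 x2809 x2811 x2817
    x2837 x2839 x2841 x2845 x2847 x2853 x2863 x2865 x2871 x2889 x2933 x2939 x2941 x2951 x2957 x2959
    x2963 x2965 x2967 x2975 x2977 x2981 x2983 x2985 x2989 x2991 x3005 x3011 x3013 x3017 x3019 x3021
    x3029 x3031 x3035 x3037 x3039 x3043 x3045 x3053 x3055 x3057 x3061 x3063 x3069 x3083 x3085 x3089
    x3091 x3093 x3097 x3099 x3107 x3109 x3111 x3115 x3117 x3123 x3133 x3135 x3141 x3167 x3173 x3175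
    x3179 x3181 x3183 x3191 x3193 x3197 x3199 x3201 x3205 x3207 x3215 x3217 x3219 x3223 x3225 x3231
    x3245 x3247 x3251 x3253 x3255 x3259 x3261 x3269 x3271 x3273 x3277 x3279 x3285 x3295 x3297 x3303
    x3323 x3325 x3327 x3331 x3333 x3339 x3349 x3351 x3357 x3375 x3407 x3409 x3413 x3415 x3417 x3421
    x3423 x3431 x3433 x3435 x3439 x3441 x3447 x3457 x3459 x3465 x3485 x3487 x3489 x3493 x3495 x3501
    x3511 x3513 x3519 x3537 x3565 x3567 x3573 x3591 x3653 x3659 x3661 x3665 x3667 x3669 x3677 x3679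
    x3683 x3685 x3687 x3691 x3693 x3701 x3703 x3705 x3709 x3711 x3717 x3731 x3733 x3737 x3739 x3741
    x3745 x3747 x3755 x3757 x3759 x3763 x3765 x3771 x3781 x3783 x3789 x3809 x3811 x3813 x3817 x3819
    x3825 x3835 x3837 x3843 x3861 x3893 x3895 x3899 x3901 x3903 x3907 x3909 x3917 x3919 x3921 x3925
    x3927 x3933 x3943 x3945 x3951 x3971 x3973 x3975 x3979 x3981 x3987 x3997 x3999 x4005 x4023 x4051
    x4053 x4059 x4077 x4133 x4135 x4137 x4141 x4143 x4149 x4159 x4161 x4167 x4185 x4213 x4215 x4221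
    x4239 x4293 x4391 x4397 x4399 x4409 x4415 x4417 x4421 x4423 x4425 x4433 x4435 x4439 x4441 x4443
    x4447 x4449 x4463 x4469 x4471 x4475 x4477 x4479 x4487 x4489 x4493 x4495 x4497 x4501 x4503 x4511
    x4513 x4515 x4519 x4521 x4527 x4541 x4543 x4547 x4549 x4551 x4555 x4557 x4565 x4567 x4569 x4573
    x4575 x4581 x4591 x4593 x4599 x4625 x4631 x4633 x4637 x4639 x4641 x4649 x4651 x4655 x4657 x4659
    x4663 x4665 x4673 x4675 x4677 x4681 x4683 x4689 x4703 x4705 x4709 x4711 x4713 x4717 x4719 x4727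
    x4729 x4731 x4735 x4737 x4743 x4753 x4755 x4761 x4781 x4783 x4785 x4789 x4791 x4797 x4807 x4809
    x4815 x4833 x4865 x4867 x4871 x4873 x4875 x4879 x4881 x4889 x4891 x4893 x4897 x4899 x4905 x4915
    x4917 x4923 x4943 x4945 x4947 x4951 x4953 x4959 x4969 x4971 x4977 x4995 x5023 x5025 x5031 x5049
    x5111 x5117 x5119 x5123 x5125 x5127 x5135 x5137 x5141 x5143 x5145 x5149 x5151 x5159 x5161 x5163
    x5167 x5169 x5175 x5189 x5191 x5195 x5197 x5199 x5203 x5205 x5213 x5215 x5217 x5221 x5223 x5229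
    x5239 x5241 x5247 x5267 x5269 x5271 x5275 x5277 x5283 x5293 x5295 x5301 x5319 x5351 x5353 x5357
    x5359 x5361 x5365 x5367 x5375 x5377 x5379 x5383 x5385 x5391 x5401 x5403 x5409 x5429 x5431 x5433
    x5437 x5439 x5445 x5455 x5457 x5463 x5481 x5509 x5511 x5517 x5535 x5591 x5593 x5595 x5599 x5601
    x5607 x5617 x5619 x5625 x5643 x5671 x5673 x5679 x5697 x5751 x5837 x5839 x5843 x5845 x5847 x5851
    x5853 x5861 x5863 x5865 x5869 x5871 x5877 x5887 x5889 x5895 x5915 x5917 x5919 x5923 x5925 x5931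
    x5941 x5943 x5949 x5967 x5995 x5997 x6003 x6021 x6077 x6079 x6081 x6085 x6087 x6093 x6103 x6105
    x6111 x6129 x6157 x6159 x6165 x6183 x6237 x6319 x6321 x6327 x6345 x6399 : Nat) : Bool :=
  k
    (Nat.sub (Nat.sub (Nat.add (Nat.add (Nat.add (Nat.add C (Nat.mul x53 (nat_lit 4))) x107) x71) (Nat.mul (e (nat_lit 53)) ap)) x2239) (Nat.mul (e (nat_lit 53)) an))
    (Nat.sub (Nat.sub (Nat.add (Nat.add (Nat.add (Nat.add (Nat.add C (Nat.mul x71 (nat_lit 2))) x125) x53) x77) (Nat.mul (e (nat_lit 71)) ap)) x2257) (Nat.mul (e (nat_lit 71)) an))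
    (Nat.sub (Nat.add (Nat.add (Nat.add (Nat.add C (Nat.mul x77 (nat_lit 2))) x131) x71) x79) x2263)
    (Nat.sub (Nat.add (Nat.add (Nat.add C (Nat.mul x79 (nat_lit 4))) x133) x77) x2265)
    (Nat.sub (Nat.sub (Nat.add (Nat.add (Nat.add (Nat.add (Nat.add C (Nat.mul x107 (nat_lit 2))) x269) x53) x125) (Nat.mul (e (nat_lit 107)) ap)) x2293) (Nat.mul (e (nat_lit 107)) an))
    (Nat.sub (Nat.sub (Nat.add (Nat.add (Nat.add (Nat.add (Nat.add (Nat.add (Nat.add (Nat.add C (Nat.mul x125 (nat_lit 2))) x287) x71) x179) x107) x143) x131) (Nat.mul (e (nat_lit 125)) ap)) x2311) (Nat.mul (e (nat_lit 125)) an))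
    (Nat.sub (Nat.sub (Nat.add (Nat.add (Nat.add (Nat.add (Nat.add (Nat.add (Nat.add (Nat.add C x131) x293) x77) x185) x149) x125) x133) (Nat.mul (e (nat_lit 131)) ap)) x2317) (Nat.mul (e (nat_lit 131)) an))
    (Nat.sub (Nat.sub (Nat.add (Nat.add (Nat.add (Nat.add (Nat.add (Nat.add (Nat.add C (Nat.mul x133 (nat_lit 3))) x295) x79) x187) x151) x131) (Nat.mul (e (nat_lit 133)) ap)) x2319) (Nat.mul (e (nat_lit 133)) an))
    (Nat.sub (Nat.sub (Nat.add (Nat.add (Nat.add (Nat.add (Nat.add C x305) x197) x125) x149) (Nat.mul (e (nat_lit 143)) ap)) x2329) (Nat.mul (e (nat_lit 143)) an))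
    (Nat.sub (Nat.sub (Nat.add (Nat.add (Nat.add (Nat.add (Nat.add (Nat.add (Nat.add (Nat.add C x149) x311) x203) x131) x143) x155) x151) (Nat.mul (e (nat_lit 149)) ap)) x2335) (Nat.mul (e (nat_lit 149)) an))
    (Nat.sub (Nat.sub (Nat.add (Nat.add (Nat.add (Nat.add (Nat.add (Nat.add (Nat.add C (Nat.mul x151 (nat_lit 2))) x313) x205) x133) x157) x149) (Nat.mul (e (nat_lit 151)) ap)) x2337) (Nat.mul (e (nat_lit 151)) an))
    (Nat.sub (Nat.sub (Nat.add (Nat.add (Nat.add (Nat.add (Nat.add C x317) x209) x149) x157) (Nat.mul (e (nat_lit 155)) ap)) x2341) (Nat.mul (e (nat_lit 155)) an))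
    (Nat.sub (Nat.add (Nat.add (Nat.add (Nat.add (Nat.add (Nat.add C (Nat.mul x157 (nat_lit 3))) x319) x211) x151) x155) x159) x2343)
    (Nat.add (Nat.add (Nat.add (Nat.add C (Nat.mul x159 (nat_lit 4))) x321) x213) x157)
    (Nat.sub (Nat.sub (Nat.add (Nat.add (Nat.add (Nat.add (Nat.add C x341) x125) x197) x185) (Nat.mul (e (nat_lit 179)) ap)) x2365) (Nat.mul (e (nat_lit 179)) an))
    (Nat.sub (Nat.sub (Nat.sub (Nat.add (Nat.add (Nat.add (Nat.add (Nat.add (Nat.add C x347) x131) x203) x179) x187) (Nat.mul (e (nat_lit 185)) ap)) (Nat.mul x185 (nat_lit 2))) x2371) (Nat.mul (e (nat_lit 185)) an))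
    (Nat.sub (Nat.add (Nat.add (Nat.add (Nat.add C x349) x133) x205) x185) x2373)
    (Nat.sub (Nat.sub (Nat.add (Nat.add (Nat.add (Nat.add (Nat.add C x359) x143) x179) x203) (Nat.mul (e (nat_lit 197)) ap)) x2383) (Nat.mul (e (nat_lit 197)) an))
    (Nat.sub (Nat.sub (Nat.add (Nat.add (Nat.add (Nat.add (Nat.add (Nat.add (Nat.add (Nat.add C x365) x149) x185) x221) x197) x209) x205) (Nat.mul (e (nat_lit 203)) ap)) x2389) (Nat.mul (e (nat_lit 203)) an))
    (Nat.sub (Nat.add (Nat.add (Nat.add (Nat.add (Nat.add (Nat.add (Nat.add C x205) x367) x151) x187) x223) x211) x203) x2391)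
    (Nat.sub (Nat.sub (Nat.add (Nat.add (Nat.add (Nat.add (Nat.add C x371) x155) x227) x203) x211) (Nat.mul x209 (nat_lit 2))) x2395)
    (Nat.sub (Nat.add (Nat.add (Nat.add (Nat.add (Nat.add (Nat.add (Nat.add C x211) x373) x157) x229) x205) x209) x213) x2397)
    (Nat.add (Nat.add (Nat.add (Nat.add (Nat.add C (Nat.mul x213 (nat_lit 2))) x375) x159) x231) x211)
    (Nat.sub (Nat.add (Nat.add (Nat.add (Nat.add C x383) x203) x227) x223) x2407)
    (Nat.sub (Nat.add (Nat.add (Nat.add (Nat.add C x385) x205) x229) x221) x2409)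
    (Nat.sub (Nat.add (Nat.add (Nat.add (Nat.add C x389) x209) x221) x229) x2413)
    (Nat.sub (Nat.add (Nat.add (Nat.add (Nat.add (Nat.add (Nat.add (Nat.add C (Nat.mul x229 (nat_lit 2))) x391) x211) x223) x235) x227) x231) x2415)
    (Nat.add (Nat.add (Nat.add (Nat.add (Nat.add C (Nat.mul x231 (nat_lit 2))) x393) x213) x237) x229)
    (Nat.sub (Nat.add (Nat.add (Nat.add (Nat.add C (Nat.mul x235 (nat_lit 2))) x397) x229) x237) x2421)
    (Nat.add (Nat.add (Nat.add (Nat.add C (Nat.mul x237 (nat_lit 4))) x399) x231) x235)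
    (Nat.sub (Nat.sub (Nat.add (Nat.add (Nat.add (Nat.add (Nat.add C (Nat.mul x269 (nat_lit 2))) x755) x107) x287) (Nat.mul (e (nat_lit 269)) ap)) x2455) (Nat.mul (e (nat_lit 269)) an))
    (Nat.sub (Nat.sub (Nat.add (Nat.add (Nat.add (Nat.add (Nat.add (Nat.add (Nat.add (Nat.add C x287) x773) x125) x341) x269) x305) x293) (Nat.mul (e (nat_lit 287)) ap)) x2473) (Nat.mul (e (nat_lit 287)) an))
    (Nat.sub (Nat.sub (Nat.add (Nat.add (Nat.add (Nat.add (Nat.add (Nat.add (Nat.add C x779) x131) x347) x311) x287) x295) (Nat.mul (e (nat_lit 293)) ap)) x2479) (Nat.mul (e (nat_lit 293)) an))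
    (Nat.sub (Nat.sub (Nat.add (Nat.add (Nat.add (Nat.add (Nat.add (Nat.add (Nat.add C (Nat.mul x295 (nat_lit 2))) x781) x133) x349) x313) x293) (Nat.mul (e (nat_lit 295)) ap)) x2481) (Nat.mul (e (nat_lit 295)) an))
    (Nat.sub (Nat.sub (Nat.sub (Nat.add (Nat.add (Nat.add (Nat.add (Nat.add (Nat.add C x791) x143) x359) x287) x311) (Nat.mul (e (nat_lit 305)) ap)) (Nat.mul x305 (nat_lit 2))) x2491) (Nat.mul (e (nat_lit 305)) an))
    (Nat.sub (Nat.sub (Nat.sub (Nat.add (Nat.add (Nat.add (Nat.add (Nat.add (Nat.add (Nat.add (Nat.add C x797) x149) x365) x293) x305) x317) x313) (Nat.mul (e (nat_lit 311)) ap)) x311) x2497) (Nat.mul (e (nat_lit 311)) an))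
    (Nat.sub (Nat.sub (Nat.add (Nat.add (Nat.add (Nat.add (Nat.add (Nat.add (Nat.add C x799) x151) x367) x295) x319) x311) (Nat.mul (e (nat_lit 313)) ap)) x2499) (Nat.mul (e (nat_lit 313)) an))
    (Nat.sub (Nat.sub (Nat.sub (Nat.add (Nat.add (Nat.add (Nat.add (Nat.add (Nat.add C x803) x155) x371) x311) x319) (Nat.mul (e (nat_lit 317)) ap)) (Nat.mul x317 (nat_lit 2))) x2503) (Nat.mul (e (nat_lit 317)) an))
    (Nat.sub (Nat.sub (Nat.add (Nat.add (Nat.add (Nat.add (Nat.add (Nat.add (Nat.add (Nat.add C x319) x805) x157) x373) x313) x317) x321) (Nat.mul (e (nat_lit 319)) ap)) x2505) (Nat.mul (e (nat_lit 319)) an))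
    (Nat.add (Nat.add (Nat.add (Nat.add (Nat.add C (Nat.mul x321 (nat_lit 2))) x807) x159) x375) x319)
    (Nat.sub (Nat.sub (Nat.add (Nat.add (Nat.add (Nat.add (Nat.add (Nat.add (Nat.add (Nat.add C x341) x827) x179) x503) x287) x359) x347) (Nat.mul (e (nat_lit 341)) ap)) x2527) (Nat.mul (e (nat_lit 341)) an))
    (Nat.sub (Nat.sub (Nat.sub (Nat.add (Nat.add (Nat.add (Nat.add (Nat.add (Nat.add (Nat.add (Nat.add C x833) x185) x509) x293) x365) x341) x349) (Nat.mul (e (nat_lit 347)) ap)) x347) x2533) (Nat.mul (e (nat_lit 347)) an))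
    (Nat.sub (Nat.sub (Nat.add (Nat.add (Nat.add (Nat.add (Nat.add (Nat.add (Nat.add (Nat.add C x349) x835) x187) x511) x295) x367) x347) (Nat.mul (e (nat_lit 349)) ap)) x2535) (Nat.mul (e (nat_lit 349)) an))
    (Nat.sub (Nat.sub (Nat.add (Nat.add (Nat.add (Nat.add (Nat.add (Nat.add (Nat.add (Nat.add C x845) x197) x521) x305) x413) x341) x365) (Nat.mul (e (nat_lit 359)) ap)) x2545) (Nat.mul (e (nat_lit 359)) an))
    (Nat.sub (Nat.sub (Nat.add (Nat.add (Nat.add (Nat.add (Nat.add (Nat.add (Nat.add (Nat.add (Nat.add (Nat.add (Nat.add C x851) x203) x527) x311) x419) x347) x383) x359) x371) x367) (Nat.mul (e (nat_lit 365)) ap)) x2551) (Nat.mul (e (nat_lit 365)) an))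
    (Nat.sub (Nat.sub (Nat.add (Nat.add (Nat.add (Nat.add (Nat.add (Nat.add (Nat.add (Nat.add (Nat.add (Nat.add (Nat.add C x367) x853) x205) x529) x313) x421) x349) x385) x373) x365) (Nat.mul (e (nat_lit 367)) ap)) x2553) (Nat.mul (e (nat_lit 367)) an))
    (Nat.sub (Nat.sub (Nat.sub (Nat.add (Nat.add (Nat.add (Nat.add (Nat.add (Nat.add (Nat.add (Nat.add (Nat.add C x857) x209) x533) x317) x425) x389) x365) x373) (Nat.mul (e (nat_lit 371)) ap)) (Nat.mul x371 (nat_lit 2))) x2557) (Nat.mul (e (nat_lit 371)) an))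
    (Nat.sub (Nat.sub (Nat.add (Nat.add (Nat.add (Nat.add (Nat.add (Nat.add (Nat.add (Nat.add (Nat.add (Nat.add (Nat.add C x373) x859) x211) x535) x319) x427) x391) x367) x371) x375) (Nat.mul (e (nat_lit 373)) ap)) x2559) (Nat.mul (e (nat_lit 373)) an))
    (Nat.add (Nat.add (Nat.add (Nat.add (Nat.add (Nat.add (Nat.add (Nat.add C (Nat.mul x375 (nat_lit 2))) x861) x213) x537) x321) x429) x393) x373)
    (Nat.sub (Nat.sub (Nat.sub (Nat.add (Nat.add (Nat.add (Nat.add (Nat.add (Nat.add (Nat.add (Nat.add C x869) x221) x545) x437) x365) x389) x385) (Nat.mul (e (nat_lit 383)) ap)) x383) x2569) (Nat.mul (e (nat_lit 383)) an))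
    (Nat.sub (Nat.sub (Nat.sub (Nat.add (Nat.add (Nat.add (Nat.add (Nat.add (Nat.add (Nat.add (Nat.add C x871) x223) x547) x439) x367) x391) x383) (Nat.mul (e (nat_lit 385)) ap)) x385) x2571) (Nat.mul (e (nat_lit 385)) an))
    (Nat.sub (Nat.sub (Nat.sub (Nat.add (Nat.add (Nat.add (Nat.add (Nat.add (Nat.add (Nat.add (Nat.add C x875) x227) x551) x443) x371) x383) x391) (Nat.mul (e (nat_lit 389)) ap)) x389) x2575) (Nat.mul (e (nat_lit 389)) an))
    (Nat.sub (Nat.add (Nat.add (Nat.add (Nat.add (Nat.add (Nat.add (Nat.add (Nat.add (Nat.add (Nat.add C x391) x877) x229) x553) x445) x373) x385) x397) x389) x393) x2577)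
    (Nat.add (Nat.add (Nat.add (Nat.add (Nat.add (Nat.add (Nat.add (Nat.add C x393) x879) x231) x555) x447) x375) x399) x391)
    (Nat.sub (Nat.add (Nat.add (Nat.add (Nat.add (Nat.add (Nat.add (Nat.add C x397) x883) x235) x559) x451) x391) x399) x2583)
    (Nat.add (Nat.add (Nat.add (Nat.add (Nat.add (Nat.add (Nat.add C (Nat.mul x399 (nat_lit 3))) x885) x237) x561) x453) x393) x397)
    (Nat.sub (Nat.sub (Nat.add (Nat.add (Nat.add (Nat.add (Nat.add C x899) x575) x359) x419) (Nat.mul (e (nat_lit 413)) ap)) x2599) (Nat.mul (e (nat_lit 413)) an))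
    (Nat.sub (Nat.sub (Nat.sub (Nat.add (Nat.add (Nat.add (Nat.add (Nat.add (Nat.add (Nat.add (Nat.add C x905) x581) x365) x437) x413) x425) x421) (Nat.mul (e (nat_lit 419)) ap)) x419) x2605) (Nat.mul (e (nat_lit 419)) an))
    (Nat.sub (Nat.sub (Nat.add (Nat.add (Nat.add (Nat.add (Nat.add (Nat.add (Nat.add C x907) x583) x367) x439) x427) x419) (Nat.mul (e (nat_lit 421)) ap)) x2607) (Nat.mul (e (nat_lit 421)) an))
    (Nat.sub (Nat.sub (Nat.sub (Nat.add (Nat.add (Nat.add (Nat.add (Nat.add (Nat.add (Nat.add C x911) x587) x371) x443) x419) x427) (Nat.mul (e (nat_lit 425)) ap)) (Nat.mul x425 (nat_lit 4))) x2611) (Nat.mul (e (nat_lit 425)) an))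
    (Nat.sub (Nat.sub (Nat.add (Nat.add (Nat.add (Nat.add (Nat.add (Nat.add (Nat.add C x913) x589) x373) x445) x421) x425) x429) x427) x2613)
    (Nat.add (Nat.add (Nat.add (Nat.add (Nat.add C x915) x591) x375) x447) x427)
    (Nat.sub (Nat.sub (Nat.add (Nat.add (Nat.add (Nat.add (Nat.add (Nat.add (Nat.add C x923) x599) x383) x419) x443) x439) (Nat.mul (e (nat_lit 437)) ap)) x2623) (Nat.mul (e (nat_lit 437)) an))
    (Nat.sub (Nat.add (Nat.add (Nat.add (Nat.add (Nat.add (Nat.add C x925) x601) x385) x421) x445) x437) x2625)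
    (Nat.sub (Nat.sub (Nat.sub (Nat.add (Nat.add (Nat.add (Nat.add (Nat.add (Nat.add (Nat.add (Nat.add C x929) x605) x389) x425) x461) x437) x445) (Nat.mul (e (nat_lit 443)) ap)) x443) x2629) (Nat.mul (e (nat_lit 443)) an))
    (Nat.sub (Nat.add (Nat.add (Nat.add (Nat.add (Nat.add (Nat.add (Nat.add (Nat.add (Nat.add (Nat.add C x445) x931) x607) x391) x427) x463) x439) x451) x443) x447) x2631)
    (Nat.add (Nat.add (Nat.add (Nat.add (Nat.add (Nat.add (Nat.add (Nat.add C x447) x933) x609) x393) x429) x465) x453) x445)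
    (Nat.sub (Nat.add (Nat.add (Nat.add (Nat.add (Nat.add (Nat.add C x937) x613) x397) x469) x445) x453) x2637)
    (Nat.add (Nat.add (Nat.add (Nat.add (Nat.add (Nat.add (Nat.add C (Nat.mul x453 (nat_lit 2))) x939) x615) x399) x471) x447) x451)
    (Nat.sub (Nat.sub (Nat.add (Nat.add (Nat.add (Nat.add (Nat.add C x947) x623) x443) x463) (Nat.mul (e (nat_lit 461)) ap)) x2647) (Nat.mul (e (nat_lit 461)) an))
    (Nat.sub (Nat.add (Nat.add (Nat.add (Nat.add (Nat.add (Nat.add (Nat.add C x463) x949) x625) x445) x469) x461) x465) x2649)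
    (Nat.add (Nat.add (Nat.add (Nat.add (Nat.add C x951) x627) x447) x471) x463)
    (Nat.sub (Nat.add (Nat.add (Nat.add (Nat.add (Nat.add (Nat.add C (Nat.mul x469 (nat_lit 2))) x955) x631) x451) x463) x471) x2655)
    (Nat.add (Nat.add (Nat.add (Nat.add (Nat.add (Nat.add (Nat.add C (Nat.mul x471 (nat_lit 3))) x957) x633) x453) x465) x477) x469)
    (Nat.add (Nat.add (Nat.add (Nat.add C (Nat.mul x477 (nat_lit 4))) x963) x639) x471)
    (Nat.sub (Nat.add (Nat.add (Nat.add (Nat.add C x989) x341) x521) x509) x2689)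
    (Nat.sub (Nat.sub (Nat.sub (Nat.add (Nat.add (Nat.add (Nat.add (Nat.add (Nat.add C x995) x347) x527) x503) x511) (Nat.mul (e (nat_lit 509)) ap)) (Nat.mul x509 (nat_lit 2))) x2695) (Nat.mul (e (nat_lit 509)) an))
    (Nat.sub (Nat.add (Nat.add (Nat.add (Nat.add C x997) x349) x529) x509) x2697)
    (Nat.sub (Nat.sub (Nat.sub (Nat.add (Nat.add (Nat.add (Nat.add (Nat.add (Nat.add C x1007) x359) x575) x503) x527) (Nat.mul (e (nat_lit 521)) ap)) (Nat.mul x521 (nat_lit 2))) x2707) (Nat.mul (e (nat_lit 521)) an))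
    (Nat.sub (Nat.sub (Nat.sub (Nat.add (Nat.add (Nat.add (Nat.add (Nat.add (Nat.add (Nat.add (Nat.add (Nat.add C x1013) x365) x581) x509) x545) x521) x533) x529) (Nat.mul (e (nat_lit 527)) ap)) (Nat.mul x527 (nat_lit 2))) x2713) (Nat.mul (e (nat_lit 527)) an))
    (Nat.sub (Nat.sub (Nat.add (Nat.add (Nat.add (Nat.add (Nat.add (Nat.add (Nat.add C x1015) x367) x583) x511) x547) x535) x527) x529) x2715)
    (Nat.sub (Nat.sub (Nat.sub (Nat.add (Nat.add (Nat.add (Nat.add (Nat.add (Nat.add (Nat.add C x1019) x371) x587) x551) x527) x535) (Nat.mul (e (nat_lit 533)) ap)) (Nat.mul x533 (nat_lit 4))) x2719) (Nat.mul (e (nat_lit 533)) an))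
    (Nat.sub (Nat.sub (Nat.add (Nat.add (Nat.add (Nat.add (Nat.add (Nat.add (Nat.add C x1021) x373) x589) x553) x529) x533) x537) x535) x2721)
    (Nat.add (Nat.add (Nat.add (Nat.add (Nat.add C x1023) x375) x591) x555) x535)
    (Nat.sub (Nat.sub (Nat.sub (Nat.add (Nat.add (Nat.add (Nat.add (Nat.add (Nat.add (Nat.add C x1031) x383) x599) x527) x551) x547) (Nat.mul (e (nat_lit 545)) ap)) (Nat.mul x545 (nat_lit 4))) x2731) (Nat.mul (e (nat_lit 545)) an))
    (Nat.sub (Nat.sub (Nat.add (Nat.add (Nat.add (Nat.add (Nat.add (Nat.add C x1033) x385) x601) x529) x553) x545) (Nat.mul x547 (nat_lit 4))) x2733)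
    (Nat.sub (Nat.sub (Nat.add (Nat.add (Nat.add (Nat.add (Nat.add (Nat.add C x1037) x389) x605) x533) x545) x553) (Nat.mul x551 (nat_lit 4))) x2737)
    (Nat.sub (Nat.sub (Nat.add (Nat.add (Nat.add (Nat.add (Nat.add (Nat.add (Nat.add (Nat.add C x1039) x391) x607) x535) x547) x559) x551) x555) (Nat.mul x553 (nat_lit 2))) x2739)
    (Nat.sub (Nat.add (Nat.add (Nat.add (Nat.add (Nat.add (Nat.add C x1041) x393) x609) x537) x561) x553) (Nat.mul x555 (nat_lit 2)))
    (Nat.sub (Nat.sub (Nat.add (Nat.add (Nat.add (Nat.add (Nat.add C x1045) x397) x613) x553) x561) (Nat.mul x559 (nat_lit 2))) x2745)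
    (Nat.add (Nat.add (Nat.add (Nat.add (Nat.add C x1047) x399) x615) x555) x559)
    (Nat.sub (Nat.add (Nat.add (Nat.add (Nat.add C x1061) x413) x521) x581) x2761)
    (Nat.sub (Nat.sub (Nat.sub (Nat.add (Nat.add (Nat.add (Nat.add (Nat.add (Nat.add (Nat.add (Nat.add C x1067) x419) x527) x599) x575) x587) x583) (Nat.mul (e (nat_lit 581)) ap)) x581) x2767) (Nat.mul (e (nat_lit 581)) an))
    (Nat.sub (Nat.add (Nat.add (Nat.add (Nat.add (Nat.add (Nat.add C x1069) x421) x529) x601) x589) x581) x2769)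
    (Nat.sub (Nat.sub (Nat.add (Nat.add (Nat.add (Nat.add (Nat.add (Nat.add C x1073) x425) x533) x605) x581) x589) (Nat.mul x587 (nat_lit 4))) x2773)
    (Nat.sub (Nat.sub (Nat.add (Nat.add (Nat.add (Nat.add (Nat.add (Nat.add (Nat.add C x1075) x427) x535) x607) x583) x587) x591) x589) x2775)
    (Nat.add (Nat.add (Nat.add (Nat.add (Nat.add C x1077) x429) x537) x609) x589)
    (Nat.sub (Nat.sub (Nat.add (Nat.add (Nat.add (Nat.add (Nat.add (Nat.add (Nat.add C x1085) x437) x545) x653) x581) x605) x601) x599) x2785)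
    (Nat.sub (Nat.sub (Nat.add (Nat.add (Nat.add (Nat.add (Nat.add (Nat.add (Nat.add C x1087) x439) x547) x655) x583) x607) x599) x601) x2787)
    (Nat.sub (Nat.sub (Nat.add (Nat.add (Nat.add (Nat.add (Nat.add (Nat.add (Nat.add (Nat.add C x1091) x443) x551) x659) x587) x623) x599) x607) (Nat.mul x605 (nat_lit 2))) x2791)
    (Nat.sub (Nat.add (Nat.add (Nat.add (Nat.add (Nat.add (Nat.add (Nat.add (Nat.add (Nat.add (Nat.add C x1093) x445) x553) x661) x589) x625) x601) x613) x605) x609) x2793)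
    (Nat.add (Nat.add (Nat.add (Nat.add (Nat.add (Nat.add (Nat.add (Nat.add C x1095) x447) x555) x663) x591) x627) x615) x607)
    (Nat.sub (Nat.sub (Nat.add (Nat.add (Nat.add (Nat.add (Nat.add (Nat.add (Nat.add C x1099) x451) x559) x667) x631) x607) x615) x613) x2799)
    (Nat.add (Nat.add (Nat.add (Nat.add (Nat.add (Nat.add (Nat.add (Nat.add C x615) x1101) x453) x561) x669) x633) x609) x613)
    (Nat.sub (Nat.sub (Nat.add (Nat.add (Nat.add (Nat.add (Nat.add C x1109) x461) x677) x605) x625) (Nat.mul x623 (nat_lit 2))) x2809)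
    (Nat.sub (Nat.sub (Nat.add (Nat.add (Nat.add (Nat.add (Nat.add (Nat.add (Nat.add C x1111) x463) x679) x607) x631) x623) x627) x625) x2811)
    (Nat.sub (Nat.add (Nat.add (Nat.add (Nat.add (Nat.add (Nat.add C x1113) x465) x681) x609) x633) x625) (Nat.mul x627 (nat_lit 2)))
    (Nat.sub (Nat.add (Nat.add (Nat.add (Nat.add (Nat.add (Nat.add C x1117) x469) x685) x613) x625) x633) x2817)
    (Nat.add (Nat.add (Nat.add (Nat.add (Nat.add (Nat.add (Nat.add (Nat.add C x633) x1119) x471) x687) x615) x627) x639) x631)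
    (Nat.add (Nat.add (Nat.add (Nat.add (Nat.add C (Nat.mul x639 (nat_lit 2))) x1125) x477) x693) x633)
    (Nat.sub (Nat.add (Nat.add (Nat.add (Nat.add C x1139) x599) x659) x655) x2839)
    (Nat.sub (Nat.add (Nat.add (Nat.add (Nat.add C x1141) x601) x661) x653) x2841)
    (Nat.sub (Nat.sub (Nat.add (Nat.add (Nat.add (Nat.add (Nat.add C x1145) x605) x677) x653) x661) (Nat.mul x659 (nat_lit 2))) x2845)
    (Nat.sub (Nat.add (Nat.add (Nat.add (Nat.add (Nat.add (Nat.add (Nat.add C x1147) x607) x679) x655) x667) x659) x663) x2847)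
    (Nat.add (Nat.add (Nat.add (Nat.add (Nat.add C x1149) x609) x681) x669) x661)
    (Nat.sub (Nat.sub (Nat.add (Nat.add (Nat.add (Nat.add (Nat.add C x1153) x613) x685) x661) x669) (Nat.mul x667 (nat_lit 2))) x2853)
    (Nat.add (Nat.add (Nat.add (Nat.add (Nat.add C x1155) x615) x687) x663) x667)
    (Nat.sub (Nat.add (Nat.add (Nat.add (Nat.add C x1163) x623) x659) x679) x2863)
    (Nat.sub (Nat.add (Nat.add (Nat.add (Nat.add (Nat.add (Nat.add (Nat.add C x679) x1165) x625) x661) x685) x677) x681) x2865)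
    (Nat.add (Nat.add (Nat.add (Nat.add (Nat.add C x1167) x627) x663) x687) x679)
    (Nat.sub (Nat.add (Nat.add (Nat.add (Nat.add (Nat.add (Nat.add (Nat.add C x685) x1171) x631) x667) x703) x679) x687) x2871)
    (Nat.add (Nat.add (Nat.add (Nat.add (Nat.add (Nat.add (Nat.add (Nat.add C (Nat.mul x687 (nat_lit 2))) x1173) x633) x669) x705) x681) x693) x685)
    (Nat.add (Nat.add (Nat.add (Nat.add (Nat.add C (Nat.mul x693 (nat_lit 2))) x1179) x639) x711) x687)
    (Nat.sub (Nat.add (Nat.add (Nat.add (Nat.add C (Nat.mul x703 (nat_lit 2))) x1189) x685) x705) x2889)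
    (Nat.add (Nat.add (Nat.add (Nat.add (Nat.add C (Nat.mul x705 (nat_lit 2))) x1191) x687) x711) x703)
    (Nat.add (Nat.add (Nat.add (Nat.add C (Nat.mul x711 (nat_lit 4))) x1197) x693) x705)
    (Nat.sub (Nat.add (Nat.add (Nat.add (Nat.add C (Nat.mul x755 (nat_lit 2))) x2213) x269) x773) x2941)
    (Nat.sub (Nat.add (Nat.add (Nat.add (Nat.add (Nat.add (Nat.add (Nat.add C x773) x2231) x287) x827) x755) x791) x779) x2959)
    (Nat.sub (Nat.add (Nat.add (Nat.add (Nat.add (Nat.add (Nat.add C x2237) x293) x833) x797) x773) x781) x2965)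
    (Nat.sub (Nat.add (Nat.add (Nat.add (Nat.add (Nat.add (Nat.add C (Nat.mul x781 (nat_lit 2))) x2239) x295) x835) x799) x779) x2967)
    (Nat.sub (Nat.sub (Nat.add (Nat.add (Nat.add (Nat.add (Nat.add C x2249) x305) x845) x773) x797) (Nat.mul x791 (nat_lit 2))) x2977)
    (Nat.sub (Nat.sub (Nat.add (Nat.add (Nat.add (Nat.add (Nat.add (Nat.add (Nat.add C x2255) x311) x851) x779) x791) x803) x799) x797) x2983)
    (Nat.sub (Nat.add (Nat.add (Nat.add (Nat.add (Nat.add (Nat.add C x2257) x313) x853) x781) x805) x797) x2985)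
    (Nat.sub (Nat.sub (Nat.add (Nat.add (Nat.add (Nat.add (Nat.add C x2261) x317) x857) x797) x805) (Nat.mul x803 (nat_lit 2))) x2989)
    (Nat.sub (Nat.add (Nat.add (Nat.add (Nat.add (Nat.add (Nat.add (Nat.add C x805) x2263) x319) x859) x799) x803) x807) x2991)
    (Nat.add (Nat.add (Nat.add (Nat.add (Nat.add C (Nat.mul x807 (nat_lit 2))) x2265) x321) x861) x805)
    (Nat.sub (Nat.sub (Nat.add (Nat.add (Nat.add (Nat.add (Nat.add (Nat.add (Nat.add C x2285) x341) x989) x773) x845) x833) (Nat.mul (e (nat_lit 827)) ap)) x3013) (Nat.mul (e (nat_lit 827)) an))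
    (Nat.sub (Nat.sub (Nat.sub (Nat.add (Nat.add (Nat.add (Nat.add (Nat.add (Nat.add (Nat.add (Nat.add C x2291) x347) x995) x779) x851) x827) x835) (Nat.mul (e (nat_lit 833)) ap)) (Nat.mul x833 (nat_lit 2))) x3019) (Nat.mul (e (nat_lit 833)) an))
    (Nat.sub (Nat.add (Nat.add (Nat.add (Nat.add (Nat.add (Nat.add C x2293) x349) x997) x781) x853) x833) x3021)
    (Nat.sub (Nat.sub (Nat.sub (Nat.add (Nat.add (Nat.add (Nat.add (Nat.add (Nat.add (Nat.add (Nat.add C x2303) x359) x1007) x791) x899) x827) x851) (Nat.mul (e (nat_lit 845)) ap)) x845) x3031) (Nat.mul (e (nat_lit 845)) an))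
    (Nat.sub (Nat.sub (Nat.sub (Nat.add (Nat.add (Nat.add (Nat.add (Nat.add (Nat.add (Nat.add (Nat.add (Nat.add (Nat.add (Nat.add C x2309) x365) x1013) x797) x905) x833) x869) x845) x857) x853) (Nat.mul (e (nat_lit 851)) ap)) x851) x3037) (Nat.mul (e (nat_lit 851)) an))
    (Nat.sub (Nat.sub (Nat.add (Nat.add (Nat.add (Nat.add (Nat.add (Nat.add (Nat.add (Nat.add (Nat.add (Nat.add C x2311) x367) x1015) x799) x907) x835) x871) x859) x851) (Nat.mul (e (nat_lit 853)) ap)) x3039) (Nat.mul (e (nat_lit 853)) an))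
    (Nat.sub (Nat.sub (Nat.sub (Nat.add (Nat.add (Nat.add (Nat.add (Nat.add (Nat.add (Nat.add (Nat.add (Nat.add C x2315) x371) x1019) x803) x911) x875) x851) x859) (Nat.mul (e (nat_lit 857)) ap)) (Nat.mul x857 (nat_lit 3))) x3043) (Nat.mul (e (nat_lit 857)) an))
    (Nat.sub (Nat.sub (Nat.add (Nat.add (Nat.add (Nat.add (Nat.add (Nat.add (Nat.add (Nat.add (Nat.add (Nat.add C x2317) x373) x1021) x805) x913) x877) x853) x857) x861) (Nat.mul (e (nat_lit 859)) ap)) x3045) (Nat.mul (e (nat_lit 859)) an))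
    (Nat.add (Nat.add (Nat.add (Nat.add (Nat.add (Nat.add (Nat.add (Nat.add C x861) x2319) x375) x1023) x807) x915) x879) x859)
    (Nat.sub (Nat.sub (Nat.sub (Nat.add (Nat.add (Nat.add (Nat.add (Nat.add (Nat.add (Nat.add (Nat.add C x2327) x383) x1031) x923) x851) x875) x871) (Nat.mul (e (nat_lit 869)) ap)) (Nat.mul x869 (nat_lit 2))) x3055) (Nat.mul (e (nat_lit 869)) an))
    (Nat.sub (Nat.sub (Nat.sub (Nat.add (Nat.add (Nat.add (Nat.add (Nat.add (Nat.add (Nat.add (Nat.add C x2329) x385) x1033) x925) x853) x877) x869) (Nat.mul (e (nat_lit 871)) ap)) (Nat.mul x871 (nat_lit 2))) x3057) (Nat.mul (e (nat_lit 871)) an))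
    (Nat.sub (Nat.sub (Nat.sub (Nat.add (Nat.add (Nat.add (Nat.add (Nat.add (Nat.add (Nat.add (Nat.add C x2333) x389) x1037) x929) x857) x869) x877) (Nat.mul (e (nat_lit 875)) ap)) (Nat.mul x875 (nat_lit 2))) x3061) (Nat.mul (e (nat_lit 875)) an))
    (Nat.sub (Nat.add (Nat.add (Nat.add (Nat.add (Nat.add (Nat.add (Nat.add (Nat.add (Nat.add C x2335) x391) x1039) x931) x859) x871) x883) x875) x879) x3063)
    (Nat.add (Nat.add (Nat.add (Nat.add (Nat.add (Nat.add (Nat.add C x2337) x393) x1041) x933) x861) x885) x877)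
    (Nat.sub (Nat.add (Nat.add (Nat.add (Nat.add (Nat.add (Nat.add C x2341) x397) x1045) x937) x877) x885) x3069)
    (Nat.add (Nat.add (Nat.add (Nat.add (Nat.add (Nat.add (Nat.add C (Nat.mul x885 (nat_lit 2))) x2343) x399) x1047) x939) x879) x883)
    (Nat.sub (Nat.sub (Nat.add (Nat.add (Nat.add (Nat.add (Nat.add C x2357) x413) x1061) x845) x905) (Nat.mul x899 (nat_lit 2))) x3085)
    (Nat.sub (Nat.sub (Nat.sub (Nat.add (Nat.add (Nat.add (Nat.add (Nat.add (Nat.add (Nat.add (Nat.add (Nat.add C x2363) x419) x1067) x851) x923) x899) x911) x907) (Nat.mul (e (nat_lit 905)) ap)) (Nat.mul x905 (nat_lit 3))) x3091) (Nat.mul (e (nat_lit 905)) an))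
    (Nat.sub (Nat.sub (Nat.add (Nat.add (Nat.add (Nat.add (Nat.add (Nat.add (Nat.add C x2365) x421) x1069) x853) x925) x913) x905) (Nat.mul x907 (nat_lit 2))) x3093)
    (Nat.sub (Nat.sub (Nat.sub (Nat.add (Nat.add (Nat.add (Nat.add (Nat.add (Nat.add (Nat.add (Nat.add C x2369) x425) x1073) x857) x929) x905) x913) (Nat.mul (e (nat_lit 911)) ap)) (Nat.mul x911 (nat_lit 6))) x3097) (Nat.mul (e (nat_lit 911)) an))
    (Nat.sub (Nat.sub (Nat.add (Nat.add (Nat.add (Nat.add (Nat.add (Nat.add (Nat.add (Nat.add C x2371) x427) x1075) x859) x931) x907) x911) x915) (Nat.mul x913 (nat_lit 3))) x3099)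
    (Nat.sub (Nat.add (Nat.add (Nat.add (Nat.add (Nat.add (Nat.add C x2373) x429) x1077) x861) x933) x913) (Nat.mul x915 (nat_lit 2)))
    (Nat.sub (Nat.sub (Nat.sub (Nat.add (Nat.add (Nat.add (Nat.add (Nat.add (Nat.add (Nat.add (Nat.add C x2381) x437) x1085) x869) x905) x929) x925) (Nat.mul (e (nat_lit 923)) ap)) (Nat.mul x923 (nat_lit 2))) x3109) (Nat.mul (e (nat_lit 923)) an))
    (Nat.sub (Nat.sub (Nat.add (Nat.add (Nat.add (Nat.add (Nat.add (Nat.add (Nat.add C x2383) x439) x1087) x871) x907) x931) x923) (Nat.mul x925 (nat_lit 2))) x3111)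
    (Nat.sub (Nat.sub (Nat.add (Nat.add (Nat.add (Nat.add (Nat.add (Nat.add (Nat.add (Nat.add C x2387) x443) x1091) x875) x911) x947) x923) x931) (Nat.mul x929 (nat_lit 3))) x3115)
    (Nat.sub (Nat.sub (Nat.add (Nat.add (Nat.add (Nat.add (Nat.add (Nat.add (Nat.add (Nat.add (Nat.add (Nat.add C x2389) x445) x1093) x877) x913) x949) x925) x937) x929) x933) x931) x3117)
    (Nat.sub (Nat.add (Nat.add (Nat.add (Nat.add (Nat.add (Nat.add (Nat.add (Nat.add C x2391) x447) x1095) x879) x915) x951) x939) x931) x933)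
    (Nat.sub (Nat.sub (Nat.add (Nat.add (Nat.add (Nat.add (Nat.add (Nat.add (Nat.add C x2395) x451) x1099) x883) x955) x931) x939) (Nat.mul x937 (nat_lit 2))) x3123)
    (Nat.add (Nat.add (Nat.add (Nat.add (Nat.add (Nat.add (Nat.add C x2397) x453) x1101) x885) x957) x933) x937)
    (Nat.sub (Nat.sub (Nat.add (Nat.add (Nat.add (Nat.add (Nat.add C x2405) x461) x1109) x929) x949) (Nat.mul x947 (nat_lit 2))) x3133)
    (Nat.sub (Nat.sub (Nat.add (Nat.add (Nat.add (Nat.add (Nat.add (Nat.add (Nat.add C x2407) x463) x1111) x931) x955) x947) x951) x949) x3135)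
    (Nat.sub (Nat.add (Nat.add (Nat.add (Nat.add (Nat.add (Nat.add C x2409) x465) x1113) x933) x957) x949) (Nat.mul x951 (nat_lit 2)))
    (Nat.sub (Nat.add (Nat.add (Nat.add (Nat.add (Nat.add (Nat.add C x2413) x469) x1117) x937) x949) x957) x3141)
    (Nat.add (Nat.add (Nat.add (Nat.add (Nat.add (Nat.add (Nat.add (Nat.add C x957) x2415) x471) x1119) x939) x951) x963) x955)
    (Nat.add (Nat.add (Nat.add (Nat.add (Nat.add C (Nat.mul x963 (nat_lit 2))) x2421) x477) x1125) x957)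
    (Nat.sub (Nat.add (Nat.add (Nat.add (Nat.add (Nat.add (Nat.add (Nat.add C x989) x2447) x503) x1475) x827) x1007) x995) x3175)
    (Nat.sub (Nat.sub (Nat.add (Nat.add (Nat.add (Nat.add (Nat.add (Nat.add (Nat.add C x2453) x509) x1481) x833) x1013) x989) x997) x995) x3181)
    (Nat.sub (Nat.add (Nat.add (Nat.add (Nat.add (Nat.add (Nat.add (Nat.add C x997) x2455) x511) x1483) x835) x1015) x995) x3183)
    (Nat.sub (Nat.sub (Nat.add (Nat.add (Nat.add (Nat.add (Nat.add (Nat.add (Nat.add C x2465) x521) x1493) x845) x1061) x989) x1013) x1007) x3193)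
    (Nat.sub (Nat.sub (Nat.sub (Nat.add (Nat.add (Nat.add (Nat.add (Nat.add (Nat.add (Nat.add (Nat.add (Nat.add (Nat.add (Nat.add C x2471) x527) x1499) x851) x1067) x995) x1031) x1007) x1019) x1015) (Nat.mul (e (nat_lit 1013)) ap)) x1013) x3199) (Nat.mul (e (nat_lit 1013)) an))
    (Nat.sub (Nat.sub (Nat.add (Nat.add (Nat.add (Nat.add (Nat.add (Nat.add (Nat.add (Nat.add (Nat.add (Nat.add C x2473) x529) x1501) x853) x1069) x997) x1033) x1021) x1013) (Nat.mul (e (nat_lit 1015)) ap)) x3201) (Nat.mul (e (nat_lit 1015)) an))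
    (Nat.sub (Nat.sub (Nat.sub (Nat.add (Nat.add (Nat.add (Nat.add (Nat.add (Nat.add (Nat.add (Nat.add (Nat.add C x2477) x533) x1505) x857) x1073) x1037) x1013) x1021) (Nat.mul (e (nat_lit 1019)) ap)) (Nat.mul x1019 (nat_lit 3))) x3205) (Nat.mul (e (nat_lit 1019)) an))
    (Nat.sub (Nat.add (Nat.add (Nat.add (Nat.add (Nat.add (Nat.add (Nat.add (Nat.add (Nat.add C x2479) x535) x1507) x859) x1075) x1039) x1015) x1019) x1023) x3207)
    (Nat.add (Nat.add (Nat.add (Nat.add (Nat.add (Nat.add (Nat.add (Nat.add C x1023) x2481) x537) x1509) x861) x1077) x1041) x1021)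
    (Nat.sub (Nat.sub (Nat.sub (Nat.add (Nat.add (Nat.add (Nat.add (Nat.add (Nat.add (Nat.add (Nat.add (Nat.add C x2489) x545) x1517) x869) x1085) x1013) x1037) x1033) (Nat.mul (e (nat_lit 1031)) ap)) (Nat.mul x1031 (nat_lit 3))) x3217) (Nat.mul (e (nat_lit 1031)) an))
    (Nat.sub (Nat.sub (Nat.add (Nat.add (Nat.add (Nat.add (Nat.add (Nat.add (Nat.add (Nat.add C x2491) x547) x1519) x871) x1087) x1015) x1039) x1031) (Nat.mul x1033 (nat_lit 3))) x3219)
    (Nat.sub (Nat.sub (Nat.add (Nat.add (Nat.add (Nat.add (Nat.add (Nat.add (Nat.add (Nat.add C x2495) x551) x1523) x875) x1091) x1019) x1031) x1039) (Nat.mul x1037 (nat_lit 3))) x3223)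
    (Nat.sub (Nat.sub (Nat.add (Nat.add (Nat.add (Nat.add (Nat.add (Nat.add (Nat.add (Nat.add (Nat.add (Nat.add C x2497) x553) x1525) x877) x1093) x1021) x1033) x1045) x1037) x1041) x1039) x3225)
    (Nat.sub (Nat.add (Nat.add (Nat.add (Nat.add (Nat.add (Nat.add (Nat.add (Nat.add C x2499) x555) x1527) x879) x1095) x1023) x1047) x1039) x1041)
    (Nat.sub (Nat.sub (Nat.add (Nat.add (Nat.add (Nat.add (Nat.add (Nat.add (Nat.add C x2503) x559) x1531) x883) x1099) x1039) x1047) x1045) x3231)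
    (Nat.add (Nat.add (Nat.add (Nat.add (Nat.add (Nat.add (Nat.add (Nat.add C x1047) x2505) x561) x1533) x885) x1101) x1041) x1045)
    (Nat.sub (Nat.add (Nat.add (Nat.add (Nat.add (Nat.add (Nat.add (Nat.add C x2519) x575) x1547) x899) x1223) x1007) x1067) x3247)
    (Nat.sub (Nat.sub (Nat.sub (Nat.add (Nat.add (Nat.add (Nat.add (Nat.add (Nat.add (Nat.add (Nat.add (Nat.add (Nat.add (Nat.add C x2525) x581) x1553) x905) x1229) x1013) x1085) x1061) x1073) x1069) (Nat.mul (e (nat_lit 1067)) ap)) x1067) x3253) (Nat.mul (e (nat_lit 1067)) an))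
    (Nat.sub (Nat.sub (Nat.add (Nat.add (Nat.add (Nat.add (Nat.add (Nat.add (Nat.add (Nat.add (Nat.add (Nat.add C x2527) x583) x1555) x907) x1231) x1015) x1087) x1075) x1067) (Nat.mul (e (nat_lit 1069)) ap)) x3255) (Nat.mul (e (nat_lit 1069)) an))
    (Nat.sub (Nat.sub (Nat.sub (Nat.add (Nat.add (Nat.add (Nat.add (Nat.add (Nat.add (Nat.add (Nat.add (Nat.add (Nat.add C x2531) x587) x1559) x911) x1235) x1019) x1091) x1067) x1075) (Nat.mul (e (nat_lit 1073)) ap)) (Nat.mul x1073 (nat_lit 4))) x3259) (Nat.mul (e (nat_lit 1073)) an))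
    (Nat.sub (Nat.sub (Nat.add (Nat.add (Nat.add (Nat.add (Nat.add (Nat.add (Nat.add (Nat.add (Nat.add (Nat.add C x2533) x589) x1561) x913) x1237) x1021) x1093) x1069) x1073) x1077) x1075) x3261)
    (Nat.add (Nat.add (Nat.add (Nat.add (Nat.add (Nat.add (Nat.add (Nat.add C x2535) x591) x1563) x915) x1239) x1023) x1095) x1075)
    (Nat.sub (Nat.sub (Nat.sub (Nat.add (Nat.add (Nat.add (Nat.add (Nat.add (Nat.add (Nat.add (Nat.add (Nat.add (Nat.add (Nat.add C x2543) x599) x1571) x923) x1247) x1031) x1139) x1067) x1091) x1087) (Nat.mul (e (nat_lit 1085)) ap)) x1085) x3271) (Nat.mul (e (nat_lit 1085)) an))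
    (Nat.sub (Nat.sub (Nat.add (Nat.add (Nat.add (Nat.add (Nat.add (Nat.add (Nat.add (Nat.add (Nat.add (Nat.add C x2545) x601) x1573) x925) x1249) x1033) x1141) x1069) x1093) x1085) x1087) x3273)
    (Nat.sub (Nat.sub (Nat.sub (Nat.add (Nat.add (Nat.add (Nat.add (Nat.add (Nat.add (Nat.add (Nat.add (Nat.add (Nat.add (Nat.add (Nat.add C x2549) x605) x1577) x929) x1253) x1037) x1145) x1073) x1109) x1085) x1093) (Nat.mul (e (nat_lit 1091)) ap)) (Nat.mul x1091 (nat_lit 2))) x3277) (Nat.mul (e (nat_lit 1091)) an))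
    (Nat.sub (Nat.sub (Nat.add (Nat.add (Nat.add (Nat.add (Nat.add (Nat.add (Nat.add (Nat.add (Nat.add (Nat.add (Nat.add (Nat.add (Nat.add (Nat.add C x2551) x607) x1579) x931) x1255) x1039) x1147) x1075) x1111) x1087) x1099) x1091) x1095) (Nat.mul (e (nat_lit 1093)) ap)) x3279) (Nat.mul (e (nat_lit 1093)) an))
    (Nat.add (Nat.add (Nat.add (Nat.add (Nat.add (Nat.add (Nat.add (Nat.add (Nat.add (Nat.add (Nat.add C x2553) x609) x1581) x933) x1257) x1041) x1149) x1077) x1113) x1101) x1093)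
    (Nat.sub (Nat.sub (Nat.add (Nat.add (Nat.add (Nat.add (Nat.add (Nat.add (Nat.add (Nat.add (Nat.add (Nat.add C x2557) x613) x1585) x937) x1261) x1045) x1153) x1117) x1093) x1101) x1099) x3285)
    (Nat.add (Nat.add (Nat.add (Nat.add (Nat.add (Nat.add (Nat.add (Nat.add (Nat.add (Nat.add (Nat.add C x1101) x2559) x615) x1587) x939) x1263) x1047) x1155) x1119) x1095) x1099)
    (Nat.sub (Nat.sub (Nat.add (Nat.add (Nat.add (Nat.add (Nat.add (Nat.add (Nat.add (Nat.add C x2567) x623) x1595) x947) x1271) x1163) x1091) x1111) (Nat.mul x1109 (nat_lit 2))) x3295)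
    (Nat.sub (Nat.sub (Nat.add (Nat.add (Nat.add (Nat.add (Nat.add (Nat.add (Nat.add (Nat.add (Nat.add (Nat.add C x2569) x625) x1597) x949) x1273) x1165) x1093) x1117) x1109) x1113) x1111) x3297)
    (Nat.sub (Nat.add (Nat.add (Nat.add (Nat.add (Nat.add (Nat.add (Nat.add (Nat.add (Nat.add C x2571) x627) x1599) x951) x1275) x1167) x1095) x1119) x1111) (Nat.mul x1113 (nat_lit 2)))
    (Nat.sub (Nat.add (Nat.add (Nat.add (Nat.add (Nat.add (Nat.add (Nat.add (Nat.add (Nat.add C x2575) x631) x1603) x955) x1279) x1171) x1099) x1111) x1119) x3303)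
    (Nat.add (Nat.add (Nat.add (Nat.add (Nat.add (Nat.add (Nat.add (Nat.add (Nat.add (Nat.add (Nat.add C x1119) x2577) x633) x1605) x957) x1281) x1173) x1101) x1113) x1125) x1117)
    (Nat.add (Nat.add (Nat.add (Nat.add (Nat.add (Nat.add (Nat.add (Nat.add C (Nat.mul x1125 (nat_lit 2))) x2583) x639) x1611) x963) x1287) x1179) x1119)
    (Nat.sub (Nat.sub (Nat.add (Nat.add (Nat.add (Nat.add (Nat.add (Nat.add (Nat.add C x2597) x653) x1625) x1301) x1085) x1145) x1141) x1139) x3325)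
    (Nat.sub (Nat.sub (Nat.add (Nat.add (Nat.add (Nat.add (Nat.add (Nat.add (Nat.add C x2599) x655) x1627) x1303) x1087) x1147) x1139) x1141) x3327)
    (Nat.sub (Nat.sub (Nat.add (Nat.add (Nat.add (Nat.add (Nat.add (Nat.add (Nat.add (Nat.add C x2603) x659) x1631) x1307) x1091) x1163) x1139) x1147) (Nat.mul x1145 (nat_lit 3))) x3331)
    (Nat.sub (Nat.sub (Nat.add (Nat.add (Nat.add (Nat.add (Nat.add (Nat.add (Nat.add (Nat.add (Nat.add (Nat.add C x2605) x661) x1633) x1309) x1093) x1165) x1141) x1153) x1145) x1149) x1147) x3333)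
    (Nat.sub (Nat.add (Nat.add (Nat.add (Nat.add (Nat.add (Nat.add (Nat.add (Nat.add C x2607) x663) x1635) x1311) x1095) x1167) x1155) x1147) x1149)
    (Nat.sub (Nat.sub (Nat.add (Nat.add (Nat.add (Nat.add (Nat.add (Nat.add (Nat.add (Nat.add C x2611) x667) x1639) x1315) x1099) x1171) x1147) x1155) (Nat.mul x1153 (nat_lit 3))) x3339)
    (Nat.sub (Nat.add (Nat.add (Nat.add (Nat.add (Nat.add (Nat.add (Nat.add (Nat.add C x2613) x669) x1641) x1317) x1101) x1173) x1149) x1153) x1155)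
    (Nat.sub (Nat.sub (Nat.add (Nat.add (Nat.add (Nat.add (Nat.add (Nat.add (Nat.add C x2621) x677) x1649) x1325) x1109) x1145) x1165) x1163) x3349)
    (Nat.sub (Nat.add (Nat.add (Nat.add (Nat.add (Nat.add (Nat.add (Nat.add (Nat.add (Nat.add C x2623) x679) x1651) x1327) x1111) x1147) x1171) x1163) x1167) x3351)
    (Nat.sub (Nat.add (Nat.add (Nat.add (Nat.add (Nat.add (Nat.add (Nat.add (Nat.add C x2625) x681) x1653) x1329) x1113) x1149) x1173) x1165) x1167)
    (Nat.sub (Nat.add (Nat.add (Nat.add (Nat.add (Nat.add (Nat.add (Nat.add (Nat.add (Nat.add C x2629) x685) x1657) x1333) x1117) x1153) x1189) x1165) x1173) x3357)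
    (Nat.add (Nat.add (Nat.add (Nat.add (Nat.add (Nat.add (Nat.add (Nat.add (Nat.add (Nat.add (Nat.add C x1173) x2631) x687) x1659) x1335) x1119) x1155) x1191) x1167) x1179) x1171)
    (Nat.add (Nat.add (Nat.add (Nat.add (Nat.add (Nat.add (Nat.add (Nat.add C x1179) x2637) x693) x1665) x1341) x1125) x1197) x1173)
    (Nat.sub (Nat.add (Nat.add (Nat.add (Nat.add (Nat.add (Nat.add (Nat.add C x1189) x2647) x703) x1675) x1351) x1171) x1191) x3375)
    (Nat.add (Nat.add (Nat.add (Nat.add (Nat.add (Nat.add (Nat.add (Nat.add C x1191) x2649) x705) x1677) x1353) x1173) x1197) x1189)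
    (Nat.add (Nat.add (Nat.add (Nat.add (Nat.add (Nat.add (Nat.add C (Nat.mul x1197 (nat_lit 3))) x2655) x711) x1683) x1359) x1179) x1191)
    (Nat.sub (Nat.add (Nat.add (Nat.add (Nat.add C x2681) x1709) x1061) x1229) x3409)
    (Nat.sub (Nat.sub (Nat.add (Nat.add (Nat.add (Nat.add (Nat.add (Nat.add (Nat.add C x2687) x1715) x1067) x1247) x1223) x1235) x1231) x1229) x3415)
    (Nat.sub (Nat.add (Nat.add (Nat.add (Nat.add (Nat.add (Nat.add C x2689) x1717) x1069) x1249) x1237) x1229) x3417)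
    (Nat.sub (Nat.sub (Nat.add (Nat.add (Nat.add (Nat.add (Nat.add (Nat.add C x2693) x1721) x1073) x1253) x1229) x1237) (Nat.mul x1235 (nat_lit 4))) x3421)
    (Nat.sub (Nat.sub (Nat.add (Nat.add (Nat.add (Nat.add (Nat.add (Nat.add (Nat.add C x2695) x1723) x1075) x1255) x1231) x1235) x1239) x1237) x3423)
    (Nat.add (Nat.add (Nat.add (Nat.add (Nat.add C x2697) x1725) x1077) x1257) x1237)
    (Nat.sub (Nat.sub (Nat.add (Nat.add (Nat.add (Nat.add (Nat.add (Nat.add (Nat.add C x2705) x1733) x1085) x1301) x1229) x1253) x1249) (Nat.mul x1247 (nat_lit 2))) x3433)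
    (Nat.sub (Nat.sub (Nat.add (Nat.add (Nat.add (Nat.add (Nat.add (Nat.add (Nat.add C x2707) x1735) x1087) x1303) x1231) x1255) x1247) (Nat.mul x1249 (nat_lit 2))) x3435)
    (Nat.sub (Nat.sub (Nat.add (Nat.add (Nat.add (Nat.add (Nat.add (Nat.add (Nat.add (Nat.add C x2711) x1739) x1091) x1307) x1235) x1271) x1247) x1255) (Nat.mul x1253 (nat_lit 3))) x3439)
    (Nat.sub (Nat.sub (Nat.add (Nat.add (Nat.add (Nat.add (Nat.add (Nat.add (Nat.add (Nat.add (Nat.add (Nat.add C x2713) x1741) x1093) x1309) x1237) x1273) x1249) x1261) x1253) x1257) x1255) x3441)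
    (Nat.sub (Nat.add (Nat.add (Nat.add (Nat.add (Nat.add (Nat.add (Nat.add (Nat.add C x2715) x1743) x1095) x1311) x1239) x1275) x1263) x1255) x1257)
    (Nat.sub (Nat.sub (Nat.add (Nat.add (Nat.add (Nat.add (Nat.add (Nat.add (Nat.add C x2719) x1747) x1099) x1315) x1279) x1255) x1263) (Nat.mul x1261 (nat_lit 2))) x3447)
    (Nat.add (Nat.add (Nat.add (Nat.add (Nat.add (Nat.add (Nat.add C x2721) x1749) x1101) x1317) x1281) x1257) x1261)
    (Nat.sub (Nat.sub (Nat.add (Nat.add (Nat.add (Nat.add (Nat.add (Nat.add C x2729) x1757) x1109) x1325) x1253) x1273) (Nat.mul x1271 (nat_lit 4))) x3457)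
    (Nat.sub (Nat.sub (Nat.add (Nat.add (Nat.add (Nat.add (Nat.add (Nat.add (Nat.add (Nat.add C x2731) x1759) x1111) x1327) x1255) x1279) x1271) x1275) (Nat.mul x1273 (nat_lit 3))) x3459)
    (Nat.sub (Nat.add (Nat.add (Nat.add (Nat.add (Nat.add (Nat.add (Nat.add C x2733) x1761) x1113) x1329) x1257) x1281) x1273) (Nat.mul x1275 (nat_lit 4)))
    (Nat.sub (Nat.sub (Nat.add (Nat.add (Nat.add (Nat.add (Nat.add (Nat.add (Nat.add C x2737) x1765) x1117) x1333) x1261) x1273) x1281) (Nat.mul x1279 (nat_lit 2))) x3465)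
    (Nat.sub (Nat.add (Nat.add (Nat.add (Nat.add (Nat.add (Nat.add (Nat.add (Nat.add C x2739) x1767) x1119) x1335) x1263) x1275) x1287) x1279) x1281)
    (Nat.add (Nat.add (Nat.add (Nat.add (Nat.add C x2745) x1773) x1125) x1341) x1281)
    (Nat.sub (Nat.add (Nat.add (Nat.add (Nat.add (Nat.add (Nat.add C x2759) x1787) x1139) x1247) x1307) x1303) x3487)
    (Nat.sub (Nat.add (Nat.add (Nat.add (Nat.add (Nat.add (Nat.add C x2761) x1789) x1141) x1249) x1309) x1301) x3489)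
    (Nat.sub (Nat.sub (Nat.add (Nat.add (Nat.add (Nat.add (Nat.add (Nat.add (Nat.add C x2765) x1793) x1145) x1253) x1325) x1301) x1309) (Nat.mul x1307 (nat_lit 2))) x3493)
    (Nat.sub (Nat.add (Nat.add (Nat.add (Nat.add (Nat.add (Nat.add (Nat.add (Nat.add (Nat.add C x2767) x1795) x1147) x1255) x1327) x1303) x1315) x1307) x1311) x3495)
    (Nat.add (Nat.add (Nat.add (Nat.add (Nat.add (Nat.add (Nat.add C x2769) x1797) x1149) x1257) x1329) x1317) x1309)
    (Nat.sub (Nat.sub (Nat.add (Nat.add (Nat.add (Nat.add (Nat.add (Nat.add (Nat.add C x2773) x1801) x1153) x1261) x1333) x1309) x1317) (Nat.mul x1315 (nat_lit 2))) x3501)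
    (Nat.add (Nat.add (Nat.add (Nat.add (Nat.add (Nat.add (Nat.add C x2775) x1803) x1155) x1263) x1335) x1311) x1315)
    (Nat.sub (Nat.sub (Nat.add (Nat.add (Nat.add (Nat.add (Nat.add (Nat.add (Nat.add C x2783) x1811) x1163) x1271) x1379) x1307) x1327) x1325) x3511)
    (Nat.sub (Nat.add (Nat.add (Nat.add (Nat.add (Nat.add (Nat.add (Nat.add (Nat.add (Nat.add C x2785) x1813) x1165) x1273) x1381) x1309) x1333) x1325) x1329) x3513)
    (Nat.sub (Nat.add (Nat.add (Nat.add (Nat.add (Nat.add (Nat.add (Nat.add (Nat.add C x2787) x1815) x1167) x1275) x1383) x1311) x1335) x1327) x1329)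
    (Nat.sub (Nat.add (Nat.add (Nat.add (Nat.add (Nat.add (Nat.add (Nat.add (Nat.add (Nat.add C x2791) x1819) x1171) x1279) x1387) x1315) x1351) x1327) x1335) x3519)
    (Nat.add (Nat.add (Nat.add (Nat.add (Nat.add (Nat.add (Nat.add (Nat.add (Nat.add (Nat.add (Nat.add C x1335) x2793) x1821) x1173) x1281) x1389) x1317) x1353) x1329) x1341) x1333)
    (Nat.add (Nat.add (Nat.add (Nat.add (Nat.add (Nat.add (Nat.add (Nat.add C x1341) x2799) x1827) x1179) x1287) x1395) x1359) x1335)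
    (Nat.sub (Nat.add (Nat.add (Nat.add (Nat.add (Nat.add (Nat.add C x2809) x1837) x1189) x1405) x1333) x1353) x3537)
    (Nat.add (Nat.add (Nat.add (Nat.add (Nat.add (Nat.add (Nat.add C x2811) x1839) x1191) x1407) x1335) x1359) x1351)
    (Nat.add (Nat.add (Nat.add (Nat.add (Nat.add (Nat.add (Nat.add C (Nat.mul x1359 (nat_lit 2))) x2817) x1845) x1197) x1413) x1341) x1353)
    (Nat.sub (Nat.add (Nat.add (Nat.add (Nat.add C x2837) x1865) x1325) x1381) x3565)
    (Nat.sub (Nat.add (Nat.add (Nat.add (Nat.add (Nat.add (Nat.add (Nat.add C x1381) x2839) x1867) x1327) x1387) x1379) x1383) x3567)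
    (Nat.add (Nat.add (Nat.add (Nat.add (Nat.add C x2841) x1869) x1329) x1389) x1381)
    (Nat.sub (Nat.add (Nat.add (Nat.add (Nat.add (Nat.add (Nat.add C x2845) x1873) x1333) x1405) x1381) x1389) x3573)
    (Nat.add (Nat.add (Nat.add (Nat.add (Nat.add (Nat.add (Nat.add (Nat.add C x1389) x2847) x1875) x1335) x1407) x1383) x1395) x1387)
    (Nat.add (Nat.add (Nat.add (Nat.add (Nat.add C x2853) x1881) x1341) x1413) x1389)
    (Nat.sub (Nat.add (Nat.add (Nat.add (Nat.add (Nat.add (Nat.add C (Nat.mul x1405 (nat_lit 2))) x2863) x1891) x1351) x1387) x1407) x3591)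
    (Nat.add (Nat.add (Nat.add (Nat.add (Nat.add (Nat.add (Nat.add C (Nat.mul x1407 (nat_lit 2))) x2865) x1893) x1353) x1389) x1413) x1405)
    (Nat.add (Nat.add (Nat.add (Nat.add (Nat.add (Nat.add (Nat.add C (Nat.mul x1413 (nat_lit 3))) x2871) x1899) x1359) x1395) x1431) x1407)
    (Nat.add (Nat.add (Nat.add (Nat.add C (Nat.mul x1431 (nat_lit 4))) x2889) x1917) x1413)
    (Nat.sub (Nat.add (Nat.add (Nat.add (Nat.add C x2933) x989) x1493) x1481) x3661)
    (Nat.sub (Nat.sub (Nat.add (Nat.add (Nat.add (Nat.add (Nat.add C x2939) x995) x1499) x1475) x1483) (Nat.mul x1481 (nat_lit 2))) x3667)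
    (Nat.sub (Nat.add (Nat.add (Nat.add (Nat.add C x2941) x997) x1501) x1481) x3669)
    (Nat.sub (Nat.sub (Nat.add (Nat.add (Nat.add (Nat.add (Nat.add C x2951) x1007) x1547) x1475) x1499) (Nat.mul x1493 (nat_lit 2))) x3679)
    (Nat.sub (Nat.sub (Nat.add (Nat.add (Nat.add (Nat.add (Nat.add (Nat.add (Nat.add (Nat.add C x2957) x1013) x1553) x1481) x1517) x1493) x1505) x1501) (Nat.mul x1499 (nat_lit 2))) x3685)
    (Nat.sub (Nat.sub (Nat.add (Nat.add (Nat.add (Nat.add (Nat.add (Nat.add (Nat.add C x2959) x1015) x1555) x1483) x1519) x1507) x1499) x1501) x3687)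
    (Nat.sub (Nat.sub (Nat.add (Nat.add (Nat.add (Nat.add (Nat.add (Nat.add C x2963) x1019) x1559) x1523) x1499) x1507) (Nat.mul x1505 (nat_lit 4))) x3691)
    (Nat.sub (Nat.sub (Nat.add (Nat.add (Nat.add (Nat.add (Nat.add (Nat.add (Nat.add C x2965) x1021) x1561) x1525) x1501) x1505) x1509) x1507) x3693)
    (Nat.add (Nat.add (Nat.add (Nat.add (Nat.add C x2967) x1023) x1563) x1527) x1507)
    (Nat.sub (Nat.sub (Nat.add (Nat.add (Nat.add (Nat.add (Nat.add (Nat.add C x2975) x1031) x1571) x1499) x1523) x1519) (Nat.mul x1517 (nat_lit 4))) x3703)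
    (Nat.sub (Nat.sub (Nat.add (Nat.add (Nat.add (Nat.add (Nat.add (Nat.add C x2977) x1033) x1573) x1501) x1525) x1517) (Nat.mul x1519 (nat_lit 4))) x3705)
    (Nat.sub (Nat.sub (Nat.add (Nat.add (Nat.add (Nat.add (Nat.add (Nat.add C x2981) x1037) x1577) x1505) x1517) x1525) (Nat.mul x1523 (nat_lit 4))) x3709)
    (Nat.sub (Nat.sub (Nat.add (Nat.add (Nat.add (Nat.add (Nat.add (Nat.add (Nat.add (Nat.add C x2983) x1039) x1579) x1507) x1519) x1531) x1523) x1527) (Nat.mul x1525 (nat_lit 2))) x3711)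
    (Nat.sub (Nat.add (Nat.add (Nat.add (Nat.add (Nat.add (Nat.add C x2985) x1041) x1581) x1509) x1533) x1525) (Nat.mul x1527 (nat_lit 2)))
    (Nat.sub (Nat.sub (Nat.add (Nat.add (Nat.add (Nat.add (Nat.add C x2989) x1045) x1585) x1525) x1533) (Nat.mul x1531 (nat_lit 2))) x3717)
    (Nat.add (Nat.add (Nat.add (Nat.add (Nat.add C x2991) x1047) x1587) x1527) x1531)
    (Nat.sub (Nat.sub (Nat.add (Nat.add (Nat.add (Nat.add (Nat.add C x3005) x1061) x1709) x1493) x1553) (Nat.mul x1547 (nat_lit 2))) x3733)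
    (Nat.sub (Nat.sub (Nat.add (Nat.add (Nat.add (Nat.add (Nat.add (Nat.add (Nat.add (Nat.add C x3011) x1067) x1715) x1499) x1571) x1547) x1559) x1555) (Nat.mul x1553 (nat_lit 3))) x3739)
    (Nat.sub (Nat.sub (Nat.add (Nat.add (Nat.add (Nat.add (Nat.add (Nat.add (Nat.add C x3013) x1069) x1717) x1501) x1573) x1561) x1553) (Nat.mul x1555 (nat_lit 2))) x3741)
    (Nat.sub (Nat.sub (Nat.add (Nat.add (Nat.add (Nat.add (Nat.add (Nat.add (Nat.add C x3017) x1073) x1721) x1505) x1577) x1553) x1561) (Nat.mul x1559 (nat_lit 6))) x3745)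
    (Nat.sub (Nat.sub (Nat.add (Nat.add (Nat.add (Nat.add (Nat.add (Nat.add (Nat.add (Nat.add C x3019) x1075) x1723) x1507) x1579) x1555) x1559) x1563) (Nat.mul x1561 (nat_lit 3))) x3747)
    (Nat.sub (Nat.add (Nat.add (Nat.add (Nat.add (Nat.add (Nat.add C x3021) x1077) x1725) x1509) x1581) x1561) (Nat.mul x1563 (nat_lit 2)))
    (Nat.sub (Nat.sub (Nat.add (Nat.add (Nat.add (Nat.add (Nat.add (Nat.add (Nat.add (Nat.add C x3029) x1085) x1733) x1517) x1625) x1553) x1577) x1573) (Nat.mul x1571 (nat_lit 3))) x3757)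
    (Nat.sub (Nat.sub (Nat.add (Nat.add (Nat.add (Nat.add (Nat.add (Nat.add (Nat.add (Nat.add C x3031) x1087) x1735) x1519) x1627) x1555) x1579) x1571) (Nat.mul x1573 (nat_lit 3))) x3759)
    (Nat.sub (Nat.sub (Nat.add (Nat.add (Nat.add (Nat.add (Nat.add (Nat.add (Nat.add (Nat.add (Nat.add C x3035) x1091) x1739) x1523) x1631) x1559) x1595) x1571) x1579) (Nat.mul x1577 (nat_lit 4))) x3763)
    (Nat.sub (Nat.sub (Nat.add (Nat.add (Nat.add (Nat.add (Nat.add (Nat.add (Nat.add (Nat.add (Nat.add (Nat.add (Nat.add C x3037) x1093) x1741) x1525) x1633) x1561) x1597) x1573) x1585) x1577) x1581) (Nat.mul x1579 (nat_lit 2))) x3765)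
    (Nat.sub (Nat.add (Nat.add (Nat.add (Nat.add (Nat.add (Nat.add (Nat.add (Nat.add (Nat.add C x3039) x1095) x1743) x1527) x1635) x1563) x1599) x1587) x1579) (Nat.mul x1581 (nat_lit 2)))
    (Nat.sub (Nat.sub (Nat.add (Nat.add (Nat.add (Nat.add (Nat.add (Nat.add (Nat.add (Nat.add C x3043) x1099) x1747) x1531) x1639) x1603) x1579) x1587) (Nat.mul x1585 (nat_lit 3))) x3771)
    (Nat.sub (Nat.add (Nat.add (Nat.add (Nat.add (Nat.add (Nat.add (Nat.add (Nat.add C x3045) x1101) x1749) x1533) x1641) x1605) x1581) x1585) x1587)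
    (Nat.sub (Nat.sub (Nat.add (Nat.add (Nat.add (Nat.add (Nat.add (Nat.add C x3053) x1109) x1757) x1649) x1577) x1597) (Nat.mul x1595 (nat_lit 4))) x3781)
    (Nat.sub (Nat.sub (Nat.add (Nat.add (Nat.add (Nat.add (Nat.add (Nat.add (Nat.add (Nat.add C x3055) x1111) x1759) x1651) x1579) x1603) x1595) x1599) (Nat.mul x1597 (nat_lit 3))) x3783)
    (Nat.sub (Nat.add (Nat.add (Nat.add (Nat.add (Nat.add (Nat.add (Nat.add C x3057) x1113) x1761) x1653) x1581) x1605) x1597) (Nat.mul x1599 (nat_lit 4)))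
    (Nat.sub (Nat.sub (Nat.add (Nat.add (Nat.add (Nat.add (Nat.add (Nat.add (Nat.add C x3061) x1117) x1765) x1657) x1585) x1597) x1605) (Nat.mul x1603 (nat_lit 2))) x3789)
    (Nat.sub (Nat.add (Nat.add (Nat.add (Nat.add (Nat.add (Nat.add (Nat.add (Nat.add C x3063) x1119) x1767) x1659) x1587) x1599) x1611) x1603) x1605)
    (Nat.add (Nat.add (Nat.add (Nat.add (Nat.add C x3069) x1125) x1773) x1665) x1605)
    (Nat.sub (Nat.sub (Nat.add (Nat.add (Nat.add (Nat.add (Nat.add (Nat.add C x3083) x1139) x1787) x1571) x1631) x1627) (Nat.mul x1625 (nat_lit 4))) x3811)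
    (Nat.sub (Nat.sub (Nat.add (Nat.add (Nat.add (Nat.add (Nat.add (Nat.add C x3085) x1141) x1789) x1573) x1633) x1625) (Nat.mul x1627 (nat_lit 4))) x3813)
    (Nat.sub (Nat.sub (Nat.add (Nat.add (Nat.add (Nat.add (Nat.add (Nat.add (Nat.add C x3089) x1145) x1793) x1577) x1649) x1625) x1633) (Nat.mul x1631 (nat_lit 6))) x3817)
    (Nat.sub (Nat.sub (Nat.add (Nat.add (Nat.add (Nat.add (Nat.add (Nat.add (Nat.add (Nat.add (Nat.add C x3091) x1147) x1795) x1579) x1651) x1627) x1639) x1631) x1635) (Nat.mul x1633 (nat_lit 4))) x3819)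
    (Nat.sub (Nat.add (Nat.add (Nat.add (Nat.add (Nat.add (Nat.add (Nat.add C x3093) x1149) x1797) x1581) x1653) x1641) x1633) (Nat.mul x1635 (nat_lit 4)))
    (Nat.sub (Nat.sub (Nat.add (Nat.add (Nat.add (Nat.add (Nat.add (Nat.add (Nat.add C x3097) x1153) x1801) x1585) x1657) x1633) x1641) (Nat.mul x1639 (nat_lit 6))) x3825)
    (Nat.sub (Nat.add (Nat.add (Nat.add (Nat.add (Nat.add (Nat.add (Nat.add C x3099) x1155) x1803) x1587) x1659) x1635) x1639) (Nat.mul x1641 (nat_lit 4)))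
    (Nat.sub (Nat.sub (Nat.add (Nat.add (Nat.add (Nat.add (Nat.add (Nat.add C x3107) x1163) x1811) x1595) x1631) x1651) (Nat.mul x1649 (nat_lit 4))) x3835)
    (Nat.sub (Nat.sub (Nat.add (Nat.add (Nat.add (Nat.add (Nat.add (Nat.add (Nat.add (Nat.add C x3109) x1165) x1813) x1597) x1633) x1657) x1649) x1653) (Nat.mul x1651 (nat_lit 3))) x3837)
    (Nat.sub (Nat.add (Nat.add (Nat.add (Nat.add (Nat.add (Nat.add (Nat.add C x3111) x1167) x1815) x1599) x1635) x1659) x1651) (Nat.mul x1653 (nat_lit 4)))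
    (Nat.sub (Nat.sub (Nat.add (Nat.add (Nat.add (Nat.add (Nat.add (Nat.add (Nat.add (Nat.add C x3115) x1171) x1819) x1603) x1639) x1675) x1651) x1659) (Nat.mul x1657 (nat_lit 3))) x3843)
    (Nat.sub (Nat.add (Nat.add (Nat.add (Nat.add (Nat.add (Nat.add (Nat.add (Nat.add (Nat.add C x3117) x1173) x1821) x1605) x1641) x1677) x1653) x1665) x1657) (Nat.mul x1659 (nat_lit 2)))
    (Nat.sub (Nat.add (Nat.add (Nat.add (Nat.add (Nat.add (Nat.add C x3123) x1179) x1827) x1611) x1683) x1659) (Nat.mul x1665 (nat_lit 2)))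
    (Nat.sub (Nat.sub (Nat.add (Nat.add (Nat.add (Nat.add (Nat.add C x3133) x1189) x1837) x1657) x1677) (Nat.mul x1675 (nat_lit 2))) x3861)
    (Nat.sub (Nat.add (Nat.add (Nat.add (Nat.add (Nat.add (Nat.add C x3135) x1191) x1839) x1659) x1683) x1675) (Nat.mul x1677 (nat_lit 2)))
    (Nat.add (Nat.add (Nat.add (Nat.add (Nat.add C x3141) x1197) x1845) x1665) x1677)
    (Nat.sub (Nat.add (Nat.add (Nat.add (Nat.add C x3167) x1223) x1547) x1715) x3895)
    (Nat.sub (Nat.sub (Nat.add (Nat.add (Nat.add (Nat.add (Nat.add (Nat.add (Nat.add C x3173) x1229) x1553) x1733) x1709) x1721) x1717) x1715) x3901)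
    (Nat.sub (Nat.add (Nat.add (Nat.add (Nat.add (Nat.add (Nat.add C x3175) x1231) x1555) x1735) x1723) x1715) x3903)
    (Nat.sub (Nat.sub (Nat.add (Nat.add (Nat.add (Nat.add (Nat.add (Nat.add C x3179) x1235) x1559) x1739) x1715) x1723) (Nat.mul x1721 (nat_lit 4))) x3907)
    (Nat.sub (Nat.sub (Nat.add (Nat.add (Nat.add (Nat.add (Nat.add (Nat.add (Nat.add C x3181) x1237) x1561) x1741) x1717) x1721) x1725) x1723) x3909)
    (Nat.add (Nat.add (Nat.add (Nat.add (Nat.add C x3183) x1239) x1563) x1743) x1723)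
    (Nat.sub (Nat.sub (Nat.add (Nat.add (Nat.add (Nat.add (Nat.add (Nat.add (Nat.add C x3191) x1247) x1571) x1787) x1715) x1739) x1735) (Nat.mul x1733 (nat_lit 2))) x3919)
    (Nat.sub (Nat.sub (Nat.add (Nat.add (Nat.add (Nat.add (Nat.add (Nat.add (Nat.add C x3193) x1249) x1573) x1789) x1717) x1741) x1733) (Nat.mul x1735 (nat_lit 2))) x3921)
    (Nat.sub (Nat.sub (Nat.add (Nat.add (Nat.add (Nat.add (Nat.add (Nat.add (Nat.add (Nat.add C x3197) x1253) x1577) x1793) x1721) x1757) x1733) x1741) (Nat.mul x1739 (nat_lit 3))) x3925)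
    (Nat.sub (Nat.sub (Nat.add (Nat.add (Nat.add (Nat.add (Nat.add (Nat.add (Nat.add (Nat.add (Nat.add (Nat.add C x3199) x1255) x1579) x1795) x1723) x1759) x1735) x1747) x1739) x1743) x1741) x3927)
    (Nat.sub (Nat.add (Nat.add (Nat.add (Nat.add (Nat.add (Nat.add (Nat.add (Nat.add C x3201) x1257) x1581) x1797) x1725) x1761) x1749) x1741) x1743)
    (Nat.sub (Nat.sub (Nat.add (Nat.add (Nat.add (Nat.add (Nat.add (Nat.add (Nat.add C x3205) x1261) x1585) x1801) x1765) x1741) x1749) (Nat.mul x1747 (nat_lit 2))) x3933)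
    (Nat.add (Nat.add (Nat.add (Nat.add (Nat.add (Nat.add (Nat.add C x3207) x1263) x1587) x1803) x1767) x1743) x1747)
    (Nat.sub (Nat.sub (Nat.add (Nat.add (Nat.add (Nat.add (Nat.add (Nat.add C x3215) x1271) x1595) x1811) x1739) x1759) (Nat.mul x1757 (nat_lit 4))) x3943)
    (Nat.sub (Nat.sub (Nat.add (Nat.add (Nat.add (Nat.add (Nat.add (Nat.add (Nat.add (Nat.add C x3217) x1273) x1597) x1813) x1741) x1765) x1757) x1761) (Nat.mul x1759 (nat_lit 3))) x3945)
    (Nat.sub (Nat.add (Nat.add (Nat.add (Nat.add (Nat.add (Nat.add (Nat.add C x3219) x1275) x1599) x1815) x1743) x1767) x1759) (Nat.mul x1761 (nat_lit 4)))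
    (Nat.sub (Nat.sub (Nat.add (Nat.add (Nat.add (Nat.add (Nat.add (Nat.add (Nat.add C x3223) x1279) x1603) x1819) x1747) x1759) x1767) (Nat.mul x1765 (nat_lit 2))) x3951)
    (Nat.sub (Nat.add (Nat.add (Nat.add (Nat.add (Nat.add (Nat.add (Nat.add (Nat.add C x3225) x1281) x1605) x1821) x1749) x1761) x1773) x1765) x1767)
    (Nat.add (Nat.add (Nat.add (Nat.add (Nat.add C x3231) x1287) x1611) x1827) x1767)
    (Nat.sub (Nat.sub (Nat.add (Nat.add (Nat.add (Nat.add (Nat.add (Nat.add (Nat.add C x3245) x1301) x1625) x1949) x1733) x1793) x1789) x1787) x3973)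
    (Nat.sub (Nat.sub (Nat.add (Nat.add (Nat.add (Nat.add (Nat.add (Nat.add (Nat.add C x3247) x1303) x1627) x1951) x1735) x1795) x1787) x1789) x3975)
    (Nat.sub (Nat.sub (Nat.add (Nat.add (Nat.add (Nat.add (Nat.add (Nat.add (Nat.add (Nat.add C x3251) x1307) x1631) x1955) x1739) x1811) x1787) x1795) (Nat.mul x1793 (nat_lit 3))) x3979)
    (Nat.sub (Nat.sub (Nat.add (Nat.add (Nat.add (Nat.add (Nat.add (Nat.add (Nat.add (Nat.add (Nat.add (Nat.add C x3253) x1309) x1633) x1957) x1741) x1813) x1789) x1801) x1793) x1797) x1795) x3981)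
    (Nat.sub (Nat.add (Nat.add (Nat.add (Nat.add (Nat.add (Nat.add (Nat.add (Nat.add C x3255) x1311) x1635) x1959) x1743) x1815) x1803) x1795) x1797)
    (Nat.sub (Nat.sub (Nat.add (Nat.add (Nat.add (Nat.add (Nat.add (Nat.add (Nat.add (Nat.add C x3259) x1315) x1639) x1963) x1747) x1819) x1795) x1803) (Nat.mul x1801 (nat_lit 3))) x3987)
    (Nat.sub (Nat.add (Nat.add (Nat.add (Nat.add (Nat.add (Nat.add (Nat.add (Nat.add C x3261) x1317) x1641) x1965) x1749) x1821) x1797) x1801) x1803)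
    (Nat.sub (Nat.sub (Nat.add (Nat.add (Nat.add (Nat.add (Nat.add (Nat.add (Nat.add (Nat.add C x3269) x1325) x1649) x1973) x1757) x1865) x1793) x1813) (Nat.mul x1811 (nat_lit 2))) x3997)
    (Nat.sub (Nat.sub (Nat.add (Nat.add (Nat.add (Nat.add (Nat.add (Nat.add (Nat.add (Nat.add (Nat.add (Nat.add C x3271) x1327) x1651) x1975) x1759) x1867) x1795) x1819) x1811) x1815) x1813) x3999)
    (Nat.sub (Nat.add (Nat.add (Nat.add (Nat.add (Nat.add (Nat.add (Nat.add (Nat.add (Nat.add C x3273) x1329) x1653) x1977) x1761) x1869) x1797) x1821) x1813) (Nat.mul x1815 (nat_lit 2)))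
    (Nat.sub (Nat.sub (Nat.add (Nat.add (Nat.add (Nat.add (Nat.add (Nat.add (Nat.add (Nat.add (Nat.add (Nat.add C x3277) x1333) x1657) x1981) x1765) x1873) x1801) x1837) x1813) x1821) x1819) x4005)
    (Nat.add (Nat.add (Nat.add (Nat.add (Nat.add (Nat.add (Nat.add (Nat.add (Nat.add (Nat.add (Nat.add C x3279) x1335) x1659) x1983) x1767) x1875) x1803) x1839) x1815) x1827) x1819)
    (Nat.add (Nat.add (Nat.add (Nat.add (Nat.add (Nat.add (Nat.add (Nat.add C x3285) x1341) x1665) x1989) x1773) x1881) x1845) x1821)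
    (Nat.sub (Nat.sub (Nat.add (Nat.add (Nat.add (Nat.add (Nat.add (Nat.add (Nat.add C x3295) x1351) x1675) x1999) x1891) x1819) x1839) x1837) x4023)
    (Nat.sub (Nat.add (Nat.add (Nat.add (Nat.add (Nat.add (Nat.add (Nat.add (Nat.add C x3297) x1353) x1677) x2001) x1893) x1821) x1845) x1837) x1839)
    (Nat.add (Nat.add (Nat.add (Nat.add (Nat.add (Nat.add (Nat.add (Nat.add C x1845) x3303) x1359) x1683) x2007) x1899) x1827) x1839)
    (Nat.sub (Nat.sub (Nat.add (Nat.add (Nat.add (Nat.add (Nat.add C x3323) x1379) x2027) x1811) x1867) (Nat.mul x1865 (nat_lit 2))) x4051)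
    (Nat.sub (Nat.sub (Nat.add (Nat.add (Nat.add (Nat.add (Nat.add (Nat.add (Nat.add C x3325) x1381) x2029) x1813) x1873) x1865) x1869) x1867) x4053)
    (Nat.sub (Nat.add (Nat.add (Nat.add (Nat.add (Nat.add (Nat.add C x3327) x1383) x2031) x1815) x1875) x1867) (Nat.mul x1869 (nat_lit 2)))
    (Nat.sub (Nat.sub (Nat.add (Nat.add (Nat.add (Nat.add (Nat.add (Nat.add (Nat.add C x3331) x1387) x2035) x1819) x1891) x1867) x1875) (Nat.mul x1873 (nat_lit 2))) x4059)
    (Nat.sub (Nat.add (Nat.add (Nat.add (Nat.add (Nat.add (Nat.add (Nat.add (Nat.add C x3333) x1389) x2037) x1821) x1893) x1869) x1881) x1873) x1875)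
    (Nat.sub (Nat.add (Nat.add (Nat.add (Nat.add (Nat.add (Nat.add C x3339) x1395) x2043) x1827) x1899) x1875) (Nat.mul x1881 (nat_lit 2)))
    (Nat.sub (Nat.add (Nat.add (Nat.add (Nat.add (Nat.add (Nat.add C x3349) x1405) x2053) x1837) x1873) x1893) x4077)
    (Nat.add (Nat.add (Nat.add (Nat.add (Nat.add (Nat.add (Nat.add C x3351) x1407) x2055) x1839) x1875) x1899) x1891)
    (Nat.add (Nat.add (Nat.add (Nat.add (Nat.add (Nat.add (Nat.add (Nat.add C x1899) x3357) x1413) x2061) x1845) x1881) x1917) x1893)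
    (Nat.add (Nat.add (Nat.add (Nat.add (Nat.add C (Nat.mul x1917 (nat_lit 2))) x3375) x1431) x2079) x1899)
    (Nat.sub (Nat.add (Nat.add (Nat.add (Nat.add C x3407) x1787) x1955) x1951) x4135)
    (Nat.sub (Nat.add (Nat.add (Nat.add (Nat.add C x3409) x1789) x1957) x1949) x4137)
    (Nat.sub (Nat.sub (Nat.add (Nat.add (Nat.add (Nat.add (Nat.add C x3413) x1793) x1973) x1949) x1957) (Nat.mul x1955 (nat_lit 2))) x4141)
    (Nat.sub (Nat.add (Nat.add (Nat.add (Nat.add (Nat.add (Nat.add (Nat.add C x3415) x1795) x1975) x1951) x1963) x1955) x1959) x4143)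
    (Nat.add (Nat.add (Nat.add (Nat.add (Nat.add C x3417) x1797) x1977) x1965) x1957)
    (Nat.sub (Nat.sub (Nat.add (Nat.add (Nat.add (Nat.add (Nat.add C x3421) x1801) x1981) x1957) x1965) (Nat.mul x1963 (nat_lit 2))) x4149)
    (Nat.add (Nat.add (Nat.add (Nat.add (Nat.add C x3423) x1803) x1983) x1959) x1963)
    (Nat.sub (Nat.sub (Nat.add (Nat.add (Nat.add (Nat.add (Nat.add C x3431) x1811) x2027) x1955) x1975) (Nat.mul x1973 (nat_lit 2))) x4159)
    (Nat.sub (Nat.sub (Nat.add (Nat.add (Nat.add (Nat.add (Nat.add (Nat.add (Nat.add C x3433) x1813) x2029) x1957) x1981) x1973) x1977) x1975) x4161)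
    (Nat.sub (Nat.add (Nat.add (Nat.add (Nat.add (Nat.add (Nat.add C x3435) x1815) x2031) x1959) x1983) x1975) (Nat.mul x1977 (nat_lit 2)))
    (Nat.sub (Nat.sub (Nat.add (Nat.add (Nat.add (Nat.add (Nat.add (Nat.add (Nat.add C x3439) x1819) x2035) x1963) x1999) x1975) x1983) x1981) x4167)
    (Nat.add (Nat.add (Nat.add (Nat.add (Nat.add (Nat.add (Nat.add (Nat.add C x3441) x1821) x2037) x1965) x2001) x1977) x1989) x1981)
    (Nat.add (Nat.add (Nat.add (Nat.add (Nat.add C x3447) x1827) x2043) x2007) x1983)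
    (Nat.sub (Nat.sub (Nat.add (Nat.add (Nat.add (Nat.add (Nat.add C x3457) x1837) x2053) x1981) x2001) (Nat.mul x1999 (nat_lit 2))) x4185)
    (Nat.sub (Nat.add (Nat.add (Nat.add (Nat.add (Nat.add (Nat.add C x3459) x1839) x2055) x1983) x2007) x1999) (Nat.mul x2001 (nat_lit 2)))
    (Nat.add (Nat.add (Nat.add (Nat.add (Nat.add C x3465) x1845) x2061) x1989) x2001)
    (Nat.sub (Nat.add (Nat.add (Nat.add (Nat.add C x3485) x1865) x1973) x2029) x4213)
    (Nat.sub (Nat.add (Nat.add (Nat.add (Nat.add (Nat.add (Nat.add (Nat.add C x2029) x3487) x1867) x1975) x2035) x2027) x2031) x4215)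
    (Nat.add (Nat.add (Nat.add (Nat.add (Nat.add C x3489) x1869) x1977) x2037) x2029)
    (Nat.sub (Nat.add (Nat.add (Nat.add (Nat.add (Nat.add (Nat.add C x3493) x1873) x1981) x2053) x2029) x2037) x4221)
    (Nat.add (Nat.add (Nat.add (Nat.add (Nat.add (Nat.add (Nat.add (Nat.add C x2037) x3495) x1875) x1983) x2055) x2031) x2043) x2035)
    (Nat.add (Nat.add (Nat.add (Nat.add (Nat.add C x3501) x1881) x1989) x2061) x2037)
    (Nat.sub (Nat.add (Nat.add (Nat.add (Nat.add (Nat.add (Nat.add (Nat.add C x2053) x3511) x1891) x1999) x2107) x2035) x2055) x4239)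
    (Nat.add (Nat.add (Nat.add (Nat.add (Nat.add (Nat.add (Nat.add (Nat.add C x2055) x3513) x1893) x2001) x2109) x2037) x2061) x2053)
    (Nat.add (Nat.add (Nat.add (Nat.add (Nat.add (Nat.add (Nat.add (Nat.add C (Nat.mul x2061 (nat_lit 2))) x3519) x1899) x2007) x2115) x2043) x2079) x2055)
    (Nat.add (Nat.add (Nat.add (Nat.add (Nat.add C (Nat.mul x2079 (nat_lit 2))) x3537) x1917) x2133) x2061)
    (Nat.sub (Nat.add (Nat.add (Nat.add (Nat.add C (Nat.mul x2107 (nat_lit 2))) x3565) x2053) x2109) x4293)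
    (Nat.add (Nat.add (Nat.add (Nat.add (Nat.add C (Nat.mul x2109 (nat_lit 2))) x3567) x2055) x2115) x2107)
    (Nat.add (Nat.add (Nat.add (Nat.add (Nat.add C (Nat.mul x2115 (nat_lit 2))) x3573) x2061) x2133) x2109)
    (Nat.add (Nat.add (Nat.add (Nat.add C (Nat.mul x2133 (nat_lit 4))) x3591) x2079) x2115)
    (Nat.sub (Nat.add (Nat.add (Nat.add C (Nat.mul x2213 (nat_lit 4))) x755) x2231) x4399)
    (Nat.sub (Nat.add (Nat.add (Nat.add (Nat.add (Nat.add (Nat.add C (Nat.mul x2231 (nat_lit 3))) x773) x2285) x2213) x2249) x2237) x4417)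
    (Nat.sub (Nat.add (Nat.add (Nat.add (Nat.add (Nat.add (Nat.add C (Nat.mul x2237 (nat_lit 2))) x779) x2291) x2255) x2231) x2239) x4423)
    (Nat.sub (Nat.sub (Nat.add (Nat.add (Nat.add (Nat.add (Nat.add C (Nat.mul x2239 (nat_lit 3))) x781) x2293) x2257) x2237) x4425) x53)
    (Nat.sub (Nat.add (Nat.add (Nat.add (Nat.add C x791) x2303) x2231) x2255) x4435)
    (Nat.sub (Nat.add (Nat.add (Nat.add (Nat.add (Nat.add (Nat.add (Nat.add C x2255) x797) x2309) x2237) x2249) x2261) x2257) x4441)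
    (Nat.sub (Nat.sub (Nat.add (Nat.add (Nat.add (Nat.add (Nat.add (Nat.add C x2257) x799) x2311) x2239) x2263) x2255) x4443) x71)
    (Nat.sub (Nat.add (Nat.add (Nat.add (Nat.add C x803) x2315) x2255) x2263) x4447)
    (Nat.sub (Nat.sub (Nat.add (Nat.add (Nat.add (Nat.add (Nat.add (Nat.add C (Nat.mul x2263 (nat_lit 2))) x805) x2317) x2257) x2261) x2265) x4449) x77)
    (Nat.sub (Nat.add (Nat.add (Nat.add (Nat.add C (Nat.mul x2265 (nat_lit 2))) x807) x2319) x2263) x79)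
    (Nat.sub (Nat.add (Nat.add (Nat.add (Nat.add (Nat.add (Nat.add C (Nat.mul x2285 (nat_lit 2))) x827) x2447) x2231) x2303) x2291) x4471)
    (Nat.sub (Nat.add (Nat.add (Nat.add (Nat.add (Nat.add (Nat.add C x833) x2453) x2237) x2309) x2285) x2293) x4477)
    (Nat.sub (Nat.sub (Nat.add (Nat.add (Nat.add (Nat.add (Nat.add (Nat.add C x2293) x835) x2455) x2239) x2311) x2291) x4479) x107)
    (Nat.sub (Nat.add (Nat.add (Nat.add (Nat.add (Nat.add (Nat.add (Nat.add C x2303) x845) x2465) x2249) x2357) x2285) x2309) x4489)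
    (Nat.sub (Nat.add (Nat.add (Nat.add (Nat.add (Nat.add (Nat.add (Nat.add (Nat.add (Nat.add (Nat.add C x2309) x851) x2471) x2255) x2363) x2291) x2327) x2303) x2315) x2311) x4495)
    (Nat.sub (Nat.sub (Nat.add (Nat.add (Nat.add (Nat.add (Nat.add (Nat.add (Nat.add (Nat.add (Nat.add C x2311) x853) x2473) x2257) x2365) x2293) x2329) x2317) x2309) x4497) x125)
    (Nat.sub (Nat.sub (Nat.add (Nat.add (Nat.add (Nat.add (Nat.add (Nat.add (Nat.add C x857) x2477) x2261) x2369) x2333) x2309) x2317) x2315) x4501)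
    (Nat.sub (Nat.sub (Nat.add (Nat.add (Nat.add (Nat.add (Nat.add (Nat.add (Nat.add (Nat.add (Nat.add C x2317) x859) x2479) x2263) x2371) x2335) x2311) x2315) x2319) x4503) x131)
    (Nat.sub (Nat.add (Nat.add (Nat.add (Nat.add (Nat.add (Nat.add (Nat.add C x2319) x861) x2481) x2265) x2373) x2337) x2317) x133)
    (Nat.sub (Nat.add (Nat.add (Nat.add (Nat.add (Nat.add (Nat.add C x869) x2489) x2381) x2309) x2333) x2329) x4513)
    (Nat.sub (Nat.sub (Nat.sub (Nat.add (Nat.add (Nat.add (Nat.add (Nat.add (Nat.add C x871) x2491) x2383) x2311) x2335) x2327) x2329) x4515) x143)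
    (Nat.sub (Nat.add (Nat.add (Nat.add (Nat.add (Nat.add (Nat.add C x875) x2495) x2387) x2315) x2327) x2335) x4519)
    (Nat.sub (Nat.sub (Nat.add (Nat.add (Nat.add (Nat.add (Nat.add (Nat.add (Nat.add (Nat.add (Nat.add C x2335) x877) x2497) x2389) x2317) x2329) x2341) x2333) x2337) x4521) x149)
    (Nat.sub (Nat.add (Nat.add (Nat.add (Nat.add (Nat.add (Nat.add C x879) x2499) x2391) x2319) x2343) x2335) x151)
    (Nat.sub (Nat.sub (Nat.add (Nat.add (Nat.add (Nat.add (Nat.add (Nat.add C x2341) x883) x2503) x2395) x2335) x2343) x4527) x155)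
    (Nat.sub (Nat.add (Nat.add (Nat.add (Nat.add (Nat.add (Nat.add C (Nat.mul x2343 (nat_lit 2))) x885) x2505) x2397) x2337) x2341) x157)
    (Nat.sub (Nat.add (Nat.add (Nat.add (Nat.add C x899) x2519) x2303) x2363) x4543)
    (Nat.sub (Nat.sub (Nat.add (Nat.add (Nat.add (Nat.add (Nat.add (Nat.add (Nat.add C x905) x2525) x2309) x2381) x2357) x2369) x2365) x2363) x4549)
    (Nat.sub (Nat.sub (Nat.sub (Nat.add (Nat.add (Nat.add (Nat.add (Nat.add (Nat.add C x907) x2527) x2311) x2383) x2371) x2363) x2365) x4551) x179)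
    (Nat.sub (Nat.sub (Nat.add (Nat.add (Nat.add (Nat.add (Nat.add (Nat.add C x911) x2531) x2315) x2387) x2363) x2371) (Nat.mul x2369 (nat_lit 4))) x4555)
    (Nat.sub (Nat.sub (Nat.sub (Nat.add (Nat.add (Nat.add (Nat.add (Nat.add (Nat.add (Nat.add C x913) x2533) x2317) x2389) x2365) x2369) x2373) (Nat.mul x2371 (nat_lit 2))) x4557) x185)
    (Nat.sub (Nat.sub (Nat.add (Nat.add (Nat.add (Nat.add (Nat.add C x915) x2535) x2319) x2391) x2371) (Nat.mul x2373 (nat_lit 2))) x187)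
    (Nat.sub (Nat.add (Nat.add (Nat.add (Nat.add (Nat.add (Nat.add C x923) x2543) x2327) x2363) x2387) x2383) x4567)
    (Nat.sub (Nat.sub (Nat.sub (Nat.add (Nat.add (Nat.add (Nat.add (Nat.add (Nat.add C x925) x2545) x2329) x2365) x2389) x2381) x2383) x4569) x197)
    (Nat.sub (Nat.sub (Nat.add (Nat.add (Nat.add (Nat.add (Nat.add (Nat.add (Nat.add C x929) x2549) x2333) x2369) x2405) x2381) x2389) x2387) x4573)
    (Nat.sub (Nat.sub (Nat.add (Nat.add (Nat.add (Nat.add (Nat.add (Nat.add (Nat.add (Nat.add (Nat.add C x931) x2551) x2335) x2371) x2407) x2383) x2395) x2387) x2391) x4575) x203)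
    (Nat.sub (Nat.sub (Nat.add (Nat.add (Nat.add (Nat.add (Nat.add (Nat.add (Nat.add C x933) x2553) x2337) x2373) x2409) x2397) x2389) x2391) x205)
    (Nat.sub (Nat.sub (Nat.sub (Nat.add (Nat.add (Nat.add (Nat.add (Nat.add (Nat.add C x937) x2557) x2341) x2413) x2389) x2397) x2395) x4581) x209)
    (Nat.sub (Nat.add (Nat.add (Nat.add (Nat.add (Nat.add (Nat.add C x939) x2559) x2343) x2415) x2391) x2395) x211)
    (Nat.sub (Nat.add (Nat.add (Nat.add (Nat.add C x947) x2567) x2387) x2407) x4591)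
    (Nat.sub (Nat.sub (Nat.add (Nat.add (Nat.add (Nat.add (Nat.add (Nat.add C x949) x2569) x2389) x2413) x2405) x2409) x4593) x221)
    (Nat.sub (Nat.sub (Nat.add (Nat.add (Nat.add (Nat.add (Nat.add C x951) x2571) x2391) x2415) x2407) (Nat.mul x2409 (nat_lit 2))) x223)
    (Nat.sub (Nat.sub (Nat.add (Nat.add (Nat.add (Nat.add (Nat.add (Nat.add C x2413) x955) x2575) x2395) x2407) x2415) x4599) x227)
    (Nat.sub (Nat.add (Nat.add (Nat.add (Nat.add (Nat.add (Nat.add (Nat.add C x2415) x957) x2577) x2397) x2409) x2421) x2413) x229)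
    (Nat.sub (Nat.add (Nat.add (Nat.add (Nat.add C (Nat.mul x2421 (nat_lit 2))) x963) x2583) x2415) x235)
    (Nat.sub (Nat.add (Nat.add (Nat.add (Nat.add (Nat.add (Nat.add C (Nat.mul x2447 (nat_lit 2))) x989) x2933) x2285) x2465) x2453) x4633)
    (Nat.sub (Nat.add (Nat.add (Nat.add (Nat.add (Nat.add (Nat.add C x995) x2939) x2291) x2471) x2447) x2455) x4639)
    (Nat.sub (Nat.sub (Nat.add (Nat.add (Nat.add (Nat.add (Nat.add (Nat.add C x2455) x997) x2941) x2293) x2473) x2453) x4641) x269)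
    (Nat.sub (Nat.add (Nat.add (Nat.add (Nat.add (Nat.add (Nat.add C x1007) x2951) x2303) x2519) x2447) x2471) x4651)
    (Nat.sub (Nat.add (Nat.add (Nat.add (Nat.add (Nat.add (Nat.add (Nat.add (Nat.add (Nat.add C x1013) x2957) x2309) x2525) x2453) x2489) x2465) x2477) x2473) x4657)
    (Nat.sub (Nat.sub (Nat.add (Nat.add (Nat.add (Nat.add (Nat.add (Nat.add (Nat.add (Nat.add C x1015) x2959) x2311) x2527) x2455) x2491) x2479) x2471) x4659) x287)
    (Nat.sub (Nat.sub (Nat.add (Nat.add (Nat.add (Nat.add (Nat.add (Nat.add (Nat.add C x1019) x2963) x2315) x2531) x2495) x2471) x2479) (Nat.mul x2477 (nat_lit 2))) x4663)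
    (Nat.sub (Nat.sub (Nat.add (Nat.add (Nat.add (Nat.add (Nat.add (Nat.add (Nat.add (Nat.add C x1021) x2965) x2317) x2533) x2497) x2473) x2477) x2481) x4665) x293)
    (Nat.sub (Nat.add (Nat.add (Nat.add (Nat.add (Nat.add (Nat.add C x1023) x2967) x2319) x2535) x2499) x2479) x295)
    (Nat.sub (Nat.sub (Nat.add (Nat.add (Nat.add (Nat.add (Nat.add (Nat.add (Nat.add C x1031) x2975) x2327) x2543) x2471) x2495) x2491) (Nat.mul x2489 (nat_lit 2))) x4675)
    (Nat.sub (Nat.sub (Nat.sub (Nat.add (Nat.add (Nat.add (Nat.add (Nat.add (Nat.add (Nat.add C x1033) x2977) x2329) x2545) x2473) x2497) x2489) (Nat.mul x2491 (nat_lit 3))) x4677) x305)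
    (Nat.sub (Nat.sub (Nat.add (Nat.add (Nat.add (Nat.add (Nat.add (Nat.add (Nat.add C x1037) x2981) x2333) x2549) x2477) x2489) x2497) (Nat.mul x2495 (nat_lit 2))) x4681)
    (Nat.sub (Nat.sub (Nat.sub (Nat.add (Nat.add (Nat.add (Nat.add (Nat.add (Nat.add (Nat.add (Nat.add (Nat.add C x1039) x2983) x2335) x2551) x2479) x2491) x2503) x2495) x2499) x2497) x4683) x311)
    (Nat.sub (Nat.sub (Nat.add (Nat.add (Nat.add (Nat.add (Nat.add (Nat.add (Nat.add C x1041) x2985) x2337) x2553) x2481) x2505) x2497) (Nat.mul x2499 (nat_lit 2))) x313)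
    (Nat.sub (Nat.sub (Nat.sub (Nat.add (Nat.add (Nat.add (Nat.add (Nat.add (Nat.add C x1045) x2989) x2341) x2557) x2497) x2505) x2503) x4689) x317)
    (Nat.sub (Nat.add (Nat.add (Nat.add (Nat.add (Nat.add (Nat.add C x1047) x2991) x2343) x2559) x2499) x2503) x319)
    (Nat.sub (Nat.add (Nat.add (Nat.add (Nat.add (Nat.add (Nat.add (Nat.add C x2519) x1061) x3005) x2357) x2681) x2465) x2525) x4705)
    (Nat.sub (Nat.add (Nat.add (Nat.add (Nat.add (Nat.add (Nat.add (Nat.add (Nat.add (Nat.add C x1067) x3011) x2363) x2687) x2471) x2543) x2519) x2531) x2527) x4711)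
    (Nat.sub (Nat.sub (Nat.add (Nat.add (Nat.add (Nat.add (Nat.add (Nat.add (Nat.add (Nat.add C x1069) x3013) x2365) x2689) x2473) x2545) x2533) x2525) x4713) x341)
    (Nat.sub (Nat.sub (Nat.add (Nat.add (Nat.add (Nat.add (Nat.add (Nat.add (Nat.add (Nat.add C x1073) x3017) x2369) x2693) x2477) x2549) x2525) x2533) (Nat.mul x2531 (nat_lit 3))) x4717)
    (Nat.sub (Nat.sub (Nat.sub (Nat.add (Nat.add (Nat.add (Nat.add (Nat.add (Nat.add (Nat.add (Nat.add (Nat.add C x1075) x3019) x2371) x2695) x2479) x2551) x2527) x2531) x2535) x2533) x4719) x347)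
    (Nat.sub (Nat.sub (Nat.add (Nat.add (Nat.add (Nat.add (Nat.add (Nat.add (Nat.add C x1077) x3021) x2373) x2697) x2481) x2553) x2533) x2535) x349)
    (Nat.sub (Nat.add (Nat.add (Nat.add (Nat.add (Nat.add (Nat.add (Nat.add (Nat.add (Nat.add C x1085) x3029) x2381) x2705) x2489) x2597) x2525) x2549) x2545) x4729)
    (Nat.sub (Nat.sub (Nat.sub (Nat.add (Nat.add (Nat.add (Nat.add (Nat.add (Nat.add (Nat.add (Nat.add (Nat.add C x1087) x3031) x2383) x2707) x2491) x2599) x2527) x2551) x2543) x2545) x4731) x359)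
    (Nat.sub (Nat.sub (Nat.add (Nat.add (Nat.add (Nat.add (Nat.add (Nat.add (Nat.add (Nat.add (Nat.add (Nat.add C x1091) x3035) x2387) x2711) x2495) x2603) x2531) x2567) x2543) x2551) x2549) x4735)
    (Nat.sub (Nat.sub (Nat.add (Nat.add (Nat.add (Nat.add (Nat.add (Nat.add (Nat.add (Nat.add (Nat.add (Nat.add (Nat.add (Nat.add C x1093) x3037) x2389) x2713) x2497) x2605) x2533) x2569) x2545) x2557) x2549) x2553) x4737) x365)
    (Nat.sub (Nat.sub (Nat.add (Nat.add (Nat.add (Nat.add (Nat.add (Nat.add (Nat.add (Nat.add (Nat.add (Nat.add C x1095) x3039) x2391) x2715) x2499) x2607) x2535) x2571) x2559) x2551) x2553) x367)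
    (Nat.sub (Nat.sub (Nat.sub (Nat.add (Nat.add (Nat.add (Nat.add (Nat.add (Nat.add (Nat.add (Nat.add (Nat.add C x1099) x3043) x2395) x2719) x2503) x2611) x2575) x2551) x2559) x2557) x4743) x371)
    (Nat.sub (Nat.add (Nat.add (Nat.add (Nat.add (Nat.add (Nat.add (Nat.add (Nat.add (Nat.add C x1101) x3045) x2397) x2721) x2505) x2613) x2577) x2553) x2557) x373)
    (Nat.sub (Nat.sub (Nat.add (Nat.add (Nat.add (Nat.add (Nat.add (Nat.add (Nat.add C x1109) x3053) x2405) x2729) x2621) x2549) x2569) x2567) x4753)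
    (Nat.sub (Nat.sub (Nat.sub (Nat.add (Nat.add (Nat.add (Nat.add (Nat.add (Nat.add (Nat.add (Nat.add (Nat.add C x1111) x3055) x2407) x2731) x2623) x2551) x2575) x2567) x2571) x2569) x4755) x383)
    (Nat.sub (Nat.sub (Nat.add (Nat.add (Nat.add (Nat.add (Nat.add (Nat.add (Nat.add (Nat.add C x1113) x3057) x2409) x2733) x2625) x2553) x2577) x2569) (Nat.mul x2571 (nat_lit 3))) x385)
    (Nat.sub (Nat.sub (Nat.add (Nat.add (Nat.add (Nat.add (Nat.add (Nat.add (Nat.add (Nat.add C x1117) x3061) x2413) x2737) x2629) x2557) x2569) x2577) x4761) x389)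
    (Nat.sub (Nat.add (Nat.add (Nat.add (Nat.add (Nat.add (Nat.add (Nat.add (Nat.add (Nat.add C x1119) x3063) x2415) x2739) x2631) x2559) x2571) x2583) x2575) x391)
    (Nat.sub (Nat.add (Nat.add (Nat.add (Nat.add (Nat.add (Nat.add (Nat.add C x2583) x1125) x3069) x2421) x2745) x2637) x2577) x397)
    (Nat.sub (Nat.add (Nat.add (Nat.add (Nat.add (Nat.add (Nat.add C x1139) x3083) x2759) x2543) x2603) x2599) x4783)
    (Nat.sub (Nat.sub (Nat.sub (Nat.add (Nat.add (Nat.add (Nat.add (Nat.add (Nat.add C x1141) x3085) x2761) x2545) x2605) x2597) x2599) x4785) x413)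
    (Nat.sub (Nat.sub (Nat.add (Nat.add (Nat.add (Nat.add (Nat.add (Nat.add (Nat.add C x1145) x3089) x2765) x2549) x2621) x2597) x2605) (Nat.mul x2603 (nat_lit 2))) x4789)
    (Nat.sub (Nat.sub (Nat.sub (Nat.add (Nat.add (Nat.add (Nat.add (Nat.add (Nat.add (Nat.add (Nat.add (Nat.add C x1147) x3091) x2767) x2551) x2623) x2599) x2611) x2603) x2607) x2605) x4791) x419)
    (Nat.sub (Nat.sub (Nat.add (Nat.add (Nat.add (Nat.add (Nat.add (Nat.add (Nat.add C x1149) x3093) x2769) x2553) x2625) x2613) x2605) (Nat.mul x2607 (nat_lit 2))) x421)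
    (Nat.sub (Nat.sub (Nat.sub (Nat.add (Nat.add (Nat.add (Nat.add (Nat.add (Nat.add (Nat.add C x1153) x3097) x2773) x2557) x2629) x2605) x2613) (Nat.mul x2611 (nat_lit 3))) x4797) x425)
    (Nat.sub (Nat.sub (Nat.add (Nat.add (Nat.add (Nat.add (Nat.add (Nat.add (Nat.add C x1155) x3099) x2775) x2559) x2631) x2607) x2611) (Nat.mul x2613 (nat_lit 2))) x427)
    (Nat.sub (Nat.add (Nat.add (Nat.add (Nat.add (Nat.add (Nat.add C x1163) x3107) x2783) x2567) x2603) x2623) x4807)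
    (Nat.sub (Nat.sub (Nat.add (Nat.add (Nat.add (Nat.add (Nat.add (Nat.add (Nat.add (Nat.add C x1165) x3109) x2785) x2569) x2605) x2629) x2621) x2625) x4809) x437)
    (Nat.sub (Nat.sub (Nat.add (Nat.add (Nat.add (Nat.add (Nat.add (Nat.add (Nat.add C x1167) x3111) x2787) x2571) x2607) x2631) x2623) (Nat.mul x2625 (nat_lit 2))) x439)
    (Nat.sub (Nat.sub (Nat.add (Nat.add (Nat.add (Nat.add (Nat.add (Nat.add (Nat.add (Nat.add C x1171) x3115) x2791) x2575) x2611) x2647) x2623) x2631) x4815) x443)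
    (Nat.sub (Nat.add (Nat.add (Nat.add (Nat.add (Nat.add (Nat.add (Nat.add (Nat.add (Nat.add C x1173) x3117) x2793) x2577) x2613) x2649) x2625) x2637) x2629) x445)
    (Nat.sub (Nat.add (Nat.add (Nat.add (Nat.add (Nat.add (Nat.add C x1179) x3123) x2799) x2583) x2655) x2631) x451)
    (Nat.sub (Nat.sub (Nat.add (Nat.add (Nat.add (Nat.add (Nat.add (Nat.add C x2647) x1189) x3133) x2809) x2629) x2649) x4833) x461)
    (Nat.sub (Nat.add (Nat.add (Nat.add (Nat.add (Nat.add (Nat.add C x1191) x3135) x2811) x2631) x2655) x2647) x463)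
    (Nat.sub (Nat.add (Nat.add (Nat.add (Nat.add (Nat.add (Nat.add C (Nat.mul x2655 (nat_lit 2))) x1197) x3141) x2817) x2637) x2649) x469)
    (Nat.sub (Nat.add (Nat.add (Nat.add (Nat.add C x1223) x3167) x2519) x2687) x4867)
    (Nat.sub (Nat.sub (Nat.add (Nat.add (Nat.add (Nat.add (Nat.add (Nat.add (Nat.add C x1229) x3173) x2525) x2705) x2681) x2693) x2689) x2687) x4873)
    (Nat.sub (Nat.sub (Nat.sub (Nat.add (Nat.add (Nat.add (Nat.add (Nat.add (Nat.add C x1231) x3175) x2527) x2707) x2695) x2687) x2689) x4875) x503)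
    (Nat.sub (Nat.sub (Nat.add (Nat.add (Nat.add (Nat.add (Nat.add (Nat.add C x1235) x3179) x2531) x2711) x2687) x2695) (Nat.mul x2693 (nat_lit 4))) x4879)
    (Nat.sub (Nat.sub (Nat.sub (Nat.add (Nat.add (Nat.add (Nat.add (Nat.add (Nat.add (Nat.add C x1237) x3181) x2533) x2713) x2689) x2693) x2697) (Nat.mul x2695 (nat_lit 2))) x4881) x509)
    (Nat.sub (Nat.sub (Nat.add (Nat.add (Nat.add (Nat.add (Nat.add C x1239) x3183) x2535) x2715) x2695) (Nat.mul x2697 (nat_lit 2))) x511)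
    (Nat.sub (Nat.sub (Nat.add (Nat.add (Nat.add (Nat.add (Nat.add (Nat.add (Nat.add C x1247) x3191) x2543) x2759) x2687) x2711) x2707) (Nat.mul x2705 (nat_lit 2))) x4891)
    (Nat.sub (Nat.sub (Nat.sub (Nat.add (Nat.add (Nat.add (Nat.add (Nat.add (Nat.add (Nat.add C x1249) x3193) x2545) x2761) x2689) x2713) x2705) (Nat.mul x2707 (nat_lit 3))) x4893) x521)
    (Nat.sub (Nat.sub (Nat.add (Nat.add (Nat.add (Nat.add (Nat.add (Nat.add (Nat.add (Nat.add C x1253) x3197) x2549) x2765) x2693) x2729) x2705) x2713) (Nat.mul x2711 (nat_lit 3))) x4897)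
    (Nat.sub (Nat.sub (Nat.sub (Nat.add (Nat.add (Nat.add (Nat.add (Nat.add (Nat.add (Nat.add (Nat.add (Nat.add (Nat.add C x1255) x3199) x2551) x2767) x2695) x2731) x2707) x2719) x2711) x2715) (Nat.mul x2713 (nat_lit 2))) x4899) x527)
    (Nat.sub (Nat.sub (Nat.add (Nat.add (Nat.add (Nat.add (Nat.add (Nat.add (Nat.add (Nat.add C x1257) x3201) x2553) x2769) x2697) x2733) x2721) x2713) (Nat.mul x2715 (nat_lit 3))) x529)
    (Nat.sub (Nat.sub (Nat.sub (Nat.add (Nat.add (Nat.add (Nat.add (Nat.add (Nat.add (Nat.add C x1261) x3205) x2557) x2773) x2737) x2713) x2721) (Nat.mul x2719 (nat_lit 3))) x4905) x533)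
    (Nat.sub (Nat.sub (Nat.add (Nat.add (Nat.add (Nat.add (Nat.add (Nat.add (Nat.add C x1263) x3207) x2559) x2775) x2739) x2715) x2719) (Nat.mul x2721 (nat_lit 2))) x535)
    (Nat.sub (Nat.sub (Nat.add (Nat.add (Nat.add (Nat.add (Nat.add (Nat.add C x1271) x3215) x2567) x2783) x2711) x2731) (Nat.mul x2729 (nat_lit 4))) x4915)
    (Nat.sub (Nat.sub (Nat.sub (Nat.add (Nat.add (Nat.add (Nat.add (Nat.add (Nat.add (Nat.add (Nat.add C x1273) x3217) x2569) x2785) x2713) x2737) x2729) x2733) (Nat.mul x2731 (nat_lit 4))) x4917) x545)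
    (Nat.sub (Nat.sub (Nat.add (Nat.add (Nat.add (Nat.add (Nat.add (Nat.add (Nat.add C x1275) x3219) x2571) x2787) x2715) x2739) x2731) (Nat.mul x2733 (nat_lit 6))) x547)
    (Nat.sub (Nat.sub (Nat.sub (Nat.add (Nat.add (Nat.add (Nat.add (Nat.add (Nat.add (Nat.add C x1279) x3223) x2575) x2791) x2719) x2731) x2739) (Nat.mul x2737 (nat_lit 3))) x4923) x551)
    (Nat.sub (Nat.sub (Nat.add (Nat.add (Nat.add (Nat.add (Nat.add (Nat.add (Nat.add (Nat.add C x1281) x3225) x2577) x2793) x2721) x2733) x2745) x2737) (Nat.mul x2739 (nat_lit 3))) x553)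
    (Nat.sub (Nat.sub (Nat.add (Nat.add (Nat.add (Nat.add (Nat.add C x1287) x3231) x2583) x2799) x2739) (Nat.mul x2745 (nat_lit 2))) x559)
    (Nat.sub (Nat.add (Nat.add (Nat.add (Nat.add (Nat.add (Nat.add C x1301) x3245) x2597) x2705) x2765) x2761) x4945)
    (Nat.sub (Nat.sub (Nat.sub (Nat.add (Nat.add (Nat.add (Nat.add (Nat.add (Nat.add C x1303) x3247) x2599) x2707) x2767) x2759) x2761) x4947) x575)
    (Nat.sub (Nat.sub (Nat.add (Nat.add (Nat.add (Nat.add (Nat.add (Nat.add (Nat.add C x1307) x3251) x2603) x2711) x2783) x2759) x2767) (Nat.mul x2765 (nat_lit 2))) x4951)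
    (Nat.sub (Nat.sub (Nat.sub (Nat.add (Nat.add (Nat.add (Nat.add (Nat.add (Nat.add (Nat.add (Nat.add (Nat.add C x1309) x3253) x2605) x2713) x2785) x2761) x2773) x2765) x2769) x2767) x4953) x581)
    (Nat.sub (Nat.sub (Nat.add (Nat.add (Nat.add (Nat.add (Nat.add (Nat.add (Nat.add C x1311) x3255) x2607) x2715) x2787) x2775) x2767) (Nat.mul x2769 (nat_lit 2))) x583)
    (Nat.sub (Nat.sub (Nat.sub (Nat.add (Nat.add (Nat.add (Nat.add (Nat.add (Nat.add (Nat.add C x1315) x3259) x2611) x2719) x2791) x2767) x2775) (Nat.mul x2773 (nat_lit 3))) x4959) x587)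
    (Nat.sub (Nat.sub (Nat.add (Nat.add (Nat.add (Nat.add (Nat.add (Nat.add (Nat.add C x1317) x3261) x2613) x2721) x2793) x2769) x2773) (Nat.mul x2775 (nat_lit 2))) x589)
    (Nat.sub (Nat.sub (Nat.add (Nat.add (Nat.add (Nat.add (Nat.add (Nat.add (Nat.add C x1325) x3269) x2621) x2729) x2837) x2765) x2785) x2783) x4969)
    (Nat.sub (Nat.sub (Nat.sub (Nat.add (Nat.add (Nat.add (Nat.add (Nat.add (Nat.add (Nat.add (Nat.add (Nat.add C x1327) x3271) x2623) x2731) x2839) x2767) x2791) x2783) x2787) x2785) x4971) x599)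
    (Nat.sub (Nat.sub (Nat.add (Nat.add (Nat.add (Nat.add (Nat.add (Nat.add (Nat.add (Nat.add C x1329) x3273) x2625) x2733) x2841) x2769) x2793) x2785) (Nat.mul x2787 (nat_lit 3))) x601)
    (Nat.sub (Nat.sub (Nat.sub (Nat.add (Nat.add (Nat.add (Nat.add (Nat.add (Nat.add (Nat.add (Nat.add (Nat.add C x1333) x3277) x2629) x2737) x2845) x2773) x2809) x2785) x2793) x2791) x4977) x605)
    (Nat.sub (Nat.sub (Nat.add (Nat.add (Nat.add (Nat.add (Nat.add (Nat.add (Nat.add (Nat.add (Nat.add (Nat.add C x1335) x3279) x2631) x2739) x2847) x2775) x2811) x2787) x2799) x2791) x2793) x607)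
    (Nat.sub (Nat.sub (Nat.add (Nat.add (Nat.add (Nat.add (Nat.add (Nat.add (Nat.add C x1341) x3285) x2637) x2745) x2853) x2817) x2793) x2799) x613)
    (Nat.sub (Nat.sub (Nat.sub (Nat.add (Nat.add (Nat.add (Nat.add (Nat.add (Nat.add C x1351) x3295) x2647) x2863) x2791) x2811) x2809) x4995) x623)
    (Nat.sub (Nat.sub (Nat.add (Nat.add (Nat.add (Nat.add (Nat.add (Nat.add (Nat.add C x1353) x3297) x2649) x2865) x2793) x2817) x2809) (Nat.mul x2811 (nat_lit 2))) x625)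
    (Nat.sub (Nat.add (Nat.add (Nat.add (Nat.add (Nat.add (Nat.add C x1359) x3303) x2655) x2871) x2799) x2811) x631)
    (Nat.sub (Nat.add (Nat.add (Nat.add (Nat.add C x1379) x3323) x2783) x2839) x5023)
    (Nat.sub (Nat.sub (Nat.add (Nat.add (Nat.add (Nat.add (Nat.add (Nat.add C x1381) x3325) x2785) x2845) x2837) x2841) x5025) x653)
    (Nat.sub (Nat.sub (Nat.add (Nat.add (Nat.add (Nat.add (Nat.add C x1383) x3327) x2787) x2847) x2839) (Nat.mul x2841 (nat_lit 2))) x655)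
    (Nat.sub (Nat.sub (Nat.sub (Nat.add (Nat.add (Nat.add (Nat.add (Nat.add (Nat.add C x1387) x3331) x2791) x2863) x2839) x2847) x2845) x5031) x659)
    (Nat.sub (Nat.sub (Nat.add (Nat.add (Nat.add (Nat.add (Nat.add (Nat.add (Nat.add C x1389) x3333) x2793) x2865) x2841) x2853) x2845) x2847) x661)
    (Nat.sub (Nat.sub (Nat.add (Nat.add (Nat.add (Nat.add (Nat.add C x1395) x3339) x2799) x2871) x2847) (Nat.mul x2853 (nat_lit 2))) x667)
    (Nat.sub (Nat.sub (Nat.add (Nat.add (Nat.add (Nat.add (Nat.add (Nat.add C x2863) x1405) x3349) x2809) x2845) x2865) x5049) x677)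
    (Nat.sub (Nat.add (Nat.add (Nat.add (Nat.add (Nat.add (Nat.add C x1407) x3351) x2811) x2847) x2871) x2863) x679)
    (Nat.sub (Nat.add (Nat.add (Nat.add (Nat.add (Nat.add (Nat.add (Nat.add C x2871) x1413) x3357) x2817) x2853) x2889) x2865) x685)
    (Nat.sub (Nat.add (Nat.add (Nat.add (Nat.add C (Nat.mul x2889 (nat_lit 2))) x1431) x3375) x2871) x703)
    (Nat.sub (Nat.add (Nat.add (Nat.add (Nat.add (Nat.add (Nat.add C (Nat.mul x2933 (nat_lit 3))) x1475) x4391) x2447) x2951) x2939) x5119)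
    (Nat.sub (Nat.add (Nat.add (Nat.add (Nat.add (Nat.add (Nat.add (Nat.add C x2939) x1481) x4397) x2453) x2957) x2933) x2941) x5125)
    (Nat.sub (Nat.sub (Nat.add (Nat.add (Nat.add (Nat.add (Nat.add (Nat.add C (Nat.mul x2941 (nat_lit 2))) x1483) x4399) x2455) x2959) x2939) x5127) x755)
    (Nat.sub (Nat.add (Nat.add (Nat.add (Nat.add (Nat.add (Nat.add (Nat.add C x2951) x1493) x4409) x2465) x3005) x2933) x2957) x5137)
    (Nat.sub (Nat.add (Nat.add (Nat.add (Nat.add (Nat.add (Nat.add (Nat.add (Nat.add (Nat.add (Nat.add C x2957) x1499) x4415) x2471) x3011) x2939) x2975) x2951) x2963) x2959) x5143)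
    (Nat.sub (Nat.sub (Nat.add (Nat.add (Nat.add (Nat.add (Nat.add (Nat.add (Nat.add (Nat.add (Nat.add C x2959) x1501) x4417) x2473) x3013) x2941) x2977) x2965) x2957) x5145) x773)
    (Nat.sub (Nat.sub (Nat.add (Nat.add (Nat.add (Nat.add (Nat.add (Nat.add (Nat.add C x1505) x4421) x2477) x3017) x2981) x2957) x2965) x2963) x5149)
    (Nat.sub (Nat.sub (Nat.add (Nat.add (Nat.add (Nat.add (Nat.add (Nat.add (Nat.add (Nat.add (Nat.add C x2965) x1507) x4423) x2479) x3019) x2983) x2959) x2963) x2967) x5151) x779)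
    (Nat.sub (Nat.add (Nat.add (Nat.add (Nat.add (Nat.add (Nat.add (Nat.add C x2967) x1509) x4425) x2481) x3021) x2985) x2965) x781)
    (Nat.sub (Nat.sub (Nat.add (Nat.add (Nat.add (Nat.add (Nat.add (Nat.add (Nat.add C x1517) x4433) x2489) x3029) x2957) x2981) x2977) x2975) x5161)
    (Nat.sub (Nat.sub (Nat.sub (Nat.add (Nat.add (Nat.add (Nat.add (Nat.add (Nat.add (Nat.add C x1519) x4435) x2491) x3031) x2959) x2983) x2975) (Nat.mul x2977 (nat_lit 2))) x5163) x791)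
    (Nat.sub (Nat.sub (Nat.add (Nat.add (Nat.add (Nat.add (Nat.add (Nat.add (Nat.add C x1523) x4439) x2495) x3035) x2963) x2975) x2983) x2981) x5167)
    (Nat.sub (Nat.sub (Nat.add (Nat.add (Nat.add (Nat.add (Nat.add (Nat.add (Nat.add (Nat.add (Nat.add C x1525) x4441) x2497) x3037) x2965) x2977) x2989) x2981) x2985) x5169) x797)
    (Nat.sub (Nat.sub (Nat.add (Nat.add (Nat.add (Nat.add (Nat.add (Nat.add (Nat.add C x1527) x4443) x2499) x3039) x2967) x2991) x2983) x2985) x799)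
    (Nat.sub (Nat.sub (Nat.add (Nat.add (Nat.add (Nat.add (Nat.add (Nat.add C x1531) x4447) x2503) x3043) x2983) x2991) x5175) x803)
    (Nat.sub (Nat.add (Nat.add (Nat.add (Nat.add (Nat.add (Nat.add (Nat.add C x2991) x1533) x4449) x2505) x3045) x2985) x2989) x805)
    (Nat.sub (Nat.add (Nat.add (Nat.add (Nat.add (Nat.add (Nat.add (Nat.add C x3005) x1547) x4463) x2519) x3167) x2951) x3011) x5191)
    (Nat.sub (Nat.add (Nat.add (Nat.add (Nat.add (Nat.add (Nat.add (Nat.add (Nat.add (Nat.add C x1553) x4469) x2525) x3173) x2957) x3029) x3005) x3017) x3013) x5197)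
    (Nat.sub (Nat.sub (Nat.add (Nat.add (Nat.add (Nat.add (Nat.add (Nat.add (Nat.add (Nat.add C x1555) x4471) x2527) x3175) x2959) x3031) x3019) x3011) x5199) x827)
    (Nat.sub (Nat.sub (Nat.add (Nat.add (Nat.add (Nat.add (Nat.add (Nat.add (Nat.add (Nat.add C x1559) x4475) x2531) x3179) x2963) x3035) x3011) x3019) (Nat.mul x3017 (nat_lit 3))) x5203)
    (Nat.sub (Nat.sub (Nat.sub (Nat.add (Nat.add (Nat.add (Nat.add (Nat.add (Nat.add (Nat.add (Nat.add (Nat.add C x1561) x4477) x2533) x3181) x2965) x3037) x3013) x3017) x3021) x3019) x5205) x833)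
    (Nat.sub (Nat.sub (Nat.add (Nat.add (Nat.add (Nat.add (Nat.add (Nat.add (Nat.add C x1563) x4479) x2535) x3183) x2967) x3039) x3019) x3021) x835)
    (Nat.sub (Nat.add (Nat.add (Nat.add (Nat.add (Nat.add (Nat.add (Nat.add (Nat.add (Nat.add C x1571) x4487) x2543) x3191) x2975) x3083) x3011) x3035) x3031) x5215)
    (Nat.sub (Nat.sub (Nat.sub (Nat.add (Nat.add (Nat.add (Nat.add (Nat.add (Nat.add (Nat.add (Nat.add (Nat.add C x1573) x4489) x2545) x3193) x2977) x3085) x3013) x3037) x3029) x3031) x5217) x845)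
    (Nat.sub (Nat.sub (Nat.add (Nat.add (Nat.add (Nat.add (Nat.add (Nat.add (Nat.add (Nat.add (Nat.add (Nat.add C x1577) x4493) x2549) x3197) x2981) x3089) x3017) x3053) x3029) x3037) x3035) x5221)
    (Nat.sub (Nat.sub (Nat.add (Nat.add (Nat.add (Nat.add (Nat.add (Nat.add (Nat.add (Nat.add (Nat.add (Nat.add (Nat.add (Nat.add C x1579) x4495) x2551) x3199) x2983) x3091) x3019) x3055) x3031) x3043) x3035) x3039) x5223) x851)
    (Nat.sub (Nat.sub (Nat.add (Nat.add (Nat.add (Nat.add (Nat.add (Nat.add (Nat.add (Nat.add (Nat.add (Nat.add C x1581) x4497) x2553) x3201) x2985) x3093) x3021) x3057) x3045) x3037) x3039) x853)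
    (Nat.sub (Nat.sub (Nat.sub (Nat.add (Nat.add (Nat.add (Nat.add (Nat.add (Nat.add (Nat.add (Nat.add (Nat.add C x1585) x4501) x2557) x3205) x2989) x3097) x3061) x3037) x3045) x3043) x5229) x857)
    (Nat.sub (Nat.add (Nat.add (Nat.add (Nat.add (Nat.add (Nat.add (Nat.add (Nat.add (Nat.add C x1587) x4503) x2559) x3207) x2991) x3099) x3063) x3039) x3043) x859)
    (Nat.sub (Nat.sub (Nat.add (Nat.add (Nat.add (Nat.add (Nat.add (Nat.add (Nat.add C x1595) x4511) x2567) x3215) x3107) x3035) x3055) x3053) x5239)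
    (Nat.sub (Nat.sub (Nat.sub (Nat.add (Nat.add (Nat.add (Nat.add (Nat.add (Nat.add (Nat.add (Nat.add (Nat.add C x1597) x4513) x2569) x3217) x3109) x3037) x3061) x3053) x3057) x3055) x5241) x869)
    (Nat.sub (Nat.sub (Nat.add (Nat.add (Nat.add (Nat.add (Nat.add (Nat.add (Nat.add (Nat.add C x1599) x4515) x2571) x3219) x3111) x3039) x3063) x3055) (Nat.mul x3057 (nat_lit 3))) x871)
    (Nat.sub (Nat.sub (Nat.add (Nat.add (Nat.add (Nat.add (Nat.add (Nat.add (Nat.add (Nat.add C x1603) x4519) x2575) x3223) x3115) x3043) x3055) x3063) x5247) x875)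
    (Nat.sub (Nat.add (Nat.add (Nat.add (Nat.add (Nat.add (Nat.add (Nat.add (Nat.add (Nat.add C x1605) x4521) x2577) x3225) x3117) x3045) x3057) x3069) x3061) x877)
    (Nat.sub (Nat.add (Nat.add (Nat.add (Nat.add (Nat.add (Nat.add (Nat.add C x3069) x1611) x4527) x2583) x3231) x3123) x3063) x883)
    (Nat.sub (Nat.sub (Nat.add (Nat.add (Nat.add (Nat.add (Nat.add (Nat.add (Nat.add C x1625) x4541) x2597) x3245) x3029) x3089) x3085) x3083) x5269)
    (Nat.sub (Nat.sub (Nat.sub (Nat.add (Nat.add (Nat.add (Nat.add (Nat.add (Nat.add (Nat.add C x1627) x4543) x2599) x3247) x3031) x3091) x3083) (Nat.mul x3085 (nat_lit 2))) x5271) x899)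
    (Nat.sub (Nat.sub (Nat.add (Nat.add (Nat.add (Nat.add (Nat.add (Nat.add (Nat.add (Nat.add C x1631) x4547) x2603) x3251) x3035) x3107) x3083) x3091) (Nat.mul x3089 (nat_lit 3))) x5275)
    (Nat.sub (Nat.sub (Nat.sub (Nat.add (Nat.add (Nat.add (Nat.add (Nat.add (Nat.add (Nat.add (Nat.add (Nat.add (Nat.add C x1633) x4549) x2605) x3253) x3037) x3109) x3085) x3097) x3089) x3093) (Nat.mul x3091 (nat_lit 2))) x5277) x905)
    (Nat.sub (Nat.sub (Nat.add (Nat.add (Nat.add (Nat.add (Nat.add (Nat.add (Nat.add (Nat.add C x1635) x4551) x2607) x3255) x3039) x3111) x3099) x3091) (Nat.mul x3093 (nat_lit 3))) x907)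
    (Nat.sub (Nat.sub (Nat.sub (Nat.add (Nat.add (Nat.add (Nat.add (Nat.add (Nat.add (Nat.add (Nat.add C x1639) x4555) x2611) x3259) x3043) x3115) x3091) x3099) (Nat.mul x3097 (nat_lit 4))) x5283) x911)
    (Nat.sub (Nat.sub (Nat.add (Nat.add (Nat.add (Nat.add (Nat.add (Nat.add (Nat.add (Nat.add C x1641) x4557) x2613) x3261) x3045) x3117) x3093) x3097) (Nat.mul x3099 (nat_lit 3))) x913)
    (Nat.sub (Nat.sub (Nat.add (Nat.add (Nat.add (Nat.add (Nat.add (Nat.add (Nat.add C x1649) x4565) x2621) x3269) x3053) x3089) x3109) x3107) x5293)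
    (Nat.sub (Nat.sub (Nat.sub (Nat.add (Nat.add (Nat.add (Nat.add (Nat.add (Nat.add (Nat.add (Nat.add (Nat.add C x1651) x4567) x2623) x3271) x3055) x3091) x3115) x3107) x3111) x3109) x5295) x923)
    (Nat.sub (Nat.sub (Nat.add (Nat.add (Nat.add (Nat.add (Nat.add (Nat.add (Nat.add (Nat.add C x1653) x4569) x2625) x3273) x3057) x3093) x3117) x3109) (Nat.mul x3111 (nat_lit 3))) x925)
    (Nat.sub (Nat.sub (Nat.sub (Nat.add (Nat.add (Nat.add (Nat.add (Nat.add (Nat.add (Nat.add (Nat.add (Nat.add C x1657) x4573) x2629) x3277) x3061) x3097) x3133) x3109) x3117) x3115) x5301) x929)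
    (Nat.sub (Nat.sub (Nat.add (Nat.add (Nat.add (Nat.add (Nat.add (Nat.add (Nat.add (Nat.add (Nat.add (Nat.add C x1659) x4575) x2631) x3279) x3063) x3099) x3135) x3111) x3123) x3115) x3117) x931)
    (Nat.sub (Nat.sub (Nat.add (Nat.add (Nat.add (Nat.add (Nat.add (Nat.add (Nat.add C x1665) x4581) x2637) x3285) x3069) x3141) x3117) x3123) x937)
    (Nat.sub (Nat.sub (Nat.add (Nat.add (Nat.add (Nat.add (Nat.add (Nat.add C x1675) x4591) x2647) x3295) x3115) x3135) x5319) x947)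
    (Nat.sub (Nat.sub (Nat.add (Nat.add (Nat.add (Nat.add (Nat.add (Nat.add (Nat.add C x1677) x4593) x2649) x3297) x3117) x3141) x3133) x3135) x949)
    (Nat.sub (Nat.add (Nat.add (Nat.add (Nat.add (Nat.add (Nat.add (Nat.add C x3141) x1683) x4599) x2655) x3303) x3123) x3135) x955)
    (Nat.sub (Nat.add (Nat.add (Nat.add (Nat.add (Nat.add (Nat.add (Nat.add C (Nat.mul x3167 (nat_lit 2))) x1709) x4625) x2681) x3653) x3005) x3173) x5353)
    (Nat.sub (Nat.add (Nat.add (Nat.add (Nat.add (Nat.add (Nat.add (Nat.add (Nat.add (Nat.add (Nat.add C x3173) x1715) x4631) x2687) x3659) x3011) x3191) x3167) x3179) x3175) x5359)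
    (Nat.sub (Nat.sub (Nat.add (Nat.add (Nat.add (Nat.add (Nat.add (Nat.add (Nat.add (Nat.add (Nat.add C x3175) x1717) x4633) x2689) x3661) x3013) x3193) x3181) x3173) x5361) x989)
    (Nat.sub (Nat.sub (Nat.add (Nat.add (Nat.add (Nat.add (Nat.add (Nat.add (Nat.add (Nat.add C x1721) x4637) x2693) x3665) x3017) x3197) x3173) x3181) (Nat.mul x3179 (nat_lit 2))) x5365)
    (Nat.sub (Nat.sub (Nat.add (Nat.add (Nat.add (Nat.add (Nat.add (Nat.add (Nat.add (Nat.add (Nat.add C x1723) x4639) x2695) x3667) x3019) x3199) x3175) x3179) x3183) x5367) x995)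
    (Nat.sub (Nat.add (Nat.add (Nat.add (Nat.add (Nat.add (Nat.add (Nat.add C x1725) x4641) x2697) x3669) x3021) x3201) x3181) x997)
    (Nat.sub (Nat.add (Nat.add (Nat.add (Nat.add (Nat.add (Nat.add (Nat.add (Nat.add (Nat.add C x1733) x4649) x2705) x3677) x3029) x3245) x3173) x3197) x3193) x5377)
    (Nat.sub (Nat.sub (Nat.sub (Nat.add (Nat.add (Nat.add (Nat.add (Nat.add (Nat.add (Nat.add (Nat.add (Nat.add C x1735) x4651) x2707) x3679) x3031) x3247) x3175) x3199) x3191) x3193) x5379) x1007)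
    (Nat.sub (Nat.sub (Nat.add (Nat.add (Nat.add (Nat.add (Nat.add (Nat.add (Nat.add (Nat.add (Nat.add (Nat.add C x1739) x4655) x2711) x3683) x3035) x3251) x3179) x3215) x3191) x3199) x3197) x5383)
    (Nat.sub (Nat.sub (Nat.add (Nat.add (Nat.add (Nat.add (Nat.add (Nat.add (Nat.add (Nat.add (Nat.add (Nat.add (Nat.add (Nat.add C x1741) x4657) x2713) x3685) x3037) x3253) x3181) x3217) x3193) x3205) x3197) x3201) x5385) x1013)
    (Nat.sub (Nat.sub (Nat.add (Nat.add (Nat.add (Nat.add (Nat.add (Nat.add (Nat.add (Nat.add (Nat.add (Nat.add C x1743) x4659) x2715) x3687) x3039) x3255) x3183) x3219) x3207) x3199) x3201) x1015)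
    (Nat.sub (Nat.sub (Nat.sub (Nat.add (Nat.add (Nat.add (Nat.add (Nat.add (Nat.add (Nat.add (Nat.add (Nat.add C x1747) x4663) x2719) x3691) x3043) x3259) x3223) x3199) x3207) x3205) x5391) x1019)
    (Nat.sub (Nat.add (Nat.add (Nat.add (Nat.add (Nat.add (Nat.add (Nat.add (Nat.add (Nat.add C x1749) x4665) x2721) x3693) x3045) x3261) x3225) x3201) x3205) x1021)
    (Nat.sub (Nat.sub (Nat.add (Nat.add (Nat.add (Nat.add (Nat.add (Nat.add (Nat.add (Nat.add C x1757) x4673) x2729) x3701) x3053) x3269) x3197) x3217) (Nat.mul x3215 (nat_lit 2))) x5401)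
    (Nat.sub (Nat.sub (Nat.sub (Nat.add (Nat.add (Nat.add (Nat.add (Nat.add (Nat.add (Nat.add (Nat.add (Nat.add (Nat.add C x1759) x4675) x2731) x3703) x3055) x3271) x3199) x3223) x3215) x3219) (Nat.mul x3217 (nat_lit 2))) x5403) x1031)
    (Nat.sub (Nat.sub (Nat.add (Nat.add (Nat.add (Nat.add (Nat.add (Nat.add (Nat.add (Nat.add (Nat.add C x1761) x4677) x2733) x3705) x3057) x3273) x3201) x3225) x3217) (Nat.mul x3219 (nat_lit 4))) x1033)
    (Nat.sub (Nat.sub (Nat.sub (Nat.add (Nat.add (Nat.add (Nat.add (Nat.add (Nat.add (Nat.add (Nat.add (Nat.add C x1765) x4681) x2737) x3709) x3061) x3277) x3205) x3217) x3225) x3223) x5409) x1037)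
    (Nat.sub (Nat.sub (Nat.add (Nat.add (Nat.add (Nat.add (Nat.add (Nat.add (Nat.add (Nat.add (Nat.add (Nat.add C x1767) x4683) x2739) x3711) x3063) x3279) x3207) x3219) x3231) x3223) x3225) x1039)
    (Nat.sub (Nat.add (Nat.add (Nat.add (Nat.add (Nat.add (Nat.add (Nat.add C x1773) x4689) x2745) x3717) x3069) x3285) x3225) x1045)
    (Nat.sub (Nat.add (Nat.add (Nat.add (Nat.add (Nat.add (Nat.add (Nat.add (Nat.add (Nat.add (Nat.add C x3245) x1787) x4703) x2759) x3731) x3083) x3407) x3191) x3251) x3247) x5431)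
    (Nat.sub (Nat.sub (Nat.add (Nat.add (Nat.add (Nat.add (Nat.add (Nat.add (Nat.add (Nat.add (Nat.add C x1789) x4705) x2761) x3733) x3085) x3409) x3193) x3253) x3245) x5433) x1061)
    (Nat.sub (Nat.sub (Nat.add (Nat.add (Nat.add (Nat.add (Nat.add (Nat.add (Nat.add (Nat.add (Nat.add (Nat.add C x1793) x4709) x2765) x3737) x3089) x3413) x3197) x3269) x3245) x3253) x3251) x5437)
    (Nat.sub (Nat.sub (Nat.add (Nat.add (Nat.add (Nat.add (Nat.add (Nat.add (Nat.add (Nat.add (Nat.add (Nat.add (Nat.add (Nat.add C x1795) x4711) x2767) x3739) x3091) x3415) x3199) x3271) x3247) x3259) x3251) x3255) x5439) x1067)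
    (Nat.sub (Nat.sub (Nat.add (Nat.add (Nat.add (Nat.add (Nat.add (Nat.add (Nat.add (Nat.add (Nat.add (Nat.add C x1797) x4713) x2769) x3741) x3093) x3417) x3201) x3273) x3261) x3253) x3255) x1069)
    (Nat.sub (Nat.sub (Nat.sub (Nat.add (Nat.add (Nat.add (Nat.add (Nat.add (Nat.add (Nat.add (Nat.add (Nat.add (Nat.add C x1801) x4717) x2773) x3745) x3097) x3421) x3205) x3277) x3253) x3261) (Nat.mul x3259 (nat_lit 2))) x5445) x1073)
    (Nat.sub (Nat.sub (Nat.add (Nat.add (Nat.add (Nat.add (Nat.add (Nat.add (Nat.add (Nat.add (Nat.add (Nat.add C x1803) x4719) x2775) x3747) x3099) x3423) x3207) x3279) x3255) x3259) x3261) x1075)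
    (Nat.sub (Nat.add (Nat.add (Nat.add (Nat.add (Nat.add (Nat.add (Nat.add (Nat.add (Nat.add (Nat.add C x1811) x4727) x2783) x3755) x3107) x3431) x3215) x3323) x3251) x3271) x5455)
    (Nat.sub (Nat.sub (Nat.add (Nat.add (Nat.add (Nat.add (Nat.add (Nat.add (Nat.add (Nat.add (Nat.add (Nat.add (Nat.add (Nat.add C x1813) x4729) x2785) x3757) x3109) x3433) x3217) x3325) x3253) x3277) x3269) x3273) x5457) x1085)
    (Nat.sub (Nat.sub (Nat.add (Nat.add (Nat.add (Nat.add (Nat.add (Nat.add (Nat.add (Nat.add (Nat.add (Nat.add (Nat.add C x1815) x4731) x2787) x3759) x3111) x3435) x3219) x3327) x3255) x3279) x3271) (Nat.mul x3273 (nat_lit 2))) x1087)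
    (Nat.sub (Nat.sub (Nat.add (Nat.add (Nat.add (Nat.add (Nat.add (Nat.add (Nat.add (Nat.add (Nat.add (Nat.add (Nat.add (Nat.add C x1819) x4735) x2791) x3763) x3115) x3439) x3223) x3331) x3259) x3295) x3271) x3279) x5463) x1091)
    (Nat.sub (Nat.add (Nat.add (Nat.add (Nat.add (Nat.add (Nat.add (Nat.add (Nat.add (Nat.add (Nat.add (Nat.add (Nat.add (Nat.add C x1821) x4737) x2793) x3765) x3117) x3441) x3225) x3333) x3261) x3297) x3273) x3285) x3277) x1093)
    (Nat.sub (Nat.add (Nat.add (Nat.add (Nat.add (Nat.add (Nat.add (Nat.add (Nat.add (Nat.add (Nat.add C x1827) x4743) x2799) x3771) x3123) x3447) x3231) x3339) x3303) x3279) x1099)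
    (Nat.sub (Nat.sub (Nat.add (Nat.add (Nat.add (Nat.add (Nat.add (Nat.add (Nat.add (Nat.add (Nat.add C x1837) x4753) x2809) x3781) x3133) x3457) x3349) x3277) x3297) x5481) x1109)
    (Nat.sub (Nat.sub (Nat.add (Nat.add (Nat.add (Nat.add (Nat.add (Nat.add (Nat.add (Nat.add (Nat.add (Nat.add C x1839) x4755) x2811) x3783) x3135) x3459) x3351) x3279) x3303) x3295) x3297) x1111)
    (Nat.sub (Nat.add (Nat.add (Nat.add (Nat.add (Nat.add (Nat.add (Nat.add (Nat.add (Nat.add (Nat.add C x3303) x1845) x4761) x2817) x3789) x3141) x3465) x3357) x3285) x3297) x1117)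
    (Nat.sub (Nat.add (Nat.add (Nat.add (Nat.add (Nat.add (Nat.add (Nat.add C x1865) x4781) x2837) x3809) x3485) x3269) x3325) x5509)
    (Nat.sub (Nat.sub (Nat.add (Nat.add (Nat.add (Nat.add (Nat.add (Nat.add (Nat.add (Nat.add (Nat.add C x1867) x4783) x2839) x3811) x3487) x3271) x3331) x3323) x3327) x5511) x1139)
    (Nat.sub (Nat.sub (Nat.add (Nat.add (Nat.add (Nat.add (Nat.add (Nat.add (Nat.add (Nat.add C x1869) x4785) x2841) x3813) x3489) x3273) x3333) x3325) (Nat.mul x3327 (nat_lit 2))) x1141)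
    (Nat.sub (Nat.sub (Nat.sub (Nat.add (Nat.add (Nat.add (Nat.add (Nat.add (Nat.add (Nat.add (Nat.add (Nat.add C x1873) x4789) x2845) x3817) x3493) x3277) x3349) x3325) x3333) x3331) x5517) x1145)
    (Nat.sub (Nat.sub (Nat.add (Nat.add (Nat.add (Nat.add (Nat.add (Nat.add (Nat.add (Nat.add (Nat.add (Nat.add C x1875) x4791) x2847) x3819) x3495) x3279) x3351) x3327) x3339) x3331) x3333) x1147)
    (Nat.sub (Nat.sub (Nat.add (Nat.add (Nat.add (Nat.add (Nat.add (Nat.add (Nat.add (Nat.add C x1881) x4797) x2853) x3825) x3501) x3285) x3357) x3333) (Nat.mul x3339 (nat_lit 2))) x1153)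
    (Nat.sub (Nat.sub (Nat.add (Nat.add (Nat.add (Nat.add (Nat.add (Nat.add (Nat.add (Nat.add (Nat.add C x3349) x1891) x4807) x2863) x3835) x3511) x3295) x3331) x3351) x5535) x1163)
    (Nat.sub (Nat.add (Nat.add (Nat.add (Nat.add (Nat.add (Nat.add (Nat.add (Nat.add (Nat.add C x1893) x4809) x2865) x3837) x3513) x3297) x3333) x3357) x3349) x1165)
    (Nat.sub (Nat.add (Nat.add (Nat.add (Nat.add (Nat.add (Nat.add (Nat.add (Nat.add (Nat.add (Nat.add C x3357) x1899) x4815) x2871) x3843) x3519) x3303) x3339) x3375) x3351) x1171)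
    (Nat.sub (Nat.add (Nat.add (Nat.add (Nat.add (Nat.add (Nat.add (Nat.add C (Nat.mul x3375 (nat_lit 2))) x1917) x4833) x2889) x3861) x3537) x3357) x1189)
    (Nat.sub (Nat.add (Nat.add (Nat.add (Nat.add (Nat.add (Nat.add (Nat.add C x3407) x1949) x4865) x3893) x3245) x3413) x3409) x5593)
    (Nat.sub (Nat.sub (Nat.add (Nat.add (Nat.add (Nat.add (Nat.add (Nat.add C x1951) x4867) x3895) x3247) x3415) x3407) x5595) x1223)
    (Nat.sub (Nat.sub (Nat.add (Nat.add (Nat.add (Nat.add (Nat.add (Nat.add (Nat.add C x1955) x4871) x3899) x3251) x3431) x3407) x3415) x3413) x5599)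
    (Nat.sub (Nat.sub (Nat.add (Nat.add (Nat.add (Nat.add (Nat.add (Nat.add (Nat.add (Nat.add (Nat.add C x1957) x4873) x3901) x3253) x3433) x3409) x3421) x3413) x3417) x5601) x1229)
    (Nat.sub (Nat.sub (Nat.add (Nat.add (Nat.add (Nat.add (Nat.add (Nat.add (Nat.add C x1959) x4875) x3903) x3255) x3435) x3423) x3415) x3417) x1231)
    (Nat.sub (Nat.sub (Nat.sub (Nat.add (Nat.add (Nat.add (Nat.add (Nat.add (Nat.add (Nat.add C x1963) x4879) x3907) x3259) x3439) x3415) x3423) (Nat.mul x3421 (nat_lit 2))) x5607) x1235)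
    (Nat.sub (Nat.sub (Nat.add (Nat.add (Nat.add (Nat.add (Nat.add (Nat.add (Nat.add C x1965) x4881) x3909) x3261) x3441) x3417) x3421) x3423) x1237)
    (Nat.sub (Nat.sub (Nat.add (Nat.add (Nat.add (Nat.add (Nat.add (Nat.add (Nat.add C x1973) x4889) x3917) x3269) x3485) x3413) x3433) x3431) x5617)
    (Nat.sub (Nat.sub (Nat.sub (Nat.add (Nat.add (Nat.add (Nat.add (Nat.add (Nat.add (Nat.add (Nat.add (Nat.add C x1975) x4891) x3919) x3271) x3487) x3415) x3439) x3431) x3435) x3433) x5619) x1247)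
    (Nat.sub (Nat.sub (Nat.add (Nat.add (Nat.add (Nat.add (Nat.add (Nat.add (Nat.add (Nat.add C x1977) x4893) x3921) x3273) x3489) x3417) x3441) x3433) (Nat.mul x3435 (nat_lit 3))) x1249)
    (Nat.sub (Nat.sub (Nat.sub (Nat.add (Nat.add (Nat.add (Nat.add (Nat.add (Nat.add (Nat.add (Nat.add (Nat.add C x1981) x4897) x3925) x3277) x3493) x3421) x3457) x3433) x3441) x3439) x5625) x1253)
    (Nat.sub (Nat.sub (Nat.add (Nat.add (Nat.add (Nat.add (Nat.add (Nat.add (Nat.add (Nat.add (Nat.add (Nat.add C x1983) x4899) x3927) x3279) x3495) x3423) x3459) x3435) x3447) x3439) x3441) x1255)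
    (Nat.sub (Nat.sub (Nat.add (Nat.add (Nat.add (Nat.add (Nat.add (Nat.add (Nat.add C x1989) x4905) x3933) x3285) x3501) x3465) x3441) x3447) x1261)
    (Nat.sub (Nat.sub (Nat.sub (Nat.add (Nat.add (Nat.add (Nat.add (Nat.add (Nat.add (Nat.add C x1999) x4915) x3943) x3295) x3511) x3439) x3459) (Nat.mul x3457 (nat_lit 2))) x5643) x1271)
    (Nat.sub (Nat.sub (Nat.add (Nat.add (Nat.add (Nat.add (Nat.add (Nat.add (Nat.add (Nat.add C x2001) x4917) x3945) x3297) x3513) x3441) x3465) x3457) (Nat.mul x3459 (nat_lit 3))) x1273)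
    (Nat.sub (Nat.sub (Nat.add (Nat.add (Nat.add (Nat.add (Nat.add (Nat.add (Nat.add C x2007) x4923) x3951) x3303) x3519) x3447) x3459) x3465) x1279)
    (Nat.sub (Nat.add (Nat.add (Nat.add (Nat.add (Nat.add (Nat.add (Nat.add C x3485) x2027) x4943) x3971) x3323) x3431) x3487) x5671)
    (Nat.sub (Nat.sub (Nat.add (Nat.add (Nat.add (Nat.add (Nat.add (Nat.add (Nat.add (Nat.add (Nat.add C x3487) x2029) x4945) x3973) x3325) x3433) x3493) x3485) x3489) x5673) x1301)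
    (Nat.sub (Nat.sub (Nat.add (Nat.add (Nat.add (Nat.add (Nat.add (Nat.add (Nat.add C x2031) x4947) x3975) x3327) x3435) x3495) x3487) x3489) x1303)
    (Nat.sub (Nat.sub (Nat.add (Nat.add (Nat.add (Nat.add (Nat.add (Nat.add (Nat.add (Nat.add C x2035) x4951) x3979) x3331) x3439) x3511) x3487) x3495) x5679) x1307)
    (Nat.sub (Nat.add (Nat.add (Nat.add (Nat.add (Nat.add (Nat.add (Nat.add (Nat.add (Nat.add C x2037) x4953) x3981) x3333) x3441) x3513) x3489) x3501) x3493) x1309)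
    (Nat.sub (Nat.sub (Nat.add (Nat.add (Nat.add (Nat.add (Nat.add (Nat.add (Nat.add C x2043) x4959) x3987) x3339) x3447) x3519) x3495) x3501) x1315)
    (Nat.sub (Nat.sub (Nat.add (Nat.add (Nat.add (Nat.add (Nat.add (Nat.add (Nat.add (Nat.add (Nat.add C x3511) x2053) x4969) x3997) x3349) x3457) x3565) x3493) x3513) x5697) x1325)
    (Nat.sub (Nat.add (Nat.add (Nat.add (Nat.add (Nat.add (Nat.add (Nat.add (Nat.add (Nat.add C x2055) x4971) x3999) x3351) x3459) x3567) x3495) x3519) x3511) x1327)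
    (Nat.sub (Nat.add (Nat.add (Nat.add (Nat.add (Nat.add (Nat.add (Nat.add (Nat.add (Nat.add (Nat.add C x3519) x2061) x4977) x4005) x3357) x3465) x3573) x3501) x3537) x3513) x1333)
    (Nat.sub (Nat.add (Nat.add (Nat.add (Nat.add (Nat.add (Nat.add (Nat.add C x3537) x2079) x4995) x4023) x3375) x3591) x3519) x1351)
    (Nat.sub (Nat.sub (Nat.add (Nat.add (Nat.add (Nat.add (Nat.add (Nat.add C (Nat.mul x3565 (nat_lit 2))) x2107) x5023) x4051) x3511) x3567) x5751) x1379)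
    (Nat.sub (Nat.add (Nat.add (Nat.add (Nat.add (Nat.add (Nat.add (Nat.add C x3567) x2109) x5025) x4053) x3513) x3573) x3565) x1381)
    (Nat.sub (Nat.add (Nat.add (Nat.add (Nat.add (Nat.add (Nat.add (Nat.add C x3573) x2115) x5031) x4059) x3519) x3591) x3567) x1387)
    (Nat.sub (Nat.add (Nat.add (Nat.add (Nat.add (Nat.add (Nat.add C (Nat.mul x3591 (nat_lit 3))) x2133) x5049) x4077) x3537) x3573) x1405)
    (Nat.sub (Nat.add (Nat.add (Nat.add (Nat.add C (Nat.mul x3653 (nat_lit 2))) x5111) x3167) x3659) x5839)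
    (Nat.sub (Nat.add (Nat.add (Nat.add (Nat.add (Nat.add (Nat.add (Nat.add C x3659) x5117) x3173) x3677) x3653) x3665) x3661) x5845)
    (Nat.sub (Nat.sub (Nat.add (Nat.add (Nat.add (Nat.add (Nat.add (Nat.add C x3661) x5119) x3175) x3679) x3667) x3659) x5847) x1475)
    (Nat.sub (Nat.sub (Nat.add (Nat.add (Nat.add (Nat.add (Nat.add C x5123) x3179) x3683) x3659) x3667) (Nat.mul x3665 (nat_lit 2))) x5851)
    (Nat.sub (Nat.sub (Nat.add (Nat.add (Nat.add (Nat.add (Nat.add (Nat.add C x5125) x3181) x3685) x3661) x3665) x3669) x5853) x1481)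
    (Nat.sub (Nat.add (Nat.add (Nat.add (Nat.add C x5127) x3183) x3687) x3667) x1483)
    (Nat.sub (Nat.add (Nat.add (Nat.add (Nat.add (Nat.add (Nat.add C x5135) x3191) x3731) x3659) x3683) x3679) x5863)
    (Nat.sub (Nat.sub (Nat.sub (Nat.add (Nat.add (Nat.add (Nat.add (Nat.add (Nat.add C x5137) x3193) x3733) x3661) x3685) x3677) x3679) x5865) x1493)
    (Nat.sub (Nat.sub (Nat.add (Nat.add (Nat.add (Nat.add (Nat.add (Nat.add (Nat.add C x5141) x3197) x3737) x3665) x3701) x3677) x3685) x3683) x5869)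
    (Nat.sub (Nat.sub (Nat.add (Nat.add (Nat.add (Nat.add (Nat.add (Nat.add (Nat.add (Nat.add (Nat.add C x5143) x3199) x3739) x3667) x3703) x3679) x3691) x3683) x3687) x5871) x1499)
    (Nat.sub (Nat.sub (Nat.add (Nat.add (Nat.add (Nat.add (Nat.add (Nat.add (Nat.add C x5145) x3201) x3741) x3669) x3705) x3693) x3685) x3687) x1501)
    (Nat.sub (Nat.sub (Nat.sub (Nat.add (Nat.add (Nat.add (Nat.add (Nat.add (Nat.add C x5149) x3205) x3745) x3709) x3685) x3693) x3691) x5877) x1505)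
    (Nat.sub (Nat.add (Nat.add (Nat.add (Nat.add (Nat.add (Nat.add C x5151) x3207) x3747) x3711) x3687) x3691) x1507)
    (Nat.sub (Nat.sub (Nat.add (Nat.add (Nat.add (Nat.add (Nat.add C x5159) x3215) x3755) x3683) x3703) (Nat.mul x3701 (nat_lit 2))) x5887)
    (Nat.sub (Nat.sub (Nat.sub (Nat.add (Nat.add (Nat.add (Nat.add (Nat.add (Nat.add (Nat.add C x5161) x3217) x3757) x3685) x3709) x3701) x3705) (Nat.mul x3703 (nat_lit 2))) x5889) x1517)
    (Nat.sub (Nat.sub (Nat.add (Nat.add (Nat.add (Nat.add (Nat.add (Nat.add C x5163) x3219) x3759) x3687) x3711) x3703) (Nat.mul x3705 (nat_lit 4))) x1519)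
    (Nat.sub (Nat.sub (Nat.sub (Nat.add (Nat.add (Nat.add (Nat.add (Nat.add (Nat.add C x5167) x3223) x3763) x3691) x3703) x3711) x3709) x5895) x1523)
    (Nat.sub (Nat.sub (Nat.add (Nat.add (Nat.add (Nat.add (Nat.add (Nat.add (Nat.add C x5169) x3225) x3765) x3693) x3705) x3717) x3709) x3711) x1525)
    (Nat.sub (Nat.add (Nat.add (Nat.add (Nat.add C x5175) x3231) x3771) x3711) x1531)
    (Nat.sub (Nat.add (Nat.add (Nat.add (Nat.add (Nat.add (Nat.add C x5189) x3245) x3893) x3677) x3737) x3733) x5917)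
    (Nat.sub (Nat.sub (Nat.sub (Nat.add (Nat.add (Nat.add (Nat.add (Nat.add (Nat.add C x5191) x3247) x3895) x3679) x3739) x3731) x3733) x5919) x1547)
    (Nat.sub (Nat.sub (Nat.add (Nat.add (Nat.add (Nat.add (Nat.add (Nat.add (Nat.add C x5195) x3251) x3899) x3683) x3755) x3731) x3739) (Nat.mul x3737 (nat_lit 2))) x5923)
    (Nat.sub (Nat.sub (Nat.sub (Nat.add (Nat.add (Nat.add (Nat.add (Nat.add (Nat.add (Nat.add (Nat.add (Nat.add C x5197) x3253) x3901) x3685) x3757) x3733) x3745) x3737) x3741) x3739) x5925) x1553)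
    (Nat.sub (Nat.sub (Nat.add (Nat.add (Nat.add (Nat.add (Nat.add (Nat.add (Nat.add C x5199) x3255) x3903) x3687) x3759) x3747) x3739) (Nat.mul x3741 (nat_lit 2))) x1555)
    (Nat.sub (Nat.sub (Nat.sub (Nat.add (Nat.add (Nat.add (Nat.add (Nat.add (Nat.add (Nat.add C x5203) x3259) x3907) x3691) x3763) x3739) x3747) (Nat.mul x3745 (nat_lit 3))) x5931) x1559)
    (Nat.sub (Nat.sub (Nat.add (Nat.add (Nat.add (Nat.add (Nat.add (Nat.add (Nat.add C x5205) x3261) x3909) x3693) x3765) x3741) x3745) (Nat.mul x3747 (nat_lit 2))) x1561)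
    (Nat.sub (Nat.sub (Nat.add (Nat.add (Nat.add (Nat.add (Nat.add (Nat.add (Nat.add C x5213) x3269) x3917) x3701) x3809) x3737) x3757) x3755) x5941)
    (Nat.sub (Nat.sub (Nat.sub (Nat.add (Nat.add (Nat.add (Nat.add (Nat.add (Nat.add (Nat.add (Nat.add (Nat.add C x5215) x3271) x3919) x3703) x3811) x3739) x3763) x3755) x3759) x3757) x5943) x1571)
    (Nat.sub (Nat.sub (Nat.add (Nat.add (Nat.add (Nat.add (Nat.add (Nat.add (Nat.add (Nat.add C x5217) x3273) x3921) x3705) x3813) x3741) x3765) x3757) (Nat.mul x3759 (nat_lit 3))) x1573)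
    (Nat.sub (Nat.sub (Nat.sub (Nat.add (Nat.add (Nat.add (Nat.add (Nat.add (Nat.add (Nat.add (Nat.add (Nat.add C x5221) x3277) x3925) x3709) x3817) x3745) x3781) x3757) x3765) x3763) x5949) x1577)
    (Nat.sub (Nat.sub (Nat.add (Nat.add (Nat.add (Nat.add (Nat.add (Nat.add (Nat.add (Nat.add (Nat.add (Nat.add C x5223) x3279) x3927) x3711) x3819) x3747) x3783) x3759) x3771) x3763) x3765) x1579)
    (Nat.sub (Nat.sub (Nat.add (Nat.add (Nat.add (Nat.add (Nat.add (Nat.add (Nat.add C x5229) x3285) x3933) x3717) x3825) x3789) x3765) x3771) x1585)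
    (Nat.sub (Nat.sub (Nat.sub (Nat.add (Nat.add (Nat.add (Nat.add (Nat.add (Nat.add C x5239) x3295) x3943) x3835) x3763) x3783) x3781) x5967) x1595)
    (Nat.sub (Nat.sub (Nat.add (Nat.add (Nat.add (Nat.add (Nat.add (Nat.add (Nat.add C x5241) x3297) x3945) x3837) x3765) x3789) x3781) (Nat.mul x3783 (nat_lit 2))) x1597)
    (Nat.sub (Nat.add (Nat.add (Nat.add (Nat.add (Nat.add (Nat.add C x5247) x3303) x3951) x3843) x3771) x3783) x1603)
    (Nat.sub (Nat.sub (Nat.add (Nat.add (Nat.add (Nat.add (Nat.add C x5267) x3323) x3971) x3755) x3811) (Nat.mul x3809 (nat_lit 2))) x5995)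
    (Nat.sub (Nat.sub (Nat.sub (Nat.add (Nat.add (Nat.add (Nat.add (Nat.add (Nat.add (Nat.add C x5269) x3325) x3973) x3757) x3817) x3809) x3813) (Nat.mul x3811 (nat_lit 2))) x5997) x1625)
    (Nat.sub (Nat.sub (Nat.add (Nat.add (Nat.add (Nat.add (Nat.add (Nat.add C x5271) x3327) x3975) x3759) x3819) x3811) (Nat.mul x3813 (nat_lit 4))) x1627)
    (Nat.sub (Nat.sub (Nat.sub (Nat.add (Nat.add (Nat.add (Nat.add (Nat.add (Nat.add (Nat.add C x5275) x3331) x3979) x3763) x3835) x3811) x3819) (Nat.mul x3817 (nat_lit 3))) x6003) x1631)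
    (Nat.sub (Nat.sub (Nat.add (Nat.add (Nat.add (Nat.add (Nat.add (Nat.add (Nat.add (Nat.add C x5277) x3333) x3981) x3765) x3837) x3813) x3825) x3817) (Nat.mul x3819 (nat_lit 3))) x1633)
    (Nat.sub (Nat.sub (Nat.add (Nat.add (Nat.add (Nat.add (Nat.add (Nat.add C x5283) x3339) x3987) x3771) x3843) x3819) (Nat.mul x3825 (nat_lit 4))) x1639)
    (Nat.sub (Nat.sub (Nat.sub (Nat.add (Nat.add (Nat.add (Nat.add (Nat.add (Nat.add C x5293) x3349) x3997) x3781) x3817) x3837) x3835) x6021) x1649)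
    (Nat.sub (Nat.sub (Nat.add (Nat.add (Nat.add (Nat.add (Nat.add (Nat.add (Nat.add C x5295) x3351) x3999) x3783) x3819) x3843) x3835) (Nat.mul x3837 (nat_lit 2))) x1651)
    (Nat.sub (Nat.sub (Nat.add (Nat.add (Nat.add (Nat.add (Nat.add (Nat.add (Nat.add C x5301) x3357) x4005) x3789) x3825) x3861) x3837) x3843) x1657)
    (Nat.sub (Nat.add (Nat.add (Nat.add (Nat.add C x5319) x3375) x4023) x3843) x1675)
    (Nat.sub (Nat.add (Nat.add (Nat.add (Nat.add (Nat.add (Nat.add C (Nat.mul x3893 (nat_lit 2))) x5351) x3407) x3731) x3899) x3895) x6079)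
    (Nat.sub (Nat.sub (Nat.add (Nat.add (Nat.add (Nat.add (Nat.add (Nat.add C x3895) x5353) x3409) x3733) x3901) x3893) x6081) x1709)
    (Nat.sub (Nat.add (Nat.add (Nat.add (Nat.add (Nat.add (Nat.add C x5357) x3413) x3737) x3917) x3893) x3901) x6085)
    (Nat.sub (Nat.sub (Nat.add (Nat.add (Nat.add (Nat.add (Nat.add (Nat.add (Nat.add (Nat.add (Nat.add C x3901) x5359) x3415) x3739) x3919) x3895) x3907) x3899) x3903) x6087) x1715)
    (Nat.sub (Nat.add (Nat.add (Nat.add (Nat.add (Nat.add (Nat.add C x5361) x3417) x3741) x3921) x3909) x3901) x1717)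
    (Nat.sub (Nat.sub (Nat.sub (Nat.add (Nat.add (Nat.add (Nat.add (Nat.add (Nat.add C x5365) x3421) x3745) x3925) x3901) x3909) x3907) x6093) x1721)
    (Nat.sub (Nat.add (Nat.add (Nat.add (Nat.add (Nat.add (Nat.add C x5367) x3423) x3747) x3927) x3903) x3907) x1723)
    (Nat.sub (Nat.add (Nat.add (Nat.add (Nat.add (Nat.add (Nat.add C x5375) x3431) x3755) x3971) x3899) x3919) x6103)
    (Nat.sub (Nat.sub (Nat.add (Nat.add (Nat.add (Nat.add (Nat.add (Nat.add (Nat.add (Nat.add C x5377) x3433) x3757) x3973) x3901) x3925) x3917) x3921) x6105) x1733)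
    (Nat.sub (Nat.sub (Nat.add (Nat.add (Nat.add (Nat.add (Nat.add (Nat.add (Nat.add C x5379) x3435) x3759) x3975) x3903) x3927) x3919) (Nat.mul x3921 (nat_lit 2))) x1735)
    (Nat.sub (Nat.sub (Nat.add (Nat.add (Nat.add (Nat.add (Nat.add (Nat.add (Nat.add (Nat.add C x5383) x3439) x3763) x3979) x3907) x3943) x3919) x3927) x6111) x1739)
    (Nat.sub (Nat.add (Nat.add (Nat.add (Nat.add (Nat.add (Nat.add (Nat.add (Nat.add (Nat.add C x5385) x3441) x3765) x3981) x3909) x3945) x3921) x3933) x3925) x1741)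
    (Nat.sub (Nat.add (Nat.add (Nat.add (Nat.add (Nat.add (Nat.add C x5391) x3447) x3771) x3987) x3951) x3927) x1747)
    (Nat.sub (Nat.sub (Nat.sub (Nat.add (Nat.add (Nat.add (Nat.add (Nat.add (Nat.add C x5401) x3457) x3781) x3997) x3925) x3945) x3943) x6129) x1757)
    (Nat.sub (Nat.sub (Nat.add (Nat.add (Nat.add (Nat.add (Nat.add (Nat.add (Nat.add C x5403) x3459) x3783) x3999) x3927) x3951) x3943) (Nat.mul x3945 (nat_lit 2))) x1759)
    (Nat.sub (Nat.add (Nat.add (Nat.add (Nat.add (Nat.add (Nat.add C x5409) x3465) x3789) x4005) x3933) x3945) x1765)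
    (Nat.sub (Nat.add (Nat.add (Nat.add (Nat.add (Nat.add (Nat.add (Nat.add C x3971) x5429) x3485) x3809) x4133) x3917) x3973) x6157)
    (Nat.sub (Nat.sub (Nat.add (Nat.add (Nat.add (Nat.add (Nat.add (Nat.add (Nat.add (Nat.add (Nat.add C x3973) x5431) x3487) x3811) x4135) x3919) x3979) x3971) x3975) x6159) x1787)
    (Nat.sub (Nat.sub (Nat.add (Nat.add (Nat.add (Nat.add (Nat.add (Nat.add (Nat.add C x5433) x3489) x3813) x4137) x3921) x3981) x3973) x3975) x1789)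
    (Nat.sub (Nat.sub (Nat.add (Nat.add (Nat.add (Nat.add (Nat.add (Nat.add (Nat.add (Nat.add C x5437) x3493) x3817) x4141) x3925) x3997) x3973) x3981) x6165) x1793)
    (Nat.sub (Nat.add (Nat.add (Nat.add (Nat.add (Nat.add (Nat.add (Nat.add (Nat.add (Nat.add C x5439) x3495) x3819) x4143) x3927) x3999) x3975) x3987) x3979) x1795)
    (Nat.sub (Nat.sub (Nat.add (Nat.add (Nat.add (Nat.add (Nat.add (Nat.add (Nat.add C x5445) x3501) x3825) x4149) x3933) x4005) x3981) x3987) x1801)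
    (Nat.sub (Nat.sub (Nat.add (Nat.add (Nat.add (Nat.add (Nat.add (Nat.add (Nat.add (Nat.add (Nat.add C x3997) x5455) x3511) x3835) x4159) x3943) x4051) x3979) x3999) x6183) x1811)
    (Nat.sub (Nat.add (Nat.add (Nat.add (Nat.add (Nat.add (Nat.add (Nat.add (Nat.add (Nat.add C x5457) x3513) x3837) x4161) x3945) x4053) x3981) x4005) x3997) x1813)
    (Nat.sub (Nat.add (Nat.add (Nat.add (Nat.add (Nat.add (Nat.add (Nat.add (Nat.add (Nat.add (Nat.add C x4005) x5463) x3519) x3843) x4167) x3951) x4059) x3987) x4023) x3999) x1819)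
    (Nat.sub (Nat.add (Nat.add (Nat.add (Nat.add (Nat.add (Nat.add (Nat.add C x4023) x5481) x3537) x3861) x4185) x4077) x4005) x1837)
    (Nat.sub (Nat.sub (Nat.add (Nat.add (Nat.add (Nat.add (Nat.add (Nat.add C x4051) x5509) x3565) x4213) x3997) x4053) x6237) x1865)
    (Nat.sub (Nat.add (Nat.add (Nat.add (Nat.add (Nat.add (Nat.add C x5511) x3567) x4215) x3999) x4059) x4051) x1867)
    (Nat.sub (Nat.add (Nat.add (Nat.add (Nat.add (Nat.add (Nat.add C x5517) x3573) x4221) x4005) x4077) x4053) x1873)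
    (Nat.sub (Nat.add (Nat.add (Nat.add (Nat.add (Nat.add (Nat.add C (Nat.mul x4077 (nat_lit 2))) x5535) x3591) x4239) x4023) x4059) x1891)
    (Nat.sub (Nat.add (Nat.add (Nat.add (Nat.add C (Nat.mul x4133 (nat_lit 2))) x5591) x3971) x4135) x6319)
    (Nat.sub (Nat.sub (Nat.add (Nat.add (Nat.add (Nat.add (Nat.add (Nat.add C (Nat.mul x4135 (nat_lit 2))) x5593) x3973) x4141) x4133) x4137) x6321) x1949)
    (Nat.sub (Nat.add (Nat.add (Nat.add (Nat.add C x5595) x3975) x4143) x4135) x1951)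
    (Nat.sub (Nat.sub (Nat.add (Nat.add (Nat.add (Nat.add (Nat.add (Nat.add C x4141) x5599) x3979) x4159) x4135) x4143) x6327) x1955)
    (Nat.sub (Nat.add (Nat.add (Nat.add (Nat.add (Nat.add (Nat.add (Nat.add C x4143) x5601) x3981) x4161) x4137) x4149) x4141) x1957)
    (Nat.sub (Nat.add (Nat.add (Nat.add (Nat.add C x5607) x3987) x4167) x4143) x1963)
    (Nat.sub (Nat.sub (Nat.add (Nat.add (Nat.add (Nat.add (Nat.add (Nat.add C x4159) x5617) x3997) x4213) x4141) x4161) x6345) x1973)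
    (Nat.sub (Nat.add (Nat.add (Nat.add (Nat.add (Nat.add (Nat.add C x5619) x3999) x4215) x4143) x4167) x4159) x1975)
    (Nat.sub (Nat.add (Nat.add (Nat.add (Nat.add (Nat.add (Nat.add (Nat.add C x4167) x5625) x4005) x4221) x4149) x4185) x4161) x1981)
    (Nat.sub (Nat.add (Nat.add (Nat.add (Nat.add C x5643) x4023) x4239) x4167) x1999)
    (Nat.sub (Nat.sub (Nat.add (Nat.add (Nat.add (Nat.add (Nat.add C (Nat.mul x4213 (nat_lit 3))) x5671) x4051) x4159) x4215) x6399) x2027)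
    (Nat.sub (Nat.add (Nat.add (Nat.add (Nat.add (Nat.add (Nat.add C (Nat.mul x4215 (nat_lit 2))) x5673) x4053) x4161) x4221) x4213) x2029)
    (Nat.sub (Nat.add (Nat.add (Nat.add (Nat.add (Nat.add (Nat.add C (Nat.mul x4221 (nat_lit 2))) x5679) x4059) x4167) x4239) x4215) x2035)
    (Nat.sub (Nat.add (Nat.add (Nat.add (Nat.add (Nat.add (Nat.add C (Nat.mul x4239 (nat_lit 3))) x5697) x4077) x4185) x4293) x4221) x2053)
    (Nat.sub (Nat.add (Nat.add (Nat.add C (Nat.mul x4293 (nat_lit 4))) x5751) x4239) x2107)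
    (Nat.add (Nat.add (Nat.add (Nat.add C (Nat.mul x4391 (nat_lit 4))) x2933) x4409) x4397)
    (Nat.add (Nat.add (Nat.add (Nat.add (Nat.add C (Nat.mul x4397 (nat_lit 2))) x2939) x4415) x4391) x4399)
    (Nat.sub (Nat.add (Nat.add (Nat.add (Nat.add C (Nat.mul x4399 (nat_lit 2))) x2941) x4417) x4397) x2213)
    (Nat.add (Nat.add (Nat.add (Nat.add (Nat.add C (Nat.mul x4409 (nat_lit 2))) x2951) x4463) x4391) x4415)
    (Nat.add (Nat.add (Nat.add (Nat.add (Nat.add (Nat.add (Nat.add (Nat.add C (Nat.mul x4415 (nat_lit 2))) x2957) x4469) x4397) x4433) x4409) x4421) x4417)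
    (Nat.sub (Nat.add (Nat.add (Nat.add (Nat.add (Nat.add (Nat.add (Nat.add C x4417) x2959) x4471) x4399) x4435) x4423) x4415) x2231)
    (Nat.add (Nat.add (Nat.add (Nat.add (Nat.add C x2963) x4475) x4439) x4415) x4423)
    (Nat.sub (Nat.add (Nat.add (Nat.add (Nat.add (Nat.add (Nat.add (Nat.add C x4423) x2965) x4477) x4441) x4417) x4421) x4425) x2237)
    (Nat.sub (Nat.add (Nat.add (Nat.add (Nat.add C x2967) x4479) x4443) x4423) x2239)
    (Nat.add (Nat.add (Nat.add (Nat.add (Nat.add C x2975) x4487) x4415) x4439) x4435)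
    (Nat.sub (Nat.sub (Nat.add (Nat.add (Nat.add (Nat.add (Nat.add C x2977) x4489) x4417) x4441) x4433) (Nat.mul x4435 (nat_lit 2))) x2249)
    (Nat.add (Nat.add (Nat.add (Nat.add (Nat.add C x2981) x4493) x4421) x4433) x4441)
    (Nat.sub (Nat.add (Nat.add (Nat.add (Nat.add (Nat.add (Nat.add (Nat.add C x2983) x4495) x4423) x4435) x4447) x4439) x4443) x2255)
    (Nat.sub (Nat.sub (Nat.add (Nat.add (Nat.add (Nat.add (Nat.add C x2985) x4497) x4425) x4449) x4441) (Nat.mul x4443 (nat_lit 2))) x2257)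
    (Nat.sub (Nat.add (Nat.add (Nat.add (Nat.add C x2989) x4501) x4441) x4449) x2261)
    (Nat.sub (Nat.add (Nat.add (Nat.add (Nat.add C x2991) x4503) x4443) x4447) x2263)
    (Nat.add (Nat.add (Nat.add (Nat.add (Nat.add C (Nat.mul x4463 (nat_lit 2))) x3005) x4625) x4409) x4469)
    (Nat.add (Nat.add (Nat.add (Nat.add (Nat.add (Nat.add (Nat.add (Nat.add C x4469) x3011) x4631) x4415) x4487) x4463) x4475) x4471)
    (Nat.sub (Nat.add (Nat.add (Nat.add (Nat.add (Nat.add (Nat.add C x3013) x4633) x4417) x4489) x4477) x4469) x2285)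
    (Nat.sub (Nat.add (Nat.add (Nat.add (Nat.add (Nat.add (Nat.add C x3017) x4637) x4421) x4493) x4469) x4477) (Nat.mul x4475 (nat_lit 2)))
    (Nat.sub (Nat.sub (Nat.add (Nat.add (Nat.add (Nat.add (Nat.add (Nat.add (Nat.add C x3019) x4639) x4423) x4495) x4471) x4475) x4479) x4477) x2291)
    (Nat.sub (Nat.sub (Nat.add (Nat.add (Nat.add (Nat.add (Nat.add C x3021) x4641) x4425) x4497) x4477) (Nat.mul x4479 (nat_lit 2))) x2293)
    (Nat.add (Nat.add (Nat.add (Nat.add (Nat.add (Nat.add (Nat.add (Nat.add C x4487) x3029) x4649) x4433) x4541) x4469) x4493) x4489)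
    (Nat.sub (Nat.sub (Nat.add (Nat.add (Nat.add (Nat.add (Nat.add (Nat.add (Nat.add C x3031) x4651) x4435) x4543) x4471) x4495) x4487) x4489) x2303)
    (Nat.add (Nat.add (Nat.add (Nat.add (Nat.add (Nat.add (Nat.add (Nat.add C x3035) x4655) x4439) x4547) x4475) x4511) x4487) x4495)
    (Nat.sub (Nat.add (Nat.add (Nat.add (Nat.add (Nat.add (Nat.add (Nat.add (Nat.add (Nat.add (Nat.add C x3037) x4657) x4441) x4549) x4477) x4513) x4489) x4501) x4493) x4497) x2309)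
    (Nat.sub (Nat.sub (Nat.add (Nat.add (Nat.add (Nat.add (Nat.add (Nat.add (Nat.add (Nat.add C x3039) x4659) x4443) x4551) x4479) x4515) x4503) x4495) (Nat.mul x4497 (nat_lit 2))) x2311)
    (Nat.sub (Nat.sub (Nat.add (Nat.add (Nat.add (Nat.add (Nat.add (Nat.add (Nat.add C x3043) x4663) x4447) x4555) x4519) x4495) x4503) x4501) x2315)
    (Nat.sub (Nat.sub (Nat.add (Nat.add (Nat.add (Nat.add (Nat.add (Nat.add (Nat.add C x3045) x4665) x4449) x4557) x4521) x4497) x4501) x4503) x2317)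
    (Nat.add (Nat.add (Nat.add (Nat.add (Nat.add C x3053) x4673) x4565) x4493) x4513)
    (Nat.sub (Nat.sub (Nat.add (Nat.add (Nat.add (Nat.add (Nat.add (Nat.add (Nat.add C x3055) x4675) x4567) x4495) x4519) x4511) x4515) x4513) x2327)
    (Nat.sub (Nat.sub (Nat.add (Nat.add (Nat.add (Nat.add (Nat.add (Nat.add C x3057) x4677) x4569) x4497) x4521) x4513) (Nat.mul x4515 (nat_lit 4))) x2329)
    (Nat.sub (Nat.add (Nat.add (Nat.add (Nat.add (Nat.add (Nat.add C x3061) x4681) x4573) x4501) x4513) x4521) x2333)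
    (Nat.sub (Nat.sub (Nat.add (Nat.add (Nat.add (Nat.add (Nat.add (Nat.add (Nat.add C x3063) x4683) x4575) x4503) x4515) x4527) x4519) x4521) x2335)
    (Nat.sub (Nat.add (Nat.add (Nat.add (Nat.add C x3069) x4689) x4581) x4521) x2341)
    (Nat.add (Nat.add (Nat.add (Nat.add (Nat.add C x3083) x4703) x4487) x4547) x4543)
    (Nat.sub (Nat.sub (Nat.add (Nat.add (Nat.add (Nat.add (Nat.add C x3085) x4705) x4489) x4549) x4541) (Nat.mul x4543 (nat_lit 2))) x2357)
    (Nat.sub (Nat.add (Nat.add (Nat.add (Nat.add (Nat.add (Nat.add C x3089) x4709) x4493) x4565) x4541) x4549) (Nat.mul x4547 (nat_lit 2)))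
    (Nat.sub (Nat.sub (Nat.add (Nat.add (Nat.add (Nat.add (Nat.add (Nat.add (Nat.add (Nat.add C x3091) x4711) x4495) x4567) x4543) x4555) x4547) x4551) (Nat.mul x4549 (nat_lit 2))) x2363)
    (Nat.sub (Nat.sub (Nat.add (Nat.add (Nat.add (Nat.add (Nat.add (Nat.add C x3093) x4713) x4497) x4569) x4557) x4549) (Nat.mul x4551 (nat_lit 4))) x2365)
    (Nat.sub (Nat.sub (Nat.add (Nat.add (Nat.add (Nat.add (Nat.add (Nat.add C x3097) x4717) x4501) x4573) x4549) x4557) (Nat.mul x4555 (nat_lit 4))) x2369)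
    (Nat.sub (Nat.sub (Nat.add (Nat.add (Nat.add (Nat.add (Nat.add (Nat.add C x3099) x4719) x4503) x4575) x4551) x4555) (Nat.mul x4557 (nat_lit 4))) x2371)
    (Nat.add (Nat.add (Nat.add (Nat.add (Nat.add C x3107) x4727) x4511) x4547) x4567)
    (Nat.sub (Nat.sub (Nat.add (Nat.add (Nat.add (Nat.add (Nat.add (Nat.add (Nat.add C x3109) x4729) x4513) x4549) x4573) x4565) x4569) x4567) x2381)
    (Nat.sub (Nat.sub (Nat.add (Nat.add (Nat.add (Nat.add (Nat.add (Nat.add C x3111) x4731) x4515) x4551) x4575) x4567) (Nat.mul x4569 (nat_lit 4))) x2383)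
    (Nat.sub (Nat.sub (Nat.add (Nat.add (Nat.add (Nat.add (Nat.add (Nat.add (Nat.add C x3115) x4735) x4519) x4555) x4591) x4567) x4575) x4573) x2387)
    (Nat.sub (Nat.sub (Nat.add (Nat.add (Nat.add (Nat.add (Nat.add (Nat.add (Nat.add (Nat.add C x3117) x4737) x4521) x4557) x4593) x4569) x4581) x4573) (Nat.mul x4575 (nat_lit 2))) x2389)
    (Nat.sub (Nat.sub (Nat.add (Nat.add (Nat.add (Nat.add (Nat.add C x3123) x4743) x4527) x4599) x4575) (Nat.mul x4581 (nat_lit 2))) x2395)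
    (Nat.sub (Nat.add (Nat.add (Nat.add (Nat.add C x3133) x4753) x4573) x4593) x2405)
    (Nat.sub (Nat.sub (Nat.add (Nat.add (Nat.add (Nat.add (Nat.add C x3135) x4755) x4575) x4599) x4591) (Nat.mul x4593 (nat_lit 2))) x2407)
    (Nat.sub (Nat.add (Nat.add (Nat.add (Nat.add C x3141) x4761) x4581) x4593) x2413)
    (Nat.add (Nat.add (Nat.add (Nat.add (Nat.add C (Nat.mul x4625 (nat_lit 2))) x3167) x5111) x4463) x4631)
    (Nat.add (Nat.add (Nat.add (Nat.add (Nat.add (Nat.add (Nat.add (Nat.add C x4631) x3173) x5117) x4469) x4649) x4625) x4637) x4633)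
    (Nat.sub (Nat.add (Nat.add (Nat.add (Nat.add (Nat.add (Nat.add C x3175) x5119) x4471) x4651) x4639) x4631) x2447)
    (Nat.sub (Nat.add (Nat.add (Nat.add (Nat.add (Nat.add (Nat.add C x3179) x5123) x4475) x4655) x4631) x4639) (Nat.mul x4637 (nat_lit 2)))
    (Nat.sub (Nat.sub (Nat.add (Nat.add (Nat.add (Nat.add (Nat.add (Nat.add (Nat.add C x3181) x5125) x4477) x4657) x4633) x4637) x4641) x4639) x2453)
    (Nat.sub (Nat.sub (Nat.add (Nat.add (Nat.add (Nat.add (Nat.add C x3183) x5127) x4479) x4659) x4639) (Nat.mul x4641 (nat_lit 2))) x2455)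
    (Nat.add (Nat.add (Nat.add (Nat.add (Nat.add (Nat.add (Nat.add C x3191) x5135) x4487) x4703) x4631) x4655) x4651)
    (Nat.sub (Nat.sub (Nat.add (Nat.add (Nat.add (Nat.add (Nat.add (Nat.add (Nat.add C x3193) x5137) x4489) x4705) x4633) x4657) x4649) (Nat.mul x4651 (nat_lit 2))) x2465)
    (Nat.sub (Nat.add (Nat.add (Nat.add (Nat.add (Nat.add (Nat.add (Nat.add (Nat.add C x3197) x5141) x4493) x4709) x4637) x4673) x4649) x4657) x4655)
    (Nat.sub (Nat.sub (Nat.add (Nat.add (Nat.add (Nat.add (Nat.add (Nat.add (Nat.add (Nat.add (Nat.add (Nat.add C x3199) x5143) x4495) x4711) x4639) x4675) x4651) x4663) x4655) x4659) x4657) x2471)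
    (Nat.sub (Nat.sub (Nat.add (Nat.add (Nat.add (Nat.add (Nat.add (Nat.add (Nat.add (Nat.add C x3201) x5145) x4497) x4713) x4641) x4677) x4665) x4657) (Nat.mul x4659 (nat_lit 3))) x2473)
    (Nat.sub (Nat.sub (Nat.add (Nat.add (Nat.add (Nat.add (Nat.add (Nat.add (Nat.add C x3205) x5149) x4501) x4717) x4681) x4657) x4665) (Nat.mul x4663 (nat_lit 2))) x2477)
    (Nat.sub (Nat.sub (Nat.add (Nat.add (Nat.add (Nat.add (Nat.add (Nat.add (Nat.add C x3207) x5151) x4503) x4719) x4683) x4659) x4663) (Nat.mul x4665 (nat_lit 2))) x2479)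
    (Nat.sub (Nat.add (Nat.add (Nat.add (Nat.add (Nat.add (Nat.add C x3215) x5159) x4511) x4727) x4655) x4675) (Nat.mul x4673 (nat_lit 2)))
    (Nat.sub (Nat.sub (Nat.add (Nat.add (Nat.add (Nat.add (Nat.add (Nat.add (Nat.add (Nat.add C x3217) x5161) x4513) x4729) x4657) x4681) x4673) x4677) (Nat.mul x4675 (nat_lit 3))) x2489)
    (Nat.sub (Nat.sub (Nat.add (Nat.add (Nat.add (Nat.add (Nat.add (Nat.add (Nat.add C x3219) x5163) x4515) x4731) x4659) x4683) x4675) (Nat.mul x4677 (nat_lit 6))) x2491)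
    (Nat.sub (Nat.sub (Nat.add (Nat.add (Nat.add (Nat.add (Nat.add (Nat.add (Nat.add C x3223) x5167) x4519) x4735) x4663) x4675) x4683) (Nat.mul x4681 (nat_lit 2))) x2495)
    (Nat.sub (Nat.sub (Nat.add (Nat.add (Nat.add (Nat.add (Nat.add (Nat.add (Nat.add (Nat.add C x3225) x5169) x4521) x4737) x4665) x4677) x4689) x4681) (Nat.mul x4683 (nat_lit 3))) x2497)
    (Nat.sub (Nat.sub (Nat.add (Nat.add (Nat.add (Nat.add (Nat.add C x3231) x5175) x4527) x4743) x4683) (Nat.mul x4689 (nat_lit 2))) x2503)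
    (Nat.add (Nat.add (Nat.add (Nat.add (Nat.add (Nat.add (Nat.add (Nat.add C x4703) x3245) x5189) x4541) x4865) x4649) x4709) x4705)
    (Nat.sub (Nat.sub (Nat.add (Nat.add (Nat.add (Nat.add (Nat.add (Nat.add (Nat.add C x3247) x5191) x4543) x4867) x4651) x4711) x4703) x4705) x2519)
    (Nat.sub (Nat.add (Nat.add (Nat.add (Nat.add (Nat.add (Nat.add (Nat.add (Nat.add C x3251) x5195) x4547) x4871) x4655) x4727) x4703) x4711) x4709)
    (Nat.sub (Nat.sub (Nat.add (Nat.add (Nat.add (Nat.add (Nat.add (Nat.add (Nat.add (Nat.add (Nat.add (Nat.add C x3253) x5197) x4549) x4873) x4657) x4729) x4705) x4717) x4709) x4713) x4711) x2525)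
    (Nat.sub (Nat.sub (Nat.add (Nat.add (Nat.add (Nat.add (Nat.add (Nat.add (Nat.add (Nat.add C x3255) x5199) x4551) x4875) x4659) x4731) x4719) x4711) (Nat.mul x4713 (nat_lit 3))) x2527)
    (Nat.sub (Nat.sub (Nat.add (Nat.add (Nat.add (Nat.add (Nat.add (Nat.add (Nat.add (Nat.add C x3259) x5203) x4555) x4879) x4663) x4735) x4711) x4719) (Nat.mul x4717 (nat_lit 3))) x2531)
    (Nat.sub (Nat.sub (Nat.add (Nat.add (Nat.add (Nat.add (Nat.add (Nat.add (Nat.add (Nat.add C x3261) x5205) x4557) x4881) x4665) x4737) x4713) x4717) (Nat.mul x4719 (nat_lit 3))) x2533)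
    (Nat.add (Nat.add (Nat.add (Nat.add (Nat.add (Nat.add (Nat.add (Nat.add C x3269) x5213) x4565) x4889) x4673) x4781) x4709) x4729)
    (Nat.sub (Nat.sub (Nat.add (Nat.add (Nat.add (Nat.add (Nat.add (Nat.add (Nat.add (Nat.add (Nat.add (Nat.add C x3271) x5215) x4567) x4891) x4675) x4783) x4711) x4735) x4727) x4731) x4729) x2543)
    (Nat.sub (Nat.sub (Nat.add (Nat.add (Nat.add (Nat.add (Nat.add (Nat.add (Nat.add (Nat.add (Nat.add C x3273) x5217) x4569) x4893) x4677) x4785) x4713) x4737) x4729) (Nat.mul x4731 (nat_lit 4))) x2545)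
    (Nat.sub (Nat.sub (Nat.add (Nat.add (Nat.add (Nat.add (Nat.add (Nat.add (Nat.add (Nat.add (Nat.add (Nat.add C x3277) x5221) x4573) x4897) x4681) x4789) x4717) x4753) x4729) x4737) x4735) x2549)
    (Nat.sub (Nat.sub (Nat.add (Nat.add (Nat.add (Nat.add (Nat.add (Nat.add (Nat.add (Nat.add (Nat.add (Nat.add (Nat.add C x3279) x5223) x4575) x4899) x4683) x4791) x4719) x4755) x4731) x4743) x4735) (Nat.mul x4737 (nat_lit 2))) x2551)
    (Nat.sub (Nat.sub (Nat.add (Nat.add (Nat.add (Nat.add (Nat.add (Nat.add (Nat.add (Nat.add C x3285) x5229) x4581) x4905) x4689) x4797) x4761) x4737) (Nat.mul x4743 (nat_lit 2))) x2557)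
    (Nat.sub (Nat.sub (Nat.add (Nat.add (Nat.add (Nat.add (Nat.add (Nat.add (Nat.add C x3295) x5239) x4591) x4915) x4807) x4735) x4755) x4753) x2567)
    (Nat.sub (Nat.sub (Nat.add (Nat.add (Nat.add (Nat.add (Nat.add (Nat.add (Nat.add (Nat.add C x3297) x5241) x4593) x4917) x4809) x4737) x4761) x4753) (Nat.mul x4755 (nat_lit 3))) x2569)
    (Nat.sub (Nat.sub (Nat.add (Nat.add (Nat.add (Nat.add (Nat.add (Nat.add (Nat.add C x3303) x5247) x4599) x4923) x4815) x4743) x4755) x4761) x2575)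
    (Nat.add (Nat.add (Nat.add (Nat.add (Nat.add C x3323) x5267) x4943) x4727) x4783)
    (Nat.sub (Nat.sub (Nat.add (Nat.add (Nat.add (Nat.add (Nat.add (Nat.add (Nat.add C x3325) x5269) x4945) x4729) x4789) x4781) x4785) x4783) x2597)
    (Nat.sub (Nat.sub (Nat.add (Nat.add (Nat.add (Nat.add (Nat.add (Nat.add C x3327) x5271) x4947) x4731) x4791) x4783) (Nat.mul x4785 (nat_lit 4))) x2599)
    (Nat.sub (Nat.sub (Nat.add (Nat.add (Nat.add (Nat.add (Nat.add (Nat.add (Nat.add C x3331) x5275) x4951) x4735) x4807) x4783) x4791) (Nat.mul x4789 (nat_lit 2))) x2603)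
    (Nat.sub (Nat.sub (Nat.add (Nat.add (Nat.add (Nat.add (Nat.add (Nat.add (Nat.add (Nat.add C x3333) x5277) x4953) x4737) x4809) x4785) x4797) x4789) (Nat.mul x4791 (nat_lit 3))) x2605)
    (Nat.sub (Nat.sub (Nat.add (Nat.add (Nat.add (Nat.add (Nat.add (Nat.add C x3339) x5283) x4959) x4743) x4815) x4791) (Nat.mul x4797 (nat_lit 4))) x2611)
    (Nat.sub (Nat.add (Nat.add (Nat.add (Nat.add (Nat.add (Nat.add C x3349) x5293) x4969) x4753) x4789) x4809) x2621)
    (Nat.sub (Nat.sub (Nat.add (Nat.add (Nat.add (Nat.add (Nat.add (Nat.add (Nat.add C x3351) x5295) x4971) x4755) x4791) x4815) x4807) (Nat.mul x4809 (nat_lit 2))) x2623)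
    (Nat.sub (Nat.sub (Nat.add (Nat.add (Nat.add (Nat.add (Nat.add (Nat.add (Nat.add C x3357) x5301) x4977) x4761) x4797) x4833) x4809) x4815) x2629)
    (Nat.sub (Nat.add (Nat.add (Nat.add (Nat.add C x3375) x5319) x4995) x4815) x2647)
    (Nat.add (Nat.add (Nat.add (Nat.add (Nat.add C x3407) x5351) x4703) x4871) x4867)
    (Nat.sub (Nat.sub (Nat.add (Nat.add (Nat.add (Nat.add (Nat.add C x3409) x5353) x4705) x4873) x4865) (Nat.mul x4867 (nat_lit 2))) x2681)
    (Nat.sub (Nat.add (Nat.add (Nat.add (Nat.add (Nat.add (Nat.add C x3413) x5357) x4709) x4889) x4865) x4873) (Nat.mul x4871 (nat_lit 2)))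
    (Nat.sub (Nat.sub (Nat.add (Nat.add (Nat.add (Nat.add (Nat.add (Nat.add (Nat.add (Nat.add C x3415) x5359) x4711) x4891) x4867) x4879) x4871) x4875) (Nat.mul x4873 (nat_lit 2))) x2687)
    (Nat.sub (Nat.sub (Nat.add (Nat.add (Nat.add (Nat.add (Nat.add (Nat.add C x3417) x5361) x4713) x4893) x4881) x4873) (Nat.mul x4875 (nat_lit 4))) x2689)
    (Nat.sub (Nat.sub (Nat.add (Nat.add (Nat.add (Nat.add (Nat.add (Nat.add C x3421) x5365) x4717) x4897) x4873) x4881) (Nat.mul x4879 (nat_lit 4))) x2693)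
    (Nat.sub (Nat.sub (Nat.add (Nat.add (Nat.add (Nat.add (Nat.add (Nat.add C x3423) x5367) x4719) x4899) x4875) x4879) (Nat.mul x4881 (nat_lit 4))) x2695)
    (Nat.sub (Nat.add (Nat.add (Nat.add (Nat.add (Nat.add (Nat.add C x3431) x5375) x4727) x4943) x4871) x4891) (Nat.mul x4889 (nat_lit 2)))
    (Nat.sub (Nat.sub (Nat.add (Nat.add (Nat.add (Nat.add (Nat.add (Nat.add (Nat.add (Nat.add C x3433) x5377) x4729) x4945) x4873) x4897) x4889) x4893) (Nat.mul x4891 (nat_lit 3))) x2705)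
    (Nat.sub (Nat.sub (Nat.add (Nat.add (Nat.add (Nat.add (Nat.add (Nat.add (Nat.add C x3435) x5379) x4731) x4947) x4875) x4899) x4891) (Nat.mul x4893 (nat_lit 6))) x2707)
    (Nat.sub (Nat.sub (Nat.add (Nat.add (Nat.add (Nat.add (Nat.add (Nat.add (Nat.add (Nat.add C x3439) x5383) x4735) x4951) x4879) x4915) x4891) x4899) (Nat.mul x4897 (nat_lit 3))) x2711)
    (Nat.sub (Nat.sub (Nat.add (Nat.add (Nat.add (Nat.add (Nat.add (Nat.add (Nat.add (Nat.add (Nat.add C x3441) x5385) x4737) x4953) x4881) x4917) x4893) x4905) x4897) (Nat.mul x4899 (nat_lit 4))) x2713)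
    (Nat.sub (Nat.sub (Nat.add (Nat.add (Nat.add (Nat.add (Nat.add (Nat.add C x3447) x5391) x4743) x4959) x4923) x4899) (Nat.mul x4905 (nat_lit 4))) x2719)
    (Nat.sub (Nat.sub (Nat.add (Nat.add (Nat.add (Nat.add (Nat.add (Nat.add C x3457) x5401) x4753) x4969) x4897) x4917) (Nat.mul x4915 (nat_lit 4))) x2729)
    (Nat.sub (Nat.sub (Nat.add (Nat.add (Nat.add (Nat.add (Nat.add (Nat.add (Nat.add C x3459) x5403) x4755) x4971) x4899) x4923) x4915) (Nat.mul x4917 (nat_lit 6))) x2731)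
    (Nat.sub (Nat.sub (Nat.add (Nat.add (Nat.add (Nat.add (Nat.add (Nat.add C x3465) x5409) x4761) x4977) x4905) x4917) (Nat.mul x4923 (nat_lit 4))) x2737)
    (Nat.add (Nat.add (Nat.add (Nat.add (Nat.add C x3485) x5429) x4781) x4889) x4945)
    (Nat.sub (Nat.sub (Nat.add (Nat.add (Nat.add (Nat.add (Nat.add (Nat.add (Nat.add C x3487) x5431) x4783) x4891) x4951) x4943) x4947) x4945) x2759)
    (Nat.sub (Nat.sub (Nat.add (Nat.add (Nat.add (Nat.add (Nat.add (Nat.add C x3489) x5433) x4785) x4893) x4953) x4945) (Nat.mul x4947 (nat_lit 4))) x2761)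
    (Nat.sub (Nat.sub (Nat.add (Nat.add (Nat.add (Nat.add (Nat.add (Nat.add (Nat.add C x3493) x5437) x4789) x4897) x4969) x4945) x4953) (Nat.mul x4951 (nat_lit 2))) x2765)
    (Nat.sub (Nat.sub (Nat.add (Nat.add (Nat.add (Nat.add (Nat.add (Nat.add (Nat.add (Nat.add C x3495) x5439) x4791) x4899) x4971) x4947) x4959) x4951) (Nat.mul x4953 (nat_lit 3))) x2767)
    (Nat.sub (Nat.sub (Nat.add (Nat.add (Nat.add (Nat.add (Nat.add (Nat.add C x3501) x5445) x4797) x4905) x4977) x4953) (Nat.mul x4959 (nat_lit 4))) x2773)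
    (Nat.sub (Nat.sub (Nat.add (Nat.add (Nat.add (Nat.add (Nat.add (Nat.add (Nat.add C x3511) x5455) x4807) x4915) x5023) x4951) x4971) x4969) x2783)
    (Nat.sub (Nat.sub (Nat.add (Nat.add (Nat.add (Nat.add (Nat.add (Nat.add (Nat.add (Nat.add C x3513) x5457) x4809) x4917) x5025) x4953) x4977) x4969) (Nat.mul x4971 (nat_lit 3))) x2785)
    (Nat.sub (Nat.sub (Nat.add (Nat.add (Nat.add (Nat.add (Nat.add (Nat.add (Nat.add (Nat.add C x3519) x5463) x4815) x4923) x5031) x4959) x4995) x4971) (Nat.mul x4977 (nat_lit 2))) x2791)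
    (Nat.sub (Nat.sub (Nat.add (Nat.add (Nat.add (Nat.add (Nat.add C x3537) x5481) x4833) x5049) x4977) (Nat.mul x4995 (nat_lit 2))) x2809)
    (Nat.sub (Nat.add (Nat.add (Nat.add (Nat.add C x3565) x5509) x4969) x5025) x2837)
    (Nat.sub (Nat.sub (Nat.add (Nat.add (Nat.add (Nat.add (Nat.add C x3567) x5511) x4971) x5031) x5023) (Nat.mul x5025 (nat_lit 2))) x2839)
    (Nat.sub (Nat.sub (Nat.add (Nat.add (Nat.add (Nat.add (Nat.add C x3573) x5517) x4977) x5049) x5025) (Nat.mul x5031 (nat_lit 2))) x2845)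
    (Nat.sub (Nat.add (Nat.add (Nat.add (Nat.add C x3591) x5535) x4995) x5031) x2863)
    (Nat.add (Nat.add (Nat.add (Nat.add C (Nat.mul x5111 (nat_lit 4))) x3653) x4625) x5117)
    (Nat.add (Nat.add (Nat.add (Nat.add (Nat.add (Nat.add (Nat.add C (Nat.mul x5117 (nat_lit 3))) x3659) x4631) x5135) x5111) x5123) x5119)
    (Nat.sub (Nat.add (Nat.add (Nat.add (Nat.add (Nat.add (Nat.add C (Nat.mul x5119 (nat_lit 2))) x3661) x4633) x5137) x5125) x5117) x2933)
    (Nat.add (Nat.add (Nat.add (Nat.add (Nat.add C x3665) x4637) x5141) x5117) x5125)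
    (Nat.sub (Nat.add (Nat.add (Nat.add (Nat.add (Nat.add (Nat.add (Nat.add C x5125) x3667) x4639) x5143) x5119) x5123) x5127) x2939)
    (Nat.sub (Nat.add (Nat.add (Nat.add (Nat.add C x3669) x4641) x5145) x5125) x2941)
    (Nat.add (Nat.add (Nat.add (Nat.add (Nat.add (Nat.add (Nat.add C (Nat.mul x5135 (nat_lit 2))) x3677) x4649) x5189) x5117) x5141) x5137)
    (Nat.sub (Nat.add (Nat.add (Nat.add (Nat.add (Nat.add (Nat.add C x3679) x4651) x5191) x5119) x5143) x5135) x2951)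
    (Nat.add (Nat.add (Nat.add (Nat.add (Nat.add (Nat.add (Nat.add (Nat.add C x5141) x3683) x4655) x5195) x5123) x5159) x5135) x5143)
    (Nat.sub (Nat.add (Nat.add (Nat.add (Nat.add (Nat.add (Nat.add (Nat.add (Nat.add (Nat.add (Nat.add C x5143) x3685) x4657) x5197) x5125) x5161) x5137) x5149) x5141) x5145) x2957)
    (Nat.sub (Nat.sub (Nat.add (Nat.add (Nat.add (Nat.add (Nat.add (Nat.add (Nat.add C x3687) x4659) x5199) x5127) x5163) x5151) x5143) x5145) x2959)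
    (Nat.sub (Nat.add (Nat.add (Nat.add (Nat.add (Nat.add (Nat.add C x3691) x4663) x5203) x5167) x5143) x5151) x2963)
    (Nat.sub (Nat.add (Nat.add (Nat.add (Nat.add (Nat.add (Nat.add C x3693) x4665) x5205) x5169) x5145) x5149) x2965)
    (Nat.add (Nat.add (Nat.add (Nat.add (Nat.add C x3701) x4673) x5213) x5141) x5161)
    (Nat.sub (Nat.sub (Nat.add (Nat.add (Nat.add (Nat.add (Nat.add (Nat.add (Nat.add C x3703) x4675) x5215) x5143) x5167) x5159) x5163) x5161) x2975)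
    (Nat.sub (Nat.sub (Nat.add (Nat.add (Nat.add (Nat.add (Nat.add (Nat.add C x3705) x4677) x5217) x5145) x5169) x5161) (Nat.mul x5163 (nat_lit 4))) x2977)
    (Nat.sub (Nat.add (Nat.add (Nat.add (Nat.add (Nat.add (Nat.add C x3709) x4681) x5221) x5149) x5161) x5169) x2981)
    (Nat.sub (Nat.sub (Nat.add (Nat.add (Nat.add (Nat.add (Nat.add (Nat.add (Nat.add C x3711) x4683) x5223) x5151) x5163) x5175) x5167) x5169) x2983)
    (Nat.sub (Nat.add (Nat.add (Nat.add (Nat.add C x3717) x4689) x5229) x5169) x2989)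
    (Nat.add (Nat.add (Nat.add (Nat.add (Nat.add (Nat.add (Nat.add C (Nat.mul x5189 (nat_lit 2))) x3731) x4703) x5351) x5135) x5195) x5191)
    (Nat.sub (Nat.add (Nat.add (Nat.add (Nat.add (Nat.add (Nat.add C x3733) x4705) x5353) x5137) x5197) x5189) x3005)
    (Nat.add (Nat.add (Nat.add (Nat.add (Nat.add (Nat.add (Nat.add C x3737) x4709) x5357) x5141) x5213) x5189) x5197)
    (Nat.sub (Nat.add (Nat.add (Nat.add (Nat.add (Nat.add (Nat.add (Nat.add (Nat.add (Nat.add C x3739) x4711) x5359) x5143) x5215) x5191) x5203) x5195) x5199) x3011)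
    (Nat.sub (Nat.sub (Nat.add (Nat.add (Nat.add (Nat.add (Nat.add (Nat.add (Nat.add C x3741) x4713) x5361) x5145) x5217) x5205) x5197) (Nat.mul x5199 (nat_lit 2))) x3013)
    (Nat.sub (Nat.sub (Nat.add (Nat.add (Nat.add (Nat.add (Nat.add (Nat.add (Nat.add C x3745) x4717) x5365) x5149) x5221) x5197) x5205) (Nat.mul x5203 (nat_lit 2))) x3017)
    (Nat.sub (Nat.sub (Nat.add (Nat.add (Nat.add (Nat.add (Nat.add (Nat.add (Nat.add C x3747) x4719) x5367) x5151) x5223) x5199) x5203) (Nat.mul x5205 (nat_lit 2))) x3019)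
    (Nat.add (Nat.add (Nat.add (Nat.add (Nat.add (Nat.add (Nat.add (Nat.add C x5213) x3755) x4727) x5375) x5159) x5267) x5195) x5215)
    (Nat.sub (Nat.add (Nat.add (Nat.add (Nat.add (Nat.add (Nat.add (Nat.add (Nat.add (Nat.add C x3757) x4729) x5377) x5161) x5269) x5197) x5221) x5213) x5217) x3029)
    (Nat.sub (Nat.sub (Nat.add (Nat.add (Nat.add (Nat.add (Nat.add (Nat.add (Nat.add (Nat.add C x3759) x4731) x5379) x5163) x5271) x5199) x5223) x5215) (Nat.mul x5217 (nat_lit 3))) x3031)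
    (Nat.sub (Nat.add (Nat.add (Nat.add (Nat.add (Nat.add (Nat.add (Nat.add (Nat.add (Nat.add C x3763) x4735) x5383) x5167) x5275) x5203) x5239) x5215) x5223) x3035)
    (Nat.sub (Nat.sub (Nat.add (Nat.add (Nat.add (Nat.add (Nat.add (Nat.add (Nat.add (Nat.add (Nat.add (Nat.add C x3765) x4737) x5385) x5169) x5277) x5205) x5241) x5217) x5229) x5221) x5223) x3037)
    (Nat.sub (Nat.sub (Nat.add (Nat.add (Nat.add (Nat.add (Nat.add (Nat.add (Nat.add C x3771) x4743) x5391) x5175) x5283) x5247) x5223) x5229) x3043)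
    (Nat.sub (Nat.add (Nat.add (Nat.add (Nat.add (Nat.add (Nat.add C x3781) x4753) x5401) x5293) x5221) x5241) x3053)
    (Nat.sub (Nat.sub (Nat.add (Nat.add (Nat.add (Nat.add (Nat.add (Nat.add (Nat.add C x3783) x4755) x5403) x5295) x5223) x5247) x5239) (Nat.mul x5241 (nat_lit 2))) x3055)
    (Nat.sub (Nat.add (Nat.add (Nat.add (Nat.add (Nat.add (Nat.add C x3789) x4761) x5409) x5301) x5229) x5241) x3061)
    (Nat.add (Nat.add (Nat.add (Nat.add (Nat.add C x3809) x4781) x5429) x5213) x5269)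
    (Nat.sub (Nat.sub (Nat.add (Nat.add (Nat.add (Nat.add (Nat.add (Nat.add (Nat.add C x3811) x4783) x5431) x5215) x5275) x5267) x5271) x5269) x3083)
    (Nat.sub (Nat.sub (Nat.add (Nat.add (Nat.add (Nat.add (Nat.add (Nat.add C x3813) x4785) x5433) x5217) x5277) x5269) (Nat.mul x5271 (nat_lit 4))) x3085)
    (Nat.sub (Nat.sub (Nat.add (Nat.add (Nat.add (Nat.add (Nat.add (Nat.add (Nat.add C x3817) x4789) x5437) x5221) x5293) x5269) x5277) (Nat.mul x5275 (nat_lit 2))) x3089)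
    (Nat.sub (Nat.sub (Nat.add (Nat.add (Nat.add (Nat.add (Nat.add (Nat.add (Nat.add (Nat.add C x3819) x4791) x5439) x5223) x5295) x5271) x5283) x5275) (Nat.mul x5277 (nat_lit 3))) x3091)
    (Nat.sub (Nat.sub (Nat.add (Nat.add (Nat.add (Nat.add (Nat.add (Nat.add C x3825) x4797) x5445) x5229) x5301) x5277) (Nat.mul x5283 (nat_lit 4))) x3097)
    (Nat.sub (Nat.add (Nat.add (Nat.add (Nat.add (Nat.add (Nat.add C x3835) x4807) x5455) x5239) x5275) x5295) x3107)
    (Nat.sub (Nat.sub (Nat.add (Nat.add (Nat.add (Nat.add (Nat.add (Nat.add (Nat.add C x3837) x4809) x5457) x5241) x5277) x5301) x5293) (Nat.mul x5295 (nat_lit 2))) x3109)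
    (Nat.sub (Nat.sub (Nat.add (Nat.add (Nat.add (Nat.add (Nat.add (Nat.add (Nat.add C x3843) x4815) x5463) x5247) x5283) x5319) x5295) x5301) x3115)
    (Nat.sub (Nat.add (Nat.add (Nat.add (Nat.add C x3861) x4833) x5481) x5301) x3133)
    (Nat.add (Nat.add (Nat.add (Nat.add (Nat.add (Nat.add (Nat.add C (Nat.mul x5351 (nat_lit 3))) x3893) x4865) x5837) x5189) x5357) x5353)
    (Nat.sub (Nat.add (Nat.add (Nat.add (Nat.add (Nat.add (Nat.add (Nat.add C x5353) x3895) x4867) x5839) x5191) x5359) x5351) x3167)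
    (Nat.add (Nat.add (Nat.add (Nat.add (Nat.add (Nat.add (Nat.add (Nat.add C x5357) x3899) x4871) x5843) x5195) x5375) x5351) x5359)
    (Nat.sub (Nat.add (Nat.add (Nat.add (Nat.add (Nat.add (Nat.add (Nat.add (Nat.add (Nat.add (Nat.add C x5359) x3901) x4873) x5845) x5197) x5377) x5353) x5365) x5357) x5361) x3173)
    (Nat.sub (Nat.sub (Nat.add (Nat.add (Nat.add (Nat.add (Nat.add (Nat.add (Nat.add C x3903) x4875) x5847) x5199) x5379) x5367) x5359) x5361) x3175)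
    (Nat.sub (Nat.sub (Nat.add (Nat.add (Nat.add (Nat.add (Nat.add (Nat.add (Nat.add C x3907) x4879) x5851) x5203) x5383) x5359) x5367) x5365) x3179)
    (Nat.sub (Nat.sub (Nat.add (Nat.add (Nat.add (Nat.add (Nat.add (Nat.add (Nat.add C x3909) x4881) x5853) x5205) x5385) x5361) x5365) x5367) x3181)
    (Nat.add (Nat.add (Nat.add (Nat.add (Nat.add (Nat.add (Nat.add (Nat.add C x5375) x3917) x4889) x5861) x5213) x5429) x5357) x5377)
    (Nat.sub (Nat.add (Nat.add (Nat.add (Nat.add (Nat.add (Nat.add (Nat.add (Nat.add (Nat.add C x3919) x4891) x5863) x5215) x5431) x5359) x5383) x5375) x5379) x3191)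
    (Nat.sub (Nat.sub (Nat.add (Nat.add (Nat.add (Nat.add (Nat.add (Nat.add (Nat.add (Nat.add C x3921) x4893) x5865) x5217) x5433) x5361) x5385) x5377) (Nat.mul x5379 (nat_lit 3))) x3193)
    (Nat.sub (Nat.add (Nat.add (Nat.add (Nat.add (Nat.add (Nat.add (Nat.add (Nat.add (Nat.add C x3925) x4897) x5869) x5221) x5437) x5365) x5401) x5377) x5385) x3197)
    (Nat.sub (Nat.sub (Nat.add (Nat.add (Nat.add (Nat.add (Nat.add (Nat.add (Nat.add (Nat.add (Nat.add (Nat.add C x3927) x4899) x5871) x5223) x5439) x5367) x5403) x5379) x5391) x5383) x5385) x3199)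
    (Nat.sub (Nat.sub (Nat.add (Nat.add (Nat.add (Nat.add (Nat.add (Nat.add (Nat.add C x3933) x4905) x5877) x5229) x5445) x5409) x5385) x5391) x3205)
    (Nat.sub (Nat.sub (Nat.add (Nat.add (Nat.add (Nat.add (Nat.add (Nat.add (Nat.add C x3943) x4915) x5887) x5239) x5455) x5383) x5403) x5401) x3215)
    (Nat.sub (Nat.sub (Nat.add (Nat.add (Nat.add (Nat.add (Nat.add (Nat.add (Nat.add (Nat.add C x3945) x4917) x5889) x5241) x5457) x5385) x5409) x5401) (Nat.mul x5403 (nat_lit 3))) x3217)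
    (Nat.sub (Nat.sub (Nat.add (Nat.add (Nat.add (Nat.add (Nat.add (Nat.add (Nat.add C x3951) x4923) x5895) x5247) x5463) x5391) x5403) x5409) x3223)
    (Nat.add (Nat.add (Nat.add (Nat.add (Nat.add (Nat.add (Nat.add (Nat.add C (Nat.mul x5429 (nat_lit 2))) x3971) x4943) x5915) x5267) x5591) x5375) x5431)
    (Nat.sub (Nat.add (Nat.add (Nat.add (Nat.add (Nat.add (Nat.add (Nat.add (Nat.add (Nat.add (Nat.add C x5431) x3973) x4945) x5917) x5269) x5593) x5377) x5437) x5429) x5433) x3245)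
    (Nat.sub (Nat.sub (Nat.add (Nat.add (Nat.add (Nat.add (Nat.add (Nat.add (Nat.add (Nat.add C x3975) x4947) x5919) x5271) x5595) x5379) x5439) x5431) (Nat.mul x5433 (nat_lit 2))) x3247)
    (Nat.sub (Nat.add (Nat.add (Nat.add (Nat.add (Nat.add (Nat.add (Nat.add (Nat.add (Nat.add C x3979) x4951) x5923) x5275) x5599) x5383) x5455) x5431) x5439) x3251)
    (Nat.sub (Nat.sub (Nat.add (Nat.add (Nat.add (Nat.add (Nat.add (Nat.add (Nat.add (Nat.add (Nat.add (Nat.add C x3981) x4953) x5925) x5277) x5601) x5385) x5457) x5433) x5445) x5437) x5439) x3253)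
    (Nat.sub (Nat.sub (Nat.add (Nat.add (Nat.add (Nat.add (Nat.add (Nat.add (Nat.add (Nat.add C x3987) x4959) x5931) x5283) x5607) x5391) x5463) x5439) (Nat.mul x5445 (nat_lit 2))) x3259)
    (Nat.sub (Nat.add (Nat.add (Nat.add (Nat.add (Nat.add (Nat.add (Nat.add (Nat.add (Nat.add (Nat.add C x5455) x3997) x4969) x5941) x5293) x5617) x5401) x5509) x5437) x5457) x3269)
    (Nat.sub (Nat.sub (Nat.add (Nat.add (Nat.add (Nat.add (Nat.add (Nat.add (Nat.add (Nat.add (Nat.add (Nat.add C x3999) x4971) x5943) x5295) x5619) x5403) x5511) x5439) x5463) x5455) x5457) x3271)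
    (Nat.sub (Nat.add (Nat.add (Nat.add (Nat.add (Nat.add (Nat.add (Nat.add (Nat.add (Nat.add (Nat.add C x4005) x4977) x5949) x5301) x5625) x5409) x5517) x5445) x5481) x5457) x3277)
    (Nat.sub (Nat.add (Nat.add (Nat.add (Nat.add (Nat.add (Nat.add (Nat.add C x4023) x4995) x5967) x5319) x5643) x5535) x5463) x3295)
    (Nat.sub (Nat.add (Nat.add (Nat.add (Nat.add (Nat.add (Nat.add (Nat.add C x5509) x4051) x5023) x5995) x5671) x5455) x5511) x3323)
    (Nat.sub (Nat.sub (Nat.add (Nat.add (Nat.add (Nat.add (Nat.add (Nat.add (Nat.add C x4053) x5025) x5997) x5673) x5457) x5517) x5509) x5511) x3325)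
    (Nat.sub (Nat.sub (Nat.add (Nat.add (Nat.add (Nat.add (Nat.add (Nat.add (Nat.add C x4059) x5031) x6003) x5679) x5463) x5535) x5511) x5517) x3331)
    (Nat.sub (Nat.add (Nat.add (Nat.add (Nat.add (Nat.add (Nat.add (Nat.add C x5535) x4077) x5049) x6021) x5697) x5481) x5517) x3349)
    (Nat.add (Nat.add (Nat.add (Nat.add (Nat.add C (Nat.mul x5591 (nat_lit 2))) x4133) x6077) x5429) x5593)
    (Nat.sub (Nat.add (Nat.add (Nat.add (Nat.add (Nat.add (Nat.add (Nat.add C x5593) x4135) x6079) x5431) x5599) x5591) x5595) x3407)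
    (Nat.sub (Nat.sub (Nat.add (Nat.add (Nat.add (Nat.add (Nat.add C x4137) x6081) x5433) x5601) x5593) (Nat.mul x5595 (nat_lit 2))) x3409)
    (Nat.sub (Nat.add (Nat.add (Nat.add (Nat.add (Nat.add (Nat.add C x4141) x6085) x5437) x5617) x5593) x5601) x3413)
    (Nat.sub (Nat.sub (Nat.add (Nat.add (Nat.add (Nat.add (Nat.add (Nat.add (Nat.add C x4143) x6087) x5439) x5619) x5595) x5607) x5599) x5601) x3415)
    (Nat.sub (Nat.sub (Nat.add (Nat.add (Nat.add (Nat.add (Nat.add C x4149) x6093) x5445) x5625) x5601) (Nat.mul x5607 (nat_lit 2))) x3421)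
    (Nat.sub (Nat.add (Nat.add (Nat.add (Nat.add (Nat.add (Nat.add C x4159) x6103) x5455) x5671) x5599) x5619) x3431)
    (Nat.sub (Nat.sub (Nat.add (Nat.add (Nat.add (Nat.add (Nat.add (Nat.add (Nat.add C x4161) x6105) x5457) x5673) x5601) x5625) x5617) (Nat.mul x5619 (nat_lit 2))) x3433)
    (Nat.sub (Nat.sub (Nat.add (Nat.add (Nat.add (Nat.add (Nat.add (Nat.add (Nat.add C x4167) x6111) x5463) x5679) x5607) x5643) x5619) x5625) x3439)
    (Nat.sub (Nat.sub (Nat.add (Nat.add (Nat.add (Nat.add (Nat.add C x4185) x6129) x5481) x5697) x5625) (Nat.mul x5643 (nat_lit 2))) x3457)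
    (Nat.sub (Nat.add (Nat.add (Nat.add (Nat.add (Nat.add (Nat.add C (Nat.mul x5671 (nat_lit 2))) x4213) x6157) x5509) x5617) x5673) x3485)
    (Nat.sub (Nat.add (Nat.add (Nat.add (Nat.add (Nat.add (Nat.add C x4215) x6159) x5511) x5619) x5679) x5671) x3487)
    (Nat.sub (Nat.add (Nat.add (Nat.add (Nat.add (Nat.add (Nat.add C x4221) x6165) x5517) x5625) x5697) x5673) x3493)
    (Nat.sub (Nat.add (Nat.add (Nat.add (Nat.add (Nat.add (Nat.add (Nat.add C x5697) x4239) x6183) x5535) x5643) x5751) x5679) x3511)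
    (Nat.sub (Nat.add (Nat.add (Nat.add (Nat.add C (Nat.mul x5751 (nat_lit 2))) x4293) x6237) x5697) x3565)
    (Nat.add (Nat.add (Nat.add (Nat.add C (Nat.mul x5837 (nat_lit 4))) x5351) x5843) x5839)
    (Nat.sub (Nat.add (Nat.add (Nat.add (Nat.add C (Nat.mul x5839 (nat_lit 2))) x5353) x5845) x5837) x3653)
    (Nat.add (Nat.add (Nat.add (Nat.add (Nat.add C (Nat.mul x5843 (nat_lit 2))) x5357) x5861) x5837) x5845)
    (Nat.sub (Nat.add (Nat.add (Nat.add (Nat.add (Nat.add (Nat.add (Nat.add C (Nat.mul x5845 (nat_lit 2))) x5359) x5863) x5839) x5851) x5843) x5847) x3659)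
    (Nat.sub (Nat.add (Nat.add (Nat.add (Nat.add C x5361) x5865) x5853) x5845) x3661)
    (Nat.sub (Nat.add (Nat.add (Nat.add (Nat.add C x5365) x5869) x5845) x5853) x3665)
    (Nat.sub (Nat.add (Nat.add (Nat.add (Nat.add C x5367) x5871) x5847) x5851) x3667)
    (Nat.add (Nat.add (Nat.add (Nat.add (Nat.add C (Nat.mul x5861 (nat_lit 2))) x5375) x5915) x5843) x5863)
    (Nat.sub (Nat.add (Nat.add (Nat.add (Nat.add (Nat.add (Nat.add (Nat.add C x5863) x5377) x5917) x5845) x5869) x5861) x5865) x3677)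
    (Nat.sub (Nat.sub (Nat.add (Nat.add (Nat.add (Nat.add (Nat.add C x5379) x5919) x5847) x5871) x5863) (Nat.mul x5865 (nat_lit 2))) x3679)
    (Nat.sub (Nat.add (Nat.add (Nat.add (Nat.add (Nat.add (Nat.add (Nat.add C x5869) x5383) x5923) x5851) x5887) x5863) x5871) x3683)
    (Nat.sub (Nat.add (Nat.add (Nat.add (Nat.add (Nat.add (Nat.add (Nat.add C x5385) x5925) x5853) x5889) x5865) x5877) x5869) x3685)
    (Nat.sub (Nat.add (Nat.add (Nat.add (Nat.add C x5391) x5931) x5895) x5871) x3691)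
    (Nat.sub (Nat.add (Nat.add (Nat.add (Nat.add C x5401) x5941) x5869) x5889) x3701)
    (Nat.sub (Nat.sub (Nat.add (Nat.add (Nat.add (Nat.add (Nat.add C x5403) x5943) x5871) x5895) x5887) (Nat.mul x5889 (nat_lit 2))) x3703)
    (Nat.sub (Nat.add (Nat.add (Nat.add (Nat.add C x5409) x5949) x5877) x5889) x3709)
    (Nat.add (Nat.add (Nat.add (Nat.add (Nat.add C (Nat.mul x5915 (nat_lit 2))) x5429) x6077) x5861) x5917)
    (Nat.sub (Nat.add (Nat.add (Nat.add (Nat.add (Nat.add (Nat.add (Nat.add C x5917) x5431) x6079) x5863) x5923) x5915) x5919) x3731)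
    (Nat.sub (Nat.sub (Nat.add (Nat.add (Nat.add (Nat.add (Nat.add C x5433) x6081) x5865) x5925) x5917) (Nat.mul x5919 (nat_lit 2))) x3733)
    (Nat.sub (Nat.add (Nat.add (Nat.add (Nat.add (Nat.add (Nat.add C x5437) x6085) x5869) x5941) x5917) x5925) x3737)
    (Nat.sub (Nat.sub (Nat.add (Nat.add (Nat.add (Nat.add (Nat.add (Nat.add (Nat.add C x5439) x6087) x5871) x5943) x5919) x5931) x5923) x5925) x3739)
    (Nat.sub (Nat.sub (Nat.add (Nat.add (Nat.add (Nat.add (Nat.add C x5445) x6093) x5877) x5949) x5925) (Nat.mul x5931 (nat_lit 2))) x3745)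
    (Nat.sub (Nat.add (Nat.add (Nat.add (Nat.add (Nat.add (Nat.add (Nat.add C x5941) x5455) x6103) x5887) x5995) x5923) x5943) x3755)
    (Nat.sub (Nat.sub (Nat.add (Nat.add (Nat.add (Nat.add (Nat.add (Nat.add (Nat.add C x5457) x6105) x5889) x5997) x5925) x5949) x5941) x5943) x3757)
    (Nat.sub (Nat.add (Nat.add (Nat.add (Nat.add (Nat.add (Nat.add (Nat.add C x5463) x6111) x5895) x6003) x5931) x5967) x5943) x3763)
    (Nat.sub (Nat.add (Nat.add (Nat.add (Nat.add C x5481) x6129) x6021) x5949) x3781)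
    (Nat.sub (Nat.add (Nat.add (Nat.add (Nat.add C x5509) x6157) x5941) x5997) x3809)
    (Nat.sub (Nat.sub (Nat.add (Nat.add (Nat.add (Nat.add (Nat.add C x5511) x6159) x5943) x6003) x5995) (Nat.mul x5997 (nat_lit 2))) x3811)
    (Nat.sub (Nat.sub (Nat.add (Nat.add (Nat.add (Nat.add (Nat.add C x5517) x6165) x5949) x6021) x5997) (Nat.mul x6003 (nat_lit 2))) x3817)
    (Nat.sub (Nat.add (Nat.add (Nat.add (Nat.add C x5535) x6183) x5967) x6003) x3835)
    (Nat.add (Nat.add (Nat.add (Nat.add C (Nat.mul x6077 (nat_lit 4))) x5591) x5915) x6079)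
    (Nat.sub (Nat.add (Nat.add (Nat.add (Nat.add (Nat.add (Nat.add C (Nat.mul x6079 (nat_lit 3))) x5593) x5917) x6085) x6077) x6081) x3893)
    (Nat.sub (Nat.add (Nat.add (Nat.add (Nat.add C x5595) x5919) x6087) x6079) x3895)
    (Nat.sub (Nat.add (Nat.add (Nat.add (Nat.add (Nat.add (Nat.add C (Nat.mul x6085 (nat_lit 2))) x5599) x5923) x6103) x6079) x6087) x3899)
    (Nat.sub (Nat.add (Nat.add (Nat.add (Nat.add (Nat.add (Nat.add (Nat.add C x6087) x5601) x5925) x6105) x6081) x6093) x6085) x3901)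
    (Nat.sub (Nat.add (Nat.add (Nat.add (Nat.add C x5607) x5931) x6111) x6087) x3907)
    (Nat.sub (Nat.add (Nat.add (Nat.add (Nat.add (Nat.add (Nat.add C (Nat.mul x6103 (nat_lit 2))) x5617) x5941) x6157) x6085) x6105) x3917)
    (Nat.sub (Nat.add (Nat.add (Nat.add (Nat.add (Nat.add (Nat.add C x5619) x5943) x6159) x6087) x6111) x6103) x3919)
    (Nat.sub (Nat.add (Nat.add (Nat.add (Nat.add (Nat.add (Nat.add (Nat.add C x6111) x5625) x5949) x6165) x6093) x6129) x6105) x3925)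
    (Nat.sub (Nat.add (Nat.add (Nat.add (Nat.add C x5643) x5967) x6183) x6111) x3943)
    (Nat.sub (Nat.add (Nat.add (Nat.add (Nat.add (Nat.add (Nat.add C (Nat.mul x6157 (nat_lit 3))) x5671) x5995) x6319) x6103) x6159) x3971)
    (Nat.sub (Nat.add (Nat.add (Nat.add (Nat.add (Nat.add (Nat.add (Nat.add C x6159) x5673) x5997) x6321) x6105) x6165) x6157) x3973)
    (Nat.sub (Nat.add (Nat.add (Nat.add (Nat.add (Nat.add (Nat.add (Nat.add C x6165) x5679) x6003) x6327) x6111) x6183) x6159) x3979)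
    (Nat.sub (Nat.add (Nat.add (Nat.add (Nat.add (Nat.add (Nat.add (Nat.add C (Nat.mul x6183 (nat_lit 2))) x5697) x6021) x6345) x6129) x6237) x6165) x3997)
    (Nat.sub (Nat.add (Nat.add (Nat.add (Nat.add C (Nat.mul x6237 (nat_lit 2))) x5751) x6399) x6183) x4051)
    (Nat.sub (Nat.add (Nat.add (Nat.add C (Nat.mul x6319 (nat_lit 4))) x6157) x6321) x4133)
    (Nat.sub (Nat.add (Nat.add (Nat.add (Nat.add C (Nat.mul x6321 (nat_lit 2))) x6159) x6327) x6319) x4135)
    (Nat.sub (Nat.add (Nat.add (Nat.add (Nat.add C (Nat.mul x6327 (nat_lit 2))) x6165) x6345) x6321) x4141)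
    (Nat.sub (Nat.add (Nat.add (Nat.add (Nat.add C (Nat.mul x6345 (nat_lit 2))) x6183) x6399) x6327) x4159)
    (Nat.sub (Nat.add (Nat.add (Nat.add C (Nat.mul x6399 (nat_lit 4))) x6237) x6345) x4213)

theorem ap_eq (x : Nat → Nat) (k : FnLL specs) : apLL (fun t => x t.cd) specs k = A8_7.ap x k :=
  Eq.refl (A8_7.ap x k)

theorem step_eq0 (e : Nat → Nat) (C p r : Nat) (k : FnLL specs) (x : Nat → Nat) :
    A8_7.ap x (step e C p r k) = apLL (interp e C p r x) specs k :=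
  Eq.refl (A8_7.ap x (step e C p r k))

theorem spec_ok : specOK 7 true A8_7.mask specs = true := by decide +kernel

theorem step_eq (e : Nat → Nat) (C p r : Nat) (k : A8_7.KK) (x : Nat → Nat) :
    A8_7.ap x (step e C p r k) = A8_7.ap (row 7 true A8_7.mask e C p r x) k :=
  ((step_eq0 e C p r k x).trans (apLL_row 7 true A8_7.mask specs spec_ok e C p r x k)).trans
    (ap_eq (row 7 true A8_7.mask e C p r x) k)

end Vale.Agent.P348.G8_7_1

namespace Vale.Agent.P348.G8_8_1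

noncomputable def sp0 : List Spec :=
  [Spec.mk (nat_lit 80) (nat_lit 4) [nat_lit 134] (nat_lit 0) [nat_lit 2266] true,
   Spec.mk (nat_lit 134) (nat_lit 3) [nat_lit 296, nat_lit 80, nat_lit 188, nat_lit 152] (nat_lit 0) [nat_lit 2320] true,
   Spec.mk (nat_lit 152) (nat_lit 2) [nat_lit 314, nat_lit 206, nat_lit 134, nat_lit 158] (nat_lit 0) [nat_lit 2338] true,
   Spec.mk (nat_lit 158) (nat_lit 2) [nat_lit 320, nat_lit 212, nat_lit 152, nat_lit 160] (nat_lit 0) [nat_lit 2344] true,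
   Spec.mk (nat_lit 160) (nat_lit 4) [nat_lit 322, nat_lit 214, nat_lit 158] (nat_lit 0) [nat_lit 2346] true,
   Spec.mk (nat_lit 188) (nat_lit 0) [nat_lit 350, nat_lit 134, nat_lit 206] (nat_lit 0) [nat_lit 2374] true,
   Spec.mk (nat_lit 206) (nat_lit 1) [nat_lit 368, nat_lit 152, nat_lit 188, nat_lit 224, nat_lit 212] (nat_lit 0) [nat_lit 2392] true,
   Spec.mk (nat_lit 212) (nat_lit 0) [nat_lit 374, nat_lit 158, nat_lit 230, nat_lit 206, nat_lit 214] (nat_lit 0) [nat_lit 2398] true,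
   Spec.mk (nat_lit 214) (nat_lit 2) [nat_lit 376, nat_lit 160, nat_lit 232, nat_lit 212] (nat_lit 0) [nat_lit 2400] false,
   Spec.mk (nat_lit 224) (nat_lit 0) [nat_lit 386, nat_lit 206, nat_lit 230] (nat_lit 0) [nat_lit 2410] true,
   Spec.mk (nat_lit 230) (nat_lit 1) [nat_lit 392, nat_lit 212, nat_lit 224, nat_lit 236, nat_lit 232] (nat_lit 0) [nat_lit 2416] false,
   Spec.mk (nat_lit 232) (nat_lit 2) [nat_lit 394, nat_lit 214, nat_lit 238, nat_lit 230] (nat_lit 0) [nat_lit 2418] false,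
   Spec.mk (nat_lit 236) (nat_lit 0) [nat_lit 398, nat_lit 230, nat_lit 238] (nat_lit 0) [nat_lit 2422] false,
   Spec.mk (nat_lit 238) (nat_lit 3) [nat_lit 400, nat_lit 232, nat_lit 236, nat_lit 240] (nat_lit 0) [nat_lit 2424] false,
   Spec.mk (nat_lit 240) (nat_lit 4) [nat_lit 402, nat_lit 238] (nat_lit 0) [] false,
   Spec.mk (nat_lit 296) (nat_lit 2) [nat_lit 782, nat_lit 134, nat_lit 350, nat_lit 314] (nat_lit 0) [nat_lit 2482] false,
   Spec.mk (nat_lit 314) (nat_lit 0) [nat_lit 800, nat_lit 152, nat_lit 368, nat_lit 296, nat_lit 320] (nat_lit 0) [nat_lit 2500] true,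
   Spec.mk (nat_lit 320) (nat_lit 0) [nat_lit 806, nat_lit 158, nat_lit 374, nat_lit 314, nat_lit 322] (nat_lit 0) [nat_lit 2506] true,
   Spec.mk (nat_lit 322) (nat_lit 2) [nat_lit 808, nat_lit 160, nat_lit 376, nat_lit 320] (nat_lit 0) [nat_lit 2508] false,
   Spec.mk (nat_lit 350) (nat_lit 1) [nat_lit 836, nat_lit 188, nat_lit 512, nat_lit 296, nat_lit 368] (nat_lit 0) [nat_lit 2536] false,
   Spec.mk (nat_lit 368) (nat_lit 1) [nat_lit 854, nat_lit 206, nat_lit 530, nat_lit 314, nat_lit 422, nat_lit 350, nat_lit 386, nat_lit 374] (nat_lit 0) [nat_lit 2554] true,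
   Spec.mk (nat_lit 374) (nat_lit 0) [nat_lit 860, nat_lit 212, nat_lit 536, nat_lit 320, nat_lit 428, nat_lit 392, nat_lit 368, nat_lit 376] (nat_lit 0) [nat_lit 2560] true,
   Spec.mk (nat_lit 376) (nat_lit 2) [nat_lit 862, nat_lit 214, nat_lit 538, nat_lit 322, nat_lit 430, nat_lit 394, nat_lit 374] (nat_lit 0) [nat_lit 2562] true,
   Spec.mk (nat_lit 386) (nat_lit 0) [nat_lit 872, nat_lit 224, nat_lit 548, nat_lit 440, nat_lit 368, nat_lit 392] (nat_lit 1) [nat_lit 2572] true,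
   Spec.mk (nat_lit 392) (nat_lit 0) [nat_lit 878, nat_lit 230, nat_lit 554, nat_lit 446, nat_lit 374, nat_lit 386, nat_lit 398, nat_lit 394] (nat_lit 0) [nat_lit 2578] true,
   Spec.mk (nat_lit 394) (nat_lit 1) [nat_lit 880, nat_lit 232, nat_lit 556, nat_lit 448, nat_lit 376, nat_lit 400, nat_lit 392] (nat_lit 0) [nat_lit 2580] true,
   Spec.mk (nat_lit 398) (nat_lit 0) [nat_lit 884, nat_lit 236, nat_lit 560, nat_lit 452, nat_lit 392, nat_lit 400] (nat_lit 1) [nat_lit 2584] true,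
   Spec.mk (nat_lit 400) (nat_lit 2) [nat_lit 886, nat_lit 238, nat_lit 562, nat_lit 454, nat_lit 394, nat_lit 398, nat_lit 402] (nat_lit 0) [nat_lit 2586] true,
   Spec.mk (nat_lit 402) (nat_lit 3) [nat_lit 888, nat_lit 240, nat_lit 564, nat_lit 456, nat_lit 400] (nat_lit 0) [] false,
   Spec.mk (nat_lit 422) (nat_lit 0) [nat_lit 908, nat_lit 584, nat_lit 368, nat_lit 440, nat_lit 428] (nat_lit 0) [nat_lit 2608] true,
   Spec.mk (nat_lit 428) (nat_lit 0) [nat_lit 914, nat_lit 590, nat_lit 374, nat_lit 446, nat_lit 422, nat_lit 430] (nat_lit 2) [nat_lit 2614] true,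
   Spec.mk (nat_lit 430) (nat_lit 0) [nat_lit 916, nat_lit 592, nat_lit 376, nat_lit 448, nat_lit 428] (nat_lit 0) [nat_lit 2616] true,
   Spec.mk (nat_lit 440) (nat_lit 0) [nat_lit 926, nat_lit 602, nat_lit 386, nat_lit 422, nat_lit 446] (nat_lit 0) [nat_lit 2626] true,
   Spec.mk (nat_lit 446) (nat_lit 0) [nat_lit 932, nat_lit 608, nat_lit 392, nat_lit 428, nat_lit 464, nat_lit 440, nat_lit 452, nat_lit 448] (nat_lit 0) [nat_lit 2632] true,
   Spec.mk (nat_lit 448) (nat_lit 1) [nat_lit 934, nat_lit 610, nat_lit 394, nat_lit 430, nat_lit 466, nat_lit 454, nat_lit 446] (nat_lit 0) [nat_lit 2634] true,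
   Spec.mk (nat_lit 452) (nat_lit 0) [nat_lit 938, nat_lit 614, nat_lit 398, nat_lit 470, nat_lit 446, nat_lit 454] (nat_lit 2) [nat_lit 2638] true,
   Spec.mk (nat_lit 454) (nat_lit 1) [nat_lit 940, nat_lit 616, nat_lit 400, nat_lit 472, nat_lit 448, nat_lit 452, nat_lit 456] (nat_lit 0) [nat_lit 2640] false,
   Spec.mk (nat_lit 456) (nat_lit 2) [nat_lit 942, nat_lit 618, nat_lit 402, nat_lit 474, nat_lit 454] (nat_lit 0) [] false,
   Spec.mk (nat_lit 464) (nat_lit 0) [nat_lit 950, nat_lit 626, nat_lit 446, nat_lit 470, nat_lit 466] (nat_lit 0) [nat_lit 2650] true,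
   Spec.mk (nat_lit 466) (nat_lit 0) [nat_lit 952, nat_lit 628, nat_lit 448, nat_lit 472, nat_lit 464] (nat_lit 0) [nat_lit 2652] false,
   Spec.mk (nat_lit 470) (nat_lit 0) [nat_lit 956, nat_lit 632, nat_lit 452, nat_lit 464, nat_lit 472] (nat_lit 0) [nat_lit 2656] false,
   Spec.mk (nat_lit 472) (nat_lit 2) [nat_lit 958, nat_lit 634, nat_lit 454, nat_lit 466, nat_lit 478, nat_lit 470, nat_lit 474] (nat_lit 0) [nat_lit 2658] false,
   Spec.mk (nat_lit 474) (nat_lit 2) [nat_lit 960, nat_lit 636, nat_lit 456, nat_lit 480, nat_lit 472] (nat_lit 0) [] false,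
   Spec.mk (nat_lit 478) (nat_lit 2) [nat_lit 964, nat_lit 640, nat_lit 472, nat_lit 480] (nat_lit 0) [nat_lit 2664] false,
   Spec.mk (nat_lit 480) (nat_lit 4) [nat_lit 966, nat_lit 642, nat_lit 474, nat_lit 478] (nat_lit 0) [] false,
   Spec.mk (nat_lit 512) (nat_lit 0) [nat_lit 998, nat_lit 350, nat_lit 530] (nat_lit 0) [nat_lit 2698] false,
   Spec.mk (nat_lit 530) (nat_lit 0) [nat_lit 1016, nat_lit 368, nat_lit 584, nat_lit 512, nat_lit 548, nat_lit 536] (nat_lit 1) [nat_lit 2716] false,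
   Spec.mk (nat_lit 536) (nat_lit 0) [nat_lit 1022, nat_lit 374, nat_lit 590, nat_lit 554, nat_lit 530, nat_lit 538] (nat_lit 2) [nat_lit 2722] true,
   Spec.mk (nat_lit 538) (nat_lit 0) [nat_lit 1024, nat_lit 376, nat_lit 592, nat_lit 556, nat_lit 536] (nat_lit 0) [nat_lit 2724] false,
   Spec.mk (nat_lit 548) (nat_lit 0) [nat_lit 1034, nat_lit 386, nat_lit 602, nat_lit 530, nat_lit 554] (nat_lit 4) [nat_lit 2734] true,
   Spec.mk (nat_lit 554) (nat_lit 0) [nat_lit 1040, nat_lit 392, nat_lit 608, nat_lit 536, nat_lit 548, nat_lit 560, nat_lit 556] (nat_lit 3) [nat_lit 2740] true,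
   Spec.mk (nat_lit 556) (nat_lit 0) [nat_lit 1042, nat_lit 394, nat_lit 610, nat_lit 538, nat_lit 562, nat_lit 554] (nat_lit 2) [nat_lit 2742] false,
   Spec.mk (nat_lit 560) (nat_lit 0) [nat_lit 1046, nat_lit 398, nat_lit 614, nat_lit 554, nat_lit 562] (nat_lit 4) [nat_lit 2746] true,
   Spec.mk (nat_lit 562) (nat_lit 0) [nat_lit 1048, nat_lit 400, nat_lit 616, nat_lit 556, nat_lit 560, nat_lit 564] (nat_lit 1) [nat_lit 2748] false,
   Spec.mk (nat_lit 564) (nat_lit 0) [nat_lit 1050, nat_lit 402, nat_lit 618, nat_lit 562] (nat_lit 0) [] false,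
   Spec.mk (nat_lit 584) (nat_lit 0) [nat_lit 1070, nat_lit 422, nat_lit 530, nat_lit 602, nat_lit 590] (nat_lit 0) [nat_lit 2770] false,
   Spec.mk (nat_lit 590) (nat_lit 0) [nat_lit 1076, nat_lit 428, nat_lit 536, nat_lit 608, nat_lit 584, nat_lit 592] (nat_lit 2) [nat_lit 2776] true,
   Spec.mk (nat_lit 592) (nat_lit 0) [nat_lit 1078, nat_lit 430, nat_lit 538, nat_lit 610, nat_lit 590] (nat_lit 0) [nat_lit 2778] false,
   Spec.mk (nat_lit 602) (nat_lit 0) [nat_lit 1088, nat_lit 440, nat_lit 548, nat_lit 656, nat_lit 584, nat_lit 608] (nat_lit 1) [nat_lit 2788] true,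
   Spec.mk (nat_lit 608) (nat_lit 0) [nat_lit 1094, nat_lit 446, nat_lit 554, nat_lit 662, nat_lit 590, nat_lit 626, nat_lit 602, nat_lit 614, nat_lit 610] (nat_lit 1) [nat_lit 2794] true]

noncomputable def sp1 : List Spec :=
  [Spec.mk (nat_lit 610) (nat_lit 0) [nat_lit 1096, nat_lit 448, nat_lit 556, nat_lit 664, nat_lit 592, nat_lit 628, nat_lit 616, nat_lit 608] (nat_lit 0) [nat_lit 2796] false,
   Spec.mk (nat_lit 614) (nat_lit 0) [nat_lit 1100, nat_lit 452, nat_lit 560, nat_lit 668, nat_lit 632, nat_lit 608, nat_lit 616] (nat_lit 3) [nat_lit 2800] false,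
   Spec.mk (nat_lit 616) (nat_lit 0) [nat_lit 1102, nat_lit 454, nat_lit 562, nat_lit 670, nat_lit 634, nat_lit 610, nat_lit 614, nat_lit 618] (nat_lit 0) [nat_lit 2802] false,
   Spec.mk (nat_lit 618) (nat_lit 1) [nat_lit 1104, nat_lit 456, nat_lit 564, nat_lit 672, nat_lit 636, nat_lit 616] (nat_lit 0) [] false,
   Spec.mk (nat_lit 626) (nat_lit 0) [nat_lit 1112, nat_lit 464, nat_lit 680, nat_lit 608, nat_lit 632, nat_lit 628] (nat_lit 2) [nat_lit 2812] false,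
   Spec.mk (nat_lit 628) (nat_lit 0) [nat_lit 1114, nat_lit 466, nat_lit 682, nat_lit 610, nat_lit 634, nat_lit 626] (nat_lit 2) [nat_lit 2814] false,
   Spec.mk (nat_lit 632) (nat_lit 0) [nat_lit 1118, nat_lit 470, nat_lit 686, nat_lit 614, nat_lit 626, nat_lit 634] (nat_lit 2) [nat_lit 2818] false,
   Spec.mk (nat_lit 634) (nat_lit 0) [nat_lit 1120, nat_lit 472, nat_lit 688, nat_lit 616, nat_lit 628, nat_lit 640, nat_lit 632, nat_lit 636] (nat_lit 0) [nat_lit 2820] false,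
   Spec.mk (nat_lit 636) (nat_lit 0) [nat_lit 1122, nat_lit 474, nat_lit 690, nat_lit 618, nat_lit 642, nat_lit 634] (nat_lit 0) [] false,
   Spec.mk (nat_lit 640) (nat_lit 0) [nat_lit 1126, nat_lit 478, nat_lit 694, nat_lit 634, nat_lit 642] (nat_lit 0) [nat_lit 2826] false,
   Spec.mk (nat_lit 642) (nat_lit 2) [nat_lit 1128, nat_lit 480, nat_lit 696, nat_lit 636, nat_lit 640] (nat_lit 0) [] false,
   Spec.mk (nat_lit 656) (nat_lit 0) [nat_lit 1142, nat_lit 602, nat_lit 662] (nat_lit 0) [nat_lit 2842] true,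
   Spec.mk (nat_lit 662) (nat_lit 0) [nat_lit 1148, nat_lit 608, nat_lit 680, nat_lit 656, nat_lit 668, nat_lit 664] (nat_lit 1) [nat_lit 2848] false,
   Spec.mk (nat_lit 664) (nat_lit 0) [nat_lit 1150, nat_lit 610, nat_lit 682, nat_lit 670, nat_lit 662] (nat_lit 0) [nat_lit 2850] false,
   Spec.mk (nat_lit 668) (nat_lit 0) [nat_lit 1154, nat_lit 614, nat_lit 686, nat_lit 662, nat_lit 670] (nat_lit 4) [nat_lit 2854] false,
   Spec.mk (nat_lit 670) (nat_lit 0) [nat_lit 1156, nat_lit 616, nat_lit 688, nat_lit 664, nat_lit 668, nat_lit 672] (nat_lit 1) [nat_lit 2856] false,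
   Spec.mk (nat_lit 672) (nat_lit 0) [nat_lit 1158, nat_lit 618, nat_lit 690, nat_lit 670] (nat_lit 0) [] false,
   Spec.mk (nat_lit 680) (nat_lit 0) [nat_lit 1166, nat_lit 626, nat_lit 662, nat_lit 686, nat_lit 682] (nat_lit 0) [nat_lit 2866] false,
   Spec.mk (nat_lit 682) (nat_lit 0) [nat_lit 1168, nat_lit 628, nat_lit 664, nat_lit 688, nat_lit 680] (nat_lit 0) [nat_lit 2868] false,
   Spec.mk (nat_lit 686) (nat_lit 0) [nat_lit 1172, nat_lit 632, nat_lit 668, nat_lit 704, nat_lit 680, nat_lit 688] (nat_lit 1) [nat_lit 2872] false,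
   Spec.mk (nat_lit 688) (nat_lit 1) [nat_lit 1174, nat_lit 634, nat_lit 670, nat_lit 706, nat_lit 682, nat_lit 694, nat_lit 686, nat_lit 690] (nat_lit 0) [nat_lit 2874] false,
   Spec.mk (nat_lit 690) (nat_lit 1) [nat_lit 1176, nat_lit 636, nat_lit 672, nat_lit 708, nat_lit 696, nat_lit 688] (nat_lit 0) [] false,
   Spec.mk (nat_lit 694) (nat_lit 0) [nat_lit 1180, nat_lit 640, nat_lit 712, nat_lit 688, nat_lit 696] (nat_lit 0) [nat_lit 2880] false,
   Spec.mk (nat_lit 696) (nat_lit 2) [nat_lit 1182, nat_lit 642, nat_lit 714, nat_lit 690, nat_lit 694] (nat_lit 0) [] false,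
   Spec.mk (nat_lit 704) (nat_lit 0) [nat_lit 1190, nat_lit 686, nat_lit 706] (nat_lit 0) [nat_lit 2890] false,
   Spec.mk (nat_lit 706) (nat_lit 1) [nat_lit 1192, nat_lit 688, nat_lit 712, nat_lit 704, nat_lit 708] (nat_lit 0) [nat_lit 2892] false,
   Spec.mk (nat_lit 708) (nat_lit 0) [nat_lit 1194, nat_lit 690, nat_lit 714, nat_lit 706] (nat_lit 0) [] false,
   Spec.mk (nat_lit 712) (nat_lit 2) [nat_lit 1198, nat_lit 694, nat_lit 706, nat_lit 714] (nat_lit 0) [nat_lit 2898] false,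
   Spec.mk (nat_lit 714) (nat_lit 3) [nat_lit 1200, nat_lit 696, nat_lit 708, nat_lit 720, nat_lit 712] (nat_lit 0) [] false,
   Spec.mk (nat_lit 720) (nat_lit 4) [nat_lit 1206, nat_lit 714] (nat_lit 0) [] false,
   Spec.mk (nat_lit 782) (nat_lit 2) [nat_lit 2240, nat_lit 296, nat_lit 836, nat_lit 800] (nat_lit 0) [nat_lit 2968] false,
   Spec.mk (nat_lit 800) (nat_lit 0) [nat_lit 2258, nat_lit 314, nat_lit 854, nat_lit 782, nat_lit 806] (nat_lit 0) [nat_lit 2986] false,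
   Spec.mk (nat_lit 806) (nat_lit 0) [nat_lit 2264, nat_lit 320, nat_lit 860, nat_lit 800, nat_lit 808] (nat_lit 0) [nat_lit 2992] false,
   Spec.mk (nat_lit 808) (nat_lit 2) [nat_lit 2266, nat_lit 322, nat_lit 862, nat_lit 806] (nat_lit 0) [nat_lit 2994] false,
   Spec.mk (nat_lit 836) (nat_lit 0) [nat_lit 2294, nat_lit 350, nat_lit 998, nat_lit 782, nat_lit 854] (nat_lit 0) [nat_lit 3022] false,
   Spec.mk (nat_lit 854) (nat_lit 0) [nat_lit 2312, nat_lit 368, nat_lit 1016, nat_lit 800, nat_lit 908, nat_lit 836, nat_lit 872, nat_lit 860] (nat_lit 0) [nat_lit 3040] false,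
   Spec.mk (nat_lit 860) (nat_lit 0) [nat_lit 2318, nat_lit 374, nat_lit 1022, nat_lit 806, nat_lit 914, nat_lit 878, nat_lit 854, nat_lit 862] (nat_lit 1) [nat_lit 3046] true,
   Spec.mk (nat_lit 862) (nat_lit 1) [nat_lit 2320, nat_lit 376, nat_lit 1024, nat_lit 808, nat_lit 916, nat_lit 880, nat_lit 860] (nat_lit 0) [nat_lit 3048] false,
   Spec.mk (nat_lit 872) (nat_lit 0) [nat_lit 2330, nat_lit 386, nat_lit 1034, nat_lit 926, nat_lit 854, nat_lit 878] (nat_lit 2) [nat_lit 3058] false,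
   Spec.mk (nat_lit 878) (nat_lit 0) [nat_lit 2336, nat_lit 392, nat_lit 1040, nat_lit 932, nat_lit 860, nat_lit 872, nat_lit 884, nat_lit 880] (nat_lit 1) [nat_lit 3064] true,
   Spec.mk (nat_lit 880) (nat_lit 0) [nat_lit 2338, nat_lit 394, nat_lit 1042, nat_lit 934, nat_lit 862, nat_lit 886, nat_lit 878] (nat_lit 0) [nat_lit 3066] true,
   Spec.mk (nat_lit 884) (nat_lit 0) [nat_lit 2342, nat_lit 398, nat_lit 1046, nat_lit 938, nat_lit 878, nat_lit 886] (nat_lit 2) [nat_lit 3070] false,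
   Spec.mk (nat_lit 886) (nat_lit 1) [nat_lit 2344, nat_lit 400, nat_lit 1048, nat_lit 940, nat_lit 880, nat_lit 884, nat_lit 888] (nat_lit 0) [nat_lit 3072] false,
   Spec.mk (nat_lit 888) (nat_lit 2) [nat_lit 2346, nat_lit 402, nat_lit 1050, nat_lit 942, nat_lit 886] (nat_lit 0) [] false,
   Spec.mk (nat_lit 908) (nat_lit 0) [nat_lit 2366, nat_lit 422, nat_lit 1070, nat_lit 854, nat_lit 926, nat_lit 914] (nat_lit 2) [nat_lit 3094] false,
   Spec.mk (nat_lit 914) (nat_lit 0) [nat_lit 2372, nat_lit 428, nat_lit 1076, nat_lit 860, nat_lit 932, nat_lit 908, nat_lit 916] (nat_lit 4) [nat_lit 3100] true,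
   Spec.mk (nat_lit 916) (nat_lit 0) [nat_lit 2374, nat_lit 430, nat_lit 1078, nat_lit 862, nat_lit 934, nat_lit 914] (nat_lit 2) [nat_lit 3102] false,
   Spec.mk (nat_lit 926) (nat_lit 0) [nat_lit 2384, nat_lit 440, nat_lit 1088, nat_lit 872, nat_lit 908, nat_lit 932] (nat_lit 2) [nat_lit 3112] false,
   Spec.mk (nat_lit 932) (nat_lit 0) [nat_lit 2390, nat_lit 446, nat_lit 1094, nat_lit 878, nat_lit 914, nat_lit 950, nat_lit 926, nat_lit 938, nat_lit 934] (nat_lit 2) [nat_lit 3118] true,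
   Spec.mk (nat_lit 934) (nat_lit 0) [nat_lit 2392, nat_lit 448, nat_lit 1096, nat_lit 880, nat_lit 916, nat_lit 952, nat_lit 940, nat_lit 932] (nat_lit 1) [nat_lit 3120] false,
   Spec.mk (nat_lit 938) (nat_lit 0) [nat_lit 2396, nat_lit 452, nat_lit 1100, nat_lit 884, nat_lit 956, nat_lit 932, nat_lit 940] (nat_lit 4) [nat_lit 3124] false,
   Spec.mk (nat_lit 940) (nat_lit 0) [nat_lit 2398, nat_lit 454, nat_lit 1102, nat_lit 886, nat_lit 958, nat_lit 934, nat_lit 938, nat_lit 942] (nat_lit 1) [nat_lit 3126] false,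
   Spec.mk (nat_lit 942) (nat_lit 0) [nat_lit 2400, nat_lit 456, nat_lit 1104, nat_lit 888, nat_lit 960, nat_lit 940] (nat_lit 0) [] false,
   Spec.mk (nat_lit 950) (nat_lit 0) [nat_lit 2408, nat_lit 464, nat_lit 1112, nat_lit 932, nat_lit 956, nat_lit 952] (nat_lit 2) [nat_lit 3136] false,
   Spec.mk (nat_lit 952) (nat_lit 0) [nat_lit 2410, nat_lit 466, nat_lit 1114, nat_lit 934, nat_lit 958, nat_lit 950] (nat_lit 2) [nat_lit 3138] false,
   Spec.mk (nat_lit 956) (nat_lit 0) [nat_lit 2414, nat_lit 470, nat_lit 1118, nat_lit 938, nat_lit 950, nat_lit 958] (nat_lit 2) [nat_lit 3142] false,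
   Spec.mk (nat_lit 958) (nat_lit 0) [nat_lit 2416, nat_lit 472, nat_lit 1120, nat_lit 940, nat_lit 952, nat_lit 964, nat_lit 956, nat_lit 960] (nat_lit 0) [nat_lit 3144] false,
   Spec.mk (nat_lit 960) (nat_lit 0) [nat_lit 2418, nat_lit 474, nat_lit 1122, nat_lit 942, nat_lit 966, nat_lit 958] (nat_lit 0) [] false,
   Spec.mk (nat_lit 964) (nat_lit 0) [nat_lit 2422, nat_lit 478, nat_lit 1126, nat_lit 958, nat_lit 966] (nat_lit 0) [nat_lit 3150] false,
   Spec.mk (nat_lit 966) (nat_lit 2) [nat_lit 2424, nat_lit 480, nat_lit 1128, nat_lit 960, nat_lit 964] (nat_lit 0) [] false]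

noncomputable def sp2 : List Spec :=
  [Spec.mk (nat_lit 998) (nat_lit 1) [nat_lit 2456, nat_lit 512, nat_lit 1484, nat_lit 836, nat_lit 1016] (nat_lit 0) [nat_lit 3184] false,
   Spec.mk (nat_lit 1016) (nat_lit 0) [nat_lit 2474, nat_lit 530, nat_lit 1502, nat_lit 854, nat_lit 1070, nat_lit 998, nat_lit 1034, nat_lit 1022] (nat_lit 0) [nat_lit 3202] false,
   Spec.mk (nat_lit 1022) (nat_lit 0) [nat_lit 2480, nat_lit 536, nat_lit 1508, nat_lit 860, nat_lit 1076, nat_lit 1040, nat_lit 1016, nat_lit 1024] (nat_lit 1) [nat_lit 3208] false,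
   Spec.mk (nat_lit 1024) (nat_lit 1) [nat_lit 2482, nat_lit 538, nat_lit 1510, nat_lit 862, nat_lit 1078, nat_lit 1042, nat_lit 1022] (nat_lit 0) [nat_lit 3210] false,
   Spec.mk (nat_lit 1034) (nat_lit 0) [nat_lit 2492, nat_lit 548, nat_lit 1520, nat_lit 872, nat_lit 1088, nat_lit 1016, nat_lit 1040] (nat_lit 3) [nat_lit 3220] false,
   Spec.mk (nat_lit 1040) (nat_lit 0) [nat_lit 2498, nat_lit 554, nat_lit 1526, nat_lit 878, nat_lit 1094, nat_lit 1022, nat_lit 1034, nat_lit 1046, nat_lit 1042] (nat_lit 2) [nat_lit 3226] true,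
   Spec.mk (nat_lit 1042) (nat_lit 0) [nat_lit 2500, nat_lit 556, nat_lit 1528, nat_lit 880, nat_lit 1096, nat_lit 1024, nat_lit 1048, nat_lit 1040] (nat_lit 1) [nat_lit 3228] false,
   Spec.mk (nat_lit 1046) (nat_lit 0) [nat_lit 2504, nat_lit 560, nat_lit 1532, nat_lit 884, nat_lit 1100, nat_lit 1040, nat_lit 1048] (nat_lit 3) [nat_lit 3232] false,
   Spec.mk (nat_lit 1048) (nat_lit 0) [nat_lit 2506, nat_lit 562, nat_lit 1534, nat_lit 886, nat_lit 1102, nat_lit 1042, nat_lit 1046, nat_lit 1050] (nat_lit 0) [nat_lit 3234] false,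
   Spec.mk (nat_lit 1050) (nat_lit 1) [nat_lit 2508, nat_lit 564, nat_lit 1536, nat_lit 888, nat_lit 1104, nat_lit 1048] (nat_lit 0) [] false,
   Spec.mk (nat_lit 1070) (nat_lit 0) [nat_lit 2528, nat_lit 584, nat_lit 1556, nat_lit 908, nat_lit 1232, nat_lit 1016, nat_lit 1088, nat_lit 1076] (nat_lit 0) [nat_lit 3256] false,
   Spec.mk (nat_lit 1076) (nat_lit 0) [nat_lit 2534, nat_lit 590, nat_lit 1562, nat_lit 914, nat_lit 1238, nat_lit 1022, nat_lit 1094, nat_lit 1070, nat_lit 1078] (nat_lit 2) [nat_lit 3262] false,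
   Spec.mk (nat_lit 1078) (nat_lit 0) [nat_lit 2536, nat_lit 592, nat_lit 1564, nat_lit 916, nat_lit 1240, nat_lit 1024, nat_lit 1096, nat_lit 1076] (nat_lit 0) [nat_lit 3264] false,
   Spec.mk (nat_lit 1088) (nat_lit 0) [nat_lit 2546, nat_lit 602, nat_lit 1574, nat_lit 926, nat_lit 1250, nat_lit 1034, nat_lit 1142, nat_lit 1070, nat_lit 1094] (nat_lit 1) [nat_lit 3274] false,
   Spec.mk (nat_lit 1094) (nat_lit 0) [nat_lit 2552, nat_lit 608, nat_lit 1580, nat_lit 932, nat_lit 1256, nat_lit 1040, nat_lit 1148, nat_lit 1076, nat_lit 1112, nat_lit 1088, nat_lit 1100, nat_lit 1096] (nat_lit 1) [nat_lit 3280] true,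
   Spec.mk (nat_lit 1096) (nat_lit 0) [nat_lit 2554, nat_lit 610, nat_lit 1582, nat_lit 934, nat_lit 1258, nat_lit 1042, nat_lit 1150, nat_lit 1078, nat_lit 1114, nat_lit 1102, nat_lit 1094] (nat_lit 0) [nat_lit 3282] true,
   Spec.mk (nat_lit 1100) (nat_lit 0) [nat_lit 2558, nat_lit 614, nat_lit 1586, nat_lit 938, nat_lit 1262, nat_lit 1046, nat_lit 1154, nat_lit 1118, nat_lit 1094, nat_lit 1102] (nat_lit 3) [nat_lit 3286] true,
   Spec.mk (nat_lit 1102) (nat_lit 0) [nat_lit 2560, nat_lit 616, nat_lit 1588, nat_lit 940, nat_lit 1264, nat_lit 1048, nat_lit 1156, nat_lit 1120, nat_lit 1096, nat_lit 1100, nat_lit 1104] (nat_lit 0) [nat_lit 3288] true,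
   Spec.mk (nat_lit 1104) (nat_lit 1) [nat_lit 2562, nat_lit 618, nat_lit 1590, nat_lit 942, nat_lit 1266, nat_lit 1050, nat_lit 1158, nat_lit 1122, nat_lit 1102] (nat_lit 0) [] false,
   Spec.mk (nat_lit 1112) (nat_lit 0) [nat_lit 2570, nat_lit 626, nat_lit 1598, nat_lit 950, nat_lit 1274, nat_lit 1166, nat_lit 1094, nat_lit 1118, nat_lit 1114] (nat_lit 2) [nat_lit 3298] true,
   Spec.mk (nat_lit 1114) (nat_lit 0) [nat_lit 2572, nat_lit 628, nat_lit 1600, nat_lit 952, nat_lit 1276, nat_lit 1168, nat_lit 1096, nat_lit 1120, nat_lit 1112] (nat_lit 2) [nat_lit 3300] true,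
   Spec.mk (nat_lit 1118) (nat_lit 0) [nat_lit 2576, nat_lit 632, nat_lit 1604, nat_lit 956, nat_lit 1280, nat_lit 1172, nat_lit 1100, nat_lit 1112, nat_lit 1120] (nat_lit 2) [nat_lit 3304] false,
   Spec.mk (nat_lit 1120) (nat_lit 0) [nat_lit 2578, nat_lit 634, nat_lit 1606, nat_lit 958, nat_lit 1282, nat_lit 1174, nat_lit 1102, nat_lit 1114, nat_lit 1126, nat_lit 1118, nat_lit 1122] (nat_lit 0) [nat_lit 3306] true,
   Spec.mk (nat_lit 1122) (nat_lit 0) [nat_lit 2580, nat_lit 636, nat_lit 1608, nat_lit 960, nat_lit 1284, nat_lit 1176, nat_lit 1104, nat_lit 1128, nat_lit 1120] (nat_lit 0) [] false,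
   Spec.mk (nat_lit 1126) (nat_lit 0) [nat_lit 2584, nat_lit 640, nat_lit 1612, nat_lit 964, nat_lit 1288, nat_lit 1180, nat_lit 1120, nat_lit 1128] (nat_lit 0) [nat_lit 3312] false,
   Spec.mk (nat_lit 1128) (nat_lit 2) [nat_lit 2586, nat_lit 642, nat_lit 1614, nat_lit 966, nat_lit 1290, nat_lit 1182, nat_lit 1122, nat_lit 1126] (nat_lit 0) [] false,
   Spec.mk (nat_lit 1142) (nat_lit 0) [nat_lit 2600, nat_lit 656, nat_lit 1628, nat_lit 1304, nat_lit 1088, nat_lit 1148] (nat_lit 1) [nat_lit 3328] false,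
   Spec.mk (nat_lit 1148) (nat_lit 0) [nat_lit 2606, nat_lit 662, nat_lit 1634, nat_lit 1310, nat_lit 1094, nat_lit 1166, nat_lit 1142, nat_lit 1154, nat_lit 1150] (nat_lit 2) [nat_lit 3334] true,
   Spec.mk (nat_lit 1150) (nat_lit 0) [nat_lit 2608, nat_lit 664, nat_lit 1636, nat_lit 1312, nat_lit 1096, nat_lit 1168, nat_lit 1156, nat_lit 1148] (nat_lit 1) [nat_lit 3336] true,
   Spec.mk (nat_lit 1154) (nat_lit 0) [nat_lit 2612, nat_lit 668, nat_lit 1640, nat_lit 1316, nat_lit 1100, nat_lit 1172, nat_lit 1148, nat_lit 1156] (nat_lit 5) [nat_lit 3340] true,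
   Spec.mk (nat_lit 1156) (nat_lit 0) [nat_lit 2614, nat_lit 670, nat_lit 1642, nat_lit 1318, nat_lit 1102, nat_lit 1174, nat_lit 1150, nat_lit 1154, nat_lit 1158] (nat_lit 2) [nat_lit 3342] true,
   Spec.mk (nat_lit 1158) (nat_lit 0) [nat_lit 2616, nat_lit 672, nat_lit 1644, nat_lit 1320, nat_lit 1104, nat_lit 1176, nat_lit 1156] (nat_lit 1) [] false,
   Spec.mk (nat_lit 1166) (nat_lit 0) [nat_lit 2624, nat_lit 680, nat_lit 1652, nat_lit 1328, nat_lit 1112, nat_lit 1148, nat_lit 1172, nat_lit 1168] (nat_lit 1) [nat_lit 3352] false,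
   Spec.mk (nat_lit 1168) (nat_lit 0) [nat_lit 2626, nat_lit 682, nat_lit 1654, nat_lit 1330, nat_lit 1114, nat_lit 1150, nat_lit 1174, nat_lit 1166] (nat_lit 1) [nat_lit 3354] true,
   Spec.mk (nat_lit 1172) (nat_lit 0) [nat_lit 2630, nat_lit 686, nat_lit 1658, nat_lit 1334, nat_lit 1118, nat_lit 1154, nat_lit 1190, nat_lit 1166, nat_lit 1174] (nat_lit 2) [nat_lit 3358] false,
   Spec.mk (nat_lit 1174) (nat_lit 0) [nat_lit 2632, nat_lit 688, nat_lit 1660, nat_lit 1336, nat_lit 1120, nat_lit 1156, nat_lit 1192, nat_lit 1168, nat_lit 1180, nat_lit 1172, nat_lit 1176] (nat_lit 0) [nat_lit 3360] false,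
   Spec.mk (nat_lit 1176) (nat_lit 0) [nat_lit 2634, nat_lit 690, nat_lit 1662, nat_lit 1338, nat_lit 1122, nat_lit 1158, nat_lit 1194, nat_lit 1182, nat_lit 1174] (nat_lit 0) [] false,
   Spec.mk (nat_lit 1180) (nat_lit 0) [nat_lit 2638, nat_lit 694, nat_lit 1666, nat_lit 1342, nat_lit 1126, nat_lit 1198, nat_lit 1174, nat_lit 1182] (nat_lit 1) [nat_lit 3366] false,
   Spec.mk (nat_lit 1182) (nat_lit 1) [nat_lit 2640, nat_lit 696, nat_lit 1668, nat_lit 1344, nat_lit 1128, nat_lit 1200, nat_lit 1176, nat_lit 1180] (nat_lit 0) [] false,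
   Spec.mk (nat_lit 1190) (nat_lit 0) [nat_lit 2648, nat_lit 704, nat_lit 1676, nat_lit 1352, nat_lit 1172, nat_lit 1192] (nat_lit 1) [nat_lit 3376] false,
   Spec.mk (nat_lit 1192) (nat_lit 0) [nat_lit 2650, nat_lit 706, nat_lit 1678, nat_lit 1354, nat_lit 1174, nat_lit 1198, nat_lit 1190, nat_lit 1194] (nat_lit 0) [nat_lit 3378] false,
   Spec.mk (nat_lit 1194) (nat_lit 0) [nat_lit 2652, nat_lit 708, nat_lit 1680, nat_lit 1356, nat_lit 1176, nat_lit 1200, nat_lit 1192] (nat_lit 1) [] false,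
   Spec.mk (nat_lit 1198) (nat_lit 1) [nat_lit 2656, nat_lit 712, nat_lit 1684, nat_lit 1360, nat_lit 1180, nat_lit 1192, nat_lit 1200] (nat_lit 0) [nat_lit 3384] false,
   Spec.mk (nat_lit 1200) (nat_lit 2) [nat_lit 2658, nat_lit 714, nat_lit 1686, nat_lit 1362, nat_lit 1182, nat_lit 1194, nat_lit 1206, nat_lit 1198] (nat_lit 0) [] false,
   Spec.mk (nat_lit 1206) (nat_lit 3) [nat_lit 2664, nat_lit 720, nat_lit 1692, nat_lit 1368, nat_lit 1200] (nat_lit 0) [] false,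
   Spec.mk (nat_lit 1232) (nat_lit 0) [nat_lit 2690, nat_lit 1718, nat_lit 1070, nat_lit 1250, nat_lit 1238] (nat_lit 0) [nat_lit 3418] false,
   Spec.mk (nat_lit 1238) (nat_lit 0) [nat_lit 2696, nat_lit 1724, nat_lit 1076, nat_lit 1256, nat_lit 1232, nat_lit 1240] (nat_lit 2) [nat_lit 3424] false,
   Spec.mk (nat_lit 1240) (nat_lit 0) [nat_lit 2698, nat_lit 1726, nat_lit 1078, nat_lit 1258, nat_lit 1238] (nat_lit 0) [nat_lit 3426] false,
   Spec.mk (nat_lit 1250) (nat_lit 0) [nat_lit 2708, nat_lit 1736, nat_lit 1088, nat_lit 1304, nat_lit 1232, nat_lit 1256] (nat_lit 2) [nat_lit 3436] false,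
   Spec.mk (nat_lit 1256) (nat_lit 0) [nat_lit 2714, nat_lit 1742, nat_lit 1094, nat_lit 1310, nat_lit 1238, nat_lit 1274, nat_lit 1250, nat_lit 1262, nat_lit 1258] (nat_lit 2) [nat_lit 3442] false,
   Spec.mk (nat_lit 1258) (nat_lit 0) [nat_lit 2716, nat_lit 1744, nat_lit 1096, nat_lit 1312, nat_lit 1240, nat_lit 1276, nat_lit 1264, nat_lit 1256] (nat_lit 1) [nat_lit 3444] false,
   Spec.mk (nat_lit 1262) (nat_lit 0) [nat_lit 2720, nat_lit 1748, nat_lit 1100, nat_lit 1316, nat_lit 1280, nat_lit 1256, nat_lit 1264] (nat_lit 4) [nat_lit 3448] true,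
   Spec.mk (nat_lit 1264) (nat_lit 0) [nat_lit 2722, nat_lit 1750, nat_lit 1102, nat_lit 1318, nat_lit 1282, nat_lit 1258, nat_lit 1262, nat_lit 1266] (nat_lit 1) [nat_lit 3450] false,
   Spec.mk (nat_lit 1266) (nat_lit 0) [nat_lit 2724, nat_lit 1752, nat_lit 1104, nat_lit 1320, nat_lit 1284, nat_lit 1264] (nat_lit 0) [] false,
   Spec.mk (nat_lit 1274) (nat_lit 0) [nat_lit 2732, nat_lit 1760, nat_lit 1112, nat_lit 1328, nat_lit 1256, nat_lit 1280, nat_lit 1276] (nat_lit 4) [nat_lit 3460] false,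
   Spec.mk (nat_lit 1276) (nat_lit 0) [nat_lit 2734, nat_lit 1762, nat_lit 1114, nat_lit 1330, nat_lit 1258, nat_lit 1282, nat_lit 1274] (nat_lit 4) [nat_lit 3462] true,
   Spec.mk (nat_lit 1280) (nat_lit 0) [nat_lit 2738, nat_lit 1766, nat_lit 1118, nat_lit 1334, nat_lit 1262, nat_lit 1274, nat_lit 1282] (nat_lit 4) [nat_lit 3466] true,
   Spec.mk (nat_lit 1282) (nat_lit 0) [nat_lit 2740, nat_lit 1768, nat_lit 1120, nat_lit 1336, nat_lit 1264, nat_lit 1276, nat_lit 1288, nat_lit 1280, nat_lit 1284] (nat_lit 2) [nat_lit 3468] false,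
   Spec.mk (nat_lit 1284) (nat_lit 0) [nat_lit 2742, nat_lit 1770, nat_lit 1122, nat_lit 1338, nat_lit 1266, nat_lit 1290, nat_lit 1282] (nat_lit 2) [] false,
   Spec.mk (nat_lit 1288) (nat_lit 0) [nat_lit 2746, nat_lit 1774, nat_lit 1126, nat_lit 1342, nat_lit 1282, nat_lit 1290] (nat_lit 2) [nat_lit 3474] false]

noncomputable def sp3 : List Spec :=
  [Spec.mk (nat_lit 1290) (nat_lit 0) [nat_lit 2748, nat_lit 1776, nat_lit 1128, nat_lit 1344, nat_lit 1284, nat_lit 1288] (nat_lit 0) [] false,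
   Spec.mk (nat_lit 1304) (nat_lit 0) [nat_lit 2762, nat_lit 1790, nat_lit 1142, nat_lit 1250, nat_lit 1310] (nat_lit 0) [nat_lit 3490] false,
   Spec.mk (nat_lit 1310) (nat_lit 0) [nat_lit 2768, nat_lit 1796, nat_lit 1148, nat_lit 1256, nat_lit 1328, nat_lit 1304, nat_lit 1316, nat_lit 1312] (nat_lit 1) [nat_lit 3496] false,
   Spec.mk (nat_lit 1312) (nat_lit 0) [nat_lit 2770, nat_lit 1798, nat_lit 1150, nat_lit 1258, nat_lit 1330, nat_lit 1318, nat_lit 1310] (nat_lit 0) [nat_lit 3498] true,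
   Spec.mk (nat_lit 1316) (nat_lit 0) [nat_lit 2774, nat_lit 1802, nat_lit 1154, nat_lit 1262, nat_lit 1334, nat_lit 1310, nat_lit 1318] (nat_lit 4) [nat_lit 3502] false,
   Spec.mk (nat_lit 1318) (nat_lit 0) [nat_lit 2776, nat_lit 1804, nat_lit 1156, nat_lit 1264, nat_lit 1336, nat_lit 1312, nat_lit 1316, nat_lit 1320] (nat_lit 1) [nat_lit 3504] false,
   Spec.mk (nat_lit 1320) (nat_lit 0) [nat_lit 2778, nat_lit 1806, nat_lit 1158, nat_lit 1266, nat_lit 1338, nat_lit 1318] (nat_lit 0) [] false,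
   Spec.mk (nat_lit 1328) (nat_lit 0) [nat_lit 2786, nat_lit 1814, nat_lit 1166, nat_lit 1274, nat_lit 1382, nat_lit 1310, nat_lit 1334, nat_lit 1330] (nat_lit 1) [nat_lit 3514] false,
   Spec.mk (nat_lit 1330) (nat_lit 0) [nat_lit 2788, nat_lit 1816, nat_lit 1168, nat_lit 1276, nat_lit 1384, nat_lit 1312, nat_lit 1336, nat_lit 1328] (nat_lit 1) [nat_lit 3516] false,
   Spec.mk (nat_lit 1334) (nat_lit 0) [nat_lit 2792, nat_lit 1820, nat_lit 1172, nat_lit 1280, nat_lit 1388, nat_lit 1316, nat_lit 1352, nat_lit 1328, nat_lit 1336] (nat_lit 2) [nat_lit 3520] false,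
   Spec.mk (nat_lit 1336) (nat_lit 0) [nat_lit 2794, nat_lit 1822, nat_lit 1174, nat_lit 1282, nat_lit 1390, nat_lit 1318, nat_lit 1354, nat_lit 1330, nat_lit 1342, nat_lit 1334, nat_lit 1338] (nat_lit 0) [nat_lit 3522] false,
   Spec.mk (nat_lit 1338) (nat_lit 0) [nat_lit 2796, nat_lit 1824, nat_lit 1176, nat_lit 1284, nat_lit 1392, nat_lit 1320, nat_lit 1356, nat_lit 1344, nat_lit 1336] (nat_lit 0) [] false,
   Spec.mk (nat_lit 1342) (nat_lit 0) [nat_lit 2800, nat_lit 1828, nat_lit 1180, nat_lit 1288, nat_lit 1396, nat_lit 1360, nat_lit 1336, nat_lit 1344] (nat_lit 1) [nat_lit 3528] false,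
   Spec.mk (nat_lit 1344) (nat_lit 1) [nat_lit 2802, nat_lit 1830, nat_lit 1182, nat_lit 1290, nat_lit 1398, nat_lit 1362, nat_lit 1338, nat_lit 1342] (nat_lit 0) [] false,
   Spec.mk (nat_lit 1352) (nat_lit 0) [nat_lit 2810, nat_lit 1838, nat_lit 1190, nat_lit 1406, nat_lit 1334, nat_lit 1354] (nat_lit 2) [nat_lit 3538] false,
   Spec.mk (nat_lit 1354) (nat_lit 0) [nat_lit 2812, nat_lit 1840, nat_lit 1192, nat_lit 1408, nat_lit 1336, nat_lit 1360, nat_lit 1352, nat_lit 1356] (nat_lit 1) [nat_lit 3540] false,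
   Spec.mk (nat_lit 1356) (nat_lit 0) [nat_lit 2814, nat_lit 1842, nat_lit 1194, nat_lit 1410, nat_lit 1338, nat_lit 1362, nat_lit 1354] (nat_lit 2) [] false,
   Spec.mk (nat_lit 1360) (nat_lit 0) [nat_lit 2818, nat_lit 1846, nat_lit 1198, nat_lit 1414, nat_lit 1342, nat_lit 1354, nat_lit 1362] (nat_lit 0) [nat_lit 3546] false,
   Spec.mk (nat_lit 1362) (nat_lit 1) [nat_lit 2820, nat_lit 1848, nat_lit 1200, nat_lit 1416, nat_lit 1344, nat_lit 1356, nat_lit 1368, nat_lit 1360] (nat_lit 0) [] false,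
   Spec.mk (nat_lit 1368) (nat_lit 2) [nat_lit 2826, nat_lit 1854, nat_lit 1206, nat_lit 1422, nat_lit 1362] (nat_lit 0) [] false,
   Spec.mk (nat_lit 1382) (nat_lit 0) [nat_lit 2840, nat_lit 1868, nat_lit 1328, nat_lit 1388, nat_lit 1384] (nat_lit 0) [nat_lit 3568] false,
   Spec.mk (nat_lit 1384) (nat_lit 0) [nat_lit 2842, nat_lit 1870, nat_lit 1330, nat_lit 1390, nat_lit 1382] (nat_lit 0) [nat_lit 3570] false,
   Spec.mk (nat_lit 1388) (nat_lit 0) [nat_lit 2846, nat_lit 1874, nat_lit 1334, nat_lit 1406, nat_lit 1382, nat_lit 1390] (nat_lit 2) [nat_lit 3574] false,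
   Spec.mk (nat_lit 1390) (nat_lit 0) [nat_lit 2848, nat_lit 1876, nat_lit 1336, nat_lit 1408, nat_lit 1384, nat_lit 1396, nat_lit 1388, nat_lit 1392] (nat_lit 0) [nat_lit 3576] false,
   Spec.mk (nat_lit 1392) (nat_lit 0) [nat_lit 2850, nat_lit 1878, nat_lit 1338, nat_lit 1410, nat_lit 1398, nat_lit 1390] (nat_lit 0) [] false,
   Spec.mk (nat_lit 1396) (nat_lit 0) [nat_lit 2854, nat_lit 1882, nat_lit 1342, nat_lit 1414, nat_lit 1390, nat_lit 1398] (nat_lit 2) [nat_lit 3582] false,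
   Spec.mk (nat_lit 1398) (nat_lit 0) [nat_lit 2856, nat_lit 1884, nat_lit 1344, nat_lit 1416, nat_lit 1392, nat_lit 1396] (nat_lit 0) [] false,
   Spec.mk (nat_lit 1406) (nat_lit 0) [nat_lit 2864, nat_lit 1892, nat_lit 1352, nat_lit 1388, nat_lit 1408] (nat_lit 0) [nat_lit 3592] false,
   Spec.mk (nat_lit 1408) (nat_lit 1) [nat_lit 2866, nat_lit 1894, nat_lit 1354, nat_lit 1390, nat_lit 1414, nat_lit 1406, nat_lit 1410] (nat_lit 0) [nat_lit 3594] false,
   Spec.mk (nat_lit 1410) (nat_lit 0) [nat_lit 2868, nat_lit 1896, nat_lit 1356, nat_lit 1392, nat_lit 1416, nat_lit 1408] (nat_lit 0) [] false,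
   Spec.mk (nat_lit 1414) (nat_lit 1) [nat_lit 2872, nat_lit 1900, nat_lit 1360, nat_lit 1396, nat_lit 1432, nat_lit 1408, nat_lit 1416] (nat_lit 0) [nat_lit 3600] false,
   Spec.mk (nat_lit 1416) (nat_lit 2) [nat_lit 2874, nat_lit 1902, nat_lit 1362, nat_lit 1398, nat_lit 1434, nat_lit 1410, nat_lit 1422, nat_lit 1414] (nat_lit 0) [] false,
   Spec.mk (nat_lit 1422) (nat_lit 2) [nat_lit 2880, nat_lit 1908, nat_lit 1368, nat_lit 1440, nat_lit 1416] (nat_lit 0) [] false,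
   Spec.mk (nat_lit 1432) (nat_lit 2) [nat_lit 2890, nat_lit 1918, nat_lit 1414, nat_lit 1434] (nat_lit 0) [nat_lit 3618] false,
   Spec.mk (nat_lit 1434) (nat_lit 2) [nat_lit 2892, nat_lit 1920, nat_lit 1416, nat_lit 1440, nat_lit 1432] (nat_lit 0) [] false,
   Spec.mk (nat_lit 1440) (nat_lit 4) [nat_lit 2898, nat_lit 1926, nat_lit 1422, nat_lit 1434] (nat_lit 0) [] false,
   Spec.mk (nat_lit 1484) (nat_lit 0) [nat_lit 2942, nat_lit 998, nat_lit 1502] (nat_lit 0) [nat_lit 3670] false,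
   Spec.mk (nat_lit 1502) (nat_lit 0) [nat_lit 2960, nat_lit 1016, nat_lit 1556, nat_lit 1484, nat_lit 1520, nat_lit 1508] (nat_lit 1) [nat_lit 3688] false,
   Spec.mk (nat_lit 1508) (nat_lit 0) [nat_lit 2966, nat_lit 1022, nat_lit 1562, nat_lit 1526, nat_lit 1502, nat_lit 1510] (nat_lit 2) [nat_lit 3694] false,
   Spec.mk (nat_lit 1510) (nat_lit 0) [nat_lit 2968, nat_lit 1024, nat_lit 1564, nat_lit 1528, nat_lit 1508] (nat_lit 0) [nat_lit 3696] false,
   Spec.mk (nat_lit 1520) (nat_lit 0) [nat_lit 2978, nat_lit 1034, nat_lit 1574, nat_lit 1502, nat_lit 1526] (nat_lit 4) [nat_lit 3706] false,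
   Spec.mk (nat_lit 1526) (nat_lit 0) [nat_lit 2984, nat_lit 1040, nat_lit 1580, nat_lit 1508, nat_lit 1520, nat_lit 1532, nat_lit 1528] (nat_lit 3) [nat_lit 3712] false,
   Spec.mk (nat_lit 1528) (nat_lit 0) [nat_lit 2986, nat_lit 1042, nat_lit 1582, nat_lit 1510, nat_lit 1534, nat_lit 1526] (nat_lit 2) [nat_lit 3714] false,
   Spec.mk (nat_lit 1532) (nat_lit 0) [nat_lit 2990, nat_lit 1046, nat_lit 1586, nat_lit 1526, nat_lit 1534] (nat_lit 4) [nat_lit 3718] false,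
   Spec.mk (nat_lit 1534) (nat_lit 0) [nat_lit 2992, nat_lit 1048, nat_lit 1588, nat_lit 1528, nat_lit 1532, nat_lit 1536] (nat_lit 1) [nat_lit 3720] false,
   Spec.mk (nat_lit 1536) (nat_lit 0) [nat_lit 2994, nat_lit 1050, nat_lit 1590, nat_lit 1534] (nat_lit 0) [] false,
   Spec.mk (nat_lit 1556) (nat_lit 0) [nat_lit 3014, nat_lit 1070, nat_lit 1718, nat_lit 1502, nat_lit 1574, nat_lit 1562] (nat_lit 2) [nat_lit 3742] false,
   Spec.mk (nat_lit 1562) (nat_lit 0) [nat_lit 3020, nat_lit 1076, nat_lit 1724, nat_lit 1508, nat_lit 1580, nat_lit 1556, nat_lit 1564] (nat_lit 4) [nat_lit 3748] false,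
   Spec.mk (nat_lit 1564) (nat_lit 0) [nat_lit 3022, nat_lit 1078, nat_lit 1726, nat_lit 1510, nat_lit 1582, nat_lit 1562] (nat_lit 2) [nat_lit 3750] false,
   Spec.mk (nat_lit 1574) (nat_lit 0) [nat_lit 3032, nat_lit 1088, nat_lit 1736, nat_lit 1520, nat_lit 1628, nat_lit 1556, nat_lit 1580] (nat_lit 3) [nat_lit 3760] false,
   Spec.mk (nat_lit 1580) (nat_lit 0) [nat_lit 3038, nat_lit 1094, nat_lit 1742, nat_lit 1526, nat_lit 1634, nat_lit 1562, nat_lit 1598, nat_lit 1574, nat_lit 1586, nat_lit 1582] (nat_lit 3) [nat_lit 3766] false,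
   Spec.mk (nat_lit 1582) (nat_lit 0) [nat_lit 3040, nat_lit 1096, nat_lit 1744, nat_lit 1528, nat_lit 1636, nat_lit 1564, nat_lit 1600, nat_lit 1588, nat_lit 1580] (nat_lit 2) [nat_lit 3768] false,
   Spec.mk (nat_lit 1586) (nat_lit 0) [nat_lit 3044, nat_lit 1100, nat_lit 1748, nat_lit 1532, nat_lit 1640, nat_lit 1604, nat_lit 1580, nat_lit 1588] (nat_lit 5) [nat_lit 3772] false,
   Spec.mk (nat_lit 1588) (nat_lit 0) [nat_lit 3046, nat_lit 1102, nat_lit 1750, nat_lit 1534, nat_lit 1642, nat_lit 1606, nat_lit 1582, nat_lit 1586, nat_lit 1590] (nat_lit 2) [nat_lit 3774] false,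
   Spec.mk (nat_lit 1590) (nat_lit 0) [nat_lit 3048, nat_lit 1104, nat_lit 1752, nat_lit 1536, nat_lit 1644, nat_lit 1608, nat_lit 1588] (nat_lit 1) [] false,
   Spec.mk (nat_lit 1598) (nat_lit 0) [nat_lit 3056, nat_lit 1112, nat_lit 1760, nat_lit 1652, nat_lit 1580, nat_lit 1604, nat_lit 1600] (nat_lit 4) [nat_lit 3784] false,
   Spec.mk (nat_lit 1600) (nat_lit 0) [nat_lit 3058, nat_lit 1114, nat_lit 1762, nat_lit 1654, nat_lit 1582, nat_lit 1606, nat_lit 1598] (nat_lit 4) [nat_lit 3786] false,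
   Spec.mk (nat_lit 1604) (nat_lit 0) [nat_lit 3062, nat_lit 1118, nat_lit 1766, nat_lit 1658, nat_lit 1586, nat_lit 1598, nat_lit 1606] (nat_lit 4) [nat_lit 3790] false,
   Spec.mk (nat_lit 1606) (nat_lit 0) [nat_lit 3064, nat_lit 1120, nat_lit 1768, nat_lit 1660, nat_lit 1588, nat_lit 1600, nat_lit 1612, nat_lit 1604, nat_lit 1608] (nat_lit 2) [nat_lit 3792] false,
   Spec.mk (nat_lit 1608) (nat_lit 0) [nat_lit 3066, nat_lit 1122, nat_lit 1770, nat_lit 1662, nat_lit 1590, nat_lit 1614, nat_lit 1606] (nat_lit 2) [] false]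

noncomputable def sp4 : List Spec :=
  [Spec.mk (nat_lit 1612) (nat_lit 0) [nat_lit 3070, nat_lit 1126, nat_lit 1774, nat_lit 1666, nat_lit 1606, nat_lit 1614] (nat_lit 2) [nat_lit 3798] false,
   Spec.mk (nat_lit 1614) (nat_lit 0) [nat_lit 3072, nat_lit 1128, nat_lit 1776, nat_lit 1668, nat_lit 1608, nat_lit 1612] (nat_lit 0) [] false,
   Spec.mk (nat_lit 1628) (nat_lit 0) [nat_lit 3086, nat_lit 1142, nat_lit 1790, nat_lit 1574, nat_lit 1634] (nat_lit 4) [nat_lit 3814] false,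
   Spec.mk (nat_lit 1634) (nat_lit 0) [nat_lit 3092, nat_lit 1148, nat_lit 1796, nat_lit 1580, nat_lit 1652, nat_lit 1628, nat_lit 1640, nat_lit 1636] (nat_lit 5) [nat_lit 3820] false,
   Spec.mk (nat_lit 1636) (nat_lit 0) [nat_lit 3094, nat_lit 1150, nat_lit 1798, nat_lit 1582, nat_lit 1654, nat_lit 1642, nat_lit 1634] (nat_lit 4) [nat_lit 3822] false,
   Spec.mk (nat_lit 1640) (nat_lit 0) [nat_lit 3098, nat_lit 1154, nat_lit 1802, nat_lit 1586, nat_lit 1658, nat_lit 1634, nat_lit 1642] (nat_lit 8) [nat_lit 3826] true,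
   Spec.mk (nat_lit 1642) (nat_lit 0) [nat_lit 3100, nat_lit 1156, nat_lit 1804, nat_lit 1588, nat_lit 1660, nat_lit 1636, nat_lit 1640, nat_lit 1644] (nat_lit 5) [nat_lit 3828] false,
   Spec.mk (nat_lit 1644) (nat_lit 0) [nat_lit 3102, nat_lit 1158, nat_lit 1806, nat_lit 1590, nat_lit 1662, nat_lit 1642] (nat_lit 4) [] false,
   Spec.mk (nat_lit 1652) (nat_lit 0) [nat_lit 3110, nat_lit 1166, nat_lit 1814, nat_lit 1598, nat_lit 1634, nat_lit 1658, nat_lit 1654] (nat_lit 4) [nat_lit 3838] false,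
   Spec.mk (nat_lit 1654) (nat_lit 0) [nat_lit 3112, nat_lit 1168, nat_lit 1816, nat_lit 1600, nat_lit 1636, nat_lit 1660, nat_lit 1652] (nat_lit 4) [nat_lit 3840] false,
   Spec.mk (nat_lit 1658) (nat_lit 0) [nat_lit 3116, nat_lit 1172, nat_lit 1820, nat_lit 1604, nat_lit 1640, nat_lit 1676, nat_lit 1652, nat_lit 1660] (nat_lit 5) [nat_lit 3844] false,
   Spec.mk (nat_lit 1660) (nat_lit 0) [nat_lit 3118, nat_lit 1174, nat_lit 1822, nat_lit 1606, nat_lit 1642, nat_lit 1678, nat_lit 1654, nat_lit 1666, nat_lit 1658, nat_lit 1662] (nat_lit 3) [nat_lit 3846] false,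
   Spec.mk (nat_lit 1662) (nat_lit 0) [nat_lit 3120, nat_lit 1176, nat_lit 1824, nat_lit 1608, nat_lit 1644, nat_lit 1680, nat_lit 1668, nat_lit 1660] (nat_lit 3) [] false,
   Spec.mk (nat_lit 1666) (nat_lit 0) [nat_lit 3124, nat_lit 1180, nat_lit 1828, nat_lit 1612, nat_lit 1684, nat_lit 1660, nat_lit 1668] (nat_lit 4) [nat_lit 3852] false,
   Spec.mk (nat_lit 1668) (nat_lit 0) [nat_lit 3126, nat_lit 1182, nat_lit 1830, nat_lit 1614, nat_lit 1686, nat_lit 1662, nat_lit 1666] (nat_lit 2) [] false,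
   Spec.mk (nat_lit 1676) (nat_lit 0) [nat_lit 3134, nat_lit 1190, nat_lit 1838, nat_lit 1658, nat_lit 1678] (nat_lit 4) [nat_lit 3862] false,
   Spec.mk (nat_lit 1678) (nat_lit 0) [nat_lit 3136, nat_lit 1192, nat_lit 1840, nat_lit 1660, nat_lit 1684, nat_lit 1676, nat_lit 1680] (nat_lit 3) [nat_lit 3864] false,
   Spec.mk (nat_lit 1680) (nat_lit 0) [nat_lit 3138, nat_lit 1194, nat_lit 1842, nat_lit 1662, nat_lit 1686, nat_lit 1678] (nat_lit 4) [] false,
   Spec.mk (nat_lit 1684) (nat_lit 0) [nat_lit 3142, nat_lit 1198, nat_lit 1846, nat_lit 1666, nat_lit 1678, nat_lit 1686] (nat_lit 2) [nat_lit 3870] false,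
   Spec.mk (nat_lit 1686) (nat_lit 0) [nat_lit 3144, nat_lit 1200, nat_lit 1848, nat_lit 1668, nat_lit 1680, nat_lit 1692, nat_lit 1684] (nat_lit 1) [] false,
   Spec.mk (nat_lit 1692) (nat_lit 0) [nat_lit 3150, nat_lit 1206, nat_lit 1854, nat_lit 1686] (nat_lit 0) [] false,
   Spec.mk (nat_lit 1718) (nat_lit 0) [nat_lit 3176, nat_lit 1232, nat_lit 1556, nat_lit 1736, nat_lit 1724] (nat_lit 0) [nat_lit 3904] false,
   Spec.mk (nat_lit 1724) (nat_lit 0) [nat_lit 3182, nat_lit 1238, nat_lit 1562, nat_lit 1742, nat_lit 1718, nat_lit 1726] (nat_lit 2) [nat_lit 3910] false,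
   Spec.mk (nat_lit 1726) (nat_lit 0) [nat_lit 3184, nat_lit 1240, nat_lit 1564, nat_lit 1744, nat_lit 1724] (nat_lit 0) [nat_lit 3912] false,
   Spec.mk (nat_lit 1736) (nat_lit 0) [nat_lit 3194, nat_lit 1250, nat_lit 1574, nat_lit 1790, nat_lit 1718, nat_lit 1742] (nat_lit 2) [nat_lit 3922] false,
   Spec.mk (nat_lit 1742) (nat_lit 0) [nat_lit 3200, nat_lit 1256, nat_lit 1580, nat_lit 1796, nat_lit 1724, nat_lit 1760, nat_lit 1736, nat_lit 1748, nat_lit 1744] (nat_lit 2) [nat_lit 3928] false,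
   Spec.mk (nat_lit 1744) (nat_lit 0) [nat_lit 3202, nat_lit 1258, nat_lit 1582, nat_lit 1798, nat_lit 1726, nat_lit 1762, nat_lit 1750, nat_lit 1742] (nat_lit 1) [nat_lit 3930] false,
   Spec.mk (nat_lit 1748) (nat_lit 0) [nat_lit 3206, nat_lit 1262, nat_lit 1586, nat_lit 1802, nat_lit 1766, nat_lit 1742, nat_lit 1750] (nat_lit 4) [nat_lit 3934] false,
   Spec.mk (nat_lit 1750) (nat_lit 0) [nat_lit 3208, nat_lit 1264, nat_lit 1588, nat_lit 1804, nat_lit 1768, nat_lit 1744, nat_lit 1748, nat_lit 1752] (nat_lit 1) [nat_lit 3936] false,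
   Spec.mk (nat_lit 1752) (nat_lit 0) [nat_lit 3210, nat_lit 1266, nat_lit 1590, nat_lit 1806, nat_lit 1770, nat_lit 1750] (nat_lit 0) [] false,
   Spec.mk (nat_lit 1760) (nat_lit 0) [nat_lit 3218, nat_lit 1274, nat_lit 1598, nat_lit 1814, nat_lit 1742, nat_lit 1766, nat_lit 1762] (nat_lit 4) [nat_lit 3946] false,
   Spec.mk (nat_lit 1762) (nat_lit 0) [nat_lit 3220, nat_lit 1276, nat_lit 1600, nat_lit 1816, nat_lit 1744, nat_lit 1768, nat_lit 1760] (nat_lit 4) [nat_lit 3948] false,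
   Spec.mk (nat_lit 1766) (nat_lit 0) [nat_lit 3224, nat_lit 1280, nat_lit 1604, nat_lit 1820, nat_lit 1748, nat_lit 1760, nat_lit 1768] (nat_lit 4) [nat_lit 3952] false,
   Spec.mk (nat_lit 1768) (nat_lit 0) [nat_lit 3226, nat_lit 1282, nat_lit 1606, nat_lit 1822, nat_lit 1750, nat_lit 1762, nat_lit 1774, nat_lit 1766, nat_lit 1770] (nat_lit 2) [nat_lit 3954] false,
   Spec.mk (nat_lit 1770) (nat_lit 0) [nat_lit 3228, nat_lit 1284, nat_lit 1608, nat_lit 1824, nat_lit 1752, nat_lit 1776, nat_lit 1768] (nat_lit 2) [] false,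
   Spec.mk (nat_lit 1774) (nat_lit 0) [nat_lit 3232, nat_lit 1288, nat_lit 1612, nat_lit 1828, nat_lit 1768, nat_lit 1776] (nat_lit 2) [nat_lit 3960] false,
   Spec.mk (nat_lit 1776) (nat_lit 0) [nat_lit 3234, nat_lit 1290, nat_lit 1614, nat_lit 1830, nat_lit 1770, nat_lit 1774] (nat_lit 0) [] false,
   Spec.mk (nat_lit 1790) (nat_lit 0) [nat_lit 3248, nat_lit 1304, nat_lit 1628, nat_lit 1952, nat_lit 1736, nat_lit 1796] (nat_lit 1) [nat_lit 3976] false,
   Spec.mk (nat_lit 1796) (nat_lit 0) [nat_lit 3254, nat_lit 1310, nat_lit 1634, nat_lit 1958, nat_lit 1742, nat_lit 1814, nat_lit 1790, nat_lit 1802, nat_lit 1798] (nat_lit 2) [nat_lit 3982] false,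
   Spec.mk (nat_lit 1798) (nat_lit 0) [nat_lit 3256, nat_lit 1312, nat_lit 1636, nat_lit 1960, nat_lit 1744, nat_lit 1816, nat_lit 1804, nat_lit 1796] (nat_lit 1) [nat_lit 3984] false,
   Spec.mk (nat_lit 1802) (nat_lit 0) [nat_lit 3260, nat_lit 1316, nat_lit 1640, nat_lit 1964, nat_lit 1748, nat_lit 1820, nat_lit 1796, nat_lit 1804] (nat_lit 5) [nat_lit 3988] false,
   Spec.mk (nat_lit 1804) (nat_lit 0) [nat_lit 3262, nat_lit 1318, nat_lit 1642, nat_lit 1966, nat_lit 1750, nat_lit 1822, nat_lit 1798, nat_lit 1802, nat_lit 1806] (nat_lit 2) [nat_lit 3990] false,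
   Spec.mk (nat_lit 1806) (nat_lit 0) [nat_lit 3264, nat_lit 1320, nat_lit 1644, nat_lit 1968, nat_lit 1752, nat_lit 1824, nat_lit 1804] (nat_lit 1) [] false,
   Spec.mk (nat_lit 1814) (nat_lit 0) [nat_lit 3272, nat_lit 1328, nat_lit 1652, nat_lit 1976, nat_lit 1760, nat_lit 1868, nat_lit 1796, nat_lit 1820, nat_lit 1816] (nat_lit 2) [nat_lit 4000] false,
   Spec.mk (nat_lit 1816) (nat_lit 0) [nat_lit 3274, nat_lit 1330, nat_lit 1654, nat_lit 1978, nat_lit 1762, nat_lit 1870, nat_lit 1798, nat_lit 1822, nat_lit 1814] (nat_lit 2) [nat_lit 4002] false,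
   Spec.mk (nat_lit 1820) (nat_lit 0) [nat_lit 3278, nat_lit 1334, nat_lit 1658, nat_lit 1982, nat_lit 1766, nat_lit 1874, nat_lit 1802, nat_lit 1838, nat_lit 1814, nat_lit 1822] (nat_lit 3) [nat_lit 4006] false,
   Spec.mk (nat_lit 1822) (nat_lit 0) [nat_lit 3280, nat_lit 1336, nat_lit 1660, nat_lit 1984, nat_lit 1768, nat_lit 1876, nat_lit 1804, nat_lit 1840, nat_lit 1816, nat_lit 1828, nat_lit 1820, nat_lit 1824] (nat_lit 1) [nat_lit 4008] false,
   Spec.mk (nat_lit 1824) (nat_lit 0) [nat_lit 3282, nat_lit 1338, nat_lit 1662, nat_lit 1986, nat_lit 1770, nat_lit 1878, nat_lit 1806, nat_lit 1842, nat_lit 1830, nat_lit 1822] (nat_lit 1) [] false,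
   Spec.mk (nat_lit 1828) (nat_lit 0) [nat_lit 3286, nat_lit 1342, nat_lit 1666, nat_lit 1990, nat_lit 1774, nat_lit 1882, nat_lit 1846, nat_lit 1822, nat_lit 1830] (nat_lit 2) [nat_lit 4014] false,
   Spec.mk (nat_lit 1830) (nat_lit 0) [nat_lit 3288, nat_lit 1344, nat_lit 1668, nat_lit 1992, nat_lit 1776, nat_lit 1884, nat_lit 1848, nat_lit 1824, nat_lit 1828] (nat_lit 0) [] false,
   Spec.mk (nat_lit 1838) (nat_lit 0) [nat_lit 3296, nat_lit 1352, nat_lit 1676, nat_lit 2000, nat_lit 1892, nat_lit 1820, nat_lit 1840] (nat_lit 3) [nat_lit 4024] false,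
   Spec.mk (nat_lit 1840) (nat_lit 0) [nat_lit 3298, nat_lit 1354, nat_lit 1678, nat_lit 2002, nat_lit 1894, nat_lit 1822, nat_lit 1846, nat_lit 1838, nat_lit 1842] (nat_lit 2) [nat_lit 4026] false,
   Spec.mk (nat_lit 1842) (nat_lit 0) [nat_lit 3300, nat_lit 1356, nat_lit 1680, nat_lit 2004, nat_lit 1896, nat_lit 1824, nat_lit 1848, nat_lit 1840] (nat_lit 3) [] false,
   Spec.mk (nat_lit 1846) (nat_lit 0) [nat_lit 3304, nat_lit 1360, nat_lit 1684, nat_lit 2008, nat_lit 1900, nat_lit 1828, nat_lit 1840, nat_lit 1848] (nat_lit 1) [nat_lit 4032] false,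
   Spec.mk (nat_lit 1848) (nat_lit 0) [nat_lit 3306, nat_lit 1362, nat_lit 1686, nat_lit 2010, nat_lit 1902, nat_lit 1830, nat_lit 1842, nat_lit 1854, nat_lit 1846] (nat_lit 0) [] false,
   Spec.mk (nat_lit 1854) (nat_lit 1) [nat_lit 3312, nat_lit 1368, nat_lit 1692, nat_lit 2016, nat_lit 1908, nat_lit 1848] (nat_lit 0) [] false,
   Spec.mk (nat_lit 1868) (nat_lit 0) [nat_lit 3326, nat_lit 1382, nat_lit 2030, nat_lit 1814, nat_lit 1874, nat_lit 1870] (nat_lit 2) [nat_lit 4054] false,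
   Spec.mk (nat_lit 1870) (nat_lit 0) [nat_lit 3328, nat_lit 1384, nat_lit 2032, nat_lit 1816, nat_lit 1876, nat_lit 1868] (nat_lit 2) [nat_lit 4056] false,
   Spec.mk (nat_lit 1874) (nat_lit 0) [nat_lit 3332, nat_lit 1388, nat_lit 2036, nat_lit 1820, nat_lit 1892, nat_lit 1868, nat_lit 1876] (nat_lit 4) [nat_lit 4060] false,
   Spec.mk (nat_lit 1876) (nat_lit 0) [nat_lit 3334, nat_lit 1390, nat_lit 2038, nat_lit 1822, nat_lit 1894, nat_lit 1870, nat_lit 1882, nat_lit 1874, nat_lit 1878] (nat_lit 2) [nat_lit 4062] false]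

noncomputable def sp5 : List Spec :=
  [Spec.mk (nat_lit 1878) (nat_lit 0) [nat_lit 3336, nat_lit 1392, nat_lit 2040, nat_lit 1824, nat_lit 1896, nat_lit 1884, nat_lit 1876] (nat_lit 2) [] false,
   Spec.mk (nat_lit 1882) (nat_lit 0) [nat_lit 3340, nat_lit 1396, nat_lit 2044, nat_lit 1828, nat_lit 1900, nat_lit 1876, nat_lit 1884] (nat_lit 4) [nat_lit 4068] false,
   Spec.mk (nat_lit 1884) (nat_lit 0) [nat_lit 3342, nat_lit 1398, nat_lit 2046, nat_lit 1830, nat_lit 1902, nat_lit 1878, nat_lit 1882] (nat_lit 2) [] false,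
   Spec.mk (nat_lit 1892) (nat_lit 0) [nat_lit 3350, nat_lit 1406, nat_lit 2054, nat_lit 1838, nat_lit 1874, nat_lit 1894] (nat_lit 2) [nat_lit 4078] false,
   Spec.mk (nat_lit 1894) (nat_lit 0) [nat_lit 3352, nat_lit 1408, nat_lit 2056, nat_lit 1840, nat_lit 1876, nat_lit 1900, nat_lit 1892, nat_lit 1896] (nat_lit 1) [nat_lit 4080] false,
   Spec.mk (nat_lit 1896) (nat_lit 0) [nat_lit 3354, nat_lit 1410, nat_lit 2058, nat_lit 1842, nat_lit 1878, nat_lit 1902, nat_lit 1894] (nat_lit 2) [] false,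
   Spec.mk (nat_lit 1900) (nat_lit 0) [nat_lit 3358, nat_lit 1414, nat_lit 2062, nat_lit 1846, nat_lit 1882, nat_lit 1918, nat_lit 1894, nat_lit 1902] (nat_lit 1) [nat_lit 4086] false,
   Spec.mk (nat_lit 1902) (nat_lit 0) [nat_lit 3360, nat_lit 1416, nat_lit 2064, nat_lit 1848, nat_lit 1884, nat_lit 1920, nat_lit 1896, nat_lit 1908, nat_lit 1900] (nat_lit 0) [] false,
   Spec.mk (nat_lit 1908) (nat_lit 0) [nat_lit 3366, nat_lit 1422, nat_lit 2070, nat_lit 1854, nat_lit 1926, nat_lit 1902] (nat_lit 0) [] false,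
   Spec.mk (nat_lit 1918) (nat_lit 0) [nat_lit 3376, nat_lit 1432, nat_lit 2080, nat_lit 1900, nat_lit 1920] (nat_lit 0) [nat_lit 4104] false,
   Spec.mk (nat_lit 1920) (nat_lit 0) [nat_lit 3378, nat_lit 1434, nat_lit 2082, nat_lit 1902, nat_lit 1926, nat_lit 1918] (nat_lit 0) [] false,
   Spec.mk (nat_lit 1926) (nat_lit 2) [nat_lit 3384, nat_lit 1440, nat_lit 2088, nat_lit 1908, nat_lit 1920] (nat_lit 0) [] false,
   Spec.mk (nat_lit 1952) (nat_lit 0) [nat_lit 3410, nat_lit 1790, nat_lit 1958] (nat_lit 0) [nat_lit 4138] false,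
   Spec.mk (nat_lit 1958) (nat_lit 0) [nat_lit 3416, nat_lit 1796, nat_lit 1976, nat_lit 1952, nat_lit 1964, nat_lit 1960] (nat_lit 1) [nat_lit 4144] false,
   Spec.mk (nat_lit 1960) (nat_lit 0) [nat_lit 3418, nat_lit 1798, nat_lit 1978, nat_lit 1966, nat_lit 1958] (nat_lit 0) [nat_lit 4146] false,
   Spec.mk (nat_lit 1964) (nat_lit 0) [nat_lit 3422, nat_lit 1802, nat_lit 1982, nat_lit 1958, nat_lit 1966] (nat_lit 4) [nat_lit 4150] false,
   Spec.mk (nat_lit 1966) (nat_lit 0) [nat_lit 3424, nat_lit 1804, nat_lit 1984, nat_lit 1960, nat_lit 1964, nat_lit 1968] (nat_lit 1) [nat_lit 4152] false,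
   Spec.mk (nat_lit 1968) (nat_lit 0) [nat_lit 3426, nat_lit 1806, nat_lit 1986, nat_lit 1966] (nat_lit 0) [] false,
   Spec.mk (nat_lit 1976) (nat_lit 0) [nat_lit 3434, nat_lit 1814, nat_lit 2030, nat_lit 1958, nat_lit 1982, nat_lit 1978] (nat_lit 2) [nat_lit 4162] false,
   Spec.mk (nat_lit 1978) (nat_lit 0) [nat_lit 3436, nat_lit 1816, nat_lit 2032, nat_lit 1960, nat_lit 1984, nat_lit 1976] (nat_lit 2) [nat_lit 4164] false,
   Spec.mk (nat_lit 1982) (nat_lit 0) [nat_lit 3440, nat_lit 1820, nat_lit 2036, nat_lit 1964, nat_lit 2000, nat_lit 1976, nat_lit 1984] (nat_lit 3) [nat_lit 4168] false,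
   Spec.mk (nat_lit 1984) (nat_lit 0) [nat_lit 3442, nat_lit 1822, nat_lit 2038, nat_lit 1966, nat_lit 2002, nat_lit 1978, nat_lit 1990, nat_lit 1982, nat_lit 1986] (nat_lit 1) [nat_lit 4170] false,
   Spec.mk (nat_lit 1986) (nat_lit 0) [nat_lit 3444, nat_lit 1824, nat_lit 2040, nat_lit 1968, nat_lit 2004, nat_lit 1992, nat_lit 1984] (nat_lit 1) [] false,
   Spec.mk (nat_lit 1990) (nat_lit 0) [nat_lit 3448, nat_lit 1828, nat_lit 2044, nat_lit 2008, nat_lit 1984, nat_lit 1992] (nat_lit 2) [nat_lit 4176] false,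
   Spec.mk (nat_lit 1992) (nat_lit 0) [nat_lit 3450, nat_lit 1830, nat_lit 2046, nat_lit 2010, nat_lit 1986, nat_lit 1990] (nat_lit 0) [] false,
   Spec.mk (nat_lit 2000) (nat_lit 0) [nat_lit 3458, nat_lit 1838, nat_lit 2054, nat_lit 1982, nat_lit 2002] (nat_lit 4) [nat_lit 4186] false,
   Spec.mk (nat_lit 2002) (nat_lit 0) [nat_lit 3460, nat_lit 1840, nat_lit 2056, nat_lit 1984, nat_lit 2008, nat_lit 2000, nat_lit 2004] (nat_lit 3) [nat_lit 4188] false,
   Spec.mk (nat_lit 2004) (nat_lit 0) [nat_lit 3462, nat_lit 1842, nat_lit 2058, nat_lit 1986, nat_lit 2010, nat_lit 2002] (nat_lit 4) [] false,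
   Spec.mk (nat_lit 2008) (nat_lit 0) [nat_lit 3466, nat_lit 1846, nat_lit 2062, nat_lit 1990, nat_lit 2002, nat_lit 2010] (nat_lit 2) [nat_lit 4194] false,
   Spec.mk (nat_lit 2010) (nat_lit 0) [nat_lit 3468, nat_lit 1848, nat_lit 2064, nat_lit 1992, nat_lit 2004, nat_lit 2016, nat_lit 2008] (nat_lit 1) [] false,
   Spec.mk (nat_lit 2016) (nat_lit 0) [nat_lit 3474, nat_lit 1854, nat_lit 2070, nat_lit 2010] (nat_lit 0) [] false,
   Spec.mk (nat_lit 2030) (nat_lit 0) [nat_lit 3488, nat_lit 1868, nat_lit 1976, nat_lit 2036, nat_lit 2032] (nat_lit 0) [nat_lit 4216] false,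
   Spec.mk (nat_lit 2032) (nat_lit 0) [nat_lit 3490, nat_lit 1870, nat_lit 1978, nat_lit 2038, nat_lit 2030] (nat_lit 0) [nat_lit 4218] false,
   Spec.mk (nat_lit 2036) (nat_lit 0) [nat_lit 3494, nat_lit 1874, nat_lit 1982, nat_lit 2054, nat_lit 2030, nat_lit 2038] (nat_lit 2) [nat_lit 4222] false,
   Spec.mk (nat_lit 2038) (nat_lit 0) [nat_lit 3496, nat_lit 1876, nat_lit 1984, nat_lit 2056, nat_lit 2032, nat_lit 2044, nat_lit 2036, nat_lit 2040] (nat_lit 0) [nat_lit 4224] false,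
   Spec.mk (nat_lit 2040) (nat_lit 0) [nat_lit 3498, nat_lit 1878, nat_lit 1986, nat_lit 2058, nat_lit 2046, nat_lit 2038] (nat_lit 0) [] false,
   Spec.mk (nat_lit 2044) (nat_lit 0) [nat_lit 3502, nat_lit 1882, nat_lit 1990, nat_lit 2062, nat_lit 2038, nat_lit 2046] (nat_lit 2) [nat_lit 4230] false,
   Spec.mk (nat_lit 2046) (nat_lit 0) [nat_lit 3504, nat_lit 1884, nat_lit 1992, nat_lit 2064, nat_lit 2040, nat_lit 2044] (nat_lit 0) [] false,
   Spec.mk (nat_lit 2054) (nat_lit 0) [nat_lit 3512, nat_lit 1892, nat_lit 2000, nat_lit 2108, nat_lit 2036, nat_lit 2056] (nat_lit 1) [nat_lit 4240] false,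
   Spec.mk (nat_lit 2056) (nat_lit 0) [nat_lit 3514, nat_lit 1894, nat_lit 2002, nat_lit 2110, nat_lit 2038, nat_lit 2062, nat_lit 2054, nat_lit 2058] (nat_lit 0) [nat_lit 4242] false,
   Spec.mk (nat_lit 2058) (nat_lit 0) [nat_lit 3516, nat_lit 1896, nat_lit 2004, nat_lit 2112, nat_lit 2040, nat_lit 2064, nat_lit 2056] (nat_lit 1) [] false,
   Spec.mk (nat_lit 2062) (nat_lit 0) [nat_lit 3520, nat_lit 1900, nat_lit 2008, nat_lit 2116, nat_lit 2044, nat_lit 2080, nat_lit 2056, nat_lit 2064] (nat_lit 0) [nat_lit 4248] false,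
   Spec.mk (nat_lit 2064) (nat_lit 1) [nat_lit 3522, nat_lit 1902, nat_lit 2010, nat_lit 2118, nat_lit 2046, nat_lit 2082, nat_lit 2058, nat_lit 2070, nat_lit 2062] (nat_lit 0) [] false,
   Spec.mk (nat_lit 2070) (nat_lit 1) [nat_lit 3528, nat_lit 1908, nat_lit 2016, nat_lit 2124, nat_lit 2088, nat_lit 2064] (nat_lit 0) [] false,
   Spec.mk (nat_lit 2080) (nat_lit 0) [nat_lit 3538, nat_lit 1918, nat_lit 2134, nat_lit 2062, nat_lit 2082] (nat_lit 0) [nat_lit 4266] false,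
   Spec.mk (nat_lit 2082) (nat_lit 0) [nat_lit 3540, nat_lit 1920, nat_lit 2136, nat_lit 2064, nat_lit 2088, nat_lit 2080] (nat_lit 0) [] false,
   Spec.mk (nat_lit 2088) (nat_lit 2) [nat_lit 3546, nat_lit 1926, nat_lit 2142, nat_lit 2070, nat_lit 2082] (nat_lit 0) [] false,
   Spec.mk (nat_lit 2108) (nat_lit 0) [nat_lit 3566, nat_lit 2054, nat_lit 2110] (nat_lit 0) [nat_lit 4294] false,
   Spec.mk (nat_lit 2110) (nat_lit 1) [nat_lit 3568, nat_lit 2056, nat_lit 2116, nat_lit 2108, nat_lit 2112] (nat_lit 0) [nat_lit 4296] false,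
   Spec.mk (nat_lit 2112) (nat_lit 0) [nat_lit 3570, nat_lit 2058, nat_lit 2118, nat_lit 2110] (nat_lit 0) [] false,
   Spec.mk (nat_lit 2116) (nat_lit 0) [nat_lit 3574, nat_lit 2062, nat_lit 2134, nat_lit 2110, nat_lit 2118] (nat_lit 0) [nat_lit 4302] false,
   Spec.mk (nat_lit 2118) (nat_lit 1) [nat_lit 3576, nat_lit 2064, nat_lit 2136, nat_lit 2112, nat_lit 2124, nat_lit 2116] (nat_lit 0) [] false,
   Spec.mk (nat_lit 2124) (nat_lit 0) [nat_lit 3582, nat_lit 2070, nat_lit 2142, nat_lit 2118] (nat_lit 0) [] false,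
   Spec.mk (nat_lit 2134) (nat_lit 2) [nat_lit 3592, nat_lit 2080, nat_lit 2116, nat_lit 2136] (nat_lit 0) [nat_lit 4320] false,
   Spec.mk (nat_lit 2136) (nat_lit 2) [nat_lit 3594, nat_lit 2082, nat_lit 2118, nat_lit 2142, nat_lit 2134] (nat_lit 0) [] false,
   Spec.mk (nat_lit 2142) (nat_lit 3) [nat_lit 3600, nat_lit 2088, nat_lit 2124, nat_lit 2160, nat_lit 2136] (nat_lit 0) [] false,
   Spec.mk (nat_lit 2160) (nat_lit 4) [nat_lit 3618, nat_lit 2142] (nat_lit 0) [] false,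
   Spec.mk (nat_lit 2240) (nat_lit 4) [nat_lit 782, nat_lit 2294, nat_lit 2258] (nat_lit 0) [nat_lit 4426] false,
   Spec.mk (nat_lit 2258) (nat_lit 2) [nat_lit 800, nat_lit 2312, nat_lit 2240, nat_lit 2264] (nat_lit 0) [nat_lit 4444] false,
   Spec.mk (nat_lit 2264) (nat_lit 2) [nat_lit 806, nat_lit 2318, nat_lit 2258, nat_lit 2266] (nat_lit 0) [nat_lit 4450] false]

noncomputable def sp6 : List Spec :=
  [Spec.mk (nat_lit 2266) (nat_lit 3) [nat_lit 808, nat_lit 2320, nat_lit 2264] (nat_lit 0) [nat_lit 4452, nat_lit 80] false,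
   Spec.mk (nat_lit 2294) (nat_lit 2) [nat_lit 836, nat_lit 2456, nat_lit 2240, nat_lit 2312] (nat_lit 0) [nat_lit 4480] false,
   Spec.mk (nat_lit 2312) (nat_lit 2) [nat_lit 854, nat_lit 2474, nat_lit 2258, nat_lit 2366, nat_lit 2294, nat_lit 2330, nat_lit 2318] (nat_lit 0) [nat_lit 4498] false,
   Spec.mk (nat_lit 2318) (nat_lit 1) [nat_lit 860, nat_lit 2480, nat_lit 2264, nat_lit 2372, nat_lit 2336, nat_lit 2312, nat_lit 2320] (nat_lit 0) [nat_lit 4504] false,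
   Spec.mk (nat_lit 2320) (nat_lit 2) [nat_lit 862, nat_lit 2482, nat_lit 2266, nat_lit 2374, nat_lit 2338, nat_lit 2318] (nat_lit 0) [nat_lit 4506, nat_lit 134] false,
   Spec.mk (nat_lit 2330) (nat_lit 0) [nat_lit 872, nat_lit 2492, nat_lit 2384, nat_lit 2312, nat_lit 2336] (nat_lit 0) [nat_lit 4516] false,
   Spec.mk (nat_lit 2336) (nat_lit 1) [nat_lit 878, nat_lit 2498, nat_lit 2390, nat_lit 2318, nat_lit 2330, nat_lit 2342, nat_lit 2338] (nat_lit 0) [nat_lit 4522] false,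
   Spec.mk (nat_lit 2338) (nat_lit 1) [nat_lit 880, nat_lit 2500, nat_lit 2392, nat_lit 2320, nat_lit 2344, nat_lit 2336] (nat_lit 0) [nat_lit 4524, nat_lit 152] false,
   Spec.mk (nat_lit 2342) (nat_lit 0) [nat_lit 884, nat_lit 2504, nat_lit 2396, nat_lit 2336, nat_lit 2344] (nat_lit 0) [nat_lit 4528] false,
   Spec.mk (nat_lit 2344) (nat_lit 2) [nat_lit 886, nat_lit 2506, nat_lit 2398, nat_lit 2338, nat_lit 2342, nat_lit 2346] (nat_lit 0) [nat_lit 4530, nat_lit 158] false,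
   Spec.mk (nat_lit 2346) (nat_lit 2) [nat_lit 888, nat_lit 2508, nat_lit 2400, nat_lit 2344] (nat_lit 0) [nat_lit 160] false,
   Spec.mk (nat_lit 2366) (nat_lit 0) [nat_lit 908, nat_lit 2528, nat_lit 2312, nat_lit 2384, nat_lit 2372] (nat_lit 0) [nat_lit 4552] false,
   Spec.mk (nat_lit 2372) (nat_lit 0) [nat_lit 914, nat_lit 2534, nat_lit 2318, nat_lit 2390, nat_lit 2366, nat_lit 2374] (nat_lit 2) [nat_lit 4558] false,
   Spec.mk (nat_lit 2374) (nat_lit 0) [nat_lit 916, nat_lit 2536, nat_lit 2320, nat_lit 2392, nat_lit 2372] (nat_lit 1) [nat_lit 4560, nat_lit 188] false,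
   Spec.mk (nat_lit 2384) (nat_lit 0) [nat_lit 926, nat_lit 2546, nat_lit 2330, nat_lit 2366, nat_lit 2390] (nat_lit 0) [nat_lit 4570] false,
   Spec.mk (nat_lit 2390) (nat_lit 0) [nat_lit 932, nat_lit 2552, nat_lit 2336, nat_lit 2372, nat_lit 2408, nat_lit 2384, nat_lit 2396, nat_lit 2392] (nat_lit 0) [nat_lit 4576] false,
   Spec.mk (nat_lit 2392) (nat_lit 0) [nat_lit 934, nat_lit 2554, nat_lit 2338, nat_lit 2374, nat_lit 2410, nat_lit 2398, nat_lit 2390] (nat_lit 0) [nat_lit 4578, nat_lit 206] false,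
   Spec.mk (nat_lit 2396) (nat_lit 0) [nat_lit 938, nat_lit 2558, nat_lit 2342, nat_lit 2414, nat_lit 2390, nat_lit 2398] (nat_lit 2) [nat_lit 4582] false,
   Spec.mk (nat_lit 2398) (nat_lit 0) [nat_lit 940, nat_lit 2560, nat_lit 2344, nat_lit 2416, nat_lit 2392, nat_lit 2396, nat_lit 2400] (nat_lit 0) [nat_lit 4584, nat_lit 212] false,
   Spec.mk (nat_lit 2400) (nat_lit 0) [nat_lit 942, nat_lit 2562, nat_lit 2346, nat_lit 2418, nat_lit 2398] (nat_lit 0) [nat_lit 214] false,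
   Spec.mk (nat_lit 2408) (nat_lit 0) [nat_lit 950, nat_lit 2570, nat_lit 2390, nat_lit 2414, nat_lit 2410] (nat_lit 0) [nat_lit 4594] false,
   Spec.mk (nat_lit 2410) (nat_lit 0) [nat_lit 952, nat_lit 2572, nat_lit 2392, nat_lit 2416, nat_lit 2408] (nat_lit 1) [nat_lit 4596, nat_lit 224] false,
   Spec.mk (nat_lit 2414) (nat_lit 0) [nat_lit 956, nat_lit 2576, nat_lit 2396, nat_lit 2408, nat_lit 2416] (nat_lit 0) [nat_lit 4600] false,
   Spec.mk (nat_lit 2416) (nat_lit 1) [nat_lit 958, nat_lit 2578, nat_lit 2398, nat_lit 2410, nat_lit 2422, nat_lit 2414, nat_lit 2418] (nat_lit 0) [nat_lit 4602, nat_lit 230] false,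
   Spec.mk (nat_lit 2418) (nat_lit 0) [nat_lit 960, nat_lit 2580, nat_lit 2400, nat_lit 2424, nat_lit 2416] (nat_lit 0) [nat_lit 232] false,
   Spec.mk (nat_lit 2422) (nat_lit 1) [nat_lit 964, nat_lit 2584, nat_lit 2416, nat_lit 2424] (nat_lit 0) [nat_lit 4608, nat_lit 236] false,
   Spec.mk (nat_lit 2424) (nat_lit 2) [nat_lit 966, nat_lit 2586, nat_lit 2418, nat_lit 2422] (nat_lit 0) [nat_lit 238] false,
   Spec.mk (nat_lit 2456) (nat_lit 2) [nat_lit 998, nat_lit 2942, nat_lit 2294, nat_lit 2474] (nat_lit 0) [nat_lit 4642] false,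
   Spec.mk (nat_lit 2474) (nat_lit 1) [nat_lit 1016, nat_lit 2960, nat_lit 2312, nat_lit 2528, nat_lit 2456, nat_lit 2492, nat_lit 2480] (nat_lit 0) [nat_lit 4660] false,
   Spec.mk (nat_lit 2480) (nat_lit 0) [nat_lit 1022, nat_lit 2966, nat_lit 2318, nat_lit 2534, nat_lit 2498, nat_lit 2474, nat_lit 2482] (nat_lit 0) [nat_lit 4666] false,
   Spec.mk (nat_lit 2482) (nat_lit 1) [nat_lit 1024, nat_lit 2968, nat_lit 2320, nat_lit 2536, nat_lit 2500, nat_lit 2480] (nat_lit 0) [nat_lit 4668, nat_lit 296] false,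
   Spec.mk (nat_lit 2492) (nat_lit 0) [nat_lit 1034, nat_lit 2978, nat_lit 2330, nat_lit 2546, nat_lit 2474, nat_lit 2498] (nat_lit 2) [nat_lit 4678] false,
   Spec.mk (nat_lit 2498) (nat_lit 0) [nat_lit 1040, nat_lit 2984, nat_lit 2336, nat_lit 2552, nat_lit 2480, nat_lit 2492, nat_lit 2504, nat_lit 2500] (nat_lit 1) [nat_lit 4684] false,
   Spec.mk (nat_lit 2500) (nat_lit 0) [nat_lit 1042, nat_lit 2986, nat_lit 2338, nat_lit 2554, nat_lit 2482, nat_lit 2506, nat_lit 2498] (nat_lit 1) [nat_lit 4686, nat_lit 314] false,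
   Spec.mk (nat_lit 2504) (nat_lit 0) [nat_lit 1046, nat_lit 2990, nat_lit 2342, nat_lit 2558, nat_lit 2498, nat_lit 2506] (nat_lit 2) [nat_lit 4690] false,
   Spec.mk (nat_lit 2506) (nat_lit 0) [nat_lit 1048, nat_lit 2992, nat_lit 2344, nat_lit 2560, nat_lit 2500, nat_lit 2504, nat_lit 2508] (nat_lit 0) [nat_lit 4692, nat_lit 320] false,
   Spec.mk (nat_lit 2508) (nat_lit 0) [nat_lit 1050, nat_lit 2994, nat_lit 2346, nat_lit 2562, nat_lit 2506] (nat_lit 0) [nat_lit 322] false,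
   Spec.mk (nat_lit 2528) (nat_lit 1) [nat_lit 1070, nat_lit 3014, nat_lit 2366, nat_lit 2690, nat_lit 2474, nat_lit 2546, nat_lit 2534] (nat_lit 0) [nat_lit 4714] false,
   Spec.mk (nat_lit 2534) (nat_lit 0) [nat_lit 1076, nat_lit 3020, nat_lit 2372, nat_lit 2696, nat_lit 2480, nat_lit 2552, nat_lit 2528, nat_lit 2536] (nat_lit 1) [nat_lit 4720] false,
   Spec.mk (nat_lit 2536) (nat_lit 0) [nat_lit 1078, nat_lit 3022, nat_lit 2374, nat_lit 2698, nat_lit 2482, nat_lit 2554, nat_lit 2534] (nat_lit 0) [nat_lit 4722, nat_lit 350] false,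
   Spec.mk (nat_lit 2546) (nat_lit 0) [nat_lit 1088, nat_lit 3032, nat_lit 2384, nat_lit 2708, nat_lit 2492, nat_lit 2600, nat_lit 2528, nat_lit 2552] (nat_lit 0) [nat_lit 4732] false,
   Spec.mk (nat_lit 2552) (nat_lit 0) [nat_lit 1094, nat_lit 3038, nat_lit 2390, nat_lit 2714, nat_lit 2498, nat_lit 2606, nat_lit 2534, nat_lit 2570, nat_lit 2546, nat_lit 2558, nat_lit 2554] (nat_lit 0) [nat_lit 4738] false,
   Spec.mk (nat_lit 2554) (nat_lit 0) [nat_lit 1096, nat_lit 3040, nat_lit 2392, nat_lit 2716, nat_lit 2500, nat_lit 2608, nat_lit 2536, nat_lit 2572, nat_lit 2560, nat_lit 2552] (nat_lit 0) [nat_lit 4740, nat_lit 368] false,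
   Spec.mk (nat_lit 2558) (nat_lit 0) [nat_lit 1100, nat_lit 3044, nat_lit 2396, nat_lit 2720, nat_lit 2504, nat_lit 2612, nat_lit 2576, nat_lit 2552, nat_lit 2560] (nat_lit 2) [nat_lit 4744] false,
   Spec.mk (nat_lit 2560) (nat_lit 0) [nat_lit 1102, nat_lit 3046, nat_lit 2398, nat_lit 2722, nat_lit 2506, nat_lit 2614, nat_lit 2578, nat_lit 2554, nat_lit 2558, nat_lit 2562] (nat_lit 0) [nat_lit 4746, nat_lit 374] false,
   Spec.mk (nat_lit 2562) (nat_lit 0) [nat_lit 1104, nat_lit 3048, nat_lit 2400, nat_lit 2724, nat_lit 2508, nat_lit 2616, nat_lit 2580, nat_lit 2560] (nat_lit 0) [nat_lit 376] false,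
   Spec.mk (nat_lit 2570) (nat_lit 0) [nat_lit 1112, nat_lit 3056, nat_lit 2408, nat_lit 2732, nat_lit 2624, nat_lit 2552, nat_lit 2576, nat_lit 2572] (nat_lit 1) [nat_lit 4756] false,
   Spec.mk (nat_lit 2572) (nat_lit 0) [nat_lit 1114, nat_lit 3058, nat_lit 2410, nat_lit 2734, nat_lit 2626, nat_lit 2554, nat_lit 2578, nat_lit 2570] (nat_lit 2) [nat_lit 4758, nat_lit 386] false,
   Spec.mk (nat_lit 2576) (nat_lit 0) [nat_lit 1118, nat_lit 3062, nat_lit 2414, nat_lit 2738, nat_lit 2630, nat_lit 2558, nat_lit 2570, nat_lit 2578] (nat_lit 1) [nat_lit 4762] false,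
   Spec.mk (nat_lit 2578) (nat_lit 0) [nat_lit 1120, nat_lit 3064, nat_lit 2416, nat_lit 2740, nat_lit 2632, nat_lit 2560, nat_lit 2572, nat_lit 2584, nat_lit 2576, nat_lit 2580] (nat_lit 0) [nat_lit 4764, nat_lit 392] false,
   Spec.mk (nat_lit 2580) (nat_lit 0) [nat_lit 1122, nat_lit 3066, nat_lit 2418, nat_lit 2742, nat_lit 2634, nat_lit 2562, nat_lit 2586, nat_lit 2578] (nat_lit 1) [nat_lit 394] false,
   Spec.mk (nat_lit 2584) (nat_lit 0) [nat_lit 1126, nat_lit 3070, nat_lit 2422, nat_lit 2746, nat_lit 2638, nat_lit 2578, nat_lit 2586] (nat_lit 0) [nat_lit 4770, nat_lit 398] false,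
   Spec.mk (nat_lit 2586) (nat_lit 1) [nat_lit 1128, nat_lit 3072, nat_lit 2424, nat_lit 2748, nat_lit 2640, nat_lit 2580, nat_lit 2584] (nat_lit 0) [nat_lit 400] false,
   Spec.mk (nat_lit 2600) (nat_lit 0) [nat_lit 1142, nat_lit 3086, nat_lit 2762, nat_lit 2546, nat_lit 2606] (nat_lit 0) [nat_lit 4786] false,
   Spec.mk (nat_lit 2606) (nat_lit 0) [nat_lit 1148, nat_lit 3092, nat_lit 2768, nat_lit 2552, nat_lit 2624, nat_lit 2600, nat_lit 2612, nat_lit 2608] (nat_lit 1) [nat_lit 4792] false,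
   Spec.mk (nat_lit 2608) (nat_lit 0) [nat_lit 1150, nat_lit 3094, nat_lit 2770, nat_lit 2554, nat_lit 2626, nat_lit 2614, nat_lit 2606] (nat_lit 1) [nat_lit 4794, nat_lit 422] false,
   Spec.mk (nat_lit 2612) (nat_lit 0) [nat_lit 1154, nat_lit 3098, nat_lit 2774, nat_lit 2558, nat_lit 2630, nat_lit 2606, nat_lit 2614] (nat_lit 4) [nat_lit 4798] false,
   Spec.mk (nat_lit 2614) (nat_lit 0) [nat_lit 1156, nat_lit 3100, nat_lit 2776, nat_lit 2560, nat_lit 2632, nat_lit 2608, nat_lit 2612, nat_lit 2616] (nat_lit 2) [nat_lit 4800, nat_lit 428] false,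
   Spec.mk (nat_lit 2616) (nat_lit 0) [nat_lit 1158, nat_lit 3102, nat_lit 2778, nat_lit 2562, nat_lit 2634, nat_lit 2614] (nat_lit 2) [nat_lit 430] false,
   Spec.mk (nat_lit 2624) (nat_lit 0) [nat_lit 1166, nat_lit 3110, nat_lit 2786, nat_lit 2570, nat_lit 2606, nat_lit 2630, nat_lit 2626] (nat_lit 0) [nat_lit 4810] false]

noncomputable def sp7 : List Spec :=
  [Spec.mk (nat_lit 2626) (nat_lit 0) [nat_lit 1168, nat_lit 3112, nat_lit 2788, nat_lit 2572, nat_lit 2608, nat_lit 2632, nat_lit 2624] (nat_lit 1) [nat_lit 4812, nat_lit 440] false,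
   Spec.mk (nat_lit 2630) (nat_lit 0) [nat_lit 1172, nat_lit 3116, nat_lit 2792, nat_lit 2576, nat_lit 2612, nat_lit 2648, nat_lit 2624, nat_lit 2632] (nat_lit 1) [nat_lit 4816] false,
   Spec.mk (nat_lit 2632) (nat_lit 0) [nat_lit 1174, nat_lit 3118, nat_lit 2794, nat_lit 2578, nat_lit 2614, nat_lit 2650, nat_lit 2626, nat_lit 2638, nat_lit 2630, nat_lit 2634] (nat_lit 0) [nat_lit 4818, nat_lit 446] false,
   Spec.mk (nat_lit 2634) (nat_lit 0) [nat_lit 1176, nat_lit 3120, nat_lit 2796, nat_lit 2580, nat_lit 2616, nat_lit 2652, nat_lit 2640, nat_lit 2632] (nat_lit 1) [nat_lit 448] false,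
   Spec.mk (nat_lit 2638) (nat_lit 0) [nat_lit 1180, nat_lit 3124, nat_lit 2800, nat_lit 2584, nat_lit 2656, nat_lit 2632, nat_lit 2640] (nat_lit 1) [nat_lit 4824, nat_lit 452] false,
   Spec.mk (nat_lit 2640) (nat_lit 0) [nat_lit 1182, nat_lit 3126, nat_lit 2802, nat_lit 2586, nat_lit 2658, nat_lit 2634, nat_lit 2638] (nat_lit 0) [nat_lit 454] false,
   Spec.mk (nat_lit 2648) (nat_lit 0) [nat_lit 1190, nat_lit 3134, nat_lit 2810, nat_lit 2630, nat_lit 2650] (nat_lit 0) [nat_lit 4834] false,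
   Spec.mk (nat_lit 2650) (nat_lit 0) [nat_lit 1192, nat_lit 3136, nat_lit 2812, nat_lit 2632, nat_lit 2656, nat_lit 2648, nat_lit 2652] (nat_lit 0) [nat_lit 4836, nat_lit 464] false,
   Spec.mk (nat_lit 2652) (nat_lit 0) [nat_lit 1194, nat_lit 3138, nat_lit 2814, nat_lit 2634, nat_lit 2658, nat_lit 2650] (nat_lit 2) [nat_lit 466] false,
   Spec.mk (nat_lit 2656) (nat_lit 1) [nat_lit 1198, nat_lit 3142, nat_lit 2818, nat_lit 2638, nat_lit 2650, nat_lit 2658] (nat_lit 0) [nat_lit 4842, nat_lit 470] false,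
   Spec.mk (nat_lit 2658) (nat_lit 1) [nat_lit 1200, nat_lit 3144, nat_lit 2820, nat_lit 2640, nat_lit 2652, nat_lit 2664, nat_lit 2656] (nat_lit 0) [nat_lit 472] false,
   Spec.mk (nat_lit 2664) (nat_lit 2) [nat_lit 1206, nat_lit 3150, nat_lit 2826, nat_lit 2658] (nat_lit 0) [nat_lit 478] false,
   Spec.mk (nat_lit 2690) (nat_lit 0) [nat_lit 1232, nat_lit 3176, nat_lit 2528, nat_lit 2708, nat_lit 2696] (nat_lit 0) [nat_lit 4876] false,
   Spec.mk (nat_lit 2696) (nat_lit 0) [nat_lit 1238, nat_lit 3182, nat_lit 2534, nat_lit 2714, nat_lit 2690, nat_lit 2698] (nat_lit 2) [nat_lit 4882] false,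
   Spec.mk (nat_lit 2698) (nat_lit 0) [nat_lit 1240, nat_lit 3184, nat_lit 2536, nat_lit 2716, nat_lit 2696] (nat_lit 1) [nat_lit 4884, nat_lit 512] false,
   Spec.mk (nat_lit 2708) (nat_lit 0) [nat_lit 1250, nat_lit 3194, nat_lit 2546, nat_lit 2762, nat_lit 2690, nat_lit 2714] (nat_lit 2) [nat_lit 4894] false,
   Spec.mk (nat_lit 2714) (nat_lit 0) [nat_lit 1256, nat_lit 3200, nat_lit 2552, nat_lit 2768, nat_lit 2696, nat_lit 2732, nat_lit 2708, nat_lit 2720, nat_lit 2716] (nat_lit 2) [nat_lit 4900] false,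
   Spec.mk (nat_lit 2716) (nat_lit 0) [nat_lit 1258, nat_lit 3202, nat_lit 2554, nat_lit 2770, nat_lit 2698, nat_lit 2734, nat_lit 2722, nat_lit 2714] (nat_lit 2) [nat_lit 4902, nat_lit 530] false,
   Spec.mk (nat_lit 2720) (nat_lit 0) [nat_lit 1262, nat_lit 3206, nat_lit 2558, nat_lit 2774, nat_lit 2738, nat_lit 2714, nat_lit 2722] (nat_lit 4) [nat_lit 4906] false,
   Spec.mk (nat_lit 2722) (nat_lit 0) [nat_lit 1264, nat_lit 3208, nat_lit 2560, nat_lit 2776, nat_lit 2740, nat_lit 2716, nat_lit 2720, nat_lit 2724] (nat_lit 2) [nat_lit 4908, nat_lit 536] false,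
   Spec.mk (nat_lit 2724) (nat_lit 0) [nat_lit 1266, nat_lit 3210, nat_lit 2562, nat_lit 2778, nat_lit 2742, nat_lit 2722] (nat_lit 2) [nat_lit 538] false,
   Spec.mk (nat_lit 2732) (nat_lit 0) [nat_lit 1274, nat_lit 3218, nat_lit 2570, nat_lit 2786, nat_lit 2714, nat_lit 2738, nat_lit 2734] (nat_lit 4) [nat_lit 4918] false,
   Spec.mk (nat_lit 2734) (nat_lit 0) [nat_lit 1276, nat_lit 3220, nat_lit 2572, nat_lit 2788, nat_lit 2716, nat_lit 2740, nat_lit 2732] (nat_lit 5) [nat_lit 4920, nat_lit 548] false,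
   Spec.mk (nat_lit 2738) (nat_lit 0) [nat_lit 1280, nat_lit 3224, nat_lit 2576, nat_lit 2792, nat_lit 2720, nat_lit 2732, nat_lit 2740] (nat_lit 4) [nat_lit 4924] false,
   Spec.mk (nat_lit 2740) (nat_lit 0) [nat_lit 1282, nat_lit 3226, nat_lit 2578, nat_lit 2794, nat_lit 2722, nat_lit 2734, nat_lit 2746, nat_lit 2738, nat_lit 2742] (nat_lit 3) [nat_lit 4926, nat_lit 554] false,
   Spec.mk (nat_lit 2742) (nat_lit 0) [nat_lit 1284, nat_lit 3228, nat_lit 2580, nat_lit 2796, nat_lit 2724, nat_lit 2748, nat_lit 2740] (nat_lit 4) [nat_lit 556] false,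
   Spec.mk (nat_lit 2746) (nat_lit 0) [nat_lit 1288, nat_lit 3232, nat_lit 2584, nat_lit 2800, nat_lit 2740, nat_lit 2748] (nat_lit 3) [nat_lit 4932, nat_lit 560] false,
   Spec.mk (nat_lit 2748) (nat_lit 0) [nat_lit 1290, nat_lit 3234, nat_lit 2586, nat_lit 2802, nat_lit 2742, nat_lit 2746] (nat_lit 2) [nat_lit 562] false,
   Spec.mk (nat_lit 2762) (nat_lit 0) [nat_lit 1304, nat_lit 3248, nat_lit 2600, nat_lit 2708, nat_lit 2768] (nat_lit 0) [nat_lit 4948] false,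
   Spec.mk (nat_lit 2768) (nat_lit 0) [nat_lit 1310, nat_lit 3254, nat_lit 2606, nat_lit 2714, nat_lit 2786, nat_lit 2762, nat_lit 2774, nat_lit 2770] (nat_lit 1) [nat_lit 4954] false,
   Spec.mk (nat_lit 2770) (nat_lit 0) [nat_lit 1312, nat_lit 3256, nat_lit 2608, nat_lit 2716, nat_lit 2788, nat_lit 2776, nat_lit 2768] (nat_lit 1) [nat_lit 4956, nat_lit 584] false,
   Spec.mk (nat_lit 2774) (nat_lit 0) [nat_lit 1316, nat_lit 3260, nat_lit 2612, nat_lit 2720, nat_lit 2792, nat_lit 2768, nat_lit 2776] (nat_lit 4) [nat_lit 4960] false,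
   Spec.mk (nat_lit 2776) (nat_lit 0) [nat_lit 1318, nat_lit 3262, nat_lit 2614, nat_lit 2722, nat_lit 2794, nat_lit 2770, nat_lit 2774, nat_lit 2778] (nat_lit 2) [nat_lit 4962, nat_lit 590] false,
   Spec.mk (nat_lit 2778) (nat_lit 0) [nat_lit 1320, nat_lit 3264, nat_lit 2616, nat_lit 2724, nat_lit 2796, nat_lit 2776] (nat_lit 2) [nat_lit 592] false,
   Spec.mk (nat_lit 2786) (nat_lit 0) [nat_lit 1328, nat_lit 3272, nat_lit 2624, nat_lit 2732, nat_lit 2840, nat_lit 2768, nat_lit 2792, nat_lit 2788] (nat_lit 1) [nat_lit 4972] false,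
   Spec.mk (nat_lit 2788) (nat_lit 0) [nat_lit 1330, nat_lit 3274, nat_lit 2626, nat_lit 2734, nat_lit 2842, nat_lit 2770, nat_lit 2794, nat_lit 2786] (nat_lit 2) [nat_lit 4974, nat_lit 602] false,
   Spec.mk (nat_lit 2792) (nat_lit 0) [nat_lit 1334, nat_lit 3278, nat_lit 2630, nat_lit 2738, nat_lit 2846, nat_lit 2774, nat_lit 2810, nat_lit 2786, nat_lit 2794] (nat_lit 2) [nat_lit 4978] false,
   Spec.mk (nat_lit 2794) (nat_lit 0) [nat_lit 1336, nat_lit 3280, nat_lit 2632, nat_lit 2740, nat_lit 2848, nat_lit 2776, nat_lit 2812, nat_lit 2788, nat_lit 2800, nat_lit 2792, nat_lit 2796] (nat_lit 1) [nat_lit 4980, nat_lit 608] false,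
   Spec.mk (nat_lit 2796) (nat_lit 0) [nat_lit 1338, nat_lit 3282, nat_lit 2634, nat_lit 2742, nat_lit 2850, nat_lit 2778, nat_lit 2814, nat_lit 2802, nat_lit 2794] (nat_lit 2) [nat_lit 610] false,
   Spec.mk (nat_lit 2800) (nat_lit 0) [nat_lit 1342, nat_lit 3286, nat_lit 2638, nat_lit 2746, nat_lit 2854, nat_lit 2818, nat_lit 2794, nat_lit 2802] (nat_lit 2) [nat_lit 4986, nat_lit 614] false,
   Spec.mk (nat_lit 2802) (nat_lit 0) [nat_lit 1344, nat_lit 3288, nat_lit 2640, nat_lit 2748, nat_lit 2856, nat_lit 2820, nat_lit 2796, nat_lit 2800] (nat_lit 1) [nat_lit 616] false,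
   Spec.mk (nat_lit 2810) (nat_lit 0) [nat_lit 1352, nat_lit 3296, nat_lit 2648, nat_lit 2864, nat_lit 2792, nat_lit 2812] (nat_lit 2) [nat_lit 4996] false,
   Spec.mk (nat_lit 2812) (nat_lit 0) [nat_lit 1354, nat_lit 3298, nat_lit 2650, nat_lit 2866, nat_lit 2794, nat_lit 2818, nat_lit 2810, nat_lit 2814] (nat_lit 2) [nat_lit 4998, nat_lit 626] false,
   Spec.mk (nat_lit 2814) (nat_lit 0) [nat_lit 1356, nat_lit 3300, nat_lit 2652, nat_lit 2868, nat_lit 2796, nat_lit 2820, nat_lit 2812] (nat_lit 4) [nat_lit 628] false,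
   Spec.mk (nat_lit 2818) (nat_lit 0) [nat_lit 1360, nat_lit 3304, nat_lit 2656, nat_lit 2872, nat_lit 2800, nat_lit 2812, nat_lit 2820] (nat_lit 1) [nat_lit 5004, nat_lit 632] false,
   Spec.mk (nat_lit 2820) (nat_lit 0) [nat_lit 1362, nat_lit 3306, nat_lit 2658, nat_lit 2874, nat_lit 2802, nat_lit 2814, nat_lit 2826, nat_lit 2818] (nat_lit 1) [nat_lit 634] false,
   Spec.mk (nat_lit 2826) (nat_lit 0) [nat_lit 1368, nat_lit 3312, nat_lit 2664, nat_lit 2880, nat_lit 2820] (nat_lit 0) [nat_lit 640] false,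
   Spec.mk (nat_lit 2840) (nat_lit 0) [nat_lit 1382, nat_lit 3326, nat_lit 2786, nat_lit 2846, nat_lit 2842] (nat_lit 0) [nat_lit 5026] false,
   Spec.mk (nat_lit 2842) (nat_lit 0) [nat_lit 1384, nat_lit 3328, nat_lit 2788, nat_lit 2848, nat_lit 2840] (nat_lit 1) [nat_lit 5028, nat_lit 656] false,
   Spec.mk (nat_lit 2846) (nat_lit 0) [nat_lit 1388, nat_lit 3332, nat_lit 2792, nat_lit 2864, nat_lit 2840, nat_lit 2848] (nat_lit 2) [nat_lit 5032] false,
   Spec.mk (nat_lit 2848) (nat_lit 0) [nat_lit 1390, nat_lit 3334, nat_lit 2794, nat_lit 2866, nat_lit 2842, nat_lit 2854, nat_lit 2846, nat_lit 2850] (nat_lit 1) [nat_lit 5034, nat_lit 662] false,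
   Spec.mk (nat_lit 2850) (nat_lit 0) [nat_lit 1392, nat_lit 3336, nat_lit 2796, nat_lit 2868, nat_lit 2856, nat_lit 2848] (nat_lit 2) [nat_lit 664] false,
   Spec.mk (nat_lit 2854) (nat_lit 0) [nat_lit 1396, nat_lit 3340, nat_lit 2800, nat_lit 2872, nat_lit 2848, nat_lit 2856] (nat_lit 3) [nat_lit 5040, nat_lit 668] false,
   Spec.mk (nat_lit 2856) (nat_lit 0) [nat_lit 1398, nat_lit 3342, nat_lit 2802, nat_lit 2874, nat_lit 2850, nat_lit 2854] (nat_lit 2) [nat_lit 670] false,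
   Spec.mk (nat_lit 2864) (nat_lit 0) [nat_lit 1406, nat_lit 3350, nat_lit 2810, nat_lit 2846, nat_lit 2866] (nat_lit 0) [nat_lit 5050] false,
   Spec.mk (nat_lit 2866) (nat_lit 0) [nat_lit 1408, nat_lit 3352, nat_lit 2812, nat_lit 2848, nat_lit 2872, nat_lit 2864, nat_lit 2868] (nat_lit 0) [nat_lit 5052, nat_lit 680] false,
   Spec.mk (nat_lit 2868) (nat_lit 0) [nat_lit 1410, nat_lit 3354, nat_lit 2814, nat_lit 2850, nat_lit 2874, nat_lit 2866] (nat_lit 2) [nat_lit 682] false,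
   Spec.mk (nat_lit 2872) (nat_lit 0) [nat_lit 1414, nat_lit 3358, nat_lit 2818, nat_lit 2854, nat_lit 2890, nat_lit 2866, nat_lit 2874] (nat_lit 0) [nat_lit 5058, nat_lit 686] false,
   Spec.mk (nat_lit 2874) (nat_lit 0) [nat_lit 1416, nat_lit 3360, nat_lit 2820, nat_lit 2856, nat_lit 2892, nat_lit 2868, nat_lit 2880, nat_lit 2872] (nat_lit 0) [nat_lit 688] false,
   Spec.mk (nat_lit 2880) (nat_lit 0) [nat_lit 1422, nat_lit 3366, nat_lit 2826, nat_lit 2898, nat_lit 2874] (nat_lit 0) [nat_lit 694] false]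

noncomputable def sp8 : List Spec :=
  [Spec.mk (nat_lit 2890) (nat_lit 1) [nat_lit 1432, nat_lit 3376, nat_lit 2872, nat_lit 2892] (nat_lit 0) [nat_lit 5076, nat_lit 704] false,
   Spec.mk (nat_lit 2892) (nat_lit 0) [nat_lit 1434, nat_lit 3378, nat_lit 2874, nat_lit 2898, nat_lit 2890] (nat_lit 0) [nat_lit 706] false,
   Spec.mk (nat_lit 2898) (nat_lit 2) [nat_lit 1440, nat_lit 3384, nat_lit 2880, nat_lit 2892] (nat_lit 0) [nat_lit 712] false,
   Spec.mk (nat_lit 2942) (nat_lit 3) [nat_lit 1484, nat_lit 4400, nat_lit 2456, nat_lit 2960] (nat_lit 0) [nat_lit 5128] false,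
   Spec.mk (nat_lit 2960) (nat_lit 2) [nat_lit 1502, nat_lit 4418, nat_lit 2474, nat_lit 3014, nat_lit 2942, nat_lit 2978, nat_lit 2966] (nat_lit 0) [nat_lit 5146] false,
   Spec.mk (nat_lit 2966) (nat_lit 1) [nat_lit 1508, nat_lit 4424, nat_lit 2480, nat_lit 3020, nat_lit 2984, nat_lit 2960, nat_lit 2968] (nat_lit 0) [nat_lit 5152] false,
   Spec.mk (nat_lit 2968) (nat_lit 2) [nat_lit 1510, nat_lit 4426, nat_lit 2482, nat_lit 3022, nat_lit 2986, nat_lit 2966] (nat_lit 0) [nat_lit 5154, nat_lit 782] false,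
   Spec.mk (nat_lit 2978) (nat_lit 0) [nat_lit 1520, nat_lit 4436, nat_lit 2492, nat_lit 3032, nat_lit 2960, nat_lit 2984] (nat_lit 1) [nat_lit 5164] false,
   Spec.mk (nat_lit 2984) (nat_lit 0) [nat_lit 1526, nat_lit 4442, nat_lit 2498, nat_lit 3038, nat_lit 2966, nat_lit 2978, nat_lit 2990, nat_lit 2986] (nat_lit 0) [nat_lit 5170] false,
   Spec.mk (nat_lit 2986) (nat_lit 0) [nat_lit 1528, nat_lit 4444, nat_lit 2500, nat_lit 3040, nat_lit 2968, nat_lit 2992, nat_lit 2984] (nat_lit 0) [nat_lit 5172, nat_lit 800] false,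
   Spec.mk (nat_lit 2990) (nat_lit 0) [nat_lit 1532, nat_lit 4448, nat_lit 2504, nat_lit 3044, nat_lit 2984, nat_lit 2992] (nat_lit 1) [nat_lit 5176] false,
   Spec.mk (nat_lit 2992) (nat_lit 1) [nat_lit 1534, nat_lit 4450, nat_lit 2506, nat_lit 3046, nat_lit 2986, nat_lit 2990, nat_lit 2994] (nat_lit 0) [nat_lit 5178, nat_lit 806] false,
   Spec.mk (nat_lit 2994) (nat_lit 1) [nat_lit 1536, nat_lit 4452, nat_lit 2508, nat_lit 3048, nat_lit 2992] (nat_lit 0) [nat_lit 808] false,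
   Spec.mk (nat_lit 3014) (nat_lit 1) [nat_lit 1556, nat_lit 4472, nat_lit 2528, nat_lit 3176, nat_lit 2960, nat_lit 3032, nat_lit 3020] (nat_lit 0) [nat_lit 5200] false,
   Spec.mk (nat_lit 3020) (nat_lit 0) [nat_lit 1562, nat_lit 4478, nat_lit 2534, nat_lit 3182, nat_lit 2966, nat_lit 3038, nat_lit 3014, nat_lit 3022] (nat_lit 1) [nat_lit 5206] false,
   Spec.mk (nat_lit 3022) (nat_lit 0) [nat_lit 1564, nat_lit 4480, nat_lit 2536, nat_lit 3184, nat_lit 2968, nat_lit 3040, nat_lit 3020] (nat_lit 0) [nat_lit 5208, nat_lit 836] false,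
   Spec.mk (nat_lit 3032) (nat_lit 0) [nat_lit 1574, nat_lit 4490, nat_lit 2546, nat_lit 3194, nat_lit 2978, nat_lit 3086, nat_lit 3014, nat_lit 3038] (nat_lit 0) [nat_lit 5218] false,
   Spec.mk (nat_lit 3038) (nat_lit 0) [nat_lit 1580, nat_lit 4496, nat_lit 2552, nat_lit 3200, nat_lit 2984, nat_lit 3092, nat_lit 3020, nat_lit 3056, nat_lit 3032, nat_lit 3044, nat_lit 3040] (nat_lit 0) [nat_lit 5224] false,
   Spec.mk (nat_lit 3040) (nat_lit 0) [nat_lit 1582, nat_lit 4498, nat_lit 2554, nat_lit 3202, nat_lit 2986, nat_lit 3094, nat_lit 3022, nat_lit 3058, nat_lit 3046, nat_lit 3038] (nat_lit 0) [nat_lit 5226, nat_lit 854] false,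
   Spec.mk (nat_lit 3044) (nat_lit 0) [nat_lit 1586, nat_lit 4502, nat_lit 2558, nat_lit 3206, nat_lit 2990, nat_lit 3098, nat_lit 3062, nat_lit 3038, nat_lit 3046] (nat_lit 2) [nat_lit 5230] false,
   Spec.mk (nat_lit 3046) (nat_lit 0) [nat_lit 1588, nat_lit 4504, nat_lit 2560, nat_lit 3208, nat_lit 2992, nat_lit 3100, nat_lit 3064, nat_lit 3040, nat_lit 3044, nat_lit 3048] (nat_lit 0) [nat_lit 5232, nat_lit 860] false,
   Spec.mk (nat_lit 3048) (nat_lit 0) [nat_lit 1590, nat_lit 4506, nat_lit 2562, nat_lit 3210, nat_lit 2994, nat_lit 3102, nat_lit 3066, nat_lit 3046] (nat_lit 0) [nat_lit 862] false,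
   Spec.mk (nat_lit 3056) (nat_lit 0) [nat_lit 1598, nat_lit 4514, nat_lit 2570, nat_lit 3218, nat_lit 3110, nat_lit 3038, nat_lit 3062, nat_lit 3058] (nat_lit 1) [nat_lit 5242] false,
   Spec.mk (nat_lit 3058) (nat_lit 0) [nat_lit 1600, nat_lit 4516, nat_lit 2572, nat_lit 3220, nat_lit 3112, nat_lit 3040, nat_lit 3064, nat_lit 3056] (nat_lit 2) [nat_lit 5244, nat_lit 872] false,
   Spec.mk (nat_lit 3062) (nat_lit 0) [nat_lit 1604, nat_lit 4520, nat_lit 2576, nat_lit 3224, nat_lit 3116, nat_lit 3044, nat_lit 3056, nat_lit 3064] (nat_lit 1) [nat_lit 5248] false,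
   Spec.mk (nat_lit 3064) (nat_lit 0) [nat_lit 1606, nat_lit 4522, nat_lit 2578, nat_lit 3226, nat_lit 3118, nat_lit 3046, nat_lit 3058, nat_lit 3070, nat_lit 3062, nat_lit 3066] (nat_lit 0) [nat_lit 5250, nat_lit 878] false,
   Spec.mk (nat_lit 3066) (nat_lit 0) [nat_lit 1608, nat_lit 4524, nat_lit 2580, nat_lit 3228, nat_lit 3120, nat_lit 3048, nat_lit 3072, nat_lit 3064] (nat_lit 1) [nat_lit 880] false,
   Spec.mk (nat_lit 3070) (nat_lit 0) [nat_lit 1612, nat_lit 4528, nat_lit 2584, nat_lit 3232, nat_lit 3124, nat_lit 3064, nat_lit 3072] (nat_lit 0) [nat_lit 5256, nat_lit 884] false,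
   Spec.mk (nat_lit 3072) (nat_lit 1) [nat_lit 1614, nat_lit 4530, nat_lit 2586, nat_lit 3234, nat_lit 3126, nat_lit 3066, nat_lit 3070] (nat_lit 0) [nat_lit 886] false,
   Spec.mk (nat_lit 3086) (nat_lit 0) [nat_lit 1628, nat_lit 4544, nat_lit 2600, nat_lit 3248, nat_lit 3032, nat_lit 3092] (nat_lit 1) [nat_lit 5272] false,
   Spec.mk (nat_lit 3092) (nat_lit 0) [nat_lit 1634, nat_lit 4550, nat_lit 2606, nat_lit 3254, nat_lit 3038, nat_lit 3110, nat_lit 3086, nat_lit 3098, nat_lit 3094] (nat_lit 2) [nat_lit 5278] false,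
   Spec.mk (nat_lit 3094) (nat_lit 0) [nat_lit 1636, nat_lit 4552, nat_lit 2608, nat_lit 3256, nat_lit 3040, nat_lit 3112, nat_lit 3100, nat_lit 3092] (nat_lit 2) [nat_lit 5280, nat_lit 908] false,
   Spec.mk (nat_lit 3098) (nat_lit 0) [nat_lit 1640, nat_lit 4556, nat_lit 2612, nat_lit 3260, nat_lit 3044, nat_lit 3116, nat_lit 3092, nat_lit 3100] (nat_lit 5) [nat_lit 5284] false,
   Spec.mk (nat_lit 3100) (nat_lit 0) [nat_lit 1642, nat_lit 4558, nat_lit 2614, nat_lit 3262, nat_lit 3046, nat_lit 3118, nat_lit 3094, nat_lit 3098, nat_lit 3102] (nat_lit 3) [nat_lit 5286, nat_lit 914] false,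
   Spec.mk (nat_lit 3102) (nat_lit 0) [nat_lit 1644, nat_lit 4560, nat_lit 2616, nat_lit 3264, nat_lit 3048, nat_lit 3120, nat_lit 3100] (nat_lit 3) [nat_lit 916] false,
   Spec.mk (nat_lit 3110) (nat_lit 0) [nat_lit 1652, nat_lit 4568, nat_lit 2624, nat_lit 3272, nat_lit 3056, nat_lit 3092, nat_lit 3116, nat_lit 3112] (nat_lit 1) [nat_lit 5296] false,
   Spec.mk (nat_lit 3112) (nat_lit 0) [nat_lit 1654, nat_lit 4570, nat_lit 2626, nat_lit 3274, nat_lit 3058, nat_lit 3094, nat_lit 3118, nat_lit 3110] (nat_lit 2) [nat_lit 5298, nat_lit 926] false,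
   Spec.mk (nat_lit 3116) (nat_lit 0) [nat_lit 1658, nat_lit 4574, nat_lit 2630, nat_lit 3278, nat_lit 3062, nat_lit 3098, nat_lit 3134, nat_lit 3110, nat_lit 3118] (nat_lit 2) [nat_lit 5302] false,
   Spec.mk (nat_lit 3118) (nat_lit 0) [nat_lit 1660, nat_lit 4576, nat_lit 2632, nat_lit 3280, nat_lit 3064, nat_lit 3100, nat_lit 3136, nat_lit 3112, nat_lit 3124, nat_lit 3116, nat_lit 3120] (nat_lit 1) [nat_lit 5304, nat_lit 932] false,
   Spec.mk (nat_lit 3120) (nat_lit 0) [nat_lit 1662, nat_lit 4578, nat_lit 2634, nat_lit 3282, nat_lit 3066, nat_lit 3102, nat_lit 3138, nat_lit 3126, nat_lit 3118] (nat_lit 2) [nat_lit 934] false,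
   Spec.mk (nat_lit 3124) (nat_lit 0) [nat_lit 1666, nat_lit 4582, nat_lit 2638, nat_lit 3286, nat_lit 3070, nat_lit 3142, nat_lit 3118, nat_lit 3126] (nat_lit 2) [nat_lit 5310, nat_lit 938] false,
   Spec.mk (nat_lit 3126) (nat_lit 0) [nat_lit 1668, nat_lit 4584, nat_lit 2640, nat_lit 3288, nat_lit 3072, nat_lit 3144, nat_lit 3120, nat_lit 3124] (nat_lit 1) [nat_lit 940] false,
   Spec.mk (nat_lit 3134) (nat_lit 0) [nat_lit 1676, nat_lit 4592, nat_lit 2648, nat_lit 3296, nat_lit 3116, nat_lit 3136] (nat_lit 1) [nat_lit 5320] false,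
   Spec.mk (nat_lit 3136) (nat_lit 0) [nat_lit 1678, nat_lit 4594, nat_lit 2650, nat_lit 3298, nat_lit 3118, nat_lit 3142, nat_lit 3134, nat_lit 3138] (nat_lit 1) [nat_lit 5322, nat_lit 950] false,
   Spec.mk (nat_lit 3138) (nat_lit 0) [nat_lit 1680, nat_lit 4596, nat_lit 2652, nat_lit 3300, nat_lit 3120, nat_lit 3144, nat_lit 3136] (nat_lit 3) [nat_lit 952] false,
   Spec.mk (nat_lit 3142) (nat_lit 0) [nat_lit 1684, nat_lit 4600, nat_lit 2656, nat_lit 3304, nat_lit 3124, nat_lit 3136, nat_lit 3144] (nat_lit 0) [nat_lit 5328, nat_lit 956] false,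
   Spec.mk (nat_lit 3144) (nat_lit 0) [nat_lit 1686, nat_lit 4602, nat_lit 2658, nat_lit 3306, nat_lit 3126, nat_lit 3138, nat_lit 3150, nat_lit 3142] (nat_lit 0) [nat_lit 958] false,
   Spec.mk (nat_lit 3150) (nat_lit 1) [nat_lit 1692, nat_lit 4608, nat_lit 2664, nat_lit 3312, nat_lit 3144] (nat_lit 0) [nat_lit 964] false,
   Spec.mk (nat_lit 3176) (nat_lit 2) [nat_lit 1718, nat_lit 4634, nat_lit 2690, nat_lit 3662, nat_lit 3014, nat_lit 3194, nat_lit 3182] (nat_lit 0) [nat_lit 5362] false,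
   Spec.mk (nat_lit 3182) (nat_lit 0) [nat_lit 1724, nat_lit 4640, nat_lit 2696, nat_lit 3668, nat_lit 3020, nat_lit 3200, nat_lit 3176, nat_lit 3184] (nat_lit 0) [nat_lit 5368] false,
   Spec.mk (nat_lit 3184) (nat_lit 1) [nat_lit 1726, nat_lit 4642, nat_lit 2698, nat_lit 3670, nat_lit 3022, nat_lit 3202, nat_lit 3182] (nat_lit 0) [nat_lit 5370, nat_lit 998] false,
   Spec.mk (nat_lit 3194) (nat_lit 0) [nat_lit 1736, nat_lit 4652, nat_lit 2708, nat_lit 3680, nat_lit 3032, nat_lit 3248, nat_lit 3176, nat_lit 3200] (nat_lit 0) [nat_lit 5380] false,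
   Spec.mk (nat_lit 3200) (nat_lit 0) [nat_lit 1742, nat_lit 4658, nat_lit 2714, nat_lit 3686, nat_lit 3038, nat_lit 3254, nat_lit 3182, nat_lit 3218, nat_lit 3194, nat_lit 3206, nat_lit 3202] (nat_lit 0) [nat_lit 5386] false,
   Spec.mk (nat_lit 3202) (nat_lit 0) [nat_lit 1744, nat_lit 4660, nat_lit 2716, nat_lit 3688, nat_lit 3040, nat_lit 3256, nat_lit 3184, nat_lit 3220, nat_lit 3208, nat_lit 3200] (nat_lit 0) [nat_lit 5388, nat_lit 1016] false,
   Spec.mk (nat_lit 3206) (nat_lit 0) [nat_lit 1748, nat_lit 4664, nat_lit 2720, nat_lit 3692, nat_lit 3044, nat_lit 3260, nat_lit 3224, nat_lit 3200, nat_lit 3208] (nat_lit 2) [nat_lit 5392] false,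
   Spec.mk (nat_lit 3208) (nat_lit 0) [nat_lit 1750, nat_lit 4666, nat_lit 2722, nat_lit 3694, nat_lit 3046, nat_lit 3262, nat_lit 3226, nat_lit 3202, nat_lit 3206, nat_lit 3210] (nat_lit 0) [nat_lit 5394, nat_lit 1022] false,
   Spec.mk (nat_lit 3210) (nat_lit 0) [nat_lit 1752, nat_lit 4668, nat_lit 2724, nat_lit 3696, nat_lit 3048, nat_lit 3264, nat_lit 3228, nat_lit 3208] (nat_lit 0) [nat_lit 1024] false,
   Spec.mk (nat_lit 3218) (nat_lit 0) [nat_lit 1760, nat_lit 4676, nat_lit 2732, nat_lit 3704, nat_lit 3056, nat_lit 3272, nat_lit 3200, nat_lit 3224, nat_lit 3220] (nat_lit 2) [nat_lit 5404] false,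
   Spec.mk (nat_lit 3220) (nat_lit 0) [nat_lit 1762, nat_lit 4678, nat_lit 2734, nat_lit 3706, nat_lit 3058, nat_lit 3274, nat_lit 3202, nat_lit 3226, nat_lit 3218] (nat_lit 3) [nat_lit 5406, nat_lit 1034] false,
   Spec.mk (nat_lit 3224) (nat_lit 0) [nat_lit 1766, nat_lit 4682, nat_lit 2738, nat_lit 3710, nat_lit 3062, nat_lit 3278, nat_lit 3206, nat_lit 3218, nat_lit 3226] (nat_lit 2) [nat_lit 5410] false]

noncomputable def sp9 : List Spec :=
  [Spec.mk (nat_lit 3226) (nat_lit 0) [nat_lit 1768, nat_lit 4684, nat_lit 2740, nat_lit 3712, nat_lit 3064, nat_lit 3280, nat_lit 3208, nat_lit 3220, nat_lit 3232, nat_lit 3224, nat_lit 3228] (nat_lit 1) [nat_lit 5412, nat_lit 1040] false,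
   Spec.mk (nat_lit 3228) (nat_lit 0) [nat_lit 1770, nat_lit 4686, nat_lit 2742, nat_lit 3714, nat_lit 3066, nat_lit 3282, nat_lit 3210, nat_lit 3234, nat_lit 3226] (nat_lit 2) [nat_lit 1042] false,
   Spec.mk (nat_lit 3232) (nat_lit 0) [nat_lit 1774, nat_lit 4690, nat_lit 2746, nat_lit 3718, nat_lit 3070, nat_lit 3286, nat_lit 3226, nat_lit 3234] (nat_lit 1) [nat_lit 5418, nat_lit 1046] false,
   Spec.mk (nat_lit 3234) (nat_lit 0) [nat_lit 1776, nat_lit 4692, nat_lit 2748, nat_lit 3720, nat_lit 3072, nat_lit 3288, nat_lit 3228, nat_lit 3232] (nat_lit 0) [nat_lit 1048] false,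
   Spec.mk (nat_lit 3248) (nat_lit 1) [nat_lit 1790, nat_lit 4706, nat_lit 2762, nat_lit 3734, nat_lit 3086, nat_lit 3410, nat_lit 3194, nat_lit 3254] (nat_lit 0) [nat_lit 5434] false,
   Spec.mk (nat_lit 3254) (nat_lit 0) [nat_lit 1796, nat_lit 4712, nat_lit 2768, nat_lit 3740, nat_lit 3092, nat_lit 3416, nat_lit 3200, nat_lit 3272, nat_lit 3248, nat_lit 3260, nat_lit 3256] (nat_lit 0) [nat_lit 5440] false,
   Spec.mk (nat_lit 3256) (nat_lit 0) [nat_lit 1798, nat_lit 4714, nat_lit 2770, nat_lit 3742, nat_lit 3094, nat_lit 3418, nat_lit 3202, nat_lit 3274, nat_lit 3262, nat_lit 3254] (nat_lit 0) [nat_lit 5442, nat_lit 1070] false,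
   Spec.mk (nat_lit 3260) (nat_lit 0) [nat_lit 1802, nat_lit 4718, nat_lit 2774, nat_lit 3746, nat_lit 3098, nat_lit 3422, nat_lit 3206, nat_lit 3278, nat_lit 3254, nat_lit 3262] (nat_lit 3) [nat_lit 5446] false,
   Spec.mk (nat_lit 3262) (nat_lit 0) [nat_lit 1804, nat_lit 4720, nat_lit 2776, nat_lit 3748, nat_lit 3100, nat_lit 3424, nat_lit 3208, nat_lit 3280, nat_lit 3256, nat_lit 3260, nat_lit 3264] (nat_lit 1) [nat_lit 5448, nat_lit 1076] false,
   Spec.mk (nat_lit 3264) (nat_lit 0) [nat_lit 1806, nat_lit 4722, nat_lit 2778, nat_lit 3750, nat_lit 3102, nat_lit 3426, nat_lit 3210, nat_lit 3282, nat_lit 3262] (nat_lit 1) [nat_lit 1078] false,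
   Spec.mk (nat_lit 3272) (nat_lit 0) [nat_lit 1814, nat_lit 4730, nat_lit 2786, nat_lit 3758, nat_lit 3110, nat_lit 3434, nat_lit 3218, nat_lit 3326, nat_lit 3254, nat_lit 3278, nat_lit 3274] (nat_lit 0) [nat_lit 5458] false,
   Spec.mk (nat_lit 3274) (nat_lit 0) [nat_lit 1816, nat_lit 4732, nat_lit 2788, nat_lit 3760, nat_lit 3112, nat_lit 3436, nat_lit 3220, nat_lit 3328, nat_lit 3256, nat_lit 3280, nat_lit 3272] (nat_lit 1) [nat_lit 5460, nat_lit 1088] false,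
   Spec.mk (nat_lit 3278) (nat_lit 0) [nat_lit 1820, nat_lit 4736, nat_lit 2792, nat_lit 3764, nat_lit 3116, nat_lit 3440, nat_lit 3224, nat_lit 3332, nat_lit 3260, nat_lit 3296, nat_lit 3272, nat_lit 3280] (nat_lit 1) [nat_lit 5464] false,
   Spec.mk (nat_lit 3280) (nat_lit 0) [nat_lit 1822, nat_lit 4738, nat_lit 2794, nat_lit 3766, nat_lit 3118, nat_lit 3442, nat_lit 3226, nat_lit 3334, nat_lit 3262, nat_lit 3298, nat_lit 3274, nat_lit 3286, nat_lit 3278, nat_lit 3282] (nat_lit 0) [nat_lit 5466, nat_lit 1094] true,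
   Spec.mk (nat_lit 3282) (nat_lit 0) [nat_lit 1824, nat_lit 4740, nat_lit 2796, nat_lit 3768, nat_lit 3120, nat_lit 3444, nat_lit 3228, nat_lit 3336, nat_lit 3264, nat_lit 3300, nat_lit 3288, nat_lit 3280] (nat_lit 1) [nat_lit 1096] false,
   Spec.mk (nat_lit 3286) (nat_lit 0) [nat_lit 1828, nat_lit 4744, nat_lit 2800, nat_lit 3772, nat_lit 3124, nat_lit 3448, nat_lit 3232, nat_lit 3340, nat_lit 3304, nat_lit 3280, nat_lit 3288] (nat_lit 1) [nat_lit 5472, nat_lit 1100] false,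
   Spec.mk (nat_lit 3288) (nat_lit 0) [nat_lit 1830, nat_lit 4746, nat_lit 2802, nat_lit 3774, nat_lit 3126, nat_lit 3450, nat_lit 3234, nat_lit 3342, nat_lit 3306, nat_lit 3282, nat_lit 3286] (nat_lit 0) [nat_lit 1102] false,
   Spec.mk (nat_lit 3296) (nat_lit 0) [nat_lit 1838, nat_lit 4754, nat_lit 2810, nat_lit 3782, nat_lit 3134, nat_lit 3458, nat_lit 3350, nat_lit 3278, nat_lit 3298] (nat_lit 1) [nat_lit 5482] false,
   Spec.mk (nat_lit 3298) (nat_lit 0) [nat_lit 1840, nat_lit 4756, nat_lit 2812, nat_lit 3784, nat_lit 3136, nat_lit 3460, nat_lit 3352, nat_lit 3280, nat_lit 3304, nat_lit 3296, nat_lit 3300] (nat_lit 1) [nat_lit 5484, nat_lit 1112] false,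
   Spec.mk (nat_lit 3300) (nat_lit 0) [nat_lit 1842, nat_lit 4758, nat_lit 2814, nat_lit 3786, nat_lit 3138, nat_lit 3462, nat_lit 3354, nat_lit 3282, nat_lit 3306, nat_lit 3298] (nat_lit 3) [nat_lit 1114] false,
   Spec.mk (nat_lit 3304) (nat_lit 0) [nat_lit 1846, nat_lit 4762, nat_lit 2818, nat_lit 3790, nat_lit 3142, nat_lit 3466, nat_lit 3358, nat_lit 3286, nat_lit 3298, nat_lit 3306] (nat_lit 0) [nat_lit 5490, nat_lit 1118] false,
   Spec.mk (nat_lit 3306) (nat_lit 0) [nat_lit 1848, nat_lit 4764, nat_lit 2820, nat_lit 3792, nat_lit 3144, nat_lit 3468, nat_lit 3360, nat_lit 3288, nat_lit 3300, nat_lit 3312, nat_lit 3304] (nat_lit 0) [nat_lit 1120] false,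
   Spec.mk (nat_lit 3312) (nat_lit 1) [nat_lit 1854, nat_lit 4770, nat_lit 2826, nat_lit 3798, nat_lit 3150, nat_lit 3474, nat_lit 3366, nat_lit 3306] (nat_lit 0) [nat_lit 1126] false,
   Spec.mk (nat_lit 3326) (nat_lit 0) [nat_lit 1868, nat_lit 4784, nat_lit 2840, nat_lit 3812, nat_lit 3488, nat_lit 3272, nat_lit 3332, nat_lit 3328] (nat_lit 0) [nat_lit 5512] false,
   Spec.mk (nat_lit 3328) (nat_lit 0) [nat_lit 1870, nat_lit 4786, nat_lit 2842, nat_lit 3814, nat_lit 3490, nat_lit 3274, nat_lit 3334, nat_lit 3326] (nat_lit 1) [nat_lit 5514, nat_lit 1142] false,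
   Spec.mk (nat_lit 3332) (nat_lit 0) [nat_lit 1874, nat_lit 4790, nat_lit 2846, nat_lit 3818, nat_lit 3494, nat_lit 3278, nat_lit 3350, nat_lit 3326, nat_lit 3334] (nat_lit 2) [nat_lit 5518] false,
   Spec.mk (nat_lit 3334) (nat_lit 0) [nat_lit 1876, nat_lit 4792, nat_lit 2848, nat_lit 3820, nat_lit 3496, nat_lit 3280, nat_lit 3352, nat_lit 3328, nat_lit 3340, nat_lit 3332, nat_lit 3336] (nat_lit 1) [nat_lit 5520, nat_lit 1148] false,
   Spec.mk (nat_lit 3336) (nat_lit 0) [nat_lit 1878, nat_lit 4794, nat_lit 2850, nat_lit 3822, nat_lit 3498, nat_lit 3282, nat_lit 3354, nat_lit 3342, nat_lit 3334] (nat_lit 2) [nat_lit 1150] false,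
   Spec.mk (nat_lit 3340) (nat_lit 0) [nat_lit 1882, nat_lit 4798, nat_lit 2854, nat_lit 3826, nat_lit 3502, nat_lit 3286, nat_lit 3358, nat_lit 3334, nat_lit 3342] (nat_lit 3) [nat_lit 5526, nat_lit 1154] false,
   Spec.mk (nat_lit 3342) (nat_lit 0) [nat_lit 1884, nat_lit 4800, nat_lit 2856, nat_lit 3828, nat_lit 3504, nat_lit 3288, nat_lit 3360, nat_lit 3336, nat_lit 3340] (nat_lit 2) [nat_lit 1156] false,
   Spec.mk (nat_lit 3350) (nat_lit 0) [nat_lit 1892, nat_lit 4808, nat_lit 2864, nat_lit 3836, nat_lit 3512, nat_lit 3296, nat_lit 3332, nat_lit 3352] (nat_lit 0) [nat_lit 5536] false,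
   Spec.mk (nat_lit 3352) (nat_lit 0) [nat_lit 1894, nat_lit 4810, nat_lit 2866, nat_lit 3838, nat_lit 3514, nat_lit 3298, nat_lit 3334, nat_lit 3358, nat_lit 3350, nat_lit 3354] (nat_lit 0) [nat_lit 5538, nat_lit 1166] false,
   Spec.mk (nat_lit 3354) (nat_lit 0) [nat_lit 1896, nat_lit 4812, nat_lit 2868, nat_lit 3840, nat_lit 3516, nat_lit 3300, nat_lit 3336, nat_lit 3360, nat_lit 3352] (nat_lit 2) [nat_lit 1168] false,
   Spec.mk (nat_lit 3358) (nat_lit 0) [nat_lit 1900, nat_lit 4816, nat_lit 2872, nat_lit 3844, nat_lit 3520, nat_lit 3304, nat_lit 3340, nat_lit 3376, nat_lit 3352, nat_lit 3360] (nat_lit 0) [nat_lit 5544, nat_lit 1172] false,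
   Spec.mk (nat_lit 3360) (nat_lit 0) [nat_lit 1902, nat_lit 4818, nat_lit 2874, nat_lit 3846, nat_lit 3522, nat_lit 3306, nat_lit 3342, nat_lit 3378, nat_lit 3354, nat_lit 3366, nat_lit 3358] (nat_lit 0) [nat_lit 1174] false,
   Spec.mk (nat_lit 3366) (nat_lit 0) [nat_lit 1908, nat_lit 4824, nat_lit 2880, nat_lit 3852, nat_lit 3528, nat_lit 3312, nat_lit 3384, nat_lit 3360] (nat_lit 0) [nat_lit 1180] false,
   Spec.mk (nat_lit 3376) (nat_lit 1) [nat_lit 1918, nat_lit 4834, nat_lit 2890, nat_lit 3862, nat_lit 3538, nat_lit 3358, nat_lit 3378] (nat_lit 0) [nat_lit 5562, nat_lit 1190] false,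
   Spec.mk (nat_lit 3378) (nat_lit 0) [nat_lit 1920, nat_lit 4836, nat_lit 2892, nat_lit 3864, nat_lit 3540, nat_lit 3360, nat_lit 3384, nat_lit 3376] (nat_lit 0) [nat_lit 1192] false,
   Spec.mk (nat_lit 3384) (nat_lit 2) [nat_lit 1926, nat_lit 4842, nat_lit 2898, nat_lit 3870, nat_lit 3546, nat_lit 3366, nat_lit 3378] (nat_lit 0) [nat_lit 1198] false,
   Spec.mk (nat_lit 3410) (nat_lit 1) [nat_lit 1952, nat_lit 4868, nat_lit 3896, nat_lit 3248, nat_lit 3416] (nat_lit 0) [nat_lit 5596] false,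
   Spec.mk (nat_lit 3416) (nat_lit 0) [nat_lit 1958, nat_lit 4874, nat_lit 3902, nat_lit 3254, nat_lit 3434, nat_lit 3410, nat_lit 3422, nat_lit 3418] (nat_lit 0) [nat_lit 5602] false,
   Spec.mk (nat_lit 3418) (nat_lit 0) [nat_lit 1960, nat_lit 4876, nat_lit 3904, nat_lit 3256, nat_lit 3436, nat_lit 3424, nat_lit 3416] (nat_lit 0) [nat_lit 5604, nat_lit 1232] false,
   Spec.mk (nat_lit 3422) (nat_lit 0) [nat_lit 1964, nat_lit 4880, nat_lit 3908, nat_lit 3260, nat_lit 3440, nat_lit 3416, nat_lit 3424] (nat_lit 3) [nat_lit 5608] false,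
   Spec.mk (nat_lit 3424) (nat_lit 0) [nat_lit 1966, nat_lit 4882, nat_lit 3910, nat_lit 3262, nat_lit 3442, nat_lit 3418, nat_lit 3422, nat_lit 3426] (nat_lit 1) [nat_lit 5610, nat_lit 1238] false,
   Spec.mk (nat_lit 3426) (nat_lit 0) [nat_lit 1968, nat_lit 4884, nat_lit 3912, nat_lit 3264, nat_lit 3444, nat_lit 3424] (nat_lit 1) [nat_lit 1240] false,
   Spec.mk (nat_lit 3434) (nat_lit 0) [nat_lit 1976, nat_lit 4892, nat_lit 3920, nat_lit 3272, nat_lit 3488, nat_lit 3416, nat_lit 3440, nat_lit 3436] (nat_lit 1) [nat_lit 5620] false,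
   Spec.mk (nat_lit 3436) (nat_lit 0) [nat_lit 1978, nat_lit 4894, nat_lit 3922, nat_lit 3274, nat_lit 3490, nat_lit 3418, nat_lit 3442, nat_lit 3434] (nat_lit 2) [nat_lit 5622, nat_lit 1250] false,
   Spec.mk (nat_lit 3440) (nat_lit 0) [nat_lit 1982, nat_lit 4898, nat_lit 3926, nat_lit 3278, nat_lit 3494, nat_lit 3422, nat_lit 3458, nat_lit 3434, nat_lit 3442] (nat_lit 2) [nat_lit 5626] false,
   Spec.mk (nat_lit 3442) (nat_lit 0) [nat_lit 1984, nat_lit 4900, nat_lit 3928, nat_lit 3280, nat_lit 3496, nat_lit 3424, nat_lit 3460, nat_lit 3436, nat_lit 3448, nat_lit 3440, nat_lit 3444] (nat_lit 1) [nat_lit 5628, nat_lit 1256] false,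
   Spec.mk (nat_lit 3444) (nat_lit 0) [nat_lit 1986, nat_lit 4902, nat_lit 3930, nat_lit 3282, nat_lit 3498, nat_lit 3426, nat_lit 3462, nat_lit 3450, nat_lit 3442] (nat_lit 2) [nat_lit 1258] false,
   Spec.mk (nat_lit 3448) (nat_lit 0) [nat_lit 1990, nat_lit 4906, nat_lit 3934, nat_lit 3286, nat_lit 3502, nat_lit 3466, nat_lit 3442, nat_lit 3450] (nat_lit 2) [nat_lit 5634, nat_lit 1262] false,
   Spec.mk (nat_lit 3450) (nat_lit 0) [nat_lit 1992, nat_lit 4908, nat_lit 3936, nat_lit 3288, nat_lit 3504, nat_lit 3468, nat_lit 3444, nat_lit 3448] (nat_lit 1) [nat_lit 1264] false,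
   Spec.mk (nat_lit 3458) (nat_lit 0) [nat_lit 2000, nat_lit 4916, nat_lit 3944, nat_lit 3296, nat_lit 3512, nat_lit 3440, nat_lit 3460] (nat_lit 3) [nat_lit 5644] false,
   Spec.mk (nat_lit 3460) (nat_lit 0) [nat_lit 2002, nat_lit 4918, nat_lit 3946, nat_lit 3298, nat_lit 3514, nat_lit 3442, nat_lit 3466, nat_lit 3458, nat_lit 3462] (nat_lit 3) [nat_lit 5646, nat_lit 1274] false,
   Spec.mk (nat_lit 3462) (nat_lit 0) [nat_lit 2004, nat_lit 4920, nat_lit 3948, nat_lit 3300, nat_lit 3516, nat_lit 3444, nat_lit 3468, nat_lit 3460] (nat_lit 5) [nat_lit 1276] false,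
   Spec.mk (nat_lit 3466) (nat_lit 0) [nat_lit 2008, nat_lit 4924, nat_lit 3952, nat_lit 3304, nat_lit 3520, nat_lit 3448, nat_lit 3460, nat_lit 3468] (nat_lit 2) [nat_lit 5652, nat_lit 1280] false,
   Spec.mk (nat_lit 3468) (nat_lit 0) [nat_lit 2010, nat_lit 4926, nat_lit 3954, nat_lit 3306, nat_lit 3522, nat_lit 3450, nat_lit 3462, nat_lit 3474, nat_lit 3466] (nat_lit 2) [nat_lit 1282] false,
   Spec.mk (nat_lit 3474) (nat_lit 0) [nat_lit 2016, nat_lit 4932, nat_lit 3960, nat_lit 3312, nat_lit 3528, nat_lit 3468] (nat_lit 1) [nat_lit 1288] false,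
   Spec.mk (nat_lit 3488) (nat_lit 1) [nat_lit 2030, nat_lit 4946, nat_lit 3974, nat_lit 3326, nat_lit 3434, nat_lit 3494, nat_lit 3490] (nat_lit 0) [nat_lit 5674] false,
   Spec.mk (nat_lit 3490) (nat_lit 0) [nat_lit 2032, nat_lit 4948, nat_lit 3976, nat_lit 3328, nat_lit 3436, nat_lit 3496, nat_lit 3488] (nat_lit 0) [nat_lit 5676, nat_lit 1304] false]

noncomputable def sp10 : List Spec :=
  [Spec.mk (nat_lit 3494) (nat_lit 0) [nat_lit 2036, nat_lit 4952, nat_lit 3980, nat_lit 3332, nat_lit 3440, nat_lit 3512, nat_lit 3488, nat_lit 3496] (nat_lit 1) [nat_lit 5680] false,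
   Spec.mk (nat_lit 3496) (nat_lit 0) [nat_lit 2038, nat_lit 4954, nat_lit 3982, nat_lit 3334, nat_lit 3442, nat_lit 3514, nat_lit 3490, nat_lit 3502, nat_lit 3494, nat_lit 3498] (nat_lit 0) [nat_lit 5682, nat_lit 1310] false,
   Spec.mk (nat_lit 3498) (nat_lit 0) [nat_lit 2040, nat_lit 4956, nat_lit 3984, nat_lit 3336, nat_lit 3444, nat_lit 3516, nat_lit 3504, nat_lit 3496] (nat_lit 1) [nat_lit 1312] false,
   Spec.mk (nat_lit 3502) (nat_lit 0) [nat_lit 2044, nat_lit 4960, nat_lit 3988, nat_lit 3340, nat_lit 3448, nat_lit 3520, nat_lit 3496, nat_lit 3504] (nat_lit 2) [nat_lit 5688, nat_lit 1316] false,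
   Spec.mk (nat_lit 3504) (nat_lit 0) [nat_lit 2046, nat_lit 4962, nat_lit 3990, nat_lit 3342, nat_lit 3450, nat_lit 3522, nat_lit 3498, nat_lit 3502] (nat_lit 1) [nat_lit 1318] false,
   Spec.mk (nat_lit 3512) (nat_lit 0) [nat_lit 2054, nat_lit 4970, nat_lit 3998, nat_lit 3350, nat_lit 3458, nat_lit 3566, nat_lit 3494, nat_lit 3514] (nat_lit 0) [nat_lit 5698] false,
   Spec.mk (nat_lit 3514) (nat_lit 0) [nat_lit 2056, nat_lit 4972, nat_lit 4000, nat_lit 3352, nat_lit 3460, nat_lit 3568, nat_lit 3496, nat_lit 3520, nat_lit 3512, nat_lit 3516] (nat_lit 0) [nat_lit 5700, nat_lit 1328] false,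
   Spec.mk (nat_lit 3516) (nat_lit 0) [nat_lit 2058, nat_lit 4974, nat_lit 4002, nat_lit 3354, nat_lit 3462, nat_lit 3570, nat_lit 3498, nat_lit 3522, nat_lit 3514] (nat_lit 2) [nat_lit 1330] false,
   Spec.mk (nat_lit 3520) (nat_lit 0) [nat_lit 2062, nat_lit 4978, nat_lit 4006, nat_lit 3358, nat_lit 3466, nat_lit 3574, nat_lit 3502, nat_lit 3538, nat_lit 3514, nat_lit 3522] (nat_lit 0) [nat_lit 5706, nat_lit 1334] false,
   Spec.mk (nat_lit 3522) (nat_lit 0) [nat_lit 2064, nat_lit 4980, nat_lit 4008, nat_lit 3360, nat_lit 3468, nat_lit 3576, nat_lit 3504, nat_lit 3540, nat_lit 3516, nat_lit 3528, nat_lit 3520] (nat_lit 0) [nat_lit 1336] false,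
   Spec.mk (nat_lit 3528) (nat_lit 0) [nat_lit 2070, nat_lit 4986, nat_lit 4014, nat_lit 3366, nat_lit 3474, nat_lit 3582, nat_lit 3546, nat_lit 3522] (nat_lit 0) [nat_lit 1342] false,
   Spec.mk (nat_lit 3538) (nat_lit 0) [nat_lit 2080, nat_lit 4996, nat_lit 4024, nat_lit 3376, nat_lit 3592, nat_lit 3520, nat_lit 3540] (nat_lit 0) [nat_lit 5724, nat_lit 1352] false,
   Spec.mk (nat_lit 3540) (nat_lit 0) [nat_lit 2082, nat_lit 4998, nat_lit 4026, nat_lit 3378, nat_lit 3594, nat_lit 3522, nat_lit 3546, nat_lit 3538] (nat_lit 1) [nat_lit 1354] false,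
   Spec.mk (nat_lit 3546) (nat_lit 1) [nat_lit 2088, nat_lit 5004, nat_lit 4032, nat_lit 3384, nat_lit 3600, nat_lit 3528, nat_lit 3540] (nat_lit 0) [nat_lit 1360] false,
   Spec.mk (nat_lit 3566) (nat_lit 1) [nat_lit 2108, nat_lit 5024, nat_lit 4052, nat_lit 3512, nat_lit 3568] (nat_lit 0) [nat_lit 5752] false,
   Spec.mk (nat_lit 3568) (nat_lit 1) [nat_lit 2110, nat_lit 5026, nat_lit 4054, nat_lit 3514, nat_lit 3574, nat_lit 3566, nat_lit 3570] (nat_lit 0) [nat_lit 5754, nat_lit 1382] false,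
   Spec.mk (nat_lit 3570) (nat_lit 0) [nat_lit 2112, nat_lit 5028, nat_lit 4056, nat_lit 3516, nat_lit 3576, nat_lit 3568] (nat_lit 1) [nat_lit 1384] false,
   Spec.mk (nat_lit 3574) (nat_lit 0) [nat_lit 2116, nat_lit 5032, nat_lit 4060, nat_lit 3520, nat_lit 3592, nat_lit 3568, nat_lit 3576] (nat_lit 0) [nat_lit 5760, nat_lit 1388] false,
   Spec.mk (nat_lit 3576) (nat_lit 0) [nat_lit 2118, nat_lit 5034, nat_lit 4062, nat_lit 3522, nat_lit 3594, nat_lit 3570, nat_lit 3582, nat_lit 3574] (nat_lit 0) [nat_lit 1390] false,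
   Spec.mk (nat_lit 3582) (nat_lit 0) [nat_lit 2124, nat_lit 5040, nat_lit 4068, nat_lit 3528, nat_lit 3600, nat_lit 3576] (nat_lit 1) [nat_lit 1396] false,
   Spec.mk (nat_lit 3592) (nat_lit 2) [nat_lit 2134, nat_lit 5050, nat_lit 4078, nat_lit 3538, nat_lit 3574, nat_lit 3594] (nat_lit 0) [nat_lit 5778, nat_lit 1406] false,
   Spec.mk (nat_lit 3594) (nat_lit 1) [nat_lit 2136, nat_lit 5052, nat_lit 4080, nat_lit 3540, nat_lit 3576, nat_lit 3600, nat_lit 3592] (nat_lit 0) [nat_lit 1408] false,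
   Spec.mk (nat_lit 3600) (nat_lit 2) [nat_lit 2142, nat_lit 5058, nat_lit 4086, nat_lit 3546, nat_lit 3582, nat_lit 3618, nat_lit 3594] (nat_lit 0) [nat_lit 1414] false,
   Spec.mk (nat_lit 3618) (nat_lit 3) [nat_lit 2160, nat_lit 5076, nat_lit 4104, nat_lit 3600] (nat_lit 0) [nat_lit 1432] false,
   Spec.mk (nat_lit 3662) (nat_lit 2) [nat_lit 5120, nat_lit 3176, nat_lit 3680, nat_lit 3668] (nat_lit 0) [nat_lit 5848] false,
   Spec.mk (nat_lit 3668) (nat_lit 0) [nat_lit 5126, nat_lit 3182, nat_lit 3686, nat_lit 3662, nat_lit 3670] (nat_lit 0) [nat_lit 5854] false,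
   Spec.mk (nat_lit 3670) (nat_lit 1) [nat_lit 5128, nat_lit 3184, nat_lit 3688, nat_lit 3668] (nat_lit 0) [nat_lit 5856, nat_lit 1484] false,
   Spec.mk (nat_lit 3680) (nat_lit 0) [nat_lit 5138, nat_lit 3194, nat_lit 3734, nat_lit 3662, nat_lit 3686] (nat_lit 0) [nat_lit 5866] false,
   Spec.mk (nat_lit 3686) (nat_lit 0) [nat_lit 5144, nat_lit 3200, nat_lit 3740, nat_lit 3668, nat_lit 3704, nat_lit 3680, nat_lit 3692, nat_lit 3688] (nat_lit 0) [nat_lit 5872] false,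
   Spec.mk (nat_lit 3688) (nat_lit 0) [nat_lit 5146, nat_lit 3202, nat_lit 3742, nat_lit 3670, nat_lit 3706, nat_lit 3694, nat_lit 3686] (nat_lit 0) [nat_lit 5874, nat_lit 1502] false,
   Spec.mk (nat_lit 3692) (nat_lit 0) [nat_lit 5150, nat_lit 3206, nat_lit 3746, nat_lit 3710, nat_lit 3686, nat_lit 3694] (nat_lit 2) [nat_lit 5878] false,
   Spec.mk (nat_lit 3694) (nat_lit 0) [nat_lit 5152, nat_lit 3208, nat_lit 3748, nat_lit 3712, nat_lit 3688, nat_lit 3692, nat_lit 3696] (nat_lit 0) [nat_lit 5880, nat_lit 1508] false,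
   Spec.mk (nat_lit 3696) (nat_lit 0) [nat_lit 5154, nat_lit 3210, nat_lit 3750, nat_lit 3714, nat_lit 3694] (nat_lit 0) [nat_lit 1510] false,
   Spec.mk (nat_lit 3704) (nat_lit 0) [nat_lit 5162, nat_lit 3218, nat_lit 3758, nat_lit 3686, nat_lit 3710, nat_lit 3706] (nat_lit 2) [nat_lit 5890] false,
   Spec.mk (nat_lit 3706) (nat_lit 0) [nat_lit 5164, nat_lit 3220, nat_lit 3760, nat_lit 3688, nat_lit 3712, nat_lit 3704] (nat_lit 3) [nat_lit 5892, nat_lit 1520] false,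
   Spec.mk (nat_lit 3710) (nat_lit 0) [nat_lit 5168, nat_lit 3224, nat_lit 3764, nat_lit 3692, nat_lit 3704, nat_lit 3712] (nat_lit 2) [nat_lit 5896] false,
   Spec.mk (nat_lit 3712) (nat_lit 0) [nat_lit 5170, nat_lit 3226, nat_lit 3766, nat_lit 3694, nat_lit 3706, nat_lit 3718, nat_lit 3710, nat_lit 3714] (nat_lit 1) [nat_lit 5898, nat_lit 1526] false,
   Spec.mk (nat_lit 3714) (nat_lit 0) [nat_lit 5172, nat_lit 3228, nat_lit 3768, nat_lit 3696, nat_lit 3720, nat_lit 3712] (nat_lit 2) [nat_lit 1528] false,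
   Spec.mk (nat_lit 3718) (nat_lit 0) [nat_lit 5176, nat_lit 3232, nat_lit 3772, nat_lit 3712, nat_lit 3720] (nat_lit 1) [nat_lit 5904, nat_lit 1532] false,
   Spec.mk (nat_lit 3720) (nat_lit 0) [nat_lit 5178, nat_lit 3234, nat_lit 3774, nat_lit 3714, nat_lit 3718] (nat_lit 0) [nat_lit 1534] false,
   Spec.mk (nat_lit 3734) (nat_lit 0) [nat_lit 5192, nat_lit 3248, nat_lit 3896, nat_lit 3680, nat_lit 3740] (nat_lit 0) [nat_lit 5920] false,
   Spec.mk (nat_lit 3740) (nat_lit 0) [nat_lit 5198, nat_lit 3254, nat_lit 3902, nat_lit 3686, nat_lit 3758, nat_lit 3734, nat_lit 3746, nat_lit 3742] (nat_lit 1) [nat_lit 5926] false,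
   Spec.mk (nat_lit 3742) (nat_lit 0) [nat_lit 5200, nat_lit 3256, nat_lit 3904, nat_lit 3688, nat_lit 3760, nat_lit 3748, nat_lit 3740] (nat_lit 1) [nat_lit 5928, nat_lit 1556] false,
   Spec.mk (nat_lit 3746) (nat_lit 0) [nat_lit 5204, nat_lit 3260, nat_lit 3908, nat_lit 3692, nat_lit 3764, nat_lit 3740, nat_lit 3748] (nat_lit 4) [nat_lit 5932] false,
   Spec.mk (nat_lit 3748) (nat_lit 0) [nat_lit 5206, nat_lit 3262, nat_lit 3910, nat_lit 3694, nat_lit 3766, nat_lit 3742, nat_lit 3746, nat_lit 3750] (nat_lit 2) [nat_lit 5934, nat_lit 1562] false,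
   Spec.mk (nat_lit 3750) (nat_lit 0) [nat_lit 5208, nat_lit 3264, nat_lit 3912, nat_lit 3696, nat_lit 3768, nat_lit 3748] (nat_lit 2) [nat_lit 1564] false,
   Spec.mk (nat_lit 3758) (nat_lit 0) [nat_lit 5216, nat_lit 3272, nat_lit 3920, nat_lit 3704, nat_lit 3812, nat_lit 3740, nat_lit 3764, nat_lit 3760] (nat_lit 1) [nat_lit 5944] false,
   Spec.mk (nat_lit 3760) (nat_lit 0) [nat_lit 5218, nat_lit 3274, nat_lit 3922, nat_lit 3706, nat_lit 3814, nat_lit 3742, nat_lit 3766, nat_lit 3758] (nat_lit 2) [nat_lit 5946, nat_lit 1574] false,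
   Spec.mk (nat_lit 3764) (nat_lit 0) [nat_lit 5222, nat_lit 3278, nat_lit 3926, nat_lit 3710, nat_lit 3818, nat_lit 3746, nat_lit 3782, nat_lit 3758, nat_lit 3766] (nat_lit 2) [nat_lit 5950] false,
   Spec.mk (nat_lit 3766) (nat_lit 0) [nat_lit 5224, nat_lit 3280, nat_lit 3928, nat_lit 3712, nat_lit 3820, nat_lit 3748, nat_lit 3784, nat_lit 3760, nat_lit 3772, nat_lit 3764, nat_lit 3768] (nat_lit 1) [nat_lit 5952, nat_lit 1580] false,
   Spec.mk (nat_lit 3768) (nat_lit 0) [nat_lit 5226, nat_lit 3282, nat_lit 3930, nat_lit 3714, nat_lit 3822, nat_lit 3750, nat_lit 3786, nat_lit 3774, nat_lit 3766] (nat_lit 2) [nat_lit 1582] false,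
   Spec.mk (nat_lit 3772) (nat_lit 0) [nat_lit 5230, nat_lit 3286, nat_lit 3934, nat_lit 3718, nat_lit 3826, nat_lit 3790, nat_lit 3766, nat_lit 3774] (nat_lit 2) [nat_lit 5958, nat_lit 1586] false,
   Spec.mk (nat_lit 3774) (nat_lit 0) [nat_lit 5232, nat_lit 3288, nat_lit 3936, nat_lit 3720, nat_lit 3828, nat_lit 3792, nat_lit 3768, nat_lit 3772] (nat_lit 1) [nat_lit 1588] false,
   Spec.mk (nat_lit 3782) (nat_lit 0) [nat_lit 5240, nat_lit 3296, nat_lit 3944, nat_lit 3836, nat_lit 3764, nat_lit 3784] (nat_lit 2) [nat_lit 5968] false,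
   Spec.mk (nat_lit 3784) (nat_lit 0) [nat_lit 5242, nat_lit 3298, nat_lit 3946, nat_lit 3838, nat_lit 3766, nat_lit 3790, nat_lit 3782, nat_lit 3786] (nat_lit 2) [nat_lit 5970, nat_lit 1598] false,
   Spec.mk (nat_lit 3786) (nat_lit 0) [nat_lit 5244, nat_lit 3300, nat_lit 3948, nat_lit 3840, nat_lit 3768, nat_lit 3792, nat_lit 3784] (nat_lit 4) [nat_lit 1600] false,
   Spec.mk (nat_lit 3790) (nat_lit 0) [nat_lit 5248, nat_lit 3304, nat_lit 3952, nat_lit 3844, nat_lit 3772, nat_lit 3784, nat_lit 3792] (nat_lit 1) [nat_lit 5976, nat_lit 1604] false,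
   Spec.mk (nat_lit 3792) (nat_lit 0) [nat_lit 5250, nat_lit 3306, nat_lit 3954, nat_lit 3846, nat_lit 3774, nat_lit 3786, nat_lit 3798, nat_lit 3790] (nat_lit 1) [nat_lit 1606] false,
   Spec.mk (nat_lit 3798) (nat_lit 0) [nat_lit 5256, nat_lit 3312, nat_lit 3960, nat_lit 3852, nat_lit 3792] (nat_lit 0) [nat_lit 1612] false,
   Spec.mk (nat_lit 3812) (nat_lit 0) [nat_lit 5270, nat_lit 3326, nat_lit 3974, nat_lit 3758, nat_lit 3818, nat_lit 3814] (nat_lit 2) [nat_lit 5998] false]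

noncomputable def sp11 : List Spec :=
  [Spec.mk (nat_lit 3814) (nat_lit 0) [nat_lit 5272, nat_lit 3328, nat_lit 3976, nat_lit 3760, nat_lit 3820, nat_lit 3812] (nat_lit 3) [nat_lit 6000, nat_lit 1628] false,
   Spec.mk (nat_lit 3818) (nat_lit 0) [nat_lit 5276, nat_lit 3332, nat_lit 3980, nat_lit 3764, nat_lit 3836, nat_lit 3812, nat_lit 3820] (nat_lit 4) [nat_lit 6004] false,
   Spec.mk (nat_lit 3820) (nat_lit 0) [nat_lit 5278, nat_lit 3334, nat_lit 3982, nat_lit 3766, nat_lit 3838, nat_lit 3814, nat_lit 3826, nat_lit 3818, nat_lit 3822] (nat_lit 3) [nat_lit 6006, nat_lit 1634] false,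
   Spec.mk (nat_lit 3822) (nat_lit 0) [nat_lit 5280, nat_lit 3336, nat_lit 3984, nat_lit 3768, nat_lit 3840, nat_lit 3828, nat_lit 3820] (nat_lit 4) [nat_lit 1636] false,
   Spec.mk (nat_lit 3826) (nat_lit 0) [nat_lit 5284, nat_lit 3340, nat_lit 3988, nat_lit 3772, nat_lit 3844, nat_lit 3820, nat_lit 3828] (nat_lit 5) [nat_lit 6012, nat_lit 1640] false,
   Spec.mk (nat_lit 3828) (nat_lit 0) [nat_lit 5286, nat_lit 3342, nat_lit 3990, nat_lit 3774, nat_lit 3846, nat_lit 3822, nat_lit 3826] (nat_lit 4) [nat_lit 1642] false,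
   Spec.mk (nat_lit 3836) (nat_lit 0) [nat_lit 5294, nat_lit 3350, nat_lit 3998, nat_lit 3782, nat_lit 3818, nat_lit 3838] (nat_lit 2) [nat_lit 6022] false,
   Spec.mk (nat_lit 3838) (nat_lit 0) [nat_lit 5296, nat_lit 3352, nat_lit 4000, nat_lit 3784, nat_lit 3820, nat_lit 3844, nat_lit 3836, nat_lit 3840] (nat_lit 2) [nat_lit 6024, nat_lit 1652] false,
   Spec.mk (nat_lit 3840) (nat_lit 0) [nat_lit 5298, nat_lit 3354, nat_lit 4002, nat_lit 3786, nat_lit 3822, nat_lit 3846, nat_lit 3838] (nat_lit 4) [nat_lit 1654] false,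
   Spec.mk (nat_lit 3844) (nat_lit 0) [nat_lit 5302, nat_lit 3358, nat_lit 4006, nat_lit 3790, nat_lit 3826, nat_lit 3862, nat_lit 3838, nat_lit 3846] (nat_lit 2) [nat_lit 6030, nat_lit 1658] false,
   Spec.mk (nat_lit 3846) (nat_lit 0) [nat_lit 5304, nat_lit 3360, nat_lit 4008, nat_lit 3792, nat_lit 3828, nat_lit 3864, nat_lit 3840, nat_lit 3852, nat_lit 3844] (nat_lit 2) [nat_lit 1660] false,
   Spec.mk (nat_lit 3852) (nat_lit 0) [nat_lit 5310, nat_lit 3366, nat_lit 4014, nat_lit 3798, nat_lit 3870, nat_lit 3846] (nat_lit 2) [nat_lit 1666] false,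
   Spec.mk (nat_lit 3862) (nat_lit 0) [nat_lit 5320, nat_lit 3376, nat_lit 4024, nat_lit 3844, nat_lit 3864] (nat_lit 1) [nat_lit 6048, nat_lit 1676] false,
   Spec.mk (nat_lit 3864) (nat_lit 0) [nat_lit 5322, nat_lit 3378, nat_lit 4026, nat_lit 3846, nat_lit 3870, nat_lit 3862] (nat_lit 2) [nat_lit 1678] false,
   Spec.mk (nat_lit 3870) (nat_lit 0) [nat_lit 5328, nat_lit 3384, nat_lit 4032, nat_lit 3852, nat_lit 3864] (nat_lit 0) [nat_lit 1684] false,
   Spec.mk (nat_lit 3896) (nat_lit 2) [nat_lit 5354, nat_lit 3410, nat_lit 3734, nat_lit 3902] (nat_lit 0) [nat_lit 6082] false,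
   Spec.mk (nat_lit 3902) (nat_lit 1) [nat_lit 5360, nat_lit 3416, nat_lit 3740, nat_lit 3920, nat_lit 3896, nat_lit 3908, nat_lit 3904] (nat_lit 0) [nat_lit 6088] false,
   Spec.mk (nat_lit 3904) (nat_lit 1) [nat_lit 5362, nat_lit 3418, nat_lit 3742, nat_lit 3922, nat_lit 3910, nat_lit 3902] (nat_lit 0) [nat_lit 6090, nat_lit 1718] false,
   Spec.mk (nat_lit 3908) (nat_lit 0) [nat_lit 5366, nat_lit 3422, nat_lit 3746, nat_lit 3926, nat_lit 3902, nat_lit 3910] (nat_lit 2) [nat_lit 6094] false,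
   Spec.mk (nat_lit 3910) (nat_lit 0) [nat_lit 5368, nat_lit 3424, nat_lit 3748, nat_lit 3928, nat_lit 3904, nat_lit 3908, nat_lit 3912] (nat_lit 0) [nat_lit 6096, nat_lit 1724] false,
   Spec.mk (nat_lit 3912) (nat_lit 0) [nat_lit 5370, nat_lit 3426, nat_lit 3750, nat_lit 3930, nat_lit 3910] (nat_lit 0) [nat_lit 1726] false,
   Spec.mk (nat_lit 3920) (nat_lit 0) [nat_lit 5378, nat_lit 3434, nat_lit 3758, nat_lit 3974, nat_lit 3902, nat_lit 3926, nat_lit 3922] (nat_lit 0) [nat_lit 6106] false,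
   Spec.mk (nat_lit 3922) (nat_lit 0) [nat_lit 5380, nat_lit 3436, nat_lit 3760, nat_lit 3976, nat_lit 3904, nat_lit 3928, nat_lit 3920] (nat_lit 1) [nat_lit 6108, nat_lit 1736] false,
   Spec.mk (nat_lit 3926) (nat_lit 0) [nat_lit 5384, nat_lit 3440, nat_lit 3764, nat_lit 3980, nat_lit 3908, nat_lit 3944, nat_lit 3920, nat_lit 3928] (nat_lit 1) [nat_lit 6112] false,
   Spec.mk (nat_lit 3928) (nat_lit 0) [nat_lit 5386, nat_lit 3442, nat_lit 3766, nat_lit 3982, nat_lit 3910, nat_lit 3946, nat_lit 3922, nat_lit 3934, nat_lit 3926, nat_lit 3930] (nat_lit 0) [nat_lit 6114, nat_lit 1742] false,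
   Spec.mk (nat_lit 3930) (nat_lit 0) [nat_lit 5388, nat_lit 3444, nat_lit 3768, nat_lit 3984, nat_lit 3912, nat_lit 3948, nat_lit 3936, nat_lit 3928] (nat_lit 1) [nat_lit 1744] false,
   Spec.mk (nat_lit 3934) (nat_lit 0) [nat_lit 5392, nat_lit 3448, nat_lit 3772, nat_lit 3988, nat_lit 3952, nat_lit 3928, nat_lit 3936] (nat_lit 1) [nat_lit 6120, nat_lit 1748] false,
   Spec.mk (nat_lit 3936) (nat_lit 0) [nat_lit 5394, nat_lit 3450, nat_lit 3774, nat_lit 3990, nat_lit 3954, nat_lit 3930, nat_lit 3934] (nat_lit 0) [nat_lit 1750] false,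
   Spec.mk (nat_lit 3944) (nat_lit 0) [nat_lit 5402, nat_lit 3458, nat_lit 3782, nat_lit 3998, nat_lit 3926, nat_lit 3946] (nat_lit 2) [nat_lit 6130] false,
   Spec.mk (nat_lit 3946) (nat_lit 0) [nat_lit 5404, nat_lit 3460, nat_lit 3784, nat_lit 4000, nat_lit 3928, nat_lit 3952, nat_lit 3944, nat_lit 3948] (nat_lit 2) [nat_lit 6132, nat_lit 1760] false,
   Spec.mk (nat_lit 3948) (nat_lit 0) [nat_lit 5406, nat_lit 3462, nat_lit 3786, nat_lit 4002, nat_lit 3930, nat_lit 3954, nat_lit 3946] (nat_lit 4) [nat_lit 1762] false,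
   Spec.mk (nat_lit 3952) (nat_lit 0) [nat_lit 5410, nat_lit 3466, nat_lit 3790, nat_lit 4006, nat_lit 3934, nat_lit 3946, nat_lit 3954] (nat_lit 1) [nat_lit 6138, nat_lit 1766] false,
   Spec.mk (nat_lit 3954) (nat_lit 0) [nat_lit 5412, nat_lit 3468, nat_lit 3792, nat_lit 4008, nat_lit 3936, nat_lit 3948, nat_lit 3960, nat_lit 3952] (nat_lit 1) [nat_lit 1768] false,
   Spec.mk (nat_lit 3960) (nat_lit 0) [nat_lit 5418, nat_lit 3474, nat_lit 3798, nat_lit 4014, nat_lit 3954] (nat_lit 0) [nat_lit 1774] false,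
   Spec.mk (nat_lit 3974) (nat_lit 1) [nat_lit 5432, nat_lit 3488, nat_lit 3812, nat_lit 4136, nat_lit 3920, nat_lit 3980, nat_lit 3976] (nat_lit 0) [nat_lit 6160] false,
   Spec.mk (nat_lit 3976) (nat_lit 0) [nat_lit 5434, nat_lit 3490, nat_lit 3814, nat_lit 4138, nat_lit 3922, nat_lit 3982, nat_lit 3974] (nat_lit 0) [nat_lit 6162, nat_lit 1790] false,
   Spec.mk (nat_lit 3980) (nat_lit 0) [nat_lit 5438, nat_lit 3494, nat_lit 3818, nat_lit 4142, nat_lit 3926, nat_lit 3998, nat_lit 3974, nat_lit 3982] (nat_lit 1) [nat_lit 6166] false,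
   Spec.mk (nat_lit 3982) (nat_lit 0) [nat_lit 5440, nat_lit 3496, nat_lit 3820, nat_lit 4144, nat_lit 3928, nat_lit 4000, nat_lit 3976, nat_lit 3988, nat_lit 3980, nat_lit 3984] (nat_lit 0) [nat_lit 6168, nat_lit 1796] false,
   Spec.mk (nat_lit 3984) (nat_lit 0) [nat_lit 5442, nat_lit 3498, nat_lit 3822, nat_lit 4146, nat_lit 3930, nat_lit 4002, nat_lit 3990, nat_lit 3982] (nat_lit 1) [nat_lit 1798] false,
   Spec.mk (nat_lit 3988) (nat_lit 0) [nat_lit 5446, nat_lit 3502, nat_lit 3826, nat_lit 4150, nat_lit 3934, nat_lit 4006, nat_lit 3982, nat_lit 3990] (nat_lit 2) [nat_lit 6174, nat_lit 1802] false,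
   Spec.mk (nat_lit 3990) (nat_lit 0) [nat_lit 5448, nat_lit 3504, nat_lit 3828, nat_lit 4152, nat_lit 3936, nat_lit 4008, nat_lit 3984, nat_lit 3988] (nat_lit 1) [nat_lit 1804] false,
   Spec.mk (nat_lit 3998) (nat_lit 0) [nat_lit 5456, nat_lit 3512, nat_lit 3836, nat_lit 4160, nat_lit 3944, nat_lit 4052, nat_lit 3980, nat_lit 4000] (nat_lit 0) [nat_lit 6184] false,
   Spec.mk (nat_lit 4000) (nat_lit 0) [nat_lit 5458, nat_lit 3514, nat_lit 3838, nat_lit 4162, nat_lit 3946, nat_lit 4054, nat_lit 3982, nat_lit 4006, nat_lit 3998, nat_lit 4002] (nat_lit 0) [nat_lit 6186, nat_lit 1814] false,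
   Spec.mk (nat_lit 4002) (nat_lit 0) [nat_lit 5460, nat_lit 3516, nat_lit 3840, nat_lit 4164, nat_lit 3948, nat_lit 4056, nat_lit 3984, nat_lit 4008, nat_lit 4000] (nat_lit 2) [nat_lit 1816] false,
   Spec.mk (nat_lit 4006) (nat_lit 0) [nat_lit 5464, nat_lit 3520, nat_lit 3844, nat_lit 4168, nat_lit 3952, nat_lit 4060, nat_lit 3988, nat_lit 4024, nat_lit 4000, nat_lit 4008] (nat_lit 0) [nat_lit 6192, nat_lit 1820] false,
   Spec.mk (nat_lit 4008) (nat_lit 0) [nat_lit 5466, nat_lit 3522, nat_lit 3846, nat_lit 4170, nat_lit 3954, nat_lit 4062, nat_lit 3990, nat_lit 4026, nat_lit 4002, nat_lit 4014, nat_lit 4006] (nat_lit 0) [nat_lit 1822] false,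
   Spec.mk (nat_lit 4014) (nat_lit 0) [nat_lit 5472, nat_lit 3528, nat_lit 3852, nat_lit 4176, nat_lit 3960, nat_lit 4068, nat_lit 4032, nat_lit 4008] (nat_lit 0) [nat_lit 1828] false,
   Spec.mk (nat_lit 4024) (nat_lit 0) [nat_lit 5482, nat_lit 3538, nat_lit 3862, nat_lit 4186, nat_lit 4078, nat_lit 4006, nat_lit 4026] (nat_lit 0) [nat_lit 6210, nat_lit 1838] false,
   Spec.mk (nat_lit 4026) (nat_lit 0) [nat_lit 5484, nat_lit 3540, nat_lit 3864, nat_lit 4188, nat_lit 4080, nat_lit 4008, nat_lit 4032, nat_lit 4024] (nat_lit 1) [nat_lit 1840] false,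
   Spec.mk (nat_lit 4032) (nat_lit 1) [nat_lit 5490, nat_lit 3546, nat_lit 3870, nat_lit 4194, nat_lit 4086, nat_lit 4014, nat_lit 4026] (nat_lit 0) [nat_lit 1846] false,
   Spec.mk (nat_lit 4052) (nat_lit 0) [nat_lit 5510, nat_lit 3566, nat_lit 4214, nat_lit 3998, nat_lit 4054] (nat_lit 0) [nat_lit 6238] false,
   Spec.mk (nat_lit 4054) (nat_lit 0) [nat_lit 5512, nat_lit 3568, nat_lit 4216, nat_lit 4000, nat_lit 4060, nat_lit 4052, nat_lit 4056] (nat_lit 0) [nat_lit 6240, nat_lit 1868] false,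
   Spec.mk (nat_lit 4056) (nat_lit 0) [nat_lit 5514, nat_lit 3570, nat_lit 4218, nat_lit 4002, nat_lit 4062, nat_lit 4054] (nat_lit 2) [nat_lit 1870] false,
   Spec.mk (nat_lit 4060) (nat_lit 0) [nat_lit 5518, nat_lit 3574, nat_lit 4222, nat_lit 4006, nat_lit 4078, nat_lit 4054, nat_lit 4062] (nat_lit 1) [nat_lit 6246, nat_lit 1874] false,
   Spec.mk (nat_lit 4062) (nat_lit 0) [nat_lit 5520, nat_lit 3576, nat_lit 4224, nat_lit 4008, nat_lit 4080, nat_lit 4056, nat_lit 4068, nat_lit 4060] (nat_lit 1) [nat_lit 1876] false,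
   Spec.mk (nat_lit 4068) (nat_lit 0) [nat_lit 5526, nat_lit 3582, nat_lit 4230, nat_lit 4014, nat_lit 4086, nat_lit 4062] (nat_lit 2) [nat_lit 1882] false,
   Spec.mk (nat_lit 4078) (nat_lit 1) [nat_lit 5536, nat_lit 3592, nat_lit 4240, nat_lit 4024, nat_lit 4060, nat_lit 4080] (nat_lit 0) [nat_lit 6264, nat_lit 1892] false,
   Spec.mk (nat_lit 4080) (nat_lit 0) [nat_lit 5538, nat_lit 3594, nat_lit 4242, nat_lit 4026, nat_lit 4062, nat_lit 4086, nat_lit 4078] (nat_lit 0) [nat_lit 1894] false,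
   Spec.mk (nat_lit 4086) (nat_lit 1) [nat_lit 5544, nat_lit 3600, nat_lit 4248, nat_lit 4032, nat_lit 4068, nat_lit 4104, nat_lit 4080] (nat_lit 0) [nat_lit 1900] false,
   Spec.mk (nat_lit 4104) (nat_lit 2) [nat_lit 5562, nat_lit 3618, nat_lit 4266, nat_lit 4086] (nat_lit 0) [nat_lit 1918] false]

noncomputable def sp12 : List Spec :=
  [Spec.mk (nat_lit 4136) (nat_lit 2) [nat_lit 5594, nat_lit 3974, nat_lit 4142, nat_lit 4138] (nat_lit 0) [nat_lit 6322] false,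
   Spec.mk (nat_lit 4138) (nat_lit 1) [nat_lit 5596, nat_lit 3976, nat_lit 4144, nat_lit 4136] (nat_lit 0) [nat_lit 6324, nat_lit 1952] false,
   Spec.mk (nat_lit 4142) (nat_lit 0) [nat_lit 5600, nat_lit 3980, nat_lit 4160, nat_lit 4136, nat_lit 4144] (nat_lit 0) [nat_lit 6328] false,
   Spec.mk (nat_lit 4144) (nat_lit 1) [nat_lit 5602, nat_lit 3982, nat_lit 4162, nat_lit 4138, nat_lit 4150, nat_lit 4142, nat_lit 4146] (nat_lit 0) [nat_lit 6330, nat_lit 1958] false,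
   Spec.mk (nat_lit 4146) (nat_lit 0) [nat_lit 5604, nat_lit 3984, nat_lit 4164, nat_lit 4152, nat_lit 4144] (nat_lit 0) [nat_lit 1960] false,
   Spec.mk (nat_lit 4150) (nat_lit 0) [nat_lit 5608, nat_lit 3988, nat_lit 4168, nat_lit 4144, nat_lit 4152] (nat_lit 1) [nat_lit 6336, nat_lit 1964] false,
   Spec.mk (nat_lit 4152) (nat_lit 0) [nat_lit 5610, nat_lit 3990, nat_lit 4170, nat_lit 4146, nat_lit 4150] (nat_lit 0) [nat_lit 1966] false,
   Spec.mk (nat_lit 4160) (nat_lit 0) [nat_lit 5618, nat_lit 3998, nat_lit 4214, nat_lit 4142, nat_lit 4162] (nat_lit 0) [nat_lit 6346] false,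
   Spec.mk (nat_lit 4162) (nat_lit 0) [nat_lit 5620, nat_lit 4000, nat_lit 4216, nat_lit 4144, nat_lit 4168, nat_lit 4160, nat_lit 4164] (nat_lit 0) [nat_lit 6348, nat_lit 1976] false,
   Spec.mk (nat_lit 4164) (nat_lit 0) [nat_lit 5622, nat_lit 4002, nat_lit 4218, nat_lit 4146, nat_lit 4170, nat_lit 4162] (nat_lit 2) [nat_lit 1978] false,
   Spec.mk (nat_lit 4168) (nat_lit 0) [nat_lit 5626, nat_lit 4006, nat_lit 4222, nat_lit 4150, nat_lit 4186, nat_lit 4162, nat_lit 4170] (nat_lit 0) [nat_lit 6354, nat_lit 1982] false,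
   Spec.mk (nat_lit 4170) (nat_lit 0) [nat_lit 5628, nat_lit 4008, nat_lit 4224, nat_lit 4152, nat_lit 4188, nat_lit 4164, nat_lit 4176, nat_lit 4168] (nat_lit 0) [nat_lit 1984] false,
   Spec.mk (nat_lit 4176) (nat_lit 0) [nat_lit 5634, nat_lit 4014, nat_lit 4230, nat_lit 4194, nat_lit 4170] (nat_lit 0) [nat_lit 1990] false,
   Spec.mk (nat_lit 4186) (nat_lit 0) [nat_lit 5644, nat_lit 4024, nat_lit 4240, nat_lit 4168, nat_lit 4188] (nat_lit 1) [nat_lit 6372, nat_lit 2000] false,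
   Spec.mk (nat_lit 4188) (nat_lit 0) [nat_lit 5646, nat_lit 4026, nat_lit 4242, nat_lit 4170, nat_lit 4194, nat_lit 4186] (nat_lit 2) [nat_lit 2002] false,
   Spec.mk (nat_lit 4194) (nat_lit 0) [nat_lit 5652, nat_lit 4032, nat_lit 4248, nat_lit 4176, nat_lit 4188] (nat_lit 0) [nat_lit 2008] false,
   Spec.mk (nat_lit 4214) (nat_lit 2) [nat_lit 5672, nat_lit 4052, nat_lit 4160, nat_lit 4216] (nat_lit 0) [nat_lit 6400] false,
   Spec.mk (nat_lit 4216) (nat_lit 2) [nat_lit 5674, nat_lit 4054, nat_lit 4162, nat_lit 4222, nat_lit 4214, nat_lit 4218] (nat_lit 0) [nat_lit 6402, nat_lit 2030] false,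
   Spec.mk (nat_lit 4218) (nat_lit 0) [nat_lit 5676, nat_lit 4056, nat_lit 4164, nat_lit 4224, nat_lit 4216] (nat_lit 0) [nat_lit 2032] false,
   Spec.mk (nat_lit 4222) (nat_lit 1) [nat_lit 5680, nat_lit 4060, nat_lit 4168, nat_lit 4240, nat_lit 4216, nat_lit 4224] (nat_lit 0) [nat_lit 6408, nat_lit 2036] false,
   Spec.mk (nat_lit 4224) (nat_lit 1) [nat_lit 5682, nat_lit 4062, nat_lit 4170, nat_lit 4242, nat_lit 4218, nat_lit 4230, nat_lit 4222] (nat_lit 0) [nat_lit 2038] false,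
   Spec.mk (nat_lit 4230) (nat_lit 0) [nat_lit 5688, nat_lit 4068, nat_lit 4176, nat_lit 4248, nat_lit 4224] (nat_lit 0) [nat_lit 2044] false,
   Spec.mk (nat_lit 4240) (nat_lit 2) [nat_lit 5698, nat_lit 4078, nat_lit 4186, nat_lit 4294, nat_lit 4222, nat_lit 4242] (nat_lit 0) [nat_lit 6426, nat_lit 2054] false,
   Spec.mk (nat_lit 4242) (nat_lit 1) [nat_lit 5700, nat_lit 4080, nat_lit 4188, nat_lit 4296, nat_lit 4224, nat_lit 4248, nat_lit 4240] (nat_lit 0) [nat_lit 2056] false,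
   Spec.mk (nat_lit 4248) (nat_lit 2) [nat_lit 5706, nat_lit 4086, nat_lit 4194, nat_lit 4302, nat_lit 4230, nat_lit 4266, nat_lit 4242] (nat_lit 0) [nat_lit 2062] false,
   Spec.mk (nat_lit 4266) (nat_lit 2) [nat_lit 5724, nat_lit 4104, nat_lit 4320, nat_lit 4248] (nat_lit 0) [nat_lit 2080] false,
   Spec.mk (nat_lit 4294) (nat_lit 3) [nat_lit 5752, nat_lit 4240, nat_lit 4296] (nat_lit 0) [nat_lit 6480, nat_lit 2108] false,
   Spec.mk (nat_lit 4296) (nat_lit 2) [nat_lit 5754, nat_lit 4242, nat_lit 4302, nat_lit 4294] (nat_lit 0) [nat_lit 2110] false,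
   Spec.mk (nat_lit 4302) (nat_lit 2) [nat_lit 5760, nat_lit 4248, nat_lit 4320, nat_lit 4296] (nat_lit 0) [nat_lit 2116] false,
   Spec.mk (nat_lit 4320) (nat_lit 4) [nat_lit 5778, nat_lit 4266, nat_lit 4302] (nat_lit 0) [nat_lit 2134] false,
   Spec.mk (nat_lit 4400) (nat_lit 4) [nat_lit 2942, nat_lit 4418] (nat_lit 0) [] false,
   Spec.mk (nat_lit 4418) (nat_lit 3) [nat_lit 2960, nat_lit 4472, nat_lit 4400, nat_lit 4436, nat_lit 4424] (nat_lit 0) [] false,
   Spec.mk (nat_lit 4424) (nat_lit 2) [nat_lit 2966, nat_lit 4478, nat_lit 4442, nat_lit 4418, nat_lit 4426] (nat_lit 0) [] false,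
   Spec.mk (nat_lit 4426) (nat_lit 2) [nat_lit 2968, nat_lit 4480, nat_lit 4444, nat_lit 4424] (nat_lit 0) [nat_lit 2240] false,
   Spec.mk (nat_lit 4436) (nat_lit 0) [nat_lit 2978, nat_lit 4490, nat_lit 4418, nat_lit 4442] (nat_lit 0) [] false,
   Spec.mk (nat_lit 4442) (nat_lit 1) [nat_lit 2984, nat_lit 4496, nat_lit 4424, nat_lit 4436, nat_lit 4448, nat_lit 4444] (nat_lit 0) [] false,
   Spec.mk (nat_lit 4444) (nat_lit 0) [nat_lit 2986, nat_lit 4498, nat_lit 4426, nat_lit 4450, nat_lit 4442] (nat_lit 0) [nat_lit 2258] false,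
   Spec.mk (nat_lit 4448) (nat_lit 0) [nat_lit 2990, nat_lit 4502, nat_lit 4442, nat_lit 4450] (nat_lit 0) [] false,
   Spec.mk (nat_lit 4450) (nat_lit 1) [nat_lit 2992, nat_lit 4504, nat_lit 4444, nat_lit 4448, nat_lit 4452] (nat_lit 0) [nat_lit 2264] false,
   Spec.mk (nat_lit 4452) (nat_lit 0) [nat_lit 2994, nat_lit 4506, nat_lit 4450] (nat_lit 0) [nat_lit 2266] false,
   Spec.mk (nat_lit 4472) (nat_lit 2) [nat_lit 3014, nat_lit 4634, nat_lit 4418, nat_lit 4490, nat_lit 4478] (nat_lit 0) [] false,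
   Spec.mk (nat_lit 4478) (nat_lit 0) [nat_lit 3020, nat_lit 4640, nat_lit 4424, nat_lit 4496, nat_lit 4472, nat_lit 4480] (nat_lit 0) [] false,
   Spec.mk (nat_lit 4480) (nat_lit 0) [nat_lit 3022, nat_lit 4642, nat_lit 4426, nat_lit 4498, nat_lit 4478] (nat_lit 0) [nat_lit 2294] false,
   Spec.mk (nat_lit 4490) (nat_lit 1) [nat_lit 3032, nat_lit 4652, nat_lit 4436, nat_lit 4544, nat_lit 4472, nat_lit 4496] (nat_lit 0) [] false,
   Spec.mk (nat_lit 4496) (nat_lit 1) [nat_lit 3038, nat_lit 4658, nat_lit 4442, nat_lit 4550, nat_lit 4478, nat_lit 4514, nat_lit 4490, nat_lit 4502, nat_lit 4498] (nat_lit 0) [] false,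
   Spec.mk (nat_lit 4498) (nat_lit 0) [nat_lit 3040, nat_lit 4660, nat_lit 4444, nat_lit 4552, nat_lit 4480, nat_lit 4516, nat_lit 4504, nat_lit 4496] (nat_lit 0) [nat_lit 2312] false,
   Spec.mk (nat_lit 4502) (nat_lit 0) [nat_lit 3044, nat_lit 4664, nat_lit 4448, nat_lit 4556, nat_lit 4520, nat_lit 4496, nat_lit 4504] (nat_lit 1) [] false,
   Spec.mk (nat_lit 4504) (nat_lit 0) [nat_lit 3046, nat_lit 4666, nat_lit 4450, nat_lit 4558, nat_lit 4522, nat_lit 4498, nat_lit 4502, nat_lit 4506] (nat_lit 0) [nat_lit 2318] false,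
   Spec.mk (nat_lit 4506) (nat_lit 0) [nat_lit 3048, nat_lit 4668, nat_lit 4452, nat_lit 4560, nat_lit 4524, nat_lit 4504] (nat_lit 1) [nat_lit 2320] false,
   Spec.mk (nat_lit 4514) (nat_lit 0) [nat_lit 3056, nat_lit 4676, nat_lit 4568, nat_lit 4496, nat_lit 4520, nat_lit 4516] (nat_lit 0) [] false,
   Spec.mk (nat_lit 4516) (nat_lit 0) [nat_lit 3058, nat_lit 4678, nat_lit 4570, nat_lit 4498, nat_lit 4522, nat_lit 4514] (nat_lit 2) [nat_lit 2330] false,
   Spec.mk (nat_lit 4520) (nat_lit 0) [nat_lit 3062, nat_lit 4682, nat_lit 4574, nat_lit 4502, nat_lit 4514, nat_lit 4522] (nat_lit 0) [] false,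
   Spec.mk (nat_lit 4522) (nat_lit 0) [nat_lit 3064, nat_lit 4684, nat_lit 4576, nat_lit 4504, nat_lit 4516, nat_lit 4528, nat_lit 4520, nat_lit 4524] (nat_lit 0) [nat_lit 2336] false,
   Spec.mk (nat_lit 4524) (nat_lit 0) [nat_lit 3066, nat_lit 4686, nat_lit 4578, nat_lit 4506, nat_lit 4530, nat_lit 4522] (nat_lit 2) [nat_lit 2338] false,
   Spec.mk (nat_lit 4528) (nat_lit 0) [nat_lit 3070, nat_lit 4690, nat_lit 4582, nat_lit 4522, nat_lit 4530] (nat_lit 0) [nat_lit 2342] false,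
   Spec.mk (nat_lit 4530) (nat_lit 0) [nat_lit 3072, nat_lit 4692, nat_lit 4584, nat_lit 4524, nat_lit 4528] (nat_lit 0) [nat_lit 2344] false,
   Spec.mk (nat_lit 4544) (nat_lit 0) [nat_lit 3086, nat_lit 4706, nat_lit 4490, nat_lit 4550] (nat_lit 0) [] false,
   Spec.mk (nat_lit 4550) (nat_lit 0) [nat_lit 3092, nat_lit 4712, nat_lit 4496, nat_lit 4568, nat_lit 4544, nat_lit 4556, nat_lit 4552] (nat_lit 1) [] false,
   Spec.mk (nat_lit 4552) (nat_lit 0) [nat_lit 3094, nat_lit 4714, nat_lit 4498, nat_lit 4570, nat_lit 4558, nat_lit 4550] (nat_lit 2) [nat_lit 2366] false,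
   Spec.mk (nat_lit 4556) (nat_lit 0) [nat_lit 3098, nat_lit 4718, nat_lit 4502, nat_lit 4574, nat_lit 4550, nat_lit 4558] (nat_lit 4) [] false]

noncomputable def sp13 : List Spec :=
  [Spec.mk (nat_lit 4558) (nat_lit 0) [nat_lit 3100, nat_lit 4720, nat_lit 4504, nat_lit 4576, nat_lit 4552, nat_lit 4556, nat_lit 4560] (nat_lit 3) [nat_lit 2372] false,
   Spec.mk (nat_lit 4560) (nat_lit 0) [nat_lit 3102, nat_lit 4722, nat_lit 4506, nat_lit 4578, nat_lit 4558] (nat_lit 4) [nat_lit 2374] false,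
   Spec.mk (nat_lit 4568) (nat_lit 0) [nat_lit 3110, nat_lit 4730, nat_lit 4514, nat_lit 4550, nat_lit 4574, nat_lit 4570] (nat_lit 0) [] false,
   Spec.mk (nat_lit 4570) (nat_lit 0) [nat_lit 3112, nat_lit 4732, nat_lit 4516, nat_lit 4552, nat_lit 4576, nat_lit 4568] (nat_lit 2) [nat_lit 2384] false,
   Spec.mk (nat_lit 4574) (nat_lit 0) [nat_lit 3116, nat_lit 4736, nat_lit 4520, nat_lit 4556, nat_lit 4592, nat_lit 4568, nat_lit 4576] (nat_lit 1) [] false,
   Spec.mk (nat_lit 4576) (nat_lit 0) [nat_lit 3118, nat_lit 4738, nat_lit 4522, nat_lit 4558, nat_lit 4594, nat_lit 4570, nat_lit 4582, nat_lit 4574, nat_lit 4578] (nat_lit 1) [nat_lit 2390] false,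
   Spec.mk (nat_lit 4578) (nat_lit 0) [nat_lit 3120, nat_lit 4740, nat_lit 4524, nat_lit 4560, nat_lit 4596, nat_lit 4584, nat_lit 4576] (nat_lit 3) [nat_lit 2392] false,
   Spec.mk (nat_lit 4582) (nat_lit 0) [nat_lit 3124, nat_lit 4744, nat_lit 4528, nat_lit 4600, nat_lit 4576, nat_lit 4584] (nat_lit 2) [nat_lit 2396] false,
   Spec.mk (nat_lit 4584) (nat_lit 0) [nat_lit 3126, nat_lit 4746, nat_lit 4530, nat_lit 4602, nat_lit 4578, nat_lit 4582] (nat_lit 2) [nat_lit 2398] false,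
   Spec.mk (nat_lit 4592) (nat_lit 0) [nat_lit 3134, nat_lit 4754, nat_lit 4574, nat_lit 4594] (nat_lit 0) [] false,
   Spec.mk (nat_lit 4594) (nat_lit 0) [nat_lit 3136, nat_lit 4756, nat_lit 4576, nat_lit 4600, nat_lit 4592, nat_lit 4596] (nat_lit 1) [nat_lit 2408] false,
   Spec.mk (nat_lit 4596) (nat_lit 0) [nat_lit 3138, nat_lit 4758, nat_lit 4578, nat_lit 4602, nat_lit 4594] (nat_lit 4) [nat_lit 2410] false,
   Spec.mk (nat_lit 4600) (nat_lit 0) [nat_lit 3142, nat_lit 4762, nat_lit 4582, nat_lit 4594, nat_lit 4602] (nat_lit 0) [nat_lit 2414] false,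
   Spec.mk (nat_lit 4602) (nat_lit 0) [nat_lit 3144, nat_lit 4764, nat_lit 4584, nat_lit 4596, nat_lit 4608, nat_lit 4600] (nat_lit 1) [nat_lit 2416] false,
   Spec.mk (nat_lit 4608) (nat_lit 0) [nat_lit 3150, nat_lit 4770, nat_lit 4602] (nat_lit 0) [nat_lit 2422] false,
   Spec.mk (nat_lit 4634) (nat_lit 2) [nat_lit 3176, nat_lit 5120, nat_lit 4472, nat_lit 4652, nat_lit 4640] (nat_lit 0) [] false,
   Spec.mk (nat_lit 4640) (nat_lit 0) [nat_lit 3182, nat_lit 5126, nat_lit 4478, nat_lit 4658, nat_lit 4634, nat_lit 4642] (nat_lit 0) [] false,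
   Spec.mk (nat_lit 4642) (nat_lit 0) [nat_lit 3184, nat_lit 5128, nat_lit 4480, nat_lit 4660, nat_lit 4640] (nat_lit 0) [nat_lit 2456] false,
   Spec.mk (nat_lit 4652) (nat_lit 0) [nat_lit 3194, nat_lit 5138, nat_lit 4490, nat_lit 4706, nat_lit 4634, nat_lit 4658] (nat_lit 0) [] false,
   Spec.mk (nat_lit 4658) (nat_lit 0) [nat_lit 3200, nat_lit 5144, nat_lit 4496, nat_lit 4712, nat_lit 4640, nat_lit 4676, nat_lit 4652, nat_lit 4664, nat_lit 4660] (nat_lit 0) [] false,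
   Spec.mk (nat_lit 4660) (nat_lit 0) [nat_lit 3202, nat_lit 5146, nat_lit 4498, nat_lit 4714, nat_lit 4642, nat_lit 4678, nat_lit 4666, nat_lit 4658] (nat_lit 1) [nat_lit 2474] false,
   Spec.mk (nat_lit 4664) (nat_lit 0) [nat_lit 3206, nat_lit 5150, nat_lit 4502, nat_lit 4718, nat_lit 4682, nat_lit 4658, nat_lit 4666] (nat_lit 2) [] false,
   Spec.mk (nat_lit 4666) (nat_lit 0) [nat_lit 3208, nat_lit 5152, nat_lit 4504, nat_lit 4720, nat_lit 4684, nat_lit 4660, nat_lit 4664, nat_lit 4668] (nat_lit 1) [nat_lit 2480] false,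
   Spec.mk (nat_lit 4668) (nat_lit 0) [nat_lit 3210, nat_lit 5154, nat_lit 4506, nat_lit 4722, nat_lit 4686, nat_lit 4666] (nat_lit 2) [nat_lit 2482] false,
   Spec.mk (nat_lit 4676) (nat_lit 0) [nat_lit 3218, nat_lit 5162, nat_lit 4514, nat_lit 4730, nat_lit 4658, nat_lit 4682, nat_lit 4678] (nat_lit 2) [] false,
   Spec.mk (nat_lit 4678) (nat_lit 0) [nat_lit 3220, nat_lit 5164, nat_lit 4516, nat_lit 4732, nat_lit 4660, nat_lit 4684, nat_lit 4676] (nat_lit 4) [nat_lit 2492] false,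
   Spec.mk (nat_lit 4682) (nat_lit 0) [nat_lit 3224, nat_lit 5168, nat_lit 4520, nat_lit 4736, nat_lit 4664, nat_lit 4676, nat_lit 4684] (nat_lit 2) [] false,
   Spec.mk (nat_lit 4684) (nat_lit 0) [nat_lit 3226, nat_lit 5170, nat_lit 4522, nat_lit 4738, nat_lit 4666, nat_lit 4678, nat_lit 4690, nat_lit 4682, nat_lit 4686] (nat_lit 2) [nat_lit 2498] false,
   Spec.mk (nat_lit 4686) (nat_lit 0) [nat_lit 3228, nat_lit 5172, nat_lit 4524, nat_lit 4740, nat_lit 4668, nat_lit 4692, nat_lit 4684] (nat_lit 4) [nat_lit 2500] false,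
   Spec.mk (nat_lit 4690) (nat_lit 0) [nat_lit 3232, nat_lit 5176, nat_lit 4528, nat_lit 4744, nat_lit 4684, nat_lit 4692] (nat_lit 2) [nat_lit 2504] false,
   Spec.mk (nat_lit 4692) (nat_lit 0) [nat_lit 3234, nat_lit 5178, nat_lit 4530, nat_lit 4746, nat_lit 4686, nat_lit 4690] (nat_lit 2) [nat_lit 2506] false,
   Spec.mk (nat_lit 4706) (nat_lit 1) [nat_lit 3248, nat_lit 5192, nat_lit 4544, nat_lit 4868, nat_lit 4652, nat_lit 4712] (nat_lit 0) [] false,
   Spec.mk (nat_lit 4712) (nat_lit 0) [nat_lit 3254, nat_lit 5198, nat_lit 4550, nat_lit 4874, nat_lit 4658, nat_lit 4730, nat_lit 4706, nat_lit 4718, nat_lit 4714] (nat_lit 0) [] false,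
   Spec.mk (nat_lit 4714) (nat_lit 0) [nat_lit 3256, nat_lit 5200, nat_lit 4552, nat_lit 4876, nat_lit 4660, nat_lit 4732, nat_lit 4720, nat_lit 4712] (nat_lit 1) [nat_lit 2528] false,
   Spec.mk (nat_lit 4718) (nat_lit 0) [nat_lit 3260, nat_lit 5204, nat_lit 4556, nat_lit 4880, nat_lit 4664, nat_lit 4736, nat_lit 4712, nat_lit 4720] (nat_lit 3) [] false,
   Spec.mk (nat_lit 4720) (nat_lit 0) [nat_lit 3262, nat_lit 5206, nat_lit 4558, nat_lit 4882, nat_lit 4666, nat_lit 4738, nat_lit 4714, nat_lit 4718, nat_lit 4722] (nat_lit 2) [nat_lit 2534] false,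
   Spec.mk (nat_lit 4722) (nat_lit 0) [nat_lit 3264, nat_lit 5208, nat_lit 4560, nat_lit 4884, nat_lit 4668, nat_lit 4740, nat_lit 4720] (nat_lit 3) [nat_lit 2536] false,
   Spec.mk (nat_lit 4730) (nat_lit 0) [nat_lit 3272, nat_lit 5216, nat_lit 4568, nat_lit 4892, nat_lit 4676, nat_lit 4784, nat_lit 4712, nat_lit 4736, nat_lit 4732] (nat_lit 0) [] false,
   Spec.mk (nat_lit 4732) (nat_lit 0) [nat_lit 3274, nat_lit 5218, nat_lit 4570, nat_lit 4894, nat_lit 4678, nat_lit 4786, nat_lit 4714, nat_lit 4738, nat_lit 4730] (nat_lit 2) [nat_lit 2546] false,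
   Spec.mk (nat_lit 4736) (nat_lit 0) [nat_lit 3278, nat_lit 5222, nat_lit 4574, nat_lit 4898, nat_lit 4682, nat_lit 4790, nat_lit 4718, nat_lit 4754, nat_lit 4730, nat_lit 4738] (nat_lit 1) [] false,
   Spec.mk (nat_lit 4738) (nat_lit 0) [nat_lit 3280, nat_lit 5224, nat_lit 4576, nat_lit 4900, nat_lit 4684, nat_lit 4792, nat_lit 4720, nat_lit 4756, nat_lit 4732, nat_lit 4744, nat_lit 4736, nat_lit 4740] (nat_lit 1) [nat_lit 2552] false,
   Spec.mk (nat_lit 4740) (nat_lit 0) [nat_lit 3282, nat_lit 5226, nat_lit 4578, nat_lit 4902, nat_lit 4686, nat_lit 4794, nat_lit 4722, nat_lit 4758, nat_lit 4746, nat_lit 4738] (nat_lit 3) [nat_lit 2554] false,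
   Spec.mk (nat_lit 4744) (nat_lit 0) [nat_lit 3286, nat_lit 5230, nat_lit 4582, nat_lit 4906, nat_lit 4690, nat_lit 4798, nat_lit 4762, nat_lit 4738, nat_lit 4746] (nat_lit 2) [nat_lit 2558] false,
   Spec.mk (nat_lit 4746) (nat_lit 0) [nat_lit 3288, nat_lit 5232, nat_lit 4584, nat_lit 4908, nat_lit 4692, nat_lit 4800, nat_lit 4764, nat_lit 4740, nat_lit 4744] (nat_lit 2) [nat_lit 2560] false,
   Spec.mk (nat_lit 4754) (nat_lit 0) [nat_lit 3296, nat_lit 5240, nat_lit 4592, nat_lit 4916, nat_lit 4808, nat_lit 4736, nat_lit 4756] (nat_lit 1) [] false,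
   Spec.mk (nat_lit 4756) (nat_lit 0) [nat_lit 3298, nat_lit 5242, nat_lit 4594, nat_lit 4918, nat_lit 4810, nat_lit 4738, nat_lit 4762, nat_lit 4754, nat_lit 4758] (nat_lit 2) [nat_lit 2570] false,
   Spec.mk (nat_lit 4758) (nat_lit 0) [nat_lit 3300, nat_lit 5244, nat_lit 4596, nat_lit 4920, nat_lit 4812, nat_lit 4740, nat_lit 4764, nat_lit 4756] (nat_lit 5) [nat_lit 2572] false,
   Spec.mk (nat_lit 4762) (nat_lit 0) [nat_lit 3304, nat_lit 5248, nat_lit 4600, nat_lit 4924, nat_lit 4816, nat_lit 4744, nat_lit 4756, nat_lit 4764] (nat_lit 1) [nat_lit 2576] false,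
   Spec.mk (nat_lit 4764) (nat_lit 0) [nat_lit 3306, nat_lit 5250, nat_lit 4602, nat_lit 4926, nat_lit 4818, nat_lit 4746, nat_lit 4758, nat_lit 4770, nat_lit 4762] (nat_lit 2) [nat_lit 2578] false,
   Spec.mk (nat_lit 4770) (nat_lit 0) [nat_lit 3312, nat_lit 5256, nat_lit 4608, nat_lit 4932, nat_lit 4824, nat_lit 4764] (nat_lit 1) [nat_lit 2584] false,
   Spec.mk (nat_lit 4784) (nat_lit 0) [nat_lit 3326, nat_lit 5270, nat_lit 4946, nat_lit 4730, nat_lit 4790, nat_lit 4786] (nat_lit 0) [] false,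
   Spec.mk (nat_lit 4786) (nat_lit 0) [nat_lit 3328, nat_lit 5272, nat_lit 4948, nat_lit 4732, nat_lit 4792, nat_lit 4784] (nat_lit 2) [nat_lit 2600] false,
   Spec.mk (nat_lit 4790) (nat_lit 0) [nat_lit 3332, nat_lit 5276, nat_lit 4952, nat_lit 4736, nat_lit 4808, nat_lit 4784, nat_lit 4792] (nat_lit 2) [] false,
   Spec.mk (nat_lit 4792) (nat_lit 0) [nat_lit 3334, nat_lit 5278, nat_lit 4954, nat_lit 4738, nat_lit 4810, nat_lit 4786, nat_lit 4798, nat_lit 4790, nat_lit 4794] (nat_lit 2) [nat_lit 2606] false,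
   Spec.mk (nat_lit 4794) (nat_lit 0) [nat_lit 3336, nat_lit 5280, nat_lit 4956, nat_lit 4740, nat_lit 4812, nat_lit 4800, nat_lit 4792] (nat_lit 4) [nat_lit 2608] false,
   Spec.mk (nat_lit 4798) (nat_lit 0) [nat_lit 3340, nat_lit 5284, nat_lit 4960, nat_lit 4744, nat_lit 4816, nat_lit 4792, nat_lit 4800] (nat_lit 4) [nat_lit 2612] false,
   Spec.mk (nat_lit 4800) (nat_lit 0) [nat_lit 3342, nat_lit 5286, nat_lit 4962, nat_lit 4746, nat_lit 4818, nat_lit 4794, nat_lit 4798] (nat_lit 4) [nat_lit 2614] false,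
   Spec.mk (nat_lit 4808) (nat_lit 0) [nat_lit 3350, nat_lit 5294, nat_lit 4970, nat_lit 4754, nat_lit 4790, nat_lit 4810] (nat_lit 0) [] false,
   Spec.mk (nat_lit 4810) (nat_lit 0) [nat_lit 3352, nat_lit 5296, nat_lit 4972, nat_lit 4756, nat_lit 4792, nat_lit 4816, nat_lit 4808, nat_lit 4812] (nat_lit 1) [nat_lit 2624] false,
   Spec.mk (nat_lit 4812) (nat_lit 0) [nat_lit 3354, nat_lit 5298, nat_lit 4974, nat_lit 4758, nat_lit 4794, nat_lit 4818, nat_lit 4810] (nat_lit 4) [nat_lit 2626] false]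

noncomputable def sp14 : List Spec :=
  [Spec.mk (nat_lit 4816) (nat_lit 0) [nat_lit 3358, nat_lit 5302, nat_lit 4978, nat_lit 4762, nat_lit 4798, nat_lit 4834, nat_lit 4810, nat_lit 4818] (nat_lit 1) [nat_lit 2630] false,
   Spec.mk (nat_lit 4818) (nat_lit 0) [nat_lit 3360, nat_lit 5304, nat_lit 4980, nat_lit 4764, nat_lit 4800, nat_lit 4836, nat_lit 4812, nat_lit 4824, nat_lit 4816] (nat_lit 2) [nat_lit 2632] false,
   Spec.mk (nat_lit 4824) (nat_lit 0) [nat_lit 3366, nat_lit 5310, nat_lit 4986, nat_lit 4770, nat_lit 4842, nat_lit 4818] (nat_lit 2) [nat_lit 2638] false,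
   Spec.mk (nat_lit 4834) (nat_lit 0) [nat_lit 3376, nat_lit 5320, nat_lit 4996, nat_lit 4816, nat_lit 4836] (nat_lit 0) [nat_lit 2648] false,
   Spec.mk (nat_lit 4836) (nat_lit 0) [nat_lit 3378, nat_lit 5322, nat_lit 4998, nat_lit 4818, nat_lit 4842, nat_lit 4834] (nat_lit 2) [nat_lit 2650] false,
   Spec.mk (nat_lit 4842) (nat_lit 0) [nat_lit 3384, nat_lit 5328, nat_lit 5004, nat_lit 4824, nat_lit 4836] (nat_lit 0) [nat_lit 2656] false,
   Spec.mk (nat_lit 4868) (nat_lit 0) [nat_lit 3410, nat_lit 5354, nat_lit 4706, nat_lit 4874] (nat_lit 0) [] false,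
   Spec.mk (nat_lit 4874) (nat_lit 0) [nat_lit 3416, nat_lit 5360, nat_lit 4712, nat_lit 4892, nat_lit 4868, nat_lit 4880, nat_lit 4876] (nat_lit 1) [] false,
   Spec.mk (nat_lit 4876) (nat_lit 0) [nat_lit 3418, nat_lit 5362, nat_lit 4714, nat_lit 4894, nat_lit 4882, nat_lit 4874] (nat_lit 2) [nat_lit 2690] false,
   Spec.mk (nat_lit 4880) (nat_lit 0) [nat_lit 3422, nat_lit 5366, nat_lit 4718, nat_lit 4898, nat_lit 4874, nat_lit 4882] (nat_lit 4) [] false,
   Spec.mk (nat_lit 4882) (nat_lit 0) [nat_lit 3424, nat_lit 5368, nat_lit 4720, nat_lit 4900, nat_lit 4876, nat_lit 4880, nat_lit 4884] (nat_lit 3) [nat_lit 2696] false,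
   Spec.mk (nat_lit 4884) (nat_lit 0) [nat_lit 3426, nat_lit 5370, nat_lit 4722, nat_lit 4902, nat_lit 4882] (nat_lit 4) [nat_lit 2698] false,
   Spec.mk (nat_lit 4892) (nat_lit 0) [nat_lit 3434, nat_lit 5378, nat_lit 4730, nat_lit 4946, nat_lit 4874, nat_lit 4898, nat_lit 4894] (nat_lit 2) [] false,
   Spec.mk (nat_lit 4894) (nat_lit 0) [nat_lit 3436, nat_lit 5380, nat_lit 4732, nat_lit 4948, nat_lit 4876, nat_lit 4900, nat_lit 4892] (nat_lit 4) [nat_lit 2708] false,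
   Spec.mk (nat_lit 4898) (nat_lit 0) [nat_lit 3440, nat_lit 5384, nat_lit 4736, nat_lit 4952, nat_lit 4880, nat_lit 4916, nat_lit 4892, nat_lit 4900] (nat_lit 3) [] false,
   Spec.mk (nat_lit 4900) (nat_lit 0) [nat_lit 3442, nat_lit 5386, nat_lit 4738, nat_lit 4954, nat_lit 4882, nat_lit 4918, nat_lit 4894, nat_lit 4906, nat_lit 4898, nat_lit 4902] (nat_lit 3) [nat_lit 2714] false,
   Spec.mk (nat_lit 4902) (nat_lit 0) [nat_lit 3444, nat_lit 5388, nat_lit 4740, nat_lit 4956, nat_lit 4884, nat_lit 4920, nat_lit 4908, nat_lit 4900] (nat_lit 5) [nat_lit 2716] false,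
   Spec.mk (nat_lit 4906) (nat_lit 0) [nat_lit 3448, nat_lit 5392, nat_lit 4744, nat_lit 4960, nat_lit 4924, nat_lit 4900, nat_lit 4908] (nat_lit 4) [nat_lit 2720] false,
   Spec.mk (nat_lit 4908) (nat_lit 0) [nat_lit 3450, nat_lit 5394, nat_lit 4746, nat_lit 4962, nat_lit 4926, nat_lit 4902, nat_lit 4906] (nat_lit 4) [nat_lit 2722] false,
   Spec.mk (nat_lit 4916) (nat_lit 0) [nat_lit 3458, nat_lit 5402, nat_lit 4754, nat_lit 4970, nat_lit 4898, nat_lit 4918] (nat_lit 4) [] false,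
   Spec.mk (nat_lit 4918) (nat_lit 0) [nat_lit 3460, nat_lit 5404, nat_lit 4756, nat_lit 4972, nat_lit 4900, nat_lit 4924, nat_lit 4916, nat_lit 4920] (nat_lit 5) [nat_lit 2732] false,
   Spec.mk (nat_lit 4920) (nat_lit 0) [nat_lit 3462, nat_lit 5406, nat_lit 4758, nat_lit 4974, nat_lit 4902, nat_lit 4926, nat_lit 4918] (nat_lit 8) [nat_lit 2734] false,
   Spec.mk (nat_lit 4924) (nat_lit 0) [nat_lit 3466, nat_lit 5410, nat_lit 4762, nat_lit 4978, nat_lit 4906, nat_lit 4918, nat_lit 4926] (nat_lit 4) [nat_lit 2738] false,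
   Spec.mk (nat_lit 4926) (nat_lit 0) [nat_lit 3468, nat_lit 5412, nat_lit 4764, nat_lit 4980, nat_lit 4908, nat_lit 4920, nat_lit 4932, nat_lit 4924] (nat_lit 5) [nat_lit 2740] false,
   Spec.mk (nat_lit 4932) (nat_lit 0) [nat_lit 3474, nat_lit 5418, nat_lit 4770, nat_lit 4986, nat_lit 4926] (nat_lit 4) [nat_lit 2746] false,
   Spec.mk (nat_lit 4946) (nat_lit 0) [nat_lit 3488, nat_lit 5432, nat_lit 4784, nat_lit 4892, nat_lit 4952, nat_lit 4948] (nat_lit 0) [] false,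
   Spec.mk (nat_lit 4948) (nat_lit 0) [nat_lit 3490, nat_lit 5434, nat_lit 4786, nat_lit 4894, nat_lit 4954, nat_lit 4946] (nat_lit 2) [nat_lit 2762] false,
   Spec.mk (nat_lit 4952) (nat_lit 0) [nat_lit 3494, nat_lit 5438, nat_lit 4790, nat_lit 4898, nat_lit 4970, nat_lit 4946, nat_lit 4954] (nat_lit 2) [] false,
   Spec.mk (nat_lit 4954) (nat_lit 0) [nat_lit 3496, nat_lit 5440, nat_lit 4792, nat_lit 4900, nat_lit 4972, nat_lit 4948, nat_lit 4960, nat_lit 4952, nat_lit 4956] (nat_lit 2) [nat_lit 2768] false,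
   Spec.mk (nat_lit 4956) (nat_lit 0) [nat_lit 3498, nat_lit 5442, nat_lit 4794, nat_lit 4902, nat_lit 4974, nat_lit 4962, nat_lit 4954] (nat_lit 4) [nat_lit 2770] false,
   Spec.mk (nat_lit 4960) (nat_lit 0) [nat_lit 3502, nat_lit 5446, nat_lit 4798, nat_lit 4906, nat_lit 4978, nat_lit 4954, nat_lit 4962] (nat_lit 4) [nat_lit 2774] false,
   Spec.mk (nat_lit 4962) (nat_lit 0) [nat_lit 3504, nat_lit 5448, nat_lit 4800, nat_lit 4908, nat_lit 4980, nat_lit 4956, nat_lit 4960] (nat_lit 4) [nat_lit 2776] false,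
   Spec.mk (nat_lit 4970) (nat_lit 0) [nat_lit 3512, nat_lit 5456, nat_lit 4808, nat_lit 4916, nat_lit 5024, nat_lit 4952, nat_lit 4972] (nat_lit 1) [] false,
   Spec.mk (nat_lit 4972) (nat_lit 0) [nat_lit 3514, nat_lit 5458, nat_lit 4810, nat_lit 4918, nat_lit 5026, nat_lit 4954, nat_lit 4978, nat_lit 4970, nat_lit 4974] (nat_lit 2) [nat_lit 2786] false,
   Spec.mk (nat_lit 4974) (nat_lit 0) [nat_lit 3516, nat_lit 5460, nat_lit 4812, nat_lit 4920, nat_lit 5028, nat_lit 4956, nat_lit 4980, nat_lit 4972] (nat_lit 5) [nat_lit 2788] false,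
   Spec.mk (nat_lit 4978) (nat_lit 0) [nat_lit 3520, nat_lit 5464, nat_lit 4816, nat_lit 4924, nat_lit 5032, nat_lit 4960, nat_lit 4996, nat_lit 4972, nat_lit 4980] (nat_lit 2) [nat_lit 2792] false,
   Spec.mk (nat_lit 4980) (nat_lit 0) [nat_lit 3522, nat_lit 5466, nat_lit 4818, nat_lit 4926, nat_lit 5034, nat_lit 4962, nat_lit 4998, nat_lit 4974, nat_lit 4986, nat_lit 4978] (nat_lit 3) [nat_lit 2794] false,
   Spec.mk (nat_lit 4986) (nat_lit 0) [nat_lit 3528, nat_lit 5472, nat_lit 4824, nat_lit 4932, nat_lit 5040, nat_lit 5004, nat_lit 4980] (nat_lit 3) [nat_lit 2800] false,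
   Spec.mk (nat_lit 4996) (nat_lit 0) [nat_lit 3538, nat_lit 5482, nat_lit 4834, nat_lit 5050, nat_lit 4978, nat_lit 4998] (nat_lit 2) [nat_lit 2810] false,
   Spec.mk (nat_lit 4998) (nat_lit 0) [nat_lit 3540, nat_lit 5484, nat_lit 4836, nat_lit 5052, nat_lit 4980, nat_lit 5004, nat_lit 4996] (nat_lit 4) [nat_lit 2812] false,
   Spec.mk (nat_lit 5004) (nat_lit 0) [nat_lit 3546, nat_lit 5490, nat_lit 4842, nat_lit 5058, nat_lit 4986, nat_lit 4998] (nat_lit 2) [nat_lit 2818] false,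
   Spec.mk (nat_lit 5024) (nat_lit 0) [nat_lit 3566, nat_lit 5510, nat_lit 4970, nat_lit 5026] (nat_lit 0) [] false,
   Spec.mk (nat_lit 5026) (nat_lit 0) [nat_lit 3568, nat_lit 5512, nat_lit 4972, nat_lit 5032, nat_lit 5024, nat_lit 5028] (nat_lit 1) [nat_lit 2840] false,
   Spec.mk (nat_lit 5028) (nat_lit 0) [nat_lit 3570, nat_lit 5514, nat_lit 4974, nat_lit 5034, nat_lit 5026] (nat_lit 4) [nat_lit 2842] false,
   Spec.mk (nat_lit 5032) (nat_lit 0) [nat_lit 3574, nat_lit 5518, nat_lit 4978, nat_lit 5050, nat_lit 5026, nat_lit 5034] (nat_lit 2) [nat_lit 2846] false,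
   Spec.mk (nat_lit 5034) (nat_lit 0) [nat_lit 3576, nat_lit 5520, nat_lit 4980, nat_lit 5052, nat_lit 5028, nat_lit 5040, nat_lit 5032] (nat_lit 3) [nat_lit 2848] false,
   Spec.mk (nat_lit 5040) (nat_lit 0) [nat_lit 3582, nat_lit 5526, nat_lit 4986, nat_lit 5058, nat_lit 5034] (nat_lit 4) [nat_lit 2854] false,
   Spec.mk (nat_lit 5050) (nat_lit 0) [nat_lit 3592, nat_lit 5536, nat_lit 4996, nat_lit 5032, nat_lit 5052] (nat_lit 0) [nat_lit 2864] false,
   Spec.mk (nat_lit 5052) (nat_lit 0) [nat_lit 3594, nat_lit 5538, nat_lit 4998, nat_lit 5034, nat_lit 5058, nat_lit 5050] (nat_lit 2) [nat_lit 2866] false,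
   Spec.mk (nat_lit 5058) (nat_lit 0) [nat_lit 3600, nat_lit 5544, nat_lit 5004, nat_lit 5040, nat_lit 5076, nat_lit 5052] (nat_lit 1) [nat_lit 2872] false,
   Spec.mk (nat_lit 5076) (nat_lit 0) [nat_lit 3618, nat_lit 5562, nat_lit 5058] (nat_lit 0) [nat_lit 2890] false,
   Spec.mk (nat_lit 5120) (nat_lit 4) [nat_lit 3662, nat_lit 4634, nat_lit 5138, nat_lit 5126] (nat_lit 0) [] false,
   Spec.mk (nat_lit 5126) (nat_lit 2) [nat_lit 3668, nat_lit 4640, nat_lit 5144, nat_lit 5120, nat_lit 5128] (nat_lit 0) [] false,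
   Spec.mk (nat_lit 5128) (nat_lit 2) [nat_lit 3670, nat_lit 4642, nat_lit 5146, nat_lit 5126] (nat_lit 0) [nat_lit 2942] false,
   Spec.mk (nat_lit 5138) (nat_lit 2) [nat_lit 3680, nat_lit 4652, nat_lit 5192, nat_lit 5120, nat_lit 5144] (nat_lit 0) [] false,
   Spec.mk (nat_lit 5144) (nat_lit 2) [nat_lit 3686, nat_lit 4658, nat_lit 5198, nat_lit 5126, nat_lit 5162, nat_lit 5138, nat_lit 5150, nat_lit 5146] (nat_lit 0) [] false,
   Spec.mk (nat_lit 5146) (nat_lit 1) [nat_lit 3688, nat_lit 4660, nat_lit 5200, nat_lit 5128, nat_lit 5164, nat_lit 5152, nat_lit 5144] (nat_lit 0) [nat_lit 2960] false,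
   Spec.mk (nat_lit 5150) (nat_lit 0) [nat_lit 3692, nat_lit 4664, nat_lit 5204, nat_lit 5168, nat_lit 5144, nat_lit 5152] (nat_lit 0) [] false,
   Spec.mk (nat_lit 5152) (nat_lit 1) [nat_lit 3694, nat_lit 4666, nat_lit 5206, nat_lit 5170, nat_lit 5146, nat_lit 5150, nat_lit 5154] (nat_lit 0) [nat_lit 2966] false,
   Spec.mk (nat_lit 5154) (nat_lit 0) [nat_lit 3696, nat_lit 4668, nat_lit 5208, nat_lit 5172, nat_lit 5152] (nat_lit 0) [nat_lit 2968] false]

noncomputable def sp15 : List Spec :=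
  [Spec.mk (nat_lit 5162) (nat_lit 0) [nat_lit 3704, nat_lit 4676, nat_lit 5216, nat_lit 5144, nat_lit 5168, nat_lit 5164] (nat_lit 0) [] false,
   Spec.mk (nat_lit 5164) (nat_lit 0) [nat_lit 3706, nat_lit 4678, nat_lit 5218, nat_lit 5146, nat_lit 5170, nat_lit 5162] (nat_lit 2) [nat_lit 2978] false,
   Spec.mk (nat_lit 5168) (nat_lit 0) [nat_lit 3710, nat_lit 4682, nat_lit 5222, nat_lit 5150, nat_lit 5162, nat_lit 5170] (nat_lit 0) [] false,
   Spec.mk (nat_lit 5170) (nat_lit 0) [nat_lit 3712, nat_lit 4684, nat_lit 5224, nat_lit 5152, nat_lit 5164, nat_lit 5176, nat_lit 5168, nat_lit 5172] (nat_lit 0) [nat_lit 2984] false,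
   Spec.mk (nat_lit 5172) (nat_lit 0) [nat_lit 3714, nat_lit 4686, nat_lit 5226, nat_lit 5154, nat_lit 5178, nat_lit 5170] (nat_lit 2) [nat_lit 2986] false,
   Spec.mk (nat_lit 5176) (nat_lit 0) [nat_lit 3718, nat_lit 4690, nat_lit 5230, nat_lit 5170, nat_lit 5178] (nat_lit 0) [nat_lit 2990] false,
   Spec.mk (nat_lit 5178) (nat_lit 0) [nat_lit 3720, nat_lit 4692, nat_lit 5232, nat_lit 5172, nat_lit 5176] (nat_lit 0) [nat_lit 2992] false,
   Spec.mk (nat_lit 5192) (nat_lit 2) [nat_lit 3734, nat_lit 4706, nat_lit 5354, nat_lit 5138, nat_lit 5198] (nat_lit 0) [] false,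
   Spec.mk (nat_lit 5198) (nat_lit 1) [nat_lit 3740, nat_lit 4712, nat_lit 5360, nat_lit 5144, nat_lit 5216, nat_lit 5192, nat_lit 5204, nat_lit 5200] (nat_lit 0) [] false,
   Spec.mk (nat_lit 5200) (nat_lit 0) [nat_lit 3742, nat_lit 4714, nat_lit 5362, nat_lit 5146, nat_lit 5218, nat_lit 5206, nat_lit 5198] (nat_lit 0) [nat_lit 3014] false,
   Spec.mk (nat_lit 5204) (nat_lit 0) [nat_lit 3746, nat_lit 4718, nat_lit 5366, nat_lit 5150, nat_lit 5222, nat_lit 5198, nat_lit 5206] (nat_lit 2) [] false,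
   Spec.mk (nat_lit 5206) (nat_lit 0) [nat_lit 3748, nat_lit 4720, nat_lit 5368, nat_lit 5152, nat_lit 5224, nat_lit 5200, nat_lit 5204, nat_lit 5208] (nat_lit 1) [nat_lit 3020] false,
   Spec.mk (nat_lit 5208) (nat_lit 0) [nat_lit 3750, nat_lit 4722, nat_lit 5370, nat_lit 5154, nat_lit 5226, nat_lit 5206] (nat_lit 2) [nat_lit 3022] false,
   Spec.mk (nat_lit 5216) (nat_lit 1) [nat_lit 3758, nat_lit 4730, nat_lit 5378, nat_lit 5162, nat_lit 5270, nat_lit 5198, nat_lit 5222, nat_lit 5218] (nat_lit 0) [] false,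
   Spec.mk (nat_lit 5218) (nat_lit 0) [nat_lit 3760, nat_lit 4732, nat_lit 5380, nat_lit 5164, nat_lit 5272, nat_lit 5200, nat_lit 5224, nat_lit 5216] (nat_lit 1) [nat_lit 3032] false,
   Spec.mk (nat_lit 5222) (nat_lit 0) [nat_lit 3764, nat_lit 4736, nat_lit 5384, nat_lit 5168, nat_lit 5276, nat_lit 5204, nat_lit 5240, nat_lit 5216, nat_lit 5224] (nat_lit 0) [] false,
   Spec.mk (nat_lit 5224) (nat_lit 0) [nat_lit 3766, nat_lit 4738, nat_lit 5386, nat_lit 5170, nat_lit 5278, nat_lit 5206, nat_lit 5242, nat_lit 5218, nat_lit 5230, nat_lit 5222, nat_lit 5226] (nat_lit 0) [nat_lit 3038] false,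
   Spec.mk (nat_lit 5226) (nat_lit 0) [nat_lit 3768, nat_lit 4740, nat_lit 5388, nat_lit 5172, nat_lit 5280, nat_lit 5208, nat_lit 5244, nat_lit 5232, nat_lit 5224] (nat_lit 2) [nat_lit 3040] false,
   Spec.mk (nat_lit 5230) (nat_lit 0) [nat_lit 3772, nat_lit 4744, nat_lit 5392, nat_lit 5176, nat_lit 5284, nat_lit 5248, nat_lit 5224, nat_lit 5232] (nat_lit 1) [nat_lit 3044] false,
   Spec.mk (nat_lit 5232) (nat_lit 0) [nat_lit 3774, nat_lit 4746, nat_lit 5394, nat_lit 5178, nat_lit 5286, nat_lit 5250, nat_lit 5226, nat_lit 5230] (nat_lit 1) [nat_lit 3046] false,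
   Spec.mk (nat_lit 5240) (nat_lit 0) [nat_lit 3782, nat_lit 4754, nat_lit 5402, nat_lit 5294, nat_lit 5222, nat_lit 5242] (nat_lit 0) [] false,
   Spec.mk (nat_lit 5242) (nat_lit 0) [nat_lit 3784, nat_lit 4756, nat_lit 5404, nat_lit 5296, nat_lit 5224, nat_lit 5248, nat_lit 5240, nat_lit 5244] (nat_lit 1) [nat_lit 3056] false,
   Spec.mk (nat_lit 5244) (nat_lit 0) [nat_lit 3786, nat_lit 4758, nat_lit 5406, nat_lit 5298, nat_lit 5226, nat_lit 5250, nat_lit 5242] (nat_lit 4) [nat_lit 3058] false,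
   Spec.mk (nat_lit 5248) (nat_lit 0) [nat_lit 3790, nat_lit 4762, nat_lit 5410, nat_lit 5302, nat_lit 5230, nat_lit 5242, nat_lit 5250] (nat_lit 0) [nat_lit 3062] false,
   Spec.mk (nat_lit 5250) (nat_lit 0) [nat_lit 3792, nat_lit 4764, nat_lit 5412, nat_lit 5304, nat_lit 5232, nat_lit 5244, nat_lit 5256, nat_lit 5248] (nat_lit 1) [nat_lit 3064] false,
   Spec.mk (nat_lit 5256) (nat_lit 0) [nat_lit 3798, nat_lit 4770, nat_lit 5418, nat_lit 5310, nat_lit 5250] (nat_lit 0) [nat_lit 3070] false,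
   Spec.mk (nat_lit 5270) (nat_lit 0) [nat_lit 3812, nat_lit 4784, nat_lit 5432, nat_lit 5216, nat_lit 5276, nat_lit 5272] (nat_lit 0) [] false,
   Spec.mk (nat_lit 5272) (nat_lit 0) [nat_lit 3814, nat_lit 4786, nat_lit 5434, nat_lit 5218, nat_lit 5278, nat_lit 5270] (nat_lit 2) [nat_lit 3086] false,
   Spec.mk (nat_lit 5276) (nat_lit 0) [nat_lit 3818, nat_lit 4790, nat_lit 5438, nat_lit 5222, nat_lit 5294, nat_lit 5270, nat_lit 5278] (nat_lit 2) [] false,
   Spec.mk (nat_lit 5278) (nat_lit 0) [nat_lit 3820, nat_lit 4792, nat_lit 5440, nat_lit 5224, nat_lit 5296, nat_lit 5272, nat_lit 5284, nat_lit 5276, nat_lit 5280] (nat_lit 2) [nat_lit 3092] false,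
   Spec.mk (nat_lit 5280) (nat_lit 0) [nat_lit 3822, nat_lit 4794, nat_lit 5442, nat_lit 5226, nat_lit 5298, nat_lit 5286, nat_lit 5278] (nat_lit 4) [nat_lit 3094] false,
   Spec.mk (nat_lit 5284) (nat_lit 0) [nat_lit 3826, nat_lit 4798, nat_lit 5446, nat_lit 5230, nat_lit 5302, nat_lit 5278, nat_lit 5286] (nat_lit 4) [nat_lit 3098] false,
   Spec.mk (nat_lit 5286) (nat_lit 0) [nat_lit 3828, nat_lit 4800, nat_lit 5448, nat_lit 5232, nat_lit 5304, nat_lit 5280, nat_lit 5284] (nat_lit 4) [nat_lit 3100] false,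
   Spec.mk (nat_lit 5294) (nat_lit 0) [nat_lit 3836, nat_lit 4808, nat_lit 5456, nat_lit 5240, nat_lit 5276, nat_lit 5296] (nat_lit 0) [] false,
   Spec.mk (nat_lit 5296) (nat_lit 0) [nat_lit 3838, nat_lit 4810, nat_lit 5458, nat_lit 5242, nat_lit 5278, nat_lit 5302, nat_lit 5294, nat_lit 5298] (nat_lit 1) [nat_lit 3110] false,
   Spec.mk (nat_lit 5298) (nat_lit 0) [nat_lit 3840, nat_lit 4812, nat_lit 5460, nat_lit 5244, nat_lit 5280, nat_lit 5304, nat_lit 5296] (nat_lit 4) [nat_lit 3112] false,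
   Spec.mk (nat_lit 5302) (nat_lit 0) [nat_lit 3844, nat_lit 4816, nat_lit 5464, nat_lit 5248, nat_lit 5284, nat_lit 5320, nat_lit 5296, nat_lit 5304] (nat_lit 1) [nat_lit 3116] false,
   Spec.mk (nat_lit 5304) (nat_lit 0) [nat_lit 3846, nat_lit 4818, nat_lit 5466, nat_lit 5250, nat_lit 5286, nat_lit 5322, nat_lit 5298, nat_lit 5310, nat_lit 5302] (nat_lit 2) [nat_lit 3118] false,
   Spec.mk (nat_lit 5310) (nat_lit 0) [nat_lit 3852, nat_lit 4824, nat_lit 5472, nat_lit 5256, nat_lit 5328, nat_lit 5304] (nat_lit 2) [nat_lit 3124] false,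
   Spec.mk (nat_lit 5320) (nat_lit 0) [nat_lit 3862, nat_lit 4834, nat_lit 5482, nat_lit 5302, nat_lit 5322] (nat_lit 0) [nat_lit 3134] false,
   Spec.mk (nat_lit 5322) (nat_lit 0) [nat_lit 3864, nat_lit 4836, nat_lit 5484, nat_lit 5304, nat_lit 5328, nat_lit 5320] (nat_lit 2) [nat_lit 3136] false,
   Spec.mk (nat_lit 5328) (nat_lit 0) [nat_lit 3870, nat_lit 4842, nat_lit 5490, nat_lit 5310, nat_lit 5322] (nat_lit 0) [nat_lit 3142] false,
   Spec.mk (nat_lit 5354) (nat_lit 3) [nat_lit 3896, nat_lit 4868, nat_lit 5840, nat_lit 5192, nat_lit 5360] (nat_lit 0) [] false,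
   Spec.mk (nat_lit 5360) (nat_lit 2) [nat_lit 3902, nat_lit 4874, nat_lit 5846, nat_lit 5198, nat_lit 5378, nat_lit 5354, nat_lit 5366, nat_lit 5362] (nat_lit 0) [] false,
   Spec.mk (nat_lit 5362) (nat_lit 1) [nat_lit 3904, nat_lit 4876, nat_lit 5848, nat_lit 5200, nat_lit 5380, nat_lit 5368, nat_lit 5360] (nat_lit 0) [nat_lit 3176] false,
   Spec.mk (nat_lit 5366) (nat_lit 0) [nat_lit 3908, nat_lit 4880, nat_lit 5852, nat_lit 5204, nat_lit 5384, nat_lit 5360, nat_lit 5368] (nat_lit 1) [] false,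
   Spec.mk (nat_lit 5368) (nat_lit 0) [nat_lit 3910, nat_lit 4882, nat_lit 5854, nat_lit 5206, nat_lit 5386, nat_lit 5362, nat_lit 5366, nat_lit 5370] (nat_lit 0) [nat_lit 3182] false,
   Spec.mk (nat_lit 5370) (nat_lit 0) [nat_lit 3912, nat_lit 4884, nat_lit 5856, nat_lit 5208, nat_lit 5388, nat_lit 5368] (nat_lit 1) [nat_lit 3184] false,
   Spec.mk (nat_lit 5378) (nat_lit 1) [nat_lit 3920, nat_lit 4892, nat_lit 5864, nat_lit 5216, nat_lit 5432, nat_lit 5360, nat_lit 5384, nat_lit 5380] (nat_lit 0) [] false,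
   Spec.mk (nat_lit 5380) (nat_lit 0) [nat_lit 3922, nat_lit 4894, nat_lit 5866, nat_lit 5218, nat_lit 5434, nat_lit 5362, nat_lit 5386, nat_lit 5378] (nat_lit 1) [nat_lit 3194] false,
   Spec.mk (nat_lit 5384) (nat_lit 0) [nat_lit 3926, nat_lit 4898, nat_lit 5870, nat_lit 5222, nat_lit 5438, nat_lit 5366, nat_lit 5402, nat_lit 5378, nat_lit 5386] (nat_lit 0) [] false,
   Spec.mk (nat_lit 5386) (nat_lit 0) [nat_lit 3928, nat_lit 4900, nat_lit 5872, nat_lit 5224, nat_lit 5440, nat_lit 5368, nat_lit 5404, nat_lit 5380, nat_lit 5392, nat_lit 5384, nat_lit 5388] (nat_lit 0) [nat_lit 3200] false,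
   Spec.mk (nat_lit 5388) (nat_lit 0) [nat_lit 3930, nat_lit 4902, nat_lit 5874, nat_lit 5226, nat_lit 5442, nat_lit 5370, nat_lit 5406, nat_lit 5394, nat_lit 5386] (nat_lit 2) [nat_lit 3202] false,
   Spec.mk (nat_lit 5392) (nat_lit 0) [nat_lit 3934, nat_lit 4906, nat_lit 5878, nat_lit 5230, nat_lit 5446, nat_lit 5410, nat_lit 5386, nat_lit 5394] (nat_lit 1) [nat_lit 3206] false,
   Spec.mk (nat_lit 5394) (nat_lit 0) [nat_lit 3936, nat_lit 4908, nat_lit 5880, nat_lit 5232, nat_lit 5448, nat_lit 5412, nat_lit 5388, nat_lit 5392] (nat_lit 1) [nat_lit 3208] false,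
   Spec.mk (nat_lit 5402) (nat_lit 0) [nat_lit 3944, nat_lit 4916, nat_lit 5888, nat_lit 5240, nat_lit 5456, nat_lit 5384, nat_lit 5404] (nat_lit 1) [] false,
   Spec.mk (nat_lit 5404) (nat_lit 0) [nat_lit 3946, nat_lit 4918, nat_lit 5890, nat_lit 5242, nat_lit 5458, nat_lit 5386, nat_lit 5410, nat_lit 5402, nat_lit 5406] (nat_lit 2) [nat_lit 3218] false,
   Spec.mk (nat_lit 5406) (nat_lit 0) [nat_lit 3948, nat_lit 4920, nat_lit 5892, nat_lit 5244, nat_lit 5460, nat_lit 5388, nat_lit 5412, nat_lit 5404] (nat_lit 5) [nat_lit 3220] false,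
   Spec.mk (nat_lit 5410) (nat_lit 0) [nat_lit 3952, nat_lit 4924, nat_lit 5896, nat_lit 5248, nat_lit 5464, nat_lit 5392, nat_lit 5404, nat_lit 5412] (nat_lit 1) [nat_lit 3224] false,
   Spec.mk (nat_lit 5412) (nat_lit 0) [nat_lit 3954, nat_lit 4926, nat_lit 5898, nat_lit 5250, nat_lit 5466, nat_lit 5394, nat_lit 5406, nat_lit 5418, nat_lit 5410] (nat_lit 2) [nat_lit 3226] false]

noncomputable def sp16 : List Spec :=
  [Spec.mk (nat_lit 5418) (nat_lit 0) [nat_lit 3960, nat_lit 4932, nat_lit 5904, nat_lit 5256, nat_lit 5472, nat_lit 5412] (nat_lit 1) [nat_lit 3232] false,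
   Spec.mk (nat_lit 5432) (nat_lit 2) [nat_lit 3974, nat_lit 4946, nat_lit 5918, nat_lit 5270, nat_lit 5594, nat_lit 5378, nat_lit 5438, nat_lit 5434] (nat_lit 0) [] false,
   Spec.mk (nat_lit 5434) (nat_lit 0) [nat_lit 3976, nat_lit 4948, nat_lit 5920, nat_lit 5272, nat_lit 5596, nat_lit 5380, nat_lit 5440, nat_lit 5432] (nat_lit 0) [nat_lit 3248] false,
   Spec.mk (nat_lit 5438) (nat_lit 0) [nat_lit 3980, nat_lit 4952, nat_lit 5924, nat_lit 5276, nat_lit 5600, nat_lit 5384, nat_lit 5456, nat_lit 5432, nat_lit 5440] (nat_lit 0) [] false,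
   Spec.mk (nat_lit 5440) (nat_lit 0) [nat_lit 3982, nat_lit 4954, nat_lit 5926, nat_lit 5278, nat_lit 5602, nat_lit 5386, nat_lit 5458, nat_lit 5434, nat_lit 5446, nat_lit 5438, nat_lit 5442] (nat_lit 0) [nat_lit 3254] false,
   Spec.mk (nat_lit 5442) (nat_lit 0) [nat_lit 3984, nat_lit 4956, nat_lit 5928, nat_lit 5280, nat_lit 5604, nat_lit 5388, nat_lit 5460, nat_lit 5448, nat_lit 5440] (nat_lit 2) [nat_lit 3256] false,
   Spec.mk (nat_lit 5446) (nat_lit 0) [nat_lit 3988, nat_lit 4960, nat_lit 5932, nat_lit 5284, nat_lit 5608, nat_lit 5392, nat_lit 5464, nat_lit 5440, nat_lit 5448] (nat_lit 2) [nat_lit 3260] false,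
   Spec.mk (nat_lit 5448) (nat_lit 0) [nat_lit 3990, nat_lit 4962, nat_lit 5934, nat_lit 5286, nat_lit 5610, nat_lit 5394, nat_lit 5466, nat_lit 5442, nat_lit 5446] (nat_lit 2) [nat_lit 3262] false,
   Spec.mk (nat_lit 5456) (nat_lit 1) [nat_lit 3998, nat_lit 4970, nat_lit 5942, nat_lit 5294, nat_lit 5618, nat_lit 5402, nat_lit 5510, nat_lit 5438, nat_lit 5458] (nat_lit 0) [] false,
   Spec.mk (nat_lit 5458) (nat_lit 0) [nat_lit 4000, nat_lit 4972, nat_lit 5944, nat_lit 5296, nat_lit 5620, nat_lit 5404, nat_lit 5512, nat_lit 5440, nat_lit 5464, nat_lit 5456, nat_lit 5460] (nat_lit 0) [nat_lit 3272] false,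
   Spec.mk (nat_lit 5460) (nat_lit 0) [nat_lit 4002, nat_lit 4974, nat_lit 5946, nat_lit 5298, nat_lit 5622, nat_lit 5406, nat_lit 5514, nat_lit 5442, nat_lit 5466, nat_lit 5458] (nat_lit 3) [nat_lit 3274] false,
   Spec.mk (nat_lit 5464) (nat_lit 0) [nat_lit 4006, nat_lit 4978, nat_lit 5950, nat_lit 5302, nat_lit 5626, nat_lit 5410, nat_lit 5518, nat_lit 5446, nat_lit 5482, nat_lit 5458, nat_lit 5466] (nat_lit 0) [nat_lit 3278] false,
   Spec.mk (nat_lit 5466) (nat_lit 0) [nat_lit 4008, nat_lit 4980, nat_lit 5952, nat_lit 5304, nat_lit 5628, nat_lit 5412, nat_lit 5520, nat_lit 5448, nat_lit 5484, nat_lit 5460, nat_lit 5472, nat_lit 5464] (nat_lit 1) [nat_lit 3280] false,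
   Spec.mk (nat_lit 5472) (nat_lit 0) [nat_lit 4014, nat_lit 4986, nat_lit 5958, nat_lit 5310, nat_lit 5634, nat_lit 5418, nat_lit 5526, nat_lit 5490, nat_lit 5466] (nat_lit 1) [nat_lit 3286] false,
   Spec.mk (nat_lit 5482) (nat_lit 0) [nat_lit 4024, nat_lit 4996, nat_lit 5968, nat_lit 5320, nat_lit 5644, nat_lit 5536, nat_lit 5464, nat_lit 5484] (nat_lit 0) [nat_lit 3296] false,
   Spec.mk (nat_lit 5484) (nat_lit 0) [nat_lit 4026, nat_lit 4998, nat_lit 5970, nat_lit 5322, nat_lit 5646, nat_lit 5538, nat_lit 5466, nat_lit 5490, nat_lit 5482] (nat_lit 2) [nat_lit 3298] false,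
   Spec.mk (nat_lit 5490) (nat_lit 0) [nat_lit 4032, nat_lit 5004, nat_lit 5976, nat_lit 5328, nat_lit 5652, nat_lit 5544, nat_lit 5472, nat_lit 5484] (nat_lit 0) [nat_lit 3304] false,
   Spec.mk (nat_lit 5510) (nat_lit 1) [nat_lit 4052, nat_lit 5024, nat_lit 5996, nat_lit 5672, nat_lit 5456, nat_lit 5512] (nat_lit 0) [] false,
   Spec.mk (nat_lit 5512) (nat_lit 0) [nat_lit 4054, nat_lit 5026, nat_lit 5998, nat_lit 5674, nat_lit 5458, nat_lit 5518, nat_lit 5510, nat_lit 5514] (nat_lit 0) [nat_lit 3326] false,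
   Spec.mk (nat_lit 5514) (nat_lit 0) [nat_lit 4056, nat_lit 5028, nat_lit 6000, nat_lit 5676, nat_lit 5460, nat_lit 5520, nat_lit 5512] (nat_lit 3) [nat_lit 3328] false,
   Spec.mk (nat_lit 5518) (nat_lit 0) [nat_lit 4060, nat_lit 5032, nat_lit 6004, nat_lit 5680, nat_lit 5464, nat_lit 5536, nat_lit 5512, nat_lit 5520] (nat_lit 1) [nat_lit 3332] false,
   Spec.mk (nat_lit 5520) (nat_lit 0) [nat_lit 4062, nat_lit 5034, nat_lit 6006, nat_lit 5682, nat_lit 5466, nat_lit 5538, nat_lit 5514, nat_lit 5526, nat_lit 5518] (nat_lit 2) [nat_lit 3334] false,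
   Spec.mk (nat_lit 5526) (nat_lit 0) [nat_lit 4068, nat_lit 5040, nat_lit 6012, nat_lit 5688, nat_lit 5472, nat_lit 5544, nat_lit 5520] (nat_lit 3) [nat_lit 3340] false,
   Spec.mk (nat_lit 5536) (nat_lit 1) [nat_lit 4078, nat_lit 5050, nat_lit 6022, nat_lit 5698, nat_lit 5482, nat_lit 5518, nat_lit 5538] (nat_lit 0) [nat_lit 3350] false,
   Spec.mk (nat_lit 5538) (nat_lit 0) [nat_lit 4080, nat_lit 5052, nat_lit 6024, nat_lit 5700, nat_lit 5484, nat_lit 5520, nat_lit 5544, nat_lit 5536] (nat_lit 1) [nat_lit 3352] false,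
   Spec.mk (nat_lit 5544) (nat_lit 0) [nat_lit 4086, nat_lit 5058, nat_lit 6030, nat_lit 5706, nat_lit 5490, nat_lit 5526, nat_lit 5562, nat_lit 5538] (nat_lit 0) [nat_lit 3358] false,
   Spec.mk (nat_lit 5562) (nat_lit 1) [nat_lit 4104, nat_lit 5076, nat_lit 6048, nat_lit 5724, nat_lit 5544] (nat_lit 0) [nat_lit 3376] false,
   Spec.mk (nat_lit 5594) (nat_lit 2) [nat_lit 4136, nat_lit 6080, nat_lit 5432, nat_lit 5600, nat_lit 5596] (nat_lit 0) [] false,
   Spec.mk (nat_lit 5596) (nat_lit 0) [nat_lit 4138, nat_lit 6082, nat_lit 5434, nat_lit 5602, nat_lit 5594] (nat_lit 0) [nat_lit 3410] false,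
   Spec.mk (nat_lit 5600) (nat_lit 0) [nat_lit 4142, nat_lit 6086, nat_lit 5438, nat_lit 5618, nat_lit 5594, nat_lit 5602] (nat_lit 0) [] false,
   Spec.mk (nat_lit 5602) (nat_lit 0) [nat_lit 4144, nat_lit 6088, nat_lit 5440, nat_lit 5620, nat_lit 5596, nat_lit 5608, nat_lit 5600, nat_lit 5604] (nat_lit 0) [nat_lit 3416] false,
   Spec.mk (nat_lit 5604) (nat_lit 0) [nat_lit 4146, nat_lit 6090, nat_lit 5442, nat_lit 5622, nat_lit 5610, nat_lit 5602] (nat_lit 2) [nat_lit 3418] false,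
   Spec.mk (nat_lit 5608) (nat_lit 0) [nat_lit 4150, nat_lit 6094, nat_lit 5446, nat_lit 5626, nat_lit 5602, nat_lit 5610] (nat_lit 2) [nat_lit 3422] false,
   Spec.mk (nat_lit 5610) (nat_lit 0) [nat_lit 4152, nat_lit 6096, nat_lit 5448, nat_lit 5628, nat_lit 5604, nat_lit 5608] (nat_lit 2) [nat_lit 3424] false,
   Spec.mk (nat_lit 5618) (nat_lit 0) [nat_lit 4160, nat_lit 6104, nat_lit 5456, nat_lit 5672, nat_lit 5600, nat_lit 5620] (nat_lit 0) [] false,
   Spec.mk (nat_lit 5620) (nat_lit 0) [nat_lit 4162, nat_lit 6106, nat_lit 5458, nat_lit 5674, nat_lit 5602, nat_lit 5626, nat_lit 5618, nat_lit 5622] (nat_lit 1) [nat_lit 3434] false,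
   Spec.mk (nat_lit 5622) (nat_lit 0) [nat_lit 4164, nat_lit 6108, nat_lit 5460, nat_lit 5676, nat_lit 5604, nat_lit 5628, nat_lit 5620] (nat_lit 4) [nat_lit 3436] false,
   Spec.mk (nat_lit 5626) (nat_lit 0) [nat_lit 4168, nat_lit 6112, nat_lit 5464, nat_lit 5680, nat_lit 5608, nat_lit 5644, nat_lit 5620, nat_lit 5628] (nat_lit 1) [nat_lit 3440] false,
   Spec.mk (nat_lit 5628) (nat_lit 0) [nat_lit 4170, nat_lit 6114, nat_lit 5466, nat_lit 5682, nat_lit 5610, nat_lit 5646, nat_lit 5622, nat_lit 5634, nat_lit 5626] (nat_lit 2) [nat_lit 3442] false,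
   Spec.mk (nat_lit 5634) (nat_lit 0) [nat_lit 4176, nat_lit 6120, nat_lit 5472, nat_lit 5688, nat_lit 5652, nat_lit 5628] (nat_lit 2) [nat_lit 3448] false,
   Spec.mk (nat_lit 5644) (nat_lit 0) [nat_lit 4186, nat_lit 6130, nat_lit 5482, nat_lit 5698, nat_lit 5626, nat_lit 5646] (nat_lit 2) [nat_lit 3458] false,
   Spec.mk (nat_lit 5646) (nat_lit 0) [nat_lit 4188, nat_lit 6132, nat_lit 5484, nat_lit 5700, nat_lit 5628, nat_lit 5652, nat_lit 5644] (nat_lit 4) [nat_lit 3460] false,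
   Spec.mk (nat_lit 5652) (nat_lit 0) [nat_lit 4194, nat_lit 6138, nat_lit 5490, nat_lit 5706, nat_lit 5634, nat_lit 5646] (nat_lit 2) [nat_lit 3466] false,
   Spec.mk (nat_lit 5672) (nat_lit 2) [nat_lit 4214, nat_lit 6158, nat_lit 5510, nat_lit 5618, nat_lit 5674] (nat_lit 0) [] false,
   Spec.mk (nat_lit 5674) (nat_lit 1) [nat_lit 4216, nat_lit 6160, nat_lit 5512, nat_lit 5620, nat_lit 5680, nat_lit 5672, nat_lit 5676] (nat_lit 0) [nat_lit 3488] false,
   Spec.mk (nat_lit 5676) (nat_lit 0) [nat_lit 4218, nat_lit 6162, nat_lit 5514, nat_lit 5622, nat_lit 5682, nat_lit 5674] (nat_lit 2) [nat_lit 3490] false,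
   Spec.mk (nat_lit 5680) (nat_lit 0) [nat_lit 4222, nat_lit 6166, nat_lit 5518, nat_lit 5626, nat_lit 5698, nat_lit 5674, nat_lit 5682] (nat_lit 0) [nat_lit 3494] false,
   Spec.mk (nat_lit 5682) (nat_lit 0) [nat_lit 4224, nat_lit 6168, nat_lit 5520, nat_lit 5628, nat_lit 5700, nat_lit 5676, nat_lit 5688, nat_lit 5680] (nat_lit 1) [nat_lit 3496] false,
   Spec.mk (nat_lit 5688) (nat_lit 0) [nat_lit 4230, nat_lit 6174, nat_lit 5526, nat_lit 5634, nat_lit 5706, nat_lit 5682] (nat_lit 2) [nat_lit 3502] false,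
   Spec.mk (nat_lit 5698) (nat_lit 1) [nat_lit 4240, nat_lit 6184, nat_lit 5536, nat_lit 5644, nat_lit 5752, nat_lit 5680, nat_lit 5700] (nat_lit 0) [nat_lit 3512] false,
   Spec.mk (nat_lit 5700) (nat_lit 0) [nat_lit 4242, nat_lit 6186, nat_lit 5538, nat_lit 5646, nat_lit 5754, nat_lit 5682, nat_lit 5706, nat_lit 5698] (nat_lit 1) [nat_lit 3514] false,
   Spec.mk (nat_lit 5706) (nat_lit 0) [nat_lit 4248, nat_lit 6192, nat_lit 5544, nat_lit 5652, nat_lit 5760, nat_lit 5688, nat_lit 5724, nat_lit 5700] (nat_lit 0) [nat_lit 3520] false,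
   Spec.mk (nat_lit 5724) (nat_lit 0) [nat_lit 4266, nat_lit 6210, nat_lit 5562, nat_lit 5778, nat_lit 5706] (nat_lit 0) [nat_lit 3538] false,
   Spec.mk (nat_lit 5752) (nat_lit 2) [nat_lit 4294, nat_lit 6238, nat_lit 5698, nat_lit 5754] (nat_lit 0) [nat_lit 3566] false,
   Spec.mk (nat_lit 5754) (nat_lit 0) [nat_lit 4296, nat_lit 6240, nat_lit 5700, nat_lit 5760, nat_lit 5752] (nat_lit 0) [nat_lit 3568] false,
   Spec.mk (nat_lit 5760) (nat_lit 0) [nat_lit 4302, nat_lit 6246, nat_lit 5706, nat_lit 5778, nat_lit 5754] (nat_lit 0) [nat_lit 3574] false,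
   Spec.mk (nat_lit 5778) (nat_lit 2) [nat_lit 4320, nat_lit 6264, nat_lit 5724, nat_lit 5760] (nat_lit 0) [nat_lit 3592] false,
   Spec.mk (nat_lit 5840) (nat_lit 4) [nat_lit 5354, nat_lit 5846] (nat_lit 0) [] false,
   Spec.mk (nat_lit 5846) (nat_lit 3) [nat_lit 5360, nat_lit 5864, nat_lit 5840, nat_lit 5852, nat_lit 5848] (nat_lit 0) [] false,
   Spec.mk (nat_lit 5848) (nat_lit 2) [nat_lit 5362, nat_lit 5866, nat_lit 5854, nat_lit 5846] (nat_lit 0) [nat_lit 3662] false]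

noncomputable def sp17 : List Spec :=
  [Spec.mk (nat_lit 5852) (nat_lit 0) [nat_lit 5366, nat_lit 5870, nat_lit 5846, nat_lit 5854] (nat_lit 0) [] false,
   Spec.mk (nat_lit 5854) (nat_lit 1) [nat_lit 5368, nat_lit 5872, nat_lit 5848, nat_lit 5852, nat_lit 5856] (nat_lit 0) [nat_lit 3668] false,
   Spec.mk (nat_lit 5856) (nat_lit 0) [nat_lit 5370, nat_lit 5874, nat_lit 5854] (nat_lit 0) [nat_lit 3670] false,
   Spec.mk (nat_lit 5864) (nat_lit 2) [nat_lit 5378, nat_lit 5918, nat_lit 5846, nat_lit 5870, nat_lit 5866] (nat_lit 0) [] false,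
   Spec.mk (nat_lit 5866) (nat_lit 0) [nat_lit 5380, nat_lit 5920, nat_lit 5848, nat_lit 5872, nat_lit 5864] (nat_lit 0) [nat_lit 3680] false,
   Spec.mk (nat_lit 5870) (nat_lit 1) [nat_lit 5384, nat_lit 5924, nat_lit 5852, nat_lit 5888, nat_lit 5864, nat_lit 5872] (nat_lit 0) [] false,
   Spec.mk (nat_lit 5872) (nat_lit 1) [nat_lit 5386, nat_lit 5926, nat_lit 5854, nat_lit 5890, nat_lit 5866, nat_lit 5878, nat_lit 5870, nat_lit 5874] (nat_lit 0) [nat_lit 3686] false,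
   Spec.mk (nat_lit 5874) (nat_lit 0) [nat_lit 5388, nat_lit 5928, nat_lit 5856, nat_lit 5892, nat_lit 5880, nat_lit 5872] (nat_lit 1) [nat_lit 3688] false,
   Spec.mk (nat_lit 5878) (nat_lit 0) [nat_lit 5392, nat_lit 5932, nat_lit 5896, nat_lit 5872, nat_lit 5880] (nat_lit 0) [nat_lit 3692] false,
   Spec.mk (nat_lit 5880) (nat_lit 0) [nat_lit 5394, nat_lit 5934, nat_lit 5898, nat_lit 5874, nat_lit 5878] (nat_lit 0) [nat_lit 3694] false,
   Spec.mk (nat_lit 5888) (nat_lit 0) [nat_lit 5402, nat_lit 5942, nat_lit 5870, nat_lit 5890] (nat_lit 0) [] false,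
   Spec.mk (nat_lit 5890) (nat_lit 0) [nat_lit 5404, nat_lit 5944, nat_lit 5872, nat_lit 5896, nat_lit 5888, nat_lit 5892] (nat_lit 1) [nat_lit 3704] false,
   Spec.mk (nat_lit 5892) (nat_lit 0) [nat_lit 5406, nat_lit 5946, nat_lit 5874, nat_lit 5898, nat_lit 5890] (nat_lit 4) [nat_lit 3706] false,
   Spec.mk (nat_lit 5896) (nat_lit 0) [nat_lit 5410, nat_lit 5950, nat_lit 5878, nat_lit 5890, nat_lit 5898] (nat_lit 0) [nat_lit 3710] false,
   Spec.mk (nat_lit 5898) (nat_lit 0) [nat_lit 5412, nat_lit 5952, nat_lit 5880, nat_lit 5892, nat_lit 5904, nat_lit 5896] (nat_lit 1) [nat_lit 3712] false,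
   Spec.mk (nat_lit 5904) (nat_lit 0) [nat_lit 5418, nat_lit 5958, nat_lit 5898] (nat_lit 0) [nat_lit 3718] false,
   Spec.mk (nat_lit 5918) (nat_lit 2) [nat_lit 5432, nat_lit 6080, nat_lit 5864, nat_lit 5924, nat_lit 5920] (nat_lit 0) [] false,
   Spec.mk (nat_lit 5920) (nat_lit 0) [nat_lit 5434, nat_lit 6082, nat_lit 5866, nat_lit 5926, nat_lit 5918] (nat_lit 0) [nat_lit 3734] false,
   Spec.mk (nat_lit 5924) (nat_lit 0) [nat_lit 5438, nat_lit 6086, nat_lit 5870, nat_lit 5942, nat_lit 5918, nat_lit 5926] (nat_lit 0) [] false,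
   Spec.mk (nat_lit 5926) (nat_lit 0) [nat_lit 5440, nat_lit 6088, nat_lit 5872, nat_lit 5944, nat_lit 5920, nat_lit 5932, nat_lit 5924, nat_lit 5928] (nat_lit 0) [nat_lit 3740] false,
   Spec.mk (nat_lit 5928) (nat_lit 0) [nat_lit 5442, nat_lit 6090, nat_lit 5874, nat_lit 5946, nat_lit 5934, nat_lit 5926] (nat_lit 2) [nat_lit 3742] false,
   Spec.mk (nat_lit 5932) (nat_lit 0) [nat_lit 5446, nat_lit 6094, nat_lit 5878, nat_lit 5950, nat_lit 5926, nat_lit 5934] (nat_lit 2) [nat_lit 3746] false,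
   Spec.mk (nat_lit 5934) (nat_lit 0) [nat_lit 5448, nat_lit 6096, nat_lit 5880, nat_lit 5952, nat_lit 5928, nat_lit 5932] (nat_lit 2) [nat_lit 3748] false,
   Spec.mk (nat_lit 5942) (nat_lit 1) [nat_lit 5456, nat_lit 6104, nat_lit 5888, nat_lit 5996, nat_lit 5924, nat_lit 5944] (nat_lit 0) [] false,
   Spec.mk (nat_lit 5944) (nat_lit 0) [nat_lit 5458, nat_lit 6106, nat_lit 5890, nat_lit 5998, nat_lit 5926, nat_lit 5950, nat_lit 5942, nat_lit 5946] (nat_lit 0) [nat_lit 3758] false,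
   Spec.mk (nat_lit 5946) (nat_lit 0) [nat_lit 5460, nat_lit 6108, nat_lit 5892, nat_lit 6000, nat_lit 5928, nat_lit 5952, nat_lit 5944] (nat_lit 3) [nat_lit 3760] false,
   Spec.mk (nat_lit 5950) (nat_lit 0) [nat_lit 5464, nat_lit 6112, nat_lit 5896, nat_lit 6004, nat_lit 5932, nat_lit 5968, nat_lit 5944, nat_lit 5952] (nat_lit 0) [nat_lit 3764] false,
   Spec.mk (nat_lit 5952) (nat_lit 0) [nat_lit 5466, nat_lit 6114, nat_lit 5898, nat_lit 6006, nat_lit 5934, nat_lit 5970, nat_lit 5946, nat_lit 5958, nat_lit 5950] (nat_lit 1) [nat_lit 3766] false,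
   Spec.mk (nat_lit 5958) (nat_lit 0) [nat_lit 5472, nat_lit 6120, nat_lit 5904, nat_lit 6012, nat_lit 5976, nat_lit 5952] (nat_lit 1) [nat_lit 3772] false,
   Spec.mk (nat_lit 5968) (nat_lit 0) [nat_lit 5482, nat_lit 6130, nat_lit 6022, nat_lit 5950, nat_lit 5970] (nat_lit 0) [nat_lit 3782] false,
   Spec.mk (nat_lit 5970) (nat_lit 0) [nat_lit 5484, nat_lit 6132, nat_lit 6024, nat_lit 5952, nat_lit 5976, nat_lit 5968] (nat_lit 2) [nat_lit 3784] false,
   Spec.mk (nat_lit 5976) (nat_lit 0) [nat_lit 5490, nat_lit 6138, nat_lit 6030, nat_lit 5958, nat_lit 5970] (nat_lit 0) [nat_lit 3790] false,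
   Spec.mk (nat_lit 5996) (nat_lit 0) [nat_lit 5510, nat_lit 6158, nat_lit 5942, nat_lit 5998] (nat_lit 0) [] false,
   Spec.mk (nat_lit 5998) (nat_lit 0) [nat_lit 5512, nat_lit 6160, nat_lit 5944, nat_lit 6004, nat_lit 5996, nat_lit 6000] (nat_lit 1) [nat_lit 3812] false,
   Spec.mk (nat_lit 6000) (nat_lit 0) [nat_lit 5514, nat_lit 6162, nat_lit 5946, nat_lit 6006, nat_lit 5998] (nat_lit 4) [nat_lit 3814] false,
   Spec.mk (nat_lit 6004) (nat_lit 0) [nat_lit 5518, nat_lit 6166, nat_lit 5950, nat_lit 6022, nat_lit 5998, nat_lit 6006] (nat_lit 2) [nat_lit 3818] false,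
   Spec.mk (nat_lit 6006) (nat_lit 0) [nat_lit 5520, nat_lit 6168, nat_lit 5952, nat_lit 6024, nat_lit 6000, nat_lit 6012, nat_lit 6004] (nat_lit 3) [nat_lit 3820] false,
   Spec.mk (nat_lit 6012) (nat_lit 0) [nat_lit 5526, nat_lit 6174, nat_lit 5958, nat_lit 6030, nat_lit 6006] (nat_lit 4) [nat_lit 3826] false,
   Spec.mk (nat_lit 6022) (nat_lit 0) [nat_lit 5536, nat_lit 6184, nat_lit 5968, nat_lit 6004, nat_lit 6024] (nat_lit 0) [nat_lit 3836] false,
   Spec.mk (nat_lit 6024) (nat_lit 0) [nat_lit 5538, nat_lit 6186, nat_lit 5970, nat_lit 6006, nat_lit 6030, nat_lit 6022] (nat_lit 2) [nat_lit 3838] false,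
   Spec.mk (nat_lit 6030) (nat_lit 0) [nat_lit 5544, nat_lit 6192, nat_lit 5976, nat_lit 6012, nat_lit 6048, nat_lit 6024] (nat_lit 1) [nat_lit 3844] false,
   Spec.mk (nat_lit 6048) (nat_lit 0) [nat_lit 5562, nat_lit 6210, nat_lit 6030] (nat_lit 0) [nat_lit 3862] false,
   Spec.mk (nat_lit 6080) (nat_lit 4) [nat_lit 5594, nat_lit 5918, nat_lit 6086, nat_lit 6082] (nat_lit 0) [] false,
   Spec.mk (nat_lit 6082) (nat_lit 2) [nat_lit 5596, nat_lit 5920, nat_lit 6088, nat_lit 6080] (nat_lit 0) [nat_lit 3896] false,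
   Spec.mk (nat_lit 6086) (nat_lit 2) [nat_lit 5600, nat_lit 5924, nat_lit 6104, nat_lit 6080, nat_lit 6088] (nat_lit 0) [] false,
   Spec.mk (nat_lit 6088) (nat_lit 2) [nat_lit 5602, nat_lit 5926, nat_lit 6106, nat_lit 6082, nat_lit 6094, nat_lit 6086, nat_lit 6090] (nat_lit 0) [nat_lit 3902] false,
   Spec.mk (nat_lit 6090) (nat_lit 0) [nat_lit 5604, nat_lit 5928, nat_lit 6108, nat_lit 6096, nat_lit 6088] (nat_lit 0) [nat_lit 3904] false,
   Spec.mk (nat_lit 6094) (nat_lit 0) [nat_lit 5608, nat_lit 5932, nat_lit 6112, nat_lit 6088, nat_lit 6096] (nat_lit 0) [nat_lit 3908] false,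
   Spec.mk (nat_lit 6096) (nat_lit 0) [nat_lit 5610, nat_lit 5934, nat_lit 6114, nat_lit 6090, nat_lit 6094] (nat_lit 0) [nat_lit 3910] false,
   Spec.mk (nat_lit 6104) (nat_lit 2) [nat_lit 5618, nat_lit 5942, nat_lit 6158, nat_lit 6086, nat_lit 6106] (nat_lit 0) [] false,
   Spec.mk (nat_lit 6106) (nat_lit 1) [nat_lit 5620, nat_lit 5944, nat_lit 6160, nat_lit 6088, nat_lit 6112, nat_lit 6104, nat_lit 6108] (nat_lit 0) [nat_lit 3920] false,
   Spec.mk (nat_lit 6108) (nat_lit 0) [nat_lit 5622, nat_lit 5946, nat_lit 6162, nat_lit 6090, nat_lit 6114, nat_lit 6106] (nat_lit 2) [nat_lit 3922] false,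
   Spec.mk (nat_lit 6112) (nat_lit 1) [nat_lit 5626, nat_lit 5950, nat_lit 6166, nat_lit 6094, nat_lit 6130, nat_lit 6106, nat_lit 6114] (nat_lit 0) [nat_lit 3926] false,
   Spec.mk (nat_lit 6114) (nat_lit 0) [nat_lit 5628, nat_lit 5952, nat_lit 6168, nat_lit 6096, nat_lit 6132, nat_lit 6108, nat_lit 6120, nat_lit 6112] (nat_lit 0) [nat_lit 3928] false,
   Spec.mk (nat_lit 6120) (nat_lit 0) [nat_lit 5634, nat_lit 5958, nat_lit 6174, nat_lit 6138, nat_lit 6114] (nat_lit 0) [nat_lit 3934] false,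
   Spec.mk (nat_lit 6130) (nat_lit 0) [nat_lit 5644, nat_lit 5968, nat_lit 6184, nat_lit 6112, nat_lit 6132] (nat_lit 0) [nat_lit 3944] false,
   Spec.mk (nat_lit 6132) (nat_lit 0) [nat_lit 5646, nat_lit 5970, nat_lit 6186, nat_lit 6114, nat_lit 6138, nat_lit 6130] (nat_lit 2) [nat_lit 3946] false,
   Spec.mk (nat_lit 6138) (nat_lit 0) [nat_lit 5652, nat_lit 5976, nat_lit 6192, nat_lit 6120, nat_lit 6132] (nat_lit 0) [nat_lit 3952] false,
   Spec.mk (nat_lit 6158) (nat_lit 3) [nat_lit 5672, nat_lit 5996, nat_lit 6320, nat_lit 6104, nat_lit 6160] (nat_lit 0) [] false,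
   Spec.mk (nat_lit 6160) (nat_lit 2) [nat_lit 5674, nat_lit 5998, nat_lit 6322, nat_lit 6106, nat_lit 6166, nat_lit 6158, nat_lit 6162] (nat_lit 0) [nat_lit 3974] false]

noncomputable def sp18 : List Spec :=
  [Spec.mk (nat_lit 6162) (nat_lit 0) [nat_lit 5676, nat_lit 6000, nat_lit 6324, nat_lit 6108, nat_lit 6168, nat_lit 6160] (nat_lit 1) [nat_lit 3976] false,
   Spec.mk (nat_lit 6166) (nat_lit 1) [nat_lit 5680, nat_lit 6004, nat_lit 6328, nat_lit 6112, nat_lit 6184, nat_lit 6160, nat_lit 6168] (nat_lit 0) [nat_lit 3980] false,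
   Spec.mk (nat_lit 6168) (nat_lit 0) [nat_lit 5682, nat_lit 6006, nat_lit 6330, nat_lit 6114, nat_lit 6186, nat_lit 6162, nat_lit 6174, nat_lit 6166] (nat_lit 0) [nat_lit 3982] false,
   Spec.mk (nat_lit 6174) (nat_lit 0) [nat_lit 5688, nat_lit 6012, nat_lit 6336, nat_lit 6120, nat_lit 6192, nat_lit 6168] (nat_lit 1) [nat_lit 3988] false,
   Spec.mk (nat_lit 6184) (nat_lit 2) [nat_lit 5698, nat_lit 6022, nat_lit 6346, nat_lit 6130, nat_lit 6238, nat_lit 6166, nat_lit 6186] (nat_lit 0) [nat_lit 3998] false,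
   Spec.mk (nat_lit 6186) (nat_lit 0) [nat_lit 5700, nat_lit 6024, nat_lit 6348, nat_lit 6132, nat_lit 6240, nat_lit 6168, nat_lit 6192, nat_lit 6184] (nat_lit 0) [nat_lit 4000] false,
   Spec.mk (nat_lit 6192) (nat_lit 1) [nat_lit 5706, nat_lit 6030, nat_lit 6354, nat_lit 6138, nat_lit 6246, nat_lit 6174, nat_lit 6210, nat_lit 6186] (nat_lit 0) [nat_lit 4006] false,
   Spec.mk (nat_lit 6210) (nat_lit 1) [nat_lit 5724, nat_lit 6048, nat_lit 6372, nat_lit 6264, nat_lit 6192] (nat_lit 0) [nat_lit 4024] false,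
   Spec.mk (nat_lit 6238) (nat_lit 2) [nat_lit 5752, nat_lit 6400, nat_lit 6184, nat_lit 6240] (nat_lit 0) [nat_lit 4052] false,
   Spec.mk (nat_lit 6240) (nat_lit 0) [nat_lit 5754, nat_lit 6402, nat_lit 6186, nat_lit 6246, nat_lit 6238] (nat_lit 0) [nat_lit 4054] false,
   Spec.mk (nat_lit 6246) (nat_lit 0) [nat_lit 5760, nat_lit 6408, nat_lit 6192, nat_lit 6264, nat_lit 6240] (nat_lit 0) [nat_lit 4060] false,
   Spec.mk (nat_lit 6264) (nat_lit 2) [nat_lit 5778, nat_lit 6426, nat_lit 6210, nat_lit 6246] (nat_lit 0) [nat_lit 4078] false,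
   Spec.mk (nat_lit 6320) (nat_lit 4) [nat_lit 6158, nat_lit 6322] (nat_lit 0) [] false,
   Spec.mk (nat_lit 6322) (nat_lit 3) [nat_lit 6160, nat_lit 6328, nat_lit 6320, nat_lit 6324] (nat_lit 0) [nat_lit 4136] false,
   Spec.mk (nat_lit 6324) (nat_lit 0) [nat_lit 6162, nat_lit 6330, nat_lit 6322] (nat_lit 0) [nat_lit 4138] false,
   Spec.mk (nat_lit 6328) (nat_lit 2) [nat_lit 6166, nat_lit 6346, nat_lit 6322, nat_lit 6330] (nat_lit 0) [nat_lit 4142] false,
   Spec.mk (nat_lit 6330) (nat_lit 1) [nat_lit 6168, nat_lit 6348, nat_lit 6324, nat_lit 6336, nat_lit 6328] (nat_lit 0) [nat_lit 4144] false,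
   Spec.mk (nat_lit 6336) (nat_lit 0) [nat_lit 6174, nat_lit 6354, nat_lit 6330] (nat_lit 0) [nat_lit 4150] false,
   Spec.mk (nat_lit 6346) (nat_lit 2) [nat_lit 6184, nat_lit 6400, nat_lit 6328, nat_lit 6348] (nat_lit 0) [nat_lit 4160] false,
   Spec.mk (nat_lit 6348) (nat_lit 0) [nat_lit 6186, nat_lit 6402, nat_lit 6330, nat_lit 6354, nat_lit 6346] (nat_lit 0) [nat_lit 4162] false,
   Spec.mk (nat_lit 6354) (nat_lit 1) [nat_lit 6192, nat_lit 6408, nat_lit 6336, nat_lit 6372, nat_lit 6348] (nat_lit 0) [nat_lit 4168] false,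
   Spec.mk (nat_lit 6372) (nat_lit 0) [nat_lit 6210, nat_lit 6426, nat_lit 6354] (nat_lit 0) [nat_lit 4186] false,
   Spec.mk (nat_lit 6400) (nat_lit 4) [nat_lit 6238, nat_lit 6346, nat_lit 6402] (nat_lit 0) [nat_lit 4214] false,
   Spec.mk (nat_lit 6402) (nat_lit 2) [nat_lit 6240, nat_lit 6348, nat_lit 6408, nat_lit 6400] (nat_lit 0) [nat_lit 4216] false,
   Spec.mk (nat_lit 6408) (nat_lit 2) [nat_lit 6246, nat_lit 6354, nat_lit 6426, nat_lit 6402] (nat_lit 0) [nat_lit 4222] false,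
   Spec.mk (nat_lit 6426) (nat_lit 3) [nat_lit 6264, nat_lit 6372, nat_lit 6480, nat_lit 6408] (nat_lit 0) [nat_lit 4240] false,
   Spec.mk (nat_lit 6480) (nat_lit 4) [nat_lit 6426] (nat_lit 0) [nat_lit 4294] false]

noncomputable def specs : List (List Spec) :=
    sp0 :: sp1 :: sp2 :: sp3 :: sp4 :: sp5 :: sp6 :: sp7 :: sp8 :: sp9 :: sp10 :: sp11 :: sp12 ::
    sp13 :: sp14 :: sp15 :: sp16 :: sp17 :: sp18 :: []

noncomputable def step (e : Nat → Nat) (C ap an : Nat) (k :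
    Nat → Nat → Nat → Nat → Nat → Nat → Nat → Nat → Nat → Nat → Nat → Nat → Nat → Nat → Nat → Nat →
    Nat → Nat → Nat → Nat → Nat → Nat → Nat → Nat → Nat → Nat → Nat → Nat → Nat → Nat → Nat → Nat →
    Nat → Nat → Nat → Nat → Nat → Nat → Nat → Nat → Nat → Nat → Nat → Nat → Nat → Nat → Nat → Nat →
    Nat → Nat → Nat → Nat → Nat → Nat → Nat → Nat → Nat → Nat → Nat → Nat → Nat → Nat → Nat → Nat →
    Nat → Nat → Nat → Nat → Nat → Nat → Nat → Nat → Nat → Nat → Nat → Nat → Nat → Nat → Nat → Nat →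
    Nat → Nat → Nat → Nat → Nat → Nat → Nat → Nat → Nat → Nat → Nat → Nat → Nat → Nat → Nat → Nat →
    Nat → Nat → Nat → Nat → Nat → Nat → Nat → Nat → Nat → Nat → Nat → Nat → Nat → Nat → Nat → Nat →
    Nat → Nat → Nat → Nat → Nat → Nat → Nat → Nat → Nat → Nat → Nat → Nat → Nat → Nat → Nat → Nat →
    Nat → Nat → Nat → Nat → Nat → Nat → Nat → Nat → Nat → Nat → Nat → Nat → Nat → Nat → Nat → Nat →
    Nat → Nat → Nat → Nat → Nat → Nat → Nat → Nat → Nat → Nat → Nat → Nat → Nat → Nat → Nat → Nat →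
    Nat → Nat → Nat → Nat → Nat → Nat → Nat → Nat → Nat → Nat → Nat → Nat → Nat → Nat → Nat → Nat →
    Nat → Nat → Nat → Nat → Nat → Nat → Nat → Nat → Nat → Nat → Nat → Nat → Nat → Nat → Nat → Nat →
    Nat → Nat → Nat → Nat → Nat → Nat → Nat → Nat → Nat → Nat → Nat → Nat → Nat → Nat → Nat → Nat →
    Nat → Nat → Nat → Nat → Nat → Nat → Nat → Nat → Nat → Nat → Nat → Nat → Nat → Nat → Nat → Nat →
    Nat → Nat → Nat → Nat → Nat → Nat → Nat → Nat → Nat → Nat → Nat → Nat → Nat → Nat → Nat → Nat →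
    Nat → Nat → Nat → Nat → Nat → Nat → Nat → Nat → Nat → Nat → Nat → Nat → Nat → Nat → Nat → Nat →
    Nat → Nat → Nat → Nat → Nat → Nat → Nat → Nat → Nat → Nat → Nat → Nat → Nat → Nat → Nat → Nat →
    Nat → Nat → Nat → Nat → Nat → Nat → Nat → Nat → Nat → Nat → Nat → Nat → Nat → Nat → Nat → Nat →
    Nat → Nat → Nat → Nat → Nat → Nat → Nat → Nat → Nat → Nat → Nat → Nat → Nat → Nat → Nat → Nat →
    Nat → Nat → Nat → Nat → Nat → Nat → Nat → Nat → Nat → Nat → Nat → Nat → Nat → Nat → Nat → Nat →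
    Nat → Nat → Nat → Nat → Nat → Nat → Nat → Nat → Nat → Nat → Nat → Nat → Nat → Nat → Nat → Nat →
    Nat → Nat → Nat → Nat → Nat → Nat → Nat → Nat → Nat → Nat → Nat → Nat → Nat → Nat → Nat → Nat →
    Nat → Nat → Nat → Nat → Nat → Nat → Nat → Nat → Nat → Nat → Nat → Nat → Nat → Nat → Nat → Nat →
    Nat → Nat → Nat → Nat → Nat → Nat → Nat → Nat → Nat → Nat → Nat → Nat → Nat → Nat → Nat → Nat →
    Nat → Nat → Nat → Nat → Nat → Nat → Nat → Nat → Nat → Nat → Nat → Nat → Nat → Nat → Nat → Nat →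
    Nat → Nat → Nat → Nat → Nat → Nat → Nat → Nat → Nat → Nat → Nat → Nat → Nat → Nat → Nat → Nat →
    Nat → Nat → Nat → Nat → Nat → Nat → Nat → Nat → Nat → Nat → Nat → Nat → Nat → Nat → Nat → Nat →
    Nat → Nat → Nat → Nat → Nat → Nat → Nat → Nat → Nat → Nat → Nat → Nat → Nat → Nat → Nat → Nat →
    Nat → Nat → Nat → Nat → Nat → Nat → Nat → Nat → Nat → Nat → Nat → Nat → Nat → Nat → Nat → Nat →
    Nat → Nat → Nat → Nat → Nat → Nat → Nat → Nat → Nat → Nat → Nat → Nat → Nat → Nat → Nat → Nat →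
    Nat → Nat → Nat → Nat → Nat → Nat → Nat → Nat → Nat → Nat → Nat → Nat → Nat → Nat → Nat → Nat →
    Nat → Nat → Nat → Nat → Nat → Nat → Nat → Nat → Nat → Nat → Nat → Nat → Nat → Nat → Nat → Nat →
    Nat → Nat → Nat → Nat → Nat → Nat → Nat → Nat → Nat → Nat → Nat → Nat → Nat → Nat → Nat → Nat →
    Nat → Nat → Nat → Nat → Nat → Nat → Nat → Nat → Nat → Nat → Nat → Nat → Nat → Nat → Nat → Nat →
    Nat → Nat → Nat → Nat → Nat → Nat → Nat → Nat → Nat → Nat → Nat → Nat → Nat → Nat → Nat → Nat →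
    Nat → Nat → Nat → Nat → Nat → Nat → Nat → Nat → Nat → Nat → Nat → Nat → Nat → Nat → Nat → Nat →
    Nat → Nat → Nat → Nat → Nat → Nat → Nat → Nat → Nat → Nat → Nat → Nat → Nat → Nat → Nat → Nat →
    Nat → Nat → Nat → Nat → Nat → Nat → Nat → Nat → Nat → Nat → Nat → Nat → Nat → Nat → Nat → Nat →
    Nat → Nat → Nat → Nat → Nat → Nat → Nat → Nat → Nat → Nat → Nat → Nat → Nat → Nat → Nat → Nat →
    Nat → Nat → Nat → Nat → Nat → Nat → Nat → Nat → Nat → Nat → Nat → Nat → Nat → Nat → Nat → Nat →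
    Nat → Nat → Nat → Nat → Nat → Nat → Nat → Nat → Nat → Nat → Nat → Nat → Nat → Nat → Nat → Nat →
    Nat → Nat → Nat → Nat → Nat → Nat → Nat → Nat → Nat → Nat → Nat → Nat → Nat → Nat → Nat → Nat →
    Nat → Nat → Nat → Nat → Nat → Nat → Nat → Nat → Nat → Nat → Nat → Nat → Nat → Nat → Nat → Nat →
    Nat → Nat → Nat → Nat → Nat → Nat → Nat → Nat → Nat → Nat → Nat → Nat → Nat → Nat → Nat → Nat →
    Nat → Nat → Nat → Nat → Nat → Nat → Nat → Nat → Nat → Nat → Nat → Nat → Nat → Nat → Nat → Nat →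
    Nat → Nat → Nat → Nat → Nat → Nat → Nat → Nat → Nat → Nat → Nat → Nat → Nat → Nat → Nat → Nat →
    Nat → Nat → Nat → Nat → Nat → Nat → Nat → Nat → Nat → Nat → Nat → Nat → Nat → Nat → Nat → Nat →
    Nat → Nat → Nat → Nat → Nat → Nat → Nat → Nat → Nat → Nat → Nat → Nat → Nat → Nat → Nat → Nat →
    Nat → Nat → Nat → Nat → Nat → Nat → Nat → Nat → Nat → Nat → Nat → Nat → Nat → Nat → Nat → Nat →
    Nat → Nat → Nat → Nat → Nat → Nat → Nat → Nat → Nat → Nat → Nat → Nat → Nat → Nat → Nat → Nat →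
    Nat → Nat → Nat → Nat → Nat → Nat → Nat → Nat → Nat → Nat → Nat → Nat → Nat → Nat → Nat → Nat →
    Nat → Nat → Nat → Nat → Nat → Nat → Nat → Nat → Nat → Nat → Nat → Nat → Nat → Nat → Nat → Nat →
    Nat → Nat → Nat → Nat → Nat → Nat → Nat → Nat → Nat → Nat → Nat → Nat → Nat → Nat → Nat → Nat →
    Nat → Nat → Nat → Nat → Nat → Nat → Nat → Nat → Nat → Nat → Nat → Nat → Nat → Nat → Nat → Nat →
    Nat → Nat → Nat → Nat → Nat → Nat → Nat → Nat → Nat → Nat → Nat → Nat → Nat → Nat → Nat → Nat →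
    Nat → Nat → Nat → Nat → Nat → Nat → Nat → Nat → Nat → Nat → Nat → Nat → Nat → Nat → Nat → Nat →
    Nat → Nat → Nat → Nat → Nat → Nat → Nat → Nat → Nat → Nat → Nat → Nat → Nat → Nat → Nat → Nat →
    Nat → Nat → Nat → Nat → Nat → Nat → Nat → Nat → Nat → Nat → Nat → Nat → Nat → Nat → Nat → Nat →
    Nat → Nat → Nat → Nat → Nat → Nat → Nat → Nat → Nat → Nat → Nat → Nat → Nat → Nat → Nat → Nat →
    Nat → Nat → Nat → Nat → Nat → Nat → Nat → Nat → Nat → Nat → Nat → Nat → Nat → Nat → Nat → Nat →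
    Nat → Nat → Nat → Nat → Nat → Nat → Nat → Nat → Nat → Nat → Nat → Nat → Nat → Nat → Nat → Nat →
    Nat → Nat → Nat → Nat → Nat → Nat → Nat → Nat → Nat → Nat → Nat → Nat → Nat → Nat → Nat → Nat →
    Nat → Nat → Nat → Nat → Nat → Nat → Nat → Nat → Nat → Nat → Nat → Nat → Nat → Nat → Nat → Nat →
    Nat → Nat → Nat → Nat → Nat → Nat → Nat → Nat → Nat → Nat → Nat → Nat → Nat → Nat → Nat → Nat →
    Nat → Nat → Nat → Nat → Nat → Nat → Nat → Nat → Nat → Nat → Nat → Nat → Nat → Nat → Nat → Nat →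
    Nat → Nat → Nat → Nat → Nat → Nat → Nat → Nat → Nat → Nat → Nat → Nat → Nat → Nat → Nat → Nat →
    Nat → Nat → Nat → Nat → Nat → Nat → Nat → Nat → Nat → Nat → Nat → Nat → Nat → Nat → Nat → Nat →
    Nat → Nat → Nat → Nat → Nat → Nat → Nat → Nat → Nat → Nat → Nat → Nat → Nat → Nat → Nat → Nat →
    Nat → Nat → Nat → Nat → Nat → Nat → Nat → Nat → Nat → Nat → Nat → Nat → Nat → Nat → Nat → Nat →
    Nat → Nat → Nat → Bool)
  (
    x80 x134 x152 x158 x160 x188 x206 x212 x214 x224 x230 x232 x236 x238 x240 x296 x314 x320 x322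
    x350 x368 x374 x376 x386 x392 x394 x398 x400 x402 x422 x428 x430 x440 x446 x448 x452 x454 x456
    x464 x466 x470 x472 x474 x478 x480 x512 x530 x536 x538 x548 x554 x556 x560 x562 x564 x584 x590
    x592 x602 x608 x610 x614 x616 x618 x626 x628 x632 x634 x636 x640 x642 x656 x662 x664 x668 x670
    x672 x680 x682 x686 x688 x690 x694 x696 x704 x706 x708 x712 x714 x720 x782 x800 x806 x808 x836
    x854 x860 x862 x872 x878 x880 x884 x886 x888 x908 x914 x916 x926 x932 x934 x938 x940 x942 x950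
    x952 x956 x958 x960 x964 x966 x998 x1016 x1022 x1024 x1034 x1040 x1042 x1046 x1048 x1050 x1070
    x1076 x1078 x1088 x1094 x1096 x1100 x1102 x1104 x1112 x1114 x1118 x1120 x1122 x1126 x1128 x1142
    x1148 x1150 x1154 x1156 x1158 x1166 x1168 x1172 x1174 x1176 x1180 x1182 x1190 x1192 x1194 x1198
    x1200 x1206 x1232 x1238 x1240 x1250 x1256 x1258 x1262 x1264 x1266 x1274 x1276 x1280 x1282 x1284
    x1288 x1290 x1304 x1310 x1312 x1316 x1318 x1320 x1328 x1330 x1334 x1336 x1338 x1342 x1344 x1352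
    x1354 x1356 x1360 x1362 x1368 x1382 x1384 x1388 x1390 x1392 x1396 x1398 x1406 x1408 x1410 x1414
    x1416 x1422 x1432 x1434 x1440 x1484 x1502 x1508 x1510 x1520 x1526 x1528 x1532 x1534 x1536 x1556
    x1562 x1564 x1574 x1580 x1582 x1586 x1588 x1590 x1598 x1600 x1604 x1606 x1608 x1612 x1614 x1628
    x1634 x1636 x1640 x1642 x1644 x1652 x1654 x1658 x1660 x1662 x1666 x1668 x1676 x1678 x1680 x1684
    x1686 x1692 x1718 x1724 x1726 x1736 x1742 x1744 x1748 x1750 x1752 x1760 x1762 x1766 x1768 x1770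
    x1774 x1776 x1790 x1796 x1798 x1802 x1804 x1806 x1814 x1816 x1820 x1822 x1824 x1828 x1830 x1838
    x1840 x1842 x1846 x1848 x1854 x1868 x1870 x1874 x1876 x1878 x1882 x1884 x1892 x1894 x1896 x1900
    x1902 x1908 x1918 x1920 x1926 x1952 x1958 x1960 x1964 x1966 x1968 x1976 x1978 x1982 x1984 x1986
    x1990 x1992 x2000 x2002 x2004 x2008 x2010 x2016 x2030 x2032 x2036 x2038 x2040 x2044 x2046 x2054
    x2056 x2058 x2062 x2064 x2070 x2080 x2082 x2088 x2108 x2110 x2112 x2116 x2118 x2124 x2134 x2136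
    x2142 x2160 x2240 x2258 x2264 x2266 x2294 x2312 x2318 x2320 x2330 x2336 x2338 x2342 x2344 x2346
    x2366 x2372 x2374 x2384 x2390 x2392 x2396 x2398 x2400 x2408 x2410 x2414 x2416 x2418 x2422 x2424
    x2456 x2474 x2480 x2482 x2492 x2498 x2500 x2504 x2506 x2508 x2528 x2534 x2536 x2546 x2552 x2554
    x2558 x2560 x2562 x2570 x2572 x2576 x2578 x2580 x2584 x2586 x2600 x2606 x2608 x2612 x2614 x2616
    x2624 x2626 x2630 x2632 x2634 x2638 x2640 x2648 x2650 x2652 x2656 x2658 x2664 x2690 x2696 x2698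
    x2708 x2714 x2716 x2720 x2722 x2724 x2732 x2734 x2738 x2740 x2742 x2746 x2748 x2762 x2768 x2770
    x2774 x2776 x2778 x2786 x2788 x2792 x2794 x2796 x2800 x2802 x2810 x2812 x2814 x2818 x2820 x2826
    x2840 x2842 x2846 x2848 x2850 x2854 x2856 x2864 x2866 x2868 x2872 x2874 x2880 x2890 x2892 x2898
    x2942 x2960 x2966 x2968 x2978 x2984 x2986 x2990 x2992 x2994 x3014 x3020 x3022 x3032 x3038 x3040
    x3044 x3046 x3048 x3056 x3058 x3062 x3064 x3066 x3070 x3072 x3086 x3092 x3094 x3098 x3100 x3102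
    x3110 x3112 x3116 x3118 x3120 x3124 x3126 x3134 x3136 x3138 x3142 x3144 x3150 x3176 x3182 x3184
    x3194 x3200 x3202 x3206 x3208 x3210 x3218 x3220 x3224 x3226 x3228 x3232 x3234 x3248 x3254 x3256
    x3260 x3262 x3264 x3272 x3274 x3278 x3280 x3282 x3286 x3288 x3296 x3298 x3300 x3304 x3306 x3312
    x3326 x3328 x3332 x3334 x3336 x3340 x3342 x3350 x3352 x3354 x3358 x3360 x3366 x3376 x3378 x3384
    x3410 x3416 x3418 x3422 x3424 x3426 x3434 x3436 x3440 x3442 x3444 x3448 x3450 x3458 x3460 x3462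
    x3466 x3468 x3474 x3488 x3490 x3494 x3496 x3498 x3502 x3504 x3512 x3514 x3516 x3520 x3522 x3528
    x3538 x3540 x3546 x3566 x3568 x3570 x3574 x3576 x3582 x3592 x3594 x3600 x3618 x3662 x3668 x3670
    x3680 x3686 x3688 x3692 x3694 x3696 x3704 x3706 x3710 x3712 x3714 x3718 x3720 x3734 x3740 x3742
    x3746 x3748 x3750 x3758 x3760 x3764 x3766 x3768 x3772 x3774 x3782 x3784 x3786 x3790 x3792 x3798
    x3812 x3814 x3818 x3820 x3822 x3826 x3828 x3836 x3838 x3840 x3844 x3846 x3852 x3862 x3864 x3870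
    x3896 x3902 x3904 x3908 x3910 x3912 x3920 x3922 x3926 x3928 x3930 x3934 x3936 x3944 x3946 x3948
    x3952 x3954 x3960 x3974 x3976 x3980 x3982 x3984 x3988 x3990 x3998 x4000 x4002 x4006 x4008 x4014
    x4024 x4026 x4032 x4052 x4054 x4056 x4060 x4062 x4068 x4078 x4080 x4086 x4104 x4136 x4138 x4142
    x4144 x4146 x4150 x4152 x4160 x4162 x4164 x4168 x4170 x4176 x4186 x4188 x4194 x4214 x4216 x4218
    x4222 x4224 x4230 x4240 x4242 x4248 x4266 x4294 x4296 x4302 x4320 x4400 x4418 x4424 x4426 x4436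
    x4442 x4444 x4448 x4450 x4452 x4472 x4478 x4480 x4490 x4496 x4498 x4502 x4504 x4506 x4514 x4516
    x4520 x4522 x4524 x4528 x4530 x4544 x4550 x4552 x4556 x4558 x4560 x4568 x4570 x4574 x4576 x4578
    x4582 x4584 x4592 x4594 x4596 x4600 x4602 x4608 x4634 x4640 x4642 x4652 x4658 x4660 x4664 x4666
    x4668 x4676 x4678 x4682 x4684 x4686 x4690 x4692 x4706 x4712 x4714 x4718 x4720 x4722 x4730 x4732
    x4736 x4738 x4740 x4744 x4746 x4754 x4756 x4758 x4762 x4764 x4770 x4784 x4786 x4790 x4792 x4794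
    x4798 x4800 x4808 x4810 x4812 x4816 x4818 x4824 x4834 x4836 x4842 x4868 x4874 x4876 x4880 x4882
    x4884 x4892 x4894 x4898 x4900 x4902 x4906 x4908 x4916 x4918 x4920 x4924 x4926 x4932 x4946 x4948
    x4952 x4954 x4956 x4960 x4962 x4970 x4972 x4974 x4978 x4980 x4986 x4996 x4998 x5004 x5024 x5026
    x5028 x5032 x5034 x5040 x5050 x5052 x5058 x5076 x5120 x5126 x5128 x5138 x5144 x5146 x5150 x5152
    x5154 x5162 x5164 x5168 x5170 x5172 x5176 x5178 x5192 x5198 x5200 x5204 x5206 x5208 x5216 x5218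
    x5222 x5224 x5226 x5230 x5232 x5240 x5242 x5244 x5248 x5250 x5256 x5270 x5272 x5276 x5278 x5280
    x5284 x5286 x5294 x5296 x5298 x5302 x5304 x5310 x5320 x5322 x5328 x5354 x5360 x5362 x5366 x5368
    x5370 x5378 x5380 x5384 x5386 x5388 x5392 x5394 x5402 x5404 x5406 x5410 x5412 x5418 x5432 x5434
    x5438 x5440 x5442 x5446 x5448 x5456 x5458 x5460 x5464 x5466 x5472 x5482 x5484 x5490 x5510 x5512
    x5514 x5518 x5520 x5526 x5536 x5538 x5544 x5562 x5594 x5596 x5600 x5602 x5604 x5608 x5610 x5618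
    x5620 x5622 x5626 x5628 x5634 x5644 x5646 x5652 x5672 x5674 x5676 x5680 x5682 x5688 x5698 x5700
    x5706 x5724 x5752 x5754 x5760 x5778 x5840 x5846 x5848 x5852 x5854 x5856 x5864 x5866 x5870 x5872
    x5874 x5878 x5880 x5888 x5890 x5892 x5896 x5898 x5904 x5918 x5920 x5924 x5926 x5928 x5932 x5934
    x5942 x5944 x5946 x5950 x5952 x5958 x5968 x5970 x5976 x5996 x5998 x6000 x6004 x6006 x6012 x6022
    x6024 x6030 x6048 x6080 x6082 x6086 x6088 x6090 x6094 x6096 x6104 x6106 x6108 x6112 x6114 x6120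
    x6130 x6132 x6138 x6158 x6160 x6162 x6166 x6168 x6174 x6184 x6186 x6192 x6210 x6238 x6240 x6246
    x6264 x6320 x6322 x6324 x6328 x6330 x6336 x6346 x6348 x6354 x6372 x6400 x6402 x6408 x6426 x6480 : Nat) : Bool :=
  k
    (Nat.sub (Nat.sub (Nat.add (Nat.add (Nat.add C (Nat.mul x80 (nat_lit 4))) x134) (Nat.mul (e (nat_lit 80)) ap)) x2266) (Nat.mul (e (nat_lit 80)) an))
    (Nat.sub (Nat.sub (Nat.add (Nat.add (Nat.add (Nat.add (Nat.add (Nat.add C (Nat.mul x134 (nat_lit 3))) x296) x80) x188) x152) (Nat.mul (e (nat_lit 134)) ap)) x2320) (Nat.mul (e (nat_lit 134)) an))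
    (Nat.sub (Nat.sub (Nat.add (Nat.add (Nat.add (Nat.add (Nat.add (Nat.add C (Nat.mul x152 (nat_lit 2))) x314) x206) x134) x158) (Nat.mul (e (nat_lit 152)) ap)) x2338) (Nat.mul (e (nat_lit 152)) an))
    (Nat.sub (Nat.sub (Nat.add (Nat.add (Nat.add (Nat.add (Nat.add (Nat.add C (Nat.mul x158 (nat_lit 2))) x320) x212) x152) x160) (Nat.mul (e (nat_lit 158)) ap)) x2344) (Nat.mul (e (nat_lit 158)) an))
    (Nat.sub (Nat.sub (Nat.add (Nat.add (Nat.add (Nat.add (Nat.add C (Nat.mul x160 (nat_lit 4))) x322) x214) x158) (Nat.mul (e (nat_lit 160)) ap)) x2346) (Nat.mul (e (nat_lit 160)) an))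
    (Nat.sub (Nat.sub (Nat.add (Nat.add (Nat.add (Nat.add C x350) x134) x206) (Nat.mul (e (nat_lit 188)) ap)) x2374) (Nat.mul (e (nat_lit 188)) an))
    (Nat.sub (Nat.sub (Nat.add (Nat.add (Nat.add (Nat.add (Nat.add (Nat.add (Nat.add C x206) x368) x152) x188) x224) x212) (Nat.mul (e (nat_lit 206)) ap)) x2392) (Nat.mul (e (nat_lit 206)) an))
    (Nat.sub (Nat.sub (Nat.add (Nat.add (Nat.add (Nat.add (Nat.add (Nat.add C x374) x158) x230) x206) x214) (Nat.mul (e (nat_lit 212)) ap)) x2398) (Nat.mul (e (nat_lit 212)) an))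
    (Nat.sub (Nat.add (Nat.add (Nat.add (Nat.add (Nat.add C (Nat.mul x214 (nat_lit 2))) x376) x160) x232) x212) x2400)
    (Nat.sub (Nat.sub (Nat.add (Nat.add (Nat.add (Nat.add C x386) x206) x230) (Nat.mul (e (nat_lit 224)) ap)) x2410) (Nat.mul (e (nat_lit 224)) an))
    (Nat.sub (Nat.add (Nat.add (Nat.add (Nat.add (Nat.add (Nat.add C x230) x392) x212) x224) x236) x232) x2416)
    (Nat.sub (Nat.add (Nat.add (Nat.add (Nat.add (Nat.add C (Nat.mul x232 (nat_lit 2))) x394) x214) x238) x230) x2418)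
    (Nat.sub (Nat.add (Nat.add (Nat.add C x398) x230) x238) x2422)
    (Nat.sub (Nat.add (Nat.add (Nat.add (Nat.add (Nat.add C (Nat.mul x238 (nat_lit 3))) x400) x232) x236) x240) x2424)
    (Nat.add (Nat.add (Nat.add C (Nat.mul x240 (nat_lit 4))) x402) x238)
    (Nat.sub (Nat.add (Nat.add (Nat.add (Nat.add (Nat.add C (Nat.mul x296 (nat_lit 2))) x782) x134) x350) x314) x2482)
    (Nat.sub (Nat.sub (Nat.add (Nat.add (Nat.add (Nat.add (Nat.add (Nat.add C x800) x152) x368) x296) x320) (Nat.mul (e (nat_lit 314)) ap)) x2500) (Nat.mul (e (nat_lit 314)) an))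
    (Nat.sub (Nat.sub (Nat.add (Nat.add (Nat.add (Nat.add (Nat.add (Nat.add C x806) x158) x374) x314) x322) (Nat.mul (e (nat_lit 320)) ap)) x2506) (Nat.mul (e (nat_lit 320)) an))
    (Nat.sub (Nat.add (Nat.add (Nat.add (Nat.add (Nat.add C (Nat.mul x322 (nat_lit 2))) x808) x160) x376) x320) x2508)
    (Nat.sub (Nat.add (Nat.add (Nat.add (Nat.add (Nat.add (Nat.add C x350) x836) x188) x512) x296) x368) x2536)
    (Nat.sub (Nat.sub (Nat.add (Nat.add (Nat.add (Nat.add (Nat.add (Nat.add (Nat.add (Nat.add (Nat.add (Nat.add C x368) x854) x206) x530) x314) x422) x350) x386) x374) (Nat.mul (e (nat_lit 368)) ap)) x2554) (Nat.mul (e (nat_lit 368)) an))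
    (Nat.sub (Nat.sub (Nat.add (Nat.add (Nat.add (Nat.add (Nat.add (Nat.add (Nat.add (Nat.add (Nat.add C x860) x212) x536) x320) x428) x392) x368) x376) (Nat.mul (e (nat_lit 374)) ap)) x2560) (Nat.mul (e (nat_lit 374)) an))
    (Nat.sub (Nat.sub (Nat.add (Nat.add (Nat.add (Nat.add (Nat.add (Nat.add (Nat.add (Nat.add (Nat.add C (Nat.mul x376 (nat_lit 2))) x862) x214) x538) x322) x430) x394) x374) (Nat.mul (e (nat_lit 376)) ap)) x2562) (Nat.mul (e (nat_lit 376)) an))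
    (Nat.sub (Nat.sub (Nat.sub (Nat.add (Nat.add (Nat.add (Nat.add (Nat.add (Nat.add (Nat.add C x872) x224) x548) x440) x368) x392) (Nat.mul (e (nat_lit 386)) ap)) x386) x2572) (Nat.mul (e (nat_lit 386)) an))
    (Nat.sub (Nat.sub (Nat.add (Nat.add (Nat.add (Nat.add (Nat.add (Nat.add (Nat.add (Nat.add (Nat.add C x878) x230) x554) x446) x374) x386) x398) x394) (Nat.mul (e (nat_lit 392)) ap)) x2578) (Nat.mul (e (nat_lit 392)) an))
    (Nat.sub (Nat.sub (Nat.add (Nat.add (Nat.add (Nat.add (Nat.add (Nat.add (Nat.add (Nat.add (Nat.add C x394) x880) x232) x556) x448) x376) x400) x392) (Nat.mul (e (nat_lit 394)) ap)) x2580) (Nat.mul (e (nat_lit 394)) an))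
    (Nat.sub (Nat.sub (Nat.sub (Nat.add (Nat.add (Nat.add (Nat.add (Nat.add (Nat.add (Nat.add C x884) x236) x560) x452) x392) x400) (Nat.mul (e (nat_lit 398)) ap)) x398) x2584) (Nat.mul (e (nat_lit 398)) an))
    (Nat.sub (Nat.sub (Nat.add (Nat.add (Nat.add (Nat.add (Nat.add (Nat.add (Nat.add (Nat.add (Nat.add C (Nat.mul x400 (nat_lit 2))) x886) x238) x562) x454) x394) x398) x402) (Nat.mul (e (nat_lit 400)) ap)) x2586) (Nat.mul (e (nat_lit 400)) an))
    (Nat.add (Nat.add (Nat.add (Nat.add (Nat.add (Nat.add C (Nat.mul x402 (nat_lit 3))) x888) x240) x564) x456) x400)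
    (Nat.sub (Nat.sub (Nat.add (Nat.add (Nat.add (Nat.add (Nat.add (Nat.add C x908) x584) x368) x440) x428) (Nat.mul (e (nat_lit 422)) ap)) x2608) (Nat.mul (e (nat_lit 422)) an))
    (Nat.sub (Nat.sub (Nat.sub (Nat.add (Nat.add (Nat.add (Nat.add (Nat.add (Nat.add (Nat.add C x914) x590) x374) x446) x422) x430) (Nat.mul (e (nat_lit 428)) ap)) (Nat.mul x428 (nat_lit 2))) x2614) (Nat.mul (e (nat_lit 428)) an))
    (Nat.sub (Nat.sub (Nat.add (Nat.add (Nat.add (Nat.add (Nat.add (Nat.add C x916) x592) x376) x448) x428) (Nat.mul (e (nat_lit 430)) ap)) x2616) (Nat.mul (e (nat_lit 430)) an))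
    (Nat.sub (Nat.sub (Nat.add (Nat.add (Nat.add (Nat.add (Nat.add (Nat.add C x926) x602) x386) x422) x446) (Nat.mul (e (nat_lit 440)) ap)) x2626) (Nat.mul (e (nat_lit 440)) an))
    (Nat.sub (Nat.sub (Nat.add (Nat.add (Nat.add (Nat.add (Nat.add (Nat.add (Nat.add (Nat.add (Nat.add C x932) x608) x392) x428) x464) x440) x452) x448) (Nat.mul (e (nat_lit 446)) ap)) x2632) (Nat.mul (e (nat_lit 446)) an))
    (Nat.sub (Nat.sub (Nat.add (Nat.add (Nat.add (Nat.add (Nat.add (Nat.add (Nat.add (Nat.add (Nat.add C x448) x934) x610) x394) x430) x466) x454) x446) (Nat.mul (e (nat_lit 448)) ap)) x2634) (Nat.mul (e (nat_lit 448)) an))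
    (Nat.sub (Nat.sub (Nat.sub (Nat.add (Nat.add (Nat.add (Nat.add (Nat.add (Nat.add (Nat.add C x938) x614) x398) x470) x446) x454) (Nat.mul (e (nat_lit 452)) ap)) (Nat.mul x452 (nat_lit 2))) x2638) (Nat.mul (e (nat_lit 452)) an))
    (Nat.sub (Nat.add (Nat.add (Nat.add (Nat.add (Nat.add (Nat.add (Nat.add (Nat.add C x454) x940) x616) x400) x472) x448) x452) x456) x2640)
    (Nat.add (Nat.add (Nat.add (Nat.add (Nat.add (Nat.add C (Nat.mul x456 (nat_lit 2))) x942) x618) x402) x474) x454)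
    (Nat.sub (Nat.sub (Nat.add (Nat.add (Nat.add (Nat.add (Nat.add (Nat.add C x950) x626) x446) x470) x466) (Nat.mul (e (nat_lit 464)) ap)) x2650) (Nat.mul (e (nat_lit 464)) an))
    (Nat.sub (Nat.add (Nat.add (Nat.add (Nat.add (Nat.add C x952) x628) x448) x472) x464) x2652)
    (Nat.sub (Nat.add (Nat.add (Nat.add (Nat.add (Nat.add C x956) x632) x452) x464) x472) x2656)
    (Nat.sub (Nat.add (Nat.add (Nat.add (Nat.add (Nat.add (Nat.add (Nat.add (Nat.add C (Nat.mul x472 (nat_lit 2))) x958) x634) x454) x466) x478) x470) x474) x2658)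
    (Nat.add (Nat.add (Nat.add (Nat.add (Nat.add (Nat.add C (Nat.mul x474 (nat_lit 2))) x960) x636) x456) x480) x472)
    (Nat.sub (Nat.add (Nat.add (Nat.add (Nat.add (Nat.add C (Nat.mul x478 (nat_lit 2))) x964) x640) x472) x480) x2664)
    (Nat.add (Nat.add (Nat.add (Nat.add (Nat.add C (Nat.mul x480 (nat_lit 4))) x966) x642) x474) x478)
    (Nat.sub (Nat.add (Nat.add (Nat.add C x998) x350) x530) x2698)
    (Nat.sub (Nat.sub (Nat.add (Nat.add (Nat.add (Nat.add (Nat.add (Nat.add C x1016) x368) x584) x512) x548) x536) x530) x2716)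
    (Nat.sub (Nat.sub (Nat.sub (Nat.add (Nat.add (Nat.add (Nat.add (Nat.add (Nat.add (Nat.add C x1022) x374) x590) x554) x530) x538) (Nat.mul (e (nat_lit 536)) ap)) (Nat.mul x536 (nat_lit 2))) x2722) (Nat.mul (e (nat_lit 536)) an))
    (Nat.sub (Nat.add (Nat.add (Nat.add (Nat.add (Nat.add C x1024) x376) x592) x556) x536) x2724)
    (Nat.sub (Nat.sub (Nat.sub (Nat.add (Nat.add (Nat.add (Nat.add (Nat.add (Nat.add C x1034) x386) x602) x530) x554) (Nat.mul (e (nat_lit 548)) ap)) (Nat.mul x548 (nat_lit 4))) x2734) (Nat.mul (e (nat_lit 548)) an))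
    (Nat.sub (Nat.sub (Nat.sub (Nat.add (Nat.add (Nat.add (Nat.add (Nat.add (Nat.add (Nat.add (Nat.add C x1040) x392) x608) x536) x548) x560) x556) (Nat.mul (e (nat_lit 554)) ap)) (Nat.mul x554 (nat_lit 3))) x2740) (Nat.mul (e (nat_lit 554)) an))
    (Nat.sub (Nat.sub (Nat.add (Nat.add (Nat.add (Nat.add (Nat.add (Nat.add C x1042) x394) x610) x538) x562) x554) (Nat.mul x556 (nat_lit 2))) x2742)
    (Nat.sub (Nat.sub (Nat.sub (Nat.add (Nat.add (Nat.add (Nat.add (Nat.add (Nat.add C x1046) x398) x614) x554) x562) (Nat.mul (e (nat_lit 560)) ap)) (Nat.mul x560 (nat_lit 4))) x2746) (Nat.mul (e (nat_lit 560)) an))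
    (Nat.sub (Nat.sub (Nat.add (Nat.add (Nat.add (Nat.add (Nat.add (Nat.add C x1048) x400) x616) x556) x560) x564) x562) x2748)
    (Nat.add (Nat.add (Nat.add (Nat.add C x1050) x402) x618) x562)
    (Nat.sub (Nat.add (Nat.add (Nat.add (Nat.add (Nat.add C x1070) x422) x530) x602) x590) x2770)
    (Nat.sub (Nat.sub (Nat.sub (Nat.add (Nat.add (Nat.add (Nat.add (Nat.add (Nat.add (Nat.add C x1076) x428) x536) x608) x584) x592) (Nat.mul (e (nat_lit 590)) ap)) (Nat.mul x590 (nat_lit 2))) x2776) (Nat.mul (e (nat_lit 590)) an))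
    (Nat.sub (Nat.add (Nat.add (Nat.add (Nat.add (Nat.add C x1078) x430) x538) x610) x590) x2778)
    (Nat.sub (Nat.sub (Nat.sub (Nat.add (Nat.add (Nat.add (Nat.add (Nat.add (Nat.add (Nat.add C x1088) x440) x548) x656) x584) x608) (Nat.mul (e (nat_lit 602)) ap)) x602) x2788) (Nat.mul (e (nat_lit 602)) an))
    (Nat.sub (Nat.sub (Nat.sub (Nat.add (Nat.add (Nat.add (Nat.add (Nat.add (Nat.add (Nat.add (Nat.add (Nat.add (Nat.add C x1094) x446) x554) x662) x590) x626) x602) x614) x610) (Nat.mul (e (nat_lit 608)) ap)) x608) x2794) (Nat.mul (e (nat_lit 608)) an))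
    (Nat.sub (Nat.add (Nat.add (Nat.add (Nat.add (Nat.add (Nat.add (Nat.add (Nat.add C x1096) x448) x556) x664) x592) x628) x616) x608) x2796)
    (Nat.sub (Nat.sub (Nat.add (Nat.add (Nat.add (Nat.add (Nat.add (Nat.add (Nat.add C x1100) x452) x560) x668) x632) x608) x616) (Nat.mul x614 (nat_lit 3))) x2800)
    (Nat.sub (Nat.add (Nat.add (Nat.add (Nat.add (Nat.add (Nat.add (Nat.add (Nat.add C x1102) x454) x562) x670) x634) x610) x614) x618) x2802)
    (Nat.add (Nat.add (Nat.add (Nat.add (Nat.add (Nat.add (Nat.add C x618) x1104) x456) x564) x672) x636) x616)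
    (Nat.sub (Nat.sub (Nat.add (Nat.add (Nat.add (Nat.add (Nat.add (Nat.add C x1112) x464) x680) x608) x632) x628) (Nat.mul x626 (nat_lit 2))) x2812)
    (Nat.sub (Nat.sub (Nat.add (Nat.add (Nat.add (Nat.add (Nat.add (Nat.add C x1114) x466) x682) x610) x634) x626) (Nat.mul x628 (nat_lit 2))) x2814)
    (Nat.sub (Nat.sub (Nat.add (Nat.add (Nat.add (Nat.add (Nat.add (Nat.add C x1118) x470) x686) x614) x626) x634) (Nat.mul x632 (nat_lit 2))) x2818)
    (Nat.sub (Nat.add (Nat.add (Nat.add (Nat.add (Nat.add (Nat.add (Nat.add (Nat.add C x1120) x472) x688) x616) x628) x640) x632) x636) x2820)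
    (Nat.add (Nat.add (Nat.add (Nat.add (Nat.add (Nat.add C x1122) x474) x690) x618) x642) x634)
    (Nat.sub (Nat.add (Nat.add (Nat.add (Nat.add (Nat.add C x1126) x478) x694) x634) x642) x2826)
    (Nat.add (Nat.add (Nat.add (Nat.add (Nat.add (Nat.add C (Nat.mul x642 (nat_lit 2))) x1128) x480) x696) x636) x640)
    (Nat.sub (Nat.sub (Nat.add (Nat.add (Nat.add (Nat.add C x1142) x602) x662) (Nat.mul (e (nat_lit 656)) ap)) x2842) (Nat.mul (e (nat_lit 656)) an))
    (Nat.sub (Nat.sub (Nat.add (Nat.add (Nat.add (Nat.add (Nat.add (Nat.add C x1148) x608) x680) x656) x668) x664) x662) x2848)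
    (Nat.sub (Nat.add (Nat.add (Nat.add (Nat.add (Nat.add C x1150) x610) x682) x670) x662) x2850)
    (Nat.sub (Nat.sub (Nat.add (Nat.add (Nat.add (Nat.add (Nat.add C x1154) x614) x686) x662) x670) (Nat.mul x668 (nat_lit 4))) x2854)
    (Nat.sub (Nat.sub (Nat.add (Nat.add (Nat.add (Nat.add (Nat.add (Nat.add C x1156) x616) x688) x664) x668) x672) x670) x2856)
    (Nat.add (Nat.add (Nat.add (Nat.add C x1158) x618) x690) x670)
    (Nat.sub (Nat.add (Nat.add (Nat.add (Nat.add (Nat.add C x1166) x626) x662) x686) x682) x2866)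
    (Nat.sub (Nat.add (Nat.add (Nat.add (Nat.add (Nat.add C x1168) x628) x664) x688) x680) x2868)
    (Nat.sub (Nat.sub (Nat.add (Nat.add (Nat.add (Nat.add (Nat.add (Nat.add C x1172) x632) x668) x704) x680) x688) x686) x2872)
    (Nat.sub (Nat.add (Nat.add (Nat.add (Nat.add (Nat.add (Nat.add (Nat.add (Nat.add (Nat.add C x688) x1174) x634) x670) x706) x682) x694) x686) x690) x2874)
    (Nat.add (Nat.add (Nat.add (Nat.add (Nat.add (Nat.add (Nat.add C x690) x1176) x636) x672) x708) x696) x688)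
    (Nat.sub (Nat.add (Nat.add (Nat.add (Nat.add (Nat.add C x1180) x640) x712) x688) x696) x2880)
    (Nat.add (Nat.add (Nat.add (Nat.add (Nat.add (Nat.add C (Nat.mul x696 (nat_lit 2))) x1182) x642) x714) x690) x694)
    (Nat.sub (Nat.add (Nat.add (Nat.add C x1190) x686) x706) x2890)
    (Nat.sub (Nat.add (Nat.add (Nat.add (Nat.add (Nat.add (Nat.add C x706) x1192) x688) x712) x704) x708) x2892)
    (Nat.add (Nat.add (Nat.add (Nat.add C x1194) x690) x714) x706)
    (Nat.sub (Nat.add (Nat.add (Nat.add (Nat.add (Nat.add C (Nat.mul x712 (nat_lit 2))) x1198) x694) x706) x714) x2898)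
    (Nat.add (Nat.add (Nat.add (Nat.add (Nat.add (Nat.add C (Nat.mul x714 (nat_lit 3))) x1200) x696) x708) x720) x712)
    (Nat.add (Nat.add (Nat.add C (Nat.mul x720 (nat_lit 4))) x1206) x714)
    (Nat.sub (Nat.add (Nat.add (Nat.add (Nat.add (Nat.add C (Nat.mul x782 (nat_lit 2))) x2240) x296) x836) x800) x2968)
    (Nat.sub (Nat.add (Nat.add (Nat.add (Nat.add (Nat.add C x2258) x314) x854) x782) x806) x2986)
    (Nat.sub (Nat.add (Nat.add (Nat.add (Nat.add (Nat.add C x2264) x320) x860) x800) x808) x2992)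
    (Nat.sub (Nat.add (Nat.add (Nat.add (Nat.add (Nat.add C (Nat.mul x808 (nat_lit 2))) x2266) x322) x862) x806) x2994)
    (Nat.sub (Nat.add (Nat.add (Nat.add (Nat.add (Nat.add C x2294) x350) x998) x782) x854) x3022)
    (Nat.sub (Nat.add (Nat.add (Nat.add (Nat.add (Nat.add (Nat.add (Nat.add (Nat.add C x2312) x368) x1016) x800) x908) x836) x872) x860) x3040)
    (Nat.sub (Nat.sub (Nat.sub (Nat.add (Nat.add (Nat.add (Nat.add (Nat.add (Nat.add (Nat.add (Nat.add (Nat.add C x2318) x374) x1022) x806) x914) x878) x854) x862) (Nat.mul (e (nat_lit 860)) ap)) x860) x3046) (Nat.mul (e (nat_lit 860)) an))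
    (Nat.sub (Nat.add (Nat.add (Nat.add (Nat.add (Nat.add (Nat.add (Nat.add (Nat.add C x862) x2320) x376) x1024) x808) x916) x880) x860) x3048)
    (Nat.sub (Nat.sub (Nat.add (Nat.add (Nat.add (Nat.add (Nat.add (Nat.add C x2330) x386) x1034) x926) x854) x878) (Nat.mul x872 (nat_lit 2))) x3058)
    (Nat.sub (Nat.sub (Nat.sub (Nat.add (Nat.add (Nat.add (Nat.add (Nat.add (Nat.add (Nat.add (Nat.add (Nat.add C x2336) x392) x1040) x932) x860) x872) x884) x880) (Nat.mul (e (nat_lit 878)) ap)) x878) x3064) (Nat.mul (e (nat_lit 878)) an))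
    (Nat.sub (Nat.sub (Nat.add (Nat.add (Nat.add (Nat.add (Nat.add (Nat.add (Nat.add (Nat.add C x2338) x394) x1042) x934) x862) x886) x878) (Nat.mul (e (nat_lit 880)) ap)) x3066) (Nat.mul (e (nat_lit 880)) an))
    (Nat.sub (Nat.sub (Nat.add (Nat.add (Nat.add (Nat.add (Nat.add (Nat.add C x2342) x398) x1046) x938) x878) x886) (Nat.mul x884 (nat_lit 2))) x3070)
    (Nat.sub (Nat.add (Nat.add (Nat.add (Nat.add (Nat.add (Nat.add (Nat.add (Nat.add C x886) x2344) x400) x1048) x940) x880) x884) x888) x3072)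
    (Nat.add (Nat.add (Nat.add (Nat.add (Nat.add (Nat.add C (Nat.mul x888 (nat_lit 2))) x2346) x402) x1050) x942) x886)
    (Nat.sub (Nat.sub (Nat.add (Nat.add (Nat.add (Nat.add (Nat.add (Nat.add C x2366) x422) x1070) x854) x926) x914) (Nat.mul x908 (nat_lit 2))) x3094)
    (Nat.sub (Nat.sub (Nat.sub (Nat.add (Nat.add (Nat.add (Nat.add (Nat.add (Nat.add (Nat.add (Nat.add C x2372) x428) x1076) x860) x932) x908) x916) (Nat.mul (e (nat_lit 914)) ap)) (Nat.mul x914 (nat_lit 4))) x3100) (Nat.mul (e (nat_lit 914)) an))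
    (Nat.sub (Nat.sub (Nat.add (Nat.add (Nat.add (Nat.add (Nat.add (Nat.add C x2374) x430) x1078) x862) x934) x914) (Nat.mul x916 (nat_lit 2))) x3102)
    (Nat.sub (Nat.sub (Nat.add (Nat.add (Nat.add (Nat.add (Nat.add (Nat.add C x2384) x440) x1088) x872) x908) x932) (Nat.mul x926 (nat_lit 2))) x3112)
    (Nat.sub (Nat.sub (Nat.sub (Nat.add (Nat.add (Nat.add (Nat.add (Nat.add (Nat.add (Nat.add (Nat.add (Nat.add (Nat.add C x2390) x446) x1094) x878) x914) x950) x926) x938) x934) (Nat.mul (e (nat_lit 932)) ap)) (Nat.mul x932 (nat_lit 2))) x3118) (Nat.mul (e (nat_lit 932)) an))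
    (Nat.sub (Nat.sub (Nat.add (Nat.add (Nat.add (Nat.add (Nat.add (Nat.add (Nat.add (Nat.add C x2392) x448) x1096) x880) x916) x952) x940) x932) x934) x3120)
    (Nat.sub (Nat.sub (Nat.add (Nat.add (Nat.add (Nat.add (Nat.add (Nat.add (Nat.add C x2396) x452) x1100) x884) x956) x932) x940) (Nat.mul x938 (nat_lit 4))) x3124)
    (Nat.sub (Nat.sub (Nat.add (Nat.add (Nat.add (Nat.add (Nat.add (Nat.add (Nat.add (Nat.add C x2398) x454) x1102) x886) x958) x934) x938) x942) x940) x3126)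
    (Nat.add (Nat.add (Nat.add (Nat.add (Nat.add (Nat.add C x2400) x456) x1104) x888) x960) x940)
    (Nat.sub (Nat.sub (Nat.add (Nat.add (Nat.add (Nat.add (Nat.add (Nat.add C x2408) x464) x1112) x932) x956) x952) (Nat.mul x950 (nat_lit 2))) x3136)
    (Nat.sub (Nat.sub (Nat.add (Nat.add (Nat.add (Nat.add (Nat.add (Nat.add C x2410) x466) x1114) x934) x958) x950) (Nat.mul x952 (nat_lit 2))) x3138)
    (Nat.sub (Nat.sub (Nat.add (Nat.add (Nat.add (Nat.add (Nat.add (Nat.add C x2414) x470) x1118) x938) x950) x958) (Nat.mul x956 (nat_lit 2))) x3142)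
    (Nat.sub (Nat.add (Nat.add (Nat.add (Nat.add (Nat.add (Nat.add (Nat.add (Nat.add C x2416) x472) x1120) x940) x952) x964) x956) x960) x3144)
    (Nat.add (Nat.add (Nat.add (Nat.add (Nat.add (Nat.add C x2418) x474) x1122) x942) x966) x958)
    (Nat.sub (Nat.add (Nat.add (Nat.add (Nat.add (Nat.add C x2422) x478) x1126) x958) x966) x3150)
    (Nat.add (Nat.add (Nat.add (Nat.add (Nat.add (Nat.add C (Nat.mul x966 (nat_lit 2))) x2424) x480) x1128) x960) x964)
    (Nat.sub (Nat.add (Nat.add (Nat.add (Nat.add (Nat.add (Nat.add C x998) x2456) x512) x1484) x836) x1016) x3184)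
    (Nat.sub (Nat.add (Nat.add (Nat.add (Nat.add (Nat.add (Nat.add (Nat.add (Nat.add C x2474) x530) x1502) x854) x1070) x998) x1034) x1022) x3202)
    (Nat.sub (Nat.sub (Nat.add (Nat.add (Nat.add (Nat.add (Nat.add (Nat.add (Nat.add (Nat.add C x2480) x536) x1508) x860) x1076) x1040) x1016) x1024) x1022) x3208)
    (Nat.sub (Nat.add (Nat.add (Nat.add (Nat.add (Nat.add (Nat.add (Nat.add (Nat.add C x1024) x2482) x538) x1510) x862) x1078) x1042) x1022) x3210)
    (Nat.sub (Nat.sub (Nat.add (Nat.add (Nat.add (Nat.add (Nat.add (Nat.add (Nat.add C x2492) x548) x1520) x872) x1088) x1016) x1040) (Nat.mul x1034 (nat_lit 3))) x3220)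
    (Nat.sub (Nat.sub (Nat.sub (Nat.add (Nat.add (Nat.add (Nat.add (Nat.add (Nat.add (Nat.add (Nat.add (Nat.add (Nat.add C x2498) x554) x1526) x878) x1094) x1022) x1034) x1046) x1042) (Nat.mul (e (nat_lit 1040)) ap)) (Nat.mul x1040 (nat_lit 2))) x3226) (Nat.mul (e (nat_lit 1040)) an))
    (Nat.sub (Nat.sub (Nat.add (Nat.add (Nat.add (Nat.add (Nat.add (Nat.add (Nat.add (Nat.add C x2500) x556) x1528) x880) x1096) x1024) x1048) x1040) x1042) x3228)
    (Nat.sub (Nat.sub (Nat.add (Nat.add (Nat.add (Nat.add (Nat.add (Nat.add (Nat.add C x2504) x560) x1532) x884) x1100) x1040) x1048) (Nat.mul x1046 (nat_lit 3))) x3232)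
    (Nat.sub (Nat.add (Nat.add (Nat.add (Nat.add (Nat.add (Nat.add (Nat.add (Nat.add C x2506) x562) x1534) x886) x1102) x1042) x1046) x1050) x3234)
    (Nat.add (Nat.add (Nat.add (Nat.add (Nat.add (Nat.add (Nat.add C x1050) x2508) x564) x1536) x888) x1104) x1048)
    (Nat.sub (Nat.add (Nat.add (Nat.add (Nat.add (Nat.add (Nat.add (Nat.add (Nat.add C x2528) x584) x1556) x908) x1232) x1016) x1088) x1076) x3256)
    (Nat.sub (Nat.sub (Nat.add (Nat.add (Nat.add (Nat.add (Nat.add (Nat.add (Nat.add (Nat.add (Nat.add C x2534) x590) x1562) x914) x1238) x1022) x1094) x1070) x1078) (Nat.mul x1076 (nat_lit 2))) x3262)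
    (Nat.sub (Nat.add (Nat.add (Nat.add (Nat.add (Nat.add (Nat.add (Nat.add (Nat.add C x2536) x592) x1564) x916) x1240) x1024) x1096) x1076) x3264)
    (Nat.sub (Nat.sub (Nat.add (Nat.add (Nat.add (Nat.add (Nat.add (Nat.add (Nat.add (Nat.add (Nat.add C x2546) x602) x1574) x926) x1250) x1034) x1142) x1070) x1094) x1088) x3274)
    (Nat.sub (Nat.sub (Nat.sub (Nat.add (Nat.add (Nat.add (Nat.add (Nat.add (Nat.add (Nat.add (Nat.add (Nat.add (Nat.add (Nat.add (Nat.add (Nat.add C x2552) x608) x1580) x932) x1256) x1040) x1148) x1076) x1112) x1088) x1100) x1096) (Nat.mul (e (nat_lit 1094)) ap)) x1094) x3280) (Nat.mul (e (nat_lit 1094)) an))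
    (Nat.sub (Nat.sub (Nat.add (Nat.add (Nat.add (Nat.add (Nat.add (Nat.add (Nat.add (Nat.add (Nat.add (Nat.add (Nat.add (Nat.add C x2554) x610) x1582) x934) x1258) x1042) x1150) x1078) x1114) x1102) x1094) (Nat.mul (e (nat_lit 1096)) ap)) x3282) (Nat.mul (e (nat_lit 1096)) an))
    (Nat.sub (Nat.sub (Nat.sub (Nat.add (Nat.add (Nat.add (Nat.add (Nat.add (Nat.add (Nat.add (Nat.add (Nat.add (Nat.add (Nat.add C x2558) x614) x1586) x938) x1262) x1046) x1154) x1118) x1094) x1102) (Nat.mul (e (nat_lit 1100)) ap)) (Nat.mul x1100 (nat_lit 3))) x3286) (Nat.mul (e (nat_lit 1100)) an))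
    (Nat.sub (Nat.sub (Nat.add (Nat.add (Nat.add (Nat.add (Nat.add (Nat.add (Nat.add (Nat.add (Nat.add (Nat.add (Nat.add (Nat.add C x2560) x616) x1588) x940) x1264) x1048) x1156) x1120) x1096) x1100) x1104) (Nat.mul (e (nat_lit 1102)) ap)) x3288) (Nat.mul (e (nat_lit 1102)) an))
    (Nat.add (Nat.add (Nat.add (Nat.add (Nat.add (Nat.add (Nat.add (Nat.add (Nat.add (Nat.add C x1104) x2562) x618) x1590) x942) x1266) x1050) x1158) x1122) x1102)
    (Nat.sub (Nat.sub (Nat.sub (Nat.add (Nat.add (Nat.add (Nat.add (Nat.add (Nat.add (Nat.add (Nat.add (Nat.add (Nat.add C x2570) x626) x1598) x950) x1274) x1166) x1094) x1118) x1114) (Nat.mul (e (nat_lit 1112)) ap)) (Nat.mul x1112 (nat_lit 2))) x3298) (Nat.mul (e (nat_lit 1112)) an))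
    (Nat.sub (Nat.sub (Nat.sub (Nat.add (Nat.add (Nat.add (Nat.add (Nat.add (Nat.add (Nat.add (Nat.add (Nat.add (Nat.add C x2572) x628) x1600) x952) x1276) x1168) x1096) x1120) x1112) (Nat.mul (e (nat_lit 1114)) ap)) (Nat.mul x1114 (nat_lit 2))) x3300) (Nat.mul (e (nat_lit 1114)) an))
    (Nat.sub (Nat.sub (Nat.add (Nat.add (Nat.add (Nat.add (Nat.add (Nat.add (Nat.add (Nat.add (Nat.add C x2576) x632) x1604) x956) x1280) x1172) x1100) x1112) x1120) (Nat.mul x1118 (nat_lit 2))) x3304)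
    (Nat.sub (Nat.sub (Nat.add (Nat.add (Nat.add (Nat.add (Nat.add (Nat.add (Nat.add (Nat.add (Nat.add (Nat.add (Nat.add (Nat.add C x2578) x634) x1606) x958) x1282) x1174) x1102) x1114) x1126) x1118) x1122) (Nat.mul (e (nat_lit 1120)) ap)) x3306) (Nat.mul (e (nat_lit 1120)) an))
    (Nat.add (Nat.add (Nat.add (Nat.add (Nat.add (Nat.add (Nat.add (Nat.add (Nat.add C x2580) x636) x1608) x960) x1284) x1176) x1104) x1128) x1120)
    (Nat.sub (Nat.add (Nat.add (Nat.add (Nat.add (Nat.add (Nat.add (Nat.add (Nat.add C x2584) x640) x1612) x964) x1288) x1180) x1120) x1128) x3312)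
    (Nat.add (Nat.add (Nat.add (Nat.add (Nat.add (Nat.add (Nat.add (Nat.add (Nat.add C (Nat.mul x1128 (nat_lit 2))) x2586) x642) x1614) x966) x1290) x1182) x1122) x1126)
    (Nat.sub (Nat.sub (Nat.add (Nat.add (Nat.add (Nat.add (Nat.add (Nat.add C x2600) x656) x1628) x1304) x1088) x1148) x1142) x3328)
    (Nat.sub (Nat.sub (Nat.sub (Nat.add (Nat.add (Nat.add (Nat.add (Nat.add (Nat.add (Nat.add (Nat.add (Nat.add (Nat.add C x2606) x662) x1634) x1310) x1094) x1166) x1142) x1154) x1150) (Nat.mul (e (nat_lit 1148)) ap)) (Nat.mul x1148 (nat_lit 2))) x3334) (Nat.mul (e (nat_lit 1148)) an))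
    (Nat.sub (Nat.sub (Nat.sub (Nat.add (Nat.add (Nat.add (Nat.add (Nat.add (Nat.add (Nat.add (Nat.add (Nat.add C x2608) x664) x1636) x1312) x1096) x1168) x1156) x1148) (Nat.mul (e (nat_lit 1150)) ap)) x1150) x3336) (Nat.mul (e (nat_lit 1150)) an))
    (Nat.sub (Nat.sub (Nat.sub (Nat.add (Nat.add (Nat.add (Nat.add (Nat.add (Nat.add (Nat.add (Nat.add (Nat.add C x2612) x668) x1640) x1316) x1100) x1172) x1148) x1156) (Nat.mul (e (nat_lit 1154)) ap)) (Nat.mul x1154 (nat_lit 5))) x3340) (Nat.mul (e (nat_lit 1154)) an))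
    (Nat.sub (Nat.sub (Nat.sub (Nat.add (Nat.add (Nat.add (Nat.add (Nat.add (Nat.add (Nat.add (Nat.add (Nat.add (Nat.add C x2614) x670) x1642) x1318) x1102) x1174) x1150) x1154) x1158) (Nat.mul (e (nat_lit 1156)) ap)) (Nat.mul x1156 (nat_lit 2))) x3342) (Nat.mul (e (nat_lit 1156)) an))
    (Nat.sub (Nat.add (Nat.add (Nat.add (Nat.add (Nat.add (Nat.add (Nat.add C x2616) x672) x1644) x1320) x1104) x1176) x1156) x1158)
    (Nat.sub (Nat.sub (Nat.add (Nat.add (Nat.add (Nat.add (Nat.add (Nat.add (Nat.add (Nat.add C x2624) x680) x1652) x1328) x1112) x1148) x1172) x1168) x1166) x3352)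
    (Nat.sub (Nat.sub (Nat.sub (Nat.add (Nat.add (Nat.add (Nat.add (Nat.add (Nat.add (Nat.add (Nat.add (Nat.add C x2626) x682) x1654) x1330) x1114) x1150) x1174) x1166) (Nat.mul (e (nat_lit 1168)) ap)) x1168) x3354) (Nat.mul (e (nat_lit 1168)) an))
    (Nat.sub (Nat.sub (Nat.add (Nat.add (Nat.add (Nat.add (Nat.add (Nat.add (Nat.add (Nat.add (Nat.add C x2630) x686) x1658) x1334) x1118) x1154) x1190) x1166) x1174) (Nat.mul x1172 (nat_lit 2))) x3358)
    (Nat.sub (Nat.add (Nat.add (Nat.add (Nat.add (Nat.add (Nat.add (Nat.add (Nat.add (Nat.add (Nat.add (Nat.add C x2632) x688) x1660) x1336) x1120) x1156) x1192) x1168) x1180) x1172) x1176) x3360)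
    (Nat.add (Nat.add (Nat.add (Nat.add (Nat.add (Nat.add (Nat.add (Nat.add (Nat.add C x2634) x690) x1662) x1338) x1122) x1158) x1194) x1182) x1174)
    (Nat.sub (Nat.sub (Nat.add (Nat.add (Nat.add (Nat.add (Nat.add (Nat.add (Nat.add (Nat.add C x2638) x694) x1666) x1342) x1126) x1198) x1174) x1182) x1180) x3366)
    (Nat.add (Nat.add (Nat.add (Nat.add (Nat.add (Nat.add (Nat.add (Nat.add (Nat.add C x1182) x2640) x696) x1668) x1344) x1128) x1200) x1176) x1180)
    (Nat.sub (Nat.sub (Nat.add (Nat.add (Nat.add (Nat.add (Nat.add (Nat.add C x2648) x704) x1676) x1352) x1172) x1192) x1190) x3376)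
    (Nat.sub (Nat.add (Nat.add (Nat.add (Nat.add (Nat.add (Nat.add (Nat.add (Nat.add C x2650) x706) x1678) x1354) x1174) x1198) x1190) x1194) x3378)
    (Nat.sub (Nat.add (Nat.add (Nat.add (Nat.add (Nat.add (Nat.add (Nat.add C x2652) x708) x1680) x1356) x1176) x1200) x1192) x1194)
    (Nat.sub (Nat.add (Nat.add (Nat.add (Nat.add (Nat.add (Nat.add (Nat.add (Nat.add C x1198) x2656) x712) x1684) x1360) x1180) x1192) x1200) x3384)
    (Nat.add (Nat.add (Nat.add (Nat.add (Nat.add (Nat.add (Nat.add (Nat.add (Nat.add C (Nat.mul x1200 (nat_lit 2))) x2658) x714) x1686) x1362) x1182) x1194) x1206) x1198)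
    (Nat.add (Nat.add (Nat.add (Nat.add (Nat.add (Nat.add C (Nat.mul x1206 (nat_lit 3))) x2664) x720) x1692) x1368) x1200)
    (Nat.sub (Nat.add (Nat.add (Nat.add (Nat.add (Nat.add C x2690) x1718) x1070) x1250) x1238) x3418)
    (Nat.sub (Nat.sub (Nat.add (Nat.add (Nat.add (Nat.add (Nat.add (Nat.add C x2696) x1724) x1076) x1256) x1232) x1240) (Nat.mul x1238 (nat_lit 2))) x3424)
    (Nat.sub (Nat.add (Nat.add (Nat.add (Nat.add (Nat.add C x2698) x1726) x1078) x1258) x1238) x3426)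
    (Nat.sub (Nat.sub (Nat.add (Nat.add (Nat.add (Nat.add (Nat.add (Nat.add C x2708) x1736) x1088) x1304) x1232) x1256) (Nat.mul x1250 (nat_lit 2))) x3436)
    (Nat.sub (Nat.sub (Nat.add (Nat.add (Nat.add (Nat.add (Nat.add (Nat.add (Nat.add (Nat.add (Nat.add C x2714) x1742) x1094) x1310) x1238) x1274) x1250) x1262) x1258) (Nat.mul x1256 (nat_lit 2))) x3442)
    (Nat.sub (Nat.sub (Nat.add (Nat.add (Nat.add (Nat.add (Nat.add (Nat.add (Nat.add (Nat.add C x2716) x1744) x1096) x1312) x1240) x1276) x1264) x1256) x1258) x3444)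
    (Nat.sub (Nat.sub (Nat.sub (Nat.add (Nat.add (Nat.add (Nat.add (Nat.add (Nat.add (Nat.add (Nat.add C x2720) x1748) x1100) x1316) x1280) x1256) x1264) (Nat.mul (e (nat_lit 1262)) ap)) (Nat.mul x1262 (nat_lit 4))) x3448) (Nat.mul (e (nat_lit 1262)) an))
    (Nat.sub (Nat.sub (Nat.add (Nat.add (Nat.add (Nat.add (Nat.add (Nat.add (Nat.add (Nat.add C x2722) x1750) x1102) x1318) x1282) x1258) x1262) x1266) x1264) x3450)
    (Nat.add (Nat.add (Nat.add (Nat.add (Nat.add (Nat.add C x2724) x1752) x1104) x1320) x1284) x1264)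
    (Nat.sub (Nat.sub (Nat.add (Nat.add (Nat.add (Nat.add (Nat.add (Nat.add (Nat.add C x2732) x1760) x1112) x1328) x1256) x1280) x1276) (Nat.mul x1274 (nat_lit 4))) x3460)
    (Nat.sub (Nat.sub (Nat.sub (Nat.add (Nat.add (Nat.add (Nat.add (Nat.add (Nat.add (Nat.add (Nat.add C x2734) x1762) x1114) x1330) x1258) x1282) x1274) (Nat.mul (e (nat_lit 1276)) ap)) (Nat.mul x1276 (nat_lit 4))) x3462) (Nat.mul (e (nat_lit 1276)) an))
    (Nat.sub (Nat.sub (Nat.sub (Nat.add (Nat.add (Nat.add (Nat.add (Nat.add (Nat.add (Nat.add (Nat.add C x2738) x1766) x1118) x1334) x1262) x1274) x1282) (Nat.mul (e (nat_lit 1280)) ap)) (Nat.mul x1280 (nat_lit 4))) x3466) (Nat.mul (e (nat_lit 1280)) an))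
    (Nat.sub (Nat.sub (Nat.add (Nat.add (Nat.add (Nat.add (Nat.add (Nat.add (Nat.add (Nat.add (Nat.add C x2740) x1768) x1120) x1336) x1264) x1276) x1288) x1280) x1284) (Nat.mul x1282 (nat_lit 2))) x3468)
    (Nat.sub (Nat.add (Nat.add (Nat.add (Nat.add (Nat.add (Nat.add (Nat.add C x2742) x1770) x1122) x1338) x1266) x1290) x1282) (Nat.mul x1284 (nat_lit 2)))
    (Nat.sub (Nat.sub (Nat.add (Nat.add (Nat.add (Nat.add (Nat.add (Nat.add C x2746) x1774) x1126) x1342) x1282) x1290) (Nat.mul x1288 (nat_lit 2))) x3474)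
    (Nat.add (Nat.add (Nat.add (Nat.add (Nat.add (Nat.add C x2748) x1776) x1128) x1344) x1284) x1288)
    (Nat.sub (Nat.add (Nat.add (Nat.add (Nat.add (Nat.add C x2762) x1790) x1142) x1250) x1310) x3490)
    (Nat.sub (Nat.sub (Nat.add (Nat.add (Nat.add (Nat.add (Nat.add (Nat.add (Nat.add (Nat.add C x2768) x1796) x1148) x1256) x1328) x1304) x1316) x1312) x1310) x3496)
    (Nat.sub (Nat.sub (Nat.add (Nat.add (Nat.add (Nat.add (Nat.add (Nat.add (Nat.add (Nat.add C x2770) x1798) x1150) x1258) x1330) x1318) x1310) (Nat.mul (e (nat_lit 1312)) ap)) x3498) (Nat.mul (e (nat_lit 1312)) an))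
    (Nat.sub (Nat.sub (Nat.add (Nat.add (Nat.add (Nat.add (Nat.add (Nat.add (Nat.add C x2774) x1802) x1154) x1262) x1334) x1310) x1318) (Nat.mul x1316 (nat_lit 4))) x3502)
    (Nat.sub (Nat.sub (Nat.add (Nat.add (Nat.add (Nat.add (Nat.add (Nat.add (Nat.add (Nat.add C x2776) x1804) x1156) x1264) x1336) x1312) x1316) x1320) x1318) x3504)
    (Nat.add (Nat.add (Nat.add (Nat.add (Nat.add (Nat.add C x2778) x1806) x1158) x1266) x1338) x1318)
    (Nat.sub (Nat.sub (Nat.add (Nat.add (Nat.add (Nat.add (Nat.add (Nat.add (Nat.add (Nat.add C x2786) x1814) x1166) x1274) x1382) x1310) x1334) x1330) x1328) x3514)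
    (Nat.sub (Nat.sub (Nat.add (Nat.add (Nat.add (Nat.add (Nat.add (Nat.add (Nat.add (Nat.add C x2788) x1816) x1168) x1276) x1384) x1312) x1336) x1328) x1330) x3516)
    (Nat.sub (Nat.sub (Nat.add (Nat.add (Nat.add (Nat.add (Nat.add (Nat.add (Nat.add (Nat.add (Nat.add C x2792) x1820) x1172) x1280) x1388) x1316) x1352) x1328) x1336) (Nat.mul x1334 (nat_lit 2))) x3520)
    (Nat.sub (Nat.add (Nat.add (Nat.add (Nat.add (Nat.add (Nat.add (Nat.add (Nat.add (Nat.add (Nat.add (Nat.add C x2794) x1822) x1174) x1282) x1390) x1318) x1354) x1330) x1342) x1334) x1338) x3522)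
    (Nat.add (Nat.add (Nat.add (Nat.add (Nat.add (Nat.add (Nat.add (Nat.add (Nat.add C x2796) x1824) x1176) x1284) x1392) x1320) x1356) x1344) x1336)
    (Nat.sub (Nat.sub (Nat.add (Nat.add (Nat.add (Nat.add (Nat.add (Nat.add (Nat.add (Nat.add C x2800) x1828) x1180) x1288) x1396) x1360) x1336) x1344) x1342) x3528)
    (Nat.add (Nat.add (Nat.add (Nat.add (Nat.add (Nat.add (Nat.add (Nat.add (Nat.add C x1344) x2802) x1830) x1182) x1290) x1398) x1362) x1338) x1342)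
    (Nat.sub (Nat.sub (Nat.add (Nat.add (Nat.add (Nat.add (Nat.add (Nat.add C x2810) x1838) x1190) x1406) x1334) x1354) (Nat.mul x1352 (nat_lit 2))) x3538)
    (Nat.sub (Nat.sub (Nat.add (Nat.add (Nat.add (Nat.add (Nat.add (Nat.add (Nat.add (Nat.add C x2812) x1840) x1192) x1408) x1336) x1360) x1352) x1356) x1354) x3540)
    (Nat.sub (Nat.add (Nat.add (Nat.add (Nat.add (Nat.add (Nat.add (Nat.add C x2814) x1842) x1194) x1410) x1338) x1362) x1354) (Nat.mul x1356 (nat_lit 2)))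
    (Nat.sub (Nat.add (Nat.add (Nat.add (Nat.add (Nat.add (Nat.add (Nat.add C x2818) x1846) x1198) x1414) x1342) x1354) x1362) x3546)
    (Nat.add (Nat.add (Nat.add (Nat.add (Nat.add (Nat.add (Nat.add (Nat.add (Nat.add C x1362) x2820) x1848) x1200) x1416) x1344) x1356) x1368) x1360)
    (Nat.add (Nat.add (Nat.add (Nat.add (Nat.add (Nat.add C (Nat.mul x1368 (nat_lit 2))) x2826) x1854) x1206) x1422) x1362)
    (Nat.sub (Nat.add (Nat.add (Nat.add (Nat.add (Nat.add C x2840) x1868) x1328) x1388) x1384) x3568)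
    (Nat.sub (Nat.add (Nat.add (Nat.add (Nat.add (Nat.add C x2842) x1870) x1330) x1390) x1382) x3570)
    (Nat.sub (Nat.sub (Nat.add (Nat.add (Nat.add (Nat.add (Nat.add (Nat.add C x2846) x1874) x1334) x1406) x1382) x1390) (Nat.mul x1388 (nat_lit 2))) x3574)
    (Nat.sub (Nat.add (Nat.add (Nat.add (Nat.add (Nat.add (Nat.add (Nat.add (Nat.add C x2848) x1876) x1336) x1408) x1384) x1396) x1388) x1392) x3576)
    (Nat.add (Nat.add (Nat.add (Nat.add (Nat.add (Nat.add C x2850) x1878) x1338) x1410) x1398) x1390)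
    (Nat.sub (Nat.sub (Nat.add (Nat.add (Nat.add (Nat.add (Nat.add (Nat.add C x2854) x1882) x1342) x1414) x1390) x1398) (Nat.mul x1396 (nat_lit 2))) x3582)
    (Nat.add (Nat.add (Nat.add (Nat.add (Nat.add (Nat.add C x2856) x1884) x1344) x1416) x1392) x1396)
    (Nat.sub (Nat.add (Nat.add (Nat.add (Nat.add (Nat.add C x2864) x1892) x1352) x1388) x1408) x3592)
    (Nat.sub (Nat.add (Nat.add (Nat.add (Nat.add (Nat.add (Nat.add (Nat.add (Nat.add C x1408) x2866) x1894) x1354) x1390) x1414) x1406) x1410) x3594)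
    (Nat.add (Nat.add (Nat.add (Nat.add (Nat.add (Nat.add C x2868) x1896) x1356) x1392) x1416) x1408)
    (Nat.sub (Nat.add (Nat.add (Nat.add (Nat.add (Nat.add (Nat.add (Nat.add (Nat.add C x1414) x2872) x1900) x1360) x1396) x1432) x1408) x1416) x3600)
    (Nat.add (Nat.add (Nat.add (Nat.add (Nat.add (Nat.add (Nat.add (Nat.add (Nat.add C (Nat.mul x1416 (nat_lit 2))) x2874) x1902) x1362) x1398) x1434) x1410) x1422) x1414)
    (Nat.add (Nat.add (Nat.add (Nat.add (Nat.add (Nat.add C (Nat.mul x1422 (nat_lit 2))) x2880) x1908) x1368) x1440) x1416)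
    (Nat.sub (Nat.add (Nat.add (Nat.add (Nat.add (Nat.add C (Nat.mul x1432 (nat_lit 2))) x2890) x1918) x1414) x1434) x3618)
    (Nat.add (Nat.add (Nat.add (Nat.add (Nat.add (Nat.add C (Nat.mul x1434 (nat_lit 2))) x2892) x1920) x1416) x1440) x1432)
    (Nat.add (Nat.add (Nat.add (Nat.add (Nat.add C (Nat.mul x1440 (nat_lit 4))) x2898) x1926) x1422) x1434)
    (Nat.sub (Nat.add (Nat.add (Nat.add C x2942) x998) x1502) x3670)
    (Nat.sub (Nat.sub (Nat.add (Nat.add (Nat.add (Nat.add (Nat.add (Nat.add C x2960) x1016) x1556) x1484) x1520) x1508) x1502) x3688)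
    (Nat.sub (Nat.sub (Nat.add (Nat.add (Nat.add (Nat.add (Nat.add (Nat.add C x2966) x1022) x1562) x1526) x1502) x1510) (Nat.mul x1508 (nat_lit 2))) x3694)
    (Nat.sub (Nat.add (Nat.add (Nat.add (Nat.add (Nat.add C x2968) x1024) x1564) x1528) x1508) x3696)
    (Nat.sub (Nat.sub (Nat.add (Nat.add (Nat.add (Nat.add (Nat.add C x2978) x1034) x1574) x1502) x1526) (Nat.mul x1520 (nat_lit 4))) x3706)
    (Nat.sub (Nat.sub (Nat.add (Nat.add (Nat.add (Nat.add (Nat.add (Nat.add (Nat.add C x2984) x1040) x1580) x1508) x1520) x1532) x1528) (Nat.mul x1526 (nat_lit 3))) x3712)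
    (Nat.sub (Nat.sub (Nat.add (Nat.add (Nat.add (Nat.add (Nat.add (Nat.add C x2986) x1042) x1582) x1510) x1534) x1526) (Nat.mul x1528 (nat_lit 2))) x3714)
    (Nat.sub (Nat.sub (Nat.add (Nat.add (Nat.add (Nat.add (Nat.add C x2990) x1046) x1586) x1526) x1534) (Nat.mul x1532 (nat_lit 4))) x3718)
    (Nat.sub (Nat.sub (Nat.add (Nat.add (Nat.add (Nat.add (Nat.add (Nat.add C x2992) x1048) x1588) x1528) x1532) x1536) x1534) x3720)
    (Nat.add (Nat.add (Nat.add (Nat.add C x2994) x1050) x1590) x1534)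
    (Nat.sub (Nat.sub (Nat.add (Nat.add (Nat.add (Nat.add (Nat.add (Nat.add C x3014) x1070) x1718) x1502) x1574) x1562) (Nat.mul x1556 (nat_lit 2))) x3742)
    (Nat.sub (Nat.sub (Nat.add (Nat.add (Nat.add (Nat.add (Nat.add (Nat.add (Nat.add C x3020) x1076) x1724) x1508) x1580) x1556) x1564) (Nat.mul x1562 (nat_lit 4))) x3748)
    (Nat.sub (Nat.sub (Nat.add (Nat.add (Nat.add (Nat.add (Nat.add (Nat.add C x3022) x1078) x1726) x1510) x1582) x1562) (Nat.mul x1564 (nat_lit 2))) x3750)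
    (Nat.sub (Nat.sub (Nat.add (Nat.add (Nat.add (Nat.add (Nat.add (Nat.add (Nat.add C x3032) x1088) x1736) x1520) x1628) x1556) x1580) (Nat.mul x1574 (nat_lit 3))) x3760)
    (Nat.sub (Nat.sub (Nat.add (Nat.add (Nat.add (Nat.add (Nat.add (Nat.add (Nat.add (Nat.add (Nat.add (Nat.add C x3038) x1094) x1742) x1526) x1634) x1562) x1598) x1574) x1586) x1582) (Nat.mul x1580 (nat_lit 3))) x3766)
    (Nat.sub (Nat.sub (Nat.add (Nat.add (Nat.add (Nat.add (Nat.add (Nat.add (Nat.add (Nat.add (Nat.add C x3040) x1096) x1744) x1528) x1636) x1564) x1600) x1588) x1580) (Nat.mul x1582 (nat_lit 2))) x3768)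
    (Nat.sub (Nat.sub (Nat.add (Nat.add (Nat.add (Nat.add (Nat.add (Nat.add (Nat.add (Nat.add C x3044) x1100) x1748) x1532) x1640) x1604) x1580) x1588) (Nat.mul x1586 (nat_lit 5))) x3772)
    (Nat.sub (Nat.sub (Nat.add (Nat.add (Nat.add (Nat.add (Nat.add (Nat.add (Nat.add (Nat.add (Nat.add C x3046) x1102) x1750) x1534) x1642) x1606) x1582) x1586) x1590) (Nat.mul x1588 (nat_lit 2))) x3774)
    (Nat.sub (Nat.add (Nat.add (Nat.add (Nat.add (Nat.add (Nat.add (Nat.add C x3048) x1104) x1752) x1536) x1644) x1608) x1588) x1590)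
    (Nat.sub (Nat.sub (Nat.add (Nat.add (Nat.add (Nat.add (Nat.add (Nat.add (Nat.add C x3056) x1112) x1760) x1652) x1580) x1604) x1600) (Nat.mul x1598 (nat_lit 4))) x3784)
    (Nat.sub (Nat.sub (Nat.add (Nat.add (Nat.add (Nat.add (Nat.add (Nat.add (Nat.add C x3058) x1114) x1762) x1654) x1582) x1606) x1598) (Nat.mul x1600 (nat_lit 4))) x3786)
    (Nat.sub (Nat.sub (Nat.add (Nat.add (Nat.add (Nat.add (Nat.add (Nat.add (Nat.add C x3062) x1118) x1766) x1658) x1586) x1598) x1606) (Nat.mul x1604 (nat_lit 4))) x3790)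
    (Nat.sub (Nat.sub (Nat.add (Nat.add (Nat.add (Nat.add (Nat.add (Nat.add (Nat.add (Nat.add (Nat.add C x3064) x1120) x1768) x1660) x1588) x1600) x1612) x1604) x1608) (Nat.mul x1606 (nat_lit 2))) x3792)
    (Nat.sub (Nat.add (Nat.add (Nat.add (Nat.add (Nat.add (Nat.add (Nat.add C x3066) x1122) x1770) x1662) x1590) x1614) x1606) (Nat.mul x1608 (nat_lit 2)))
    (Nat.sub (Nat.sub (Nat.add (Nat.add (Nat.add (Nat.add (Nat.add (Nat.add C x3070) x1126) x1774) x1666) x1606) x1614) (Nat.mul x1612 (nat_lit 2))) x3798)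
    (Nat.add (Nat.add (Nat.add (Nat.add (Nat.add (Nat.add C x3072) x1128) x1776) x1668) x1608) x1612)
    (Nat.sub (Nat.sub (Nat.add (Nat.add (Nat.add (Nat.add (Nat.add C x3086) x1142) x1790) x1574) x1634) (Nat.mul x1628 (nat_lit 4))) x3814)
    (Nat.sub (Nat.sub (Nat.add (Nat.add (Nat.add (Nat.add (Nat.add (Nat.add (Nat.add (Nat.add C x3092) x1148) x1796) x1580) x1652) x1628) x1640) x1636) (Nat.mul x1634 (nat_lit 5))) x3820)
    (Nat.sub (Nat.sub (Nat.add (Nat.add (Nat.add (Nat.add (Nat.add (Nat.add (Nat.add C x3094) x1150) x1798) x1582) x1654) x1642) x1634) (Nat.mul x1636 (nat_lit 4))) x3822)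
    (Nat.sub (Nat.sub (Nat.sub (Nat.add (Nat.add (Nat.add (Nat.add (Nat.add (Nat.add (Nat.add (Nat.add C x3098) x1154) x1802) x1586) x1658) x1634) x1642) (Nat.mul (e (nat_lit 1640)) ap)) (Nat.mul x1640 (nat_lit 8))) x3826) (Nat.mul (e (nat_lit 1640)) an))
    (Nat.sub (Nat.sub (Nat.add (Nat.add (Nat.add (Nat.add (Nat.add (Nat.add (Nat.add (Nat.add C x3100) x1156) x1804) x1588) x1660) x1636) x1640) x1644) (Nat.mul x1642 (nat_lit 5))) x3828)
    (Nat.sub (Nat.add (Nat.add (Nat.add (Nat.add (Nat.add (Nat.add C x3102) x1158) x1806) x1590) x1662) x1642) (Nat.mul x1644 (nat_lit 4)))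
    (Nat.sub (Nat.sub (Nat.add (Nat.add (Nat.add (Nat.add (Nat.add (Nat.add (Nat.add C x3110) x1166) x1814) x1598) x1634) x1658) x1654) (Nat.mul x1652 (nat_lit 4))) x3838)
    (Nat.sub (Nat.sub (Nat.add (Nat.add (Nat.add (Nat.add (Nat.add (Nat.add (Nat.add C x3112) x1168) x1816) x1600) x1636) x1660) x1652) (Nat.mul x1654 (nat_lit 4))) x3840)
    (Nat.sub (Nat.sub (Nat.add (Nat.add (Nat.add (Nat.add (Nat.add (Nat.add (Nat.add (Nat.add C x3116) x1172) x1820) x1604) x1640) x1676) x1652) x1660) (Nat.mul x1658 (nat_lit 5))) x3844)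
    (Nat.sub (Nat.sub (Nat.add (Nat.add (Nat.add (Nat.add (Nat.add (Nat.add (Nat.add (Nat.add (Nat.add (Nat.add C x3118) x1174) x1822) x1606) x1642) x1678) x1654) x1666) x1658) x1662) (Nat.mul x1660 (nat_lit 3))) x3846)
    (Nat.sub (Nat.add (Nat.add (Nat.add (Nat.add (Nat.add (Nat.add (Nat.add (Nat.add C x3120) x1176) x1824) x1608) x1644) x1680) x1668) x1660) (Nat.mul x1662 (nat_lit 3)))
    (Nat.sub (Nat.sub (Nat.add (Nat.add (Nat.add (Nat.add (Nat.add (Nat.add (Nat.add C x3124) x1180) x1828) x1612) x1684) x1660) x1668) (Nat.mul x1666 (nat_lit 4))) x3852)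
    (Nat.sub (Nat.add (Nat.add (Nat.add (Nat.add (Nat.add (Nat.add (Nat.add C x3126) x1182) x1830) x1614) x1686) x1662) x1666) (Nat.mul x1668 (nat_lit 2)))
    (Nat.sub (Nat.sub (Nat.add (Nat.add (Nat.add (Nat.add (Nat.add C x3134) x1190) x1838) x1658) x1678) (Nat.mul x1676 (nat_lit 4))) x3862)
    (Nat.sub (Nat.sub (Nat.add (Nat.add (Nat.add (Nat.add (Nat.add (Nat.add (Nat.add C x3136) x1192) x1840) x1660) x1684) x1676) x1680) (Nat.mul x1678 (nat_lit 3))) x3864)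
    (Nat.sub (Nat.add (Nat.add (Nat.add (Nat.add (Nat.add (Nat.add C x3138) x1194) x1842) x1662) x1686) x1678) (Nat.mul x1680 (nat_lit 4)))
    (Nat.sub (Nat.sub (Nat.add (Nat.add (Nat.add (Nat.add (Nat.add (Nat.add C x3142) x1198) x1846) x1666) x1678) x1686) (Nat.mul x1684 (nat_lit 2))) x3870)
    (Nat.sub (Nat.add (Nat.add (Nat.add (Nat.add (Nat.add (Nat.add (Nat.add C x3144) x1200) x1848) x1668) x1680) x1692) x1684) x1686)
    (Nat.add (Nat.add (Nat.add (Nat.add C x3150) x1206) x1854) x1686)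
    (Nat.sub (Nat.add (Nat.add (Nat.add (Nat.add (Nat.add C x3176) x1232) x1556) x1736) x1724) x3904)
    (Nat.sub (Nat.sub (Nat.add (Nat.add (Nat.add (Nat.add (Nat.add (Nat.add C x3182) x1238) x1562) x1742) x1718) x1726) (Nat.mul x1724 (nat_lit 2))) x3910)
    (Nat.sub (Nat.add (Nat.add (Nat.add (Nat.add (Nat.add C x3184) x1240) x1564) x1744) x1724) x3912)
    (Nat.sub (Nat.sub (Nat.add (Nat.add (Nat.add (Nat.add (Nat.add (Nat.add C x3194) x1250) x1574) x1790) x1718) x1742) (Nat.mul x1736 (nat_lit 2))) x3922)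
    (Nat.sub (Nat.sub (Nat.add (Nat.add (Nat.add (Nat.add (Nat.add (Nat.add (Nat.add (Nat.add (Nat.add C x3200) x1256) x1580) x1796) x1724) x1760) x1736) x1748) x1744) (Nat.mul x1742 (nat_lit 2))) x3928)
    (Nat.sub (Nat.sub (Nat.add (Nat.add (Nat.add (Nat.add (Nat.add (Nat.add (Nat.add (Nat.add C x3202) x1258) x1582) x1798) x1726) x1762) x1750) x1742) x1744) x3930)
    (Nat.sub (Nat.sub (Nat.add (Nat.add (Nat.add (Nat.add (Nat.add (Nat.add (Nat.add C x3206) x1262) x1586) x1802) x1766) x1742) x1750) (Nat.mul x1748 (nat_lit 4))) x3934)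
    (Nat.sub (Nat.sub (Nat.add (Nat.add (Nat.add (Nat.add (Nat.add (Nat.add (Nat.add (Nat.add C x3208) x1264) x1588) x1804) x1768) x1744) x1748) x1752) x1750) x3936)
    (Nat.add (Nat.add (Nat.add (Nat.add (Nat.add (Nat.add C x3210) x1266) x1590) x1806) x1770) x1750)
    (Nat.sub (Nat.sub (Nat.add (Nat.add (Nat.add (Nat.add (Nat.add (Nat.add (Nat.add C x3218) x1274) x1598) x1814) x1742) x1766) x1762) (Nat.mul x1760 (nat_lit 4))) x3946)
    (Nat.sub (Nat.sub (Nat.add (Nat.add (Nat.add (Nat.add (Nat.add (Nat.add (Nat.add C x3220) x1276) x1600) x1816) x1744) x1768) x1760) (Nat.mul x1762 (nat_lit 4))) x3948)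
    (Nat.sub (Nat.sub (Nat.add (Nat.add (Nat.add (Nat.add (Nat.add (Nat.add (Nat.add C x3224) x1280) x1604) x1820) x1748) x1760) x1768) (Nat.mul x1766 (nat_lit 4))) x3952)
    (Nat.sub (Nat.sub (Nat.add (Nat.add (Nat.add (Nat.add (Nat.add (Nat.add (Nat.add (Nat.add (Nat.add C x3226) x1282) x1606) x1822) x1750) x1762) x1774) x1766) x1770) (Nat.mul x1768 (nat_lit 2))) x3954)
    (Nat.sub (Nat.add (Nat.add (Nat.add (Nat.add (Nat.add (Nat.add (Nat.add C x3228) x1284) x1608) x1824) x1752) x1776) x1768) (Nat.mul x1770 (nat_lit 2)))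
    (Nat.sub (Nat.sub (Nat.add (Nat.add (Nat.add (Nat.add (Nat.add (Nat.add C x3232) x1288) x1612) x1828) x1768) x1776) (Nat.mul x1774 (nat_lit 2))) x3960)
    (Nat.add (Nat.add (Nat.add (Nat.add (Nat.add (Nat.add C x3234) x1290) x1614) x1830) x1770) x1774)
    (Nat.sub (Nat.sub (Nat.add (Nat.add (Nat.add (Nat.add (Nat.add (Nat.add C x3248) x1304) x1628) x1952) x1736) x1796) x1790) x3976)
    (Nat.sub (Nat.sub (Nat.add (Nat.add (Nat.add (Nat.add (Nat.add (Nat.add (Nat.add (Nat.add (Nat.add C x3254) x1310) x1634) x1958) x1742) x1814) x1790) x1802) x1798) (Nat.mul x1796 (nat_lit 2))) x3982)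
    (Nat.sub (Nat.sub (Nat.add (Nat.add (Nat.add (Nat.add (Nat.add (Nat.add (Nat.add (Nat.add C x3256) x1312) x1636) x1960) x1744) x1816) x1804) x1796) x1798) x3984)
    (Nat.sub (Nat.sub (Nat.add (Nat.add (Nat.add (Nat.add (Nat.add (Nat.add (Nat.add (Nat.add C x3260) x1316) x1640) x1964) x1748) x1820) x1796) x1804) (Nat.mul x1802 (nat_lit 5))) x3988)
    (Nat.sub (Nat.sub (Nat.add (Nat.add (Nat.add (Nat.add (Nat.add (Nat.add (Nat.add (Nat.add (Nat.add C x3262) x1318) x1642) x1966) x1750) x1822) x1798) x1802) x1806) (Nat.mul x1804 (nat_lit 2))) x3990)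
    (Nat.sub (Nat.add (Nat.add (Nat.add (Nat.add (Nat.add (Nat.add (Nat.add C x3264) x1320) x1644) x1968) x1752) x1824) x1804) x1806)
    (Nat.sub (Nat.sub (Nat.add (Nat.add (Nat.add (Nat.add (Nat.add (Nat.add (Nat.add (Nat.add (Nat.add C x3272) x1328) x1652) x1976) x1760) x1868) x1796) x1820) x1816) (Nat.mul x1814 (nat_lit 2))) x4000)
    (Nat.sub (Nat.sub (Nat.add (Nat.add (Nat.add (Nat.add (Nat.add (Nat.add (Nat.add (Nat.add (Nat.add C x3274) x1330) x1654) x1978) x1762) x1870) x1798) x1822) x1814) (Nat.mul x1816 (nat_lit 2))) x4002)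
    (Nat.sub (Nat.sub (Nat.add (Nat.add (Nat.add (Nat.add (Nat.add (Nat.add (Nat.add (Nat.add (Nat.add (Nat.add C x3278) x1334) x1658) x1982) x1766) x1874) x1802) x1838) x1814) x1822) (Nat.mul x1820 (nat_lit 3))) x4006)
    (Nat.sub (Nat.sub (Nat.add (Nat.add (Nat.add (Nat.add (Nat.add (Nat.add (Nat.add (Nat.add (Nat.add (Nat.add (Nat.add (Nat.add C x3280) x1336) x1660) x1984) x1768) x1876) x1804) x1840) x1816) x1828) x1820) x1824) x1822) x4008)
    (Nat.sub (Nat.add (Nat.add (Nat.add (Nat.add (Nat.add (Nat.add (Nat.add (Nat.add (Nat.add (Nat.add C x3282) x1338) x1662) x1986) x1770) x1878) x1806) x1842) x1830) x1822) x1824)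
    (Nat.sub (Nat.sub (Nat.add (Nat.add (Nat.add (Nat.add (Nat.add (Nat.add (Nat.add (Nat.add (Nat.add C x3286) x1342) x1666) x1990) x1774) x1882) x1846) x1822) x1830) (Nat.mul x1828 (nat_lit 2))) x4014)
    (Nat.add (Nat.add (Nat.add (Nat.add (Nat.add (Nat.add (Nat.add (Nat.add (Nat.add C x3288) x1344) x1668) x1992) x1776) x1884) x1848) x1824) x1828)
    (Nat.sub (Nat.sub (Nat.add (Nat.add (Nat.add (Nat.add (Nat.add (Nat.add (Nat.add C x3296) x1352) x1676) x2000) x1892) x1820) x1840) (Nat.mul x1838 (nat_lit 3))) x4024)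
    (Nat.sub (Nat.sub (Nat.add (Nat.add (Nat.add (Nat.add (Nat.add (Nat.add (Nat.add (Nat.add (Nat.add C x3298) x1354) x1678) x2002) x1894) x1822) x1846) x1838) x1842) (Nat.mul x1840 (nat_lit 2))) x4026)
    (Nat.sub (Nat.add (Nat.add (Nat.add (Nat.add (Nat.add (Nat.add (Nat.add (Nat.add C x3300) x1356) x1680) x2004) x1896) x1824) x1848) x1840) (Nat.mul x1842 (nat_lit 3)))
    (Nat.sub (Nat.sub (Nat.add (Nat.add (Nat.add (Nat.add (Nat.add (Nat.add (Nat.add (Nat.add C x3304) x1360) x1684) x2008) x1900) x1828) x1840) x1848) x1846) x4032)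
    (Nat.add (Nat.add (Nat.add (Nat.add (Nat.add (Nat.add (Nat.add (Nat.add (Nat.add C x3306) x1362) x1686) x2010) x1902) x1830) x1842) x1854) x1846)
    (Nat.add (Nat.add (Nat.add (Nat.add (Nat.add (Nat.add (Nat.add C x1854) x3312) x1368) x1692) x2016) x1908) x1848)
    (Nat.sub (Nat.sub (Nat.add (Nat.add (Nat.add (Nat.add (Nat.add (Nat.add C x3326) x1382) x2030) x1814) x1874) x1870) (Nat.mul x1868 (nat_lit 2))) x4054)
    (Nat.sub (Nat.sub (Nat.add (Nat.add (Nat.add (Nat.add (Nat.add (Nat.add C x3328) x1384) x2032) x1816) x1876) x1868) (Nat.mul x1870 (nat_lit 2))) x4056)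
    (Nat.sub (Nat.sub (Nat.add (Nat.add (Nat.add (Nat.add (Nat.add (Nat.add (Nat.add C x3332) x1388) x2036) x1820) x1892) x1868) x1876) (Nat.mul x1874 (nat_lit 4))) x4060)
    (Nat.sub (Nat.sub (Nat.add (Nat.add (Nat.add (Nat.add (Nat.add (Nat.add (Nat.add (Nat.add (Nat.add C x3334) x1390) x2038) x1822) x1894) x1870) x1882) x1874) x1878) (Nat.mul x1876 (nat_lit 2))) x4062)
    (Nat.sub (Nat.add (Nat.add (Nat.add (Nat.add (Nat.add (Nat.add (Nat.add C x3336) x1392) x2040) x1824) x1896) x1884) x1876) (Nat.mul x1878 (nat_lit 2)))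
    (Nat.sub (Nat.sub (Nat.add (Nat.add (Nat.add (Nat.add (Nat.add (Nat.add (Nat.add C x3340) x1396) x2044) x1828) x1900) x1876) x1884) (Nat.mul x1882 (nat_lit 4))) x4068)
    (Nat.sub (Nat.add (Nat.add (Nat.add (Nat.add (Nat.add (Nat.add (Nat.add C x3342) x1398) x2046) x1830) x1902) x1878) x1882) (Nat.mul x1884 (nat_lit 2)))
    (Nat.sub (Nat.sub (Nat.add (Nat.add (Nat.add (Nat.add (Nat.add (Nat.add C x3350) x1406) x2054) x1838) x1874) x1894) (Nat.mul x1892 (nat_lit 2))) x4078)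
    (Nat.sub (Nat.sub (Nat.add (Nat.add (Nat.add (Nat.add (Nat.add (Nat.add (Nat.add (Nat.add C x3352) x1408) x2056) x1840) x1876) x1900) x1892) x1896) x1894) x4080)
    (Nat.sub (Nat.add (Nat.add (Nat.add (Nat.add (Nat.add (Nat.add (Nat.add C x3354) x1410) x2058) x1842) x1878) x1902) x1894) (Nat.mul x1896 (nat_lit 2)))
    (Nat.sub (Nat.sub (Nat.add (Nat.add (Nat.add (Nat.add (Nat.add (Nat.add (Nat.add (Nat.add C x3358) x1414) x2062) x1846) x1882) x1918) x1894) x1902) x1900) x4086)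
    (Nat.add (Nat.add (Nat.add (Nat.add (Nat.add (Nat.add (Nat.add (Nat.add (Nat.add C x3360) x1416) x2064) x1848) x1884) x1920) x1896) x1908) x1900)
    (Nat.add (Nat.add (Nat.add (Nat.add (Nat.add (Nat.add C x3366) x1422) x2070) x1854) x1926) x1902)
    (Nat.sub (Nat.add (Nat.add (Nat.add (Nat.add (Nat.add C x3376) x1432) x2080) x1900) x1920) x4104)
    (Nat.add (Nat.add (Nat.add (Nat.add (Nat.add (Nat.add C x3378) x1434) x2082) x1902) x1926) x1918)
    (Nat.add (Nat.add (Nat.add (Nat.add (Nat.add (Nat.add C (Nat.mul x1926 (nat_lit 2))) x3384) x1440) x2088) x1908) x1920)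
    (Nat.sub (Nat.add (Nat.add (Nat.add C x3410) x1790) x1958) x4138)
    (Nat.sub (Nat.sub (Nat.add (Nat.add (Nat.add (Nat.add (Nat.add (Nat.add C x3416) x1796) x1976) x1952) x1964) x1960) x1958) x4144)
    (Nat.sub (Nat.add (Nat.add (Nat.add (Nat.add (Nat.add C x3418) x1798) x1978) x1966) x1958) x4146)
    (Nat.sub (Nat.sub (Nat.add (Nat.add (Nat.add (Nat.add (Nat.add C x3422) x1802) x1982) x1958) x1966) (Nat.mul x1964 (nat_lit 4))) x4150)
    (Nat.sub (Nat.sub (Nat.add (Nat.add (Nat.add (Nat.add (Nat.add (Nat.add C x3424) x1804) x1984) x1960) x1964) x1968) x1966) x4152)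
    (Nat.add (Nat.add (Nat.add (Nat.add C x3426) x1806) x1986) x1966)
    (Nat.sub (Nat.sub (Nat.add (Nat.add (Nat.add (Nat.add (Nat.add (Nat.add C x3434) x1814) x2030) x1958) x1982) x1978) (Nat.mul x1976 (nat_lit 2))) x4162)
    (Nat.sub (Nat.sub (Nat.add (Nat.add (Nat.add (Nat.add (Nat.add (Nat.add C x3436) x1816) x2032) x1960) x1984) x1976) (Nat.mul x1978 (nat_lit 2))) x4164)
    (Nat.sub (Nat.sub (Nat.add (Nat.add (Nat.add (Nat.add (Nat.add (Nat.add (Nat.add C x3440) x1820) x2036) x1964) x2000) x1976) x1984) (Nat.mul x1982 (nat_lit 3))) x4168)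
    (Nat.sub (Nat.sub (Nat.add (Nat.add (Nat.add (Nat.add (Nat.add (Nat.add (Nat.add (Nat.add (Nat.add C x3442) x1822) x2038) x1966) x2002) x1978) x1990) x1982) x1986) x1984) x4170)
    (Nat.sub (Nat.add (Nat.add (Nat.add (Nat.add (Nat.add (Nat.add (Nat.add C x3444) x1824) x2040) x1968) x2004) x1992) x1984) x1986)
    (Nat.sub (Nat.sub (Nat.add (Nat.add (Nat.add (Nat.add (Nat.add (Nat.add C x3448) x1828) x2044) x2008) x1984) x1992) (Nat.mul x1990 (nat_lit 2))) x4176)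
    (Nat.add (Nat.add (Nat.add (Nat.add (Nat.add (Nat.add C x3450) x1830) x2046) x2010) x1986) x1990)
    (Nat.sub (Nat.sub (Nat.add (Nat.add (Nat.add (Nat.add (Nat.add C x3458) x1838) x2054) x1982) x2002) (Nat.mul x2000 (nat_lit 4))) x4186)
    (Nat.sub (Nat.sub (Nat.add (Nat.add (Nat.add (Nat.add (Nat.add (Nat.add (Nat.add C x3460) x1840) x2056) x1984) x2008) x2000) x2004) (Nat.mul x2002 (nat_lit 3))) x4188)
    (Nat.sub (Nat.add (Nat.add (Nat.add (Nat.add (Nat.add (Nat.add C x3462) x1842) x2058) x1986) x2010) x2002) (Nat.mul x2004 (nat_lit 4)))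
    (Nat.sub (Nat.sub (Nat.add (Nat.add (Nat.add (Nat.add (Nat.add (Nat.add C x3466) x1846) x2062) x1990) x2002) x2010) (Nat.mul x2008 (nat_lit 2))) x4194)
    (Nat.sub (Nat.add (Nat.add (Nat.add (Nat.add (Nat.add (Nat.add (Nat.add C x3468) x1848) x2064) x1992) x2004) x2016) x2008) x2010)
    (Nat.add (Nat.add (Nat.add (Nat.add C x3474) x1854) x2070) x2010)
    (Nat.sub (Nat.add (Nat.add (Nat.add (Nat.add (Nat.add C x3488) x1868) x1976) x2036) x2032) x4216)
    (Nat.sub (Nat.add (Nat.add (Nat.add (Nat.add (Nat.add C x3490) x1870) x1978) x2038) x2030) x4218)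
    (Nat.sub (Nat.sub (Nat.add (Nat.add (Nat.add (Nat.add (Nat.add (Nat.add C x3494) x1874) x1982) x2054) x2030) x2038) (Nat.mul x2036 (nat_lit 2))) x4222)
    (Nat.sub (Nat.add (Nat.add (Nat.add (Nat.add (Nat.add (Nat.add (Nat.add (Nat.add C x3496) x1876) x1984) x2056) x2032) x2044) x2036) x2040) x4224)
    (Nat.add (Nat.add (Nat.add (Nat.add (Nat.add (Nat.add C x3498) x1878) x1986) x2058) x2046) x2038)
    (Nat.sub (Nat.sub (Nat.add (Nat.add (Nat.add (Nat.add (Nat.add (Nat.add C x3502) x1882) x1990) x2062) x2038) x2046) (Nat.mul x2044 (nat_lit 2))) x4230)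
    (Nat.add (Nat.add (Nat.add (Nat.add (Nat.add (Nat.add C x3504) x1884) x1992) x2064) x2040) x2044)
    (Nat.sub (Nat.sub (Nat.add (Nat.add (Nat.add (Nat.add (Nat.add (Nat.add C x3512) x1892) x2000) x2108) x2036) x2056) x2054) x4240)
    (Nat.sub (Nat.add (Nat.add (Nat.add (Nat.add (Nat.add (Nat.add (Nat.add (Nat.add C x3514) x1894) x2002) x2110) x2038) x2062) x2054) x2058) x4242)
    (Nat.sub (Nat.add (Nat.add (Nat.add (Nat.add (Nat.add (Nat.add (Nat.add C x3516) x1896) x2004) x2112) x2040) x2064) x2056) x2058)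
    (Nat.sub (Nat.add (Nat.add (Nat.add (Nat.add (Nat.add (Nat.add (Nat.add (Nat.add C x3520) x1900) x2008) x2116) x2044) x2080) x2056) x2064) x4248)
    (Nat.add (Nat.add (Nat.add (Nat.add (Nat.add (Nat.add (Nat.add (Nat.add (Nat.add (Nat.add C x2064) x3522) x1902) x2010) x2118) x2046) x2082) x2058) x2070) x2062)
    (Nat.add (Nat.add (Nat.add (Nat.add (Nat.add (Nat.add (Nat.add C x2070) x3528) x1908) x2016) x2124) x2088) x2064)
    (Nat.sub (Nat.add (Nat.add (Nat.add (Nat.add (Nat.add C x3538) x1918) x2134) x2062) x2082) x4266)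
    (Nat.add (Nat.add (Nat.add (Nat.add (Nat.add (Nat.add C x3540) x1920) x2136) x2064) x2088) x2080)
    (Nat.add (Nat.add (Nat.add (Nat.add (Nat.add (Nat.add C (Nat.mul x2088 (nat_lit 2))) x3546) x1926) x2142) x2070) x2082)
    (Nat.sub (Nat.add (Nat.add (Nat.add C x3566) x2054) x2110) x4294)
    (Nat.sub (Nat.add (Nat.add (Nat.add (Nat.add (Nat.add (Nat.add C x2110) x3568) x2056) x2116) x2108) x2112) x4296)
    (Nat.add (Nat.add (Nat.add (Nat.add C x3570) x2058) x2118) x2110)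
    (Nat.sub (Nat.add (Nat.add (Nat.add (Nat.add (Nat.add C x3574) x2062) x2134) x2110) x2118) x4302)
    (Nat.add (Nat.add (Nat.add (Nat.add (Nat.add (Nat.add (Nat.add C x2118) x3576) x2064) x2136) x2112) x2124) x2116)
    (Nat.add (Nat.add (Nat.add (Nat.add C x3582) x2070) x2142) x2118)
    (Nat.sub (Nat.add (Nat.add (Nat.add (Nat.add (Nat.add C (Nat.mul x2134 (nat_lit 2))) x3592) x2080) x2116) x2136) x4320)
    (Nat.add (Nat.add (Nat.add (Nat.add (Nat.add (Nat.add C (Nat.mul x2136 (nat_lit 2))) x3594) x2082) x2118) x2142) x2134)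
    (Nat.add (Nat.add (Nat.add (Nat.add (Nat.add (Nat.add C (Nat.mul x2142 (nat_lit 3))) x3600) x2088) x2124) x2160) x2136)
    (Nat.add (Nat.add (Nat.add C (Nat.mul x2160 (nat_lit 4))) x3618) x2142)
    (Nat.sub (Nat.add (Nat.add (Nat.add (Nat.add C (Nat.mul x2240 (nat_lit 4))) x782) x2294) x2258) x4426)
    (Nat.sub (Nat.add (Nat.add (Nat.add (Nat.add (Nat.add C (Nat.mul x2258 (nat_lit 2))) x800) x2312) x2240) x2264) x4444)
    (Nat.sub (Nat.add (Nat.add (Nat.add (Nat.add (Nat.add C (Nat.mul x2264 (nat_lit 2))) x806) x2318) x2258) x2266) x4450)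
    (Nat.sub (Nat.sub (Nat.add (Nat.add (Nat.add (Nat.add C (Nat.mul x2266 (nat_lit 3))) x808) x2320) x2264) x4452) x80)
    (Nat.sub (Nat.add (Nat.add (Nat.add (Nat.add (Nat.add C (Nat.mul x2294 (nat_lit 2))) x836) x2456) x2240) x2312) x4480)
    (Nat.sub (Nat.add (Nat.add (Nat.add (Nat.add (Nat.add (Nat.add (Nat.add (Nat.add C (Nat.mul x2312 (nat_lit 2))) x854) x2474) x2258) x2366) x2294) x2330) x2318) x4498)
    (Nat.sub (Nat.add (Nat.add (Nat.add (Nat.add (Nat.add (Nat.add (Nat.add (Nat.add C x2318) x860) x2480) x2264) x2372) x2336) x2312) x2320) x4504)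
    (Nat.sub (Nat.sub (Nat.add (Nat.add (Nat.add (Nat.add (Nat.add (Nat.add (Nat.add C (Nat.mul x2320 (nat_lit 2))) x862) x2482) x2266) x2374) x2338) x2318) x4506) x134)
    (Nat.sub (Nat.add (Nat.add (Nat.add (Nat.add (Nat.add C x872) x2492) x2384) x2312) x2336) x4516)
    (Nat.sub (Nat.add (Nat.add (Nat.add (Nat.add (Nat.add (Nat.add (Nat.add (Nat.add C x2336) x878) x2498) x2390) x2318) x2330) x2342) x2338) x4522)
    (Nat.sub (Nat.sub (Nat.add (Nat.add (Nat.add (Nat.add (Nat.add (Nat.add (Nat.add C x2338) x880) x2500) x2392) x2320) x2344) x2336) x4524) x152)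
    (Nat.sub (Nat.add (Nat.add (Nat.add (Nat.add (Nat.add C x884) x2504) x2396) x2336) x2344) x4528)
    (Nat.sub (Nat.sub (Nat.add (Nat.add (Nat.add (Nat.add (Nat.add (Nat.add (Nat.add C (Nat.mul x2344 (nat_lit 2))) x886) x2506) x2398) x2338) x2342) x2346) x4530) x158)
    (Nat.sub (Nat.add (Nat.add (Nat.add (Nat.add (Nat.add C (Nat.mul x2346 (nat_lit 2))) x888) x2508) x2400) x2344) x160)
    (Nat.sub (Nat.add (Nat.add (Nat.add (Nat.add (Nat.add C x908) x2528) x2312) x2384) x2372) x4552)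
    (Nat.sub (Nat.sub (Nat.add (Nat.add (Nat.add (Nat.add (Nat.add (Nat.add C x914) x2534) x2318) x2390) x2366) x2374) (Nat.mul x2372 (nat_lit 2))) x4558)
    (Nat.sub (Nat.sub (Nat.sub (Nat.add (Nat.add (Nat.add (Nat.add (Nat.add C x916) x2536) x2320) x2392) x2372) x2374) x4560) x188)
    (Nat.sub (Nat.add (Nat.add (Nat.add (Nat.add (Nat.add C x926) x2546) x2330) x2366) x2390) x4570)
    (Nat.sub (Nat.add (Nat.add (Nat.add (Nat.add (Nat.add (Nat.add (Nat.add (Nat.add C x932) x2552) x2336) x2372) x2408) x2384) x2396) x2392) x4576)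
    (Nat.sub (Nat.sub (Nat.add (Nat.add (Nat.add (Nat.add (Nat.add (Nat.add (Nat.add C x934) x2554) x2338) x2374) x2410) x2398) x2390) x4578) x206)
    (Nat.sub (Nat.sub (Nat.add (Nat.add (Nat.add (Nat.add (Nat.add (Nat.add C x938) x2558) x2342) x2414) x2390) x2398) (Nat.mul x2396 (nat_lit 2))) x4582)
    (Nat.sub (Nat.sub (Nat.add (Nat.add (Nat.add (Nat.add (Nat.add (Nat.add (Nat.add C x940) x2560) x2344) x2416) x2392) x2396) x2400) x4584) x212)
    (Nat.sub (Nat.add (Nat.add (Nat.add (Nat.add (Nat.add C x942) x2562) x2346) x2418) x2398) x214)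
    (Nat.sub (Nat.add (Nat.add (Nat.add (Nat.add (Nat.add C x950) x2570) x2390) x2414) x2410) x4594)
    (Nat.sub (Nat.sub (Nat.sub (Nat.add (Nat.add (Nat.add (Nat.add (Nat.add C x952) x2572) x2392) x2416) x2408) x2410) x4596) x224)
    (Nat.sub (Nat.add (Nat.add (Nat.add (Nat.add (Nat.add C x956) x2576) x2396) x2408) x2416) x4600)
    (Nat.sub (Nat.sub (Nat.add (Nat.add (Nat.add (Nat.add (Nat.add (Nat.add (Nat.add (Nat.add C x2416) x958) x2578) x2398) x2410) x2422) x2414) x2418) x4602) x230)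
    (Nat.sub (Nat.add (Nat.add (Nat.add (Nat.add (Nat.add C x960) x2580) x2400) x2424) x2416) x232)
    (Nat.sub (Nat.sub (Nat.add (Nat.add (Nat.add (Nat.add (Nat.add C x2422) x964) x2584) x2416) x2424) x4608) x236)
    (Nat.sub (Nat.add (Nat.add (Nat.add (Nat.add (Nat.add C (Nat.mul x2424 (nat_lit 2))) x966) x2586) x2418) x2422) x238)
    (Nat.sub (Nat.add (Nat.add (Nat.add (Nat.add (Nat.add C (Nat.mul x2456 (nat_lit 2))) x998) x2942) x2294) x2474) x4642)
    (Nat.sub (Nat.add (Nat.add (Nat.add (Nat.add (Nat.add (Nat.add (Nat.add (Nat.add C x2474) x1016) x2960) x2312) x2528) x2456) x2492) x2480) x4660)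
    (Nat.sub (Nat.add (Nat.add (Nat.add (Nat.add (Nat.add (Nat.add (Nat.add C x1022) x2966) x2318) x2534) x2498) x2474) x2482) x4666)
    (Nat.sub (Nat.sub (Nat.add (Nat.add (Nat.add (Nat.add (Nat.add (Nat.add (Nat.add C x2482) x1024) x2968) x2320) x2536) x2500) x2480) x4668) x296)
    (Nat.sub (Nat.sub (Nat.add (Nat.add (Nat.add (Nat.add (Nat.add (Nat.add C x1034) x2978) x2330) x2546) x2474) x2498) (Nat.mul x2492 (nat_lit 2))) x4678)
    (Nat.sub (Nat.sub (Nat.add (Nat.add (Nat.add (Nat.add (Nat.add (Nat.add (Nat.add (Nat.add C x1040) x2984) x2336) x2552) x2480) x2492) x2504) x2500) x2498) x4684)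
    (Nat.sub (Nat.sub (Nat.sub (Nat.add (Nat.add (Nat.add (Nat.add (Nat.add (Nat.add (Nat.add C x1042) x2986) x2338) x2554) x2482) x2506) x2498) x2500) x4686) x314)
    (Nat.sub (Nat.sub (Nat.add (Nat.add (Nat.add (Nat.add (Nat.add (Nat.add C x1046) x2990) x2342) x2558) x2498) x2506) (Nat.mul x2504 (nat_lit 2))) x4690)
    (Nat.sub (Nat.sub (Nat.add (Nat.add (Nat.add (Nat.add (Nat.add (Nat.add (Nat.add C x1048) x2992) x2344) x2560) x2500) x2504) x2508) x4692) x320)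
    (Nat.sub (Nat.add (Nat.add (Nat.add (Nat.add (Nat.add C x1050) x2994) x2346) x2562) x2506) x322)
    (Nat.sub (Nat.add (Nat.add (Nat.add (Nat.add (Nat.add (Nat.add (Nat.add (Nat.add C x2528) x1070) x3014) x2366) x2690) x2474) x2546) x2534) x4714)
    (Nat.sub (Nat.sub (Nat.add (Nat.add (Nat.add (Nat.add (Nat.add (Nat.add (Nat.add (Nat.add C x1076) x3020) x2372) x2696) x2480) x2552) x2528) x2536) x2534) x4720)
    (Nat.sub (Nat.sub (Nat.add (Nat.add (Nat.add (Nat.add (Nat.add (Nat.add (Nat.add C x1078) x3022) x2374) x2698) x2482) x2554) x2534) x4722) x350)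
    (Nat.sub (Nat.add (Nat.add (Nat.add (Nat.add (Nat.add (Nat.add (Nat.add (Nat.add C x1088) x3032) x2384) x2708) x2492) x2600) x2528) x2552) x4732)
    (Nat.sub (Nat.add (Nat.add (Nat.add (Nat.add (Nat.add (Nat.add (Nat.add (Nat.add (Nat.add (Nat.add (Nat.add C x1094) x3038) x2390) x2714) x2498) x2606) x2534) x2570) x2546) x2558) x2554) x4738)
    (Nat.sub (Nat.sub (Nat.add (Nat.add (Nat.add (Nat.add (Nat.add (Nat.add (Nat.add (Nat.add (Nat.add (Nat.add C x1096) x3040) x2392) x2716) x2500) x2608) x2536) x2572) x2560) x2552) x4740) x368)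
    (Nat.sub (Nat.sub (Nat.add (Nat.add (Nat.add (Nat.add (Nat.add (Nat.add (Nat.add (Nat.add (Nat.add C x1100) x3044) x2396) x2720) x2504) x2612) x2576) x2552) x2560) (Nat.mul x2558 (nat_lit 2))) x4744)
    (Nat.sub (Nat.sub (Nat.add (Nat.add (Nat.add (Nat.add (Nat.add (Nat.add (Nat.add (Nat.add (Nat.add (Nat.add C x1102) x3046) x2398) x2722) x2506) x2614) x2578) x2554) x2558) x2562) x4746) x374)
    (Nat.sub (Nat.add (Nat.add (Nat.add (Nat.add (Nat.add (Nat.add (Nat.add (Nat.add C x1104) x3048) x2400) x2724) x2508) x2616) x2580) x2560) x376)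
    (Nat.sub (Nat.sub (Nat.add (Nat.add (Nat.add (Nat.add (Nat.add (Nat.add (Nat.add (Nat.add C x1112) x3056) x2408) x2732) x2624) x2552) x2576) x2572) x2570) x4756)
    (Nat.sub (Nat.sub (Nat.sub (Nat.add (Nat.add (Nat.add (Nat.add (Nat.add (Nat.add (Nat.add (Nat.add C x1114) x3058) x2410) x2734) x2626) x2554) x2578) x2570) (Nat.mul x2572 (nat_lit 2))) x4758) x386)
    (Nat.sub (Nat.sub (Nat.add (Nat.add (Nat.add (Nat.add (Nat.add (Nat.add (Nat.add (Nat.add C x1118) x3062) x2414) x2738) x2630) x2558) x2570) x2578) x2576) x4762)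
    (Nat.sub (Nat.sub (Nat.add (Nat.add (Nat.add (Nat.add (Nat.add (Nat.add (Nat.add (Nat.add (Nat.add (Nat.add C x1120) x3064) x2416) x2740) x2632) x2560) x2572) x2584) x2576) x2580) x4764) x392)
    (Nat.sub (Nat.sub (Nat.add (Nat.add (Nat.add (Nat.add (Nat.add (Nat.add (Nat.add (Nat.add C x1122) x3066) x2418) x2742) x2634) x2562) x2586) x2578) x2580) x394)
    (Nat.sub (Nat.sub (Nat.add (Nat.add (Nat.add (Nat.add (Nat.add (Nat.add (Nat.add C x1126) x3070) x2422) x2746) x2638) x2578) x2586) x4770) x398)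
    (Nat.sub (Nat.add (Nat.add (Nat.add (Nat.add (Nat.add (Nat.add (Nat.add (Nat.add C x2586) x1128) x3072) x2424) x2748) x2640) x2580) x2584) x400)
    (Nat.sub (Nat.add (Nat.add (Nat.add (Nat.add (Nat.add C x1142) x3086) x2762) x2546) x2606) x4786)
    (Nat.sub (Nat.sub (Nat.add (Nat.add (Nat.add (Nat.add (Nat.add (Nat.add (Nat.add (Nat.add C x1148) x3092) x2768) x2552) x2624) x2600) x2612) x2608) x2606) x4792)
    (Nat.sub (Nat.sub (Nat.sub (Nat.add (Nat.add (Nat.add (Nat.add (Nat.add (Nat.add (Nat.add C x1150) x3094) x2770) x2554) x2626) x2614) x2606) x2608) x4794) x422)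
    (Nat.sub (Nat.sub (Nat.add (Nat.add (Nat.add (Nat.add (Nat.add (Nat.add (Nat.add C x1154) x3098) x2774) x2558) x2630) x2606) x2614) (Nat.mul x2612 (nat_lit 4))) x4798)
    (Nat.sub (Nat.sub (Nat.sub (Nat.add (Nat.add (Nat.add (Nat.add (Nat.add (Nat.add (Nat.add (Nat.add C x1156) x3100) x2776) x2560) x2632) x2608) x2612) x2616) (Nat.mul x2614 (nat_lit 2))) x4800) x428)
    (Nat.sub (Nat.sub (Nat.add (Nat.add (Nat.add (Nat.add (Nat.add (Nat.add C x1158) x3102) x2778) x2562) x2634) x2614) (Nat.mul x2616 (nat_lit 2))) x430)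
    (Nat.sub (Nat.add (Nat.add (Nat.add (Nat.add (Nat.add (Nat.add (Nat.add C x1166) x3110) x2786) x2570) x2606) x2630) x2626) x4810)
    (Nat.sub (Nat.sub (Nat.sub (Nat.add (Nat.add (Nat.add (Nat.add (Nat.add (Nat.add (Nat.add C x1168) x3112) x2788) x2572) x2608) x2632) x2624) x2626) x4812) x440)
    (Nat.sub (Nat.sub (Nat.add (Nat.add (Nat.add (Nat.add (Nat.add (Nat.add (Nat.add (Nat.add C x1172) x3116) x2792) x2576) x2612) x2648) x2624) x2632) x2630) x4816)
    (Nat.sub (Nat.sub (Nat.add (Nat.add (Nat.add (Nat.add (Nat.add (Nat.add (Nat.add (Nat.add (Nat.add (Nat.add C x1174) x3118) x2794) x2578) x2614) x2650) x2626) x2638) x2630) x2634) x4818) x446)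
    (Nat.sub (Nat.sub (Nat.add (Nat.add (Nat.add (Nat.add (Nat.add (Nat.add (Nat.add (Nat.add C x1176) x3120) x2796) x2580) x2616) x2652) x2640) x2632) x2634) x448)
    (Nat.sub (Nat.sub (Nat.sub (Nat.add (Nat.add (Nat.add (Nat.add (Nat.add (Nat.add (Nat.add C x1180) x3124) x2800) x2584) x2656) x2632) x2640) x2638) x4824) x452)
    (Nat.sub (Nat.add (Nat.add (Nat.add (Nat.add (Nat.add (Nat.add (Nat.add C x1182) x3126) x2802) x2586) x2658) x2634) x2638) x454)
    (Nat.sub (Nat.add (Nat.add (Nat.add (Nat.add (Nat.add C x1190) x3134) x2810) x2630) x2650) x4834)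
    (Nat.sub (Nat.sub (Nat.add (Nat.add (Nat.add (Nat.add (Nat.add (Nat.add (Nat.add C x1192) x3136) x2812) x2632) x2656) x2648) x2652) x4836) x464)
    (Nat.sub (Nat.sub (Nat.add (Nat.add (Nat.add (Nat.add (Nat.add (Nat.add C x1194) x3138) x2814) x2634) x2658) x2650) (Nat.mul x2652 (nat_lit 2))) x466)
    (Nat.sub (Nat.sub (Nat.add (Nat.add (Nat.add (Nat.add (Nat.add (Nat.add (Nat.add C x2656) x1198) x3142) x2818) x2638) x2650) x2658) x4842) x470)
    (Nat.sub (Nat.add (Nat.add (Nat.add (Nat.add (Nat.add (Nat.add (Nat.add (Nat.add C x2658) x1200) x3144) x2820) x2640) x2652) x2664) x2656) x472)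
    (Nat.sub (Nat.add (Nat.add (Nat.add (Nat.add (Nat.add C (Nat.mul x2664 (nat_lit 2))) x1206) x3150) x2826) x2658) x478)
    (Nat.sub (Nat.add (Nat.add (Nat.add (Nat.add (Nat.add C x1232) x3176) x2528) x2708) x2696) x4876)
    (Nat.sub (Nat.sub (Nat.add (Nat.add (Nat.add (Nat.add (Nat.add (Nat.add C x1238) x3182) x2534) x2714) x2690) x2698) (Nat.mul x2696 (nat_lit 2))) x4882)
    (Nat.sub (Nat.sub (Nat.sub (Nat.add (Nat.add (Nat.add (Nat.add (Nat.add C x1240) x3184) x2536) x2716) x2696) x2698) x4884) x512)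
    (Nat.sub (Nat.sub (Nat.add (Nat.add (Nat.add (Nat.add (Nat.add (Nat.add C x1250) x3194) x2546) x2762) x2690) x2714) (Nat.mul x2708 (nat_lit 2))) x4894)
    (Nat.sub (Nat.sub (Nat.add (Nat.add (Nat.add (Nat.add (Nat.add (Nat.add (Nat.add (Nat.add (Nat.add C x1256) x3200) x2552) x2768) x2696) x2732) x2708) x2720) x2716) (Nat.mul x2714 (nat_lit 2))) x4900)
    (Nat.sub (Nat.sub (Nat.sub (Nat.add (Nat.add (Nat.add (Nat.add (Nat.add (Nat.add (Nat.add (Nat.add C x1258) x3202) x2554) x2770) x2698) x2734) x2722) x2714) (Nat.mul x2716 (nat_lit 2))) x4902) x530)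
    (Nat.sub (Nat.sub (Nat.add (Nat.add (Nat.add (Nat.add (Nat.add (Nat.add (Nat.add C x1262) x3206) x2558) x2774) x2738) x2714) x2722) (Nat.mul x2720 (nat_lit 4))) x4906)
    (Nat.sub (Nat.sub (Nat.sub (Nat.add (Nat.add (Nat.add (Nat.add (Nat.add (Nat.add (Nat.add (Nat.add C x1264) x3208) x2560) x2776) x2740) x2716) x2720) x2724) (Nat.mul x2722 (nat_lit 2))) x4908) x536)
    (Nat.sub (Nat.sub (Nat.add (Nat.add (Nat.add (Nat.add (Nat.add (Nat.add C x1266) x3210) x2562) x2778) x2742) x2722) (Nat.mul x2724 (nat_lit 2))) x538)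
    (Nat.sub (Nat.sub (Nat.add (Nat.add (Nat.add (Nat.add (Nat.add (Nat.add (Nat.add C x1274) x3218) x2570) x2786) x2714) x2738) x2734) (Nat.mul x2732 (nat_lit 4))) x4918)
    (Nat.sub (Nat.sub (Nat.sub (Nat.add (Nat.add (Nat.add (Nat.add (Nat.add (Nat.add (Nat.add C x1276) x3220) x2572) x2788) x2716) x2740) x2732) (Nat.mul x2734 (nat_lit 5))) x4920) x548)
    (Nat.sub (Nat.sub (Nat.add (Nat.add (Nat.add (Nat.add (Nat.add (Nat.add (Nat.add C x1280) x3224) x2576) x2792) x2720) x2732) x2740) (Nat.mul x2738 (nat_lit 4))) x4924)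
    (Nat.sub (Nat.sub (Nat.sub (Nat.add (Nat.add (Nat.add (Nat.add (Nat.add (Nat.add (Nat.add (Nat.add (Nat.add C x1282) x3226) x2578) x2794) x2722) x2734) x2746) x2738) x2742) (Nat.mul x2740 (nat_lit 3))) x4926) x554)
    (Nat.sub (Nat.sub (Nat.add (Nat.add (Nat.add (Nat.add (Nat.add (Nat.add (Nat.add C x1284) x3228) x2580) x2796) x2724) x2748) x2740) (Nat.mul x2742 (nat_lit 4))) x556)
    (Nat.sub (Nat.sub (Nat.sub (Nat.add (Nat.add (Nat.add (Nat.add (Nat.add (Nat.add C x1288) x3232) x2584) x2800) x2740) x2748) (Nat.mul x2746 (nat_lit 3))) x4932) x560)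
    (Nat.sub (Nat.sub (Nat.add (Nat.add (Nat.add (Nat.add (Nat.add (Nat.add C x1290) x3234) x2586) x2802) x2742) x2746) (Nat.mul x2748 (nat_lit 2))) x562)
    (Nat.sub (Nat.add (Nat.add (Nat.add (Nat.add (Nat.add C x1304) x3248) x2600) x2708) x2768) x4948)
    (Nat.sub (Nat.sub (Nat.add (Nat.add (Nat.add (Nat.add (Nat.add (Nat.add (Nat.add (Nat.add C x1310) x3254) x2606) x2714) x2786) x2762) x2774) x2770) x2768) x4954)
    (Nat.sub (Nat.sub (Nat.sub (Nat.add (Nat.add (Nat.add (Nat.add (Nat.add (Nat.add (Nat.add C x1312) x3256) x2608) x2716) x2788) x2776) x2768) x2770) x4956) x584)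
    (Nat.sub (Nat.sub (Nat.add (Nat.add (Nat.add (Nat.add (Nat.add (Nat.add (Nat.add C x1316) x3260) x2612) x2720) x2792) x2768) x2776) (Nat.mul x2774 (nat_lit 4))) x4960)
    (Nat.sub (Nat.sub (Nat.sub (Nat.add (Nat.add (Nat.add (Nat.add (Nat.add (Nat.add (Nat.add (Nat.add C x1318) x3262) x2614) x2722) x2794) x2770) x2774) x2778) (Nat.mul x2776 (nat_lit 2))) x4962) x590)
    (Nat.sub (Nat.sub (Nat.add (Nat.add (Nat.add (Nat.add (Nat.add (Nat.add C x1320) x3264) x2616) x2724) x2796) x2776) (Nat.mul x2778 (nat_lit 2))) x592)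
    (Nat.sub (Nat.sub (Nat.add (Nat.add (Nat.add (Nat.add (Nat.add (Nat.add (Nat.add (Nat.add C x1328) x3272) x2624) x2732) x2840) x2768) x2792) x2788) x2786) x4972)
    (Nat.sub (Nat.sub (Nat.sub (Nat.add (Nat.add (Nat.add (Nat.add (Nat.add (Nat.add (Nat.add (Nat.add C x1330) x3274) x2626) x2734) x2842) x2770) x2794) x2786) (Nat.mul x2788 (nat_lit 2))) x4974) x602)
    (Nat.sub (Nat.sub (Nat.add (Nat.add (Nat.add (Nat.add (Nat.add (Nat.add (Nat.add (Nat.add (Nat.add C x1334) x3278) x2630) x2738) x2846) x2774) x2810) x2786) x2794) (Nat.mul x2792 (nat_lit 2))) x4978)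
    (Nat.sub (Nat.sub (Nat.sub (Nat.add (Nat.add (Nat.add (Nat.add (Nat.add (Nat.add (Nat.add (Nat.add (Nat.add (Nat.add (Nat.add C x1336) x3280) x2632) x2740) x2848) x2776) x2812) x2788) x2800) x2792) x2796) x2794) x4980) x608)
    (Nat.sub (Nat.sub (Nat.add (Nat.add (Nat.add (Nat.add (Nat.add (Nat.add (Nat.add (Nat.add (Nat.add C x1338) x3282) x2634) x2742) x2850) x2778) x2814) x2802) x2794) (Nat.mul x2796 (nat_lit 2))) x610)
    (Nat.sub (Nat.sub (Nat.sub (Nat.add (Nat.add (Nat.add (Nat.add (Nat.add (Nat.add (Nat.add (Nat.add C x1342) x3286) x2638) x2746) x2854) x2818) x2794) x2802) (Nat.mul x2800 (nat_lit 2))) x4986) x614)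
    (Nat.sub (Nat.sub (Nat.add (Nat.add (Nat.add (Nat.add (Nat.add (Nat.add (Nat.add (Nat.add C x1344) x3288) x2640) x2748) x2856) x2820) x2796) x2800) x2802) x616)
    (Nat.sub (Nat.sub (Nat.add (Nat.add (Nat.add (Nat.add (Nat.add (Nat.add C x1352) x3296) x2648) x2864) x2792) x2812) (Nat.mul x2810 (nat_lit 2))) x4996)
    (Nat.sub (Nat.sub (Nat.sub (Nat.add (Nat.add (Nat.add (Nat.add (Nat.add (Nat.add (Nat.add (Nat.add C x1354) x3298) x2650) x2866) x2794) x2818) x2810) x2814) (Nat.mul x2812 (nat_lit 2))) x4998) x626)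
    (Nat.sub (Nat.sub (Nat.add (Nat.add (Nat.add (Nat.add (Nat.add (Nat.add (Nat.add C x1356) x3300) x2652) x2868) x2796) x2820) x2812) (Nat.mul x2814 (nat_lit 4))) x628)
    (Nat.sub (Nat.sub (Nat.sub (Nat.add (Nat.add (Nat.add (Nat.add (Nat.add (Nat.add (Nat.add C x1360) x3304) x2656) x2872) x2800) x2812) x2820) x2818) x5004) x632)
    (Nat.sub (Nat.sub (Nat.add (Nat.add (Nat.add (Nat.add (Nat.add (Nat.add (Nat.add (Nat.add C x1362) x3306) x2658) x2874) x2802) x2814) x2826) x2818) x2820) x634)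
    (Nat.sub (Nat.add (Nat.add (Nat.add (Nat.add (Nat.add C x1368) x3312) x2664) x2880) x2820) x640)
    (Nat.sub (Nat.add (Nat.add (Nat.add (Nat.add (Nat.add C x1382) x3326) x2786) x2846) x2842) x5026)
    (Nat.sub (Nat.sub (Nat.sub (Nat.add (Nat.add (Nat.add (Nat.add (Nat.add C x1384) x3328) x2788) x2848) x2840) x2842) x5028) x656)
    (Nat.sub (Nat.sub (Nat.add (Nat.add (Nat.add (Nat.add (Nat.add (Nat.add C x1388) x3332) x2792) x2864) x2840) x2848) (Nat.mul x2846 (nat_lit 2))) x5032)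
    (Nat.sub (Nat.sub (Nat.sub (Nat.add (Nat.add (Nat.add (Nat.add (Nat.add (Nat.add (Nat.add (Nat.add C x1390) x3334) x2794) x2866) x2842) x2854) x2846) x2850) x2848) x5034) x662)
    (Nat.sub (Nat.sub (Nat.add (Nat.add (Nat.add (Nat.add (Nat.add (Nat.add C x1392) x3336) x2796) x2868) x2856) x2848) (Nat.mul x2850 (nat_lit 2))) x664)
    (Nat.sub (Nat.sub (Nat.sub (Nat.add (Nat.add (Nat.add (Nat.add (Nat.add (Nat.add C x1396) x3340) x2800) x2872) x2848) x2856) (Nat.mul x2854 (nat_lit 3))) x5040) x668)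
    (Nat.sub (Nat.sub (Nat.add (Nat.add (Nat.add (Nat.add (Nat.add (Nat.add C x1398) x3342) x2802) x2874) x2850) x2854) (Nat.mul x2856 (nat_lit 2))) x670)
    (Nat.sub (Nat.add (Nat.add (Nat.add (Nat.add (Nat.add C x1406) x3350) x2810) x2846) x2866) x5050)
    (Nat.sub (Nat.sub (Nat.add (Nat.add (Nat.add (Nat.add (Nat.add (Nat.add (Nat.add C x1408) x3352) x2812) x2848) x2872) x2864) x2868) x5052) x680)
    (Nat.sub (Nat.sub (Nat.add (Nat.add (Nat.add (Nat.add (Nat.add (Nat.add C x1410) x3354) x2814) x2850) x2874) x2866) (Nat.mul x2868 (nat_lit 2))) x682)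
    (Nat.sub (Nat.sub (Nat.add (Nat.add (Nat.add (Nat.add (Nat.add (Nat.add (Nat.add C x1414) x3358) x2818) x2854) x2890) x2866) x2874) x5058) x686)
    (Nat.sub (Nat.add (Nat.add (Nat.add (Nat.add (Nat.add (Nat.add (Nat.add (Nat.add C x1416) x3360) x2820) x2856) x2892) x2868) x2880) x2872) x688)
    (Nat.sub (Nat.add (Nat.add (Nat.add (Nat.add (Nat.add C x1422) x3366) x2826) x2898) x2874) x694)
    (Nat.sub (Nat.sub (Nat.add (Nat.add (Nat.add (Nat.add (Nat.add C x2890) x1432) x3376) x2872) x2892) x5076) x704)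
    (Nat.sub (Nat.add (Nat.add (Nat.add (Nat.add (Nat.add C x1434) x3378) x2874) x2898) x2890) x706)
    (Nat.sub (Nat.add (Nat.add (Nat.add (Nat.add (Nat.add C (Nat.mul x2898 (nat_lit 2))) x1440) x3384) x2880) x2892) x712)
    (Nat.sub (Nat.add (Nat.add (Nat.add (Nat.add (Nat.add C (Nat.mul x2942 (nat_lit 3))) x1484) x4400) x2456) x2960) x5128)
    (Nat.sub (Nat.add (Nat.add (Nat.add (Nat.add (Nat.add (Nat.add (Nat.add (Nat.add C (Nat.mul x2960 (nat_lit 2))) x1502) x4418) x2474) x3014) x2942) x2978) x2966) x5146)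
    (Nat.sub (Nat.add (Nat.add (Nat.add (Nat.add (Nat.add (Nat.add (Nat.add (Nat.add C x2966) x1508) x4424) x2480) x3020) x2984) x2960) x2968) x5152)
    (Nat.sub (Nat.sub (Nat.add (Nat.add (Nat.add (Nat.add (Nat.add (Nat.add (Nat.add C (Nat.mul x2968 (nat_lit 2))) x1510) x4426) x2482) x3022) x2986) x2966) x5154) x782)
    (Nat.sub (Nat.sub (Nat.add (Nat.add (Nat.add (Nat.add (Nat.add (Nat.add C x1520) x4436) x2492) x3032) x2960) x2984) x2978) x5164)
    (Nat.sub (Nat.add (Nat.add (Nat.add (Nat.add (Nat.add (Nat.add (Nat.add (Nat.add C x1526) x4442) x2498) x3038) x2966) x2978) x2990) x2986) x5170)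
    (Nat.sub (Nat.sub (Nat.add (Nat.add (Nat.add (Nat.add (Nat.add (Nat.add (Nat.add C x1528) x4444) x2500) x3040) x2968) x2992) x2984) x5172) x800)
    (Nat.sub (Nat.sub (Nat.add (Nat.add (Nat.add (Nat.add (Nat.add (Nat.add C x1532) x4448) x2504) x3044) x2984) x2992) x2990) x5176)
    (Nat.sub (Nat.sub (Nat.add (Nat.add (Nat.add (Nat.add (Nat.add (Nat.add (Nat.add (Nat.add C x2992) x1534) x4450) x2506) x3046) x2986) x2990) x2994) x5178) x806)
    (Nat.sub (Nat.add (Nat.add (Nat.add (Nat.add (Nat.add (Nat.add C x2994) x1536) x4452) x2508) x3048) x2992) x808)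
    (Nat.sub (Nat.add (Nat.add (Nat.add (Nat.add (Nat.add (Nat.add (Nat.add (Nat.add C x3014) x1556) x4472) x2528) x3176) x2960) x3032) x3020) x5200)
    (Nat.sub (Nat.sub (Nat.add (Nat.add (Nat.add (Nat.add (Nat.add (Nat.add (Nat.add (Nat.add C x1562) x4478) x2534) x3182) x2966) x3038) x3014) x3022) x3020) x5206)
    (Nat.sub (Nat.sub (Nat.add (Nat.add (Nat.add (Nat.add (Nat.add (Nat.add (Nat.add C x1564) x4480) x2536) x3184) x2968) x3040) x3020) x5208) x836)
    (Nat.sub (Nat.add (Nat.add (Nat.add (Nat.add (Nat.add (Nat.add (Nat.add (Nat.add C x1574) x4490) x2546) x3194) x2978) x3086) x3014) x3038) x5218)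
    (Nat.sub (Nat.add (Nat.add (Nat.add (Nat.add (Nat.add (Nat.add (Nat.add (Nat.add (Nat.add (Nat.add (Nat.add C x1580) x4496) x2552) x3200) x2984) x3092) x3020) x3056) x3032) x3044) x3040) x5224)
    (Nat.sub (Nat.sub (Nat.add (Nat.add (Nat.add (Nat.add (Nat.add (Nat.add (Nat.add (Nat.add (Nat.add (Nat.add C x1582) x4498) x2554) x3202) x2986) x3094) x3022) x3058) x3046) x3038) x5226) x854)
    (Nat.sub (Nat.sub (Nat.add (Nat.add (Nat.add (Nat.add (Nat.add (Nat.add (Nat.add (Nat.add (Nat.add C x1586) x4502) x2558) x3206) x2990) x3098) x3062) x3038) x3046) (Nat.mul x3044 (nat_lit 2))) x5230)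
    (Nat.sub (Nat.sub (Nat.add (Nat.add (Nat.add (Nat.add (Nat.add (Nat.add (Nat.add (Nat.add (Nat.add (Nat.add C x1588) x4504) x2560) x3208) x2992) x3100) x3064) x3040) x3044) x3048) x5232) x860)
    (Nat.sub (Nat.add (Nat.add (Nat.add (Nat.add (Nat.add (Nat.add (Nat.add (Nat.add C x1590) x4506) x2562) x3210) x2994) x3102) x3066) x3046) x862)
    (Nat.sub (Nat.sub (Nat.add (Nat.add (Nat.add (Nat.add (Nat.add (Nat.add (Nat.add (Nat.add C x1598) x4514) x2570) x3218) x3110) x3038) x3062) x3058) x3056) x5242)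
    (Nat.sub (Nat.sub (Nat.sub (Nat.add (Nat.add (Nat.add (Nat.add (Nat.add (Nat.add (Nat.add (Nat.add C x1600) x4516) x2572) x3220) x3112) x3040) x3064) x3056) (Nat.mul x3058 (nat_lit 2))) x5244) x872)
    (Nat.sub (Nat.sub (Nat.add (Nat.add (Nat.add (Nat.add (Nat.add (Nat.add (Nat.add (Nat.add C x1604) x4520) x2576) x3224) x3116) x3044) x3056) x3064) x3062) x5248)
    (Nat.sub (Nat.sub (Nat.add (Nat.add (Nat.add (Nat.add (Nat.add (Nat.add (Nat.add (Nat.add (Nat.add (Nat.add C x1606) x4522) x2578) x3226) x3118) x3046) x3058) x3070) x3062) x3066) x5250) x878)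
    (Nat.sub (Nat.sub (Nat.add (Nat.add (Nat.add (Nat.add (Nat.add (Nat.add (Nat.add (Nat.add C x1608) x4524) x2580) x3228) x3120) x3048) x3072) x3064) x3066) x880)
    (Nat.sub (Nat.sub (Nat.add (Nat.add (Nat.add (Nat.add (Nat.add (Nat.add (Nat.add C x1612) x4528) x2584) x3232) x3124) x3064) x3072) x5256) x884)
    (Nat.sub (Nat.add (Nat.add (Nat.add (Nat.add (Nat.add (Nat.add (Nat.add (Nat.add C x3072) x1614) x4530) x2586) x3234) x3126) x3066) x3070) x886)
    (Nat.sub (Nat.sub (Nat.add (Nat.add (Nat.add (Nat.add (Nat.add (Nat.add C x1628) x4544) x2600) x3248) x3032) x3092) x3086) x5272)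
    (Nat.sub (Nat.sub (Nat.add (Nat.add (Nat.add (Nat.add (Nat.add (Nat.add (Nat.add (Nat.add (Nat.add C x1634) x4550) x2606) x3254) x3038) x3110) x3086) x3098) x3094) (Nat.mul x3092 (nat_lit 2))) x5278)
    (Nat.sub (Nat.sub (Nat.sub (Nat.add (Nat.add (Nat.add (Nat.add (Nat.add (Nat.add (Nat.add (Nat.add C x1636) x4552) x2608) x3256) x3040) x3112) x3100) x3092) (Nat.mul x3094 (nat_lit 2))) x5280) x908)
    (Nat.sub (Nat.sub (Nat.add (Nat.add (Nat.add (Nat.add (Nat.add (Nat.add (Nat.add (Nat.add C x1640) x4556) x2612) x3260) x3044) x3116) x3092) x3100) (Nat.mul x3098 (nat_lit 5))) x5284)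
    (Nat.sub (Nat.sub (Nat.sub (Nat.add (Nat.add (Nat.add (Nat.add (Nat.add (Nat.add (Nat.add (Nat.add (Nat.add C x1642) x4558) x2614) x3262) x3046) x3118) x3094) x3098) x3102) (Nat.mul x3100 (nat_lit 3))) x5286) x914)
    (Nat.sub (Nat.sub (Nat.add (Nat.add (Nat.add (Nat.add (Nat.add (Nat.add (Nat.add C x1644) x4560) x2616) x3264) x3048) x3120) x3100) (Nat.mul x3102 (nat_lit 3))) x916)
    (Nat.sub (Nat.sub (Nat.add (Nat.add (Nat.add (Nat.add (Nat.add (Nat.add (Nat.add (Nat.add C x1652) x4568) x2624) x3272) x3056) x3092) x3116) x3112) x3110) x5296)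
    (Nat.sub (Nat.sub (Nat.sub (Nat.add (Nat.add (Nat.add (Nat.add (Nat.add (Nat.add (Nat.add (Nat.add C x1654) x4570) x2626) x3274) x3058) x3094) x3118) x3110) (Nat.mul x3112 (nat_lit 2))) x5298) x926)
    (Nat.sub (Nat.sub (Nat.add (Nat.add (Nat.add (Nat.add (Nat.add (Nat.add (Nat.add (Nat.add (Nat.add C x1658) x4574) x2630) x3278) x3062) x3098) x3134) x3110) x3118) (Nat.mul x3116 (nat_lit 2))) x5302)
    (Nat.sub (Nat.sub (Nat.sub (Nat.add (Nat.add (Nat.add (Nat.add (Nat.add (Nat.add (Nat.add (Nat.add (Nat.add (Nat.add (Nat.add C x1660) x4576) x2632) x3280) x3064) x3100) x3136) x3112) x3124) x3116) x3120) x3118) x5304) x932)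
    (Nat.sub (Nat.sub (Nat.add (Nat.add (Nat.add (Nat.add (Nat.add (Nat.add (Nat.add (Nat.add (Nat.add C x1662) x4578) x2634) x3282) x3066) x3102) x3138) x3126) x3118) (Nat.mul x3120 (nat_lit 2))) x934)
    (Nat.sub (Nat.sub (Nat.sub (Nat.add (Nat.add (Nat.add (Nat.add (Nat.add (Nat.add (Nat.add (Nat.add C x1666) x4582) x2638) x3286) x3070) x3142) x3118) x3126) (Nat.mul x3124 (nat_lit 2))) x5310) x938)
    (Nat.sub (Nat.sub (Nat.add (Nat.add (Nat.add (Nat.add (Nat.add (Nat.add (Nat.add (Nat.add C x1668) x4584) x2640) x3288) x3072) x3144) x3120) x3124) x3126) x940)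
    (Nat.sub (Nat.sub (Nat.add (Nat.add (Nat.add (Nat.add (Nat.add (Nat.add C x1676) x4592) x2648) x3296) x3116) x3136) x3134) x5320)
    (Nat.sub (Nat.sub (Nat.sub (Nat.add (Nat.add (Nat.add (Nat.add (Nat.add (Nat.add (Nat.add (Nat.add C x1678) x4594) x2650) x3298) x3118) x3142) x3134) x3138) x3136) x5322) x950)
    (Nat.sub (Nat.sub (Nat.add (Nat.add (Nat.add (Nat.add (Nat.add (Nat.add (Nat.add C x1680) x4596) x2652) x3300) x3120) x3144) x3136) (Nat.mul x3138 (nat_lit 3))) x952)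
    (Nat.sub (Nat.sub (Nat.add (Nat.add (Nat.add (Nat.add (Nat.add (Nat.add (Nat.add C x1684) x4600) x2656) x3304) x3124) x3136) x3144) x5328) x956)
    (Nat.sub (Nat.add (Nat.add (Nat.add (Nat.add (Nat.add (Nat.add (Nat.add (Nat.add C x1686) x4602) x2658) x3306) x3126) x3138) x3150) x3142) x958)
    (Nat.sub (Nat.add (Nat.add (Nat.add (Nat.add (Nat.add (Nat.add C x3150) x1692) x4608) x2664) x3312) x3144) x964)
    (Nat.sub (Nat.add (Nat.add (Nat.add (Nat.add (Nat.add (Nat.add (Nat.add (Nat.add C (Nat.mul x3176 (nat_lit 2))) x1718) x4634) x2690) x3662) x3014) x3194) x3182) x5362)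
    (Nat.sub (Nat.add (Nat.add (Nat.add (Nat.add (Nat.add (Nat.add (Nat.add (Nat.add C x1724) x4640) x2696) x3668) x3020) x3200) x3176) x3184) x5368)
    (Nat.sub (Nat.sub (Nat.add (Nat.add (Nat.add (Nat.add (Nat.add (Nat.add (Nat.add (Nat.add C x3184) x1726) x4642) x2698) x3670) x3022) x3202) x3182) x5370) x998)
    (Nat.sub (Nat.add (Nat.add (Nat.add (Nat.add (Nat.add (Nat.add (Nat.add (Nat.add C x1736) x4652) x2708) x3680) x3032) x3248) x3176) x3200) x5380)
    (Nat.sub (Nat.add (Nat.add (Nat.add (Nat.add (Nat.add (Nat.add (Nat.add (Nat.add (Nat.add (Nat.add (Nat.add C x1742) x4658) x2714) x3686) x3038) x3254) x3182) x3218) x3194) x3206) x3202) x5386)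
    (Nat.sub (Nat.sub (Nat.add (Nat.add (Nat.add (Nat.add (Nat.add (Nat.add (Nat.add (Nat.add (Nat.add (Nat.add C x1744) x4660) x2716) x3688) x3040) x3256) x3184) x3220) x3208) x3200) x5388) x1016)
    (Nat.sub (Nat.sub (Nat.add (Nat.add (Nat.add (Nat.add (Nat.add (Nat.add (Nat.add (Nat.add (Nat.add C x1748) x4664) x2720) x3692) x3044) x3260) x3224) x3200) x3208) (Nat.mul x3206 (nat_lit 2))) x5392)
    (Nat.sub (Nat.sub (Nat.add (Nat.add (Nat.add (Nat.add (Nat.add (Nat.add (Nat.add (Nat.add (Nat.add (Nat.add C x1750) x4666) x2722) x3694) x3046) x3262) x3226) x3202) x3206) x3210) x5394) x1022)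
    (Nat.sub (Nat.add (Nat.add (Nat.add (Nat.add (Nat.add (Nat.add (Nat.add (Nat.add C x1752) x4668) x2724) x3696) x3048) x3264) x3228) x3208) x1024)
    (Nat.sub (Nat.sub (Nat.add (Nat.add (Nat.add (Nat.add (Nat.add (Nat.add (Nat.add (Nat.add (Nat.add C x1760) x4676) x2732) x3704) x3056) x3272) x3200) x3224) x3220) (Nat.mul x3218 (nat_lit 2))) x5404)
    (Nat.sub (Nat.sub (Nat.sub (Nat.add (Nat.add (Nat.add (Nat.add (Nat.add (Nat.add (Nat.add (Nat.add (Nat.add C x1762) x4678) x2734) x3706) x3058) x3274) x3202) x3226) x3218) (Nat.mul x3220 (nat_lit 3))) x5406) x1034)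
    (Nat.sub (Nat.sub (Nat.add (Nat.add (Nat.add (Nat.add (Nat.add (Nat.add (Nat.add (Nat.add (Nat.add C x1766) x4682) x2738) x3710) x3062) x3278) x3206) x3218) x3226) (Nat.mul x3224 (nat_lit 2))) x5410)
    (Nat.sub (Nat.sub (Nat.sub (Nat.add (Nat.add (Nat.add (Nat.add (Nat.add (Nat.add (Nat.add (Nat.add (Nat.add (Nat.add (Nat.add C x1768) x4684) x2740) x3712) x3064) x3280) x3208) x3220) x3232) x3224) x3228) x3226) x5412) x1040)
    (Nat.sub (Nat.sub (Nat.add (Nat.add (Nat.add (Nat.add (Nat.add (Nat.add (Nat.add (Nat.add (Nat.add C x1770) x4686) x2742) x3714) x3066) x3282) x3210) x3234) x3226) (Nat.mul x3228 (nat_lit 2))) x1042)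
    (Nat.sub (Nat.sub (Nat.sub (Nat.add (Nat.add (Nat.add (Nat.add (Nat.add (Nat.add (Nat.add (Nat.add C x1774) x4690) x2746) x3718) x3070) x3286) x3226) x3234) x3232) x5418) x1046)
    (Nat.sub (Nat.add (Nat.add (Nat.add (Nat.add (Nat.add (Nat.add (Nat.add (Nat.add C x1776) x4692) x2748) x3720) x3072) x3288) x3228) x3232) x1048)
    (Nat.sub (Nat.add (Nat.add (Nat.add (Nat.add (Nat.add (Nat.add (Nat.add (Nat.add (Nat.add C x3248) x1790) x4706) x2762) x3734) x3086) x3410) x3194) x3254) x5434)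
    (Nat.sub (Nat.add (Nat.add (Nat.add (Nat.add (Nat.add (Nat.add (Nat.add (Nat.add (Nat.add (Nat.add (Nat.add C x1796) x4712) x2768) x3740) x3092) x3416) x3200) x3272) x3248) x3260) x3256) x5440)
    (Nat.sub (Nat.sub (Nat.add (Nat.add (Nat.add (Nat.add (Nat.add (Nat.add (Nat.add (Nat.add (Nat.add (Nat.add C x1798) x4714) x2770) x3742) x3094) x3418) x3202) x3274) x3262) x3254) x5442) x1070)
    (Nat.sub (Nat.sub (Nat.add (Nat.add (Nat.add (Nat.add (Nat.add (Nat.add (Nat.add (Nat.add (Nat.add (Nat.add C x1802) x4718) x2774) x3746) x3098) x3422) x3206) x3278) x3254) x3262) (Nat.mul x3260 (nat_lit 3))) x5446)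
    (Nat.sub (Nat.sub (Nat.sub (Nat.add (Nat.add (Nat.add (Nat.add (Nat.add (Nat.add (Nat.add (Nat.add (Nat.add (Nat.add (Nat.add C x1804) x4720) x2776) x3748) x3100) x3424) x3208) x3280) x3256) x3260) x3264) x3262) x5448) x1076)
    (Nat.sub (Nat.sub (Nat.add (Nat.add (Nat.add (Nat.add (Nat.add (Nat.add (Nat.add (Nat.add (Nat.add C x1806) x4722) x2778) x3750) x3102) x3426) x3210) x3282) x3262) x3264) x1078)
    (Nat.sub (Nat.add (Nat.add (Nat.add (Nat.add (Nat.add (Nat.add (Nat.add (Nat.add (Nat.add (Nat.add (Nat.add C x1814) x4730) x2786) x3758) x3110) x3434) x3218) x3326) x3254) x3278) x3274) x5458)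
    (Nat.sub (Nat.sub (Nat.sub (Nat.add (Nat.add (Nat.add (Nat.add (Nat.add (Nat.add (Nat.add (Nat.add (Nat.add (Nat.add (Nat.add C x1816) x4732) x2788) x3760) x3112) x3436) x3220) x3328) x3256) x3280) x3272) x3274) x5460) x1088)
    (Nat.sub (Nat.sub (Nat.add (Nat.add (Nat.add (Nat.add (Nat.add (Nat.add (Nat.add (Nat.add (Nat.add (Nat.add (Nat.add (Nat.add C x1820) x4736) x2792) x3764) x3116) x3440) x3224) x3332) x3260) x3296) x3272) x3280) x3278) x5464)
    (Nat.sub (Nat.sub (Nat.sub (Nat.add (Nat.add (Nat.add (Nat.add (Nat.add (Nat.add (Nat.add (Nat.add (Nat.add (Nat.add (Nat.add (Nat.add (Nat.add (Nat.add (Nat.add C x1822) x4738) x2794) x3766) x3118) x3442) x3226) x3334) x3262) x3298) x3274) x3286) x3278) x3282) (Nat.mul (e (nat_lit 3280)) ap)) x5466) x1094) (Nat.mul (e (nat_lit 3280)) an))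
    (Nat.sub (Nat.sub (Nat.add (Nat.add (Nat.add (Nat.add (Nat.add (Nat.add (Nat.add (Nat.add (Nat.add (Nat.add (Nat.add (Nat.add C x1824) x4740) x2796) x3768) x3120) x3444) x3228) x3336) x3264) x3300) x3288) x3280) x3282) x1096)
    (Nat.sub (Nat.sub (Nat.sub (Nat.add (Nat.add (Nat.add (Nat.add (Nat.add (Nat.add (Nat.add (Nat.add (Nat.add (Nat.add (Nat.add C x1828) x4744) x2800) x3772) x3124) x3448) x3232) x3340) x3304) x3280) x3288) x3286) x5472) x1100)
    (Nat.sub (Nat.add (Nat.add (Nat.add (Nat.add (Nat.add (Nat.add (Nat.add (Nat.add (Nat.add (Nat.add (Nat.add C x1830) x4746) x2802) x3774) x3126) x3450) x3234) x3342) x3306) x3282) x3286) x1102)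
    (Nat.sub (Nat.sub (Nat.add (Nat.add (Nat.add (Nat.add (Nat.add (Nat.add (Nat.add (Nat.add (Nat.add C x1838) x4754) x2810) x3782) x3134) x3458) x3350) x3278) x3298) x3296) x5482)
    (Nat.sub (Nat.sub (Nat.sub (Nat.add (Nat.add (Nat.add (Nat.add (Nat.add (Nat.add (Nat.add (Nat.add (Nat.add (Nat.add (Nat.add C x1840) x4756) x2812) x3784) x3136) x3460) x3352) x3280) x3304) x3296) x3300) x3298) x5484) x1112)
    (Nat.sub (Nat.sub (Nat.add (Nat.add (Nat.add (Nat.add (Nat.add (Nat.add (Nat.add (Nat.add (Nat.add (Nat.add C x1842) x4758) x2814) x3786) x3138) x3462) x3354) x3282) x3306) x3298) (Nat.mul x3300 (nat_lit 3))) x1114)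
    (Nat.sub (Nat.sub (Nat.add (Nat.add (Nat.add (Nat.add (Nat.add (Nat.add (Nat.add (Nat.add (Nat.add (Nat.add C x1846) x4762) x2818) x3790) x3142) x3466) x3358) x3286) x3298) x3306) x5490) x1118)
    (Nat.sub (Nat.add (Nat.add (Nat.add (Nat.add (Nat.add (Nat.add (Nat.add (Nat.add (Nat.add (Nat.add (Nat.add C x1848) x4764) x2820) x3792) x3144) x3468) x3360) x3288) x3300) x3312) x3304) x1120)
    (Nat.sub (Nat.add (Nat.add (Nat.add (Nat.add (Nat.add (Nat.add (Nat.add (Nat.add (Nat.add C x3312) x1854) x4770) x2826) x3798) x3150) x3474) x3366) x3306) x1126)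
    (Nat.sub (Nat.add (Nat.add (Nat.add (Nat.add (Nat.add (Nat.add (Nat.add (Nat.add C x1868) x4784) x2840) x3812) x3488) x3272) x3332) x3328) x5512)
    (Nat.sub (Nat.sub (Nat.sub (Nat.add (Nat.add (Nat.add (Nat.add (Nat.add (Nat.add (Nat.add (Nat.add C x1870) x4786) x2842) x3814) x3490) x3274) x3334) x3326) x3328) x5514) x1142)
    (Nat.sub (Nat.sub (Nat.add (Nat.add (Nat.add (Nat.add (Nat.add (Nat.add (Nat.add (Nat.add (Nat.add C x1874) x4790) x2846) x3818) x3494) x3278) x3350) x3326) x3334) (Nat.mul x3332 (nat_lit 2))) x5518)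
    (Nat.sub (Nat.sub (Nat.sub (Nat.add (Nat.add (Nat.add (Nat.add (Nat.add (Nat.add (Nat.add (Nat.add (Nat.add (Nat.add (Nat.add C x1876) x4792) x2848) x3820) x3496) x3280) x3352) x3328) x3340) x3332) x3336) x3334) x5520) x1148)
    (Nat.sub (Nat.sub (Nat.add (Nat.add (Nat.add (Nat.add (Nat.add (Nat.add (Nat.add (Nat.add (Nat.add C x1878) x4794) x2850) x3822) x3498) x3282) x3354) x3342) x3334) (Nat.mul x3336 (nat_lit 2))) x1150)
    (Nat.sub (Nat.sub (Nat.sub (Nat.add (Nat.add (Nat.add (Nat.add (Nat.add (Nat.add (Nat.add (Nat.add (Nat.add C x1882) x4798) x2854) x3826) x3502) x3286) x3358) x3334) x3342) (Nat.mul x3340 (nat_lit 3))) x5526) x1154)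
    (Nat.sub (Nat.sub (Nat.add (Nat.add (Nat.add (Nat.add (Nat.add (Nat.add (Nat.add (Nat.add (Nat.add C x1884) x4800) x2856) x3828) x3504) x3288) x3360) x3336) x3340) (Nat.mul x3342 (nat_lit 2))) x1156)
    (Nat.sub (Nat.add (Nat.add (Nat.add (Nat.add (Nat.add (Nat.add (Nat.add (Nat.add C x1892) x4808) x2864) x3836) x3512) x3296) x3332) x3352) x5536)
    (Nat.sub (Nat.sub (Nat.add (Nat.add (Nat.add (Nat.add (Nat.add (Nat.add (Nat.add (Nat.add (Nat.add (Nat.add C x1894) x4810) x2866) x3838) x3514) x3298) x3334) x3358) x3350) x3354) x5538) x1166)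
    (Nat.sub (Nat.sub (Nat.add (Nat.add (Nat.add (Nat.add (Nat.add (Nat.add (Nat.add (Nat.add (Nat.add C x1896) x4812) x2868) x3840) x3516) x3300) x3336) x3360) x3352) (Nat.mul x3354 (nat_lit 2))) x1168)
    (Nat.sub (Nat.sub (Nat.add (Nat.add (Nat.add (Nat.add (Nat.add (Nat.add (Nat.add (Nat.add (Nat.add (Nat.add C x1900) x4816) x2872) x3844) x3520) x3304) x3340) x3376) x3352) x3360) x5544) x1172)
    (Nat.sub (Nat.add (Nat.add (Nat.add (Nat.add (Nat.add (Nat.add (Nat.add (Nat.add (Nat.add (Nat.add (Nat.add C x1902) x4818) x2874) x3846) x3522) x3306) x3342) x3378) x3354) x3366) x3358) x1174)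
    (Nat.sub (Nat.add (Nat.add (Nat.add (Nat.add (Nat.add (Nat.add (Nat.add (Nat.add C x1908) x4824) x2880) x3852) x3528) x3312) x3384) x3360) x1180)
    (Nat.sub (Nat.sub (Nat.add (Nat.add (Nat.add (Nat.add (Nat.add (Nat.add (Nat.add (Nat.add C x3376) x1918) x4834) x2890) x3862) x3538) x3358) x3378) x5562) x1190)
    (Nat.sub (Nat.add (Nat.add (Nat.add (Nat.add (Nat.add (Nat.add (Nat.add (Nat.add C x1920) x4836) x2892) x3864) x3540) x3360) x3384) x3376) x1192)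
    (Nat.sub (Nat.add (Nat.add (Nat.add (Nat.add (Nat.add (Nat.add (Nat.add (Nat.add C (Nat.mul x3384 (nat_lit 2))) x1926) x4842) x2898) x3870) x3546) x3366) x3378) x1198)
    (Nat.sub (Nat.add (Nat.add (Nat.add (Nat.add (Nat.add (Nat.add C x3410) x1952) x4868) x3896) x3248) x3416) x5596)
    (Nat.sub (Nat.add (Nat.add (Nat.add (Nat.add (Nat.add (Nat.add (Nat.add (Nat.add C x1958) x4874) x3902) x3254) x3434) x3410) x3422) x3418) x5602)
    (Nat.sub (Nat.sub (Nat.add (Nat.add (Nat.add (Nat.add (Nat.add (Nat.add (Nat.add C x1960) x4876) x3904) x3256) x3436) x3424) x3416) x5604) x1232)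
    (Nat.sub (Nat.sub (Nat.add (Nat.add (Nat.add (Nat.add (Nat.add (Nat.add (Nat.add C x1964) x4880) x3908) x3260) x3440) x3416) x3424) (Nat.mul x3422 (nat_lit 3))) x5608)
    (Nat.sub (Nat.sub (Nat.sub (Nat.add (Nat.add (Nat.add (Nat.add (Nat.add (Nat.add (Nat.add (Nat.add C x1966) x4882) x3910) x3262) x3442) x3418) x3422) x3426) x3424) x5610) x1238)
    (Nat.sub (Nat.sub (Nat.add (Nat.add (Nat.add (Nat.add (Nat.add (Nat.add C x1968) x4884) x3912) x3264) x3444) x3424) x3426) x1240)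
    (Nat.sub (Nat.sub (Nat.add (Nat.add (Nat.add (Nat.add (Nat.add (Nat.add (Nat.add (Nat.add C x1976) x4892) x3920) x3272) x3488) x3416) x3440) x3436) x3434) x5620)
    (Nat.sub (Nat.sub (Nat.sub (Nat.add (Nat.add (Nat.add (Nat.add (Nat.add (Nat.add (Nat.add (Nat.add C x1978) x4894) x3922) x3274) x3490) x3418) x3442) x3434) (Nat.mul x3436 (nat_lit 2))) x5622) x1250)
    (Nat.sub (Nat.sub (Nat.add (Nat.add (Nat.add (Nat.add (Nat.add (Nat.add (Nat.add (Nat.add (Nat.add C x1982) x4898) x3926) x3278) x3494) x3422) x3458) x3434) x3442) (Nat.mul x3440 (nat_lit 2))) x5626)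
    (Nat.sub (Nat.sub (Nat.sub (Nat.add (Nat.add (Nat.add (Nat.add (Nat.add (Nat.add (Nat.add (Nat.add (Nat.add (Nat.add (Nat.add C x1984) x4900) x3928) x3280) x3496) x3424) x3460) x3436) x3448) x3440) x3444) x3442) x5628) x1256)
    (Nat.sub (Nat.sub (Nat.add (Nat.add (Nat.add (Nat.add (Nat.add (Nat.add (Nat.add (Nat.add (Nat.add C x1986) x4902) x3930) x3282) x3498) x3426) x3462) x3450) x3442) (Nat.mul x3444 (nat_lit 2))) x1258)
    (Nat.sub (Nat.sub (Nat.sub (Nat.add (Nat.add (Nat.add (Nat.add (Nat.add (Nat.add (Nat.add (Nat.add C x1990) x4906) x3934) x3286) x3502) x3466) x3442) x3450) (Nat.mul x3448 (nat_lit 2))) x5634) x1262)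
    (Nat.sub (Nat.sub (Nat.add (Nat.add (Nat.add (Nat.add (Nat.add (Nat.add (Nat.add (Nat.add C x1992) x4908) x3936) x3288) x3504) x3468) x3444) x3448) x3450) x1264)
    (Nat.sub (Nat.sub (Nat.add (Nat.add (Nat.add (Nat.add (Nat.add (Nat.add (Nat.add C x2000) x4916) x3944) x3296) x3512) x3440) x3460) (Nat.mul x3458 (nat_lit 3))) x5644)
    (Nat.sub (Nat.sub (Nat.sub (Nat.add (Nat.add (Nat.add (Nat.add (Nat.add (Nat.add (Nat.add (Nat.add (Nat.add C x2002) x4918) x3946) x3298) x3514) x3442) x3466) x3458) x3462) (Nat.mul x3460 (nat_lit 3))) x5646) x1274)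
    (Nat.sub (Nat.sub (Nat.add (Nat.add (Nat.add (Nat.add (Nat.add (Nat.add (Nat.add (Nat.add C x2004) x4920) x3948) x3300) x3516) x3444) x3468) x3460) (Nat.mul x3462 (nat_lit 5))) x1276)
    (Nat.sub (Nat.sub (Nat.sub (Nat.add (Nat.add (Nat.add (Nat.add (Nat.add (Nat.add (Nat.add (Nat.add C x2008) x4924) x3952) x3304) x3520) x3448) x3460) x3468) (Nat.mul x3466 (nat_lit 2))) x5652) x1280)
    (Nat.sub (Nat.sub (Nat.add (Nat.add (Nat.add (Nat.add (Nat.add (Nat.add (Nat.add (Nat.add (Nat.add C x2010) x4926) x3954) x3306) x3522) x3450) x3462) x3474) x3466) (Nat.mul x3468 (nat_lit 2))) x1282)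
    (Nat.sub (Nat.sub (Nat.add (Nat.add (Nat.add (Nat.add (Nat.add (Nat.add C x2016) x4932) x3960) x3312) x3528) x3468) x3474) x1288)
    (Nat.sub (Nat.add (Nat.add (Nat.add (Nat.add (Nat.add (Nat.add (Nat.add (Nat.add C x3488) x2030) x4946) x3974) x3326) x3434) x3494) x3490) x5674)
    (Nat.sub (Nat.sub (Nat.add (Nat.add (Nat.add (Nat.add (Nat.add (Nat.add (Nat.add C x2032) x4948) x3976) x3328) x3436) x3496) x3488) x5676) x1304)
    (Nat.sub (Nat.sub (Nat.add (Nat.add (Nat.add (Nat.add (Nat.add (Nat.add (Nat.add (Nat.add C x2036) x4952) x3980) x3332) x3440) x3512) x3488) x3496) x3494) x5680)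
    (Nat.sub (Nat.sub (Nat.add (Nat.add (Nat.add (Nat.add (Nat.add (Nat.add (Nat.add (Nat.add (Nat.add (Nat.add C x2038) x4954) x3982) x3334) x3442) x3514) x3490) x3502) x3494) x3498) x5682) x1310)
    (Nat.sub (Nat.sub (Nat.add (Nat.add (Nat.add (Nat.add (Nat.add (Nat.add (Nat.add (Nat.add C x2040) x4956) x3984) x3336) x3444) x3516) x3504) x3496) x3498) x1312)
    (Nat.sub (Nat.sub (Nat.sub (Nat.add (Nat.add (Nat.add (Nat.add (Nat.add (Nat.add (Nat.add (Nat.add C x2044) x4960) x3988) x3340) x3448) x3520) x3496) x3504) (Nat.mul x3502 (nat_lit 2))) x5688) x1316)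
    (Nat.sub (Nat.sub (Nat.add (Nat.add (Nat.add (Nat.add (Nat.add (Nat.add (Nat.add (Nat.add C x2046) x4962) x3990) x3342) x3450) x3522) x3498) x3502) x3504) x1318)
    (Nat.sub (Nat.add (Nat.add (Nat.add (Nat.add (Nat.add (Nat.add (Nat.add (Nat.add C x2054) x4970) x3998) x3350) x3458) x3566) x3494) x3514) x5698)
    (Nat.sub (Nat.sub (Nat.add (Nat.add (Nat.add (Nat.add (Nat.add (Nat.add (Nat.add (Nat.add (Nat.add (Nat.add C x2056) x4972) x4000) x3352) x3460) x3568) x3496) x3520) x3512) x3516) x5700) x1328)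
    (Nat.sub (Nat.sub (Nat.add (Nat.add (Nat.add (Nat.add (Nat.add (Nat.add (Nat.add (Nat.add (Nat.add C x2058) x4974) x4002) x3354) x3462) x3570) x3498) x3522) x3514) (Nat.mul x3516 (nat_lit 2))) x1330)
    (Nat.sub (Nat.sub (Nat.add (Nat.add (Nat.add (Nat.add (Nat.add (Nat.add (Nat.add (Nat.add (Nat.add (Nat.add C x2062) x4978) x4006) x3358) x3466) x3574) x3502) x3538) x3514) x3522) x5706) x1334)
    (Nat.sub (Nat.add (Nat.add (Nat.add (Nat.add (Nat.add (Nat.add (Nat.add (Nat.add (Nat.add (Nat.add (Nat.add C x2064) x4980) x4008) x3360) x3468) x3576) x3504) x3540) x3516) x3528) x3520) x1336)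
    (Nat.sub (Nat.add (Nat.add (Nat.add (Nat.add (Nat.add (Nat.add (Nat.add (Nat.add C x2070) x4986) x4014) x3366) x3474) x3582) x3546) x3522) x1342)
    (Nat.sub (Nat.sub (Nat.add (Nat.add (Nat.add (Nat.add (Nat.add (Nat.add (Nat.add C x2080) x4996) x4024) x3376) x3592) x3520) x3540) x5724) x1352)
    (Nat.sub (Nat.sub (Nat.add (Nat.add (Nat.add (Nat.add (Nat.add (Nat.add (Nat.add (Nat.add C x2082) x4998) x4026) x3378) x3594) x3522) x3546) x3538) x3540) x1354)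
    (Nat.sub (Nat.add (Nat.add (Nat.add (Nat.add (Nat.add (Nat.add (Nat.add (Nat.add C x3546) x2088) x5004) x4032) x3384) x3600) x3528) x3540) x1360)
    (Nat.sub (Nat.add (Nat.add (Nat.add (Nat.add (Nat.add (Nat.add C x3566) x2108) x5024) x4052) x3512) x3568) x5752)
    (Nat.sub (Nat.sub (Nat.add (Nat.add (Nat.add (Nat.add (Nat.add (Nat.add (Nat.add (Nat.add C x3568) x2110) x5026) x4054) x3514) x3574) x3566) x3570) x5754) x1382)
    (Nat.sub (Nat.sub (Nat.add (Nat.add (Nat.add (Nat.add (Nat.add (Nat.add C x2112) x5028) x4056) x3516) x3576) x3568) x3570) x1384)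
    (Nat.sub (Nat.sub (Nat.add (Nat.add (Nat.add (Nat.add (Nat.add (Nat.add (Nat.add C x2116) x5032) x4060) x3520) x3592) x3568) x3576) x5760) x1388)
    (Nat.sub (Nat.add (Nat.add (Nat.add (Nat.add (Nat.add (Nat.add (Nat.add (Nat.add C x2118) x5034) x4062) x3522) x3594) x3570) x3582) x3574) x1390)
    (Nat.sub (Nat.sub (Nat.add (Nat.add (Nat.add (Nat.add (Nat.add (Nat.add C x2124) x5040) x4068) x3528) x3600) x3576) x3582) x1396)
    (Nat.sub (Nat.sub (Nat.add (Nat.add (Nat.add (Nat.add (Nat.add (Nat.add (Nat.add C (Nat.mul x3592 (nat_lit 2))) x2134) x5050) x4078) x3538) x3574) x3594) x5778) x1406)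
    (Nat.sub (Nat.add (Nat.add (Nat.add (Nat.add (Nat.add (Nat.add (Nat.add (Nat.add C x3594) x2136) x5052) x4080) x3540) x3576) x3600) x3592) x1408)
    (Nat.sub (Nat.add (Nat.add (Nat.add (Nat.add (Nat.add (Nat.add (Nat.add (Nat.add C (Nat.mul x3600 (nat_lit 2))) x2142) x5058) x4086) x3546) x3582) x3618) x3594) x1414)
    (Nat.sub (Nat.add (Nat.add (Nat.add (Nat.add (Nat.add C (Nat.mul x3618 (nat_lit 3))) x2160) x5076) x4104) x3600) x1432)
    (Nat.sub (Nat.add (Nat.add (Nat.add (Nat.add (Nat.add C (Nat.mul x3662 (nat_lit 2))) x5120) x3176) x3680) x3668) x5848)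
    (Nat.sub (Nat.add (Nat.add (Nat.add (Nat.add (Nat.add C x5126) x3182) x3686) x3662) x3670) x5854)
    (Nat.sub (Nat.sub (Nat.add (Nat.add (Nat.add (Nat.add (Nat.add C x3670) x5128) x3184) x3688) x3668) x5856) x1484)
    (Nat.sub (Nat.add (Nat.add (Nat.add (Nat.add (Nat.add C x5138) x3194) x3734) x3662) x3686) x5866)
    (Nat.sub (Nat.add (Nat.add (Nat.add (Nat.add (Nat.add (Nat.add (Nat.add (Nat.add C x5144) x3200) x3740) x3668) x3704) x3680) x3692) x3688) x5872)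
    (Nat.sub (Nat.sub (Nat.add (Nat.add (Nat.add (Nat.add (Nat.add (Nat.add (Nat.add C x5146) x3202) x3742) x3670) x3706) x3694) x3686) x5874) x1502)
    (Nat.sub (Nat.sub (Nat.add (Nat.add (Nat.add (Nat.add (Nat.add (Nat.add C x5150) x3206) x3746) x3710) x3686) x3694) (Nat.mul x3692 (nat_lit 2))) x5878)
    (Nat.sub (Nat.sub (Nat.add (Nat.add (Nat.add (Nat.add (Nat.add (Nat.add (Nat.add C x5152) x3208) x3748) x3712) x3688) x3692) x3696) x5880) x1508)
    (Nat.sub (Nat.add (Nat.add (Nat.add (Nat.add (Nat.add C x5154) x3210) x3750) x3714) x3694) x1510)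
    (Nat.sub (Nat.sub (Nat.add (Nat.add (Nat.add (Nat.add (Nat.add (Nat.add C x5162) x3218) x3758) x3686) x3710) x3706) (Nat.mul x3704 (nat_lit 2))) x5890)
    (Nat.sub (Nat.sub (Nat.sub (Nat.add (Nat.add (Nat.add (Nat.add (Nat.add (Nat.add C x5164) x3220) x3760) x3688) x3712) x3704) (Nat.mul x3706 (nat_lit 3))) x5892) x1520)
    (Nat.sub (Nat.sub (Nat.add (Nat.add (Nat.add (Nat.add (Nat.add (Nat.add C x5168) x3224) x3764) x3692) x3704) x3712) (Nat.mul x3710 (nat_lit 2))) x5896)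
    (Nat.sub (Nat.sub (Nat.sub (Nat.add (Nat.add (Nat.add (Nat.add (Nat.add (Nat.add (Nat.add (Nat.add C x5170) x3226) x3766) x3694) x3706) x3718) x3710) x3714) x3712) x5898) x1526)
    (Nat.sub (Nat.sub (Nat.add (Nat.add (Nat.add (Nat.add (Nat.add (Nat.add C x5172) x3228) x3768) x3696) x3720) x3712) (Nat.mul x3714 (nat_lit 2))) x1528)
    (Nat.sub (Nat.sub (Nat.sub (Nat.add (Nat.add (Nat.add (Nat.add (Nat.add C x5176) x3232) x3772) x3712) x3720) x3718) x5904) x1532)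
    (Nat.sub (Nat.add (Nat.add (Nat.add (Nat.add (Nat.add C x5178) x3234) x3774) x3714) x3718) x1534)
    (Nat.sub (Nat.add (Nat.add (Nat.add (Nat.add (Nat.add C x5192) x3248) x3896) x3680) x3740) x5920)
    (Nat.sub (Nat.sub (Nat.add (Nat.add (Nat.add (Nat.add (Nat.add (Nat.add (Nat.add (Nat.add C x5198) x3254) x3902) x3686) x3758) x3734) x3746) x3742) x3740) x5926)
    (Nat.sub (Nat.sub (Nat.sub (Nat.add (Nat.add (Nat.add (Nat.add (Nat.add (Nat.add (Nat.add C x5200) x3256) x3904) x3688) x3760) x3748) x3740) x3742) x5928) x1556)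
    (Nat.sub (Nat.sub (Nat.add (Nat.add (Nat.add (Nat.add (Nat.add (Nat.add (Nat.add C x5204) x3260) x3908) x3692) x3764) x3740) x3748) (Nat.mul x3746 (nat_lit 4))) x5932)
    (Nat.sub (Nat.sub (Nat.sub (Nat.add (Nat.add (Nat.add (Nat.add (Nat.add (Nat.add (Nat.add (Nat.add C x5206) x3262) x3910) x3694) x3766) x3742) x3746) x3750) (Nat.mul x3748 (nat_lit 2))) x5934) x1562)
    (Nat.sub (Nat.sub (Nat.add (Nat.add (Nat.add (Nat.add (Nat.add (Nat.add C x5208) x3264) x3912) x3696) x3768) x3748) (Nat.mul x3750 (nat_lit 2))) x1564)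
    (Nat.sub (Nat.sub (Nat.add (Nat.add (Nat.add (Nat.add (Nat.add (Nat.add (Nat.add (Nat.add C x5216) x3272) x3920) x3704) x3812) x3740) x3764) x3760) x3758) x5944)
    (Nat.sub (Nat.sub (Nat.sub (Nat.add (Nat.add (Nat.add (Nat.add (Nat.add (Nat.add (Nat.add (Nat.add C x5218) x3274) x3922) x3706) x3814) x3742) x3766) x3758) (Nat.mul x3760 (nat_lit 2))) x5946) x1574)
    (Nat.sub (Nat.sub (Nat.add (Nat.add (Nat.add (Nat.add (Nat.add (Nat.add (Nat.add (Nat.add (Nat.add C x5222) x3278) x3926) x3710) x3818) x3746) x3782) x3758) x3766) (Nat.mul x3764 (nat_lit 2))) x5950)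
    (Nat.sub (Nat.sub (Nat.sub (Nat.add (Nat.add (Nat.add (Nat.add (Nat.add (Nat.add (Nat.add (Nat.add (Nat.add (Nat.add (Nat.add C x5224) x3280) x3928) x3712) x3820) x3748) x3784) x3760) x3772) x3764) x3768) x3766) x5952) x1580)
    (Nat.sub (Nat.sub (Nat.add (Nat.add (Nat.add (Nat.add (Nat.add (Nat.add (Nat.add (Nat.add (Nat.add C x5226) x3282) x3930) x3714) x3822) x3750) x3786) x3774) x3766) (Nat.mul x3768 (nat_lit 2))) x1582)
    (Nat.sub (Nat.sub (Nat.sub (Nat.add (Nat.add (Nat.add (Nat.add (Nat.add (Nat.add (Nat.add (Nat.add C x5230) x3286) x3934) x3718) x3826) x3790) x3766) x3774) (Nat.mul x3772 (nat_lit 2))) x5958) x1586)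
    (Nat.sub (Nat.sub (Nat.add (Nat.add (Nat.add (Nat.add (Nat.add (Nat.add (Nat.add (Nat.add C x5232) x3288) x3936) x3720) x3828) x3792) x3768) x3772) x3774) x1588)
    (Nat.sub (Nat.sub (Nat.add (Nat.add (Nat.add (Nat.add (Nat.add (Nat.add C x5240) x3296) x3944) x3836) x3764) x3784) (Nat.mul x3782 (nat_lit 2))) x5968)
    (Nat.sub (Nat.sub (Nat.sub (Nat.add (Nat.add (Nat.add (Nat.add (Nat.add (Nat.add (Nat.add (Nat.add C x5242) x3298) x3946) x3838) x3766) x3790) x3782) x3786) (Nat.mul x3784 (nat_lit 2))) x5970) x1598)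
    (Nat.sub (Nat.sub (Nat.add (Nat.add (Nat.add (Nat.add (Nat.add (Nat.add (Nat.add C x5244) x3300) x3948) x3840) x3768) x3792) x3784) (Nat.mul x3786 (nat_lit 4))) x1600)
    (Nat.sub (Nat.sub (Nat.sub (Nat.add (Nat.add (Nat.add (Nat.add (Nat.add (Nat.add (Nat.add C x5248) x3304) x3952) x3844) x3772) x3784) x3792) x3790) x5976) x1604)
    (Nat.sub (Nat.sub (Nat.add (Nat.add (Nat.add (Nat.add (Nat.add (Nat.add (Nat.add (Nat.add C x5250) x3306) x3954) x3846) x3774) x3786) x3798) x3790) x3792) x1606)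
    (Nat.sub (Nat.add (Nat.add (Nat.add (Nat.add (Nat.add C x5256) x3312) x3960) x3852) x3792) x1612)
    (Nat.sub (Nat.sub (Nat.add (Nat.add (Nat.add (Nat.add (Nat.add (Nat.add C x5270) x3326) x3974) x3758) x3818) x3814) (Nat.mul x3812 (nat_lit 2))) x5998)
    (Nat.sub (Nat.sub (Nat.sub (Nat.add (Nat.add (Nat.add (Nat.add (Nat.add (Nat.add C x5272) x3328) x3976) x3760) x3820) x3812) (Nat.mul x3814 (nat_lit 3))) x6000) x1628)
    (Nat.sub (Nat.sub (Nat.add (Nat.add (Nat.add (Nat.add (Nat.add (Nat.add (Nat.add C x5276) x3332) x3980) x3764) x3836) x3812) x3820) (Nat.mul x3818 (nat_lit 4))) x6004)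
    (Nat.sub (Nat.sub (Nat.sub (Nat.add (Nat.add (Nat.add (Nat.add (Nat.add (Nat.add (Nat.add (Nat.add (Nat.add C x5278) x3334) x3982) x3766) x3838) x3814) x3826) x3818) x3822) (Nat.mul x3820 (nat_lit 3))) x6006) x1634)
    (Nat.sub (Nat.sub (Nat.add (Nat.add (Nat.add (Nat.add (Nat.add (Nat.add (Nat.add C x5280) x3336) x3984) x3768) x3840) x3828) x3820) (Nat.mul x3822 (nat_lit 4))) x1636)
    (Nat.sub (Nat.sub (Nat.sub (Nat.add (Nat.add (Nat.add (Nat.add (Nat.add (Nat.add (Nat.add C x5284) x3340) x3988) x3772) x3844) x3820) x3828) (Nat.mul x3826 (nat_lit 5))) x6012) x1640)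
    (Nat.sub (Nat.sub (Nat.add (Nat.add (Nat.add (Nat.add (Nat.add (Nat.add (Nat.add C x5286) x3342) x3990) x3774) x3846) x3822) x3826) (Nat.mul x3828 (nat_lit 4))) x1642)
    (Nat.sub (Nat.sub (Nat.add (Nat.add (Nat.add (Nat.add (Nat.add (Nat.add C x5294) x3350) x3998) x3782) x3818) x3838) (Nat.mul x3836 (nat_lit 2))) x6022)
    (Nat.sub (Nat.sub (Nat.sub (Nat.add (Nat.add (Nat.add (Nat.add (Nat.add (Nat.add (Nat.add (Nat.add C x5296) x3352) x4000) x3784) x3820) x3844) x3836) x3840) (Nat.mul x3838 (nat_lit 2))) x6024) x1652)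
    (Nat.sub (Nat.sub (Nat.add (Nat.add (Nat.add (Nat.add (Nat.add (Nat.add (Nat.add C x5298) x3354) x4002) x3786) x3822) x3846) x3838) (Nat.mul x3840 (nat_lit 4))) x1654)
    (Nat.sub (Nat.sub (Nat.sub (Nat.add (Nat.add (Nat.add (Nat.add (Nat.add (Nat.add (Nat.add (Nat.add C x5302) x3358) x4006) x3790) x3826) x3862) x3838) x3846) (Nat.mul x3844 (nat_lit 2))) x6030) x1658)
    (Nat.sub (Nat.sub (Nat.add (Nat.add (Nat.add (Nat.add (Nat.add (Nat.add (Nat.add (Nat.add (Nat.add C x5304) x3360) x4008) x3792) x3828) x3864) x3840) x3852) x3844) (Nat.mul x3846 (nat_lit 2))) x1660)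
    (Nat.sub (Nat.sub (Nat.add (Nat.add (Nat.add (Nat.add (Nat.add (Nat.add C x5310) x3366) x4014) x3798) x3870) x3846) (Nat.mul x3852 (nat_lit 2))) x1666)
    (Nat.sub (Nat.sub (Nat.sub (Nat.add (Nat.add (Nat.add (Nat.add (Nat.add C x5320) x3376) x4024) x3844) x3864) x3862) x6048) x1676)
    (Nat.sub (Nat.sub (Nat.add (Nat.add (Nat.add (Nat.add (Nat.add (Nat.add C x5322) x3378) x4026) x3846) x3870) x3862) (Nat.mul x3864 (nat_lit 2))) x1678)
    (Nat.sub (Nat.add (Nat.add (Nat.add (Nat.add (Nat.add C x5328) x3384) x4032) x3852) x3864) x1684)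
    (Nat.sub (Nat.add (Nat.add (Nat.add (Nat.add (Nat.add C (Nat.mul x3896 (nat_lit 2))) x5354) x3410) x3734) x3902) x6082)
    (Nat.sub (Nat.add (Nat.add (Nat.add (Nat.add (Nat.add (Nat.add (Nat.add (Nat.add C x3902) x5360) x3416) x3740) x3920) x3896) x3908) x3904) x6088)
    (Nat.sub (Nat.sub (Nat.add (Nat.add (Nat.add (Nat.add (Nat.add (Nat.add (Nat.add C x3904) x5362) x3418) x3742) x3922) x3910) x3902) x6090) x1718)
    (Nat.sub (Nat.sub (Nat.add (Nat.add (Nat.add (Nat.add (Nat.add (Nat.add C x5366) x3422) x3746) x3926) x3902) x3910) (Nat.mul x3908 (nat_lit 2))) x6094)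
    (Nat.sub (Nat.sub (Nat.add (Nat.add (Nat.add (Nat.add (Nat.add (Nat.add (Nat.add C x5368) x3424) x3748) x3928) x3904) x3908) x3912) x6096) x1724)
    (Nat.sub (Nat.add (Nat.add (Nat.add (Nat.add (Nat.add C x5370) x3426) x3750) x3930) x3910) x1726)
    (Nat.sub (Nat.add (Nat.add (Nat.add (Nat.add (Nat.add (Nat.add (Nat.add C x5378) x3434) x3758) x3974) x3902) x3926) x3922) x6106)
    (Nat.sub (Nat.sub (Nat.sub (Nat.add (Nat.add (Nat.add (Nat.add (Nat.add (Nat.add (Nat.add C x5380) x3436) x3760) x3976) x3904) x3928) x3920) x3922) x6108) x1736)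
    (Nat.sub (Nat.sub (Nat.add (Nat.add (Nat.add (Nat.add (Nat.add (Nat.add (Nat.add (Nat.add C x5384) x3440) x3764) x3980) x3908) x3944) x3920) x3928) x3926) x6112)
    (Nat.sub (Nat.sub (Nat.add (Nat.add (Nat.add (Nat.add (Nat.add (Nat.add (Nat.add (Nat.add (Nat.add (Nat.add C x5386) x3442) x3766) x3982) x3910) x3946) x3922) x3934) x3926) x3930) x6114) x1742)
    (Nat.sub (Nat.sub (Nat.add (Nat.add (Nat.add (Nat.add (Nat.add (Nat.add (Nat.add (Nat.add C x5388) x3444) x3768) x3984) x3912) x3948) x3936) x3928) x3930) x1744)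
    (Nat.sub (Nat.sub (Nat.sub (Nat.add (Nat.add (Nat.add (Nat.add (Nat.add (Nat.add (Nat.add C x5392) x3448) x3772) x3988) x3952) x3928) x3936) x3934) x6120) x1748)
    (Nat.sub (Nat.add (Nat.add (Nat.add (Nat.add (Nat.add (Nat.add (Nat.add C x5394) x3450) x3774) x3990) x3954) x3930) x3934) x1750)
    (Nat.sub (Nat.sub (Nat.add (Nat.add (Nat.add (Nat.add (Nat.add (Nat.add C x5402) x3458) x3782) x3998) x3926) x3946) (Nat.mul x3944 (nat_lit 2))) x6130)
    (Nat.sub (Nat.sub (Nat.sub (Nat.add (Nat.add (Nat.add (Nat.add (Nat.add (Nat.add (Nat.add (Nat.add C x5404) x3460) x3784) x4000) x3928) x3952) x3944) x3948) (Nat.mul x3946 (nat_lit 2))) x6132) x1760)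
    (Nat.sub (Nat.sub (Nat.add (Nat.add (Nat.add (Nat.add (Nat.add (Nat.add (Nat.add C x5406) x3462) x3786) x4002) x3930) x3954) x3946) (Nat.mul x3948 (nat_lit 4))) x1762)
    (Nat.sub (Nat.sub (Nat.sub (Nat.add (Nat.add (Nat.add (Nat.add (Nat.add (Nat.add (Nat.add C x5410) x3466) x3790) x4006) x3934) x3946) x3954) x3952) x6138) x1766)
    (Nat.sub (Nat.sub (Nat.add (Nat.add (Nat.add (Nat.add (Nat.add (Nat.add (Nat.add (Nat.add C x5412) x3468) x3792) x4008) x3936) x3948) x3960) x3952) x3954) x1768)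
    (Nat.sub (Nat.add (Nat.add (Nat.add (Nat.add (Nat.add C x5418) x3474) x3798) x4014) x3954) x1774)
    (Nat.sub (Nat.add (Nat.add (Nat.add (Nat.add (Nat.add (Nat.add (Nat.add (Nat.add C x3974) x5432) x3488) x3812) x4136) x3920) x3980) x3976) x6160)
    (Nat.sub (Nat.sub (Nat.add (Nat.add (Nat.add (Nat.add (Nat.add (Nat.add (Nat.add C x5434) x3490) x3814) x4138) x3922) x3982) x3974) x6162) x1790)
    (Nat.sub (Nat.sub (Nat.add (Nat.add (Nat.add (Nat.add (Nat.add (Nat.add (Nat.add (Nat.add C x5438) x3494) x3818) x4142) x3926) x3998) x3974) x3982) x3980) x6166)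
    (Nat.sub (Nat.sub (Nat.add (Nat.add (Nat.add (Nat.add (Nat.add (Nat.add (Nat.add (Nat.add (Nat.add (Nat.add C x5440) x3496) x3820) x4144) x3928) x4000) x3976) x3988) x3980) x3984) x6168) x1796)
    (Nat.sub (Nat.sub (Nat.add (Nat.add (Nat.add (Nat.add (Nat.add (Nat.add (Nat.add (Nat.add C x5442) x3498) x3822) x4146) x3930) x4002) x3990) x3982) x3984) x1798)
    (Nat.sub (Nat.sub (Nat.sub (Nat.add (Nat.add (Nat.add (Nat.add (Nat.add (Nat.add (Nat.add (Nat.add C x5446) x3502) x3826) x4150) x3934) x4006) x3982) x3990) (Nat.mul x3988 (nat_lit 2))) x6174) x1802)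
    (Nat.sub (Nat.sub (Nat.add (Nat.add (Nat.add (Nat.add (Nat.add (Nat.add (Nat.add (Nat.add C x5448) x3504) x3828) x4152) x3936) x4008) x3984) x3988) x3990) x1804)
    (Nat.sub (Nat.add (Nat.add (Nat.add (Nat.add (Nat.add (Nat.add (Nat.add (Nat.add C x5456) x3512) x3836) x4160) x3944) x4052) x3980) x4000) x6184)
    (Nat.sub (Nat.sub (Nat.add (Nat.add (Nat.add (Nat.add (Nat.add (Nat.add (Nat.add (Nat.add (Nat.add (Nat.add C x5458) x3514) x3838) x4162) x3946) x4054) x3982) x4006) x3998) x4002) x6186) x1814)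
    (Nat.sub (Nat.sub (Nat.add (Nat.add (Nat.add (Nat.add (Nat.add (Nat.add (Nat.add (Nat.add (Nat.add C x5460) x3516) x3840) x4164) x3948) x4056) x3984) x4008) x4000) (Nat.mul x4002 (nat_lit 2))) x1816)
    (Nat.sub (Nat.sub (Nat.add (Nat.add (Nat.add (Nat.add (Nat.add (Nat.add (Nat.add (Nat.add (Nat.add (Nat.add C x5464) x3520) x3844) x4168) x3952) x4060) x3988) x4024) x4000) x4008) x6192) x1820)
    (Nat.sub (Nat.add (Nat.add (Nat.add (Nat.add (Nat.add (Nat.add (Nat.add (Nat.add (Nat.add (Nat.add (Nat.add C x5466) x3522) x3846) x4170) x3954) x4062) x3990) x4026) x4002) x4014) x4006) x1822)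
    (Nat.sub (Nat.add (Nat.add (Nat.add (Nat.add (Nat.add (Nat.add (Nat.add (Nat.add C x5472) x3528) x3852) x4176) x3960) x4068) x4032) x4008) x1828)
    (Nat.sub (Nat.sub (Nat.add (Nat.add (Nat.add (Nat.add (Nat.add (Nat.add (Nat.add C x5482) x3538) x3862) x4186) x4078) x4006) x4026) x6210) x1838)
    (Nat.sub (Nat.sub (Nat.add (Nat.add (Nat.add (Nat.add (Nat.add (Nat.add (Nat.add (Nat.add C x5484) x3540) x3864) x4188) x4080) x4008) x4032) x4024) x4026) x1840)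
    (Nat.sub (Nat.add (Nat.add (Nat.add (Nat.add (Nat.add (Nat.add (Nat.add (Nat.add C x4032) x5490) x3546) x3870) x4194) x4086) x4014) x4026) x1846)
    (Nat.sub (Nat.add (Nat.add (Nat.add (Nat.add (Nat.add C x5510) x3566) x4214) x3998) x4054) x6238)
    (Nat.sub (Nat.sub (Nat.add (Nat.add (Nat.add (Nat.add (Nat.add (Nat.add (Nat.add C x5512) x3568) x4216) x4000) x4060) x4052) x4056) x6240) x1868)
    (Nat.sub (Nat.sub (Nat.add (Nat.add (Nat.add (Nat.add (Nat.add (Nat.add C x5514) x3570) x4218) x4002) x4062) x4054) (Nat.mul x4056 (nat_lit 2))) x1870)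
    (Nat.sub (Nat.sub (Nat.sub (Nat.add (Nat.add (Nat.add (Nat.add (Nat.add (Nat.add (Nat.add C x5518) x3574) x4222) x4006) x4078) x4054) x4062) x4060) x6246) x1874)
    (Nat.sub (Nat.sub (Nat.add (Nat.add (Nat.add (Nat.add (Nat.add (Nat.add (Nat.add (Nat.add C x5520) x3576) x4224) x4008) x4080) x4056) x4068) x4060) x4062) x1876)
    (Nat.sub (Nat.sub (Nat.add (Nat.add (Nat.add (Nat.add (Nat.add (Nat.add C x5526) x3582) x4230) x4014) x4086) x4062) (Nat.mul x4068 (nat_lit 2))) x1882)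
    (Nat.sub (Nat.sub (Nat.add (Nat.add (Nat.add (Nat.add (Nat.add (Nat.add (Nat.add C x4078) x5536) x3592) x4240) x4024) x4060) x4080) x6264) x1892)
    (Nat.sub (Nat.add (Nat.add (Nat.add (Nat.add (Nat.add (Nat.add (Nat.add C x5538) x3594) x4242) x4026) x4062) x4086) x4078) x1894)
    (Nat.sub (Nat.add (Nat.add (Nat.add (Nat.add (Nat.add (Nat.add (Nat.add (Nat.add C x4086) x5544) x3600) x4248) x4032) x4068) x4104) x4080) x1900)
    (Nat.sub (Nat.add (Nat.add (Nat.add (Nat.add (Nat.add C (Nat.mul x4104 (nat_lit 2))) x5562) x3618) x4266) x4086) x1918)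
    (Nat.sub (Nat.add (Nat.add (Nat.add (Nat.add (Nat.add C (Nat.mul x4136 (nat_lit 2))) x5594) x3974) x4142) x4138) x6322)
    (Nat.sub (Nat.sub (Nat.add (Nat.add (Nat.add (Nat.add (Nat.add C x4138) x5596) x3976) x4144) x4136) x6324) x1952)
    (Nat.sub (Nat.add (Nat.add (Nat.add (Nat.add (Nat.add C x5600) x3980) x4160) x4136) x4144) x6328)
    (Nat.sub (Nat.sub (Nat.add (Nat.add (Nat.add (Nat.add (Nat.add (Nat.add (Nat.add (Nat.add C x4144) x5602) x3982) x4162) x4138) x4150) x4142) x4146) x6330) x1958)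
    (Nat.sub (Nat.add (Nat.add (Nat.add (Nat.add (Nat.add C x5604) x3984) x4164) x4152) x4144) x1960)
    (Nat.sub (Nat.sub (Nat.sub (Nat.add (Nat.add (Nat.add (Nat.add (Nat.add C x5608) x3988) x4168) x4144) x4152) x4150) x6336) x1964)
    (Nat.sub (Nat.add (Nat.add (Nat.add (Nat.add (Nat.add C x5610) x3990) x4170) x4146) x4150) x1966)
    (Nat.sub (Nat.add (Nat.add (Nat.add (Nat.add (Nat.add C x5618) x3998) x4214) x4142) x4162) x6346)
    (Nat.sub (Nat.sub (Nat.add (Nat.add (Nat.add (Nat.add (Nat.add (Nat.add (Nat.add C x5620) x4000) x4216) x4144) x4168) x4160) x4164) x6348) x1976)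
    (Nat.sub (Nat.sub (Nat.add (Nat.add (Nat.add (Nat.add (Nat.add (Nat.add C x5622) x4002) x4218) x4146) x4170) x4162) (Nat.mul x4164 (nat_lit 2))) x1978)
    (Nat.sub (Nat.sub (Nat.add (Nat.add (Nat.add (Nat.add (Nat.add (Nat.add (Nat.add C x5626) x4006) x4222) x4150) x4186) x4162) x4170) x6354) x1982)
    (Nat.sub (Nat.add (Nat.add (Nat.add (Nat.add (Nat.add (Nat.add (Nat.add (Nat.add C x5628) x4008) x4224) x4152) x4188) x4164) x4176) x4168) x1984)
    (Nat.sub (Nat.add (Nat.add (Nat.add (Nat.add (Nat.add C x5634) x4014) x4230) x4194) x4170) x1990)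
    (Nat.sub (Nat.sub (Nat.sub (Nat.add (Nat.add (Nat.add (Nat.add (Nat.add C x5644) x4024) x4240) x4168) x4188) x4186) x6372) x2000)
    (Nat.sub (Nat.sub (Nat.add (Nat.add (Nat.add (Nat.add (Nat.add (Nat.add C x5646) x4026) x4242) x4170) x4194) x4186) (Nat.mul x4188 (nat_lit 2))) x2002)
    (Nat.sub (Nat.add (Nat.add (Nat.add (Nat.add (Nat.add C x5652) x4032) x4248) x4176) x4188) x2008)
    (Nat.sub (Nat.add (Nat.add (Nat.add (Nat.add (Nat.add C (Nat.mul x4214 (nat_lit 2))) x5672) x4052) x4160) x4216) x6400)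
    (Nat.sub (Nat.sub (Nat.add (Nat.add (Nat.add (Nat.add (Nat.add (Nat.add (Nat.add C (Nat.mul x4216 (nat_lit 2))) x5674) x4054) x4162) x4222) x4214) x4218) x6402) x2030)
    (Nat.sub (Nat.add (Nat.add (Nat.add (Nat.add (Nat.add C x5676) x4056) x4164) x4224) x4216) x2032)
    (Nat.sub (Nat.sub (Nat.add (Nat.add (Nat.add (Nat.add (Nat.add (Nat.add (Nat.add C x4222) x5680) x4060) x4168) x4240) x4216) x4224) x6408) x2036)
    (Nat.sub (Nat.add (Nat.add (Nat.add (Nat.add (Nat.add (Nat.add (Nat.add (Nat.add C x4224) x5682) x4062) x4170) x4242) x4218) x4230) x4222) x2038)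
    (Nat.sub (Nat.add (Nat.add (Nat.add (Nat.add (Nat.add C x5688) x4068) x4176) x4248) x4224) x2044)
    (Nat.sub (Nat.sub (Nat.add (Nat.add (Nat.add (Nat.add (Nat.add (Nat.add (Nat.add C (Nat.mul x4240 (nat_lit 2))) x5698) x4078) x4186) x4294) x4222) x4242) x6426) x2054)
    (Nat.sub (Nat.add (Nat.add (Nat.add (Nat.add (Nat.add (Nat.add (Nat.add (Nat.add C x4242) x5700) x4080) x4188) x4296) x4224) x4248) x4240) x2056)
    (Nat.sub (Nat.add (Nat.add (Nat.add (Nat.add (Nat.add (Nat.add (Nat.add (Nat.add C (Nat.mul x4248 (nat_lit 2))) x5706) x4086) x4194) x4302) x4230) x4266) x4242) x2062)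
    (Nat.sub (Nat.add (Nat.add (Nat.add (Nat.add (Nat.add C (Nat.mul x4266 (nat_lit 2))) x5724) x4104) x4320) x4248) x2080)
    (Nat.sub (Nat.sub (Nat.add (Nat.add (Nat.add (Nat.add C (Nat.mul x4294 (nat_lit 3))) x5752) x4240) x4296) x6480) x2108)
    (Nat.sub (Nat.add (Nat.add (Nat.add (Nat.add (Nat.add C (Nat.mul x4296 (nat_lit 2))) x5754) x4242) x4302) x4294) x2110)
    (Nat.sub (Nat.add (Nat.add (Nat.add (Nat.add (Nat.add C (Nat.mul x4302 (nat_lit 2))) x5760) x4248) x4320) x4296) x2116)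
    (Nat.sub (Nat.add (Nat.add (Nat.add (Nat.add C (Nat.mul x4320 (nat_lit 4))) x5778) x4266) x4302) x2134)
    (Nat.add (Nat.add (Nat.add C (Nat.mul x4400 (nat_lit 4))) x2942) x4418)
    (Nat.add (Nat.add (Nat.add (Nat.add (Nat.add (Nat.add C (Nat.mul x4418 (nat_lit 3))) x2960) x4472) x4400) x4436) x4424)
    (Nat.add (Nat.add (Nat.add (Nat.add (Nat.add (Nat.add C (Nat.mul x4424 (nat_lit 2))) x2966) x4478) x4442) x4418) x4426)
    (Nat.sub (Nat.add (Nat.add (Nat.add (Nat.add (Nat.add C (Nat.mul x4426 (nat_lit 2))) x2968) x4480) x4444) x4424) x2240)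
    (Nat.add (Nat.add (Nat.add (Nat.add C x2978) x4490) x4418) x4442)
    (Nat.add (Nat.add (Nat.add (Nat.add (Nat.add (Nat.add (Nat.add C x4442) x2984) x4496) x4424) x4436) x4448) x4444)
    (Nat.sub (Nat.add (Nat.add (Nat.add (Nat.add (Nat.add C x2986) x4498) x4426) x4450) x4442) x2258)
    (Nat.add (Nat.add (Nat.add (Nat.add C x2990) x4502) x4442) x4450)
    (Nat.sub (Nat.add (Nat.add (Nat.add (Nat.add (Nat.add (Nat.add C x4450) x2992) x4504) x4444) x4448) x4452) x2264)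
    (Nat.sub (Nat.add (Nat.add (Nat.add C x2994) x4506) x4450) x2266)
    (Nat.add (Nat.add (Nat.add (Nat.add (Nat.add (Nat.add C (Nat.mul x4472 (nat_lit 2))) x3014) x4634) x4418) x4490) x4478)
    (Nat.add (Nat.add (Nat.add (Nat.add (Nat.add (Nat.add C x3020) x4640) x4424) x4496) x4472) x4480)
    (Nat.sub (Nat.add (Nat.add (Nat.add (Nat.add (Nat.add C x3022) x4642) x4426) x4498) x4478) x2294)
    (Nat.add (Nat.add (Nat.add (Nat.add (Nat.add (Nat.add (Nat.add C x4490) x3032) x4652) x4436) x4544) x4472) x4496)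
    (Nat.add (Nat.add (Nat.add (Nat.add (Nat.add (Nat.add (Nat.add (Nat.add (Nat.add (Nat.add C x4496) x3038) x4658) x4442) x4550) x4478) x4514) x4490) x4502) x4498)
    (Nat.sub (Nat.add (Nat.add (Nat.add (Nat.add (Nat.add (Nat.add (Nat.add (Nat.add C x3040) x4660) x4444) x4552) x4480) x4516) x4504) x4496) x2312)
    (Nat.sub (Nat.add (Nat.add (Nat.add (Nat.add (Nat.add (Nat.add (Nat.add C x3044) x4664) x4448) x4556) x4520) x4496) x4504) x4502)
    (Nat.sub (Nat.add (Nat.add (Nat.add (Nat.add (Nat.add (Nat.add (Nat.add (Nat.add C x3046) x4666) x4450) x4558) x4522) x4498) x4502) x4506) x2318)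
    (Nat.sub (Nat.sub (Nat.add (Nat.add (Nat.add (Nat.add (Nat.add (Nat.add C x3048) x4668) x4452) x4560) x4524) x4504) x4506) x2320)
    (Nat.add (Nat.add (Nat.add (Nat.add (Nat.add (Nat.add C x3056) x4676) x4568) x4496) x4520) x4516)
    (Nat.sub (Nat.sub (Nat.add (Nat.add (Nat.add (Nat.add (Nat.add (Nat.add C x3058) x4678) x4570) x4498) x4522) x4514) (Nat.mul x4516 (nat_lit 2))) x2330)
    (Nat.add (Nat.add (Nat.add (Nat.add (Nat.add (Nat.add C x3062) x4682) x4574) x4502) x4514) x4522)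
    (Nat.sub (Nat.add (Nat.add (Nat.add (Nat.add (Nat.add (Nat.add (Nat.add (Nat.add C x3064) x4684) x4576) x4504) x4516) x4528) x4520) x4524) x2336)
    (Nat.sub (Nat.sub (Nat.add (Nat.add (Nat.add (Nat.add (Nat.add (Nat.add C x3066) x4686) x4578) x4506) x4530) x4522) (Nat.mul x4524 (nat_lit 2))) x2338)
    (Nat.sub (Nat.add (Nat.add (Nat.add (Nat.add (Nat.add C x3070) x4690) x4582) x4522) x4530) x2342)
    (Nat.sub (Nat.add (Nat.add (Nat.add (Nat.add (Nat.add C x3072) x4692) x4584) x4524) x4528) x2344)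
    (Nat.add (Nat.add (Nat.add (Nat.add C x3086) x4706) x4490) x4550)
    (Nat.sub (Nat.add (Nat.add (Nat.add (Nat.add (Nat.add (Nat.add (Nat.add C x3092) x4712) x4496) x4568) x4544) x4556) x4552) x4550)
    (Nat.sub (Nat.sub (Nat.add (Nat.add (Nat.add (Nat.add (Nat.add (Nat.add C x3094) x4714) x4498) x4570) x4558) x4550) (Nat.mul x4552 (nat_lit 2))) x2366)
    (Nat.sub (Nat.add (Nat.add (Nat.add (Nat.add (Nat.add (Nat.add C x3098) x4718) x4502) x4574) x4550) x4558) (Nat.mul x4556 (nat_lit 4)))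
    (Nat.sub (Nat.sub (Nat.add (Nat.add (Nat.add (Nat.add (Nat.add (Nat.add (Nat.add C x3100) x4720) x4504) x4576) x4552) x4556) x4560) (Nat.mul x4558 (nat_lit 3))) x2372)
    (Nat.sub (Nat.sub (Nat.add (Nat.add (Nat.add (Nat.add (Nat.add C x3102) x4722) x4506) x4578) x4558) (Nat.mul x4560 (nat_lit 4))) x2374)
    (Nat.add (Nat.add (Nat.add (Nat.add (Nat.add (Nat.add C x3110) x4730) x4514) x4550) x4574) x4570)
    (Nat.sub (Nat.sub (Nat.add (Nat.add (Nat.add (Nat.add (Nat.add (Nat.add C x3112) x4732) x4516) x4552) x4576) x4568) (Nat.mul x4570 (nat_lit 2))) x2384)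
    (Nat.sub (Nat.add (Nat.add (Nat.add (Nat.add (Nat.add (Nat.add (Nat.add C x3116) x4736) x4520) x4556) x4592) x4568) x4576) x4574)
    (Nat.sub (Nat.sub (Nat.add (Nat.add (Nat.add (Nat.add (Nat.add (Nat.add (Nat.add (Nat.add (Nat.add C x3118) x4738) x4522) x4558) x4594) x4570) x4582) x4574) x4578) x4576) x2390)
    (Nat.sub (Nat.sub (Nat.add (Nat.add (Nat.add (Nat.add (Nat.add (Nat.add (Nat.add C x3120) x4740) x4524) x4560) x4596) x4584) x4576) (Nat.mul x4578 (nat_lit 3))) x2392)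
    (Nat.sub (Nat.sub (Nat.add (Nat.add (Nat.add (Nat.add (Nat.add (Nat.add C x3124) x4744) x4528) x4600) x4576) x4584) (Nat.mul x4582 (nat_lit 2))) x2396)
    (Nat.sub (Nat.sub (Nat.add (Nat.add (Nat.add (Nat.add (Nat.add (Nat.add C x3126) x4746) x4530) x4602) x4578) x4582) (Nat.mul x4584 (nat_lit 2))) x2398)
    (Nat.add (Nat.add (Nat.add (Nat.add C x3134) x4754) x4574) x4594)
    (Nat.sub (Nat.sub (Nat.add (Nat.add (Nat.add (Nat.add (Nat.add (Nat.add C x3136) x4756) x4576) x4600) x4592) x4596) x4594) x2408)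
    (Nat.sub (Nat.sub (Nat.add (Nat.add (Nat.add (Nat.add (Nat.add C x3138) x4758) x4578) x4602) x4594) (Nat.mul x4596 (nat_lit 4))) x2410)
    (Nat.sub (Nat.add (Nat.add (Nat.add (Nat.add (Nat.add C x3142) x4762) x4582) x4594) x4602) x2414)
    (Nat.sub (Nat.sub (Nat.add (Nat.add (Nat.add (Nat.add (Nat.add (Nat.add C x3144) x4764) x4584) x4596) x4608) x4600) x4602) x2416)
    (Nat.sub (Nat.add (Nat.add (Nat.add C x3150) x4770) x4602) x2422)
    (Nat.add (Nat.add (Nat.add (Nat.add (Nat.add (Nat.add C (Nat.mul x4634 (nat_lit 2))) x3176) x5120) x4472) x4652) x4640)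
    (Nat.add (Nat.add (Nat.add (Nat.add (Nat.add (Nat.add C x3182) x5126) x4478) x4658) x4634) x4642)
    (Nat.sub (Nat.add (Nat.add (Nat.add (Nat.add (Nat.add C x3184) x5128) x4480) x4660) x4640) x2456)
    (Nat.add (Nat.add (Nat.add (Nat.add (Nat.add (Nat.add C x3194) x5138) x4490) x4706) x4634) x4658)
    (Nat.add (Nat.add (Nat.add (Nat.add (Nat.add (Nat.add (Nat.add (Nat.add (Nat.add C x3200) x5144) x4496) x4712) x4640) x4676) x4652) x4664) x4660)
    (Nat.sub (Nat.sub (Nat.add (Nat.add (Nat.add (Nat.add (Nat.add (Nat.add (Nat.add (Nat.add C x3202) x5146) x4498) x4714) x4642) x4678) x4666) x4658) x4660) x2474)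
    (Nat.sub (Nat.add (Nat.add (Nat.add (Nat.add (Nat.add (Nat.add (Nat.add C x3206) x5150) x4502) x4718) x4682) x4658) x4666) (Nat.mul x4664 (nat_lit 2)))
    (Nat.sub (Nat.sub (Nat.add (Nat.add (Nat.add (Nat.add (Nat.add (Nat.add (Nat.add (Nat.add C x3208) x5152) x4504) x4720) x4684) x4660) x4664) x4668) x4666) x2480)
    (Nat.sub (Nat.sub (Nat.add (Nat.add (Nat.add (Nat.add (Nat.add (Nat.add C x3210) x5154) x4506) x4722) x4686) x4666) (Nat.mul x4668 (nat_lit 2))) x2482)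
    (Nat.sub (Nat.add (Nat.add (Nat.add (Nat.add (Nat.add (Nat.add (Nat.add C x3218) x5162) x4514) x4730) x4658) x4682) x4678) (Nat.mul x4676 (nat_lit 2)))
    (Nat.sub (Nat.sub (Nat.add (Nat.add (Nat.add (Nat.add (Nat.add (Nat.add (Nat.add C x3220) x5164) x4516) x4732) x4660) x4684) x4676) (Nat.mul x4678 (nat_lit 4))) x2492)
    (Nat.sub (Nat.add (Nat.add (Nat.add (Nat.add (Nat.add (Nat.add (Nat.add C x3224) x5168) x4520) x4736) x4664) x4676) x4684) (Nat.mul x4682 (nat_lit 2)))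
    (Nat.sub (Nat.sub (Nat.add (Nat.add (Nat.add (Nat.add (Nat.add (Nat.add (Nat.add (Nat.add (Nat.add C x3226) x5170) x4522) x4738) x4666) x4678) x4690) x4682) x4686) (Nat.mul x4684 (nat_lit 2))) x2498)
    (Nat.sub (Nat.sub (Nat.add (Nat.add (Nat.add (Nat.add (Nat.add (Nat.add (Nat.add C x3228) x5172) x4524) x4740) x4668) x4692) x4684) (Nat.mul x4686 (nat_lit 4))) x2500)
    (Nat.sub (Nat.sub (Nat.add (Nat.add (Nat.add (Nat.add (Nat.add (Nat.add C x3232) x5176) x4528) x4744) x4684) x4692) (Nat.mul x4690 (nat_lit 2))) x2504)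
    (Nat.sub (Nat.sub (Nat.add (Nat.add (Nat.add (Nat.add (Nat.add (Nat.add C x3234) x5178) x4530) x4746) x4686) x4690) (Nat.mul x4692 (nat_lit 2))) x2506)
    (Nat.add (Nat.add (Nat.add (Nat.add (Nat.add (Nat.add (Nat.add C x4706) x3248) x5192) x4544) x4868) x4652) x4712)
    (Nat.add (Nat.add (Nat.add (Nat.add (Nat.add (Nat.add (Nat.add (Nat.add (Nat.add C x3254) x5198) x4550) x4874) x4658) x4730) x4706) x4718) x4714)
    (Nat.sub (Nat.sub (Nat.add (Nat.add (Nat.add (Nat.add (Nat.add (Nat.add (Nat.add (Nat.add C x3256) x5200) x4552) x4876) x4660) x4732) x4720) x4712) x4714) x2528)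
    (Nat.sub (Nat.add (Nat.add (Nat.add (Nat.add (Nat.add (Nat.add (Nat.add (Nat.add C x3260) x5204) x4556) x4880) x4664) x4736) x4712) x4720) (Nat.mul x4718 (nat_lit 3)))
    (Nat.sub (Nat.sub (Nat.add (Nat.add (Nat.add (Nat.add (Nat.add (Nat.add (Nat.add (Nat.add (Nat.add C x3262) x5206) x4558) x4882) x4666) x4738) x4714) x4718) x4722) (Nat.mul x4720 (nat_lit 2))) x2534)
    (Nat.sub (Nat.sub (Nat.add (Nat.add (Nat.add (Nat.add (Nat.add (Nat.add (Nat.add C x3264) x5208) x4560) x4884) x4668) x4740) x4720) (Nat.mul x4722 (nat_lit 3))) x2536)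
    (Nat.add (Nat.add (Nat.add (Nat.add (Nat.add (Nat.add (Nat.add (Nat.add (Nat.add C x3272) x5216) x4568) x4892) x4676) x4784) x4712) x4736) x4732)
    (Nat.sub (Nat.sub (Nat.add (Nat.add (Nat.add (Nat.add (Nat.add (Nat.add (Nat.add (Nat.add (Nat.add C x3274) x5218) x4570) x4894) x4678) x4786) x4714) x4738) x4730) (Nat.mul x4732 (nat_lit 2))) x2546)
    (Nat.sub (Nat.add (Nat.add (Nat.add (Nat.add (Nat.add (Nat.add (Nat.add (Nat.add (Nat.add (Nat.add C x3278) x5222) x4574) x4898) x4682) x4790) x4718) x4754) x4730) x4738) x4736)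
    (Nat.sub (Nat.sub (Nat.add (Nat.add (Nat.add (Nat.add (Nat.add (Nat.add (Nat.add (Nat.add (Nat.add (Nat.add (Nat.add (Nat.add C x3280) x5224) x4576) x4900) x4684) x4792) x4720) x4756) x4732) x4744) x4736) x4740) x4738) x2552)
    (Nat.sub (Nat.sub (Nat.add (Nat.add (Nat.add (Nat.add (Nat.add (Nat.add (Nat.add (Nat.add (Nat.add (Nat.add C x3282) x5226) x4578) x4902) x4686) x4794) x4722) x4758) x4746) x4738) (Nat.mul x4740 (nat_lit 3))) x2554)
    (Nat.sub (Nat.sub (Nat.add (Nat.add (Nat.add (Nat.add (Nat.add (Nat.add (Nat.add (Nat.add (Nat.add C x3286) x5230) x4582) x4906) x4690) x4798) x4762) x4738) x4746) (Nat.mul x4744 (nat_lit 2))) x2558)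
    (Nat.sub (Nat.sub (Nat.add (Nat.add (Nat.add (Nat.add (Nat.add (Nat.add (Nat.add (Nat.add (Nat.add C x3288) x5232) x4584) x4908) x4692) x4800) x4764) x4740) x4744) (Nat.mul x4746 (nat_lit 2))) x2560)
    (Nat.sub (Nat.add (Nat.add (Nat.add (Nat.add (Nat.add (Nat.add (Nat.add C x3296) x5240) x4592) x4916) x4808) x4736) x4756) x4754)
    (Nat.sub (Nat.sub (Nat.add (Nat.add (Nat.add (Nat.add (Nat.add (Nat.add (Nat.add (Nat.add (Nat.add C x3298) x5242) x4594) x4918) x4810) x4738) x4762) x4754) x4758) (Nat.mul x4756 (nat_lit 2))) x2570)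
    (Nat.sub (Nat.sub (Nat.add (Nat.add (Nat.add (Nat.add (Nat.add (Nat.add (Nat.add (Nat.add C x3300) x5244) x4596) x4920) x4812) x4740) x4764) x4756) (Nat.mul x4758 (nat_lit 5))) x2572)
    (Nat.sub (Nat.sub (Nat.add (Nat.add (Nat.add (Nat.add (Nat.add (Nat.add (Nat.add (Nat.add C x3304) x5248) x4600) x4924) x4816) x4744) x4756) x4764) x4762) x2576)
    (Nat.sub (Nat.sub (Nat.add (Nat.add (Nat.add (Nat.add (Nat.add (Nat.add (Nat.add (Nat.add (Nat.add C x3306) x5250) x4602) x4926) x4818) x4746) x4758) x4770) x4762) (Nat.mul x4764 (nat_lit 2))) x2578)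
    (Nat.sub (Nat.sub (Nat.add (Nat.add (Nat.add (Nat.add (Nat.add (Nat.add C x3312) x5256) x4608) x4932) x4824) x4764) x4770) x2584)
    (Nat.add (Nat.add (Nat.add (Nat.add (Nat.add (Nat.add C x3326) x5270) x4946) x4730) x4790) x4786)
    (Nat.sub (Nat.sub (Nat.add (Nat.add (Nat.add (Nat.add (Nat.add (Nat.add C x3328) x5272) x4948) x4732) x4792) x4784) (Nat.mul x4786 (nat_lit 2))) x2600)
    (Nat.sub (Nat.add (Nat.add (Nat.add (Nat.add (Nat.add (Nat.add (Nat.add C x3332) x5276) x4952) x4736) x4808) x4784) x4792) (Nat.mul x4790 (nat_lit 2)))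
    (Nat.sub (Nat.sub (Nat.add (Nat.add (Nat.add (Nat.add (Nat.add (Nat.add (Nat.add (Nat.add (Nat.add C x3334) x5278) x4954) x4738) x4810) x4786) x4798) x4790) x4794) (Nat.mul x4792 (nat_lit 2))) x2606)
    (Nat.sub (Nat.sub (Nat.add (Nat.add (Nat.add (Nat.add (Nat.add (Nat.add (Nat.add C x3336) x5280) x4956) x4740) x4812) x4800) x4792) (Nat.mul x4794 (nat_lit 4))) x2608)
    (Nat.sub (Nat.sub (Nat.add (Nat.add (Nat.add (Nat.add (Nat.add (Nat.add (Nat.add C x3340) x5284) x4960) x4744) x4816) x4792) x4800) (Nat.mul x4798 (nat_lit 4))) x2612)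
    (Nat.sub (Nat.sub (Nat.add (Nat.add (Nat.add (Nat.add (Nat.add (Nat.add (Nat.add C x3342) x5286) x4962) x4746) x4818) x4794) x4798) (Nat.mul x4800 (nat_lit 4))) x2614)
    (Nat.add (Nat.add (Nat.add (Nat.add (Nat.add (Nat.add C x3350) x5294) x4970) x4754) x4790) x4810)
    (Nat.sub (Nat.sub (Nat.add (Nat.add (Nat.add (Nat.add (Nat.add (Nat.add (Nat.add (Nat.add C x3352) x5296) x4972) x4756) x4792) x4816) x4808) x4812) x4810) x2624)
    (Nat.sub (Nat.sub (Nat.add (Nat.add (Nat.add (Nat.add (Nat.add (Nat.add (Nat.add C x3354) x5298) x4974) x4758) x4794) x4818) x4810) (Nat.mul x4812 (nat_lit 4))) x2626)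
    (Nat.sub (Nat.sub (Nat.add (Nat.add (Nat.add (Nat.add (Nat.add (Nat.add (Nat.add (Nat.add C x3358) x5302) x4978) x4762) x4798) x4834) x4810) x4818) x4816) x2630)
    (Nat.sub (Nat.sub (Nat.add (Nat.add (Nat.add (Nat.add (Nat.add (Nat.add (Nat.add (Nat.add (Nat.add C x3360) x5304) x4980) x4764) x4800) x4836) x4812) x4824) x4816) (Nat.mul x4818 (nat_lit 2))) x2632)
    (Nat.sub (Nat.sub (Nat.add (Nat.add (Nat.add (Nat.add (Nat.add (Nat.add C x3366) x5310) x4986) x4770) x4842) x4818) (Nat.mul x4824 (nat_lit 2))) x2638)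
    (Nat.sub (Nat.add (Nat.add (Nat.add (Nat.add (Nat.add C x3376) x5320) x4996) x4816) x4836) x2648)
    (Nat.sub (Nat.sub (Nat.add (Nat.add (Nat.add (Nat.add (Nat.add (Nat.add C x3378) x5322) x4998) x4818) x4842) x4834) (Nat.mul x4836 (nat_lit 2))) x2650)
    (Nat.sub (Nat.add (Nat.add (Nat.add (Nat.add (Nat.add C x3384) x5328) x5004) x4824) x4836) x2656)
    (Nat.add (Nat.add (Nat.add (Nat.add C x3410) x5354) x4706) x4874)
    (Nat.sub (Nat.add (Nat.add (Nat.add (Nat.add (Nat.add (Nat.add (Nat.add C x3416) x5360) x4712) x4892) x4868) x4880) x4876) x4874)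
    (Nat.sub (Nat.sub (Nat.add (Nat.add (Nat.add (Nat.add (Nat.add (Nat.add C x3418) x5362) x4714) x4894) x4882) x4874) (Nat.mul x4876 (nat_lit 2))) x2690)
    (Nat.sub (Nat.add (Nat.add (Nat.add (Nat.add (Nat.add (Nat.add C x3422) x5366) x4718) x4898) x4874) x4882) (Nat.mul x4880 (nat_lit 4)))
    (Nat.sub (Nat.sub (Nat.add (Nat.add (Nat.add (Nat.add (Nat.add (Nat.add (Nat.add C x3424) x5368) x4720) x4900) x4876) x4880) x4884) (Nat.mul x4882 (nat_lit 3))) x2696)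
    (Nat.sub (Nat.sub (Nat.add (Nat.add (Nat.add (Nat.add (Nat.add C x3426) x5370) x4722) x4902) x4882) (Nat.mul x4884 (nat_lit 4))) x2698)
    (Nat.sub (Nat.add (Nat.add (Nat.add (Nat.add (Nat.add (Nat.add (Nat.add C x3434) x5378) x4730) x4946) x4874) x4898) x4894) (Nat.mul x4892 (nat_lit 2)))
    (Nat.sub (Nat.sub (Nat.add (Nat.add (Nat.add (Nat.add (Nat.add (Nat.add (Nat.add C x3436) x5380) x4732) x4948) x4876) x4900) x4892) (Nat.mul x4894 (nat_lit 4))) x2708)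
    (Nat.sub (Nat.add (Nat.add (Nat.add (Nat.add (Nat.add (Nat.add (Nat.add (Nat.add C x3440) x5384) x4736) x4952) x4880) x4916) x4892) x4900) (Nat.mul x4898 (nat_lit 3)))
    (Nat.sub (Nat.sub (Nat.add (Nat.add (Nat.add (Nat.add (Nat.add (Nat.add (Nat.add (Nat.add (Nat.add (Nat.add C x3442) x5386) x4738) x4954) x4882) x4918) x4894) x4906) x4898) x4902) (Nat.mul x4900 (nat_lit 3))) x2714)
    (Nat.sub (Nat.sub (Nat.add (Nat.add (Nat.add (Nat.add (Nat.add (Nat.add (Nat.add (Nat.add C x3444) x5388) x4740) x4956) x4884) x4920) x4908) x4900) (Nat.mul x4902 (nat_lit 5))) x2716)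
    (Nat.sub (Nat.sub (Nat.add (Nat.add (Nat.add (Nat.add (Nat.add (Nat.add (Nat.add C x3448) x5392) x4744) x4960) x4924) x4900) x4908) (Nat.mul x4906 (nat_lit 4))) x2720)
    (Nat.sub (Nat.sub (Nat.add (Nat.add (Nat.add (Nat.add (Nat.add (Nat.add (Nat.add C x3450) x5394) x4746) x4962) x4926) x4902) x4906) (Nat.mul x4908 (nat_lit 4))) x2722)
    (Nat.sub (Nat.add (Nat.add (Nat.add (Nat.add (Nat.add (Nat.add C x3458) x5402) x4754) x4970) x4898) x4918) (Nat.mul x4916 (nat_lit 4)))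
    (Nat.sub (Nat.sub (Nat.add (Nat.add (Nat.add (Nat.add (Nat.add (Nat.add (Nat.add (Nat.add C x3460) x5404) x4756) x4972) x4900) x4924) x4916) x4920) (Nat.mul x4918 (nat_lit 5))) x2732)
    (Nat.sub (Nat.sub (Nat.add (Nat.add (Nat.add (Nat.add (Nat.add (Nat.add (Nat.add C x3462) x5406) x4758) x4974) x4902) x4926) x4918) (Nat.mul x4920 (nat_lit 8))) x2734)
    (Nat.sub (Nat.sub (Nat.add (Nat.add (Nat.add (Nat.add (Nat.add (Nat.add (Nat.add C x3466) x5410) x4762) x4978) x4906) x4918) x4926) (Nat.mul x4924 (nat_lit 4))) x2738)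
    (Nat.sub (Nat.sub (Nat.add (Nat.add (Nat.add (Nat.add (Nat.add (Nat.add (Nat.add (Nat.add C x3468) x5412) x4764) x4980) x4908) x4920) x4932) x4924) (Nat.mul x4926 (nat_lit 5))) x2740)
    (Nat.sub (Nat.sub (Nat.add (Nat.add (Nat.add (Nat.add (Nat.add C x3474) x5418) x4770) x4986) x4926) (Nat.mul x4932 (nat_lit 4))) x2746)
    (Nat.add (Nat.add (Nat.add (Nat.add (Nat.add (Nat.add C x3488) x5432) x4784) x4892) x4952) x4948)
    (Nat.sub (Nat.sub (Nat.add (Nat.add (Nat.add (Nat.add (Nat.add (Nat.add C x3490) x5434) x4786) x4894) x4954) x4946) (Nat.mul x4948 (nat_lit 2))) x2762)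
    (Nat.sub (Nat.add (Nat.add (Nat.add (Nat.add (Nat.add (Nat.add (Nat.add C x3494) x5438) x4790) x4898) x4970) x4946) x4954) (Nat.mul x4952 (nat_lit 2)))
    (Nat.sub (Nat.sub (Nat.add (Nat.add (Nat.add (Nat.add (Nat.add (Nat.add (Nat.add (Nat.add (Nat.add C x3496) x5440) x4792) x4900) x4972) x4948) x4960) x4952) x4956) (Nat.mul x4954 (nat_lit 2))) x2768)
    (Nat.sub (Nat.sub (Nat.add (Nat.add (Nat.add (Nat.add (Nat.add (Nat.add (Nat.add C x3498) x5442) x4794) x4902) x4974) x4962) x4954) (Nat.mul x4956 (nat_lit 4))) x2770)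
    (Nat.sub (Nat.sub (Nat.add (Nat.add (Nat.add (Nat.add (Nat.add (Nat.add (Nat.add C x3502) x5446) x4798) x4906) x4978) x4954) x4962) (Nat.mul x4960 (nat_lit 4))) x2774)
    (Nat.sub (Nat.sub (Nat.add (Nat.add (Nat.add (Nat.add (Nat.add (Nat.add (Nat.add C x3504) x5448) x4800) x4908) x4980) x4956) x4960) (Nat.mul x4962 (nat_lit 4))) x2776)
    (Nat.sub (Nat.add (Nat.add (Nat.add (Nat.add (Nat.add (Nat.add (Nat.add C x3512) x5456) x4808) x4916) x5024) x4952) x4972) x4970)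
    (Nat.sub (Nat.sub (Nat.add (Nat.add (Nat.add (Nat.add (Nat.add (Nat.add (Nat.add (Nat.add (Nat.add C x3514) x5458) x4810) x4918) x5026) x4954) x4978) x4970) x4974) (Nat.mul x4972 (nat_lit 2))) x2786)
    (Nat.sub (Nat.sub (Nat.add (Nat.add (Nat.add (Nat.add (Nat.add (Nat.add (Nat.add (Nat.add C x3516) x5460) x4812) x4920) x5028) x4956) x4980) x4972) (Nat.mul x4974 (nat_lit 5))) x2788)
    (Nat.sub (Nat.sub (Nat.add (Nat.add (Nat.add (Nat.add (Nat.add (Nat.add (Nat.add (Nat.add (Nat.add C x3520) x5464) x4816) x4924) x5032) x4960) x4996) x4972) x4980) (Nat.mul x4978 (nat_lit 2))) x2792)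
    (Nat.sub (Nat.sub (Nat.add (Nat.add (Nat.add (Nat.add (Nat.add (Nat.add (Nat.add (Nat.add (Nat.add (Nat.add C x3522) x5466) x4818) x4926) x5034) x4962) x4998) x4974) x4986) x4978) (Nat.mul x4980 (nat_lit 3))) x2794)
    (Nat.sub (Nat.sub (Nat.add (Nat.add (Nat.add (Nat.add (Nat.add (Nat.add (Nat.add C x3528) x5472) x4824) x4932) x5040) x5004) x4980) (Nat.mul x4986 (nat_lit 3))) x2800)
    (Nat.sub (Nat.sub (Nat.add (Nat.add (Nat.add (Nat.add (Nat.add (Nat.add C x3538) x5482) x4834) x5050) x4978) x4998) (Nat.mul x4996 (nat_lit 2))) x2810)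
    (Nat.sub (Nat.sub (Nat.add (Nat.add (Nat.add (Nat.add (Nat.add (Nat.add (Nat.add C x3540) x5484) x4836) x5052) x4980) x5004) x4996) (Nat.mul x4998 (nat_lit 4))) x2812)
    (Nat.sub (Nat.sub (Nat.add (Nat.add (Nat.add (Nat.add (Nat.add (Nat.add C x3546) x5490) x4842) x5058) x4986) x4998) (Nat.mul x5004 (nat_lit 2))) x2818)
    (Nat.add (Nat.add (Nat.add (Nat.add C x3566) x5510) x4970) x5026)
    (Nat.sub (Nat.sub (Nat.add (Nat.add (Nat.add (Nat.add (Nat.add (Nat.add C x3568) x5512) x4972) x5032) x5024) x5028) x5026) x2840)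
    (Nat.sub (Nat.sub (Nat.add (Nat.add (Nat.add (Nat.add (Nat.add C x3570) x5514) x4974) x5034) x5026) (Nat.mul x5028 (nat_lit 4))) x2842)
    (Nat.sub (Nat.sub (Nat.add (Nat.add (Nat.add (Nat.add (Nat.add (Nat.add C x3574) x5518) x4978) x5050) x5026) x5034) (Nat.mul x5032 (nat_lit 2))) x2846)
    (Nat.sub (Nat.sub (Nat.add (Nat.add (Nat.add (Nat.add (Nat.add (Nat.add (Nat.add C x3576) x5520) x4980) x5052) x5028) x5040) x5032) (Nat.mul x5034 (nat_lit 3))) x2848)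
    (Nat.sub (Nat.sub (Nat.add (Nat.add (Nat.add (Nat.add (Nat.add C x3582) x5526) x4986) x5058) x5034) (Nat.mul x5040 (nat_lit 4))) x2854)
    (Nat.sub (Nat.add (Nat.add (Nat.add (Nat.add (Nat.add C x3592) x5536) x4996) x5032) x5052) x2864)
    (Nat.sub (Nat.sub (Nat.add (Nat.add (Nat.add (Nat.add (Nat.add (Nat.add C x3594) x5538) x4998) x5034) x5058) x5050) (Nat.mul x5052 (nat_lit 2))) x2866)
    (Nat.sub (Nat.sub (Nat.add (Nat.add (Nat.add (Nat.add (Nat.add (Nat.add C x3600) x5544) x5004) x5040) x5076) x5052) x5058) x2872)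
    (Nat.sub (Nat.add (Nat.add (Nat.add C x3618) x5562) x5058) x2890)
    (Nat.add (Nat.add (Nat.add (Nat.add (Nat.add C (Nat.mul x5120 (nat_lit 4))) x3662) x4634) x5138) x5126)
    (Nat.add (Nat.add (Nat.add (Nat.add (Nat.add (Nat.add C (Nat.mul x5126 (nat_lit 2))) x3668) x4640) x5144) x5120) x5128)
    (Nat.sub (Nat.add (Nat.add (Nat.add (Nat.add (Nat.add C (Nat.mul x5128 (nat_lit 2))) x3670) x4642) x5146) x5126) x2942)
    (Nat.add (Nat.add (Nat.add (Nat.add (Nat.add (Nat.add C (Nat.mul x5138 (nat_lit 2))) x3680) x4652) x5192) x5120) x5144)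
    (Nat.add (Nat.add (Nat.add (Nat.add (Nat.add (Nat.add (Nat.add (Nat.add (Nat.add C (Nat.mul x5144 (nat_lit 2))) x3686) x4658) x5198) x5126) x5162) x5138) x5150) x5146)
    (Nat.sub (Nat.add (Nat.add (Nat.add (Nat.add (Nat.add (Nat.add (Nat.add (Nat.add C x5146) x3688) x4660) x5200) x5128) x5164) x5152) x5144) x2960)
    (Nat.add (Nat.add (Nat.add (Nat.add (Nat.add (Nat.add C x3692) x4664) x5204) x5168) x5144) x5152)
    (Nat.sub (Nat.add (Nat.add (Nat.add (Nat.add (Nat.add (Nat.add (Nat.add (Nat.add C x5152) x3694) x4666) x5206) x5170) x5146) x5150) x5154) x2966)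
    (Nat.sub (Nat.add (Nat.add (Nat.add (Nat.add (Nat.add C x3696) x4668) x5208) x5172) x5152) x2968)
    (Nat.add (Nat.add (Nat.add (Nat.add (Nat.add (Nat.add C x3704) x4676) x5216) x5144) x5168) x5164)
    (Nat.sub (Nat.sub (Nat.add (Nat.add (Nat.add (Nat.add (Nat.add (Nat.add C x3706) x4678) x5218) x5146) x5170) x5162) (Nat.mul x5164 (nat_lit 2))) x2978)
    (Nat.add (Nat.add (Nat.add (Nat.add (Nat.add (Nat.add C x3710) x4682) x5222) x5150) x5162) x5170)
    (Nat.sub (Nat.add (Nat.add (Nat.add (Nat.add (Nat.add (Nat.add (Nat.add (Nat.add C x3712) x4684) x5224) x5152) x5164) x5176) x5168) x5172) x2984)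
    (Nat.sub (Nat.sub (Nat.add (Nat.add (Nat.add (Nat.add (Nat.add (Nat.add C x3714) x4686) x5226) x5154) x5178) x5170) (Nat.mul x5172 (nat_lit 2))) x2986)
    (Nat.sub (Nat.add (Nat.add (Nat.add (Nat.add (Nat.add C x3718) x4690) x5230) x5170) x5178) x2990)
    (Nat.sub (Nat.add (Nat.add (Nat.add (Nat.add (Nat.add C x3720) x4692) x5232) x5172) x5176) x2992)
    (Nat.add (Nat.add (Nat.add (Nat.add (Nat.add (Nat.add C (Nat.mul x5192 (nat_lit 2))) x3734) x4706) x5354) x5138) x5198)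
    (Nat.add (Nat.add (Nat.add (Nat.add (Nat.add (Nat.add (Nat.add (Nat.add (Nat.add C x5198) x3740) x4712) x5360) x5144) x5216) x5192) x5204) x5200)
    (Nat.sub (Nat.add (Nat.add (Nat.add (Nat.add (Nat.add (Nat.add (Nat.add C x3742) x4714) x5362) x5146) x5218) x5206) x5198) x3014)
    (Nat.sub (Nat.add (Nat.add (Nat.add (Nat.add (Nat.add (Nat.add (Nat.add C x3746) x4718) x5366) x5150) x5222) x5198) x5206) (Nat.mul x5204 (nat_lit 2)))
    (Nat.sub (Nat.sub (Nat.add (Nat.add (Nat.add (Nat.add (Nat.add (Nat.add (Nat.add (Nat.add C x3748) x4720) x5368) x5152) x5224) x5200) x5204) x5208) x5206) x3020)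
    (Nat.sub (Nat.sub (Nat.add (Nat.add (Nat.add (Nat.add (Nat.add (Nat.add C x3750) x4722) x5370) x5154) x5226) x5206) (Nat.mul x5208 (nat_lit 2))) x3022)
    (Nat.add (Nat.add (Nat.add (Nat.add (Nat.add (Nat.add (Nat.add (Nat.add (Nat.add C x5216) x3758) x4730) x5378) x5162) x5270) x5198) x5222) x5218)
    (Nat.sub (Nat.sub (Nat.add (Nat.add (Nat.add (Nat.add (Nat.add (Nat.add (Nat.add (Nat.add C x3760) x4732) x5380) x5164) x5272) x5200) x5224) x5216) x5218) x3032)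
    (Nat.add (Nat.add (Nat.add (Nat.add (Nat.add (Nat.add (Nat.add (Nat.add (Nat.add C x3764) x4736) x5384) x5168) x5276) x5204) x5240) x5216) x5224)
    (Nat.sub (Nat.add (Nat.add (Nat.add (Nat.add (Nat.add (Nat.add (Nat.add (Nat.add (Nat.add (Nat.add (Nat.add C x3766) x4738) x5386) x5170) x5278) x5206) x5242) x5218) x5230) x5222) x5226) x3038)
    (Nat.sub (Nat.sub (Nat.add (Nat.add (Nat.add (Nat.add (Nat.add (Nat.add (Nat.add (Nat.add (Nat.add C x3768) x4740) x5388) x5172) x5280) x5208) x5244) x5232) x5224) (Nat.mul x5226 (nat_lit 2))) x3040)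
    (Nat.sub (Nat.sub (Nat.add (Nat.add (Nat.add (Nat.add (Nat.add (Nat.add (Nat.add (Nat.add C x3772) x4744) x5392) x5176) x5284) x5248) x5224) x5232) x5230) x3044)
    (Nat.sub (Nat.sub (Nat.add (Nat.add (Nat.add (Nat.add (Nat.add (Nat.add (Nat.add (Nat.add C x3774) x4746) x5394) x5178) x5286) x5250) x5226) x5230) x5232) x3046)
    (Nat.add (Nat.add (Nat.add (Nat.add (Nat.add (Nat.add C x3782) x4754) x5402) x5294) x5222) x5242)
    (Nat.sub (Nat.sub (Nat.add (Nat.add (Nat.add (Nat.add (Nat.add (Nat.add (Nat.add (Nat.add C x3784) x4756) x5404) x5296) x5224) x5248) x5240) x5244) x5242) x3056)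
    (Nat.sub (Nat.sub (Nat.add (Nat.add (Nat.add (Nat.add (Nat.add (Nat.add (Nat.add C x3786) x4758) x5406) x5298) x5226) x5250) x5242) (Nat.mul x5244 (nat_lit 4))) x3058)
    (Nat.sub (Nat.add (Nat.add (Nat.add (Nat.add (Nat.add (Nat.add (Nat.add C x3790) x4762) x5410) x5302) x5230) x5242) x5250) x3062)
    (Nat.sub (Nat.sub (Nat.add (Nat.add (Nat.add (Nat.add (Nat.add (Nat.add (Nat.add (Nat.add C x3792) x4764) x5412) x5304) x5232) x5244) x5256) x5248) x5250) x3064)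
    (Nat.sub (Nat.add (Nat.add (Nat.add (Nat.add (Nat.add C x3798) x4770) x5418) x5310) x5250) x3070)
    (Nat.add (Nat.add (Nat.add (Nat.add (Nat.add (Nat.add C x3812) x4784) x5432) x5216) x5276) x5272)
    (Nat.sub (Nat.sub (Nat.add (Nat.add (Nat.add (Nat.add (Nat.add (Nat.add C x3814) x4786) x5434) x5218) x5278) x5270) (Nat.mul x5272 (nat_lit 2))) x3086)
    (Nat.sub (Nat.add (Nat.add (Nat.add (Nat.add (Nat.add (Nat.add (Nat.add C x3818) x4790) x5438) x5222) x5294) x5270) x5278) (Nat.mul x5276 (nat_lit 2)))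
    (Nat.sub (Nat.sub (Nat.add (Nat.add (Nat.add (Nat.add (Nat.add (Nat.add (Nat.add (Nat.add (Nat.add C x3820) x4792) x5440) x5224) x5296) x5272) x5284) x5276) x5280) (Nat.mul x5278 (nat_lit 2))) x3092)
    (Nat.sub (Nat.sub (Nat.add (Nat.add (Nat.add (Nat.add (Nat.add (Nat.add (Nat.add C x3822) x4794) x5442) x5226) x5298) x5286) x5278) (Nat.mul x5280 (nat_lit 4))) x3094)
    (Nat.sub (Nat.sub (Nat.add (Nat.add (Nat.add (Nat.add (Nat.add (Nat.add (Nat.add C x3826) x4798) x5446) x5230) x5302) x5278) x5286) (Nat.mul x5284 (nat_lit 4))) x3098)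
    (Nat.sub (Nat.sub (Nat.add (Nat.add (Nat.add (Nat.add (Nat.add (Nat.add (Nat.add C x3828) x4800) x5448) x5232) x5304) x5280) x5284) (Nat.mul x5286 (nat_lit 4))) x3100)
    (Nat.add (Nat.add (Nat.add (Nat.add (Nat.add (Nat.add C x3836) x4808) x5456) x5240) x5276) x5296)
    (Nat.sub (Nat.sub (Nat.add (Nat.add (Nat.add (Nat.add (Nat.add (Nat.add (Nat.add (Nat.add C x3838) x4810) x5458) x5242) x5278) x5302) x5294) x5298) x5296) x3110)
    (Nat.sub (Nat.sub (Nat.add (Nat.add (Nat.add (Nat.add (Nat.add (Nat.add (Nat.add C x3840) x4812) x5460) x5244) x5280) x5304) x5296) (Nat.mul x5298 (nat_lit 4))) x3112)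
    (Nat.sub (Nat.sub (Nat.add (Nat.add (Nat.add (Nat.add (Nat.add (Nat.add (Nat.add (Nat.add C x3844) x4816) x5464) x5248) x5284) x5320) x5296) x5304) x5302) x3116)
    (Nat.sub (Nat.sub (Nat.add (Nat.add (Nat.add (Nat.add (Nat.add (Nat.add (Nat.add (Nat.add (Nat.add C x3846) x4818) x5466) x5250) x5286) x5322) x5298) x5310) x5302) (Nat.mul x5304 (nat_lit 2))) x3118)
    (Nat.sub (Nat.sub (Nat.add (Nat.add (Nat.add (Nat.add (Nat.add (Nat.add C x3852) x4824) x5472) x5256) x5328) x5304) (Nat.mul x5310 (nat_lit 2))) x3124)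
    (Nat.sub (Nat.add (Nat.add (Nat.add (Nat.add (Nat.add C x3862) x4834) x5482) x5302) x5322) x3134)
    (Nat.sub (Nat.sub (Nat.add (Nat.add (Nat.add (Nat.add (Nat.add (Nat.add C x3864) x4836) x5484) x5304) x5328) x5320) (Nat.mul x5322 (nat_lit 2))) x3136)
    (Nat.sub (Nat.add (Nat.add (Nat.add (Nat.add (Nat.add C x3870) x4842) x5490) x5310) x5322) x3142)
    (Nat.add (Nat.add (Nat.add (Nat.add (Nat.add (Nat.add C (Nat.mul x5354 (nat_lit 3))) x3896) x4868) x5840) x5192) x5360)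
    (Nat.add (Nat.add (Nat.add (Nat.add (Nat.add (Nat.add (Nat.add (Nat.add (Nat.add C (Nat.mul x5360 (nat_lit 2))) x3902) x4874) x5846) x5198) x5378) x5354) x5366) x5362)
    (Nat.sub (Nat.add (Nat.add (Nat.add (Nat.add (Nat.add (Nat.add (Nat.add (Nat.add C x5362) x3904) x4876) x5848) x5200) x5380) x5368) x5360) x3176)
    (Nat.sub (Nat.add (Nat.add (Nat.add (Nat.add (Nat.add (Nat.add (Nat.add C x3908) x4880) x5852) x5204) x5384) x5360) x5368) x5366)
    (Nat.sub (Nat.add (Nat.add (Nat.add (Nat.add (Nat.add (Nat.add (Nat.add (Nat.add C x3910) x4882) x5854) x5206) x5386) x5362) x5366) x5370) x3182)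
    (Nat.sub (Nat.sub (Nat.add (Nat.add (Nat.add (Nat.add (Nat.add (Nat.add C x3912) x4884) x5856) x5208) x5388) x5368) x5370) x3184)
    (Nat.add (Nat.add (Nat.add (Nat.add (Nat.add (Nat.add (Nat.add (Nat.add (Nat.add C x5378) x3920) x4892) x5864) x5216) x5432) x5360) x5384) x5380)
    (Nat.sub (Nat.sub (Nat.add (Nat.add (Nat.add (Nat.add (Nat.add (Nat.add (Nat.add (Nat.add C x3922) x4894) x5866) x5218) x5434) x5362) x5386) x5378) x5380) x3194)
    (Nat.add (Nat.add (Nat.add (Nat.add (Nat.add (Nat.add (Nat.add (Nat.add (Nat.add C x3926) x4898) x5870) x5222) x5438) x5366) x5402) x5378) x5386)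
    (Nat.sub (Nat.add (Nat.add (Nat.add (Nat.add (Nat.add (Nat.add (Nat.add (Nat.add (Nat.add (Nat.add (Nat.add C x3928) x4900) x5872) x5224) x5440) x5368) x5404) x5380) x5392) x5384) x5388) x3200)
    (Nat.sub (Nat.sub (Nat.add (Nat.add (Nat.add (Nat.add (Nat.add (Nat.add (Nat.add (Nat.add (Nat.add C x3930) x4902) x5874) x5226) x5442) x5370) x5406) x5394) x5386) (Nat.mul x5388 (nat_lit 2))) x3202)
    (Nat.sub (Nat.sub (Nat.add (Nat.add (Nat.add (Nat.add (Nat.add (Nat.add (Nat.add (Nat.add C x3934) x4906) x5878) x5230) x5446) x5410) x5386) x5394) x5392) x3206)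
    (Nat.sub (Nat.sub (Nat.add (Nat.add (Nat.add (Nat.add (Nat.add (Nat.add (Nat.add (Nat.add C x3936) x4908) x5880) x5232) x5448) x5412) x5388) x5392) x5394) x3208)
    (Nat.sub (Nat.add (Nat.add (Nat.add (Nat.add (Nat.add (Nat.add (Nat.add C x3944) x4916) x5888) x5240) x5456) x5384) x5404) x5402)
    (Nat.sub (Nat.sub (Nat.add (Nat.add (Nat.add (Nat.add (Nat.add (Nat.add (Nat.add (Nat.add (Nat.add C x3946) x4918) x5890) x5242) x5458) x5386) x5410) x5402) x5406) (Nat.mul x5404 (nat_lit 2))) x3218)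
    (Nat.sub (Nat.sub (Nat.add (Nat.add (Nat.add (Nat.add (Nat.add (Nat.add (Nat.add (Nat.add C x3948) x4920) x5892) x5244) x5460) x5388) x5412) x5404) (Nat.mul x5406 (nat_lit 5))) x3220)
    (Nat.sub (Nat.sub (Nat.add (Nat.add (Nat.add (Nat.add (Nat.add (Nat.add (Nat.add (Nat.add C x3952) x4924) x5896) x5248) x5464) x5392) x5404) x5412) x5410) x3224)
    (Nat.sub (Nat.sub (Nat.add (Nat.add (Nat.add (Nat.add (Nat.add (Nat.add (Nat.add (Nat.add (Nat.add C x3954) x4926) x5898) x5250) x5466) x5394) x5406) x5418) x5410) (Nat.mul x5412 (nat_lit 2))) x3226)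
    (Nat.sub (Nat.sub (Nat.add (Nat.add (Nat.add (Nat.add (Nat.add (Nat.add C x3960) x4932) x5904) x5256) x5472) x5412) x5418) x3232)
    (Nat.add (Nat.add (Nat.add (Nat.add (Nat.add (Nat.add (Nat.add (Nat.add (Nat.add C (Nat.mul x5432 (nat_lit 2))) x3974) x4946) x5918) x5270) x5594) x5378) x5438) x5434)
    (Nat.sub (Nat.add (Nat.add (Nat.add (Nat.add (Nat.add (Nat.add (Nat.add (Nat.add C x3976) x4948) x5920) x5272) x5596) x5380) x5440) x5432) x3248)
    (Nat.add (Nat.add (Nat.add (Nat.add (Nat.add (Nat.add (Nat.add (Nat.add (Nat.add C x3980) x4952) x5924) x5276) x5600) x5384) x5456) x5432) x5440)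
    (Nat.sub (Nat.add (Nat.add (Nat.add (Nat.add (Nat.add (Nat.add (Nat.add (Nat.add (Nat.add (Nat.add (Nat.add C x3982) x4954) x5926) x5278) x5602) x5386) x5458) x5434) x5446) x5438) x5442) x3254)
    (Nat.sub (Nat.sub (Nat.add (Nat.add (Nat.add (Nat.add (Nat.add (Nat.add (Nat.add (Nat.add (Nat.add C x3984) x4956) x5928) x5280) x5604) x5388) x5460) x5448) x5440) (Nat.mul x5442 (nat_lit 2))) x3256)
    (Nat.sub (Nat.sub (Nat.add (Nat.add (Nat.add (Nat.add (Nat.add (Nat.add (Nat.add (Nat.add (Nat.add C x3988) x4960) x5932) x5284) x5608) x5392) x5464) x5440) x5448) (Nat.mul x5446 (nat_lit 2))) x3260)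
    (Nat.sub (Nat.sub (Nat.add (Nat.add (Nat.add (Nat.add (Nat.add (Nat.add (Nat.add (Nat.add (Nat.add C x3990) x4962) x5934) x5286) x5610) x5394) x5466) x5442) x5446) (Nat.mul x5448 (nat_lit 2))) x3262)
    (Nat.add (Nat.add (Nat.add (Nat.add (Nat.add (Nat.add (Nat.add (Nat.add (Nat.add (Nat.add C x5456) x3998) x4970) x5942) x5294) x5618) x5402) x5510) x5438) x5458)
    (Nat.sub (Nat.add (Nat.add (Nat.add (Nat.add (Nat.add (Nat.add (Nat.add (Nat.add (Nat.add (Nat.add (Nat.add C x4000) x4972) x5944) x5296) x5620) x5404) x5512) x5440) x5464) x5456) x5460) x3272)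
    (Nat.sub (Nat.sub (Nat.add (Nat.add (Nat.add (Nat.add (Nat.add (Nat.add (Nat.add (Nat.add (Nat.add (Nat.add C x4002) x4974) x5946) x5298) x5622) x5406) x5514) x5442) x5466) x5458) (Nat.mul x5460 (nat_lit 3))) x3274)
    (Nat.sub (Nat.add (Nat.add (Nat.add (Nat.add (Nat.add (Nat.add (Nat.add (Nat.add (Nat.add (Nat.add (Nat.add C x4006) x4978) x5950) x5302) x5626) x5410) x5518) x5446) x5482) x5458) x5466) x3278)
    (Nat.sub (Nat.sub (Nat.add (Nat.add (Nat.add (Nat.add (Nat.add (Nat.add (Nat.add (Nat.add (Nat.add (Nat.add (Nat.add (Nat.add C x4008) x4980) x5952) x5304) x5628) x5412) x5520) x5448) x5484) x5460) x5472) x5464) x5466) x3280)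
    (Nat.sub (Nat.sub (Nat.add (Nat.add (Nat.add (Nat.add (Nat.add (Nat.add (Nat.add (Nat.add (Nat.add C x4014) x4986) x5958) x5310) x5634) x5418) x5526) x5490) x5466) x5472) x3286)
    (Nat.sub (Nat.add (Nat.add (Nat.add (Nat.add (Nat.add (Nat.add (Nat.add (Nat.add C x4024) x4996) x5968) x5320) x5644) x5536) x5464) x5484) x3296)
    (Nat.sub (Nat.sub (Nat.add (Nat.add (Nat.add (Nat.add (Nat.add (Nat.add (Nat.add (Nat.add (Nat.add C x4026) x4998) x5970) x5322) x5646) x5538) x5466) x5490) x5482) (Nat.mul x5484 (nat_lit 2))) x3298)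
    (Nat.sub (Nat.add (Nat.add (Nat.add (Nat.add (Nat.add (Nat.add (Nat.add (Nat.add C x4032) x5004) x5976) x5328) x5652) x5544) x5472) x5484) x3304)
    (Nat.add (Nat.add (Nat.add (Nat.add (Nat.add (Nat.add (Nat.add C x5510) x4052) x5024) x5996) x5672) x5456) x5512)
    (Nat.sub (Nat.add (Nat.add (Nat.add (Nat.add (Nat.add (Nat.add (Nat.add (Nat.add C x4054) x5026) x5998) x5674) x5458) x5518) x5510) x5514) x3326)
    (Nat.sub (Nat.sub (Nat.add (Nat.add (Nat.add (Nat.add (Nat.add (Nat.add (Nat.add C x4056) x5028) x6000) x5676) x5460) x5520) x5512) (Nat.mul x5514 (nat_lit 3))) x3328)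
    (Nat.sub (Nat.sub (Nat.add (Nat.add (Nat.add (Nat.add (Nat.add (Nat.add (Nat.add (Nat.add C x4060) x5032) x6004) x5680) x5464) x5536) x5512) x5520) x5518) x3332)
    (Nat.sub (Nat.sub (Nat.add (Nat.add (Nat.add (Nat.add (Nat.add (Nat.add (Nat.add (Nat.add (Nat.add C x4062) x5034) x6006) x5682) x5466) x5538) x5514) x5526) x5518) (Nat.mul x5520 (nat_lit 2))) x3334)
    (Nat.sub (Nat.sub (Nat.add (Nat.add (Nat.add (Nat.add (Nat.add (Nat.add (Nat.add C x4068) x5040) x6012) x5688) x5472) x5544) x5520) (Nat.mul x5526 (nat_lit 3))) x3340)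
    (Nat.sub (Nat.add (Nat.add (Nat.add (Nat.add (Nat.add (Nat.add (Nat.add (Nat.add C x5536) x4078) x5050) x6022) x5698) x5482) x5518) x5538) x3350)
    (Nat.sub (Nat.sub (Nat.add (Nat.add (Nat.add (Nat.add (Nat.add (Nat.add (Nat.add (Nat.add C x4080) x5052) x6024) x5700) x5484) x5520) x5544) x5536) x5538) x3352)
    (Nat.sub (Nat.add (Nat.add (Nat.add (Nat.add (Nat.add (Nat.add (Nat.add (Nat.add C x4086) x5058) x6030) x5706) x5490) x5526) x5562) x5538) x3358)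
    (Nat.sub (Nat.add (Nat.add (Nat.add (Nat.add (Nat.add (Nat.add C x5562) x4104) x5076) x6048) x5724) x5544) x3376)
    (Nat.add (Nat.add (Nat.add (Nat.add (Nat.add (Nat.add C (Nat.mul x5594 (nat_lit 2))) x4136) x6080) x5432) x5600) x5596)
    (Nat.sub (Nat.add (Nat.add (Nat.add (Nat.add (Nat.add C x4138) x6082) x5434) x5602) x5594) x3410)
    (Nat.add (Nat.add (Nat.add (Nat.add (Nat.add (Nat.add C x4142) x6086) x5438) x5618) x5594) x5602)
    (Nat.sub (Nat.add (Nat.add (Nat.add (Nat.add (Nat.add (Nat.add (Nat.add (Nat.add C x4144) x6088) x5440) x5620) x5596) x5608) x5600) x5604) x3416)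
    (Nat.sub (Nat.sub (Nat.add (Nat.add (Nat.add (Nat.add (Nat.add (Nat.add C x4146) x6090) x5442) x5622) x5610) x5602) (Nat.mul x5604 (nat_lit 2))) x3418)
    (Nat.sub (Nat.sub (Nat.add (Nat.add (Nat.add (Nat.add (Nat.add (Nat.add C x4150) x6094) x5446) x5626) x5602) x5610) (Nat.mul x5608 (nat_lit 2))) x3422)
    (Nat.sub (Nat.sub (Nat.add (Nat.add (Nat.add (Nat.add (Nat.add (Nat.add C x4152) x6096) x5448) x5628) x5604) x5608) (Nat.mul x5610 (nat_lit 2))) x3424)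
    (Nat.add (Nat.add (Nat.add (Nat.add (Nat.add (Nat.add C x4160) x6104) x5456) x5672) x5600) x5620)
    (Nat.sub (Nat.sub (Nat.add (Nat.add (Nat.add (Nat.add (Nat.add (Nat.add (Nat.add (Nat.add C x4162) x6106) x5458) x5674) x5602) x5626) x5618) x5622) x5620) x3434)
    (Nat.sub (Nat.sub (Nat.add (Nat.add (Nat.add (Nat.add (Nat.add (Nat.add (Nat.add C x4164) x6108) x5460) x5676) x5604) x5628) x5620) (Nat.mul x5622 (nat_lit 4))) x3436)
    (Nat.sub (Nat.sub (Nat.add (Nat.add (Nat.add (Nat.add (Nat.add (Nat.add (Nat.add (Nat.add C x4168) x6112) x5464) x5680) x5608) x5644) x5620) x5628) x5626) x3440)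
    (Nat.sub (Nat.sub (Nat.add (Nat.add (Nat.add (Nat.add (Nat.add (Nat.add (Nat.add (Nat.add (Nat.add C x4170) x6114) x5466) x5682) x5610) x5646) x5622) x5634) x5626) (Nat.mul x5628 (nat_lit 2))) x3442)
    (Nat.sub (Nat.sub (Nat.add (Nat.add (Nat.add (Nat.add (Nat.add (Nat.add C x4176) x6120) x5472) x5688) x5652) x5628) (Nat.mul x5634 (nat_lit 2))) x3448)
    (Nat.sub (Nat.sub (Nat.add (Nat.add (Nat.add (Nat.add (Nat.add (Nat.add C x4186) x6130) x5482) x5698) x5626) x5646) (Nat.mul x5644 (nat_lit 2))) x3458)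
    (Nat.sub (Nat.sub (Nat.add (Nat.add (Nat.add (Nat.add (Nat.add (Nat.add (Nat.add C x4188) x6132) x5484) x5700) x5628) x5652) x5644) (Nat.mul x5646 (nat_lit 4))) x3460)
    (Nat.sub (Nat.sub (Nat.add (Nat.add (Nat.add (Nat.add (Nat.add (Nat.add C x4194) x6138) x5490) x5706) x5634) x5646) (Nat.mul x5652 (nat_lit 2))) x3466)
    (Nat.add (Nat.add (Nat.add (Nat.add (Nat.add (Nat.add C (Nat.mul x5672 (nat_lit 2))) x4214) x6158) x5510) x5618) x5674)
    (Nat.sub (Nat.add (Nat.add (Nat.add (Nat.add (Nat.add (Nat.add (Nat.add (Nat.add C x5674) x4216) x6160) x5512) x5620) x5680) x5672) x5676) x3488)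
    (Nat.sub (Nat.sub (Nat.add (Nat.add (Nat.add (Nat.add (Nat.add (Nat.add C x4218) x6162) x5514) x5622) x5682) x5674) (Nat.mul x5676 (nat_lit 2))) x3490)
    (Nat.sub (Nat.add (Nat.add (Nat.add (Nat.add (Nat.add (Nat.add (Nat.add C x4222) x6166) x5518) x5626) x5698) x5674) x5682) x3494)
    (Nat.sub (Nat.sub (Nat.add (Nat.add (Nat.add (Nat.add (Nat.add (Nat.add (Nat.add (Nat.add C x4224) x6168) x5520) x5628) x5700) x5676) x5688) x5680) x5682) x3496)
    (Nat.sub (Nat.sub (Nat.add (Nat.add (Nat.add (Nat.add (Nat.add (Nat.add C x4230) x6174) x5526) x5634) x5706) x5682) (Nat.mul x5688 (nat_lit 2))) x3502)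
    (Nat.sub (Nat.add (Nat.add (Nat.add (Nat.add (Nat.add (Nat.add (Nat.add (Nat.add C x5698) x4240) x6184) x5536) x5644) x5752) x5680) x5700) x3512)
    (Nat.sub (Nat.sub (Nat.add (Nat.add (Nat.add (Nat.add (Nat.add (Nat.add (Nat.add (Nat.add C x4242) x6186) x5538) x5646) x5754) x5682) x5706) x5698) x5700) x3514)
    (Nat.sub (Nat.add (Nat.add (Nat.add (Nat.add (Nat.add (Nat.add (Nat.add (Nat.add C x4248) x6192) x5544) x5652) x5760) x5688) x5724) x5700) x3520)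
    (Nat.sub (Nat.add (Nat.add (Nat.add (Nat.add (Nat.add C x4266) x6210) x5562) x5778) x5706) x3538)
    (Nat.sub (Nat.add (Nat.add (Nat.add (Nat.add (Nat.add C (Nat.mul x5752 (nat_lit 2))) x4294) x6238) x5698) x5754) x3566)
    (Nat.sub (Nat.add (Nat.add (Nat.add (Nat.add (Nat.add C x4296) x6240) x5700) x5760) x5752) x3568)
    (Nat.sub (Nat.add (Nat.add (Nat.add (Nat.add (Nat.add C x4302) x6246) x5706) x5778) x5754) x3574)
    (Nat.sub (Nat.add (Nat.add (Nat.add (Nat.add (Nat.add C (Nat.mul x5778 (nat_lit 2))) x4320) x6264) x5724) x5760) x3592)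
    (Nat.add (Nat.add (Nat.add C (Nat.mul x5840 (nat_lit 4))) x5354) x5846)
    (Nat.add (Nat.add (Nat.add (Nat.add (Nat.add (Nat.add C (Nat.mul x5846 (nat_lit 3))) x5360) x5864) x5840) x5852) x5848)
    (Nat.sub (Nat.add (Nat.add (Nat.add (Nat.add (Nat.add C (Nat.mul x5848 (nat_lit 2))) x5362) x5866) x5854) x5846) x3662)
    (Nat.add (Nat.add (Nat.add (Nat.add C x5366) x5870) x5846) x5854)
    (Nat.sub (Nat.add (Nat.add (Nat.add (Nat.add (Nat.add (Nat.add C x5854) x5368) x5872) x5848) x5852) x5856) x3668)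
    (Nat.sub (Nat.add (Nat.add (Nat.add C x5370) x5874) x5854) x3670)
    (Nat.add (Nat.add (Nat.add (Nat.add (Nat.add (Nat.add C (Nat.mul x5864 (nat_lit 2))) x5378) x5918) x5846) x5870) x5866)
    (Nat.sub (Nat.add (Nat.add (Nat.add (Nat.add (Nat.add C x5380) x5920) x5848) x5872) x5864) x3680)
    (Nat.add (Nat.add (Nat.add (Nat.add (Nat.add (Nat.add (Nat.add C x5870) x5384) x5924) x5852) x5888) x5864) x5872)
    (Nat.sub (Nat.add (Nat.add (Nat.add (Nat.add (Nat.add (Nat.add (Nat.add (Nat.add (Nat.add C x5872) x5386) x5926) x5854) x5890) x5866) x5878) x5870) x5874) x3686)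
    (Nat.sub (Nat.sub (Nat.add (Nat.add (Nat.add (Nat.add (Nat.add (Nat.add C x5388) x5928) x5856) x5892) x5880) x5872) x5874) x3688)
    (Nat.sub (Nat.add (Nat.add (Nat.add (Nat.add (Nat.add C x5392) x5932) x5896) x5872) x5880) x3692)
    (Nat.sub (Nat.add (Nat.add (Nat.add (Nat.add (Nat.add C x5394) x5934) x5898) x5874) x5878) x3694)
    (Nat.add (Nat.add (Nat.add (Nat.add C x5402) x5942) x5870) x5890)
    (Nat.sub (Nat.sub (Nat.add (Nat.add (Nat.add (Nat.add (Nat.add (Nat.add C x5404) x5944) x5872) x5896) x5888) x5892) x5890) x3704)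
    (Nat.sub (Nat.sub (Nat.add (Nat.add (Nat.add (Nat.add (Nat.add C x5406) x5946) x5874) x5898) x5890) (Nat.mul x5892 (nat_lit 4))) x3706)
    (Nat.sub (Nat.add (Nat.add (Nat.add (Nat.add (Nat.add C x5410) x5950) x5878) x5890) x5898) x3710)
    (Nat.sub (Nat.sub (Nat.add (Nat.add (Nat.add (Nat.add (Nat.add (Nat.add C x5412) x5952) x5880) x5892) x5904) x5896) x5898) x3712)
    (Nat.sub (Nat.add (Nat.add (Nat.add C x5418) x5958) x5898) x3718)
    (Nat.add (Nat.add (Nat.add (Nat.add (Nat.add (Nat.add C (Nat.mul x5918 (nat_lit 2))) x5432) x6080) x5864) x5924) x5920)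
    (Nat.sub (Nat.add (Nat.add (Nat.add (Nat.add (Nat.add C x5434) x6082) x5866) x5926) x5918) x3734)
    (Nat.add (Nat.add (Nat.add (Nat.add (Nat.add (Nat.add C x5438) x6086) x5870) x5942) x5918) x5926)
    (Nat.sub (Nat.add (Nat.add (Nat.add (Nat.add (Nat.add (Nat.add (Nat.add (Nat.add C x5440) x6088) x5872) x5944) x5920) x5932) x5924) x5928) x3740)
    (Nat.sub (Nat.sub (Nat.add (Nat.add (Nat.add (Nat.add (Nat.add (Nat.add C x5442) x6090) x5874) x5946) x5934) x5926) (Nat.mul x5928 (nat_lit 2))) x3742)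
    (Nat.sub (Nat.sub (Nat.add (Nat.add (Nat.add (Nat.add (Nat.add (Nat.add C x5446) x6094) x5878) x5950) x5926) x5934) (Nat.mul x5932 (nat_lit 2))) x3746)
    (Nat.sub (Nat.sub (Nat.add (Nat.add (Nat.add (Nat.add (Nat.add (Nat.add C x5448) x6096) x5880) x5952) x5928) x5932) (Nat.mul x5934 (nat_lit 2))) x3748)
    (Nat.add (Nat.add (Nat.add (Nat.add (Nat.add (Nat.add (Nat.add C x5942) x5456) x6104) x5888) x5996) x5924) x5944)
    (Nat.sub (Nat.add (Nat.add (Nat.add (Nat.add (Nat.add (Nat.add (Nat.add (Nat.add C x5458) x6106) x5890) x5998) x5926) x5950) x5942) x5946) x3758)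
    (Nat.sub (Nat.sub (Nat.add (Nat.add (Nat.add (Nat.add (Nat.add (Nat.add (Nat.add C x5460) x6108) x5892) x6000) x5928) x5952) x5944) (Nat.mul x5946 (nat_lit 3))) x3760)
    (Nat.sub (Nat.add (Nat.add (Nat.add (Nat.add (Nat.add (Nat.add (Nat.add (Nat.add C x5464) x6112) x5896) x6004) x5932) x5968) x5944) x5952) x3764)
    (Nat.sub (Nat.sub (Nat.add (Nat.add (Nat.add (Nat.add (Nat.add (Nat.add (Nat.add (Nat.add (Nat.add C x5466) x6114) x5898) x6006) x5934) x5970) x5946) x5958) x5950) x5952) x3766)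
    (Nat.sub (Nat.sub (Nat.add (Nat.add (Nat.add (Nat.add (Nat.add (Nat.add C x5472) x6120) x5904) x6012) x5976) x5952) x5958) x3772)
    (Nat.sub (Nat.add (Nat.add (Nat.add (Nat.add (Nat.add C x5482) x6130) x6022) x5950) x5970) x3782)
    (Nat.sub (Nat.sub (Nat.add (Nat.add (Nat.add (Nat.add (Nat.add (Nat.add C x5484) x6132) x6024) x5952) x5976) x5968) (Nat.mul x5970 (nat_lit 2))) x3784)
    (Nat.sub (Nat.add (Nat.add (Nat.add (Nat.add (Nat.add C x5490) x6138) x6030) x5958) x5970) x3790)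
    (Nat.add (Nat.add (Nat.add (Nat.add C x5510) x6158) x5942) x5998)
    (Nat.sub (Nat.sub (Nat.add (Nat.add (Nat.add (Nat.add (Nat.add (Nat.add C x5512) x6160) x5944) x6004) x5996) x6000) x5998) x3812)
    (Nat.sub (Nat.sub (Nat.add (Nat.add (Nat.add (Nat.add (Nat.add C x5514) x6162) x5946) x6006) x5998) (Nat.mul x6000 (nat_lit 4))) x3814)
    (Nat.sub (Nat.sub (Nat.add (Nat.add (Nat.add (Nat.add (Nat.add (Nat.add C x5518) x6166) x5950) x6022) x5998) x6006) (Nat.mul x6004 (nat_lit 2))) x3818)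
    (Nat.sub (Nat.sub (Nat.add (Nat.add (Nat.add (Nat.add (Nat.add (Nat.add (Nat.add C x5520) x6168) x5952) x6024) x6000) x6012) x6004) (Nat.mul x6006 (nat_lit 3))) x3820)
    (Nat.sub (Nat.sub (Nat.add (Nat.add (Nat.add (Nat.add (Nat.add C x5526) x6174) x5958) x6030) x6006) (Nat.mul x6012 (nat_lit 4))) x3826)
    (Nat.sub (Nat.add (Nat.add (Nat.add (Nat.add (Nat.add C x5536) x6184) x5968) x6004) x6024) x3836)
    (Nat.sub (Nat.sub (Nat.add (Nat.add (Nat.add (Nat.add (Nat.add (Nat.add C x5538) x6186) x5970) x6006) x6030) x6022) (Nat.mul x6024 (nat_lit 2))) x3838)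
    (Nat.sub (Nat.sub (Nat.add (Nat.add (Nat.add (Nat.add (Nat.add (Nat.add C x5544) x6192) x5976) x6012) x6048) x6024) x6030) x3844)
    (Nat.sub (Nat.add (Nat.add (Nat.add C x5562) x6210) x6030) x3862)
    (Nat.add (Nat.add (Nat.add (Nat.add (Nat.add C (Nat.mul x6080 (nat_lit 4))) x5594) x5918) x6086) x6082)
    (Nat.sub (Nat.add (Nat.add (Nat.add (Nat.add (Nat.add C (Nat.mul x6082 (nat_lit 2))) x5596) x5920) x6088) x6080) x3896)
    (Nat.add (Nat.add (Nat.add (Nat.add (Nat.add (Nat.add C (Nat.mul x6086 (nat_lit 2))) x5600) x5924) x6104) x6080) x6088)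
    (Nat.sub (Nat.add (Nat.add (Nat.add (Nat.add (Nat.add (Nat.add (Nat.add (Nat.add C (Nat.mul x6088 (nat_lit 2))) x5602) x5926) x6106) x6082) x6094) x6086) x6090) x3902)
    (Nat.sub (Nat.add (Nat.add (Nat.add (Nat.add (Nat.add C x5604) x5928) x6108) x6096) x6088) x3904)
    (Nat.sub (Nat.add (Nat.add (Nat.add (Nat.add (Nat.add C x5608) x5932) x6112) x6088) x6096) x3908)
    (Nat.sub (Nat.add (Nat.add (Nat.add (Nat.add (Nat.add C x5610) x5934) x6114) x6090) x6094) x3910)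
    (Nat.add (Nat.add (Nat.add (Nat.add (Nat.add (Nat.add C (Nat.mul x6104 (nat_lit 2))) x5618) x5942) x6158) x6086) x6106)
    (Nat.sub (Nat.add (Nat.add (Nat.add (Nat.add (Nat.add (Nat.add (Nat.add (Nat.add C x6106) x5620) x5944) x6160) x6088) x6112) x6104) x6108) x3920)
    (Nat.sub (Nat.sub (Nat.add (Nat.add (Nat.add (Nat.add (Nat.add (Nat.add C x5622) x5946) x6162) x6090) x6114) x6106) (Nat.mul x6108 (nat_lit 2))) x3922)
    (Nat.sub (Nat.add (Nat.add (Nat.add (Nat.add (Nat.add (Nat.add (Nat.add (Nat.add C x6112) x5626) x5950) x6166) x6094) x6130) x6106) x6114) x3926)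
    (Nat.sub (Nat.add (Nat.add (Nat.add (Nat.add (Nat.add (Nat.add (Nat.add (Nat.add C x5628) x5952) x6168) x6096) x6132) x6108) x6120) x6112) x3928)
    (Nat.sub (Nat.add (Nat.add (Nat.add (Nat.add (Nat.add C x5634) x5958) x6174) x6138) x6114) x3934)
    (Nat.sub (Nat.add (Nat.add (Nat.add (Nat.add (Nat.add C x5644) x5968) x6184) x6112) x6132) x3944)
    (Nat.sub (Nat.sub (Nat.add (Nat.add (Nat.add (Nat.add (Nat.add (Nat.add C x5646) x5970) x6186) x6114) x6138) x6130) (Nat.mul x6132 (nat_lit 2))) x3946)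
    (Nat.sub (Nat.add (Nat.add (Nat.add (Nat.add (Nat.add C x5652) x5976) x6192) x6120) x6132) x3952)
    (Nat.add (Nat.add (Nat.add (Nat.add (Nat.add (Nat.add C (Nat.mul x6158 (nat_lit 3))) x5672) x5996) x6320) x6104) x6160)
    (Nat.sub (Nat.add (Nat.add (Nat.add (Nat.add (Nat.add (Nat.add (Nat.add (Nat.add C (Nat.mul x6160 (nat_lit 2))) x5674) x5998) x6322) x6106) x6166) x6158) x6162) x3974)
    (Nat.sub (Nat.sub (Nat.add (Nat.add (Nat.add (Nat.add (Nat.add (Nat.add C x5676) x6000) x6324) x6108) x6168) x6160) x6162) x3976)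
    (Nat.sub (Nat.add (Nat.add (Nat.add (Nat.add (Nat.add (Nat.add (Nat.add (Nat.add C x6166) x5680) x6004) x6328) x6112) x6184) x6160) x6168) x3980)
    (Nat.sub (Nat.add (Nat.add (Nat.add (Nat.add (Nat.add (Nat.add (Nat.add (Nat.add C x5682) x6006) x6330) x6114) x6186) x6162) x6174) x6166) x3982)
    (Nat.sub (Nat.sub (Nat.add (Nat.add (Nat.add (Nat.add (Nat.add (Nat.add C x5688) x6012) x6336) x6120) x6192) x6168) x6174) x3988)
    (Nat.sub (Nat.add (Nat.add (Nat.add (Nat.add (Nat.add (Nat.add (Nat.add (Nat.add C (Nat.mul x6184 (nat_lit 2))) x5698) x6022) x6346) x6130) x6238) x6166) x6186) x3998)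
    (Nat.sub (Nat.add (Nat.add (Nat.add (Nat.add (Nat.add (Nat.add (Nat.add (Nat.add C x5700) x6024) x6348) x6132) x6240) x6168) x6192) x6184) x4000)
    (Nat.sub (Nat.add (Nat.add (Nat.add (Nat.add (Nat.add (Nat.add (Nat.add (Nat.add (Nat.add C x6192) x5706) x6030) x6354) x6138) x6246) x6174) x6210) x6186) x4006)
    (Nat.sub (Nat.add (Nat.add (Nat.add (Nat.add (Nat.add (Nat.add C x6210) x5724) x6048) x6372) x6264) x6192) x4024)
    (Nat.sub (Nat.add (Nat.add (Nat.add (Nat.add (Nat.add C (Nat.mul x6238 (nat_lit 2))) x5752) x6400) x6184) x6240) x4052)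
    (Nat.sub (Nat.add (Nat.add (Nat.add (Nat.add (Nat.add C x5754) x6402) x6186) x6246) x6238) x4054)
    (Nat.sub (Nat.add (Nat.add (Nat.add (Nat.add (Nat.add C x5760) x6408) x6192) x6264) x6240) x4060)
    (Nat.sub (Nat.add (Nat.add (Nat.add (Nat.add (Nat.add C (Nat.mul x6264 (nat_lit 2))) x5778) x6426) x6210) x6246) x4078)
    (Nat.add (Nat.add (Nat.add C (Nat.mul x6320 (nat_lit 4))) x6158) x6322)
    (Nat.sub (Nat.add (Nat.add (Nat.add (Nat.add (Nat.add C (Nat.mul x6322 (nat_lit 3))) x6160) x6328) x6320) x6324) x4136)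
    (Nat.sub (Nat.add (Nat.add (Nat.add C x6162) x6330) x6322) x4138)
    (Nat.sub (Nat.add (Nat.add (Nat.add (Nat.add (Nat.add C (Nat.mul x6328 (nat_lit 2))) x6166) x6346) x6322) x6330) x4142)
    (Nat.sub (Nat.add (Nat.add (Nat.add (Nat.add (Nat.add (Nat.add C x6330) x6168) x6348) x6324) x6336) x6328) x4144)
    (Nat.sub (Nat.add (Nat.add (Nat.add C x6174) x6354) x6330) x4150)
    (Nat.sub (Nat.add (Nat.add (Nat.add (Nat.add (Nat.add C (Nat.mul x6346 (nat_lit 2))) x6184) x6400) x6328) x6348) x4160)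
    (Nat.sub (Nat.add (Nat.add (Nat.add (Nat.add (Nat.add C x6186) x6402) x6330) x6354) x6346) x4162)
    (Nat.sub (Nat.add (Nat.add (Nat.add (Nat.add (Nat.add (Nat.add C x6354) x6192) x6408) x6336) x6372) x6348) x4168)
    (Nat.sub (Nat.add (Nat.add (Nat.add C x6210) x6426) x6354) x4186)
    (Nat.sub (Nat.add (Nat.add (Nat.add (Nat.add C (Nat.mul x6400 (nat_lit 4))) x6238) x6346) x6402) x4214)
    (Nat.sub (Nat.add (Nat.add (Nat.add (Nat.add (Nat.add C (Nat.mul x6402 (nat_lit 2))) x6240) x6348) x6408) x6400) x4216)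
    (Nat.sub (Nat.add (Nat.add (Nat.add (Nat.add (Nat.add C (Nat.mul x6408 (nat_lit 2))) x6246) x6354) x6426) x6402) x4222)
    (Nat.sub (Nat.add (Nat.add (Nat.add (Nat.add (Nat.add C (Nat.mul x6426 (nat_lit 3))) x6264) x6372) x6480) x6408) x4240)
    (Nat.sub (Nat.add (Nat.add C (Nat.mul x6480 (nat_lit 4))) x6426) x4294)

theorem ap_eq (x : Nat → Nat) (k : FnLL specs) : apLL (fun t => x t.cd) specs k = A8_8.ap x k :=
  Eq.refl (A8_8.ap x k)

theorem step_eq0 (e : Nat → Nat) (C p r : Nat) (k : FnLL specs) (x : Nat → Nat) :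
    A8_8.ap x (step e C p r k) = apLL (interp e C p r x) specs k :=
  Eq.refl (A8_8.ap x (step e C p r k))

theorem spec_ok : specOK 7 true A8_8.mask specs = true := by decide +kernel

theorem step_eq (e : Nat → Nat) (C p r : Nat) (k : A8_8.KK) (x : Nat → Nat) :
    A8_8.ap x (step e C p r k) = A8_8.ap (row 7 true A8_8.mask e C p r x) k :=
  ((step_eq0 e C p r k x).trans (apLL_row 7 true A8_8.mask specs spec_ok e C p r x k)).trans
    (ap_eq (row 7 true A8_8.mask e C p r x) k)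

end Vale.Agent.P348.G8_8_1
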