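import Vale.Agent.P348.G.AS9

set_option maxRecDepth 1000000
set_option maxHeartbeats 0
set_option linter.all false

namespace Vale.Agent.P348.G9_0_0

noncomputable def sp0 : List Spec :=
  [Spec.mk (nat_lit 0) (nat_lit 9) [] (nat_lit 0) [] true]

noncomputable def specs : List (List Spec) :=
    sp0 :: []

noncomputable def step (e : Nat → Nat) (C ap an : Nat) (k :
    Nat → Bool)
  (
    x0 : Nat) : Bool :=
  k
    (Nat.sub (Nat.add (Nat.add C (Nat.mul x0 (nat_lit 9))) (Nat.mul (e (nat_lit 0)) ap)) (Nat.mul (e (nat_lit 0)) an))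

theorem ap_eq (x : Nat → Nat) (k : FnLL specs) : apLL (fun t => x t.cd) specs k = A9_0.ap x k :=
  Eq.refl (A9_0.ap x k)

theorem step_eq0 (e : Nat → Nat) (C p r : Nat) (k : FnLL specs) (x : Nat → Nat) :
    A9_0.ap x (step e C p r k) = apLL (interp e C p r x) specs k :=
  Eq.refl (A9_0.ap x (step e C p r k))

theorem spec_ok : specOK 8 false A9_0.mask specs = true := by decide +kernel

theorem step_eq (e : Nat → Nat) (C p r : Nat) (k : A9_0.KK) (x : Nat → Nat) :
    A9_0.ap x (step e C p r k) = A9_0.ap (row 8 false A9_0.mask e C p r x) k :=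
  ((step_eq0 e C p r k x).trans (apLL_row 8 false A9_0.mask specs spec_ok e C p r x k)).trans
    (ap_eq (row 8 false A9_0.mask e C p r x) k)

end Vale.Agent.P348.G9_0_0

namespace Vale.Agent.P348.G9_1_0

noncomputable def sp0 : List Spec :=
  [Spec.mk (nat_lit 1) (nat_lit 7) [nat_lit 3, nat_lit 6561] (nat_lit 0) [] true,
   Spec.mk (nat_lit 3) (nat_lit 7) [nat_lit 9, nat_lit 1] (nat_lit 0) [] false,
   Spec.mk (nat_lit 9) (nat_lit 7) [nat_lit 27, nat_lit 3] (nat_lit 0) [] false,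
   Spec.mk (nat_lit 27) (nat_lit 7) [nat_lit 81, nat_lit 9] (nat_lit 0) [] false,
   Spec.mk (nat_lit 81) (nat_lit 7) [nat_lit 243, nat_lit 27] (nat_lit 0) [] false,
   Spec.mk (nat_lit 243) (nat_lit 7) [nat_lit 729, nat_lit 81] (nat_lit 0) [] false,
   Spec.mk (nat_lit 729) (nat_lit 7) [nat_lit 2187, nat_lit 243] (nat_lit 0) [] false,
   Spec.mk (nat_lit 2187) (nat_lit 7) [nat_lit 6561, nat_lit 729] (nat_lit 0) [] false,
   Spec.mk (nat_lit 6561) (nat_lit 7) [nat_lit 2187, nat_lit 1] (nat_lit 0) [] false]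

noncomputable def specs : List (List Spec) :=
    sp0 :: []

noncomputable def step (e : Nat → Nat) (C ap an : Nat) (k :
    Nat → Nat → Nat → Nat → Nat → Nat → Nat → Nat → Nat → Bool)
  (
    x1 x3 x9 x27 x81 x243 x729 x2187 x6561 : Nat) : Bool :=
  k
    (Nat.sub (Nat.add (Nat.add (Nat.add (Nat.add C (Nat.mul x1 (nat_lit 7))) x3) x6561) (Nat.mul (e (nat_lit 1)) ap)) (Nat.mul (e (nat_lit 1)) an))
    (Nat.add (Nat.add (Nat.add C (Nat.mul x3 (nat_lit 7))) x9) x1)
    (Nat.add (Nat.add (Nat.add C (Nat.mul x9 (nat_lit 7))) x27) x3)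
    (Nat.add (Nat.add (Nat.add C (Nat.mul x27 (nat_lit 7))) x81) x9)
    (Nat.add (Nat.add (Nat.add C (Nat.mul x81 (nat_lit 7))) x243) x27)
    (Nat.add (Nat.add (Nat.add C (Nat.mul x243 (nat_lit 7))) x729) x81)
    (Nat.add (Nat.add (Nat.add C (Nat.mul x729 (nat_lit 7))) x2187) x243)
    (Nat.add (Nat.add (Nat.add C (Nat.mul x2187 (nat_lit 7))) x6561) x729)
    (Nat.add (Nat.add (Nat.add C (Nat.mul x6561 (nat_lit 7))) x2187) x1)

theorem ap_eq (x : Nat → Nat) (k : FnLL specs) : apLL (fun t => x t.cd) specs k = A9_1.ap x k :=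
  Eq.refl (A9_1.ap x k)

theorem step_eq0 (e : Nat → Nat) (C p r : Nat) (k : FnLL specs) (x : Nat → Nat) :
    A9_1.ap x (step e C p r k) = apLL (interp e C p r x) specs k :=
  Eq.refl (A9_1.ap x (step e C p r k))

theorem spec_ok : specOK 8 false A9_1.mask specs = true := by decide +kernel

theorem step_eq (e : Nat → Nat) (C p r : Nat) (k : A9_1.KK) (x : Nat → Nat) :
    A9_1.ap x (step e C p r k) = A9_1.ap (row 8 false A9_1.mask e C p r x) k :=
  ((step_eq0 e C p r k x).trans (apLL_row 8 false A9_1.mask specs spec_ok e C p r x k)).trans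
    (ap_eq (row 8 false A9_1.mask e C p r x) k)

end Vale.Agent.P348.G9_1_0

namespace Vale.Agent.P348.G9_2_0

noncomputable def sp0 : List Spec :=
  [Spec.mk (nat_lit 2) (nat_lit 5) [nat_lit 4, nat_lit 6562] (nat_lit 0) [] true,
   Spec.mk (nat_lit 4) (nat_lit 6) [nat_lit 10, nat_lit 2, nat_lit 6, nat_lit 6564] (nat_lit 0) [] true,
   Spec.mk (nat_lit 6) (nat_lit 5) [nat_lit 12, nat_lit 4] (nat_lit 0) [] false,
   Spec.mk (nat_lit 10) (nat_lit 5) [nat_lit 28, nat_lit 4, nat_lit 12, nat_lit 6570] (nat_lit 0) [] true,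
   Spec.mk (nat_lit 12) (nat_lit 6) [nat_lit 30, nat_lit 6, nat_lit 18, nat_lit 10] (nat_lit 0) [] false,
   Spec.mk (nat_lit 18) (nat_lit 5) [nat_lit 36, nat_lit 12] (nat_lit 0) [] false,
   Spec.mk (nat_lit 28) (nat_lit 5) [nat_lit 82, nat_lit 10, nat_lit 30, nat_lit 6588] (nat_lit 0) [] true,
   Spec.mk (nat_lit 30) (nat_lit 5) [nat_lit 84, nat_lit 12, nat_lit 36, nat_lit 28] (nat_lit 0) [] false,
   Spec.mk (nat_lit 36) (nat_lit 6) [nat_lit 90, nat_lit 18, nat_lit 54, nat_lit 30] (nat_lit 0) [] false,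
   Spec.mk (nat_lit 54) (nat_lit 5) [nat_lit 108, nat_lit 36] (nat_lit 0) [] false,
   Spec.mk (nat_lit 82) (nat_lit 5) [nat_lit 244, nat_lit 28, nat_lit 84, nat_lit 6642] (nat_lit 0) [] true,
   Spec.mk (nat_lit 84) (nat_lit 5) [nat_lit 246, nat_lit 30, nat_lit 90, nat_lit 82] (nat_lit 0) [] false,
   Spec.mk (nat_lit 90) (nat_lit 5) [nat_lit 252, nat_lit 36, nat_lit 108, nat_lit 84] (nat_lit 0) [] false,
   Spec.mk (nat_lit 108) (nat_lit 6) [nat_lit 270, nat_lit 54, nat_lit 162, nat_lit 90] (nat_lit 0) [] false,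
   Spec.mk (nat_lit 162) (nat_lit 5) [nat_lit 324, nat_lit 108] (nat_lit 0) [] false,
   Spec.mk (nat_lit 244) (nat_lit 5) [nat_lit 730, nat_lit 82, nat_lit 246, nat_lit 6804] (nat_lit 0) [] false,
   Spec.mk (nat_lit 246) (nat_lit 5) [nat_lit 732, nat_lit 84, nat_lit 252, nat_lit 244] (nat_lit 0) [] false,
   Spec.mk (nat_lit 252) (nat_lit 5) [nat_lit 738, nat_lit 90, nat_lit 270, nat_lit 246] (nat_lit 0) [] false,
   Spec.mk (nat_lit 270) (nat_lit 5) [nat_lit 756, nat_lit 108, nat_lit 324, nat_lit 252] (nat_lit 0) [] false,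
   Spec.mk (nat_lit 324) (nat_lit 6) [nat_lit 810, nat_lit 162, nat_lit 486, nat_lit 270] (nat_lit 0) [] false,
   Spec.mk (nat_lit 486) (nat_lit 5) [nat_lit 972, nat_lit 324] (nat_lit 0) [] false,
   Spec.mk (nat_lit 730) (nat_lit 5) [nat_lit 2188, nat_lit 244, nat_lit 732, nat_lit 7290] (nat_lit 0) [] false,
   Spec.mk (nat_lit 732) (nat_lit 5) [nat_lit 2190, nat_lit 246, nat_lit 738, nat_lit 730] (nat_lit 0) [] false,
   Spec.mk (nat_lit 738) (nat_lit 5) [nat_lit 2196, nat_lit 252, nat_lit 756, nat_lit 732] (nat_lit 0) [] false,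
   Spec.mk (nat_lit 756) (nat_lit 5) [nat_lit 2214, nat_lit 270, nat_lit 810, nat_lit 738] (nat_lit 0) [] false,
   Spec.mk (nat_lit 810) (nat_lit 5) [nat_lit 2268, nat_lit 324, nat_lit 972, nat_lit 756] (nat_lit 0) [] false,
   Spec.mk (nat_lit 972) (nat_lit 6) [nat_lit 2430, nat_lit 486, nat_lit 1458, nat_lit 810] (nat_lit 0) [] false,
   Spec.mk (nat_lit 1458) (nat_lit 5) [nat_lit 2916, nat_lit 972] (nat_lit 0) [] false,
   Spec.mk (nat_lit 2188) (nat_lit 5) [nat_lit 6562, nat_lit 730, nat_lit 2190, nat_lit 8748] (nat_lit 0) [] false,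
   Spec.mk (nat_lit 2190) (nat_lit 5) [nat_lit 6564, nat_lit 732, nat_lit 2196, nat_lit 2188] (nat_lit 0) [] false,
   Spec.mk (nat_lit 2196) (nat_lit 5) [nat_lit 6570, nat_lit 738, nat_lit 2214, nat_lit 2190] (nat_lit 0) [] false,
   Spec.mk (nat_lit 2214) (nat_lit 5) [nat_lit 6588, nat_lit 756, nat_lit 2268, nat_lit 2196] (nat_lit 0) [] false,
   Spec.mk (nat_lit 2268) (nat_lit 5) [nat_lit 6642, nat_lit 810, nat_lit 2430, nat_lit 2214] (nat_lit 0) [] false,
   Spec.mk (nat_lit 2430) (nat_lit 5) [nat_lit 6804, nat_lit 972, nat_lit 2916, nat_lit 2268] (nat_lit 0) [] false,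
   Spec.mk (nat_lit 2916) (nat_lit 6) [nat_lit 7290, nat_lit 1458, nat_lit 4374, nat_lit 2430] (nat_lit 0) [] false,
   Spec.mk (nat_lit 4374) (nat_lit 5) [nat_lit 8748, nat_lit 2916] (nat_lit 0) [] false,
   Spec.mk (nat_lit 6562) (nat_lit 6) [nat_lit 2188, nat_lit 6564, nat_lit 13122, nat_lit 2] (nat_lit 0) [] false,
   Spec.mk (nat_lit 6564) (nat_lit 5) [nat_lit 2190, nat_lit 6570, nat_lit 6562, nat_lit 4] (nat_lit 0) [] false,
   Spec.mk (nat_lit 6570) (nat_lit 5) [nat_lit 2196, nat_lit 6588, nat_lit 6564, nat_lit 10] (nat_lit 0) [] false,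
   Spec.mk (nat_lit 6588) (nat_lit 5) [nat_lit 2214, nat_lit 6642, nat_lit 6570, nat_lit 28] (nat_lit 0) [] false,
   Spec.mk (nat_lit 6642) (nat_lit 5) [nat_lit 2268, nat_lit 6804, nat_lit 6588, nat_lit 82] (nat_lit 0) [] false,
   Spec.mk (nat_lit 6804) (nat_lit 5) [nat_lit 2430, nat_lit 7290, nat_lit 6642, nat_lit 244] (nat_lit 0) [] false,
   Spec.mk (nat_lit 7290) (nat_lit 5) [nat_lit 2916, nat_lit 8748, nat_lit 6804, nat_lit 730] (nat_lit 0) [] false,
   Spec.mk (nat_lit 8748) (nat_lit 6) [nat_lit 4374, nat_lit 13122, nat_lit 7290, nat_lit 2188] (nat_lit 0) [] false,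
   Spec.mk (nat_lit 13122) (nat_lit 5) [nat_lit 8748, nat_lit 6562] (nat_lit 0) [] false]

noncomputable def specs : List (List Spec) :=
    sp0 :: []

noncomputable def step (e : Nat → Nat) (C ap an : Nat) (k :
    Nat → Nat → Nat → Nat → Nat → Nat → Nat → Nat → Nat → Nat → Nat → Nat → Nat → Nat → Nat → Nat →
    Nat → Nat → Nat → Nat → Nat → Nat → Nat → Nat → Nat → Nat → Nat → Nat → Nat → Nat → Nat → Nat →
    Nat → Nat → Nat → Nat → Nat → Nat → Nat → Nat → Nat → Nat → Nat → Nat → Nat → Bool)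
  (
    x2 x4 x6 x10 x12 x18 x28 x30 x36 x54 x82 x84 x90 x108 x162 x244 x246 x252 x270 x324 x486 x730
    x732 x738 x756 x810 x972 x1458 x2188 x2190 x2196 x2214 x2268 x2430 x2916 x4374 x6562 x6564
    x6570 x6588 x6642 x6804 x7290 x8748 x13122 : Nat) : Bool :=
  k
    (Nat.sub (Nat.add (Nat.add (Nat.add (Nat.add C (Nat.mul x2 (nat_lit 5))) x4) x6562) (Nat.mul (e (nat_lit 2)) ap)) (Nat.mul (e (nat_lit 2)) an))
    (Nat.sub (Nat.add (Nat.add (Nat.add (Nat.add (Nat.add (Nat.add C (Nat.mul x4 (nat_lit 6))) x10) x2) x6) x6564) (Nat.mul (e (nat_lit 4)) ap)) (Nat.mul (e (nat_lit 4)) an))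
    (Nat.add (Nat.add (Nat.add C (Nat.mul x6 (nat_lit 5))) x12) x4)
    (Nat.sub (Nat.add (Nat.add (Nat.add (Nat.add (Nat.add (Nat.add C (Nat.mul x10 (nat_lit 5))) x28) x4) x12) x6570) (Nat.mul (e (nat_lit 10)) ap)) (Nat.mul (e (nat_lit 10)) an))
    (Nat.add (Nat.add (Nat.add (Nat.add (Nat.add C (Nat.mul x12 (nat_lit 6))) x30) x6) x18) x10)
    (Nat.add (Nat.add (Nat.add C (Nat.mul x18 (nat_lit 5))) x36) x12)
    (Nat.sub (Nat.add (Nat.add (Nat.add (Nat.add (Nat.add (Nat.add C (Nat.mul x28 (nat_lit 5))) x82) x10) x30) x6588) (Nat.mul (e (nat_lit 28)) ap)) (Nat.mul (e (nat_lit 28)) an))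
    (Nat.add (Nat.add (Nat.add (Nat.add (Nat.add C (Nat.mul x30 (nat_lit 5))) x84) x12) x36) x28)
    (Nat.add (Nat.add (Nat.add (Nat.add (Nat.add C (Nat.mul x36 (nat_lit 6))) x90) x18) x54) x30)
    (Nat.add (Nat.add (Nat.add C (Nat.mul x54 (nat_lit 5))) x108) x36)
    (Nat.sub (Nat.add (Nat.add (Nat.add (Nat.add (Nat.add (Nat.add C (Nat.mul x82 (nat_lit 5))) x244) x28) x84) x6642) (Nat.mul (e (nat_lit 82)) ap)) (Nat.mul (e (nat_lit 82)) an))
    (Nat.add (Nat.add (Nat.add (Nat.add (Nat.add C (Nat.mul x84 (nat_lit 5))) x246) x30) x90) x82)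
    (Nat.add (Nat.add (Nat.add (Nat.add (Nat.add C (Nat.mul x90 (nat_lit 5))) x252) x36) x108) x84)
    (Nat.add (Nat.add (Nat.add (Nat.add (Nat.add C (Nat.mul x108 (nat_lit 6))) x270) x54) x162) x90)
    (Nat.add (Nat.add (Nat.add C (Nat.mul x162 (nat_lit 5))) x324) x108)
    (Nat.add (Nat.add (Nat.add (Nat.add (Nat.add C (Nat.mul x244 (nat_lit 5))) x730) x82) x246) x6804)
    (Nat.add (Nat.add (Nat.add (Nat.add (Nat.add C (Nat.mul x246 (nat_lit 5))) x732) x84) x252) x244)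
    (Nat.add (Nat.add (Nat.add (Nat.add (Nat.add C (Nat.mul x252 (nat_lit 5))) x738) x90) x270) x246)
    (Nat.add (Nat.add (Nat.add (Nat.add (Nat.add C (Nat.mul x270 (nat_lit 5))) x756) x108) x324) x252)
    (Nat.add (Nat.add (Nat.add (Nat.add (Nat.add C (Nat.mul x324 (nat_lit 6))) x810) x162) x486) x270)
    (Nat.add (Nat.add (Nat.add C (Nat.mul x486 (nat_lit 5))) x972) x324)
    (Nat.add (Nat.add (Nat.add (Nat.add (Nat.add C (Nat.mul x730 (nat_lit 5))) x2188) x244) x732) x7290)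
    (Nat.add (Nat.add (Nat.add (Nat.add (Nat.add C (Nat.mul x732 (nat_lit 5))) x2190) x246) x738) x730)
    (Nat.add (Nat.add (Nat.add (Nat.add (Nat.add C (Nat.mul x738 (nat_lit 5))) x2196) x252) x756) x732)
    (Nat.add (Nat.add (Nat.add (Nat.add (Nat.add C (Nat.mul x756 (nat_lit 5))) x2214) x270) x810) x738)
    (Nat.add (Nat.add (Nat.add (Nat.add (Nat.add C (Nat.mul x810 (nat_lit 5))) x2268) x324) x972) x756)
    (Nat.add (Nat.add (Nat.add (Nat.add (Nat.add C (Nat.mul x972 (nat_lit 6))) x2430) x486) x1458) x810)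
    (Nat.add (Nat.add (Nat.add C (Nat.mul x1458 (nat_lit 5))) x2916) x972)
    (Nat.add (Nat.add (Nat.add (Nat.add (Nat.add C (Nat.mul x2188 (nat_lit 5))) x6562) x730) x2190) x8748)
    (Nat.add (Nat.add (Nat.add (Nat.add (Nat.add C (Nat.mul x2190 (nat_lit 5))) x6564) x732) x2196) x2188)
    (Nat.add (Nat.add (Nat.add (Nat.add (Nat.add C (Nat.mul x2196 (nat_lit 5))) x6570) x738) x2214) x2190)
    (Nat.add (Nat.add (Nat.add (Nat.add (Nat.add C (Nat.mul x2214 (nat_lit 5))) x6588) x756) x2268) x2196)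
    (Nat.add (Nat.add (Nat.add (Nat.add (Nat.add C (Nat.mul x2268 (nat_lit 5))) x6642) x810) x2430) x2214)
    (Nat.add (Nat.add (Nat.add (Nat.add (Nat.add C (Nat.mul x2430 (nat_lit 5))) x6804) x972) x2916) x2268)
    (Nat.add (Nat.add (Nat.add (Nat.add (Nat.add C (Nat.mul x2916 (nat_lit 6))) x7290) x1458) x4374) x2430)
    (Nat.add (Nat.add (Nat.add C (Nat.mul x4374 (nat_lit 5))) x8748) x2916)
    (Nat.add (Nat.add (Nat.add (Nat.add (Nat.add C (Nat.mul x6562 (nat_lit 6))) x2188) x6564) x13122) x2)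
    (Nat.add (Nat.add (Nat.add (Nat.add (Nat.add C (Nat.mul x6564 (nat_lit 5))) x2190) x6570) x6562) x4)
    (Nat.add (Nat.add (Nat.add (Nat.add (Nat.add C (Nat.mul x6570 (nat_lit 5))) x2196) x6588) x6564) x10)
    (Nat.add (Nat.add (Nat.add (Nat.add (Nat.add C (Nat.mul x6588 (nat_lit 5))) x2214) x6642) x6570) x28)
    (Nat.add (Nat.add (Nat.add (Nat.add (Nat.add C (Nat.mul x6642 (nat_lit 5))) x2268) x6804) x6588) x82)
    (Nat.add (Nat.add (Nat.add (Nat.add (Nat.add C (Nat.mul x6804 (nat_lit 5))) x2430) x7290) x6642) x244)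
    (Nat.add (Nat.add (Nat.add (Nat.add (Nat.add C (Nat.mul x7290 (nat_lit 5))) x2916) x8748) x6804) x730)
    (Nat.add (Nat.add (Nat.add (Nat.add (Nat.add C (Nat.mul x8748 (nat_lit 6))) x4374) x13122) x7290) x2188)
    (Nat.add (Nat.add (Nat.add C (Nat.mul x13122 (nat_lit 5))) x8748) x6562)

theorem ap_eq (x : Nat → Nat) (k : FnLL specs) : apLL (fun t => x t.cd) specs k = A9_2.ap x k :=
  Eq.refl (A9_2.ap x k)

theorem step_eq0 (e : Nat → Nat) (C p r : Nat) (k : FnLL specs) (x : Nat → Nat) :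
    A9_2.ap x (step e C p r k) = apLL (interp e C p r x) specs k :=
  Eq.refl (A9_2.ap x (step e C p r k))

theorem spec_ok : specOK 8 false A9_2.mask specs = true := by decide +kernel

theorem step_eq (e : Nat → Nat) (C p r : Nat) (k : A9_2.KK) (x : Nat → Nat) :
    A9_2.ap x (step e C p r k) = A9_2.ap (row 8 false A9_2.mask e C p r x) k :=
  ((step_eq0 e C p r k x).trans (apLL_row 8 false A9_2.mask specs spec_ok e C p r x k)).trans
    (ap_eq (row 8 false A9_2.mask e C p r x) k)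

end Vale.Agent.P348.G9_2_0

namespace Vale.Agent.P348.G9_3_0

noncomputable def sp0 : List Spec :=
  [Spec.mk (nat_lit 5) (nat_lit 5) [nat_lit 11, nat_lit 7, nat_lit 6565] (nat_lit 0) [] true,
   Spec.mk (nat_lit 7) (nat_lit 5) [nat_lit 13, nat_lit 5, nat_lit 6567] (nat_lit 0) [] false,
   Spec.mk (nat_lit 11) (nat_lit 3) [nat_lit 29, nat_lit 5, nat_lit 13, nat_lit 6571] (nat_lit 0) [] true,
   Spec.mk (nat_lit 13) (nat_lit 5) [nat_lit 31, nat_lit 7, nat_lit 19, nat_lit 11, nat_lit 15, nat_lit 6573] (nat_lit 0) [] true,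
   Spec.mk (nat_lit 15) (nat_lit 5) [nat_lit 33, nat_lit 21, nat_lit 13] (nat_lit 0) [] false,
   Spec.mk (nat_lit 19) (nat_lit 3) [nat_lit 37, nat_lit 13, nat_lit 21, nat_lit 6579] (nat_lit 0) [] false,
   Spec.mk (nat_lit 21) (nat_lit 5) [nat_lit 39, nat_lit 15, nat_lit 19] (nat_lit 0) [] false,
   Spec.mk (nat_lit 29) (nat_lit 3) [nat_lit 83, nat_lit 11, nat_lit 31, nat_lit 6589] (nat_lit 0) [] true,
   Spec.mk (nat_lit 31) (nat_lit 4) [nat_lit 85, nat_lit 13, nat_lit 37, nat_lit 29, nat_lit 33, nat_lit 6591] (nat_lit 0) [] true,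
   Spec.mk (nat_lit 33) (nat_lit 3) [nat_lit 87, nat_lit 15, nat_lit 39, nat_lit 31] (nat_lit 0) [] false,
   Spec.mk (nat_lit 37) (nat_lit 4) [nat_lit 91, nat_lit 19, nat_lit 55, nat_lit 31, nat_lit 39, nat_lit 6597] (nat_lit 0) [] false,
   Spec.mk (nat_lit 39) (nat_lit 5) [nat_lit 93, nat_lit 21, nat_lit 57, nat_lit 33, nat_lit 45, nat_lit 37] (nat_lit 0) [] false,
   Spec.mk (nat_lit 45) (nat_lit 5) [nat_lit 99, nat_lit 63, nat_lit 39] (nat_lit 0) [] false,
   Spec.mk (nat_lit 55) (nat_lit 3) [nat_lit 109, nat_lit 37, nat_lit 57, nat_lit 6615] (nat_lit 0) [] false,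
   Spec.mk (nat_lit 57) (nat_lit 3) [nat_lit 111, nat_lit 39, nat_lit 63, nat_lit 55] (nat_lit 0) [] false,
   Spec.mk (nat_lit 63) (nat_lit 5) [nat_lit 117, nat_lit 45, nat_lit 57] (nat_lit 0) [] false,
   Spec.mk (nat_lit 83) (nat_lit 3) [nat_lit 245, nat_lit 29, nat_lit 85, nat_lit 6643] (nat_lit 0) [] true,
   Spec.mk (nat_lit 85) (nat_lit 4) [nat_lit 247, nat_lit 31, nat_lit 91, nat_lit 83, nat_lit 87, nat_lit 6645] (nat_lit 0) [] true,
   Spec.mk (nat_lit 87) (nat_lit 3) [nat_lit 249, nat_lit 33, nat_lit 93, nat_lit 85] (nat_lit 0) [] false,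
   Spec.mk (nat_lit 91) (nat_lit 3) [nat_lit 253, nat_lit 37, nat_lit 109, nat_lit 85, nat_lit 93, nat_lit 6651] (nat_lit 0) [] true,
   Spec.mk (nat_lit 93) (nat_lit 4) [nat_lit 255, nat_lit 39, nat_lit 111, nat_lit 87, nat_lit 99, nat_lit 91] (nat_lit 0) [] false,
   Spec.mk (nat_lit 99) (nat_lit 3) [nat_lit 261, nat_lit 45, nat_lit 117, nat_lit 93] (nat_lit 0) [] false,
   Spec.mk (nat_lit 109) (nat_lit 4) [nat_lit 271, nat_lit 55, nat_lit 163, nat_lit 91, nat_lit 111, nat_lit 6669] (nat_lit 0) [] false,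
   Spec.mk (nat_lit 111) (nat_lit 4) [nat_lit 273, nat_lit 57, nat_lit 165, nat_lit 93, nat_lit 117, nat_lit 109] (nat_lit 0) [] false,
   Spec.mk (nat_lit 117) (nat_lit 5) [nat_lit 279, nat_lit 63, nat_lit 171, nat_lit 99, nat_lit 135, nat_lit 111] (nat_lit 0) [] false,
   Spec.mk (nat_lit 135) (nat_lit 5) [nat_lit 297, nat_lit 189, nat_lit 117] (nat_lit 0) [] false,
   Spec.mk (nat_lit 163) (nat_lit 3) [nat_lit 325, nat_lit 109, nat_lit 165, nat_lit 6723] (nat_lit 0) [] false,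
   Spec.mk (nat_lit 165) (nat_lit 3) [nat_lit 327, nat_lit 111, nat_lit 171, nat_lit 163] (nat_lit 0) [] false,
   Spec.mk (nat_lit 171) (nat_lit 3) [nat_lit 333, nat_lit 117, nat_lit 189, nat_lit 165] (nat_lit 0) [] false,
   Spec.mk (nat_lit 189) (nat_lit 5) [nat_lit 351, nat_lit 135, nat_lit 171] (nat_lit 0) [] false,
   Spec.mk (nat_lit 245) (nat_lit 3) [nat_lit 731, nat_lit 83, nat_lit 247, nat_lit 6805] (nat_lit 0) [] false,
   Spec.mk (nat_lit 247) (nat_lit 4) [nat_lit 733, nat_lit 85, nat_lit 253, nat_lit 245, nat_lit 249, nat_lit 6807] (nat_lit 0) [] true,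
   Spec.mk (nat_lit 249) (nat_lit 3) [nat_lit 735, nat_lit 87, nat_lit 255, nat_lit 247] (nat_lit 0) [] false,
   Spec.mk (nat_lit 253) (nat_lit 3) [nat_lit 739, nat_lit 91, nat_lit 271, nat_lit 247, nat_lit 255, nat_lit 6813] (nat_lit 0) [] true,
   Spec.mk (nat_lit 255) (nat_lit 4) [nat_lit 741, nat_lit 93, nat_lit 273, nat_lit 249, nat_lit 261, nat_lit 253] (nat_lit 0) [] false,
   Spec.mk (nat_lit 261) (nat_lit 3) [nat_lit 747, nat_lit 99, nat_lit 279, nat_lit 255] (nat_lit 0) [] false,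
   Spec.mk (nat_lit 271) (nat_lit 3) [nat_lit 757, nat_lit 109, nat_lit 325, nat_lit 253, nat_lit 273, nat_lit 6831] (nat_lit 0) [] false,
   Spec.mk (nat_lit 273) (nat_lit 3) [nat_lit 759, nat_lit 111, nat_lit 327, nat_lit 255, nat_lit 279, nat_lit 271] (nat_lit 0) [] false,
   Spec.mk (nat_lit 279) (nat_lit 4) [nat_lit 765, nat_lit 117, nat_lit 333, nat_lit 261, nat_lit 297, nat_lit 273] (nat_lit 0) [] false,
   Spec.mk (nat_lit 297) (nat_lit 3) [nat_lit 783, nat_lit 135, nat_lit 351, nat_lit 279] (nat_lit 0) [] false,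
   Spec.mk (nat_lit 325) (nat_lit 4) [nat_lit 811, nat_lit 163, nat_lit 487, nat_lit 271, nat_lit 327, nat_lit 6885] (nat_lit 0) [] false,
   Spec.mk (nat_lit 327) (nat_lit 4) [nat_lit 813, nat_lit 165, nat_lit 489, nat_lit 273, nat_lit 333, nat_lit 325] (nat_lit 0) [] false,
   Spec.mk (nat_lit 333) (nat_lit 4) [nat_lit 819, nat_lit 171, nat_lit 495, nat_lit 279, nat_lit 351, nat_lit 327] (nat_lit 0) [] false,
   Spec.mk (nat_lit 351) (nat_lit 5) [nat_lit 837, nat_lit 189, nat_lit 513, nat_lit 297, nat_lit 405, nat_lit 333] (nat_lit 0) [] false,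
   Spec.mk (nat_lit 405) (nat_lit 5) [nat_lit 891, nat_lit 567, nat_lit 351] (nat_lit 0) [] false,
   Spec.mk (nat_lit 487) (nat_lit 3) [nat_lit 973, nat_lit 325, nat_lit 489, nat_lit 7047] (nat_lit 0) [] false,
   Spec.mk (nat_lit 489) (nat_lit 3) [nat_lit 975, nat_lit 327, nat_lit 495, nat_lit 487] (nat_lit 0) [] false,
   Spec.mk (nat_lit 495) (nat_lit 3) [nat_lit 981, nat_lit 333, nat_lit 513, nat_lit 489] (nat_lit 0) [] false,
   Spec.mk (nat_lit 513) (nat_lit 3) [nat_lit 999, nat_lit 351, nat_lit 567, nat_lit 495] (nat_lit 0) [] false,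
   Spec.mk (nat_lit 567) (nat_lit 5) [nat_lit 1053, nat_lit 405, nat_lit 513] (nat_lit 0) [] false,
   Spec.mk (nat_lit 731) (nat_lit 3) [nat_lit 2189, nat_lit 245, nat_lit 733, nat_lit 7291] (nat_lit 0) [] false,
   Spec.mk (nat_lit 733) (nat_lit 4) [nat_lit 2191, nat_lit 247, nat_lit 739, nat_lit 731, nat_lit 735, nat_lit 7293] (nat_lit 0) [] false,
   Spec.mk (nat_lit 735) (nat_lit 3) [nat_lit 2193, nat_lit 249, nat_lit 741, nat_lit 733] (nat_lit 0) [] false,
   Spec.mk (nat_lit 739) (nat_lit 3) [nat_lit 2197, nat_lit 253, nat_lit 757, nat_lit 733, nat_lit 741, nat_lit 7299] (nat_lit 0) [] false,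
   Spec.mk (nat_lit 741) (nat_lit 4) [nat_lit 2199, nat_lit 255, nat_lit 759, nat_lit 735, nat_lit 747, nat_lit 739] (nat_lit 0) [] false,
   Spec.mk (nat_lit 747) (nat_lit 3) [nat_lit 2205, nat_lit 261, nat_lit 765, nat_lit 741] (nat_lit 0) [] false,
   Spec.mk (nat_lit 757) (nat_lit 3) [nat_lit 2215, nat_lit 271, nat_lit 811, nat_lit 739, nat_lit 759, nat_lit 7317] (nat_lit 0) [] true,
   Spec.mk (nat_lit 759) (nat_lit 3) [nat_lit 2217, nat_lit 273, nat_lit 813, nat_lit 741, nat_lit 765, nat_lit 757] (nat_lit 0) [] false,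
   Spec.mk (nat_lit 765) (nat_lit 4) [nat_lit 2223, nat_lit 279, nat_lit 819, nat_lit 747, nat_lit 783, nat_lit 759] (nat_lit 0) [] false,
   Spec.mk (nat_lit 783) (nat_lit 3) [nat_lit 2241, nat_lit 297, nat_lit 837, nat_lit 765] (nat_lit 0) [] false]

noncomputable def sp1 : List Spec :=
  [Spec.mk (nat_lit 811) (nat_lit 3) [nat_lit 2269, nat_lit 325, nat_lit 973, nat_lit 757, nat_lit 813, nat_lit 7371] (nat_lit 0) [] false,
   Spec.mk (nat_lit 813) (nat_lit 3) [nat_lit 2271, nat_lit 327, nat_lit 975, nat_lit 759, nat_lit 819, nat_lit 811] (nat_lit 0) [] false,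
   Spec.mk (nat_lit 819) (nat_lit 3) [nat_lit 2277, nat_lit 333, nat_lit 981, nat_lit 765, nat_lit 837, nat_lit 813] (nat_lit 0) [] false,
   Spec.mk (nat_lit 837) (nat_lit 4) [nat_lit 2295, nat_lit 351, nat_lit 999, nat_lit 783, nat_lit 891, nat_lit 819] (nat_lit 0) [] false,
   Spec.mk (nat_lit 891) (nat_lit 3) [nat_lit 2349, nat_lit 405, nat_lit 1053, nat_lit 837] (nat_lit 0) [] false,
   Spec.mk (nat_lit 973) (nat_lit 4) [nat_lit 2431, nat_lit 487, nat_lit 1459, nat_lit 811, nat_lit 975, nat_lit 7533] (nat_lit 0) [] false,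
   Spec.mk (nat_lit 975) (nat_lit 4) [nat_lit 2433, nat_lit 489, nat_lit 1461, nat_lit 813, nat_lit 981, nat_lit 973] (nat_lit 0) [] false,
   Spec.mk (nat_lit 981) (nat_lit 4) [nat_lit 2439, nat_lit 495, nat_lit 1467, nat_lit 819, nat_lit 999, nat_lit 975] (nat_lit 0) [] false,
   Spec.mk (nat_lit 999) (nat_lit 4) [nat_lit 2457, nat_lit 513, nat_lit 1485, nat_lit 837, nat_lit 1053, nat_lit 981] (nat_lit 0) [] false,
   Spec.mk (nat_lit 1053) (nat_lit 5) [nat_lit 2511, nat_lit 567, nat_lit 1539, nat_lit 891, nat_lit 1215, nat_lit 999] (nat_lit 0) [] false,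
   Spec.mk (nat_lit 1215) (nat_lit 5) [nat_lit 2673, nat_lit 1701, nat_lit 1053] (nat_lit 0) [] false,
   Spec.mk (nat_lit 1459) (nat_lit 3) [nat_lit 2917, nat_lit 973, nat_lit 1461, nat_lit 8019] (nat_lit 0) [] false,
   Spec.mk (nat_lit 1461) (nat_lit 3) [nat_lit 2919, nat_lit 975, nat_lit 1467, nat_lit 1459] (nat_lit 0) [] false,
   Spec.mk (nat_lit 1467) (nat_lit 3) [nat_lit 2925, nat_lit 981, nat_lit 1485, nat_lit 1461] (nat_lit 0) [] false,
   Spec.mk (nat_lit 1485) (nat_lit 3) [nat_lit 2943, nat_lit 999, nat_lit 1539, nat_lit 1467] (nat_lit 0) [] false,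
   Spec.mk (nat_lit 1539) (nat_lit 3) [nat_lit 2997, nat_lit 1053, nat_lit 1701, nat_lit 1485] (nat_lit 0) [] false,
   Spec.mk (nat_lit 1701) (nat_lit 5) [nat_lit 3159, nat_lit 1215, nat_lit 1539] (nat_lit 0) [] false,
   Spec.mk (nat_lit 2189) (nat_lit 3) [nat_lit 6563, nat_lit 731, nat_lit 2191, nat_lit 8749] (nat_lit 0) [] false,
   Spec.mk (nat_lit 2191) (nat_lit 4) [nat_lit 6565, nat_lit 733, nat_lit 2197, nat_lit 2189, nat_lit 2193, nat_lit 8751] (nat_lit 0) [] false,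
   Spec.mk (nat_lit 2193) (nat_lit 3) [nat_lit 6567, nat_lit 735, nat_lit 2199, nat_lit 2191] (nat_lit 0) [] false,
   Spec.mk (nat_lit 2197) (nat_lit 3) [nat_lit 6571, nat_lit 739, nat_lit 2215, nat_lit 2191, nat_lit 2199, nat_lit 8757] (nat_lit 0) [] false,
   Spec.mk (nat_lit 2199) (nat_lit 4) [nat_lit 6573, nat_lit 741, nat_lit 2217, nat_lit 2193, nat_lit 2205, nat_lit 2197] (nat_lit 0) [] false,
   Spec.mk (nat_lit 2205) (nat_lit 3) [nat_lit 6579, nat_lit 747, nat_lit 2223, nat_lit 2199] (nat_lit 0) [] false,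
   Spec.mk (nat_lit 2215) (nat_lit 3) [nat_lit 6589, nat_lit 757, nat_lit 2269, nat_lit 2197, nat_lit 2217, nat_lit 8775] (nat_lit 0) [] false,
   Spec.mk (nat_lit 2217) (nat_lit 3) [nat_lit 6591, nat_lit 759, nat_lit 2271, nat_lit 2199, nat_lit 2223, nat_lit 2215] (nat_lit 0) [] false,
   Spec.mk (nat_lit 2223) (nat_lit 4) [nat_lit 6597, nat_lit 765, nat_lit 2277, nat_lit 2205, nat_lit 2241, nat_lit 2217] (nat_lit 0) [] false,
   Spec.mk (nat_lit 2241) (nat_lit 3) [nat_lit 6615, nat_lit 783, nat_lit 2295, nat_lit 2223] (nat_lit 0) [] false,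
   Spec.mk (nat_lit 2269) (nat_lit 3) [nat_lit 6643, nat_lit 811, nat_lit 2431, nat_lit 2215, nat_lit 2271, nat_lit 8829] (nat_lit 0) [] false,
   Spec.mk (nat_lit 2271) (nat_lit 3) [nat_lit 6645, nat_lit 813, nat_lit 2433, nat_lit 2217, nat_lit 2277, nat_lit 2269] (nat_lit 0) [] false,
   Spec.mk (nat_lit 2277) (nat_lit 3) [nat_lit 6651, nat_lit 819, nat_lit 2439, nat_lit 2223, nat_lit 2295, nat_lit 2271] (nat_lit 0) [] false,
   Spec.mk (nat_lit 2295) (nat_lit 4) [nat_lit 6669, nat_lit 837, nat_lit 2457, nat_lit 2241, nat_lit 2349, nat_lit 2277] (nat_lit 0) [] false,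
   Spec.mk (nat_lit 2349) (nat_lit 3) [nat_lit 6723, nat_lit 891, nat_lit 2511, nat_lit 2295] (nat_lit 0) [] false,
   Spec.mk (nat_lit 2431) (nat_lit 3) [nat_lit 6805, nat_lit 973, nat_lit 2917, nat_lit 2269, nat_lit 2433, nat_lit 8991] (nat_lit 0) [] false,
   Spec.mk (nat_lit 2433) (nat_lit 3) [nat_lit 6807, nat_lit 975, nat_lit 2919, nat_lit 2271, nat_lit 2439, nat_lit 2431] (nat_lit 0) [] false,
   Spec.mk (nat_lit 2439) (nat_lit 3) [nat_lit 6813, nat_lit 981, nat_lit 2925, nat_lit 2277, nat_lit 2457, nat_lit 2433] (nat_lit 0) [] false,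
   Spec.mk (nat_lit 2457) (nat_lit 3) [nat_lit 6831, nat_lit 999, nat_lit 2943, nat_lit 2295, nat_lit 2511, nat_lit 2439] (nat_lit 0) [] false,
   Spec.mk (nat_lit 2511) (nat_lit 4) [nat_lit 6885, nat_lit 1053, nat_lit 2997, nat_lit 2349, nat_lit 2673, nat_lit 2457] (nat_lit 0) [] false,
   Spec.mk (nat_lit 2673) (nat_lit 3) [nat_lit 7047, nat_lit 1215, nat_lit 3159, nat_lit 2511] (nat_lit 0) [] false,
   Spec.mk (nat_lit 2917) (nat_lit 4) [nat_lit 7291, nat_lit 1459, nat_lit 4375, nat_lit 2431, nat_lit 2919, nat_lit 9477] (nat_lit 0) [] false,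
   Spec.mk (nat_lit 2919) (nat_lit 4) [nat_lit 7293, nat_lit 1461, nat_lit 4377, nat_lit 2433, nat_lit 2925, nat_lit 2917] (nat_lit 0) [] false,
   Spec.mk (nat_lit 2925) (nat_lit 4) [nat_lit 7299, nat_lit 1467, nat_lit 4383, nat_lit 2439, nat_lit 2943, nat_lit 2919] (nat_lit 0) [] false,
   Spec.mk (nat_lit 2943) (nat_lit 4) [nat_lit 7317, nat_lit 1485, nat_lit 4401, nat_lit 2457, nat_lit 2997, nat_lit 2925] (nat_lit 0) [] false,
   Spec.mk (nat_lit 2997) (nat_lit 4) [nat_lit 7371, nat_lit 1539, nat_lit 4455, nat_lit 2511, nat_lit 3159, nat_lit 2943] (nat_lit 0) [] false,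
   Spec.mk (nat_lit 3159) (nat_lit 5) [nat_lit 7533, nat_lit 1701, nat_lit 4617, nat_lit 2673, nat_lit 3645, nat_lit 2997] (nat_lit 0) [] false,
   Spec.mk (nat_lit 3645) (nat_lit 5) [nat_lit 8019, nat_lit 5103, nat_lit 3159] (nat_lit 0) [] false,
   Spec.mk (nat_lit 4375) (nat_lit 3) [nat_lit 8749, nat_lit 2917, nat_lit 4377, nat_lit 10935] (nat_lit 0) [] false,
   Spec.mk (nat_lit 4377) (nat_lit 3) [nat_lit 8751, nat_lit 2919, nat_lit 4383, nat_lit 4375] (nat_lit 0) [] false,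
   Spec.mk (nat_lit 4383) (nat_lit 3) [nat_lit 8757, nat_lit 2925, nat_lit 4401, nat_lit 4377] (nat_lit 0) [] false,
   Spec.mk (nat_lit 4401) (nat_lit 3) [nat_lit 8775, nat_lit 2943, nat_lit 4455, nat_lit 4383] (nat_lit 0) [] false,
   Spec.mk (nat_lit 4455) (nat_lit 3) [nat_lit 8829, nat_lit 2997, nat_lit 4617, nat_lit 4401] (nat_lit 0) [] false,
   Spec.mk (nat_lit 4617) (nat_lit 3) [nat_lit 8991, nat_lit 3159, nat_lit 5103, nat_lit 4455] (nat_lit 0) [] false,
   Spec.mk (nat_lit 5103) (nat_lit 5) [nat_lit 9477, nat_lit 3645, nat_lit 4617] (nat_lit 0) [] false,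
   Spec.mk (nat_lit 6563) (nat_lit 5) [nat_lit 2189, nat_lit 6565, nat_lit 13123] (nat_lit 0) [] false,
   Spec.mk (nat_lit 6565) (nat_lit 5) [nat_lit 2191, nat_lit 6571, nat_lit 6563, nat_lit 6567, nat_lit 13125, nat_lit 5] (nat_lit 0) [] false,
   Spec.mk (nat_lit 6567) (nat_lit 3) [nat_lit 2193, nat_lit 6573, nat_lit 6565, nat_lit 7] (nat_lit 0) [] false,
   Spec.mk (nat_lit 6571) (nat_lit 4) [nat_lit 2197, nat_lit 6589, nat_lit 6565, nat_lit 6573, nat_lit 13131, nat_lit 11] (nat_lit 0) [] false,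
   Spec.mk (nat_lit 6573) (nat_lit 4) [nat_lit 2199, nat_lit 6591, nat_lit 6567, nat_lit 6579, nat_lit 6571, nat_lit 13] (nat_lit 0) [] false,
   Spec.mk (nat_lit 6579) (nat_lit 3) [nat_lit 2205, nat_lit 6597, nat_lit 6573, nat_lit 19] (nat_lit 0) [] false,
   Spec.mk (nat_lit 6589) (nat_lit 4) [nat_lit 2215, nat_lit 6643, nat_lit 6571, nat_lit 6591, nat_lit 13149, nat_lit 29] (nat_lit 0) [] false,
   Spec.mk (nat_lit 6591) (nat_lit 3) [nat_lit 2217, nat_lit 6645, nat_lit 6573, nat_lit 6597, nat_lit 6589, nat_lit 31] (nat_lit 0) [] false]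

noncomputable def sp2 : List Spec :=
  [Spec.mk (nat_lit 6597) (nat_lit 4) [nat_lit 2223, nat_lit 6651, nat_lit 6579, nat_lit 6615, nat_lit 6591, nat_lit 37] (nat_lit 0) [] false,
   Spec.mk (nat_lit 6615) (nat_lit 3) [nat_lit 2241, nat_lit 6669, nat_lit 6597, nat_lit 55] (nat_lit 0) [] false,
   Spec.mk (nat_lit 6643) (nat_lit 4) [nat_lit 2269, nat_lit 6805, nat_lit 6589, nat_lit 6645, nat_lit 13203, nat_lit 83] (nat_lit 0) [] false,
   Spec.mk (nat_lit 6645) (nat_lit 3) [nat_lit 2271, nat_lit 6807, nat_lit 6591, nat_lit 6651, nat_lit 6643, nat_lit 85] (nat_lit 0) [] false,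
   Spec.mk (nat_lit 6651) (nat_lit 3) [nat_lit 2277, nat_lit 6813, nat_lit 6597, nat_lit 6669, nat_lit 6645, nat_lit 91] (nat_lit 0) [] false,
   Spec.mk (nat_lit 6669) (nat_lit 4) [nat_lit 2295, nat_lit 6831, nat_lit 6615, nat_lit 6723, nat_lit 6651, nat_lit 109] (nat_lit 0) [] false,
   Spec.mk (nat_lit 6723) (nat_lit 3) [nat_lit 2349, nat_lit 6885, nat_lit 6669, nat_lit 163] (nat_lit 0) [] false,
   Spec.mk (nat_lit 6805) (nat_lit 4) [nat_lit 2431, nat_lit 7291, nat_lit 6643, nat_lit 6807, nat_lit 13365, nat_lit 245] (nat_lit 0) [] false,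
   Spec.mk (nat_lit 6807) (nat_lit 3) [nat_lit 2433, nat_lit 7293, nat_lit 6645, nat_lit 6813, nat_lit 6805, nat_lit 247] (nat_lit 0) [] false,
   Spec.mk (nat_lit 6813) (nat_lit 3) [nat_lit 2439, nat_lit 7299, nat_lit 6651, nat_lit 6831, nat_lit 6807, nat_lit 253] (nat_lit 0) [] false,
   Spec.mk (nat_lit 6831) (nat_lit 3) [nat_lit 2457, nat_lit 7317, nat_lit 6669, nat_lit 6885, nat_lit 6813, nat_lit 271] (nat_lit 0) [] false,
   Spec.mk (nat_lit 6885) (nat_lit 4) [nat_lit 2511, nat_lit 7371, nat_lit 6723, nat_lit 7047, nat_lit 6831, nat_lit 325] (nat_lit 0) [] false,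
   Spec.mk (nat_lit 7047) (nat_lit 3) [nat_lit 2673, nat_lit 7533, nat_lit 6885, nat_lit 487] (nat_lit 0) [] false,
   Spec.mk (nat_lit 7291) (nat_lit 4) [nat_lit 2917, nat_lit 8749, nat_lit 6805, nat_lit 7293, nat_lit 13851, nat_lit 731] (nat_lit 0) [] false,
   Spec.mk (nat_lit 7293) (nat_lit 3) [nat_lit 2919, nat_lit 8751, nat_lit 6807, nat_lit 7299, nat_lit 7291, nat_lit 733] (nat_lit 0) [] false,
   Spec.mk (nat_lit 7299) (nat_lit 3) [nat_lit 2925, nat_lit 8757, nat_lit 6813, nat_lit 7317, nat_lit 7293, nat_lit 739] (nat_lit 0) [] false,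
   Spec.mk (nat_lit 7317) (nat_lit 3) [nat_lit 2943, nat_lit 8775, nat_lit 6831, nat_lit 7371, nat_lit 7299, nat_lit 757] (nat_lit 0) [] false,
   Spec.mk (nat_lit 7371) (nat_lit 3) [nat_lit 2997, nat_lit 8829, nat_lit 6885, nat_lit 7533, nat_lit 7317, nat_lit 811] (nat_lit 0) [] false,
   Spec.mk (nat_lit 7533) (nat_lit 4) [nat_lit 3159, nat_lit 8991, nat_lit 7047, nat_lit 8019, nat_lit 7371, nat_lit 973] (nat_lit 0) [] false,
   Spec.mk (nat_lit 8019) (nat_lit 3) [nat_lit 3645, nat_lit 9477, nat_lit 7533, nat_lit 1459] (nat_lit 0) [] false,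
   Spec.mk (nat_lit 8749) (nat_lit 5) [nat_lit 4375, nat_lit 13123, nat_lit 7291, nat_lit 8751, nat_lit 15309, nat_lit 2189] (nat_lit 0) [] false,
   Spec.mk (nat_lit 8751) (nat_lit 4) [nat_lit 4377, nat_lit 13125, nat_lit 7293, nat_lit 8757, nat_lit 8749, nat_lit 2191] (nat_lit 0) [] false,
   Spec.mk (nat_lit 8757) (nat_lit 4) [nat_lit 4383, nat_lit 13131, nat_lit 7299, nat_lit 8775, nat_lit 8751, nat_lit 2197] (nat_lit 0) [] false,
   Spec.mk (nat_lit 8775) (nat_lit 4) [nat_lit 4401, nat_lit 13149, nat_lit 7317, nat_lit 8829, nat_lit 8757, nat_lit 2215] (nat_lit 0) [] false,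
   Spec.mk (nat_lit 8829) (nat_lit 4) [nat_lit 4455, nat_lit 13203, nat_lit 7371, nat_lit 8991, nat_lit 8775, nat_lit 2269] (nat_lit 0) [] false,
   Spec.mk (nat_lit 8991) (nat_lit 4) [nat_lit 4617, nat_lit 13365, nat_lit 7533, nat_lit 9477, nat_lit 8829, nat_lit 2431] (nat_lit 0) [] false,
   Spec.mk (nat_lit 9477) (nat_lit 5) [nat_lit 5103, nat_lit 13851, nat_lit 8019, nat_lit 10935, nat_lit 8991, nat_lit 2917] (nat_lit 0) [] false,
   Spec.mk (nat_lit 10935) (nat_lit 5) [nat_lit 15309, nat_lit 9477, nat_lit 4375] (nat_lit 0) [] false,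
   Spec.mk (nat_lit 13123) (nat_lit 5) [nat_lit 8749, nat_lit 13125, nat_lit 6563] (nat_lit 0) [] false,
   Spec.mk (nat_lit 13125) (nat_lit 3) [nat_lit 8751, nat_lit 13131, nat_lit 13123, nat_lit 6565] (nat_lit 0) [] false,
   Spec.mk (nat_lit 13131) (nat_lit 3) [nat_lit 8757, nat_lit 13149, nat_lit 13125, nat_lit 6571] (nat_lit 0) [] false,
   Spec.mk (nat_lit 13149) (nat_lit 3) [nat_lit 8775, nat_lit 13203, nat_lit 13131, nat_lit 6589] (nat_lit 0) [] false,
   Spec.mk (nat_lit 13203) (nat_lit 3) [nat_lit 8829, nat_lit 13365, nat_lit 13149, nat_lit 6643] (nat_lit 0) [] false,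
   Spec.mk (nat_lit 13365) (nat_lit 3) [nat_lit 8991, nat_lit 13851, nat_lit 13203, nat_lit 6805] (nat_lit 0) [] false,
   Spec.mk (nat_lit 13851) (nat_lit 3) [nat_lit 9477, nat_lit 15309, nat_lit 13365, nat_lit 7291] (nat_lit 0) [] false,
   Spec.mk (nat_lit 15309) (nat_lit 5) [nat_lit 10935, nat_lit 13851, nat_lit 8749] (nat_lit 0) [] false]

noncomputable def specs : List (List Spec) :=
    sp0 :: sp1 :: sp2 :: []

noncomputable def step (e : Nat → Nat) (C ap an : Nat) (k :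
    Nat → Nat → Nat → Nat → Nat → Nat → Nat → Nat → Nat → Nat → Nat → Nat → Nat → Nat → Nat → Nat →
    Nat → Nat → Nat → Nat → Nat → Nat → Nat → Nat → Nat → Nat → Nat → Nat → Nat → Nat → Nat → Nat →
    Nat → Nat → Nat → Nat → Nat → Nat → Nat → Nat → Nat → Nat → Nat → Nat → Nat → Nat → Nat → Nat →
    Nat → Nat → Nat → Nat → Nat → Nat → Nat → Nat → Nat → Nat → Nat → Nat → Nat → Nat → Nat → Nat →
    Nat → Nat → Nat → Nat → Nat → Nat → Nat → Nat → Nat → Nat → Nat → Nat → Nat → Nat → Nat → Nat →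
    Nat → Nat → Nat → Nat → Nat → Nat → Nat → Nat → Nat → Nat → Nat → Nat → Nat → Nat → Nat → Nat →
    Nat → Nat → Nat → Nat → Nat → Nat → Nat → Nat → Nat → Nat → Nat → Nat → Nat → Nat → Nat → Nat →
    Nat → Nat → Nat → Nat → Nat → Nat → Nat → Nat → Nat → Nat → Nat → Nat → Nat → Nat → Nat → Nat →
    Nat → Nat → Nat → Nat → Nat → Nat → Nat → Nat → Nat → Nat → Nat → Nat → Nat → Nat → Nat → Nat →
    Nat → Nat → Nat → Nat → Nat → Nat → Nat → Nat → Nat → Nat → Nat → Nat → Bool)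
  (
    x5 x7 x11 x13 x15 x19 x21 x29 x31 x33 x37 x39 x45 x55 x57 x63 x83 x85 x87 x91 x93 x99 x109 x111
    x117 x135 x163 x165 x171 x189 x245 x247 x249 x253 x255 x261 x271 x273 x279 x297 x325 x327 x333
    x351 x405 x487 x489 x495 x513 x567 x731 x733 x735 x739 x741 x747 x757 x759 x765 x783 x811 x813
    x819 x837 x891 x973 x975 x981 x999 x1053 x1215 x1459 x1461 x1467 x1485 x1539 x1701 x2189 x2191
    x2193 x2197 x2199 x2205 x2215 x2217 x2223 x2241 x2269 x2271 x2277 x2295 x2349 x2431 x2433 x2439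
    x2457 x2511 x2673 x2917 x2919 x2925 x2943 x2997 x3159 x3645 x4375 x4377 x4383 x4401 x4455 x4617
    x5103 x6563 x6565 x6567 x6571 x6573 x6579 x6589 x6591 x6597 x6615 x6643 x6645 x6651 x6669 x6723
    x6805 x6807 x6813 x6831 x6885 x7047 x7291 x7293 x7299 x7317 x7371 x7533 x8019 x8749 x8751 x8757
    x8775 x8829 x8991 x9477 x10935 x13123 x13125 x13131 x13149 x13203 x13365 x13851 x15309 : Nat) : Bool :=
  k
    (Nat.sub (Nat.add (Nat.add (Nat.add (Nat.add (Nat.add C (Nat.mul x5 (nat_lit 5))) x11) x7) x6565) (Nat.mul (e (nat_lit 5)) ap)) (Nat.mul (e (nat_lit 5)) an))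
    (Nat.add (Nat.add (Nat.add (Nat.add C (Nat.mul x7 (nat_lit 5))) x13) x5) x6567)
    (Nat.sub (Nat.add (Nat.add (Nat.add (Nat.add (Nat.add (Nat.add C (Nat.mul x11 (nat_lit 3))) x29) x5) x13) x6571) (Nat.mul (e (nat_lit 11)) ap)) (Nat.mul (e (nat_lit 11)) an))
    (Nat.sub (Nat.add (Nat.add (Nat.add (Nat.add (Nat.add (Nat.add (Nat.add (Nat.add C (Nat.mul x13 (nat_lit 5))) x31) x7) x19) x11) x15) x6573) (Nat.mul (e (nat_lit 13)) ap)) (Nat.mul (e (nat_lit 13)) an))
    (Nat.add (Nat.add (Nat.add (Nat.add C (Nat.mul x15 (nat_lit 5))) x33) x21) x13)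
    (Nat.add (Nat.add (Nat.add (Nat.add (Nat.add C (Nat.mul x19 (nat_lit 3))) x37) x13) x21) x6579)
    (Nat.add (Nat.add (Nat.add (Nat.add C (Nat.mul x21 (nat_lit 5))) x39) x15) x19)
    (Nat.sub (Nat.add (Nat.add (Nat.add (Nat.add (Nat.add (Nat.add C (Nat.mul x29 (nat_lit 3))) x83) x11) x31) x6589) (Nat.mul (e (nat_lit 29)) ap)) (Nat.mul (e (nat_lit 29)) an))
    (Nat.sub (Nat.add (Nat.add (Nat.add (Nat.add (Nat.add (Nat.add (Nat.add (Nat.add C (Nat.mul x31 (nat_lit 4))) x85) x13) x37) x29) x33) x6591) (Nat.mul (e (nat_lit 31)) ap)) (Nat.mul (e (nat_lit 31)) an))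
    (Nat.add (Nat.add (Nat.add (Nat.add (Nat.add C (Nat.mul x33 (nat_lit 3))) x87) x15) x39) x31)
    (Nat.add (Nat.add (Nat.add (Nat.add (Nat.add (Nat.add (Nat.add C (Nat.mul x37 (nat_lit 4))) x91) x19) x55) x31) x39) x6597)
    (Nat.add (Nat.add (Nat.add (Nat.add (Nat.add (Nat.add (Nat.add C (Nat.mul x39 (nat_lit 5))) x93) x21) x57) x33) x45) x37)
    (Nat.add (Nat.add (Nat.add (Nat.add C (Nat.mul x45 (nat_lit 5))) x99) x63) x39)
    (Nat.add (Nat.add (Nat.add (Nat.add (Nat.add C (Nat.mul x55 (nat_lit 3))) x109) x37) x57) x6615)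
    (Nat.add (Nat.add (Nat.add (Nat.add (Nat.add C (Nat.mul x57 (nat_lit 3))) x111) x39) x63) x55)
    (Nat.add (Nat.add (Nat.add (Nat.add C (Nat.mul x63 (nat_lit 5))) x117) x45) x57)
    (Nat.sub (Nat.add (Nat.add (Nat.add (Nat.add (Nat.add (Nat.add C (Nat.mul x83 (nat_lit 3))) x245) x29) x85) x6643) (Nat.mul (e (nat_lit 83)) ap)) (Nat.mul (e (nat_lit 83)) an))
    (Nat.sub (Nat.add (Nat.add (Nat.add (Nat.add (Nat.add (Nat.add (Nat.add (Nat.add C (Nat.mul x85 (nat_lit 4))) x247) x31) x91) x83) x87) x6645) (Nat.mul (e (nat_lit 85)) ap)) (Nat.mul (e (nat_lit 85)) an))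
    (Nat.add (Nat.add (Nat.add (Nat.add (Nat.add C (Nat.mul x87 (nat_lit 3))) x249) x33) x93) x85)
    (Nat.sub (Nat.add (Nat.add (Nat.add (Nat.add (Nat.add (Nat.add (Nat.add (Nat.add C (Nat.mul x91 (nat_lit 3))) x253) x37) x109) x85) x93) x6651) (Nat.mul (e (nat_lit 91)) ap)) (Nat.mul (e (nat_lit 91)) an))
    (Nat.add (Nat.add (Nat.add (Nat.add (Nat.add (Nat.add (Nat.add C (Nat.mul x93 (nat_lit 4))) x255) x39) x111) x87) x99) x91)
    (Nat.add (Nat.add (Nat.add (Nat.add (Nat.add C (Nat.mul x99 (nat_lit 3))) x261) x45) x117) x93)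
    (Nat.add (Nat.add (Nat.add (Nat.add (Nat.add (Nat.add (Nat.add C (Nat.mul x109 (nat_lit 4))) x271) x55) x163) x91) x111) x6669)
    (Nat.add (Nat.add (Nat.add (Nat.add (Nat.add (Nat.add (Nat.add C (Nat.mul x111 (nat_lit 4))) x273) x57) x165) x93) x117) x109)
    (Nat.add (Nat.add (Nat.add (Nat.add (Nat.add (Nat.add (Nat.add C (Nat.mul x117 (nat_lit 5))) x279) x63) x171) x99) x135) x111)
    (Nat.add (Nat.add (Nat.add (Nat.add C (Nat.mul x135 (nat_lit 5))) x297) x189) x117)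
    (Nat.add (Nat.add (Nat.add (Nat.add (Nat.add C (Nat.mul x163 (nat_lit 3))) x325) x109) x165) x6723)
    (Nat.add (Nat.add (Nat.add (Nat.add (Nat.add C (Nat.mul x165 (nat_lit 3))) x327) x111) x171) x163)
    (Nat.add (Nat.add (Nat.add (Nat.add (Nat.add C (Nat.mul x171 (nat_lit 3))) x333) x117) x189) x165)
    (Nat.add (Nat.add (Nat.add (Nat.add C (Nat.mul x189 (nat_lit 5))) x351) x135) x171)
    (Nat.add (Nat.add (Nat.add (Nat.add (Nat.add C (Nat.mul x245 (nat_lit 3))) x731) x83) x247) x6805)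
    (Nat.sub (Nat.add (Nat.add (Nat.add (Nat.add (Nat.add (Nat.add (Nat.add (Nat.add C (Nat.mul x247 (nat_lit 4))) x733) x85) x253) x245) x249) x6807) (Nat.mul (e (nat_lit 247)) ap)) (Nat.mul (e (nat_lit 247)) an))
    (Nat.add (Nat.add (Nat.add (Nat.add (Nat.add C (Nat.mul x249 (nat_lit 3))) x735) x87) x255) x247)
    (Nat.sub (Nat.add (Nat.add (Nat.add (Nat.add (Nat.add (Nat.add (Nat.add (Nat.add C (Nat.mul x253 (nat_lit 3))) x739) x91) x271) x247) x255) x6813) (Nat.mul (e (nat_lit 253)) ap)) (Nat.mul (e (nat_lit 253)) an))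
    (Nat.add (Nat.add (Nat.add (Nat.add (Nat.add (Nat.add (Nat.add C (Nat.mul x255 (nat_lit 4))) x741) x93) x273) x249) x261) x253)
    (Nat.add (Nat.add (Nat.add (Nat.add (Nat.add C (Nat.mul x261 (nat_lit 3))) x747) x99) x279) x255)
    (Nat.add (Nat.add (Nat.add (Nat.add (Nat.add (Nat.add (Nat.add C (Nat.mul x271 (nat_lit 3))) x757) x109) x325) x253) x273) x6831)
    (Nat.add (Nat.add (Nat.add (Nat.add (Nat.add (Nat.add (Nat.add C (Nat.mul x273 (nat_lit 3))) x759) x111) x327) x255) x279) x271)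
    (Nat.add (Nat.add (Nat.add (Nat.add (Nat.add (Nat.add (Nat.add C (Nat.mul x279 (nat_lit 4))) x765) x117) x333) x261) x297) x273)
    (Nat.add (Nat.add (Nat.add (Nat.add (Nat.add C (Nat.mul x297 (nat_lit 3))) x783) x135) x351) x279)
    (Nat.add (Nat.add (Nat.add (Nat.add (Nat.add (Nat.add (Nat.add C (Nat.mul x325 (nat_lit 4))) x811) x163) x487) x271) x327) x6885)
    (Nat.add (Nat.add (Nat.add (Nat.add (Nat.add (Nat.add (Nat.add C (Nat.mul x327 (nat_lit 4))) x813) x165) x489) x273) x333) x325)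
    (Nat.add (Nat.add (Nat.add (Nat.add (Nat.add (Nat.add (Nat.add C (Nat.mul x333 (nat_lit 4))) x819) x171) x495) x279) x351) x327)
    (Nat.add (Nat.add (Nat.add (Nat.add (Nat.add (Nat.add (Nat.add C (Nat.mul x351 (nat_lit 5))) x837) x189) x513) x297) x405) x333)
    (Nat.add (Nat.add (Nat.add (Nat.add C (Nat.mul x405 (nat_lit 5))) x891) x567) x351)
    (Nat.add (Nat.add (Nat.add (Nat.add (Nat.add C (Nat.mul x487 (nat_lit 3))) x973) x325) x489) x7047)
    (Nat.add (Nat.add (Nat.add (Nat.add (Nat.add C (Nat.mul x489 (nat_lit 3))) x975) x327) x495) x487)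
    (Nat.add (Nat.add (Nat.add (Nat.add (Nat.add C (Nat.mul x495 (nat_lit 3))) x981) x333) x513) x489)
    (Nat.add (Nat.add (Nat.add (Nat.add (Nat.add C (Nat.mul x513 (nat_lit 3))) x999) x351) x567) x495)
    (Nat.add (Nat.add (Nat.add (Nat.add C (Nat.mul x567 (nat_lit 5))) x1053) x405) x513)
    (Nat.add (Nat.add (Nat.add (Nat.add (Nat.add C (Nat.mul x731 (nat_lit 3))) x2189) x245) x733) x7291)
    (Nat.add (Nat.add (Nat.add (Nat.add (Nat.add (Nat.add (Nat.add C (Nat.mul x733 (nat_lit 4))) x2191) x247) x739) x731) x735) x7293)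
    (Nat.add (Nat.add (Nat.add (Nat.add (Nat.add C (Nat.mul x735 (nat_lit 3))) x2193) x249) x741) x733)
    (Nat.add (Nat.add (Nat.add (Nat.add (Nat.add (Nat.add (Nat.add C (Nat.mul x739 (nat_lit 3))) x2197) x253) x757) x733) x741) x7299)
    (Nat.add (Nat.add (Nat.add (Nat.add (Nat.add (Nat.add (Nat.add C (Nat.mul x741 (nat_lit 4))) x2199) x255) x759) x735) x747) x739)
    (Nat.add (Nat.add (Nat.add (Nat.add (Nat.add C (Nat.mul x747 (nat_lit 3))) x2205) x261) x765) x741)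
    (Nat.sub (Nat.add (Nat.add (Nat.add (Nat.add (Nat.add (Nat.add (Nat.add (Nat.add C (Nat.mul x757 (nat_lit 3))) x2215) x271) x811) x739) x759) x7317) (Nat.mul (e (nat_lit 757)) ap)) (Nat.mul (e (nat_lit 757)) an))
    (Nat.add (Nat.add (Nat.add (Nat.add (Nat.add (Nat.add (Nat.add C (Nat.mul x759 (nat_lit 3))) x2217) x273) x813) x741) x765) x757)
    (Nat.add (Nat.add (Nat.add (Nat.add (Nat.add (Nat.add (Nat.add C (Nat.mul x765 (nat_lit 4))) x2223) x279) x819) x747) x783) x759)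
    (Nat.add (Nat.add (Nat.add (Nat.add (Nat.add C (Nat.mul x783 (nat_lit 3))) x2241) x297) x837) x765)
    (Nat.add (Nat.add (Nat.add (Nat.add (Nat.add (Nat.add (Nat.add C (Nat.mul x811 (nat_lit 3))) x2269) x325) x973) x757) x813) x7371)
    (Nat.add (Nat.add (Nat.add (Nat.add (Nat.add (Nat.add (Nat.add C (Nat.mul x813 (nat_lit 3))) x2271) x327) x975) x759) x819) x811)
    (Nat.add (Nat.add (Nat.add (Nat.add (Nat.add (Nat.add (Nat.add C (Nat.mul x819 (nat_lit 3))) x2277) x333) x981) x765) x837) x813)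
    (Nat.add (Nat.add (Nat.add (Nat.add (Nat.add (Nat.add (Nat.add C (Nat.mul x837 (nat_lit 4))) x2295) x351) x999) x783) x891) x819)
    (Nat.add (Nat.add (Nat.add (Nat.add (Nat.add C (Nat.mul x891 (nat_lit 3))) x2349) x405) x1053) x837)
    (Nat.add (Nat.add (Nat.add (Nat.add (Nat.add (Nat.add (Nat.add C (Nat.mul x973 (nat_lit 4))) x2431) x487) x1459) x811) x975) x7533)
    (Nat.add (Nat.add (Nat.add (Nat.add (Nat.add (Nat.add (Nat.add C (Nat.mul x975 (nat_lit 4))) x2433) x489) x1461) x813) x981) x973)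
    (Nat.add (Nat.add (Nat.add (Nat.add (Nat.add (Nat.add (Nat.add C (Nat.mul x981 (nat_lit 4))) x2439) x495) x1467) x819) x999) x975)
    (Nat.add (Nat.add (Nat.add (Nat.add (Nat.add (Nat.add (Nat.add C (Nat.mul x999 (nat_lit 4))) x2457) x513) x1485) x837) x1053) x981)
    (Nat.add (Nat.add (Nat.add (Nat.add (Nat.add (Nat.add (Nat.add C (Nat.mul x1053 (nat_lit 5))) x2511) x567) x1539) x891) x1215) x999)
    (Nat.add (Nat.add (Nat.add (Nat.add C (Nat.mul x1215 (nat_lit 5))) x2673) x1701) x1053)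
    (Nat.add (Nat.add (Nat.add (Nat.add (Nat.add C (Nat.mul x1459 (nat_lit 3))) x2917) x973) x1461) x8019)
    (Nat.add (Nat.add (Nat.add (Nat.add (Nat.add C (Nat.mul x1461 (nat_lit 3))) x2919) x975) x1467) x1459)
    (Nat.add (Nat.add (Nat.add (Nat.add (Nat.add C (Nat.mul x1467 (nat_lit 3))) x2925) x981) x1485) x1461)
    (Nat.add (Nat.add (Nat.add (Nat.add (Nat.add C (Nat.mul x1485 (nat_lit 3))) x2943) x999) x1539) x1467)
    (Nat.add (Nat.add (Nat.add (Nat.add (Nat.add C (Nat.mul x1539 (nat_lit 3))) x2997) x1053) x1701) x1485)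
    (Nat.add (Nat.add (Nat.add (Nat.add C (Nat.mul x1701 (nat_lit 5))) x3159) x1215) x1539)
    (Nat.add (Nat.add (Nat.add (Nat.add (Nat.add C (Nat.mul x2189 (nat_lit 3))) x6563) x731) x2191) x8749)
    (Nat.add (Nat.add (Nat.add (Nat.add (Nat.add (Nat.add (Nat.add C (Nat.mul x2191 (nat_lit 4))) x6565) x733) x2197) x2189) x2193) x8751)
    (Nat.add (Nat.add (Nat.add (Nat.add (Nat.add C (Nat.mul x2193 (nat_lit 3))) x6567) x735) x2199) x2191)
    (Nat.add (Nat.add (Nat.add (Nat.add (Nat.add (Nat.add (Nat.add C (Nat.mul x2197 (nat_lit 3))) x6571) x739) x2215) x2191) x2199) x8757)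
    (Nat.add (Nat.add (Nat.add (Nat.add (Nat.add (Nat.add (Nat.add C (Nat.mul x2199 (nat_lit 4))) x6573) x741) x2217) x2193) x2205) x2197)
    (Nat.add (Nat.add (Nat.add (Nat.add (Nat.add C (Nat.mul x2205 (nat_lit 3))) x6579) x747) x2223) x2199)
    (Nat.add (Nat.add (Nat.add (Nat.add (Nat.add (Nat.add (Nat.add C (Nat.mul x2215 (nat_lit 3))) x6589) x757) x2269) x2197) x2217) x8775)
    (Nat.add (Nat.add (Nat.add (Nat.add (Nat.add (Nat.add (Nat.add C (Nat.mul x2217 (nat_lit 3))) x6591) x759) x2271) x2199) x2223) x2215)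
    (Nat.add (Nat.add (Nat.add (Nat.add (Nat.add (Nat.add (Nat.add C (Nat.mul x2223 (nat_lit 4))) x6597) x765) x2277) x2205) x2241) x2217)
    (Nat.add (Nat.add (Nat.add (Nat.add (Nat.add C (Nat.mul x2241 (nat_lit 3))) x6615) x783) x2295) x2223)
    (Nat.add (Nat.add (Nat.add (Nat.add (Nat.add (Nat.add (Nat.add C (Nat.mul x2269 (nat_lit 3))) x6643) x811) x2431) x2215) x2271) x8829)
    (Nat.add (Nat.add (Nat.add (Nat.add (Nat.add (Nat.add (Nat.add C (Nat.mul x2271 (nat_lit 3))) x6645) x813) x2433) x2217) x2277) x2269)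
    (Nat.add (Nat.add (Nat.add (Nat.add (Nat.add (Nat.add (Nat.add C (Nat.mul x2277 (nat_lit 3))) x6651) x819) x2439) x2223) x2295) x2271)
    (Nat.add (Nat.add (Nat.add (Nat.add (Nat.add (Nat.add (Nat.add C (Nat.mul x2295 (nat_lit 4))) x6669) x837) x2457) x2241) x2349) x2277)
    (Nat.add (Nat.add (Nat.add (Nat.add (Nat.add C (Nat.mul x2349 (nat_lit 3))) x6723) x891) x2511) x2295)
    (Nat.add (Nat.add (Nat.add (Nat.add (Nat.add (Nat.add (Nat.add C (Nat.mul x2431 (nat_lit 3))) x6805) x973) x2917) x2269) x2433) x8991)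
    (Nat.add (Nat.add (Nat.add (Nat.add (Nat.add (Nat.add (Nat.add C (Nat.mul x2433 (nat_lit 3))) x6807) x975) x2919) x2271) x2439) x2431)
    (Nat.add (Nat.add (Nat.add (Nat.add (Nat.add (Nat.add (Nat.add C (Nat.mul x2439 (nat_lit 3))) x6813) x981) x2925) x2277) x2457) x2433)
    (Nat.add (Nat.add (Nat.add (Nat.add (Nat.add (Nat.add (Nat.add C (Nat.mul x2457 (nat_lit 3))) x6831) x999) x2943) x2295) x2511) x2439)
    (Nat.add (Nat.add (Nat.add (Nat.add (Nat.add (Nat.add (Nat.add C (Nat.mul x2511 (nat_lit 4))) x6885) x1053) x2997) x2349) x2673) x2457)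
    (Nat.add (Nat.add (Nat.add (Nat.add (Nat.add C (Nat.mul x2673 (nat_lit 3))) x7047) x1215) x3159) x2511)
    (Nat.add (Nat.add (Nat.add (Nat.add (Nat.add (Nat.add (Nat.add C (Nat.mul x2917 (nat_lit 4))) x7291) x1459) x4375) x2431) x2919) x9477)
    (Nat.add (Nat.add (Nat.add (Nat.add (Nat.add (Nat.add (Nat.add C (Nat.mul x2919 (nat_lit 4))) x7293) x1461) x4377) x2433) x2925) x2917)
    (Nat.add (Nat.add (Nat.add (Nat.add (Nat.add (Nat.add (Nat.add C (Nat.mul x2925 (nat_lit 4))) x7299) x1467) x4383) x2439) x2943) x2919)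
    (Nat.add (Nat.add (Nat.add (Nat.add (Nat.add (Nat.add (Nat.add C (Nat.mul x2943 (nat_lit 4))) x7317) x1485) x4401) x2457) x2997) x2925)
    (Nat.add (Nat.add (Nat.add (Nat.add (Nat.add (Nat.add (Nat.add C (Nat.mul x2997 (nat_lit 4))) x7371) x1539) x4455) x2511) x3159) x2943)
    (Nat.add (Nat.add (Nat.add (Nat.add (Nat.add (Nat.add (Nat.add C (Nat.mul x3159 (nat_lit 5))) x7533) x1701) x4617) x2673) x3645) x2997)
    (Nat.add (Nat.add (Nat.add (Nat.add C (Nat.mul x3645 (nat_lit 5))) x8019) x5103) x3159)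
    (Nat.add (Nat.add (Nat.add (Nat.add (Nat.add C (Nat.mul x4375 (nat_lit 3))) x8749) x2917) x4377) x10935)
    (Nat.add (Nat.add (Nat.add (Nat.add (Nat.add C (Nat.mul x4377 (nat_lit 3))) x8751) x2919) x4383) x4375)
    (Nat.add (Nat.add (Nat.add (Nat.add (Nat.add C (Nat.mul x4383 (nat_lit 3))) x8757) x2925) x4401) x4377)
    (Nat.add (Nat.add (Nat.add (Nat.add (Nat.add C (Nat.mul x4401 (nat_lit 3))) x8775) x2943) x4455) x4383)
    (Nat.add (Nat.add (Nat.add (Nat.add (Nat.add C (Nat.mul x4455 (nat_lit 3))) x8829) x2997) x4617) x4401)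
    (Nat.add (Nat.add (Nat.add (Nat.add (Nat.add C (Nat.mul x4617 (nat_lit 3))) x8991) x3159) x5103) x4455)
    (Nat.add (Nat.add (Nat.add (Nat.add C (Nat.mul x5103 (nat_lit 5))) x9477) x3645) x4617)
    (Nat.add (Nat.add (Nat.add (Nat.add C (Nat.mul x6563 (nat_lit 5))) x2189) x6565) x13123)
    (Nat.add (Nat.add (Nat.add (Nat.add (Nat.add (Nat.add (Nat.add C (Nat.mul x6565 (nat_lit 5))) x2191) x6571) x6563) x6567) x13125) x5)
    (Nat.add (Nat.add (Nat.add (Nat.add (Nat.add C (Nat.mul x6567 (nat_lit 3))) x2193) x6573) x6565) x7)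
    (Nat.add (Nat.add (Nat.add (Nat.add (Nat.add (Nat.add (Nat.add C (Nat.mul x6571 (nat_lit 4))) x2197) x6589) x6565) x6573) x13131) x11)
    (Nat.add (Nat.add (Nat.add (Nat.add (Nat.add (Nat.add (Nat.add C (Nat.mul x6573 (nat_lit 4))) x2199) x6591) x6567) x6579) x6571) x13)
    (Nat.add (Nat.add (Nat.add (Nat.add (Nat.add C (Nat.mul x6579 (nat_lit 3))) x2205) x6597) x6573) x19)
    (Nat.add (Nat.add (Nat.add (Nat.add (Nat.add (Nat.add (Nat.add C (Nat.mul x6589 (nat_lit 4))) x2215) x6643) x6571) x6591) x13149) x29)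
    (Nat.add (Nat.add (Nat.add (Nat.add (Nat.add (Nat.add (Nat.add C (Nat.mul x6591 (nat_lit 3))) x2217) x6645) x6573) x6597) x6589) x31)
    (Nat.add (Nat.add (Nat.add (Nat.add (Nat.add (Nat.add (Nat.add C (Nat.mul x6597 (nat_lit 4))) x2223) x6651) x6579) x6615) x6591) x37)
    (Nat.add (Nat.add (Nat.add (Nat.add (Nat.add C (Nat.mul x6615 (nat_lit 3))) x2241) x6669) x6597) x55)
    (Nat.add (Nat.add (Nat.add (Nat.add (Nat.add (Nat.add (Nat.add C (Nat.mul x6643 (nat_lit 4))) x2269) x6805) x6589) x6645) x13203) x83)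
    (Nat.add (Nat.add (Nat.add (Nat.add (Nat.add (Nat.add (Nat.add C (Nat.mul x6645 (nat_lit 3))) x2271) x6807) x6591) x6651) x6643) x85)
    (Nat.add (Nat.add (Nat.add (Nat.add (Nat.add (Nat.add (Nat.add C (Nat.mul x6651 (nat_lit 3))) x2277) x6813) x6597) x6669) x6645) x91)
    (Nat.add (Nat.add (Nat.add (Nat.add (Nat.add (Nat.add (Nat.add C (Nat.mul x6669 (nat_lit 4))) x2295) x6831) x6615) x6723) x6651) x109)
    (Nat.add (Nat.add (Nat.add (Nat.add (Nat.add C (Nat.mul x6723 (nat_lit 3))) x2349) x6885) x6669) x163)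
    (Nat.add (Nat.add (Nat.add (Nat.add (Nat.add (Nat.add (Nat.add C (Nat.mul x6805 (nat_lit 4))) x2431) x7291) x6643) x6807) x13365) x245)
    (Nat.add (Nat.add (Nat.add (Nat.add (Nat.add (Nat.add (Nat.add C (Nat.mul x6807 (nat_lit 3))) x2433) x7293) x6645) x6813) x6805) x247)
    (Nat.add (Nat.add (Nat.add (Nat.add (Nat.add (Nat.add (Nat.add C (Nat.mul x6813 (nat_lit 3))) x2439) x7299) x6651) x6831) x6807) x253)
    (Nat.add (Nat.add (Nat.add (Nat.add (Nat.add (Nat.add (Nat.add C (Nat.mul x6831 (nat_lit 3))) x2457) x7317) x6669) x6885) x6813) x271)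
    (Nat.add (Nat.add (Nat.add (Nat.add (Nat.add (Nat.add (Nat.add C (Nat.mul x6885 (nat_lit 4))) x2511) x7371) x6723) x7047) x6831) x325)
    (Nat.add (Nat.add (Nat.add (Nat.add (Nat.add C (Nat.mul x7047 (nat_lit 3))) x2673) x7533) x6885) x487)
    (Nat.add (Nat.add (Nat.add (Nat.add (Nat.add (Nat.add (Nat.add C (Nat.mul x7291 (nat_lit 4))) x2917) x8749) x6805) x7293) x13851) x731)
    (Nat.add (Nat.add (Nat.add (Nat.add (Nat.add (Nat.add (Nat.add C (Nat.mul x7293 (nat_lit 3))) x2919) x8751) x6807) x7299) x7291) x733)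
    (Nat.add (Nat.add (Nat.add (Nat.add (Nat.add (Nat.add (Nat.add C (Nat.mul x7299 (nat_lit 3))) x2925) x8757) x6813) x7317) x7293) x739)
    (Nat.add (Nat.add (Nat.add (Nat.add (Nat.add (Nat.add (Nat.add C (Nat.mul x7317 (nat_lit 3))) x2943) x8775) x6831) x7371) x7299) x757)
    (Nat.add (Nat.add (Nat.add (Nat.add (Nat.add (Nat.add (Nat.add C (Nat.mul x7371 (nat_lit 3))) x2997) x8829) x6885) x7533) x7317) x811)
    (Nat.add (Nat.add (Nat.add (Nat.add (Nat.add (Nat.add (Nat.add C (Nat.mul x7533 (nat_lit 4))) x3159) x8991) x7047) x8019) x7371) x973)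
    (Nat.add (Nat.add (Nat.add (Nat.add (Nat.add C (Nat.mul x8019 (nat_lit 3))) x3645) x9477) x7533) x1459)
    (Nat.add (Nat.add (Nat.add (Nat.add (Nat.add (Nat.add (Nat.add C (Nat.mul x8749 (nat_lit 5))) x4375) x13123) x7291) x8751) x15309) x2189)
    (Nat.add (Nat.add (Nat.add (Nat.add (Nat.add (Nat.add (Nat.add C (Nat.mul x8751 (nat_lit 4))) x4377) x13125) x7293) x8757) x8749) x2191)
    (Nat.add (Nat.add (Nat.add (Nat.add (Nat.add (Nat.add (Nat.add C (Nat.mul x8757 (nat_lit 4))) x4383) x13131) x7299) x8775) x8751) x2197)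
    (Nat.add (Nat.add (Nat.add (Nat.add (Nat.add (Nat.add (Nat.add C (Nat.mul x8775 (nat_lit 4))) x4401) x13149) x7317) x8829) x8757) x2215)
    (Nat.add (Nat.add (Nat.add (Nat.add (Nat.add (Nat.add (Nat.add C (Nat.mul x8829 (nat_lit 4))) x4455) x13203) x7371) x8991) x8775) x2269)
    (Nat.add (Nat.add (Nat.add (Nat.add (Nat.add (Nat.add (Nat.add C (Nat.mul x8991 (nat_lit 4))) x4617) x13365) x7533) x9477) x8829) x2431)
    (Nat.add (Nat.add (Nat.add (Nat.add (Nat.add (Nat.add (Nat.add C (Nat.mul x9477 (nat_lit 5))) x5103) x13851) x8019) x10935) x8991) x2917)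
    (Nat.add (Nat.add (Nat.add (Nat.add C (Nat.mul x10935 (nat_lit 5))) x15309) x9477) x4375)
    (Nat.add (Nat.add (Nat.add (Nat.add C (Nat.mul x13123 (nat_lit 5))) x8749) x13125) x6563)
    (Nat.add (Nat.add (Nat.add (Nat.add (Nat.add C (Nat.mul x13125 (nat_lit 3))) x8751) x13131) x13123) x6565)
    (Nat.add (Nat.add (Nat.add (Nat.add (Nat.add C (Nat.mul x13131 (nat_lit 3))) x8757) x13149) x13125) x6571)
    (Nat.add (Nat.add (Nat.add (Nat.add (Nat.add C (Nat.mul x13149 (nat_lit 3))) x8775) x13203) x13131) x6589)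
    (Nat.add (Nat.add (Nat.add (Nat.add (Nat.add C (Nat.mul x13203 (nat_lit 3))) x8829) x13365) x13149) x6643)
    (Nat.add (Nat.add (Nat.add (Nat.add (Nat.add C (Nat.mul x13365 (nat_lit 3))) x8991) x13851) x13203) x6805)
    (Nat.add (Nat.add (Nat.add (Nat.add (Nat.add C (Nat.mul x13851 (nat_lit 3))) x9477) x15309) x13365) x7291)
    (Nat.add (Nat.add (Nat.add (Nat.add C (Nat.mul x15309 (nat_lit 5))) x10935) x13851) x8749)

theorem ap_eq (x : Nat → Nat) (k : FnLL specs) : apLL (fun t => x t.cd) specs k = A9_3.ap x k :=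
  Eq.refl (A9_3.ap x k)

theorem step_eq0 (e : Nat → Nat) (C p r : Nat) (k : FnLL specs) (x : Nat → Nat) :
    A9_3.ap x (step e C p r k) = apLL (interp e C p r x) specs k :=
  Eq.refl (A9_3.ap x (step e C p r k))

theorem spec_ok : specOK 8 false A9_3.mask specs = true := by decide +kernel

theorem step_eq (e : Nat → Nat) (C p r : Nat) (k : A9_3.KK) (x : Nat → Nat) :
    A9_3.ap x (step e C p r k) = A9_3.ap (row 8 false A9_3.mask e C p r x) k :=
  ((step_eq0 e C p r k x).trans (apLL_row 8 false A9_3.mask specs spec_ok e C p r x k)).trans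
    (ap_eq (row 8 false A9_3.mask e C p r x) k)

end Vale.Agent.P348.G9_3_0

namespace Vale.Agent.P348.G9_4_0

noncomputable def sp0 : List Spec :=
  [Spec.mk (nat_lit 8) (nat_lit 5) [nat_lit 14, nat_lit 6568] (nat_lit 0) [] true,
   Spec.mk (nat_lit 14) (nat_lit 4) [nat_lit 32, nat_lit 8, nat_lit 20, nat_lit 16, nat_lit 6574] (nat_lit 0) [] true,
   Spec.mk (nat_lit 16) (nat_lit 5) [nat_lit 34, nat_lit 22, nat_lit 14, nat_lit 6576] (nat_lit 0) [] true,
   Spec.mk (nat_lit 20) (nat_lit 1) [nat_lit 38, nat_lit 14, nat_lit 22, nat_lit 6580] (nat_lit 0) [] true,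
   Spec.mk (nat_lit 22) (nat_lit 4) [nat_lit 40, nat_lit 16, nat_lit 20, nat_lit 24, nat_lit 6582] (nat_lit 0) [] false,
   Spec.mk (nat_lit 24) (nat_lit 5) [nat_lit 42, nat_lit 22] (nat_lit 0) [] false,
   Spec.mk (nat_lit 32) (nat_lit 3) [nat_lit 86, nat_lit 14, nat_lit 38, nat_lit 34, nat_lit 6592] (nat_lit 0) [] true,
   Spec.mk (nat_lit 34) (nat_lit 3) [nat_lit 88, nat_lit 16, nat_lit 40, nat_lit 32, nat_lit 6594] (nat_lit 0) [] true,
   Spec.mk (nat_lit 38) (nat_lit 2) [nat_lit 92, nat_lit 20, nat_lit 56, nat_lit 32, nat_lit 40, nat_lit 6598] (nat_lit 0) [] true,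
   Spec.mk (nat_lit 40) (nat_lit 4) [nat_lit 94, nat_lit 22, nat_lit 58, nat_lit 34, nat_lit 46, nat_lit 38, nat_lit 42, nat_lit 6600] (nat_lit 0) [] true,
   Spec.mk (nat_lit 42) (nat_lit 4) [nat_lit 96, nat_lit 24, nat_lit 60, nat_lit 48, nat_lit 40] (nat_lit 0) [] false,
   Spec.mk (nat_lit 46) (nat_lit 3) [nat_lit 100, nat_lit 64, nat_lit 40, nat_lit 48, nat_lit 6606] (nat_lit 0) [] false,
   Spec.mk (nat_lit 48) (nat_lit 5) [nat_lit 102, nat_lit 66, nat_lit 42, nat_lit 46] (nat_lit 0) [] false,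
   Spec.mk (nat_lit 56) (nat_lit 1) [nat_lit 110, nat_lit 38, nat_lit 58, nat_lit 6616] (nat_lit 0) [] true,
   Spec.mk (nat_lit 58) (nat_lit 2) [nat_lit 112, nat_lit 40, nat_lit 64, nat_lit 56, nat_lit 60, nat_lit 6618] (nat_lit 0) [] false,
   Spec.mk (nat_lit 60) (nat_lit 1) [nat_lit 114, nat_lit 42, nat_lit 66, nat_lit 58] (nat_lit 0) [] false,
   Spec.mk (nat_lit 64) (nat_lit 3) [nat_lit 118, nat_lit 46, nat_lit 58, nat_lit 66, nat_lit 6624] (nat_lit 0) [] false,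
   Spec.mk (nat_lit 66) (nat_lit 4) [nat_lit 120, nat_lit 48, nat_lit 60, nat_lit 72, nat_lit 64] (nat_lit 0) [] false,
   Spec.mk (nat_lit 72) (nat_lit 5) [nat_lit 126, nat_lit 66] (nat_lit 0) [] false,
   Spec.mk (nat_lit 86) (nat_lit 3) [nat_lit 248, nat_lit 32, nat_lit 92, nat_lit 88, nat_lit 6646] (nat_lit 0) [] true,
   Spec.mk (nat_lit 88) (nat_lit 3) [nat_lit 250, nat_lit 34, nat_lit 94, nat_lit 86, nat_lit 6648] (nat_lit 0) [] true,
   Spec.mk (nat_lit 92) (nat_lit 1) [nat_lit 254, nat_lit 38, nat_lit 110, nat_lit 86, nat_lit 94, nat_lit 6652] (nat_lit 0) [] true,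
   Spec.mk (nat_lit 94) (nat_lit 3) [nat_lit 256, nat_lit 40, nat_lit 112, nat_lit 88, nat_lit 100, nat_lit 92, nat_lit 96, nat_lit 6654] (nat_lit 0) [] true,
   Spec.mk (nat_lit 96) (nat_lit 3) [nat_lit 258, nat_lit 42, nat_lit 114, nat_lit 102, nat_lit 94] (nat_lit 0) [] false,
   Spec.mk (nat_lit 100) (nat_lit 1) [nat_lit 262, nat_lit 46, nat_lit 118, nat_lit 94, nat_lit 102, nat_lit 6660] (nat_lit 0) [] true,
   Spec.mk (nat_lit 102) (nat_lit 3) [nat_lit 264, nat_lit 48, nat_lit 120, nat_lit 96, nat_lit 100] (nat_lit 0) [] false,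
   Spec.mk (nat_lit 110) (nat_lit 2) [nat_lit 272, nat_lit 56, nat_lit 164, nat_lit 92, nat_lit 112, nat_lit 6670] (nat_lit 0) [] true,
   Spec.mk (nat_lit 112) (nat_lit 3) [nat_lit 274, nat_lit 58, nat_lit 166, nat_lit 94, nat_lit 118, nat_lit 110, nat_lit 114, nat_lit 6672] (nat_lit 0) [] true,
   Spec.mk (nat_lit 114) (nat_lit 2) [nat_lit 276, nat_lit 60, nat_lit 168, nat_lit 96, nat_lit 120, nat_lit 112] (nat_lit 0) [] false,
   Spec.mk (nat_lit 118) (nat_lit 3) [nat_lit 280, nat_lit 64, nat_lit 172, nat_lit 100, nat_lit 136, nat_lit 112, nat_lit 120, nat_lit 6678] (nat_lit 0) [] false,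
   Spec.mk (nat_lit 120) (nat_lit 4) [nat_lit 282, nat_lit 66, nat_lit 174, nat_lit 102, nat_lit 138, nat_lit 114, nat_lit 126, nat_lit 118] (nat_lit 0) [] false,
   Spec.mk (nat_lit 126) (nat_lit 4) [nat_lit 288, nat_lit 72, nat_lit 180, nat_lit 144, nat_lit 120] (nat_lit 0) [] false,
   Spec.mk (nat_lit 136) (nat_lit 3) [nat_lit 298, nat_lit 190, nat_lit 118, nat_lit 138, nat_lit 6696] (nat_lit 0) [] false,
   Spec.mk (nat_lit 138) (nat_lit 3) [nat_lit 300, nat_lit 192, nat_lit 120, nat_lit 144, nat_lit 136] (nat_lit 0) [] false,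
   Spec.mk (nat_lit 144) (nat_lit 5) [nat_lit 306, nat_lit 198, nat_lit 126, nat_lit 138] (nat_lit 0) [] false,
   Spec.mk (nat_lit 164) (nat_lit 1) [nat_lit 326, nat_lit 110, nat_lit 166, nat_lit 6724] (nat_lit 0) [] true,
   Spec.mk (nat_lit 166) (nat_lit 2) [nat_lit 328, nat_lit 112, nat_lit 172, nat_lit 164, nat_lit 168, nat_lit 6726] (nat_lit 0) [] false,
   Spec.mk (nat_lit 168) (nat_lit 1) [nat_lit 330, nat_lit 114, nat_lit 174, nat_lit 166] (nat_lit 0) [] false,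
   Spec.mk (nat_lit 172) (nat_lit 1) [nat_lit 334, nat_lit 118, nat_lit 190, nat_lit 166, nat_lit 174, nat_lit 6732] (nat_lit 0) [] false,
   Spec.mk (nat_lit 174) (nat_lit 2) [nat_lit 336, nat_lit 120, nat_lit 192, nat_lit 168, nat_lit 180, nat_lit 172] (nat_lit 0) [] false,
   Spec.mk (nat_lit 180) (nat_lit 1) [nat_lit 342, nat_lit 126, nat_lit 198, nat_lit 174] (nat_lit 0) [] false,
   Spec.mk (nat_lit 190) (nat_lit 3) [nat_lit 352, nat_lit 136, nat_lit 172, nat_lit 192, nat_lit 6750] (nat_lit 0) [] false,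
   Spec.mk (nat_lit 192) (nat_lit 3) [nat_lit 354, nat_lit 138, nat_lit 174, nat_lit 198, nat_lit 190] (nat_lit 0) [] false,
   Spec.mk (nat_lit 198) (nat_lit 4) [nat_lit 360, nat_lit 144, nat_lit 180, nat_lit 216, nat_lit 192] (nat_lit 0) [] false,
   Spec.mk (nat_lit 216) (nat_lit 5) [nat_lit 378, nat_lit 198] (nat_lit 0) [] false,
   Spec.mk (nat_lit 248) (nat_lit 3) [nat_lit 734, nat_lit 86, nat_lit 254, nat_lit 250, nat_lit 6808] (nat_lit 0) [] true,
   Spec.mk (nat_lit 250) (nat_lit 3) [nat_lit 736, nat_lit 88, nat_lit 256, nat_lit 248, nat_lit 6810] (nat_lit 0) [] false,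
   Spec.mk (nat_lit 254) (nat_lit 1) [nat_lit 740, nat_lit 92, nat_lit 272, nat_lit 248, nat_lit 256, nat_lit 6814] (nat_lit 0) [] true,
   Spec.mk (nat_lit 256) (nat_lit 3) [nat_lit 742, nat_lit 94, nat_lit 274, nat_lit 250, nat_lit 262, nat_lit 254, nat_lit 258, nat_lit 6816] (nat_lit 0) [] true,
   Spec.mk (nat_lit 258) (nat_lit 3) [nat_lit 744, nat_lit 96, nat_lit 276, nat_lit 264, nat_lit 256] (nat_lit 0) [] false,
   Spec.mk (nat_lit 262) (nat_lit 1) [nat_lit 748, nat_lit 100, nat_lit 280, nat_lit 256, nat_lit 264, nat_lit 6822] (nat_lit 0) [] true,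
   Spec.mk (nat_lit 264) (nat_lit 3) [nat_lit 750, nat_lit 102, nat_lit 282, nat_lit 258, nat_lit 262] (nat_lit 0) [] false,
   Spec.mk (nat_lit 272) (nat_lit 1) [nat_lit 758, nat_lit 110, nat_lit 326, nat_lit 254, nat_lit 274, nat_lit 6832] (nat_lit 0) [] true,
   Spec.mk (nat_lit 274) (nat_lit 2) [nat_lit 760, nat_lit 112, nat_lit 328, nat_lit 256, nat_lit 280, nat_lit 272, nat_lit 276, nat_lit 6834] (nat_lit 0) [] true,
   Spec.mk (nat_lit 276) (nat_lit 1) [nat_lit 762, nat_lit 114, nat_lit 330, nat_lit 258, nat_lit 282, nat_lit 274] (nat_lit 0) [] false,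
   Spec.mk (nat_lit 280) (nat_lit 2) [nat_lit 766, nat_lit 118, nat_lit 334, nat_lit 262, nat_lit 298, nat_lit 274, nat_lit 282, nat_lit 6840] (nat_lit 0) [] true,
   Spec.mk (nat_lit 282) (nat_lit 3) [nat_lit 768, nat_lit 120, nat_lit 336, nat_lit 264, nat_lit 300, nat_lit 276, nat_lit 288, nat_lit 280] (nat_lit 0) [] false,
   Spec.mk (nat_lit 288) (nat_lit 3) [nat_lit 774, nat_lit 126, nat_lit 342, nat_lit 306, nat_lit 282] (nat_lit 0) [] false,
   Spec.mk (nat_lit 298) (nat_lit 1) [nat_lit 784, nat_lit 136, nat_lit 352, nat_lit 280, nat_lit 300, nat_lit 6858] (nat_lit 0) [] false,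
   Spec.mk (nat_lit 300) (nat_lit 1) [nat_lit 786, nat_lit 138, nat_lit 354, nat_lit 282, nat_lit 306, nat_lit 298] (nat_lit 0) [] false]

noncomputable def sp1 : List Spec :=
  [Spec.mk (nat_lit 306) (nat_lit 3) [nat_lit 792, nat_lit 144, nat_lit 360, nat_lit 288, nat_lit 300] (nat_lit 0) [] false,
   Spec.mk (nat_lit 326) (nat_lit 2) [nat_lit 812, nat_lit 164, nat_lit 488, nat_lit 272, nat_lit 328, nat_lit 6886] (nat_lit 0) [] true,
   Spec.mk (nat_lit 328) (nat_lit 3) [nat_lit 814, nat_lit 166, nat_lit 490, nat_lit 274, nat_lit 334, nat_lit 326, nat_lit 330, nat_lit 6888] (nat_lit 0) [] true,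
   Spec.mk (nat_lit 330) (nat_lit 2) [nat_lit 816, nat_lit 168, nat_lit 492, nat_lit 276, nat_lit 336, nat_lit 328] (nat_lit 0) [] false,
   Spec.mk (nat_lit 334) (nat_lit 2) [nat_lit 820, nat_lit 172, nat_lit 496, nat_lit 280, nat_lit 352, nat_lit 328, nat_lit 336, nat_lit 6894] (nat_lit 0) [] false,
   Spec.mk (nat_lit 336) (nat_lit 3) [nat_lit 822, nat_lit 174, nat_lit 498, nat_lit 282, nat_lit 354, nat_lit 330, nat_lit 342, nat_lit 334] (nat_lit 0) [] false,
   Spec.mk (nat_lit 342) (nat_lit 2) [nat_lit 828, nat_lit 180, nat_lit 504, nat_lit 288, nat_lit 360, nat_lit 336] (nat_lit 0) [] false,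
   Spec.mk (nat_lit 352) (nat_lit 3) [nat_lit 838, nat_lit 190, nat_lit 514, nat_lit 298, nat_lit 406, nat_lit 334, nat_lit 354, nat_lit 6912] (nat_lit 0) [] false,
   Spec.mk (nat_lit 354) (nat_lit 3) [nat_lit 840, nat_lit 192, nat_lit 516, nat_lit 300, nat_lit 408, nat_lit 336, nat_lit 360, nat_lit 352] (nat_lit 0) [] false,
   Spec.mk (nat_lit 360) (nat_lit 4) [nat_lit 846, nat_lit 198, nat_lit 522, nat_lit 306, nat_lit 414, nat_lit 342, nat_lit 378, nat_lit 354] (nat_lit 0) [] false,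
   Spec.mk (nat_lit 378) (nat_lit 4) [nat_lit 864, nat_lit 216, nat_lit 540, nat_lit 432, nat_lit 360] (nat_lit 0) [] false,
   Spec.mk (nat_lit 406) (nat_lit 3) [nat_lit 892, nat_lit 568, nat_lit 352, nat_lit 408, nat_lit 6966] (nat_lit 0) [] false,
   Spec.mk (nat_lit 408) (nat_lit 3) [nat_lit 894, nat_lit 570, nat_lit 354, nat_lit 414, nat_lit 406] (nat_lit 0) [] false,
   Spec.mk (nat_lit 414) (nat_lit 3) [nat_lit 900, nat_lit 576, nat_lit 360, nat_lit 432, nat_lit 408] (nat_lit 0) [] false,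
   Spec.mk (nat_lit 432) (nat_lit 5) [nat_lit 918, nat_lit 594, nat_lit 378, nat_lit 414] (nat_lit 0) [] false,
   Spec.mk (nat_lit 488) (nat_lit 1) [nat_lit 974, nat_lit 326, nat_lit 490, nat_lit 7048] (nat_lit 0) [] false,
   Spec.mk (nat_lit 490) (nat_lit 2) [nat_lit 976, nat_lit 328, nat_lit 496, nat_lit 488, nat_lit 492, nat_lit 7050] (nat_lit 0) [] false,
   Spec.mk (nat_lit 492) (nat_lit 1) [nat_lit 978, nat_lit 330, nat_lit 498, nat_lit 490] (nat_lit 0) [] false,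
   Spec.mk (nat_lit 496) (nat_lit 1) [nat_lit 982, nat_lit 334, nat_lit 514, nat_lit 490, nat_lit 498, nat_lit 7056] (nat_lit 0) [] false,
   Spec.mk (nat_lit 498) (nat_lit 2) [nat_lit 984, nat_lit 336, nat_lit 516, nat_lit 492, nat_lit 504, nat_lit 496] (nat_lit 0) [] false,
   Spec.mk (nat_lit 504) (nat_lit 1) [nat_lit 990, nat_lit 342, nat_lit 522, nat_lit 498] (nat_lit 0) [] false,
   Spec.mk (nat_lit 514) (nat_lit 1) [nat_lit 1000, nat_lit 352, nat_lit 568, nat_lit 496, nat_lit 516, nat_lit 7074] (nat_lit 0) [] false,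
   Spec.mk (nat_lit 516) (nat_lit 1) [nat_lit 1002, nat_lit 354, nat_lit 570, nat_lit 498, nat_lit 522, nat_lit 514] (nat_lit 0) [] false,
   Spec.mk (nat_lit 522) (nat_lit 2) [nat_lit 1008, nat_lit 360, nat_lit 576, nat_lit 504, nat_lit 540, nat_lit 516] (nat_lit 0) [] false,
   Spec.mk (nat_lit 540) (nat_lit 1) [nat_lit 1026, nat_lit 378, nat_lit 594, nat_lit 522] (nat_lit 0) [] false,
   Spec.mk (nat_lit 568) (nat_lit 3) [nat_lit 1054, nat_lit 406, nat_lit 514, nat_lit 570, nat_lit 7128] (nat_lit 0) [] false,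
   Spec.mk (nat_lit 570) (nat_lit 3) [nat_lit 1056, nat_lit 408, nat_lit 516, nat_lit 576, nat_lit 568] (nat_lit 0) [] false,
   Spec.mk (nat_lit 576) (nat_lit 3) [nat_lit 1062, nat_lit 414, nat_lit 522, nat_lit 594, nat_lit 570] (nat_lit 0) [] false,
   Spec.mk (nat_lit 594) (nat_lit 4) [nat_lit 1080, nat_lit 432, nat_lit 540, nat_lit 648, nat_lit 576] (nat_lit 0) [] false,
   Spec.mk (nat_lit 648) (nat_lit 5) [nat_lit 1134, nat_lit 594] (nat_lit 0) [] false,
   Spec.mk (nat_lit 734) (nat_lit 3) [nat_lit 2192, nat_lit 248, nat_lit 740, nat_lit 736, nat_lit 7294] (nat_lit 0) [] false,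
   Spec.mk (nat_lit 736) (nat_lit 3) [nat_lit 2194, nat_lit 250, nat_lit 742, nat_lit 734, nat_lit 7296] (nat_lit 0) [] false,
   Spec.mk (nat_lit 740) (nat_lit 1) [nat_lit 2198, nat_lit 254, nat_lit 758, nat_lit 734, nat_lit 742, nat_lit 7300] (nat_lit 0) [] false,
   Spec.mk (nat_lit 742) (nat_lit 3) [nat_lit 2200, nat_lit 256, nat_lit 760, nat_lit 736, nat_lit 748, nat_lit 740, nat_lit 744, nat_lit 7302] (nat_lit 0) [] false,
   Spec.mk (nat_lit 744) (nat_lit 3) [nat_lit 2202, nat_lit 258, nat_lit 762, nat_lit 750, nat_lit 742] (nat_lit 0) [] false,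
   Spec.mk (nat_lit 748) (nat_lit 1) [nat_lit 2206, nat_lit 262, nat_lit 766, nat_lit 742, nat_lit 750, nat_lit 7308] (nat_lit 0) [] false,
   Spec.mk (nat_lit 750) (nat_lit 3) [nat_lit 2208, nat_lit 264, nat_lit 768, nat_lit 744, nat_lit 748] (nat_lit 0) [] false,
   Spec.mk (nat_lit 758) (nat_lit 1) [nat_lit 2216, nat_lit 272, nat_lit 812, nat_lit 740, nat_lit 760, nat_lit 7318] (nat_lit 0) [] true,
   Spec.mk (nat_lit 760) (nat_lit 2) [nat_lit 2218, nat_lit 274, nat_lit 814, nat_lit 742, nat_lit 766, nat_lit 758, nat_lit 762, nat_lit 7320] (nat_lit 0) [] true,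
   Spec.mk (nat_lit 762) (nat_lit 1) [nat_lit 2220, nat_lit 276, nat_lit 816, nat_lit 744, nat_lit 768, nat_lit 760] (nat_lit 0) [] false,
   Spec.mk (nat_lit 766) (nat_lit 2) [nat_lit 2224, nat_lit 280, nat_lit 820, nat_lit 748, nat_lit 784, nat_lit 760, nat_lit 768, nat_lit 7326] (nat_lit 0) [] false,
   Spec.mk (nat_lit 768) (nat_lit 3) [nat_lit 2226, nat_lit 282, nat_lit 822, nat_lit 750, nat_lit 786, nat_lit 762, nat_lit 774, nat_lit 766] (nat_lit 0) [] false,
   Spec.mk (nat_lit 774) (nat_lit 3) [nat_lit 2232, nat_lit 288, nat_lit 828, nat_lit 792, nat_lit 768] (nat_lit 0) [] false,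
   Spec.mk (nat_lit 784) (nat_lit 1) [nat_lit 2242, nat_lit 298, nat_lit 838, nat_lit 766, nat_lit 786, nat_lit 7344] (nat_lit 0) [] false,
   Spec.mk (nat_lit 786) (nat_lit 1) [nat_lit 2244, nat_lit 300, nat_lit 840, nat_lit 768, nat_lit 792, nat_lit 784] (nat_lit 0) [] false,
   Spec.mk (nat_lit 792) (nat_lit 3) [nat_lit 2250, nat_lit 306, nat_lit 846, nat_lit 774, nat_lit 786] (nat_lit 0) [] false,
   Spec.mk (nat_lit 812) (nat_lit 1) [nat_lit 2270, nat_lit 326, nat_lit 974, nat_lit 758, nat_lit 814, nat_lit 7372] (nat_lit 0) [] false,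
   Spec.mk (nat_lit 814) (nat_lit 2) [nat_lit 2272, nat_lit 328, nat_lit 976, nat_lit 760, nat_lit 820, nat_lit 812, nat_lit 816, nat_lit 7374] (nat_lit 0) [] true,
   Spec.mk (nat_lit 816) (nat_lit 1) [nat_lit 2274, nat_lit 330, nat_lit 978, nat_lit 762, nat_lit 822, nat_lit 814] (nat_lit 0) [] false,
   Spec.mk (nat_lit 820) (nat_lit 1) [nat_lit 2278, nat_lit 334, nat_lit 982, nat_lit 766, nat_lit 838, nat_lit 814, nat_lit 822, nat_lit 7380] (nat_lit 0) [] true,
   Spec.mk (nat_lit 822) (nat_lit 2) [nat_lit 2280, nat_lit 336, nat_lit 984, nat_lit 768, nat_lit 840, nat_lit 816, nat_lit 828, nat_lit 820] (nat_lit 0) [] false,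
   Spec.mk (nat_lit 828) (nat_lit 1) [nat_lit 2286, nat_lit 342, nat_lit 990, nat_lit 774, nat_lit 846, nat_lit 822] (nat_lit 0) [] false,
   Spec.mk (nat_lit 838) (nat_lit 2) [nat_lit 2296, nat_lit 352, nat_lit 1000, nat_lit 784, nat_lit 892, nat_lit 820, nat_lit 840, nat_lit 7398] (nat_lit 0) [] false,
   Spec.mk (nat_lit 840) (nat_lit 2) [nat_lit 2298, nat_lit 354, nat_lit 1002, nat_lit 786, nat_lit 894, nat_lit 822, nat_lit 846, nat_lit 838] (nat_lit 0) [] false,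
   Spec.mk (nat_lit 846) (nat_lit 3) [nat_lit 2304, nat_lit 360, nat_lit 1008, nat_lit 792, nat_lit 900, nat_lit 828, nat_lit 864, nat_lit 840] (nat_lit 0) [] false,
   Spec.mk (nat_lit 864) (nat_lit 3) [nat_lit 2322, nat_lit 378, nat_lit 1026, nat_lit 918, nat_lit 846] (nat_lit 0) [] false,
   Spec.mk (nat_lit 892) (nat_lit 1) [nat_lit 2350, nat_lit 406, nat_lit 1054, nat_lit 838, nat_lit 894, nat_lit 7452] (nat_lit 0) [] false,
   Spec.mk (nat_lit 894) (nat_lit 1) [nat_lit 2352, nat_lit 408, nat_lit 1056, nat_lit 840, nat_lit 900, nat_lit 892] (nat_lit 0) [] false,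
   Spec.mk (nat_lit 900) (nat_lit 1) [nat_lit 2358, nat_lit 414, nat_lit 1062, nat_lit 846, nat_lit 918, nat_lit 894] (nat_lit 0) [] false,
   Spec.mk (nat_lit 918) (nat_lit 3) [nat_lit 2376, nat_lit 432, nat_lit 1080, nat_lit 864, nat_lit 900] (nat_lit 0) [] false]

noncomputable def sp2 : List Spec :=
  [Spec.mk (nat_lit 974) (nat_lit 2) [nat_lit 2432, nat_lit 488, nat_lit 1460, nat_lit 812, nat_lit 976, nat_lit 7534] (nat_lit 0) [] false,
   Spec.mk (nat_lit 976) (nat_lit 3) [nat_lit 2434, nat_lit 490, nat_lit 1462, nat_lit 814, nat_lit 982, nat_lit 974, nat_lit 978, nat_lit 7536] (nat_lit 0) [] false,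
   Spec.mk (nat_lit 978) (nat_lit 2) [nat_lit 2436, nat_lit 492, nat_lit 1464, nat_lit 816, nat_lit 984, nat_lit 976] (nat_lit 0) [] false,
   Spec.mk (nat_lit 982) (nat_lit 2) [nat_lit 2440, nat_lit 496, nat_lit 1468, nat_lit 820, nat_lit 1000, nat_lit 976, nat_lit 984, nat_lit 7542] (nat_lit 0) [] false,
   Spec.mk (nat_lit 984) (nat_lit 3) [nat_lit 2442, nat_lit 498, nat_lit 1470, nat_lit 822, nat_lit 1002, nat_lit 978, nat_lit 990, nat_lit 982] (nat_lit 0) [] false,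
   Spec.mk (nat_lit 990) (nat_lit 2) [nat_lit 2448, nat_lit 504, nat_lit 1476, nat_lit 828, nat_lit 1008, nat_lit 984] (nat_lit 0) [] false,
   Spec.mk (nat_lit 1000) (nat_lit 2) [nat_lit 2458, nat_lit 514, nat_lit 1486, nat_lit 838, nat_lit 1054, nat_lit 982, nat_lit 1002, nat_lit 7560] (nat_lit 0) [] false,
   Spec.mk (nat_lit 1002) (nat_lit 2) [nat_lit 2460, nat_lit 516, nat_lit 1488, nat_lit 840, nat_lit 1056, nat_lit 984, nat_lit 1008, nat_lit 1000] (nat_lit 0) [] false,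
   Spec.mk (nat_lit 1008) (nat_lit 3) [nat_lit 2466, nat_lit 522, nat_lit 1494, nat_lit 846, nat_lit 1062, nat_lit 990, nat_lit 1026, nat_lit 1002] (nat_lit 0) [] false,
   Spec.mk (nat_lit 1026) (nat_lit 2) [nat_lit 2484, nat_lit 540, nat_lit 1512, nat_lit 864, nat_lit 1080, nat_lit 1008] (nat_lit 0) [] false,
   Spec.mk (nat_lit 1054) (nat_lit 3) [nat_lit 2512, nat_lit 568, nat_lit 1540, nat_lit 892, nat_lit 1216, nat_lit 1000, nat_lit 1056, nat_lit 7614] (nat_lit 0) [] false,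
   Spec.mk (nat_lit 1056) (nat_lit 3) [nat_lit 2514, nat_lit 570, nat_lit 1542, nat_lit 894, nat_lit 1218, nat_lit 1002, nat_lit 1062, nat_lit 1054] (nat_lit 0) [] false,
   Spec.mk (nat_lit 1062) (nat_lit 3) [nat_lit 2520, nat_lit 576, nat_lit 1548, nat_lit 900, nat_lit 1224, nat_lit 1008, nat_lit 1080, nat_lit 1056] (nat_lit 0) [] false,
   Spec.mk (nat_lit 1080) (nat_lit 4) [nat_lit 2538, nat_lit 594, nat_lit 1566, nat_lit 918, nat_lit 1242, nat_lit 1026, nat_lit 1134, nat_lit 1062] (nat_lit 0) [] false,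
   Spec.mk (nat_lit 1134) (nat_lit 4) [nat_lit 2592, nat_lit 648, nat_lit 1620, nat_lit 1296, nat_lit 1080] (nat_lit 0) [] false,
   Spec.mk (nat_lit 1216) (nat_lit 3) [nat_lit 2674, nat_lit 1702, nat_lit 1054, nat_lit 1218, nat_lit 7776] (nat_lit 0) [] false,
   Spec.mk (nat_lit 1218) (nat_lit 3) [nat_lit 2676, nat_lit 1704, nat_lit 1056, nat_lit 1224, nat_lit 1216] (nat_lit 0) [] false,
   Spec.mk (nat_lit 1224) (nat_lit 3) [nat_lit 2682, nat_lit 1710, nat_lit 1062, nat_lit 1242, nat_lit 1218] (nat_lit 0) [] false,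
   Spec.mk (nat_lit 1242) (nat_lit 3) [nat_lit 2700, nat_lit 1728, nat_lit 1080, nat_lit 1296, nat_lit 1224] (nat_lit 0) [] false,
   Spec.mk (nat_lit 1296) (nat_lit 5) [nat_lit 2754, nat_lit 1782, nat_lit 1134, nat_lit 1242] (nat_lit 0) [] false,
   Spec.mk (nat_lit 1460) (nat_lit 1) [nat_lit 2918, nat_lit 974, nat_lit 1462, nat_lit 8020] (nat_lit 0) [] false,
   Spec.mk (nat_lit 1462) (nat_lit 2) [nat_lit 2920, nat_lit 976, nat_lit 1468, nat_lit 1460, nat_lit 1464, nat_lit 8022] (nat_lit 0) [] false,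
   Spec.mk (nat_lit 1464) (nat_lit 1) [nat_lit 2922, nat_lit 978, nat_lit 1470, nat_lit 1462] (nat_lit 0) [] false,
   Spec.mk (nat_lit 1468) (nat_lit 1) [nat_lit 2926, nat_lit 982, nat_lit 1486, nat_lit 1462, nat_lit 1470, nat_lit 8028] (nat_lit 0) [] false,
   Spec.mk (nat_lit 1470) (nat_lit 2) [nat_lit 2928, nat_lit 984, nat_lit 1488, nat_lit 1464, nat_lit 1476, nat_lit 1468] (nat_lit 0) [] false,
   Spec.mk (nat_lit 1476) (nat_lit 1) [nat_lit 2934, nat_lit 990, nat_lit 1494, nat_lit 1470] (nat_lit 0) [] false,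
   Spec.mk (nat_lit 1486) (nat_lit 1) [nat_lit 2944, nat_lit 1000, nat_lit 1540, nat_lit 1468, nat_lit 1488, nat_lit 8046] (nat_lit 0) [] false,
   Spec.mk (nat_lit 1488) (nat_lit 1) [nat_lit 2946, nat_lit 1002, nat_lit 1542, nat_lit 1470, nat_lit 1494, nat_lit 1486] (nat_lit 0) [] false,
   Spec.mk (nat_lit 1494) (nat_lit 2) [nat_lit 2952, nat_lit 1008, nat_lit 1548, nat_lit 1476, nat_lit 1512, nat_lit 1488] (nat_lit 0) [] false,
   Spec.mk (nat_lit 1512) (nat_lit 1) [nat_lit 2970, nat_lit 1026, nat_lit 1566, nat_lit 1494] (nat_lit 0) [] false,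
   Spec.mk (nat_lit 1540) (nat_lit 1) [nat_lit 2998, nat_lit 1054, nat_lit 1702, nat_lit 1486, nat_lit 1542, nat_lit 8100] (nat_lit 0) [] false,
   Spec.mk (nat_lit 1542) (nat_lit 1) [nat_lit 3000, nat_lit 1056, nat_lit 1704, nat_lit 1488, nat_lit 1548, nat_lit 1540] (nat_lit 0) [] false,
   Spec.mk (nat_lit 1548) (nat_lit 1) [nat_lit 3006, nat_lit 1062, nat_lit 1710, nat_lit 1494, nat_lit 1566, nat_lit 1542] (nat_lit 0) [] false,
   Spec.mk (nat_lit 1566) (nat_lit 2) [nat_lit 3024, nat_lit 1080, nat_lit 1728, nat_lit 1512, nat_lit 1620, nat_lit 1548] (nat_lit 0) [] false,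
   Spec.mk (nat_lit 1620) (nat_lit 1) [nat_lit 3078, nat_lit 1134, nat_lit 1782, nat_lit 1566] (nat_lit 0) [] false,
   Spec.mk (nat_lit 1702) (nat_lit 3) [nat_lit 3160, nat_lit 1216, nat_lit 1540, nat_lit 1704, nat_lit 8262] (nat_lit 0) [] false,
   Spec.mk (nat_lit 1704) (nat_lit 3) [nat_lit 3162, nat_lit 1218, nat_lit 1542, nat_lit 1710, nat_lit 1702] (nat_lit 0) [] false,
   Spec.mk (nat_lit 1710) (nat_lit 3) [nat_lit 3168, nat_lit 1224, nat_lit 1548, nat_lit 1728, nat_lit 1704] (nat_lit 0) [] false,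
   Spec.mk (nat_lit 1728) (nat_lit 3) [nat_lit 3186, nat_lit 1242, nat_lit 1566, nat_lit 1782, nat_lit 1710] (nat_lit 0) [] false,
   Spec.mk (nat_lit 1782) (nat_lit 4) [nat_lit 3240, nat_lit 1296, nat_lit 1620, nat_lit 1944, nat_lit 1728] (nat_lit 0) [] false,
   Spec.mk (nat_lit 1944) (nat_lit 5) [nat_lit 3402, nat_lit 1782] (nat_lit 0) [] false,
   Spec.mk (nat_lit 2192) (nat_lit 3) [nat_lit 6566, nat_lit 734, nat_lit 2198, nat_lit 2194, nat_lit 8752] (nat_lit 0) [] false,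
   Spec.mk (nat_lit 2194) (nat_lit 3) [nat_lit 6568, nat_lit 736, nat_lit 2200, nat_lit 2192, nat_lit 8754] (nat_lit 0) [] false,
   Spec.mk (nat_lit 2198) (nat_lit 1) [nat_lit 6572, nat_lit 740, nat_lit 2216, nat_lit 2192, nat_lit 2200, nat_lit 8758] (nat_lit 0) [] false,
   Spec.mk (nat_lit 2200) (nat_lit 3) [nat_lit 6574, nat_lit 742, nat_lit 2218, nat_lit 2194, nat_lit 2206, nat_lit 2198, nat_lit 2202, nat_lit 8760] (nat_lit 0) [] false,
   Spec.mk (nat_lit 2202) (nat_lit 3) [nat_lit 6576, nat_lit 744, nat_lit 2220, nat_lit 2208, nat_lit 2200] (nat_lit 0) [] false,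
   Spec.mk (nat_lit 2206) (nat_lit 1) [nat_lit 6580, nat_lit 748, nat_lit 2224, nat_lit 2200, nat_lit 2208, nat_lit 8766] (nat_lit 0) [] false,
   Spec.mk (nat_lit 2208) (nat_lit 3) [nat_lit 6582, nat_lit 750, nat_lit 2226, nat_lit 2202, nat_lit 2206] (nat_lit 0) [] false,
   Spec.mk (nat_lit 2216) (nat_lit 1) [nat_lit 6590, nat_lit 758, nat_lit 2270, nat_lit 2198, nat_lit 2218, nat_lit 8776] (nat_lit 0) [] false,
   Spec.mk (nat_lit 2218) (nat_lit 2) [nat_lit 6592, nat_lit 760, nat_lit 2272, nat_lit 2200, nat_lit 2224, nat_lit 2216, nat_lit 2220, nat_lit 8778] (nat_lit 0) [] false,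
   Spec.mk (nat_lit 2220) (nat_lit 1) [nat_lit 6594, nat_lit 762, nat_lit 2274, nat_lit 2202, nat_lit 2226, nat_lit 2218] (nat_lit 0) [] false,
   Spec.mk (nat_lit 2224) (nat_lit 2) [nat_lit 6598, nat_lit 766, nat_lit 2278, nat_lit 2206, nat_lit 2242, nat_lit 2218, nat_lit 2226, nat_lit 8784] (nat_lit 0) [] false,
   Spec.mk (nat_lit 2226) (nat_lit 3) [nat_lit 6600, nat_lit 768, nat_lit 2280, nat_lit 2208, nat_lit 2244, nat_lit 2220, nat_lit 2232, nat_lit 2224] (nat_lit 0) [] false,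
   Spec.mk (nat_lit 2232) (nat_lit 3) [nat_lit 6606, nat_lit 774, nat_lit 2286, nat_lit 2250, nat_lit 2226] (nat_lit 0) [] false,
   Spec.mk (nat_lit 2242) (nat_lit 1) [nat_lit 6616, nat_lit 784, nat_lit 2296, nat_lit 2224, nat_lit 2244, nat_lit 8802] (nat_lit 0) [] false,
   Spec.mk (nat_lit 2244) (nat_lit 1) [nat_lit 6618, nat_lit 786, nat_lit 2298, nat_lit 2226, nat_lit 2250, nat_lit 2242] (nat_lit 0) [] false,
   Spec.mk (nat_lit 2250) (nat_lit 3) [nat_lit 6624, nat_lit 792, nat_lit 2304, nat_lit 2232, nat_lit 2244] (nat_lit 0) [] false,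
   Spec.mk (nat_lit 2270) (nat_lit 1) [nat_lit 6644, nat_lit 812, nat_lit 2432, nat_lit 2216, nat_lit 2272, nat_lit 8830] (nat_lit 0) [] false,
   Spec.mk (nat_lit 2272) (nat_lit 2) [nat_lit 6646, nat_lit 814, nat_lit 2434, nat_lit 2218, nat_lit 2278, nat_lit 2270, nat_lit 2274, nat_lit 8832] (nat_lit 0) [] false,
   Spec.mk (nat_lit 2274) (nat_lit 1) [nat_lit 6648, nat_lit 816, nat_lit 2436, nat_lit 2220, nat_lit 2280, nat_lit 2272] (nat_lit 0) [] false]

noncomputable def sp3 : List Spec :=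
  [Spec.mk (nat_lit 2278) (nat_lit 1) [nat_lit 6652, nat_lit 820, nat_lit 2440, nat_lit 2224, nat_lit 2296, nat_lit 2272, nat_lit 2280, nat_lit 8838] (nat_lit 0) [] false,
   Spec.mk (nat_lit 2280) (nat_lit 2) [nat_lit 6654, nat_lit 822, nat_lit 2442, nat_lit 2226, nat_lit 2298, nat_lit 2274, nat_lit 2286, nat_lit 2278] (nat_lit 0) [] false,
   Spec.mk (nat_lit 2286) (nat_lit 1) [nat_lit 6660, nat_lit 828, nat_lit 2448, nat_lit 2232, nat_lit 2304, nat_lit 2280] (nat_lit 0) [] false,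
   Spec.mk (nat_lit 2296) (nat_lit 2) [nat_lit 6670, nat_lit 838, nat_lit 2458, nat_lit 2242, nat_lit 2350, nat_lit 2278, nat_lit 2298, nat_lit 8856] (nat_lit 0) [] false,
   Spec.mk (nat_lit 2298) (nat_lit 2) [nat_lit 6672, nat_lit 840, nat_lit 2460, nat_lit 2244, nat_lit 2352, nat_lit 2280, nat_lit 2304, nat_lit 2296] (nat_lit 0) [] false,
   Spec.mk (nat_lit 2304) (nat_lit 3) [nat_lit 6678, nat_lit 846, nat_lit 2466, nat_lit 2250, nat_lit 2358, nat_lit 2286, nat_lit 2322, nat_lit 2298] (nat_lit 0) [] false,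
   Spec.mk (nat_lit 2322) (nat_lit 3) [nat_lit 6696, nat_lit 864, nat_lit 2484, nat_lit 2376, nat_lit 2304] (nat_lit 0) [] false,
   Spec.mk (nat_lit 2350) (nat_lit 1) [nat_lit 6724, nat_lit 892, nat_lit 2512, nat_lit 2296, nat_lit 2352, nat_lit 8910] (nat_lit 0) [] false,
   Spec.mk (nat_lit 2352) (nat_lit 1) [nat_lit 6726, nat_lit 894, nat_lit 2514, nat_lit 2298, nat_lit 2358, nat_lit 2350] (nat_lit 0) [] false,
   Spec.mk (nat_lit 2358) (nat_lit 1) [nat_lit 6732, nat_lit 900, nat_lit 2520, nat_lit 2304, nat_lit 2376, nat_lit 2352] (nat_lit 0) [] false,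
   Spec.mk (nat_lit 2376) (nat_lit 3) [nat_lit 6750, nat_lit 918, nat_lit 2538, nat_lit 2322, nat_lit 2358] (nat_lit 0) [] false,
   Spec.mk (nat_lit 2432) (nat_lit 1) [nat_lit 6806, nat_lit 974, nat_lit 2918, nat_lit 2270, nat_lit 2434, nat_lit 8992] (nat_lit 0) [] false,
   Spec.mk (nat_lit 2434) (nat_lit 2) [nat_lit 6808, nat_lit 976, nat_lit 2920, nat_lit 2272, nat_lit 2440, nat_lit 2432, nat_lit 2436, nat_lit 8994] (nat_lit 0) [] false,
   Spec.mk (nat_lit 2436) (nat_lit 1) [nat_lit 6810, nat_lit 978, nat_lit 2922, nat_lit 2274, nat_lit 2442, nat_lit 2434] (nat_lit 0) [] false,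
   Spec.mk (nat_lit 2440) (nat_lit 1) [nat_lit 6814, nat_lit 982, nat_lit 2926, nat_lit 2278, nat_lit 2458, nat_lit 2434, nat_lit 2442, nat_lit 9000] (nat_lit 0) [] false,
   Spec.mk (nat_lit 2442) (nat_lit 2) [nat_lit 6816, nat_lit 984, nat_lit 2928, nat_lit 2280, nat_lit 2460, nat_lit 2436, nat_lit 2448, nat_lit 2440] (nat_lit 0) [] false,
   Spec.mk (nat_lit 2448) (nat_lit 1) [nat_lit 6822, nat_lit 990, nat_lit 2934, nat_lit 2286, nat_lit 2466, nat_lit 2442] (nat_lit 0) [] false,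
   Spec.mk (nat_lit 2458) (nat_lit 1) [nat_lit 6832, nat_lit 1000, nat_lit 2944, nat_lit 2296, nat_lit 2512, nat_lit 2440, nat_lit 2460, nat_lit 9018] (nat_lit 0) [] false,
   Spec.mk (nat_lit 2460) (nat_lit 1) [nat_lit 6834, nat_lit 1002, nat_lit 2946, nat_lit 2298, nat_lit 2514, nat_lit 2442, nat_lit 2466, nat_lit 2458] (nat_lit 0) [] false,
   Spec.mk (nat_lit 2466) (nat_lit 2) [nat_lit 6840, nat_lit 1008, nat_lit 2952, nat_lit 2304, nat_lit 2520, nat_lit 2448, nat_lit 2484, nat_lit 2460] (nat_lit 0) [] false,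
   Spec.mk (nat_lit 2484) (nat_lit 1) [nat_lit 6858, nat_lit 1026, nat_lit 2970, nat_lit 2322, nat_lit 2538, nat_lit 2466] (nat_lit 0) [] false,
   Spec.mk (nat_lit 2512) (nat_lit 2) [nat_lit 6886, nat_lit 1054, nat_lit 2998, nat_lit 2350, nat_lit 2674, nat_lit 2458, nat_lit 2514, nat_lit 9072] (nat_lit 0) [] false,
   Spec.mk (nat_lit 2514) (nat_lit 2) [nat_lit 6888, nat_lit 1056, nat_lit 3000, nat_lit 2352, nat_lit 2676, nat_lit 2460, nat_lit 2520, nat_lit 2512] (nat_lit 0) [] false,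
   Spec.mk (nat_lit 2520) (nat_lit 2) [nat_lit 6894, nat_lit 1062, nat_lit 3006, nat_lit 2358, nat_lit 2682, nat_lit 2466, nat_lit 2538, nat_lit 2514] (nat_lit 0) [] false,
   Spec.mk (nat_lit 2538) (nat_lit 3) [nat_lit 6912, nat_lit 1080, nat_lit 3024, nat_lit 2376, nat_lit 2700, nat_lit 2484, nat_lit 2592, nat_lit 2520] (nat_lit 0) [] false,
   Spec.mk (nat_lit 2592) (nat_lit 3) [nat_lit 6966, nat_lit 1134, nat_lit 3078, nat_lit 2754, nat_lit 2538] (nat_lit 0) [] false,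
   Spec.mk (nat_lit 2674) (nat_lit 1) [nat_lit 7048, nat_lit 1216, nat_lit 3160, nat_lit 2512, nat_lit 2676, nat_lit 9234] (nat_lit 0) [] false,
   Spec.mk (nat_lit 2676) (nat_lit 1) [nat_lit 7050, nat_lit 1218, nat_lit 3162, nat_lit 2514, nat_lit 2682, nat_lit 2674] (nat_lit 0) [] false,
   Spec.mk (nat_lit 2682) (nat_lit 1) [nat_lit 7056, nat_lit 1224, nat_lit 3168, nat_lit 2520, nat_lit 2700, nat_lit 2676] (nat_lit 0) [] false,
   Spec.mk (nat_lit 2700) (nat_lit 1) [nat_lit 7074, nat_lit 1242, nat_lit 3186, nat_lit 2538, nat_lit 2754, nat_lit 2682] (nat_lit 0) [] false,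
   Spec.mk (nat_lit 2754) (nat_lit 3) [nat_lit 7128, nat_lit 1296, nat_lit 3240, nat_lit 2592, nat_lit 2700] (nat_lit 0) [] false,
   Spec.mk (nat_lit 2918) (nat_lit 2) [nat_lit 7292, nat_lit 1460, nat_lit 4376, nat_lit 2432, nat_lit 2920, nat_lit 9478] (nat_lit 0) [] false,
   Spec.mk (nat_lit 2920) (nat_lit 3) [nat_lit 7294, nat_lit 1462, nat_lit 4378, nat_lit 2434, nat_lit 2926, nat_lit 2918, nat_lit 2922, nat_lit 9480] (nat_lit 0) [] false,
   Spec.mk (nat_lit 2922) (nat_lit 2) [nat_lit 7296, nat_lit 1464, nat_lit 4380, nat_lit 2436, nat_lit 2928, nat_lit 2920] (nat_lit 0) [] false,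
   Spec.mk (nat_lit 2926) (nat_lit 2) [nat_lit 7300, nat_lit 1468, nat_lit 4384, nat_lit 2440, nat_lit 2944, nat_lit 2920, nat_lit 2928, nat_lit 9486] (nat_lit 0) [] false,
   Spec.mk (nat_lit 2928) (nat_lit 3) [nat_lit 7302, nat_lit 1470, nat_lit 4386, nat_lit 2442, nat_lit 2946, nat_lit 2922, nat_lit 2934, nat_lit 2926] (nat_lit 0) [] false,
   Spec.mk (nat_lit 2934) (nat_lit 2) [nat_lit 7308, nat_lit 1476, nat_lit 4392, nat_lit 2448, nat_lit 2952, nat_lit 2928] (nat_lit 0) [] false,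
   Spec.mk (nat_lit 2944) (nat_lit 2) [nat_lit 7318, nat_lit 1486, nat_lit 4402, nat_lit 2458, nat_lit 2998, nat_lit 2926, nat_lit 2946, nat_lit 9504] (nat_lit 0) [] false,
   Spec.mk (nat_lit 2946) (nat_lit 2) [nat_lit 7320, nat_lit 1488, nat_lit 4404, nat_lit 2460, nat_lit 3000, nat_lit 2928, nat_lit 2952, nat_lit 2944] (nat_lit 0) [] false,
   Spec.mk (nat_lit 2952) (nat_lit 3) [nat_lit 7326, nat_lit 1494, nat_lit 4410, nat_lit 2466, nat_lit 3006, nat_lit 2934, nat_lit 2970, nat_lit 2946] (nat_lit 0) [] false,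
   Spec.mk (nat_lit 2970) (nat_lit 2) [nat_lit 7344, nat_lit 1512, nat_lit 4428, nat_lit 2484, nat_lit 3024, nat_lit 2952] (nat_lit 0) [] false,
   Spec.mk (nat_lit 2998) (nat_lit 2) [nat_lit 7372, nat_lit 1540, nat_lit 4456, nat_lit 2512, nat_lit 3160, nat_lit 2944, nat_lit 3000, nat_lit 9558] (nat_lit 0) [] false,
   Spec.mk (nat_lit 3000) (nat_lit 2) [nat_lit 7374, nat_lit 1542, nat_lit 4458, nat_lit 2514, nat_lit 3162, nat_lit 2946, nat_lit 3006, nat_lit 2998] (nat_lit 0) [] false,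
   Spec.mk (nat_lit 3006) (nat_lit 2) [nat_lit 7380, nat_lit 1548, nat_lit 4464, nat_lit 2520, nat_lit 3168, nat_lit 2952, nat_lit 3024, nat_lit 3000] (nat_lit 0) [] false,
   Spec.mk (nat_lit 3024) (nat_lit 3) [nat_lit 7398, nat_lit 1566, nat_lit 4482, nat_lit 2538, nat_lit 3186, nat_lit 2970, nat_lit 3078, nat_lit 3006] (nat_lit 0) [] false,
   Spec.mk (nat_lit 3078) (nat_lit 2) [nat_lit 7452, nat_lit 1620, nat_lit 4536, nat_lit 2592, nat_lit 3240, nat_lit 3024] (nat_lit 0) [] false,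
   Spec.mk (nat_lit 3160) (nat_lit 3) [nat_lit 7534, nat_lit 1702, nat_lit 4618, nat_lit 2674, nat_lit 3646, nat_lit 2998, nat_lit 3162, nat_lit 9720] (nat_lit 0) [] false,
   Spec.mk (nat_lit 3162) (nat_lit 3) [nat_lit 7536, nat_lit 1704, nat_lit 4620, nat_lit 2676, nat_lit 3648, nat_lit 3000, nat_lit 3168, nat_lit 3160] (nat_lit 0) [] false,
   Spec.mk (nat_lit 3168) (nat_lit 3) [nat_lit 7542, nat_lit 1710, nat_lit 4626, nat_lit 2682, nat_lit 3654, nat_lit 3006, nat_lit 3186, nat_lit 3162] (nat_lit 0) [] false,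
   Spec.mk (nat_lit 3186) (nat_lit 3) [nat_lit 7560, nat_lit 1728, nat_lit 4644, nat_lit 2700, nat_lit 3672, nat_lit 3024, nat_lit 3240, nat_lit 3168] (nat_lit 0) [] false,
   Spec.mk (nat_lit 3240) (nat_lit 4) [nat_lit 7614, nat_lit 1782, nat_lit 4698, nat_lit 2754, nat_lit 3726, nat_lit 3078, nat_lit 3402, nat_lit 3186] (nat_lit 0) [] false,
   Spec.mk (nat_lit 3402) (nat_lit 4) [nat_lit 7776, nat_lit 1944, nat_lit 4860, nat_lit 3888, nat_lit 3240] (nat_lit 0) [] false,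
   Spec.mk (nat_lit 3646) (nat_lit 3) [nat_lit 8020, nat_lit 5104, nat_lit 3160, nat_lit 3648, nat_lit 10206] (nat_lit 0) [] false,
   Spec.mk (nat_lit 3648) (nat_lit 3) [nat_lit 8022, nat_lit 5106, nat_lit 3162, nat_lit 3654, nat_lit 3646] (nat_lit 0) [] false,
   Spec.mk (nat_lit 3654) (nat_lit 3) [nat_lit 8028, nat_lit 5112, nat_lit 3168, nat_lit 3672, nat_lit 3648] (nat_lit 0) [] false,
   Spec.mk (nat_lit 3672) (nat_lit 3) [nat_lit 8046, nat_lit 5130, nat_lit 3186, nat_lit 3726, nat_lit 3654] (nat_lit 0) [] false,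
   Spec.mk (nat_lit 3726) (nat_lit 3) [nat_lit 8100, nat_lit 5184, nat_lit 3240, nat_lit 3888, nat_lit 3672] (nat_lit 0) [] false,
   Spec.mk (nat_lit 3888) (nat_lit 5) [nat_lit 8262, nat_lit 5346, nat_lit 3402, nat_lit 3726] (nat_lit 0) [] false,
   Spec.mk (nat_lit 4376) (nat_lit 1) [nat_lit 8750, nat_lit 2918, nat_lit 4378, nat_lit 10936] (nat_lit 0) [] false,
   Spec.mk (nat_lit 4378) (nat_lit 2) [nat_lit 8752, nat_lit 2920, nat_lit 4384, nat_lit 4376, nat_lit 4380, nat_lit 10938] (nat_lit 0) [] false]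

noncomputable def sp4 : List Spec :=
  [Spec.mk (nat_lit 4380) (nat_lit 1) [nat_lit 8754, nat_lit 2922, nat_lit 4386, nat_lit 4378] (nat_lit 0) [] false,
   Spec.mk (nat_lit 4384) (nat_lit 1) [nat_lit 8758, nat_lit 2926, nat_lit 4402, nat_lit 4378, nat_lit 4386, nat_lit 10944] (nat_lit 0) [] false,
   Spec.mk (nat_lit 4386) (nat_lit 2) [nat_lit 8760, nat_lit 2928, nat_lit 4404, nat_lit 4380, nat_lit 4392, nat_lit 4384] (nat_lit 0) [] false,
   Spec.mk (nat_lit 4392) (nat_lit 1) [nat_lit 8766, nat_lit 2934, nat_lit 4410, nat_lit 4386] (nat_lit 0) [] false,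
   Spec.mk (nat_lit 4402) (nat_lit 1) [nat_lit 8776, nat_lit 2944, nat_lit 4456, nat_lit 4384, nat_lit 4404, nat_lit 10962] (nat_lit 0) [] false,
   Spec.mk (nat_lit 4404) (nat_lit 1) [nat_lit 8778, nat_lit 2946, nat_lit 4458, nat_lit 4386, nat_lit 4410, nat_lit 4402] (nat_lit 0) [] false,
   Spec.mk (nat_lit 4410) (nat_lit 2) [nat_lit 8784, nat_lit 2952, nat_lit 4464, nat_lit 4392, nat_lit 4428, nat_lit 4404] (nat_lit 0) [] false,
   Spec.mk (nat_lit 4428) (nat_lit 1) [nat_lit 8802, nat_lit 2970, nat_lit 4482, nat_lit 4410] (nat_lit 0) [] false,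
   Spec.mk (nat_lit 4456) (nat_lit 1) [nat_lit 8830, nat_lit 2998, nat_lit 4618, nat_lit 4402, nat_lit 4458, nat_lit 11016] (nat_lit 0) [] false,
   Spec.mk (nat_lit 4458) (nat_lit 1) [nat_lit 8832, nat_lit 3000, nat_lit 4620, nat_lit 4404, nat_lit 4464, nat_lit 4456] (nat_lit 0) [] false,
   Spec.mk (nat_lit 4464) (nat_lit 1) [nat_lit 8838, nat_lit 3006, nat_lit 4626, nat_lit 4410, nat_lit 4482, nat_lit 4458] (nat_lit 0) [] false,
   Spec.mk (nat_lit 4482) (nat_lit 2) [nat_lit 8856, nat_lit 3024, nat_lit 4644, nat_lit 4428, nat_lit 4536, nat_lit 4464] (nat_lit 0) [] false,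
   Spec.mk (nat_lit 4536) (nat_lit 1) [nat_lit 8910, nat_lit 3078, nat_lit 4698, nat_lit 4482] (nat_lit 0) [] false,
   Spec.mk (nat_lit 4618) (nat_lit 1) [nat_lit 8992, nat_lit 3160, nat_lit 5104, nat_lit 4456, nat_lit 4620, nat_lit 11178] (nat_lit 0) [] false,
   Spec.mk (nat_lit 4620) (nat_lit 1) [nat_lit 8994, nat_lit 3162, nat_lit 5106, nat_lit 4458, nat_lit 4626, nat_lit 4618] (nat_lit 0) [] false,
   Spec.mk (nat_lit 4626) (nat_lit 1) [nat_lit 9000, nat_lit 3168, nat_lit 5112, nat_lit 4464, nat_lit 4644, nat_lit 4620] (nat_lit 0) [] false,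
   Spec.mk (nat_lit 4644) (nat_lit 1) [nat_lit 9018, nat_lit 3186, nat_lit 5130, nat_lit 4482, nat_lit 4698, nat_lit 4626] (nat_lit 0) [] false,
   Spec.mk (nat_lit 4698) (nat_lit 2) [nat_lit 9072, nat_lit 3240, nat_lit 5184, nat_lit 4536, nat_lit 4860, nat_lit 4644] (nat_lit 0) [] false,
   Spec.mk (nat_lit 4860) (nat_lit 1) [nat_lit 9234, nat_lit 3402, nat_lit 5346, nat_lit 4698] (nat_lit 0) [] false,
   Spec.mk (nat_lit 5104) (nat_lit 3) [nat_lit 9478, nat_lit 3646, nat_lit 4618, nat_lit 5106, nat_lit 11664] (nat_lit 0) [] false,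
   Spec.mk (nat_lit 5106) (nat_lit 3) [nat_lit 9480, nat_lit 3648, nat_lit 4620, nat_lit 5112, nat_lit 5104] (nat_lit 0) [] false,
   Spec.mk (nat_lit 5112) (nat_lit 3) [nat_lit 9486, nat_lit 3654, nat_lit 4626, nat_lit 5130, nat_lit 5106] (nat_lit 0) [] false,
   Spec.mk (nat_lit 5130) (nat_lit 3) [nat_lit 9504, nat_lit 3672, nat_lit 4644, nat_lit 5184, nat_lit 5112] (nat_lit 0) [] false,
   Spec.mk (nat_lit 5184) (nat_lit 3) [nat_lit 9558, nat_lit 3726, nat_lit 4698, nat_lit 5346, nat_lit 5130] (nat_lit 0) [] false,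
   Spec.mk (nat_lit 5346) (nat_lit 4) [nat_lit 9720, nat_lit 3888, nat_lit 4860, nat_lit 5832, nat_lit 5184] (nat_lit 0) [] false,
   Spec.mk (nat_lit 5832) (nat_lit 5) [nat_lit 10206, nat_lit 5346] (nat_lit 0) [] false,
   Spec.mk (nat_lit 6566) (nat_lit 5) [nat_lit 2192, nat_lit 6572, nat_lit 6568, nat_lit 13126] (nat_lit 0) [] false,
   Spec.mk (nat_lit 6568) (nat_lit 4) [nat_lit 2194, nat_lit 6574, nat_lit 6566, nat_lit 13128, nat_lit 8] (nat_lit 0) [] false,
   Spec.mk (nat_lit 6572) (nat_lit 3) [nat_lit 2198, nat_lit 6590, nat_lit 6566, nat_lit 6574, nat_lit 13132] (nat_lit 0) [] false,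
   Spec.mk (nat_lit 6574) (nat_lit 4) [nat_lit 2200, nat_lit 6592, nat_lit 6568, nat_lit 6580, nat_lit 6572, nat_lit 6576, nat_lit 13134, nat_lit 14] (nat_lit 0) [] false,
   Spec.mk (nat_lit 6576) (nat_lit 3) [nat_lit 2202, nat_lit 6594, nat_lit 6582, nat_lit 6574, nat_lit 16] (nat_lit 0) [] false,
   Spec.mk (nat_lit 6580) (nat_lit 2) [nat_lit 2206, nat_lit 6598, nat_lit 6574, nat_lit 6582, nat_lit 13140, nat_lit 20] (nat_lit 0) [] false,
   Spec.mk (nat_lit 6582) (nat_lit 3) [nat_lit 2208, nat_lit 6600, nat_lit 6576, nat_lit 6580, nat_lit 22] (nat_lit 0) [] false,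
   Spec.mk (nat_lit 6590) (nat_lit 3) [nat_lit 2216, nat_lit 6644, nat_lit 6572, nat_lit 6592, nat_lit 13150] (nat_lit 0) [] false,
   Spec.mk (nat_lit 6592) (nat_lit 3) [nat_lit 2218, nat_lit 6646, nat_lit 6574, nat_lit 6598, nat_lit 6590, nat_lit 6594, nat_lit 13152, nat_lit 32] (nat_lit 0) [] false,
   Spec.mk (nat_lit 6594) (nat_lit 1) [nat_lit 2220, nat_lit 6648, nat_lit 6576, nat_lit 6600, nat_lit 6592, nat_lit 34] (nat_lit 0) [] false,
   Spec.mk (nat_lit 6598) (nat_lit 3) [nat_lit 2224, nat_lit 6652, nat_lit 6580, nat_lit 6616, nat_lit 6592, nat_lit 6600, nat_lit 13158, nat_lit 38] (nat_lit 0) [] false,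
   Spec.mk (nat_lit 6600) (nat_lit 3) [nat_lit 2226, nat_lit 6654, nat_lit 6582, nat_lit 6618, nat_lit 6594, nat_lit 6606, nat_lit 6598, nat_lit 40] (nat_lit 0) [] false,
   Spec.mk (nat_lit 6606) (nat_lit 3) [nat_lit 2232, nat_lit 6660, nat_lit 6624, nat_lit 6600, nat_lit 46] (nat_lit 0) [] false,
   Spec.mk (nat_lit 6616) (nat_lit 2) [nat_lit 2242, nat_lit 6670, nat_lit 6598, nat_lit 6618, nat_lit 13176, nat_lit 56] (nat_lit 0) [] false,
   Spec.mk (nat_lit 6618) (nat_lit 1) [nat_lit 2244, nat_lit 6672, nat_lit 6600, nat_lit 6624, nat_lit 6616, nat_lit 58] (nat_lit 0) [] false,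
   Spec.mk (nat_lit 6624) (nat_lit 3) [nat_lit 2250, nat_lit 6678, nat_lit 6606, nat_lit 6618, nat_lit 64] (nat_lit 0) [] false,
   Spec.mk (nat_lit 6644) (nat_lit 3) [nat_lit 2270, nat_lit 6806, nat_lit 6590, nat_lit 6646, nat_lit 13204] (nat_lit 0) [] false,
   Spec.mk (nat_lit 6646) (nat_lit 3) [nat_lit 2272, nat_lit 6808, nat_lit 6592, nat_lit 6652, nat_lit 6644, nat_lit 6648, nat_lit 13206, nat_lit 86] (nat_lit 0) [] false,
   Spec.mk (nat_lit 6648) (nat_lit 1) [nat_lit 2274, nat_lit 6810, nat_lit 6594, nat_lit 6654, nat_lit 6646, nat_lit 88] (nat_lit 0) [] false,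
   Spec.mk (nat_lit 6652) (nat_lit 2) [nat_lit 2278, nat_lit 6814, nat_lit 6598, nat_lit 6670, nat_lit 6646, nat_lit 6654, nat_lit 13212, nat_lit 92] (nat_lit 0) [] false,
   Spec.mk (nat_lit 6654) (nat_lit 2) [nat_lit 2280, nat_lit 6816, nat_lit 6600, nat_lit 6672, nat_lit 6648, nat_lit 6660, nat_lit 6652, nat_lit 94] (nat_lit 0) [] false,
   Spec.mk (nat_lit 6660) (nat_lit 1) [nat_lit 2286, nat_lit 6822, nat_lit 6606, nat_lit 6678, nat_lit 6654, nat_lit 100] (nat_lit 0) [] false,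
   Spec.mk (nat_lit 6670) (nat_lit 3) [nat_lit 2296, nat_lit 6832, nat_lit 6616, nat_lit 6724, nat_lit 6652, nat_lit 6672, nat_lit 13230, nat_lit 110] (nat_lit 0) [] false,
   Spec.mk (nat_lit 6672) (nat_lit 2) [nat_lit 2298, nat_lit 6834, nat_lit 6618, nat_lit 6726, nat_lit 6654, nat_lit 6678, nat_lit 6670, nat_lit 112] (nat_lit 0) [] false,
   Spec.mk (nat_lit 6678) (nat_lit 3) [nat_lit 2304, nat_lit 6840, nat_lit 6624, nat_lit 6732, nat_lit 6660, nat_lit 6696, nat_lit 6672, nat_lit 118] (nat_lit 0) [] false,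
   Spec.mk (nat_lit 6696) (nat_lit 3) [nat_lit 2322, nat_lit 6858, nat_lit 6750, nat_lit 6678, nat_lit 136] (nat_lit 0) [] false,
   Spec.mk (nat_lit 6724) (nat_lit 2) [nat_lit 2350, nat_lit 6886, nat_lit 6670, nat_lit 6726, nat_lit 13284, nat_lit 164] (nat_lit 0) [] false,
   Spec.mk (nat_lit 6726) (nat_lit 1) [nat_lit 2352, nat_lit 6888, nat_lit 6672, nat_lit 6732, nat_lit 6724, nat_lit 166] (nat_lit 0) [] false,
   Spec.mk (nat_lit 6732) (nat_lit 1) [nat_lit 2358, nat_lit 6894, nat_lit 6678, nat_lit 6750, nat_lit 6726, nat_lit 172] (nat_lit 0) [] false,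
   Spec.mk (nat_lit 6750) (nat_lit 3) [nat_lit 2376, nat_lit 6912, nat_lit 6696, nat_lit 6732, nat_lit 190] (nat_lit 0) [] false,
   Spec.mk (nat_lit 6806) (nat_lit 3) [nat_lit 2432, nat_lit 7292, nat_lit 6644, nat_lit 6808, nat_lit 13366] (nat_lit 0) [] false,
   Spec.mk (nat_lit 6808) (nat_lit 3) [nat_lit 2434, nat_lit 7294, nat_lit 6646, nat_lit 6814, nat_lit 6806, nat_lit 6810, nat_lit 13368, nat_lit 248] (nat_lit 0) [] false,
   Spec.mk (nat_lit 6810) (nat_lit 1) [nat_lit 2436, nat_lit 7296, nat_lit 6648, nat_lit 6816, nat_lit 6808, nat_lit 250] (nat_lit 0) [] false,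
   Spec.mk (nat_lit 6814) (nat_lit 2) [nat_lit 2440, nat_lit 7300, nat_lit 6652, nat_lit 6832, nat_lit 6808, nat_lit 6816, nat_lit 13374, nat_lit 254] (nat_lit 0) [] false]

noncomputable def sp5 : List Spec :=
  [Spec.mk (nat_lit 6816) (nat_lit 2) [nat_lit 2442, nat_lit 7302, nat_lit 6654, nat_lit 6834, nat_lit 6810, nat_lit 6822, nat_lit 6814, nat_lit 256] (nat_lit 0) [] false,
   Spec.mk (nat_lit 6822) (nat_lit 1) [nat_lit 2448, nat_lit 7308, nat_lit 6660, nat_lit 6840, nat_lit 6816, nat_lit 262] (nat_lit 0) [] false,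
   Spec.mk (nat_lit 6832) (nat_lit 2) [nat_lit 2458, nat_lit 7318, nat_lit 6670, nat_lit 6886, nat_lit 6814, nat_lit 6834, nat_lit 13392, nat_lit 272] (nat_lit 0) [] false,
   Spec.mk (nat_lit 6834) (nat_lit 1) [nat_lit 2460, nat_lit 7320, nat_lit 6672, nat_lit 6888, nat_lit 6816, nat_lit 6840, nat_lit 6832, nat_lit 274] (nat_lit 0) [] false,
   Spec.mk (nat_lit 6840) (nat_lit 2) [nat_lit 2466, nat_lit 7326, nat_lit 6678, nat_lit 6894, nat_lit 6822, nat_lit 6858, nat_lit 6834, nat_lit 280] (nat_lit 0) [] false,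
   Spec.mk (nat_lit 6858) (nat_lit 1) [nat_lit 2484, nat_lit 7344, nat_lit 6696, nat_lit 6912, nat_lit 6840, nat_lit 298] (nat_lit 0) [] false,
   Spec.mk (nat_lit 6886) (nat_lit 3) [nat_lit 2512, nat_lit 7372, nat_lit 6724, nat_lit 7048, nat_lit 6832, nat_lit 6888, nat_lit 13446, nat_lit 326] (nat_lit 0) [] false,
   Spec.mk (nat_lit 6888) (nat_lit 2) [nat_lit 2514, nat_lit 7374, nat_lit 6726, nat_lit 7050, nat_lit 6834, nat_lit 6894, nat_lit 6886, nat_lit 328] (nat_lit 0) [] false,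
   Spec.mk (nat_lit 6894) (nat_lit 2) [nat_lit 2520, nat_lit 7380, nat_lit 6732, nat_lit 7056, nat_lit 6840, nat_lit 6912, nat_lit 6888, nat_lit 334] (nat_lit 0) [] false,
   Spec.mk (nat_lit 6912) (nat_lit 3) [nat_lit 2538, nat_lit 7398, nat_lit 6750, nat_lit 7074, nat_lit 6858, nat_lit 6966, nat_lit 6894, nat_lit 352] (nat_lit 0) [] false,
   Spec.mk (nat_lit 6966) (nat_lit 3) [nat_lit 2592, nat_lit 7452, nat_lit 7128, nat_lit 6912, nat_lit 406] (nat_lit 0) [] false,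
   Spec.mk (nat_lit 7048) (nat_lit 2) [nat_lit 2674, nat_lit 7534, nat_lit 6886, nat_lit 7050, nat_lit 13608, nat_lit 488] (nat_lit 0) [] false,
   Spec.mk (nat_lit 7050) (nat_lit 1) [nat_lit 2676, nat_lit 7536, nat_lit 6888, nat_lit 7056, nat_lit 7048, nat_lit 490] (nat_lit 0) [] false,
   Spec.mk (nat_lit 7056) (nat_lit 1) [nat_lit 2682, nat_lit 7542, nat_lit 6894, nat_lit 7074, nat_lit 7050, nat_lit 496] (nat_lit 0) [] false,
   Spec.mk (nat_lit 7074) (nat_lit 1) [nat_lit 2700, nat_lit 7560, nat_lit 6912, nat_lit 7128, nat_lit 7056, nat_lit 514] (nat_lit 0) [] false,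
   Spec.mk (nat_lit 7128) (nat_lit 3) [nat_lit 2754, nat_lit 7614, nat_lit 6966, nat_lit 7074, nat_lit 568] (nat_lit 0) [] false,
   Spec.mk (nat_lit 7292) (nat_lit 3) [nat_lit 2918, nat_lit 8750, nat_lit 6806, nat_lit 7294, nat_lit 13852] (nat_lit 0) [] false,
   Spec.mk (nat_lit 7294) (nat_lit 3) [nat_lit 2920, nat_lit 8752, nat_lit 6808, nat_lit 7300, nat_lit 7292, nat_lit 7296, nat_lit 13854, nat_lit 734] (nat_lit 0) [] false,
   Spec.mk (nat_lit 7296) (nat_lit 1) [nat_lit 2922, nat_lit 8754, nat_lit 6810, nat_lit 7302, nat_lit 7294, nat_lit 736] (nat_lit 0) [] false,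
   Spec.mk (nat_lit 7300) (nat_lit 2) [nat_lit 2926, nat_lit 8758, nat_lit 6814, nat_lit 7318, nat_lit 7294, nat_lit 7302, nat_lit 13860, nat_lit 740] (nat_lit 0) [] false,
   Spec.mk (nat_lit 7302) (nat_lit 2) [nat_lit 2928, nat_lit 8760, nat_lit 6816, nat_lit 7320, nat_lit 7296, nat_lit 7308, nat_lit 7300, nat_lit 742] (nat_lit 0) [] false,
   Spec.mk (nat_lit 7308) (nat_lit 1) [nat_lit 2934, nat_lit 8766, nat_lit 6822, nat_lit 7326, nat_lit 7302, nat_lit 748] (nat_lit 0) [] false,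
   Spec.mk (nat_lit 7318) (nat_lit 2) [nat_lit 2944, nat_lit 8776, nat_lit 6832, nat_lit 7372, nat_lit 7300, nat_lit 7320, nat_lit 13878, nat_lit 758] (nat_lit 0) [] false,
   Spec.mk (nat_lit 7320) (nat_lit 1) [nat_lit 2946, nat_lit 8778, nat_lit 6834, nat_lit 7374, nat_lit 7302, nat_lit 7326, nat_lit 7318, nat_lit 760] (nat_lit 0) [] false,
   Spec.mk (nat_lit 7326) (nat_lit 2) [nat_lit 2952, nat_lit 8784, nat_lit 6840, nat_lit 7380, nat_lit 7308, nat_lit 7344, nat_lit 7320, nat_lit 766] (nat_lit 0) [] false,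
   Spec.mk (nat_lit 7344) (nat_lit 1) [nat_lit 2970, nat_lit 8802, nat_lit 6858, nat_lit 7398, nat_lit 7326, nat_lit 784] (nat_lit 0) [] false,
   Spec.mk (nat_lit 7372) (nat_lit 2) [nat_lit 2998, nat_lit 8830, nat_lit 6886, nat_lit 7534, nat_lit 7318, nat_lit 7374, nat_lit 13932, nat_lit 812] (nat_lit 0) [] false,
   Spec.mk (nat_lit 7374) (nat_lit 1) [nat_lit 3000, nat_lit 8832, nat_lit 6888, nat_lit 7536, nat_lit 7320, nat_lit 7380, nat_lit 7372, nat_lit 814] (nat_lit 0) [] false,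
   Spec.mk (nat_lit 7380) (nat_lit 1) [nat_lit 3006, nat_lit 8838, nat_lit 6894, nat_lit 7542, nat_lit 7326, nat_lit 7398, nat_lit 7374, nat_lit 820] (nat_lit 0) [] false,
   Spec.mk (nat_lit 7398) (nat_lit 2) [nat_lit 3024, nat_lit 8856, nat_lit 6912, nat_lit 7560, nat_lit 7344, nat_lit 7452, nat_lit 7380, nat_lit 838] (nat_lit 0) [] false,
   Spec.mk (nat_lit 7452) (nat_lit 1) [nat_lit 3078, nat_lit 8910, nat_lit 6966, nat_lit 7614, nat_lit 7398, nat_lit 892] (nat_lit 0) [] false,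
   Spec.mk (nat_lit 7534) (nat_lit 3) [nat_lit 3160, nat_lit 8992, nat_lit 7048, nat_lit 8020, nat_lit 7372, nat_lit 7536, nat_lit 14094, nat_lit 974] (nat_lit 0) [] false,
   Spec.mk (nat_lit 7536) (nat_lit 2) [nat_lit 3162, nat_lit 8994, nat_lit 7050, nat_lit 8022, nat_lit 7374, nat_lit 7542, nat_lit 7534, nat_lit 976] (nat_lit 0) [] false,
   Spec.mk (nat_lit 7542) (nat_lit 2) [nat_lit 3168, nat_lit 9000, nat_lit 7056, nat_lit 8028, nat_lit 7380, nat_lit 7560, nat_lit 7536, nat_lit 982] (nat_lit 0) [] false,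
   Spec.mk (nat_lit 7560) (nat_lit 2) [nat_lit 3186, nat_lit 9018, nat_lit 7074, nat_lit 8046, nat_lit 7398, nat_lit 7614, nat_lit 7542, nat_lit 1000] (nat_lit 0) [] false,
   Spec.mk (nat_lit 7614) (nat_lit 3) [nat_lit 3240, nat_lit 9072, nat_lit 7128, nat_lit 8100, nat_lit 7452, nat_lit 7776, nat_lit 7560, nat_lit 1054] (nat_lit 0) [] false,
   Spec.mk (nat_lit 7776) (nat_lit 3) [nat_lit 3402, nat_lit 9234, nat_lit 8262, nat_lit 7614, nat_lit 1216] (nat_lit 0) [] false,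
   Spec.mk (nat_lit 8020) (nat_lit 2) [nat_lit 3646, nat_lit 9478, nat_lit 7534, nat_lit 8022, nat_lit 14580, nat_lit 1460] (nat_lit 0) [] false,
   Spec.mk (nat_lit 8022) (nat_lit 1) [nat_lit 3648, nat_lit 9480, nat_lit 7536, nat_lit 8028, nat_lit 8020, nat_lit 1462] (nat_lit 0) [] false,
   Spec.mk (nat_lit 8028) (nat_lit 1) [nat_lit 3654, nat_lit 9486, nat_lit 7542, nat_lit 8046, nat_lit 8022, nat_lit 1468] (nat_lit 0) [] false,
   Spec.mk (nat_lit 8046) (nat_lit 1) [nat_lit 3672, nat_lit 9504, nat_lit 7560, nat_lit 8100, nat_lit 8028, nat_lit 1486] (nat_lit 0) [] false,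
   Spec.mk (nat_lit 8100) (nat_lit 1) [nat_lit 3726, nat_lit 9558, nat_lit 7614, nat_lit 8262, nat_lit 8046, nat_lit 1540] (nat_lit 0) [] false,
   Spec.mk (nat_lit 8262) (nat_lit 3) [nat_lit 3888, nat_lit 9720, nat_lit 7776, nat_lit 8100, nat_lit 1702] (nat_lit 0) [] false,
   Spec.mk (nat_lit 8750) (nat_lit 4) [nat_lit 4376, nat_lit 13124, nat_lit 7292, nat_lit 8752, nat_lit 15310] (nat_lit 0) [] false,
   Spec.mk (nat_lit 8752) (nat_lit 4) [nat_lit 4378, nat_lit 13126, nat_lit 7294, nat_lit 8758, nat_lit 8750, nat_lit 8754, nat_lit 15312, nat_lit 2192] (nat_lit 0) [] false,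
   Spec.mk (nat_lit 8754) (nat_lit 2) [nat_lit 4380, nat_lit 13128, nat_lit 7296, nat_lit 8760, nat_lit 8752, nat_lit 2194] (nat_lit 0) [] false,
   Spec.mk (nat_lit 8758) (nat_lit 3) [nat_lit 4384, nat_lit 13132, nat_lit 7300, nat_lit 8776, nat_lit 8752, nat_lit 8760, nat_lit 15318, nat_lit 2198] (nat_lit 0) [] false,
   Spec.mk (nat_lit 8760) (nat_lit 3) [nat_lit 4386, nat_lit 13134, nat_lit 7302, nat_lit 8778, nat_lit 8754, nat_lit 8766, nat_lit 8758, nat_lit 2200] (nat_lit 0) [] false,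
   Spec.mk (nat_lit 8766) (nat_lit 2) [nat_lit 4392, nat_lit 13140, nat_lit 7308, nat_lit 8784, nat_lit 8760, nat_lit 2206] (nat_lit 0) [] false,
   Spec.mk (nat_lit 8776) (nat_lit 3) [nat_lit 4402, nat_lit 13150, nat_lit 7318, nat_lit 8830, nat_lit 8758, nat_lit 8778, nat_lit 15336, nat_lit 2216] (nat_lit 0) [] false,
   Spec.mk (nat_lit 8778) (nat_lit 2) [nat_lit 4404, nat_lit 13152, nat_lit 7320, nat_lit 8832, nat_lit 8760, nat_lit 8784, nat_lit 8776, nat_lit 2218] (nat_lit 0) [] false,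
   Spec.mk (nat_lit 8784) (nat_lit 3) [nat_lit 4410, nat_lit 13158, nat_lit 7326, nat_lit 8838, nat_lit 8766, nat_lit 8802, nat_lit 8778, nat_lit 2224] (nat_lit 0) [] false,
   Spec.mk (nat_lit 8802) (nat_lit 2) [nat_lit 4428, nat_lit 13176, nat_lit 7344, nat_lit 8856, nat_lit 8784, nat_lit 2242] (nat_lit 0) [] false,
   Spec.mk (nat_lit 8830) (nat_lit 3) [nat_lit 4456, nat_lit 13204, nat_lit 7372, nat_lit 8992, nat_lit 8776, nat_lit 8832, nat_lit 15390, nat_lit 2270] (nat_lit 0) [] false,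
   Spec.mk (nat_lit 8832) (nat_lit 2) [nat_lit 4458, nat_lit 13206, nat_lit 7374, nat_lit 8994, nat_lit 8778, nat_lit 8838, nat_lit 8830, nat_lit 2272] (nat_lit 0) [] false,
   Spec.mk (nat_lit 8838) (nat_lit 2) [nat_lit 4464, nat_lit 13212, nat_lit 7380, nat_lit 9000, nat_lit 8784, nat_lit 8856, nat_lit 8832, nat_lit 2278] (nat_lit 0) [] false,
   Spec.mk (nat_lit 8856) (nat_lit 3) [nat_lit 4482, nat_lit 13230, nat_lit 7398, nat_lit 9018, nat_lit 8802, nat_lit 8910, nat_lit 8838, nat_lit 2296] (nat_lit 0) [] false,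
   Spec.mk (nat_lit 8910) (nat_lit 2) [nat_lit 4536, nat_lit 13284, nat_lit 7452, nat_lit 9072, nat_lit 8856, nat_lit 2350] (nat_lit 0) [] false,
   Spec.mk (nat_lit 8992) (nat_lit 3) [nat_lit 4618, nat_lit 13366, nat_lit 7534, nat_lit 9478, nat_lit 8830, nat_lit 8994, nat_lit 15552, nat_lit 2432] (nat_lit 0) [] false,
   Spec.mk (nat_lit 8994) (nat_lit 2) [nat_lit 4620, nat_lit 13368, nat_lit 7536, nat_lit 9480, nat_lit 8832, nat_lit 9000, nat_lit 8992, nat_lit 2434] (nat_lit 0) [] false]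

noncomputable def sp6 : List Spec :=
  [Spec.mk (nat_lit 9000) (nat_lit 2) [nat_lit 4626, nat_lit 13374, nat_lit 7542, nat_lit 9486, nat_lit 8838, nat_lit 9018, nat_lit 8994, nat_lit 2440] (nat_lit 0) [] false,
   Spec.mk (nat_lit 9018) (nat_lit 2) [nat_lit 4644, nat_lit 13392, nat_lit 7560, nat_lit 9504, nat_lit 8856, nat_lit 9072, nat_lit 9000, nat_lit 2458] (nat_lit 0) [] false,
   Spec.mk (nat_lit 9072) (nat_lit 3) [nat_lit 4698, nat_lit 13446, nat_lit 7614, nat_lit 9558, nat_lit 8910, nat_lit 9234, nat_lit 9018, nat_lit 2512] (nat_lit 0) [] false,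
   Spec.mk (nat_lit 9234) (nat_lit 2) [nat_lit 4860, nat_lit 13608, nat_lit 7776, nat_lit 9720, nat_lit 9072, nat_lit 2674] (nat_lit 0) [] false,
   Spec.mk (nat_lit 9478) (nat_lit 4) [nat_lit 5104, nat_lit 13852, nat_lit 8020, nat_lit 10936, nat_lit 8992, nat_lit 9480, nat_lit 16038, nat_lit 2918] (nat_lit 0) [] false,
   Spec.mk (nat_lit 9480) (nat_lit 3) [nat_lit 5106, nat_lit 13854, nat_lit 8022, nat_lit 10938, nat_lit 8994, nat_lit 9486, nat_lit 9478, nat_lit 2920] (nat_lit 0) [] false,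
   Spec.mk (nat_lit 9486) (nat_lit 3) [nat_lit 5112, nat_lit 13860, nat_lit 8028, nat_lit 10944, nat_lit 9000, nat_lit 9504, nat_lit 9480, nat_lit 2926] (nat_lit 0) [] false,
   Spec.mk (nat_lit 9504) (nat_lit 3) [nat_lit 5130, nat_lit 13878, nat_lit 8046, nat_lit 10962, nat_lit 9018, nat_lit 9558, nat_lit 9486, nat_lit 2944] (nat_lit 0) [] false,
   Spec.mk (nat_lit 9558) (nat_lit 3) [nat_lit 5184, nat_lit 13932, nat_lit 8100, nat_lit 11016, nat_lit 9072, nat_lit 9720, nat_lit 9504, nat_lit 2998] (nat_lit 0) [] false,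
   Spec.mk (nat_lit 9720) (nat_lit 4) [nat_lit 5346, nat_lit 14094, nat_lit 8262, nat_lit 11178, nat_lit 9234, nat_lit 10206, nat_lit 9558, nat_lit 3160] (nat_lit 0) [] false,
   Spec.mk (nat_lit 10206) (nat_lit 4) [nat_lit 5832, nat_lit 14580, nat_lit 11664, nat_lit 9720, nat_lit 3646] (nat_lit 0) [] false,
   Spec.mk (nat_lit 10936) (nat_lit 4) [nat_lit 15310, nat_lit 9478, nat_lit 10938, nat_lit 17496, nat_lit 4376] (nat_lit 0) [] false,
   Spec.mk (nat_lit 10938) (nat_lit 3) [nat_lit 15312, nat_lit 9480, nat_lit 10944, nat_lit 10936, nat_lit 4378] (nat_lit 0) [] false,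
   Spec.mk (nat_lit 10944) (nat_lit 3) [nat_lit 15318, nat_lit 9486, nat_lit 10962, nat_lit 10938, nat_lit 4384] (nat_lit 0) [] false,
   Spec.mk (nat_lit 10962) (nat_lit 3) [nat_lit 15336, nat_lit 9504, nat_lit 11016, nat_lit 10944, nat_lit 4402] (nat_lit 0) [] false,
   Spec.mk (nat_lit 11016) (nat_lit 3) [nat_lit 15390, nat_lit 9558, nat_lit 11178, nat_lit 10962, nat_lit 4456] (nat_lit 0) [] false,
   Spec.mk (nat_lit 11178) (nat_lit 3) [nat_lit 15552, nat_lit 9720, nat_lit 11664, nat_lit 11016, nat_lit 4618] (nat_lit 0) [] false,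
   Spec.mk (nat_lit 11664) (nat_lit 5) [nat_lit 16038, nat_lit 10206, nat_lit 11178, nat_lit 5104] (nat_lit 0) [] false,
   Spec.mk (nat_lit 13124) (nat_lit 5) [nat_lit 8750, nat_lit 13126] (nat_lit 0) [] false,
   Spec.mk (nat_lit 13126) (nat_lit 4) [nat_lit 8752, nat_lit 13132, nat_lit 13124, nat_lit 13128, nat_lit 6566] (nat_lit 0) [] false,
   Spec.mk (nat_lit 13128) (nat_lit 1) [nat_lit 8754, nat_lit 13134, nat_lit 13126, nat_lit 6568] (nat_lit 0) [] false,
   Spec.mk (nat_lit 13132) (nat_lit 3) [nat_lit 8758, nat_lit 13150, nat_lit 13126, nat_lit 13134, nat_lit 6572] (nat_lit 0) [] false,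
   Spec.mk (nat_lit 13134) (nat_lit 2) [nat_lit 8760, nat_lit 13152, nat_lit 13128, nat_lit 13140, nat_lit 13132, nat_lit 6574] (nat_lit 0) [] false,
   Spec.mk (nat_lit 13140) (nat_lit 1) [nat_lit 8766, nat_lit 13158, nat_lit 13134, nat_lit 6580] (nat_lit 0) [] false,
   Spec.mk (nat_lit 13150) (nat_lit 3) [nat_lit 8776, nat_lit 13204, nat_lit 13132, nat_lit 13152, nat_lit 6590] (nat_lit 0) [] false,
   Spec.mk (nat_lit 13152) (nat_lit 1) [nat_lit 8778, nat_lit 13206, nat_lit 13134, nat_lit 13158, nat_lit 13150, nat_lit 6592] (nat_lit 0) [] false,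
   Spec.mk (nat_lit 13158) (nat_lit 2) [nat_lit 8784, nat_lit 13212, nat_lit 13140, nat_lit 13176, nat_lit 13152, nat_lit 6598] (nat_lit 0) [] false,
   Spec.mk (nat_lit 13176) (nat_lit 1) [nat_lit 8802, nat_lit 13230, nat_lit 13158, nat_lit 6616] (nat_lit 0) [] false,
   Spec.mk (nat_lit 13204) (nat_lit 3) [nat_lit 8830, nat_lit 13366, nat_lit 13150, nat_lit 13206, nat_lit 6644] (nat_lit 0) [] false,
   Spec.mk (nat_lit 13206) (nat_lit 1) [nat_lit 8832, nat_lit 13368, nat_lit 13152, nat_lit 13212, nat_lit 13204, nat_lit 6646] (nat_lit 0) [] false,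
   Spec.mk (nat_lit 13212) (nat_lit 1) [nat_lit 8838, nat_lit 13374, nat_lit 13158, nat_lit 13230, nat_lit 13206, nat_lit 6652] (nat_lit 0) [] false,
   Spec.mk (nat_lit 13230) (nat_lit 2) [nat_lit 8856, nat_lit 13392, nat_lit 13176, nat_lit 13284, nat_lit 13212, nat_lit 6670] (nat_lit 0) [] false,
   Spec.mk (nat_lit 13284) (nat_lit 1) [nat_lit 8910, nat_lit 13446, nat_lit 13230, nat_lit 6724] (nat_lit 0) [] false,
   Spec.mk (nat_lit 13366) (nat_lit 3) [nat_lit 8992, nat_lit 13852, nat_lit 13204, nat_lit 13368, nat_lit 6806] (nat_lit 0) [] false,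
   Spec.mk (nat_lit 13368) (nat_lit 1) [nat_lit 8994, nat_lit 13854, nat_lit 13206, nat_lit 13374, nat_lit 13366, nat_lit 6808] (nat_lit 0) [] false,
   Spec.mk (nat_lit 13374) (nat_lit 1) [nat_lit 9000, nat_lit 13860, nat_lit 13212, nat_lit 13392, nat_lit 13368, nat_lit 6814] (nat_lit 0) [] false,
   Spec.mk (nat_lit 13392) (nat_lit 1) [nat_lit 9018, nat_lit 13878, nat_lit 13230, nat_lit 13446, nat_lit 13374, nat_lit 6832] (nat_lit 0) [] false,
   Spec.mk (nat_lit 13446) (nat_lit 2) [nat_lit 9072, nat_lit 13932, nat_lit 13284, nat_lit 13608, nat_lit 13392, nat_lit 6886] (nat_lit 0) [] false,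
   Spec.mk (nat_lit 13608) (nat_lit 1) [nat_lit 9234, nat_lit 14094, nat_lit 13446, nat_lit 7048] (nat_lit 0) [] false,
   Spec.mk (nat_lit 13852) (nat_lit 3) [nat_lit 9478, nat_lit 15310, nat_lit 13366, nat_lit 13854, nat_lit 7292] (nat_lit 0) [] false,
   Spec.mk (nat_lit 13854) (nat_lit 1) [nat_lit 9480, nat_lit 15312, nat_lit 13368, nat_lit 13860, nat_lit 13852, nat_lit 7294] (nat_lit 0) [] false,
   Spec.mk (nat_lit 13860) (nat_lit 1) [nat_lit 9486, nat_lit 15318, nat_lit 13374, nat_lit 13878, nat_lit 13854, nat_lit 7300] (nat_lit 0) [] false,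
   Spec.mk (nat_lit 13878) (nat_lit 1) [nat_lit 9504, nat_lit 15336, nat_lit 13392, nat_lit 13932, nat_lit 13860, nat_lit 7318] (nat_lit 0) [] false,
   Spec.mk (nat_lit 13932) (nat_lit 1) [nat_lit 9558, nat_lit 15390, nat_lit 13446, nat_lit 14094, nat_lit 13878, nat_lit 7372] (nat_lit 0) [] false,
   Spec.mk (nat_lit 14094) (nat_lit 2) [nat_lit 9720, nat_lit 15552, nat_lit 13608, nat_lit 14580, nat_lit 13932, nat_lit 7534] (nat_lit 0) [] false,
   Spec.mk (nat_lit 14580) (nat_lit 1) [nat_lit 10206, nat_lit 16038, nat_lit 14094, nat_lit 8020] (nat_lit 0) [] false,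
   Spec.mk (nat_lit 15310) (nat_lit 5) [nat_lit 10936, nat_lit 13852, nat_lit 15312, nat_lit 8750] (nat_lit 0) [] false,
   Spec.mk (nat_lit 15312) (nat_lit 3) [nat_lit 10938, nat_lit 13854, nat_lit 15318, nat_lit 15310, nat_lit 8752] (nat_lit 0) [] false,
   Spec.mk (nat_lit 15318) (nat_lit 3) [nat_lit 10944, nat_lit 13860, nat_lit 15336, nat_lit 15312, nat_lit 8758] (nat_lit 0) [] false,
   Spec.mk (nat_lit 15336) (nat_lit 3) [nat_lit 10962, nat_lit 13878, nat_lit 15390, nat_lit 15318, nat_lit 8776] (nat_lit 0) [] false,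
   Spec.mk (nat_lit 15390) (nat_lit 3) [nat_lit 11016, nat_lit 13932, nat_lit 15552, nat_lit 15336, nat_lit 8830] (nat_lit 0) [] false,
   Spec.mk (nat_lit 15552) (nat_lit 3) [nat_lit 11178, nat_lit 14094, nat_lit 16038, nat_lit 15390, nat_lit 8992] (nat_lit 0) [] false,
   Spec.mk (nat_lit 16038) (nat_lit 4) [nat_lit 11664, nat_lit 14580, nat_lit 17496, nat_lit 15552, nat_lit 9478] (nat_lit 0) [] false,
   Spec.mk (nat_lit 17496) (nat_lit 5) [nat_lit 16038, nat_lit 10936] (nat_lit 0) [] false]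

noncomputable def specs : List (List Spec) :=
    sp0 :: sp1 :: sp2 :: sp3 :: sp4 :: sp5 :: sp6 :: []

noncomputable def step (e : Nat → Nat) (C ap an : Nat) (k :
    Nat → Nat → Nat → Nat → Nat → Nat → Nat → Nat → Nat → Nat → Nat → Nat → Nat → Nat → Nat → Nat →
    Nat → Nat → Nat → Nat → Nat → Nat → Nat → Nat → Nat → Nat → Nat → Nat → Nat → Nat → Nat → Nat →
    Nat → Nat → Nat → Nat → Nat → Nat → Nat → Nat → Nat → Nat → Nat → Nat → Nat → Nat → Nat → Nat →
    Nat → Nat → Nat → Nat → Nat → Nat → Nat → Nat → Nat → Nat → Nat → Nat → Nat → Nat → Nat → Nat →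
    Nat → Nat → Nat → Nat → Nat → Nat → Nat → Nat → Nat → Nat → Nat → Nat → Nat → Nat → Nat → Nat →
    Nat → Nat → Nat → Nat → Nat → Nat → Nat → Nat → Nat → Nat → Nat → Nat → Nat → Nat → Nat → Nat →
    Nat → Nat → Nat → Nat → Nat → Nat → Nat → Nat → Nat → Nat → Nat → Nat → Nat → Nat → Nat → Nat →
    Nat → Nat → Nat → Nat → Nat → Nat → Nat → Nat → Nat → Nat → Nat → Nat → Nat → Nat → Nat → Nat →
    Nat → Nat → Nat → Nat → Nat → Nat → Nat → Nat → Nat → Nat → Nat → Nat → Nat → Nat → Nat → Nat →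
    Nat → Nat → Nat → Nat → Nat → Nat → Nat → Nat → Nat → Nat → Nat → Nat → Nat → Nat → Nat → Nat →
    Nat → Nat → Nat → Nat → Nat → Nat → Nat → Nat → Nat → Nat → Nat → Nat → Nat → Nat → Nat → Nat →
    Nat → Nat → Nat → Nat → Nat → Nat → Nat → Nat → Nat → Nat → Nat → Nat → Nat → Nat → Nat → Nat →
    Nat → Nat → Nat → Nat → Nat → Nat → Nat → Nat → Nat → Nat → Nat → Nat → Nat → Nat → Nat → Nat →
    Nat → Nat → Nat → Nat → Nat → Nat → Nat → Nat → Nat → Nat → Nat → Nat → Nat → Nat → Nat → Nat →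
    Nat → Nat → Nat → Nat → Nat → Nat → Nat → Nat → Nat → Nat → Nat → Nat → Nat → Nat → Nat → Nat →
    Nat → Nat → Nat → Nat → Nat → Nat → Nat → Nat → Nat → Nat → Nat → Nat → Nat → Nat → Nat → Nat →
    Nat → Nat → Nat → Nat → Nat → Nat → Nat → Nat → Nat → Nat → Nat → Nat → Nat → Nat → Nat → Nat →
    Nat → Nat → Nat → Nat → Nat → Nat → Nat → Nat → Nat → Nat → Nat → Nat → Nat → Nat → Nat → Nat →
    Nat → Nat → Nat → Nat → Nat → Nat → Nat → Nat → Nat → Nat → Nat → Nat → Nat → Nat → Nat → Nat →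
    Nat → Nat → Nat → Nat → Nat → Nat → Nat → Nat → Nat → Nat → Nat → Nat → Nat → Nat → Nat → Nat →
    Nat → Nat → Nat → Nat → Nat → Nat → Nat → Nat → Nat → Nat → Nat → Nat → Nat → Nat → Nat → Nat →
    Nat → Nat → Nat → Nat → Nat → Nat → Nat → Nat → Nat → Nat → Nat → Nat → Nat → Nat → Nat → Nat →
    Nat → Nat → Nat → Nat → Nat → Nat → Nat → Nat → Nat → Nat → Nat → Nat → Nat → Nat → Nat → Nat →
    Nat → Nat → Nat → Nat → Nat → Nat → Nat → Nat → Nat → Nat → Nat → Nat → Nat → Nat → Nat → Nat →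
    Nat → Nat → Nat → Nat → Nat → Nat → Nat → Nat → Nat → Nat → Nat → Nat → Nat → Nat → Nat → Nat →
    Nat → Nat → Nat → Nat → Nat → Nat → Nat → Nat → Nat → Nat → Nat → Nat → Nat → Nat → Bool)
  (
    x8 x14 x16 x20 x22 x24 x32 x34 x38 x40 x42 x46 x48 x56 x58 x60 x64 x66 x72 x86 x88 x92 x94 x96
    x100 x102 x110 x112 x114 x118 x120 x126 x136 x138 x144 x164 x166 x168 x172 x174 x180 x190 x192
    x198 x216 x248 x250 x254 x256 x258 x262 x264 x272 x274 x276 x280 x282 x288 x298 x300 x306 x326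
    x328 x330 x334 x336 x342 x352 x354 x360 x378 x406 x408 x414 x432 x488 x490 x492 x496 x498 x504
    x514 x516 x522 x540 x568 x570 x576 x594 x648 x734 x736 x740 x742 x744 x748 x750 x758 x760 x762
    x766 x768 x774 x784 x786 x792 x812 x814 x816 x820 x822 x828 x838 x840 x846 x864 x892 x894 x900
    x918 x974 x976 x978 x982 x984 x990 x1000 x1002 x1008 x1026 x1054 x1056 x1062 x1080 x1134 x1216
    x1218 x1224 x1242 x1296 x1460 x1462 x1464 x1468 x1470 x1476 x1486 x1488 x1494 x1512 x1540 x1542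
    x1548 x1566 x1620 x1702 x1704 x1710 x1728 x1782 x1944 x2192 x2194 x2198 x2200 x2202 x2206 x2208
    x2216 x2218 x2220 x2224 x2226 x2232 x2242 x2244 x2250 x2270 x2272 x2274 x2278 x2280 x2286 x2296
    x2298 x2304 x2322 x2350 x2352 x2358 x2376 x2432 x2434 x2436 x2440 x2442 x2448 x2458 x2460 x2466
    x2484 x2512 x2514 x2520 x2538 x2592 x2674 x2676 x2682 x2700 x2754 x2918 x2920 x2922 x2926 x2928
    x2934 x2944 x2946 x2952 x2970 x2998 x3000 x3006 x3024 x3078 x3160 x3162 x3168 x3186 x3240 x3402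
    x3646 x3648 x3654 x3672 x3726 x3888 x4376 x4378 x4380 x4384 x4386 x4392 x4402 x4404 x4410 x4428
    x4456 x4458 x4464 x4482 x4536 x4618 x4620 x4626 x4644 x4698 x4860 x5104 x5106 x5112 x5130 x5184
    x5346 x5832 x6566 x6568 x6572 x6574 x6576 x6580 x6582 x6590 x6592 x6594 x6598 x6600 x6606 x6616
    x6618 x6624 x6644 x6646 x6648 x6652 x6654 x6660 x6670 x6672 x6678 x6696 x6724 x6726 x6732 x6750
    x6806 x6808 x6810 x6814 x6816 x6822 x6832 x6834 x6840 x6858 x6886 x6888 x6894 x6912 x6966 x7048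
    x7050 x7056 x7074 x7128 x7292 x7294 x7296 x7300 x7302 x7308 x7318 x7320 x7326 x7344 x7372 x7374
    x7380 x7398 x7452 x7534 x7536 x7542 x7560 x7614 x7776 x8020 x8022 x8028 x8046 x8100 x8262 x8750
    x8752 x8754 x8758 x8760 x8766 x8776 x8778 x8784 x8802 x8830 x8832 x8838 x8856 x8910 x8992 x8994
    x9000 x9018 x9072 x9234 x9478 x9480 x9486 x9504 x9558 x9720 x10206 x10936 x10938 x10944 x10962
    x11016 x11178 x11664 x13124 x13126 x13128 x13132 x13134 x13140 x13150 x13152 x13158 x13176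
    x13204 x13206 x13212 x13230 x13284 x13366 x13368 x13374 x13392 x13446 x13608 x13852 x13854
    x13860 x13878 x13932 x14094 x14580 x15310 x15312 x15318 x15336 x15390 x15552 x16038 x17496 : Nat) : Bool :=
  k
    (Nat.sub (Nat.add (Nat.add (Nat.add (Nat.add C (Nat.mul x8 (nat_lit 5))) x14) x6568) (Nat.mul (e (nat_lit 8)) ap)) (Nat.mul (e (nat_lit 8)) an))
    (Nat.sub (Nat.add (Nat.add (Nat.add (Nat.add (Nat.add (Nat.add (Nat.add C (Nat.mul x14 (nat_lit 4))) x32) x8) x20) x16) x6574) (Nat.mul (e (nat_lit 14)) ap)) (Nat.mul (e (nat_lit 14)) an))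
    (Nat.sub (Nat.add (Nat.add (Nat.add (Nat.add (Nat.add (Nat.add C (Nat.mul x16 (nat_lit 5))) x34) x22) x14) x6576) (Nat.mul (e (nat_lit 16)) ap)) (Nat.mul (e (nat_lit 16)) an))
    (Nat.sub (Nat.add (Nat.add (Nat.add (Nat.add (Nat.add (Nat.add C x20) x38) x14) x22) x6580) (Nat.mul (e (nat_lit 20)) ap)) (Nat.mul (e (nat_lit 20)) an))
    (Nat.add (Nat.add (Nat.add (Nat.add (Nat.add (Nat.add C (Nat.mul x22 (nat_lit 4))) x40) x16) x20) x24) x6582)
    (Nat.add (Nat.add (Nat.add C (Nat.mul x24 (nat_lit 5))) x42) x22)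
    (Nat.sub (Nat.add (Nat.add (Nat.add (Nat.add (Nat.add (Nat.add (Nat.add C (Nat.mul x32 (nat_lit 3))) x86) x14) x38) x34) x6592) (Nat.mul (e (nat_lit 32)) ap)) (Nat.mul (e (nat_lit 32)) an))
    (Nat.sub (Nat.add (Nat.add (Nat.add (Nat.add (Nat.add (Nat.add (Nat.add C (Nat.mul x34 (nat_lit 3))) x88) x16) x40) x32) x6594) (Nat.mul (e (nat_lit 34)) ap)) (Nat.mul (e (nat_lit 34)) an))
    (Nat.sub (Nat.add (Nat.add (Nat.add (Nat.add (Nat.add (Nat.add (Nat.add (Nat.add C (Nat.mul x38 (nat_lit 2))) x92) x20) x56) x32) x40) x6598) (Nat.mul (e (nat_lit 38)) ap)) (Nat.mul (e (nat_lit 38)) an))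
    (Nat.sub (Nat.add (Nat.add (Nat.add (Nat.add (Nat.add (Nat.add (Nat.add (Nat.add (Nat.add (Nat.add C (Nat.mul x40 (nat_lit 4))) x94) x22) x58) x34) x46) x38) x42) x6600) (Nat.mul (e (nat_lit 40)) ap)) (Nat.mul (e (nat_lit 40)) an))
    (Nat.add (Nat.add (Nat.add (Nat.add (Nat.add (Nat.add C (Nat.mul x42 (nat_lit 4))) x96) x24) x60) x48) x40)
    (Nat.add (Nat.add (Nat.add (Nat.add (Nat.add (Nat.add C (Nat.mul x46 (nat_lit 3))) x100) x64) x40) x48) x6606)
    (Nat.add (Nat.add (Nat.add (Nat.add (Nat.add C (Nat.mul x48 (nat_lit 5))) x102) x66) x42) x46)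
    (Nat.sub (Nat.add (Nat.add (Nat.add (Nat.add (Nat.add (Nat.add C x56) x110) x38) x58) x6616) (Nat.mul (e (nat_lit 56)) ap)) (Nat.mul (e (nat_lit 56)) an))
    (Nat.add (Nat.add (Nat.add (Nat.add (Nat.add (Nat.add (Nat.add C (Nat.mul x58 (nat_lit 2))) x112) x40) x64) x56) x60) x6618)
    (Nat.add (Nat.add (Nat.add (Nat.add (Nat.add C x60) x114) x42) x66) x58)
    (Nat.add (Nat.add (Nat.add (Nat.add (Nat.add (Nat.add C (Nat.mul x64 (nat_lit 3))) x118) x46) x58) x66) x6624)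
    (Nat.add (Nat.add (Nat.add (Nat.add (Nat.add (Nat.add C (Nat.mul x66 (nat_lit 4))) x120) x48) x60) x72) x64)
    (Nat.add (Nat.add (Nat.add C (Nat.mul x72 (nat_lit 5))) x126) x66)
    (Nat.sub (Nat.add (Nat.add (Nat.add (Nat.add (Nat.add (Nat.add (Nat.add C (Nat.mul x86 (nat_lit 3))) x248) x32) x92) x88) x6646) (Nat.mul (e (nat_lit 86)) ap)) (Nat.mul (e (nat_lit 86)) an))
    (Nat.sub (Nat.add (Nat.add (Nat.add (Nat.add (Nat.add (Nat.add (Nat.add C (Nat.mul x88 (nat_lit 3))) x250) x34) x94) x86) x6648) (Nat.mul (e (nat_lit 88)) ap)) (Nat.mul (e (nat_lit 88)) an))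
    (Nat.sub (Nat.add (Nat.add (Nat.add (Nat.add (Nat.add (Nat.add (Nat.add (Nat.add C x92) x254) x38) x110) x86) x94) x6652) (Nat.mul (e (nat_lit 92)) ap)) (Nat.mul (e (nat_lit 92)) an))
    (Nat.sub (Nat.add (Nat.add (Nat.add (Nat.add (Nat.add (Nat.add (Nat.add (Nat.add (Nat.add (Nat.add C (Nat.mul x94 (nat_lit 3))) x256) x40) x112) x88) x100) x92) x96) x6654) (Nat.mul (e (nat_lit 94)) ap)) (Nat.mul (e (nat_lit 94)) an))
    (Nat.add (Nat.add (Nat.add (Nat.add (Nat.add (Nat.add C (Nat.mul x96 (nat_lit 3))) x258) x42) x114) x102) x94)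
    (Nat.sub (Nat.add (Nat.add (Nat.add (Nat.add (Nat.add (Nat.add (Nat.add (Nat.add C x100) x262) x46) x118) x94) x102) x6660) (Nat.mul (e (nat_lit 100)) ap)) (Nat.mul (e (nat_lit 100)) an))
    (Nat.add (Nat.add (Nat.add (Nat.add (Nat.add (Nat.add C (Nat.mul x102 (nat_lit 3))) x264) x48) x120) x96) x100)
    (Nat.sub (Nat.add (Nat.add (Nat.add (Nat.add (Nat.add (Nat.add (Nat.add (Nat.add C (Nat.mul x110 (nat_lit 2))) x272) x56) x164) x92) x112) x6670) (Nat.mul (e (nat_lit 110)) ap)) (Nat.mul (e (nat_lit 110)) an))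
    (Nat.sub (Nat.add (Nat.add (Nat.add (Nat.add (Nat.add (Nat.add (Nat.add (Nat.add (Nat.add (Nat.add C (Nat.mul x112 (nat_lit 3))) x274) x58) x166) x94) x118) x110) x114) x6672) (Nat.mul (e (nat_lit 112)) ap)) (Nat.mul (e (nat_lit 112)) an))
    (Nat.add (Nat.add (Nat.add (Nat.add (Nat.add (Nat.add (Nat.add C (Nat.mul x114 (nat_lit 2))) x276) x60) x168) x96) x120) x112)
    (Nat.add (Nat.add (Nat.add (Nat.add (Nat.add (Nat.add (Nat.add (Nat.add (Nat.add C (Nat.mul x118 (nat_lit 3))) x280) x64) x172) x100) x136) x112) x120) x6678)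
    (Nat.add (Nat.add (Nat.add (Nat.add (Nat.add (Nat.add (Nat.add (Nat.add (Nat.add C (Nat.mul x120 (nat_lit 4))) x282) x66) x174) x102) x138) x114) x126) x118)
    (Nat.add (Nat.add (Nat.add (Nat.add (Nat.add (Nat.add C (Nat.mul x126 (nat_lit 4))) x288) x72) x180) x144) x120)
    (Nat.add (Nat.add (Nat.add (Nat.add (Nat.add (Nat.add C (Nat.mul x136 (nat_lit 3))) x298) x190) x118) x138) x6696)
    (Nat.add (Nat.add (Nat.add (Nat.add (Nat.add (Nat.add C (Nat.mul x138 (nat_lit 3))) x300) x192) x120) x144) x136)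
    (Nat.add (Nat.add (Nat.add (Nat.add (Nat.add C (Nat.mul x144 (nat_lit 5))) x306) x198) x126) x138)
    (Nat.sub (Nat.add (Nat.add (Nat.add (Nat.add (Nat.add (Nat.add C x164) x326) x110) x166) x6724) (Nat.mul (e (nat_lit 164)) ap)) (Nat.mul (e (nat_lit 164)) an))
    (Nat.add (Nat.add (Nat.add (Nat.add (Nat.add (Nat.add (Nat.add C (Nat.mul x166 (nat_lit 2))) x328) x112) x172) x164) x168) x6726)
    (Nat.add (Nat.add (Nat.add (Nat.add (Nat.add C x168) x330) x114) x174) x166)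
    (Nat.add (Nat.add (Nat.add (Nat.add (Nat.add (Nat.add (Nat.add C x172) x334) x118) x190) x166) x174) x6732)
    (Nat.add (Nat.add (Nat.add (Nat.add (Nat.add (Nat.add (Nat.add C (Nat.mul x174 (nat_lit 2))) x336) x120) x192) x168) x180) x172)
    (Nat.add (Nat.add (Nat.add (Nat.add (Nat.add C x180) x342) x126) x198) x174)
    (Nat.add (Nat.add (Nat.add (Nat.add (Nat.add (Nat.add C (Nat.mul x190 (nat_lit 3))) x352) x136) x172) x192) x6750)
    (Nat.add (Nat.add (Nat.add (Nat.add (Nat.add (Nat.add C (Nat.mul x192 (nat_lit 3))) x354) x138) x174) x198) x190)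
    (Nat.add (Nat.add (Nat.add (Nat.add (Nat.add (Nat.add C (Nat.mul x198 (nat_lit 4))) x360) x144) x180) x216) x192)
    (Nat.add (Nat.add (Nat.add C (Nat.mul x216 (nat_lit 5))) x378) x198)
    (Nat.sub (Nat.add (Nat.add (Nat.add (Nat.add (Nat.add (Nat.add (Nat.add C (Nat.mul x248 (nat_lit 3))) x734) x86) x254) x250) x6808) (Nat.mul (e (nat_lit 248)) ap)) (Nat.mul (e (nat_lit 248)) an))
    (Nat.add (Nat.add (Nat.add (Nat.add (Nat.add (Nat.add C (Nat.mul x250 (nat_lit 3))) x736) x88) x256) x248) x6810)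
    (Nat.sub (Nat.add (Nat.add (Nat.add (Nat.add (Nat.add (Nat.add (Nat.add (Nat.add C x254) x740) x92) x272) x248) x256) x6814) (Nat.mul (e (nat_lit 254)) ap)) (Nat.mul (e (nat_lit 254)) an))
    (Nat.sub (Nat.add (Nat.add (Nat.add (Nat.add (Nat.add (Nat.add (Nat.add (Nat.add (Nat.add (Nat.add C (Nat.mul x256 (nat_lit 3))) x742) x94) x274) x250) x262) x254) x258) x6816) (Nat.mul (e (nat_lit 256)) ap)) (Nat.mul (e (nat_lit 256)) an))
    (Nat.add (Nat.add (Nat.add (Nat.add (Nat.add (Nat.add C (Nat.mul x258 (nat_lit 3))) x744) x96) x276) x264) x256)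
    (Nat.sub (Nat.add (Nat.add (Nat.add (Nat.add (Nat.add (Nat.add (Nat.add (Nat.add C x262) x748) x100) x280) x256) x264) x6822) (Nat.mul (e (nat_lit 262)) ap)) (Nat.mul (e (nat_lit 262)) an))
    (Nat.add (Nat.add (Nat.add (Nat.add (Nat.add (Nat.add C (Nat.mul x264 (nat_lit 3))) x750) x102) x282) x258) x262)
    (Nat.sub (Nat.add (Nat.add (Nat.add (Nat.add (Nat.add (Nat.add (Nat.add (Nat.add C x272) x758) x110) x326) x254) x274) x6832) (Nat.mul (e (nat_lit 272)) ap)) (Nat.mul (e (nat_lit 272)) an))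
    (Nat.sub (Nat.add (Nat.add (Nat.add (Nat.add (Nat.add (Nat.add (Nat.add (Nat.add (Nat.add (Nat.add C (Nat.mul x274 (nat_lit 2))) x760) x112) x328) x256) x280) x272) x276) x6834) (Nat.mul (e (nat_lit 274)) ap)) (Nat.mul (e (nat_lit 274)) an))
    (Nat.add (Nat.add (Nat.add (Nat.add (Nat.add (Nat.add (Nat.add C x276) x762) x114) x330) x258) x282) x274)
    (Nat.sub (Nat.add (Nat.add (Nat.add (Nat.add (Nat.add (Nat.add (Nat.add (Nat.add (Nat.add (Nat.add C (Nat.mul x280 (nat_lit 2))) x766) x118) x334) x262) x298) x274) x282) x6840) (Nat.mul (e (nat_lit 280)) ap)) (Nat.mul (e (nat_lit 280)) an))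
    (Nat.add (Nat.add (Nat.add (Nat.add (Nat.add (Nat.add (Nat.add (Nat.add (Nat.add C (Nat.mul x282 (nat_lit 3))) x768) x120) x336) x264) x300) x276) x288) x280)
    (Nat.add (Nat.add (Nat.add (Nat.add (Nat.add (Nat.add C (Nat.mul x288 (nat_lit 3))) x774) x126) x342) x306) x282)
    (Nat.add (Nat.add (Nat.add (Nat.add (Nat.add (Nat.add (Nat.add C x298) x784) x136) x352) x280) x300) x6858)
    (Nat.add (Nat.add (Nat.add (Nat.add (Nat.add (Nat.add (Nat.add C x300) x786) x138) x354) x282) x306) x298)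
    (Nat.add (Nat.add (Nat.add (Nat.add (Nat.add (Nat.add C (Nat.mul x306 (nat_lit 3))) x792) x144) x360) x288) x300)
    (Nat.sub (Nat.add (Nat.add (Nat.add (Nat.add (Nat.add (Nat.add (Nat.add (Nat.add C (Nat.mul x326 (nat_lit 2))) x812) x164) x488) x272) x328) x6886) (Nat.mul (e (nat_lit 326)) ap)) (Nat.mul (e (nat_lit 326)) an))
    (Nat.sub (Nat.add (Nat.add (Nat.add (Nat.add (Nat.add (Nat.add (Nat.add (Nat.add (Nat.add (Nat.add C (Nat.mul x328 (nat_lit 3))) x814) x166) x490) x274) x334) x326) x330) x6888) (Nat.mul (e (nat_lit 328)) ap)) (Nat.mul (e (nat_lit 328)) an))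
    (Nat.add (Nat.add (Nat.add (Nat.add (Nat.add (Nat.add (Nat.add C (Nat.mul x330 (nat_lit 2))) x816) x168) x492) x276) x336) x328)
    (Nat.add (Nat.add (Nat.add (Nat.add (Nat.add (Nat.add (Nat.add (Nat.add (Nat.add C (Nat.mul x334 (nat_lit 2))) x820) x172) x496) x280) x352) x328) x336) x6894)
    (Nat.add (Nat.add (Nat.add (Nat.add (Nat.add (Nat.add (Nat.add (Nat.add (Nat.add C (Nat.mul x336 (nat_lit 3))) x822) x174) x498) x282) x354) x330) x342) x334)
    (Nat.add (Nat.add (Nat.add (Nat.add (Nat.add (Nat.add (Nat.add C (Nat.mul x342 (nat_lit 2))) x828) x180) x504) x288) x360) x336)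
    (Nat.add (Nat.add (Nat.add (Nat.add (Nat.add (Nat.add (Nat.add (Nat.add (Nat.add C (Nat.mul x352 (nat_lit 3))) x838) x190) x514) x298) x406) x334) x354) x6912)
    (Nat.add (Nat.add (Nat.add (Nat.add (Nat.add (Nat.add (Nat.add (Nat.add (Nat.add C (Nat.mul x354 (nat_lit 3))) x840) x192) x516) x300) x408) x336) x360) x352)
    (Nat.add (Nat.add (Nat.add (Nat.add (Nat.add (Nat.add (Nat.add (Nat.add (Nat.add C (Nat.mul x360 (nat_lit 4))) x846) x198) x522) x306) x414) x342) x378) x354)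
    (Nat.add (Nat.add (Nat.add (Nat.add (Nat.add (Nat.add C (Nat.mul x378 (nat_lit 4))) x864) x216) x540) x432) x360)
    (Nat.add (Nat.add (Nat.add (Nat.add (Nat.add (Nat.add C (Nat.mul x406 (nat_lit 3))) x892) x568) x352) x408) x6966)
    (Nat.add (Nat.add (Nat.add (Nat.add (Nat.add (Nat.add C (Nat.mul x408 (nat_lit 3))) x894) x570) x354) x414) x406)
    (Nat.add (Nat.add (Nat.add (Nat.add (Nat.add (Nat.add C (Nat.mul x414 (nat_lit 3))) x900) x576) x360) x432) x408)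
    (Nat.add (Nat.add (Nat.add (Nat.add (Nat.add C (Nat.mul x432 (nat_lit 5))) x918) x594) x378) x414)
    (Nat.add (Nat.add (Nat.add (Nat.add (Nat.add C x488) x974) x326) x490) x7048)
    (Nat.add (Nat.add (Nat.add (Nat.add (Nat.add (Nat.add (Nat.add C (Nat.mul x490 (nat_lit 2))) x976) x328) x496) x488) x492) x7050)
    (Nat.add (Nat.add (Nat.add (Nat.add (Nat.add C x492) x978) x330) x498) x490)
    (Nat.add (Nat.add (Nat.add (Nat.add (Nat.add (Nat.add (Nat.add C x496) x982) x334) x514) x490) x498) x7056)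
    (Nat.add (Nat.add (Nat.add (Nat.add (Nat.add (Nat.add (Nat.add C (Nat.mul x498 (nat_lit 2))) x984) x336) x516) x492) x504) x496)
    (Nat.add (Nat.add (Nat.add (Nat.add (Nat.add C x504) x990) x342) x522) x498)
    (Nat.add (Nat.add (Nat.add (Nat.add (Nat.add (Nat.add (Nat.add C x514) x1000) x352) x568) x496) x516) x7074)
    (Nat.add (Nat.add (Nat.add (Nat.add (Nat.add (Nat.add (Nat.add C x516) x1002) x354) x570) x498) x522) x514)
    (Nat.add (Nat.add (Nat.add (Nat.add (Nat.add (Nat.add (Nat.add C (Nat.mul x522 (nat_lit 2))) x1008) x360) x576) x504) x540) x516)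
    (Nat.add (Nat.add (Nat.add (Nat.add (Nat.add C x540) x1026) x378) x594) x522)
    (Nat.add (Nat.add (Nat.add (Nat.add (Nat.add (Nat.add C (Nat.mul x568 (nat_lit 3))) x1054) x406) x514) x570) x7128)
    (Nat.add (Nat.add (Nat.add (Nat.add (Nat.add (Nat.add C (Nat.mul x570 (nat_lit 3))) x1056) x408) x516) x576) x568)
    (Nat.add (Nat.add (Nat.add (Nat.add (Nat.add (Nat.add C (Nat.mul x576 (nat_lit 3))) x1062) x414) x522) x594) x570)
    (Nat.add (Nat.add (Nat.add (Nat.add (Nat.add (Nat.add C (Nat.mul x594 (nat_lit 4))) x1080) x432) x540) x648) x576)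
    (Nat.add (Nat.add (Nat.add C (Nat.mul x648 (nat_lit 5))) x1134) x594)
    (Nat.add (Nat.add (Nat.add (Nat.add (Nat.add (Nat.add C (Nat.mul x734 (nat_lit 3))) x2192) x248) x740) x736) x7294)
    (Nat.add (Nat.add (Nat.add (Nat.add (Nat.add (Nat.add C (Nat.mul x736 (nat_lit 3))) x2194) x250) x742) x734) x7296)
    (Nat.add (Nat.add (Nat.add (Nat.add (Nat.add (Nat.add (Nat.add C x740) x2198) x254) x758) x734) x742) x7300)
    (Nat.add (Nat.add (Nat.add (Nat.add (Nat.add (Nat.add (Nat.add (Nat.add (Nat.add C (Nat.mul x742 (nat_lit 3))) x2200) x256) x760) x736) x748) x740) x744) x7302)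
    (Nat.add (Nat.add (Nat.add (Nat.add (Nat.add (Nat.add C (Nat.mul x744 (nat_lit 3))) x2202) x258) x762) x750) x742)
    (Nat.add (Nat.add (Nat.add (Nat.add (Nat.add (Nat.add (Nat.add C x748) x2206) x262) x766) x742) x750) x7308)
    (Nat.add (Nat.add (Nat.add (Nat.add (Nat.add (Nat.add C (Nat.mul x750 (nat_lit 3))) x2208) x264) x768) x744) x748)
    (Nat.sub (Nat.add (Nat.add (Nat.add (Nat.add (Nat.add (Nat.add (Nat.add (Nat.add C x758) x2216) x272) x812) x740) x760) x7318) (Nat.mul (e (nat_lit 758)) ap)) (Nat.mul (e (nat_lit 758)) an))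
    (Nat.sub (Nat.add (Nat.add (Nat.add (Nat.add (Nat.add (Nat.add (Nat.add (Nat.add (Nat.add (Nat.add C (Nat.mul x760 (nat_lit 2))) x2218) x274) x814) x742) x766) x758) x762) x7320) (Nat.mul (e (nat_lit 760)) ap)) (Nat.mul (e (nat_lit 760)) an))
    (Nat.add (Nat.add (Nat.add (Nat.add (Nat.add (Nat.add (Nat.add C x762) x2220) x276) x816) x744) x768) x760)
    (Nat.add (Nat.add (Nat.add (Nat.add (Nat.add (Nat.add (Nat.add (Nat.add (Nat.add C (Nat.mul x766 (nat_lit 2))) x2224) x280) x820) x748) x784) x760) x768) x7326)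
    (Nat.add (Nat.add (Nat.add (Nat.add (Nat.add (Nat.add (Nat.add (Nat.add (Nat.add C (Nat.mul x768 (nat_lit 3))) x2226) x282) x822) x750) x786) x762) x774) x766)
    (Nat.add (Nat.add (Nat.add (Nat.add (Nat.add (Nat.add C (Nat.mul x774 (nat_lit 3))) x2232) x288) x828) x792) x768)
    (Nat.add (Nat.add (Nat.add (Nat.add (Nat.add (Nat.add (Nat.add C x784) x2242) x298) x838) x766) x786) x7344)
    (Nat.add (Nat.add (Nat.add (Nat.add (Nat.add (Nat.add (Nat.add C x786) x2244) x300) x840) x768) x792) x784)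
    (Nat.add (Nat.add (Nat.add (Nat.add (Nat.add (Nat.add C (Nat.mul x792 (nat_lit 3))) x2250) x306) x846) x774) x786)
    (Nat.add (Nat.add (Nat.add (Nat.add (Nat.add (Nat.add (Nat.add C x812) x2270) x326) x974) x758) x814) x7372)
    (Nat.sub (Nat.add (Nat.add (Nat.add (Nat.add (Nat.add (Nat.add (Nat.add (Nat.add (Nat.add (Nat.add C (Nat.mul x814 (nat_lit 2))) x2272) x328) x976) x760) x820) x812) x816) x7374) (Nat.mul (e (nat_lit 814)) ap)) (Nat.mul (e (nat_lit 814)) an))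
    (Nat.add (Nat.add (Nat.add (Nat.add (Nat.add (Nat.add (Nat.add C x816) x2274) x330) x978) x762) x822) x814)
    (Nat.sub (Nat.add (Nat.add (Nat.add (Nat.add (Nat.add (Nat.add (Nat.add (Nat.add (Nat.add (Nat.add C x820) x2278) x334) x982) x766) x838) x814) x822) x7380) (Nat.mul (e (nat_lit 820)) ap)) (Nat.mul (e (nat_lit 820)) an))
    (Nat.add (Nat.add (Nat.add (Nat.add (Nat.add (Nat.add (Nat.add (Nat.add (Nat.add C (Nat.mul x822 (nat_lit 2))) x2280) x336) x984) x768) x840) x816) x828) x820)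
    (Nat.add (Nat.add (Nat.add (Nat.add (Nat.add (Nat.add (Nat.add C x828) x2286) x342) x990) x774) x846) x822)
    (Nat.add (Nat.add (Nat.add (Nat.add (Nat.add (Nat.add (Nat.add (Nat.add (Nat.add C (Nat.mul x838 (nat_lit 2))) x2296) x352) x1000) x784) x892) x820) x840) x7398)
    (Nat.add (Nat.add (Nat.add (Nat.add (Nat.add (Nat.add (Nat.add (Nat.add (Nat.add C (Nat.mul x840 (nat_lit 2))) x2298) x354) x1002) x786) x894) x822) x846) x838)
    (Nat.add (Nat.add (Nat.add (Nat.add (Nat.add (Nat.add (Nat.add (Nat.add (Nat.add C (Nat.mul x846 (nat_lit 3))) x2304) x360) x1008) x792) x900) x828) x864) x840)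
    (Nat.add (Nat.add (Nat.add (Nat.add (Nat.add (Nat.add C (Nat.mul x864 (nat_lit 3))) x2322) x378) x1026) x918) x846)
    (Nat.add (Nat.add (Nat.add (Nat.add (Nat.add (Nat.add (Nat.add C x892) x2350) x406) x1054) x838) x894) x7452)
    (Nat.add (Nat.add (Nat.add (Nat.add (Nat.add (Nat.add (Nat.add C x894) x2352) x408) x1056) x840) x900) x892)
    (Nat.add (Nat.add (Nat.add (Nat.add (Nat.add (Nat.add (Nat.add C x900) x2358) x414) x1062) x846) x918) x894)
    (Nat.add (Nat.add (Nat.add (Nat.add (Nat.add (Nat.add C (Nat.mul x918 (nat_lit 3))) x2376) x432) x1080) x864) x900)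
    (Nat.add (Nat.add (Nat.add (Nat.add (Nat.add (Nat.add (Nat.add C (Nat.mul x974 (nat_lit 2))) x2432) x488) x1460) x812) x976) x7534)
    (Nat.add (Nat.add (Nat.add (Nat.add (Nat.add (Nat.add (Nat.add (Nat.add (Nat.add C (Nat.mul x976 (nat_lit 3))) x2434) x490) x1462) x814) x982) x974) x978) x7536)
    (Nat.add (Nat.add (Nat.add (Nat.add (Nat.add (Nat.add (Nat.add C (Nat.mul x978 (nat_lit 2))) x2436) x492) x1464) x816) x984) x976)
    (Nat.add (Nat.add (Nat.add (Nat.add (Nat.add (Nat.add (Nat.add (Nat.add (Nat.add C (Nat.mul x982 (nat_lit 2))) x2440) x496) x1468) x820) x1000) x976) x984) x7542)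
    (Nat.add (Nat.add (Nat.add (Nat.add (Nat.add (Nat.add (Nat.add (Nat.add (Nat.add C (Nat.mul x984 (nat_lit 3))) x2442) x498) x1470) x822) x1002) x978) x990) x982)
    (Nat.add (Nat.add (Nat.add (Nat.add (Nat.add (Nat.add (Nat.add C (Nat.mul x990 (nat_lit 2))) x2448) x504) x1476) x828) x1008) x984)
    (Nat.add (Nat.add (Nat.add (Nat.add (Nat.add (Nat.add (Nat.add (Nat.add (Nat.add C (Nat.mul x1000 (nat_lit 2))) x2458) x514) x1486) x838) x1054) x982) x1002) x7560)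
    (Nat.add (Nat.add (Nat.add (Nat.add (Nat.add (Nat.add (Nat.add (Nat.add (Nat.add C (Nat.mul x1002 (nat_lit 2))) x2460) x516) x1488) x840) x1056) x984) x1008) x1000)
    (Nat.add (Nat.add (Nat.add (Nat.add (Nat.add (Nat.add (Nat.add (Nat.add (Nat.add C (Nat.mul x1008 (nat_lit 3))) x2466) x522) x1494) x846) x1062) x990) x1026) x1002)
    (Nat.add (Nat.add (Nat.add (Nat.add (Nat.add (Nat.add (Nat.add C (Nat.mul x1026 (nat_lit 2))) x2484) x540) x1512) x864) x1080) x1008)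
    (Nat.add (Nat.add (Nat.add (Nat.add (Nat.add (Nat.add (Nat.add (Nat.add (Nat.add C (Nat.mul x1054 (nat_lit 3))) x2512) x568) x1540) x892) x1216) x1000) x1056) x7614)
    (Nat.add (Nat.add (Nat.add (Nat.add (Nat.add (Nat.add (Nat.add (Nat.add (Nat.add C (Nat.mul x1056 (nat_lit 3))) x2514) x570) x1542) x894) x1218) x1002) x1062) x1054)
    (Nat.add (Nat.add (Nat.add (Nat.add (Nat.add (Nat.add (Nat.add (Nat.add (Nat.add C (Nat.mul x1062 (nat_lit 3))) x2520) x576) x1548) x900) x1224) x1008) x1080) x1056)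
    (Nat.add (Nat.add (Nat.add (Nat.add (Nat.add (Nat.add (Nat.add (Nat.add (Nat.add C (Nat.mul x1080 (nat_lit 4))) x2538) x594) x1566) x918) x1242) x1026) x1134) x1062)
    (Nat.add (Nat.add (Nat.add (Nat.add (Nat.add (Nat.add C (Nat.mul x1134 (nat_lit 4))) x2592) x648) x1620) x1296) x1080)
    (Nat.add (Nat.add (Nat.add (Nat.add (Nat.add (Nat.add C (Nat.mul x1216 (nat_lit 3))) x2674) x1702) x1054) x1218) x7776)
    (Nat.add (Nat.add (Nat.add (Nat.add (Nat.add (Nat.add C (Nat.mul x1218 (nat_lit 3))) x2676) x1704) x1056) x1224) x1216)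
    (Nat.add (Nat.add (Nat.add (Nat.add (Nat.add (Nat.add C (Nat.mul x1224 (nat_lit 3))) x2682) x1710) x1062) x1242) x1218)
    (Nat.add (Nat.add (Nat.add (Nat.add (Nat.add (Nat.add C (Nat.mul x1242 (nat_lit 3))) x2700) x1728) x1080) x1296) x1224)
    (Nat.add (Nat.add (Nat.add (Nat.add (Nat.add C (Nat.mul x1296 (nat_lit 5))) x2754) x1782) x1134) x1242)
    (Nat.add (Nat.add (Nat.add (Nat.add (Nat.add C x1460) x2918) x974) x1462) x8020)
    (Nat.add (Nat.add (Nat.add (Nat.add (Nat.add (Nat.add (Nat.add C (Nat.mul x1462 (nat_lit 2))) x2920) x976) x1468) x1460) x1464) x8022)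
    (Nat.add (Nat.add (Nat.add (Nat.add (Nat.add C x1464) x2922) x978) x1470) x1462)
    (Nat.add (Nat.add (Nat.add (Nat.add (Nat.add (Nat.add (Nat.add C x1468) x2926) x982) x1486) x1462) x1470) x8028)
    (Nat.add (Nat.add (Nat.add (Nat.add (Nat.add (Nat.add (Nat.add C (Nat.mul x1470 (nat_lit 2))) x2928) x984) x1488) x1464) x1476) x1468)
    (Nat.add (Nat.add (Nat.add (Nat.add (Nat.add C x1476) x2934) x990) x1494) x1470)
    (Nat.add (Nat.add (Nat.add (Nat.add (Nat.add (Nat.add (Nat.add C x1486) x2944) x1000) x1540) x1468) x1488) x8046)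
    (Nat.add (Nat.add (Nat.add (Nat.add (Nat.add (Nat.add (Nat.add C x1488) x2946) x1002) x1542) x1470) x1494) x1486)
    (Nat.add (Nat.add (Nat.add (Nat.add (Nat.add (Nat.add (Nat.add C (Nat.mul x1494 (nat_lit 2))) x2952) x1008) x1548) x1476) x1512) x1488)
    (Nat.add (Nat.add (Nat.add (Nat.add (Nat.add C x1512) x2970) x1026) x1566) x1494)
    (Nat.add (Nat.add (Nat.add (Nat.add (Nat.add (Nat.add (Nat.add C x1540) x2998) x1054) x1702) x1486) x1542) x8100)
    (Nat.add (Nat.add (Nat.add (Nat.add (Nat.add (Nat.add (Nat.add C x1542) x3000) x1056) x1704) x1488) x1548) x1540)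
    (Nat.add (Nat.add (Nat.add (Nat.add (Nat.add (Nat.add (Nat.add C x1548) x3006) x1062) x1710) x1494) x1566) x1542)
    (Nat.add (Nat.add (Nat.add (Nat.add (Nat.add (Nat.add (Nat.add C (Nat.mul x1566 (nat_lit 2))) x3024) x1080) x1728) x1512) x1620) x1548)
    (Nat.add (Nat.add (Nat.add (Nat.add (Nat.add C x1620) x3078) x1134) x1782) x1566)
    (Nat.add (Nat.add (Nat.add (Nat.add (Nat.add (Nat.add C (Nat.mul x1702 (nat_lit 3))) x3160) x1216) x1540) x1704) x8262)
    (Nat.add (Nat.add (Nat.add (Nat.add (Nat.add (Nat.add C (Nat.mul x1704 (nat_lit 3))) x3162) x1218) x1542) x1710) x1702)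
    (Nat.add (Nat.add (Nat.add (Nat.add (Nat.add (Nat.add C (Nat.mul x1710 (nat_lit 3))) x3168) x1224) x1548) x1728) x1704)
    (Nat.add (Nat.add (Nat.add (Nat.add (Nat.add (Nat.add C (Nat.mul x1728 (nat_lit 3))) x3186) x1242) x1566) x1782) x1710)
    (Nat.add (Nat.add (Nat.add (Nat.add (Nat.add (Nat.add C (Nat.mul x1782 (nat_lit 4))) x3240) x1296) x1620) x1944) x1728)
    (Nat.add (Nat.add (Nat.add C (Nat.mul x1944 (nat_lit 5))) x3402) x1782)
    (Nat.add (Nat.add (Nat.add (Nat.add (Nat.add (Nat.add C (Nat.mul x2192 (nat_lit 3))) x6566) x734) x2198) x2194) x8752)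
    (Nat.add (Nat.add (Nat.add (Nat.add (Nat.add (Nat.add C (Nat.mul x2194 (nat_lit 3))) x6568) x736) x2200) x2192) x8754)
    (Nat.add (Nat.add (Nat.add (Nat.add (Nat.add (Nat.add (Nat.add C x2198) x6572) x740) x2216) x2192) x2200) x8758)
    (Nat.add (Nat.add (Nat.add (Nat.add (Nat.add (Nat.add (Nat.add (Nat.add (Nat.add C (Nat.mul x2200 (nat_lit 3))) x6574) x742) x2218) x2194) x2206) x2198) x2202) x8760)
    (Nat.add (Nat.add (Nat.add (Nat.add (Nat.add (Nat.add C (Nat.mul x2202 (nat_lit 3))) x6576) x744) x2220) x2208) x2200)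
    (Nat.add (Nat.add (Nat.add (Nat.add (Nat.add (Nat.add (Nat.add C x2206) x6580) x748) x2224) x2200) x2208) x8766)
    (Nat.add (Nat.add (Nat.add (Nat.add (Nat.add (Nat.add C (Nat.mul x2208 (nat_lit 3))) x6582) x750) x2226) x2202) x2206)
    (Nat.add (Nat.add (Nat.add (Nat.add (Nat.add (Nat.add (Nat.add C x2216) x6590) x758) x2270) x2198) x2218) x8776)
    (Nat.add (Nat.add (Nat.add (Nat.add (Nat.add (Nat.add (Nat.add (Nat.add (Nat.add C (Nat.mul x2218 (nat_lit 2))) x6592) x760) x2272) x2200) x2224) x2216) x2220) x8778)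
    (Nat.add (Nat.add (Nat.add (Nat.add (Nat.add (Nat.add (Nat.add C x2220) x6594) x762) x2274) x2202) x2226) x2218)
    (Nat.add (Nat.add (Nat.add (Nat.add (Nat.add (Nat.add (Nat.add (Nat.add (Nat.add C (Nat.mul x2224 (nat_lit 2))) x6598) x766) x2278) x2206) x2242) x2218) x2226) x8784)
    (Nat.add (Nat.add (Nat.add (Nat.add (Nat.add (Nat.add (Nat.add (Nat.add (Nat.add C (Nat.mul x2226 (nat_lit 3))) x6600) x768) x2280) x2208) x2244) x2220) x2232) x2224)
    (Nat.add (Nat.add (Nat.add (Nat.add (Nat.add (Nat.add C (Nat.mul x2232 (nat_lit 3))) x6606) x774) x2286) x2250) x2226)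
    (Nat.add (Nat.add (Nat.add (Nat.add (Nat.add (Nat.add (Nat.add C x2242) x6616) x784) x2296) x2224) x2244) x8802)
    (Nat.add (Nat.add (Nat.add (Nat.add (Nat.add (Nat.add (Nat.add C x2244) x6618) x786) x2298) x2226) x2250) x2242)
    (Nat.add (Nat.add (Nat.add (Nat.add (Nat.add (Nat.add C (Nat.mul x2250 (nat_lit 3))) x6624) x792) x2304) x2232) x2244)
    (Nat.add (Nat.add (Nat.add (Nat.add (Nat.add (Nat.add (Nat.add C x2270) x6644) x812) x2432) x2216) x2272) x8830)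
    (Nat.add (Nat.add (Nat.add (Nat.add (Nat.add (Nat.add (Nat.add (Nat.add (Nat.add C (Nat.mul x2272 (nat_lit 2))) x6646) x814) x2434) x2218) x2278) x2270) x2274) x8832)
    (Nat.add (Nat.add (Nat.add (Nat.add (Nat.add (Nat.add (Nat.add C x2274) x6648) x816) x2436) x2220) x2280) x2272)
    (Nat.add (Nat.add (Nat.add (Nat.add (Nat.add (Nat.add (Nat.add (Nat.add (Nat.add C x2278) x6652) x820) x2440) x2224) x2296) x2272) x2280) x8838)
    (Nat.add (Nat.add (Nat.add (Nat.add (Nat.add (Nat.add (Nat.add (Nat.add (Nat.add C (Nat.mul x2280 (nat_lit 2))) x6654) x822) x2442) x2226) x2298) x2274) x2286) x2278)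
    (Nat.add (Nat.add (Nat.add (Nat.add (Nat.add (Nat.add (Nat.add C x2286) x6660) x828) x2448) x2232) x2304) x2280)
    (Nat.add (Nat.add (Nat.add (Nat.add (Nat.add (Nat.add (Nat.add (Nat.add (Nat.add C (Nat.mul x2296 (nat_lit 2))) x6670) x838) x2458) x2242) x2350) x2278) x2298) x8856)
    (Nat.add (Nat.add (Nat.add (Nat.add (Nat.add (Nat.add (Nat.add (Nat.add (Nat.add C (Nat.mul x2298 (nat_lit 2))) x6672) x840) x2460) x2244) x2352) x2280) x2304) x2296)
    (Nat.add (Nat.add (Nat.add (Nat.add (Nat.add (Nat.add (Nat.add (Nat.add (Nat.add C (Nat.mul x2304 (nat_lit 3))) x6678) x846) x2466) x2250) x2358) x2286) x2322) x2298)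
    (Nat.add (Nat.add (Nat.add (Nat.add (Nat.add (Nat.add C (Nat.mul x2322 (nat_lit 3))) x6696) x864) x2484) x2376) x2304)
    (Nat.add (Nat.add (Nat.add (Nat.add (Nat.add (Nat.add (Nat.add C x2350) x6724) x892) x2512) x2296) x2352) x8910)
    (Nat.add (Nat.add (Nat.add (Nat.add (Nat.add (Nat.add (Nat.add C x2352) x6726) x894) x2514) x2298) x2358) x2350)
    (Nat.add (Nat.add (Nat.add (Nat.add (Nat.add (Nat.add (Nat.add C x2358) x6732) x900) x2520) x2304) x2376) x2352)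
    (Nat.add (Nat.add (Nat.add (Nat.add (Nat.add (Nat.add C (Nat.mul x2376 (nat_lit 3))) x6750) x918) x2538) x2322) x2358)
    (Nat.add (Nat.add (Nat.add (Nat.add (Nat.add (Nat.add (Nat.add C x2432) x6806) x974) x2918) x2270) x2434) x8992)
    (Nat.add (Nat.add (Nat.add (Nat.add (Nat.add (Nat.add (Nat.add (Nat.add (Nat.add C (Nat.mul x2434 (nat_lit 2))) x6808) x976) x2920) x2272) x2440) x2432) x2436) x8994)
    (Nat.add (Nat.add (Nat.add (Nat.add (Nat.add (Nat.add (Nat.add C x2436) x6810) x978) x2922) x2274) x2442) x2434)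
    (Nat.add (Nat.add (Nat.add (Nat.add (Nat.add (Nat.add (Nat.add (Nat.add (Nat.add C x2440) x6814) x982) x2926) x2278) x2458) x2434) x2442) x9000)
    (Nat.add (Nat.add (Nat.add (Nat.add (Nat.add (Nat.add (Nat.add (Nat.add (Nat.add C (Nat.mul x2442 (nat_lit 2))) x6816) x984) x2928) x2280) x2460) x2436) x2448) x2440)
    (Nat.add (Nat.add (Nat.add (Nat.add (Nat.add (Nat.add (Nat.add C x2448) x6822) x990) x2934) x2286) x2466) x2442)
    (Nat.add (Nat.add (Nat.add (Nat.add (Nat.add (Nat.add (Nat.add (Nat.add (Nat.add C x2458) x6832) x1000) x2944) x2296) x2512) x2440) x2460) x9018)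
    (Nat.add (Nat.add (Nat.add (Nat.add (Nat.add (Nat.add (Nat.add (Nat.add (Nat.add C x2460) x6834) x1002) x2946) x2298) x2514) x2442) x2466) x2458)
    (Nat.add (Nat.add (Nat.add (Nat.add (Nat.add (Nat.add (Nat.add (Nat.add (Nat.add C (Nat.mul x2466 (nat_lit 2))) x6840) x1008) x2952) x2304) x2520) x2448) x2484) x2460)
    (Nat.add (Nat.add (Nat.add (Nat.add (Nat.add (Nat.add (Nat.add C x2484) x6858) x1026) x2970) x2322) x2538) x2466)
    (Nat.add (Nat.add (Nat.add (Nat.add (Nat.add (Nat.add (Nat.add (Nat.add (Nat.add C (Nat.mul x2512 (nat_lit 2))) x6886) x1054) x2998) x2350) x2674) x2458) x2514) x9072)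
    (Nat.add (Nat.add (Nat.add (Nat.add (Nat.add (Nat.add (Nat.add (Nat.add (Nat.add C (Nat.mul x2514 (nat_lit 2))) x6888) x1056) x3000) x2352) x2676) x2460) x2520) x2512)
    (Nat.add (Nat.add (Nat.add (Nat.add (Nat.add (Nat.add (Nat.add (Nat.add (Nat.add C (Nat.mul x2520 (nat_lit 2))) x6894) x1062) x3006) x2358) x2682) x2466) x2538) x2514)
    (Nat.add (Nat.add (Nat.add (Nat.add (Nat.add (Nat.add (Nat.add (Nat.add (Nat.add C (Nat.mul x2538 (nat_lit 3))) x6912) x1080) x3024) x2376) x2700) x2484) x2592) x2520)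
    (Nat.add (Nat.add (Nat.add (Nat.add (Nat.add (Nat.add C (Nat.mul x2592 (nat_lit 3))) x6966) x1134) x3078) x2754) x2538)
    (Nat.add (Nat.add (Nat.add (Nat.add (Nat.add (Nat.add (Nat.add C x2674) x7048) x1216) x3160) x2512) x2676) x9234)
    (Nat.add (Nat.add (Nat.add (Nat.add (Nat.add (Nat.add (Nat.add C x2676) x7050) x1218) x3162) x2514) x2682) x2674)
    (Nat.add (Nat.add (Nat.add (Nat.add (Nat.add (Nat.add (Nat.add C x2682) x7056) x1224) x3168) x2520) x2700) x2676)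
    (Nat.add (Nat.add (Nat.add (Nat.add (Nat.add (Nat.add (Nat.add C x2700) x7074) x1242) x3186) x2538) x2754) x2682)
    (Nat.add (Nat.add (Nat.add (Nat.add (Nat.add (Nat.add C (Nat.mul x2754 (nat_lit 3))) x7128) x1296) x3240) x2592) x2700)
    (Nat.add (Nat.add (Nat.add (Nat.add (Nat.add (Nat.add (Nat.add C (Nat.mul x2918 (nat_lit 2))) x7292) x1460) x4376) x2432) x2920) x9478)
    (Nat.add (Nat.add (Nat.add (Nat.add (Nat.add (Nat.add (Nat.add (Nat.add (Nat.add C (Nat.mul x2920 (nat_lit 3))) x7294) x1462) x4378) x2434) x2926) x2918) x2922) x9480)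
    (Nat.add (Nat.add (Nat.add (Nat.add (Nat.add (Nat.add (Nat.add C (Nat.mul x2922 (nat_lit 2))) x7296) x1464) x4380) x2436) x2928) x2920)
    (Nat.add (Nat.add (Nat.add (Nat.add (Nat.add (Nat.add (Nat.add (Nat.add (Nat.add C (Nat.mul x2926 (nat_lit 2))) x7300) x1468) x4384) x2440) x2944) x2920) x2928) x9486)
    (Nat.add (Nat.add (Nat.add (Nat.add (Nat.add (Nat.add (Nat.add (Nat.add (Nat.add C (Nat.mul x2928 (nat_lit 3))) x7302) x1470) x4386) x2442) x2946) x2922) x2934) x2926)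
    (Nat.add (Nat.add (Nat.add (Nat.add (Nat.add (Nat.add (Nat.add C (Nat.mul x2934 (nat_lit 2))) x7308) x1476) x4392) x2448) x2952) x2928)
    (Nat.add (Nat.add (Nat.add (Nat.add (Nat.add (Nat.add (Nat.add (Nat.add (Nat.add C (Nat.mul x2944 (nat_lit 2))) x7318) x1486) x4402) x2458) x2998) x2926) x2946) x9504)
    (Nat.add (Nat.add (Nat.add (Nat.add (Nat.add (Nat.add (Nat.add (Nat.add (Nat.add C (Nat.mul x2946 (nat_lit 2))) x7320) x1488) x4404) x2460) x3000) x2928) x2952) x2944)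
    (Nat.add (Nat.add (Nat.add (Nat.add (Nat.add (Nat.add (Nat.add (Nat.add (Nat.add C (Nat.mul x2952 (nat_lit 3))) x7326) x1494) x4410) x2466) x3006) x2934) x2970) x2946)
    (Nat.add (Nat.add (Nat.add (Nat.add (Nat.add (Nat.add (Nat.add C (Nat.mul x2970 (nat_lit 2))) x7344) x1512) x4428) x2484) x3024) x2952)
    (Nat.add (Nat.add (Nat.add (Nat.add (Nat.add (Nat.add (Nat.add (Nat.add (Nat.add C (Nat.mul x2998 (nat_lit 2))) x7372) x1540) x4456) x2512) x3160) x2944) x3000) x9558)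
    (Nat.add (Nat.add (Nat.add (Nat.add (Nat.add (Nat.add (Nat.add (Nat.add (Nat.add C (Nat.mul x3000 (nat_lit 2))) x7374) x1542) x4458) x2514) x3162) x2946) x3006) x2998)
    (Nat.add (Nat.add (Nat.add (Nat.add (Nat.add (Nat.add (Nat.add (Nat.add (Nat.add C (Nat.mul x3006 (nat_lit 2))) x7380) x1548) x4464) x2520) x3168) x2952) x3024) x3000)
    (Nat.add (Nat.add (Nat.add (Nat.add (Nat.add (Nat.add (Nat.add (Nat.add (Nat.add C (Nat.mul x3024 (nat_lit 3))) x7398) x1566) x4482) x2538) x3186) x2970) x3078) x3006)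
    (Nat.add (Nat.add (Nat.add (Nat.add (Nat.add (Nat.add (Nat.add C (Nat.mul x3078 (nat_lit 2))) x7452) x1620) x4536) x2592) x3240) x3024)
    (Nat.add (Nat.add (Nat.add (Nat.add (Nat.add (Nat.add (Nat.add (Nat.add (Nat.add C (Nat.mul x3160 (nat_lit 3))) x7534) x1702) x4618) x2674) x3646) x2998) x3162) x9720)
    (Nat.add (Nat.add (Nat.add (Nat.add (Nat.add (Nat.add (Nat.add (Nat.add (Nat.add C (Nat.mul x3162 (nat_lit 3))) x7536) x1704) x4620) x2676) x3648) x3000) x3168) x3160)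
    (Nat.add (Nat.add (Nat.add (Nat.add (Nat.add (Nat.add (Nat.add (Nat.add (Nat.add C (Nat.mul x3168 (nat_lit 3))) x7542) x1710) x4626) x2682) x3654) x3006) x3186) x3162)
    (Nat.add (Nat.add (Nat.add (Nat.add (Nat.add (Nat.add (Nat.add (Nat.add (Nat.add C (Nat.mul x3186 (nat_lit 3))) x7560) x1728) x4644) x2700) x3672) x3024) x3240) x3168)
    (Nat.add (Nat.add (Nat.add (Nat.add (Nat.add (Nat.add (Nat.add (Nat.add (Nat.add C (Nat.mul x3240 (nat_lit 4))) x7614) x1782) x4698) x2754) x3726) x3078) x3402) x3186)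
    (Nat.add (Nat.add (Nat.add (Nat.add (Nat.add (Nat.add C (Nat.mul x3402 (nat_lit 4))) x7776) x1944) x4860) x3888) x3240)
    (Nat.add (Nat.add (Nat.add (Nat.add (Nat.add (Nat.add C (Nat.mul x3646 (nat_lit 3))) x8020) x5104) x3160) x3648) x10206)
    (Nat.add (Nat.add (Nat.add (Nat.add (Nat.add (Nat.add C (Nat.mul x3648 (nat_lit 3))) x8022) x5106) x3162) x3654) x3646)
    (Nat.add (Nat.add (Nat.add (Nat.add (Nat.add (Nat.add C (Nat.mul x3654 (nat_lit 3))) x8028) x5112) x3168) x3672) x3648)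
    (Nat.add (Nat.add (Nat.add (Nat.add (Nat.add (Nat.add C (Nat.mul x3672 (nat_lit 3))) x8046) x5130) x3186) x3726) x3654)
    (Nat.add (Nat.add (Nat.add (Nat.add (Nat.add (Nat.add C (Nat.mul x3726 (nat_lit 3))) x8100) x5184) x3240) x3888) x3672)
    (Nat.add (Nat.add (Nat.add (Nat.add (Nat.add C (Nat.mul x3888 (nat_lit 5))) x8262) x5346) x3402) x3726)
    (Nat.add (Nat.add (Nat.add (Nat.add (Nat.add C x4376) x8750) x2918) x4378) x10936)
    (Nat.add (Nat.add (Nat.add (Nat.add (Nat.add (Nat.add (Nat.add C (Nat.mul x4378 (nat_lit 2))) x8752) x2920) x4384) x4376) x4380) x10938)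
    (Nat.add (Nat.add (Nat.add (Nat.add (Nat.add C x4380) x8754) x2922) x4386) x4378)
    (Nat.add (Nat.add (Nat.add (Nat.add (Nat.add (Nat.add (Nat.add C x4384) x8758) x2926) x4402) x4378) x4386) x10944)
    (Nat.add (Nat.add (Nat.add (Nat.add (Nat.add (Nat.add (Nat.add C (Nat.mul x4386 (nat_lit 2))) x8760) x2928) x4404) x4380) x4392) x4384)
    (Nat.add (Nat.add (Nat.add (Nat.add (Nat.add C x4392) x8766) x2934) x4410) x4386)
    (Nat.add (Nat.add (Nat.add (Nat.add (Nat.add (Nat.add (Nat.add C x4402) x8776) x2944) x4456) x4384) x4404) x10962)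
    (Nat.add (Nat.add (Nat.add (Nat.add (Nat.add (Nat.add (Nat.add C x4404) x8778) x2946) x4458) x4386) x4410) x4402)
    (Nat.add (Nat.add (Nat.add (Nat.add (Nat.add (Nat.add (Nat.add C (Nat.mul x4410 (nat_lit 2))) x8784) x2952) x4464) x4392) x4428) x4404)
    (Nat.add (Nat.add (Nat.add (Nat.add (Nat.add C x4428) x8802) x2970) x4482) x4410)
    (Nat.add (Nat.add (Nat.add (Nat.add (Nat.add (Nat.add (Nat.add C x4456) x8830) x2998) x4618) x4402) x4458) x11016)
    (Nat.add (Nat.add (Nat.add (Nat.add (Nat.add (Nat.add (Nat.add C x4458) x8832) x3000) x4620) x4404) x4464) x4456)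
    (Nat.add (Nat.add (Nat.add (Nat.add (Nat.add (Nat.add (Nat.add C x4464) x8838) x3006) x4626) x4410) x4482) x4458)
    (Nat.add (Nat.add (Nat.add (Nat.add (Nat.add (Nat.add (Nat.add C (Nat.mul x4482 (nat_lit 2))) x8856) x3024) x4644) x4428) x4536) x4464)
    (Nat.add (Nat.add (Nat.add (Nat.add (Nat.add C x4536) x8910) x3078) x4698) x4482)
    (Nat.add (Nat.add (Nat.add (Nat.add (Nat.add (Nat.add (Nat.add C x4618) x8992) x3160) x5104) x4456) x4620) x11178)
    (Nat.add (Nat.add (Nat.add (Nat.add (Nat.add (Nat.add (Nat.add C x4620) x8994) x3162) x5106) x4458) x4626) x4618)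
    (Nat.add (Nat.add (Nat.add (Nat.add (Nat.add (Nat.add (Nat.add C x4626) x9000) x3168) x5112) x4464) x4644) x4620)
    (Nat.add (Nat.add (Nat.add (Nat.add (Nat.add (Nat.add (Nat.add C x4644) x9018) x3186) x5130) x4482) x4698) x4626)
    (Nat.add (Nat.add (Nat.add (Nat.add (Nat.add (Nat.add (Nat.add C (Nat.mul x4698 (nat_lit 2))) x9072) x3240) x5184) x4536) x4860) x4644)
    (Nat.add (Nat.add (Nat.add (Nat.add (Nat.add C x4860) x9234) x3402) x5346) x4698)
    (Nat.add (Nat.add (Nat.add (Nat.add (Nat.add (Nat.add C (Nat.mul x5104 (nat_lit 3))) x9478) x3646) x4618) x5106) x11664)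
    (Nat.add (Nat.add (Nat.add (Nat.add (Nat.add (Nat.add C (Nat.mul x5106 (nat_lit 3))) x9480) x3648) x4620) x5112) x5104)
    (Nat.add (Nat.add (Nat.add (Nat.add (Nat.add (Nat.add C (Nat.mul x5112 (nat_lit 3))) x9486) x3654) x4626) x5130) x5106)
    (Nat.add (Nat.add (Nat.add (Nat.add (Nat.add (Nat.add C (Nat.mul x5130 (nat_lit 3))) x9504) x3672) x4644) x5184) x5112)
    (Nat.add (Nat.add (Nat.add (Nat.add (Nat.add (Nat.add C (Nat.mul x5184 (nat_lit 3))) x9558) x3726) x4698) x5346) x5130)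
    (Nat.add (Nat.add (Nat.add (Nat.add (Nat.add (Nat.add C (Nat.mul x5346 (nat_lit 4))) x9720) x3888) x4860) x5832) x5184)
    (Nat.add (Nat.add (Nat.add C (Nat.mul x5832 (nat_lit 5))) x10206) x5346)
    (Nat.add (Nat.add (Nat.add (Nat.add (Nat.add C (Nat.mul x6566 (nat_lit 5))) x2192) x6572) x6568) x13126)
    (Nat.add (Nat.add (Nat.add (Nat.add (Nat.add (Nat.add C (Nat.mul x6568 (nat_lit 4))) x2194) x6574) x6566) x13128) x8)
    (Nat.add (Nat.add (Nat.add (Nat.add (Nat.add (Nat.add C (Nat.mul x6572 (nat_lit 3))) x2198) x6590) x6566) x6574) x13132)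
    (Nat.add (Nat.add (Nat.add (Nat.add (Nat.add (Nat.add (Nat.add (Nat.add (Nat.add C (Nat.mul x6574 (nat_lit 4))) x2200) x6592) x6568) x6580) x6572) x6576) x13134) x14)
    (Nat.add (Nat.add (Nat.add (Nat.add (Nat.add (Nat.add C (Nat.mul x6576 (nat_lit 3))) x2202) x6594) x6582) x6574) x16)
    (Nat.add (Nat.add (Nat.add (Nat.add (Nat.add (Nat.add (Nat.add C (Nat.mul x6580 (nat_lit 2))) x2206) x6598) x6574) x6582) x13140) x20)
    (Nat.add (Nat.add (Nat.add (Nat.add (Nat.add (Nat.add C (Nat.mul x6582 (nat_lit 3))) x2208) x6600) x6576) x6580) x22)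
    (Nat.add (Nat.add (Nat.add (Nat.add (Nat.add (Nat.add C (Nat.mul x6590 (nat_lit 3))) x2216) x6644) x6572) x6592) x13150)
    (Nat.add (Nat.add (Nat.add (Nat.add (Nat.add (Nat.add (Nat.add (Nat.add (Nat.add C (Nat.mul x6592 (nat_lit 3))) x2218) x6646) x6574) x6598) x6590) x6594) x13152) x32)
    (Nat.add (Nat.add (Nat.add (Nat.add (Nat.add (Nat.add (Nat.add C x6594) x2220) x6648) x6576) x6600) x6592) x34)
    (Nat.add (Nat.add (Nat.add (Nat.add (Nat.add (Nat.add (Nat.add (Nat.add (Nat.add C (Nat.mul x6598 (nat_lit 3))) x2224) x6652) x6580) x6616) x6592) x6600) x13158) x38)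
    (Nat.add (Nat.add (Nat.add (Nat.add (Nat.add (Nat.add (Nat.add (Nat.add (Nat.add C (Nat.mul x6600 (nat_lit 3))) x2226) x6654) x6582) x6618) x6594) x6606) x6598) x40)
    (Nat.add (Nat.add (Nat.add (Nat.add (Nat.add (Nat.add C (Nat.mul x6606 (nat_lit 3))) x2232) x6660) x6624) x6600) x46)
    (Nat.add (Nat.add (Nat.add (Nat.add (Nat.add (Nat.add (Nat.add C (Nat.mul x6616 (nat_lit 2))) x2242) x6670) x6598) x6618) x13176) x56)
    (Nat.add (Nat.add (Nat.add (Nat.add (Nat.add (Nat.add (Nat.add C x6618) x2244) x6672) x6600) x6624) x6616) x58)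
    (Nat.add (Nat.add (Nat.add (Nat.add (Nat.add (Nat.add C (Nat.mul x6624 (nat_lit 3))) x2250) x6678) x6606) x6618) x64)
    (Nat.add (Nat.add (Nat.add (Nat.add (Nat.add (Nat.add C (Nat.mul x6644 (nat_lit 3))) x2270) x6806) x6590) x6646) x13204)
    (Nat.add (Nat.add (Nat.add (Nat.add (Nat.add (Nat.add (Nat.add (Nat.add (Nat.add C (Nat.mul x6646 (nat_lit 3))) x2272) x6808) x6592) x6652) x6644) x6648) x13206) x86)
    (Nat.add (Nat.add (Nat.add (Nat.add (Nat.add (Nat.add (Nat.add C x6648) x2274) x6810) x6594) x6654) x6646) x88)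
    (Nat.add (Nat.add (Nat.add (Nat.add (Nat.add (Nat.add (Nat.add (Nat.add (Nat.add C (Nat.mul x6652 (nat_lit 2))) x2278) x6814) x6598) x6670) x6646) x6654) x13212) x92)
    (Nat.add (Nat.add (Nat.add (Nat.add (Nat.add (Nat.add (Nat.add (Nat.add (Nat.add C (Nat.mul x6654 (nat_lit 2))) x2280) x6816) x6600) x6672) x6648) x6660) x6652) x94)
    (Nat.add (Nat.add (Nat.add (Nat.add (Nat.add (Nat.add (Nat.add C x6660) x2286) x6822) x6606) x6678) x6654) x100)
    (Nat.add (Nat.add (Nat.add (Nat.add (Nat.add (Nat.add (Nat.add (Nat.add (Nat.add C (Nat.mul x6670 (nat_lit 3))) x2296) x6832) x6616) x6724) x6652) x6672) x13230) x110)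
    (Nat.add (Nat.add (Nat.add (Nat.add (Nat.add (Nat.add (Nat.add (Nat.add (Nat.add C (Nat.mul x6672 (nat_lit 2))) x2298) x6834) x6618) x6726) x6654) x6678) x6670) x112)
    (Nat.add (Nat.add (Nat.add (Nat.add (Nat.add (Nat.add (Nat.add (Nat.add (Nat.add C (Nat.mul x6678 (nat_lit 3))) x2304) x6840) x6624) x6732) x6660) x6696) x6672) x118)
    (Nat.add (Nat.add (Nat.add (Nat.add (Nat.add (Nat.add C (Nat.mul x6696 (nat_lit 3))) x2322) x6858) x6750) x6678) x136)
    (Nat.add (Nat.add (Nat.add (Nat.add (Nat.add (Nat.add (Nat.add C (Nat.mul x6724 (nat_lit 2))) x2350) x6886) x6670) x6726) x13284) x164)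
    (Nat.add (Nat.add (Nat.add (Nat.add (Nat.add (Nat.add (Nat.add C x6726) x2352) x6888) x6672) x6732) x6724) x166)
    (Nat.add (Nat.add (Nat.add (Nat.add (Nat.add (Nat.add (Nat.add C x6732) x2358) x6894) x6678) x6750) x6726) x172)
    (Nat.add (Nat.add (Nat.add (Nat.add (Nat.add (Nat.add C (Nat.mul x6750 (nat_lit 3))) x2376) x6912) x6696) x6732) x190)
    (Nat.add (Nat.add (Nat.add (Nat.add (Nat.add (Nat.add C (Nat.mul x6806 (nat_lit 3))) x2432) x7292) x6644) x6808) x13366)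
    (Nat.add (Nat.add (Nat.add (Nat.add (Nat.add (Nat.add (Nat.add (Nat.add (Nat.add C (Nat.mul x6808 (nat_lit 3))) x2434) x7294) x6646) x6814) x6806) x6810) x13368) x248)
    (Nat.add (Nat.add (Nat.add (Nat.add (Nat.add (Nat.add (Nat.add C x6810) x2436) x7296) x6648) x6816) x6808) x250)
    (Nat.add (Nat.add (Nat.add (Nat.add (Nat.add (Nat.add (Nat.add (Nat.add (Nat.add C (Nat.mul x6814 (nat_lit 2))) x2440) x7300) x6652) x6832) x6808) x6816) x13374) x254)
    (Nat.add (Nat.add (Nat.add (Nat.add (Nat.add (Nat.add (Nat.add (Nat.add (Nat.add C (Nat.mul x6816 (nat_lit 2))) x2442) x7302) x6654) x6834) x6810) x6822) x6814) x256)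
    (Nat.add (Nat.add (Nat.add (Nat.add (Nat.add (Nat.add (Nat.add C x6822) x2448) x7308) x6660) x6840) x6816) x262)
    (Nat.add (Nat.add (Nat.add (Nat.add (Nat.add (Nat.add (Nat.add (Nat.add (Nat.add C (Nat.mul x6832 (nat_lit 2))) x2458) x7318) x6670) x6886) x6814) x6834) x13392) x272)
    (Nat.add (Nat.add (Nat.add (Nat.add (Nat.add (Nat.add (Nat.add (Nat.add (Nat.add C x6834) x2460) x7320) x6672) x6888) x6816) x6840) x6832) x274)
    (Nat.add (Nat.add (Nat.add (Nat.add (Nat.add (Nat.add (Nat.add (Nat.add (Nat.add C (Nat.mul x6840 (nat_lit 2))) x2466) x7326) x6678) x6894) x6822) x6858) x6834) x280)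
    (Nat.add (Nat.add (Nat.add (Nat.add (Nat.add (Nat.add (Nat.add C x6858) x2484) x7344) x6696) x6912) x6840) x298)
    (Nat.add (Nat.add (Nat.add (Nat.add (Nat.add (Nat.add (Nat.add (Nat.add (Nat.add C (Nat.mul x6886 (nat_lit 3))) x2512) x7372) x6724) x7048) x6832) x6888) x13446) x326)
    (Nat.add (Nat.add (Nat.add (Nat.add (Nat.add (Nat.add (Nat.add (Nat.add (Nat.add C (Nat.mul x6888 (nat_lit 2))) x2514) x7374) x6726) x7050) x6834) x6894) x6886) x328)
    (Nat.add (Nat.add (Nat.add (Nat.add (Nat.add (Nat.add (Nat.add (Nat.add (Nat.add C (Nat.mul x6894 (nat_lit 2))) x2520) x7380) x6732) x7056) x6840) x6912) x6888) x334)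
    (Nat.add (Nat.add (Nat.add (Nat.add (Nat.add (Nat.add (Nat.add (Nat.add (Nat.add C (Nat.mul x6912 (nat_lit 3))) x2538) x7398) x6750) x7074) x6858) x6966) x6894) x352)
    (Nat.add (Nat.add (Nat.add (Nat.add (Nat.add (Nat.add C (Nat.mul x6966 (nat_lit 3))) x2592) x7452) x7128) x6912) x406)
    (Nat.add (Nat.add (Nat.add (Nat.add (Nat.add (Nat.add (Nat.add C (Nat.mul x7048 (nat_lit 2))) x2674) x7534) x6886) x7050) x13608) x488)
    (Nat.add (Nat.add (Nat.add (Nat.add (Nat.add (Nat.add (Nat.add C x7050) x2676) x7536) x6888) x7056) x7048) x490)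
    (Nat.add (Nat.add (Nat.add (Nat.add (Nat.add (Nat.add (Nat.add C x7056) x2682) x7542) x6894) x7074) x7050) x496)
    (Nat.add (Nat.add (Nat.add (Nat.add (Nat.add (Nat.add (Nat.add C x7074) x2700) x7560) x6912) x7128) x7056) x514)
    (Nat.add (Nat.add (Nat.add (Nat.add (Nat.add (Nat.add C (Nat.mul x7128 (nat_lit 3))) x2754) x7614) x6966) x7074) x568)
    (Nat.add (Nat.add (Nat.add (Nat.add (Nat.add (Nat.add C (Nat.mul x7292 (nat_lit 3))) x2918) x8750) x6806) x7294) x13852)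
    (Nat.add (Nat.add (Nat.add (Nat.add (Nat.add (Nat.add (Nat.add (Nat.add (Nat.add C (Nat.mul x7294 (nat_lit 3))) x2920) x8752) x6808) x7300) x7292) x7296) x13854) x734)
    (Nat.add (Nat.add (Nat.add (Nat.add (Nat.add (Nat.add (Nat.add C x7296) x2922) x8754) x6810) x7302) x7294) x736)
    (Nat.add (Nat.add (Nat.add (Nat.add (Nat.add (Nat.add (Nat.add (Nat.add (Nat.add C (Nat.mul x7300 (nat_lit 2))) x2926) x8758) x6814) x7318) x7294) x7302) x13860) x740)
    (Nat.add (Nat.add (Nat.add (Nat.add (Nat.add (Nat.add (Nat.add (Nat.add (Nat.add C (Nat.mul x7302 (nat_lit 2))) x2928) x8760) x6816) x7320) x7296) x7308) x7300) x742)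
    (Nat.add (Nat.add (Nat.add (Nat.add (Nat.add (Nat.add (Nat.add C x7308) x2934) x8766) x6822) x7326) x7302) x748)
    (Nat.add (Nat.add (Nat.add (Nat.add (Nat.add (Nat.add (Nat.add (Nat.add (Nat.add C (Nat.mul x7318 (nat_lit 2))) x2944) x8776) x6832) x7372) x7300) x7320) x13878) x758)
    (Nat.add (Nat.add (Nat.add (Nat.add (Nat.add (Nat.add (Nat.add (Nat.add (Nat.add C x7320) x2946) x8778) x6834) x7374) x7302) x7326) x7318) x760)
    (Nat.add (Nat.add (Nat.add (Nat.add (Nat.add (Nat.add (Nat.add (Nat.add (Nat.add C (Nat.mul x7326 (nat_lit 2))) x2952) x8784) x6840) x7380) x7308) x7344) x7320) x766)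
    (Nat.add (Nat.add (Nat.add (Nat.add (Nat.add (Nat.add (Nat.add C x7344) x2970) x8802) x6858) x7398) x7326) x784)
    (Nat.add (Nat.add (Nat.add (Nat.add (Nat.add (Nat.add (Nat.add (Nat.add (Nat.add C (Nat.mul x7372 (nat_lit 2))) x2998) x8830) x6886) x7534) x7318) x7374) x13932) x812)
    (Nat.add (Nat.add (Nat.add (Nat.add (Nat.add (Nat.add (Nat.add (Nat.add (Nat.add C x7374) x3000) x8832) x6888) x7536) x7320) x7380) x7372) x814)
    (Nat.add (Nat.add (Nat.add (Nat.add (Nat.add (Nat.add (Nat.add (Nat.add (Nat.add C x7380) x3006) x8838) x6894) x7542) x7326) x7398) x7374) x820)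
    (Nat.add (Nat.add (Nat.add (Nat.add (Nat.add (Nat.add (Nat.add (Nat.add (Nat.add C (Nat.mul x7398 (nat_lit 2))) x3024) x8856) x6912) x7560) x7344) x7452) x7380) x838)
    (Nat.add (Nat.add (Nat.add (Nat.add (Nat.add (Nat.add (Nat.add C x7452) x3078) x8910) x6966) x7614) x7398) x892)
    (Nat.add (Nat.add (Nat.add (Nat.add (Nat.add (Nat.add (Nat.add (Nat.add (Nat.add C (Nat.mul x7534 (nat_lit 3))) x3160) x8992) x7048) x8020) x7372) x7536) x14094) x974)
    (Nat.add (Nat.add (Nat.add (Nat.add (Nat.add (Nat.add (Nat.add (Nat.add (Nat.add C (Nat.mul x7536 (nat_lit 2))) x3162) x8994) x7050) x8022) x7374) x7542) x7534) x976)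
    (Nat.add (Nat.add (Nat.add (Nat.add (Nat.add (Nat.add (Nat.add (Nat.add (Nat.add C (Nat.mul x7542 (nat_lit 2))) x3168) x9000) x7056) x8028) x7380) x7560) x7536) x982)
    (Nat.add (Nat.add (Nat.add (Nat.add (Nat.add (Nat.add (Nat.add (Nat.add (Nat.add C (Nat.mul x7560 (nat_lit 2))) x3186) x9018) x7074) x8046) x7398) x7614) x7542) x1000)
    (Nat.add (Nat.add (Nat.add (Nat.add (Nat.add (Nat.add (Nat.add (Nat.add (Nat.add C (Nat.mul x7614 (nat_lit 3))) x3240) x9072) x7128) x8100) x7452) x7776) x7560) x1054)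
    (Nat.add (Nat.add (Nat.add (Nat.add (Nat.add (Nat.add C (Nat.mul x7776 (nat_lit 3))) x3402) x9234) x8262) x7614) x1216)
    (Nat.add (Nat.add (Nat.add (Nat.add (Nat.add (Nat.add (Nat.add C (Nat.mul x8020 (nat_lit 2))) x3646) x9478) x7534) x8022) x14580) x1460)
    (Nat.add (Nat.add (Nat.add (Nat.add (Nat.add (Nat.add (Nat.add C x8022) x3648) x9480) x7536) x8028) x8020) x1462)
    (Nat.add (Nat.add (Nat.add (Nat.add (Nat.add (Nat.add (Nat.add C x8028) x3654) x9486) x7542) x8046) x8022) x1468)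
    (Nat.add (Nat.add (Nat.add (Nat.add (Nat.add (Nat.add (Nat.add C x8046) x3672) x9504) x7560) x8100) x8028) x1486)
    (Nat.add (Nat.add (Nat.add (Nat.add (Nat.add (Nat.add (Nat.add C x8100) x3726) x9558) x7614) x8262) x8046) x1540)
    (Nat.add (Nat.add (Nat.add (Nat.add (Nat.add (Nat.add C (Nat.mul x8262 (nat_lit 3))) x3888) x9720) x7776) x8100) x1702)
    (Nat.add (Nat.add (Nat.add (Nat.add (Nat.add (Nat.add C (Nat.mul x8750 (nat_lit 4))) x4376) x13124) x7292) x8752) x15310)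
    (Nat.add (Nat.add (Nat.add (Nat.add (Nat.add (Nat.add (Nat.add (Nat.add (Nat.add C (Nat.mul x8752 (nat_lit 4))) x4378) x13126) x7294) x8758) x8750) x8754) x15312) x2192)
    (Nat.add (Nat.add (Nat.add (Nat.add (Nat.add (Nat.add (Nat.add C (Nat.mul x8754 (nat_lit 2))) x4380) x13128) x7296) x8760) x8752) x2194)
    (Nat.add (Nat.add (Nat.add (Nat.add (Nat.add (Nat.add (Nat.add (Nat.add (Nat.add C (Nat.mul x8758 (nat_lit 3))) x4384) x13132) x7300) x8776) x8752) x8760) x15318) x2198)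
    (Nat.add (Nat.add (Nat.add (Nat.add (Nat.add (Nat.add (Nat.add (Nat.add (Nat.add C (Nat.mul x8760 (nat_lit 3))) x4386) x13134) x7302) x8778) x8754) x8766) x8758) x2200)
    (Nat.add (Nat.add (Nat.add (Nat.add (Nat.add (Nat.add (Nat.add C (Nat.mul x8766 (nat_lit 2))) x4392) x13140) x7308) x8784) x8760) x2206)
    (Nat.add (Nat.add (Nat.add (Nat.add (Nat.add (Nat.add (Nat.add (Nat.add (Nat.add C (Nat.mul x8776 (nat_lit 3))) x4402) x13150) x7318) x8830) x8758) x8778) x15336) x2216)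
    (Nat.add (Nat.add (Nat.add (Nat.add (Nat.add (Nat.add (Nat.add (Nat.add (Nat.add C (Nat.mul x8778 (nat_lit 2))) x4404) x13152) x7320) x8832) x8760) x8784) x8776) x2218)
    (Nat.add (Nat.add (Nat.add (Nat.add (Nat.add (Nat.add (Nat.add (Nat.add (Nat.add C (Nat.mul x8784 (nat_lit 3))) x4410) x13158) x7326) x8838) x8766) x8802) x8778) x2224)
    (Nat.add (Nat.add (Nat.add (Nat.add (Nat.add (Nat.add (Nat.add C (Nat.mul x8802 (nat_lit 2))) x4428) x13176) x7344) x8856) x8784) x2242)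
    (Nat.add (Nat.add (Nat.add (Nat.add (Nat.add (Nat.add (Nat.add (Nat.add (Nat.add C (Nat.mul x8830 (nat_lit 3))) x4456) x13204) x7372) x8992) x8776) x8832) x15390) x2270)
    (Nat.add (Nat.add (Nat.add (Nat.add (Nat.add (Nat.add (Nat.add (Nat.add (Nat.add C (Nat.mul x8832 (nat_lit 2))) x4458) x13206) x7374) x8994) x8778) x8838) x8830) x2272)
    (Nat.add (Nat.add (Nat.add (Nat.add (Nat.add (Nat.add (Nat.add (Nat.add (Nat.add C (Nat.mul x8838 (nat_lit 2))) x4464) x13212) x7380) x9000) x8784) x8856) x8832) x2278)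
    (Nat.add (Nat.add (Nat.add (Nat.add (Nat.add (Nat.add (Nat.add (Nat.add (Nat.add C (Nat.mul x8856 (nat_lit 3))) x4482) x13230) x7398) x9018) x8802) x8910) x8838) x2296)
    (Nat.add (Nat.add (Nat.add (Nat.add (Nat.add (Nat.add (Nat.add C (Nat.mul x8910 (nat_lit 2))) x4536) x13284) x7452) x9072) x8856) x2350)
    (Nat.add (Nat.add (Nat.add (Nat.add (Nat.add (Nat.add (Nat.add (Nat.add (Nat.add C (Nat.mul x8992 (nat_lit 3))) x4618) x13366) x7534) x9478) x8830) x8994) x15552) x2432)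
    (Nat.add (Nat.add (Nat.add (Nat.add (Nat.add (Nat.add (Nat.add (Nat.add (Nat.add C (Nat.mul x8994 (nat_lit 2))) x4620) x13368) x7536) x9480) x8832) x9000) x8992) x2434)
    (Nat.add (Nat.add (Nat.add (Nat.add (Nat.add (Nat.add (Nat.add (Nat.add (Nat.add C (Nat.mul x9000 (nat_lit 2))) x4626) x13374) x7542) x9486) x8838) x9018) x8994) x2440)
    (Nat.add (Nat.add (Nat.add (Nat.add (Nat.add (Nat.add (Nat.add (Nat.add (Nat.add C (Nat.mul x9018 (nat_lit 2))) x4644) x13392) x7560) x9504) x8856) x9072) x9000) x2458)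
    (Nat.add (Nat.add (Nat.add (Nat.add (Nat.add (Nat.add (Nat.add (Nat.add (Nat.add C (Nat.mul x9072 (nat_lit 3))) x4698) x13446) x7614) x9558) x8910) x9234) x9018) x2512)
    (Nat.add (Nat.add (Nat.add (Nat.add (Nat.add (Nat.add (Nat.add C (Nat.mul x9234 (nat_lit 2))) x4860) x13608) x7776) x9720) x9072) x2674)
    (Nat.add (Nat.add (Nat.add (Nat.add (Nat.add (Nat.add (Nat.add (Nat.add (Nat.add C (Nat.mul x9478 (nat_lit 4))) x5104) x13852) x8020) x10936) x8992) x9480) x16038) x2918)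
    (Nat.add (Nat.add (Nat.add (Nat.add (Nat.add (Nat.add (Nat.add (Nat.add (Nat.add C (Nat.mul x9480 (nat_lit 3))) x5106) x13854) x8022) x10938) x8994) x9486) x9478) x2920)
    (Nat.add (Nat.add (Nat.add (Nat.add (Nat.add (Nat.add (Nat.add (Nat.add (Nat.add C (Nat.mul x9486 (nat_lit 3))) x5112) x13860) x8028) x10944) x9000) x9504) x9480) x2926)
    (Nat.add (Nat.add (Nat.add (Nat.add (Nat.add (Nat.add (Nat.add (Nat.add (Nat.add C (Nat.mul x9504 (nat_lit 3))) x5130) x13878) x8046) x10962) x9018) x9558) x9486) x2944)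
    (Nat.add (Nat.add (Nat.add (Nat.add (Nat.add (Nat.add (Nat.add (Nat.add (Nat.add C (Nat.mul x9558 (nat_lit 3))) x5184) x13932) x8100) x11016) x9072) x9720) x9504) x2998)
    (Nat.add (Nat.add (Nat.add (Nat.add (Nat.add (Nat.add (Nat.add (Nat.add (Nat.add C (Nat.mul x9720 (nat_lit 4))) x5346) x14094) x8262) x11178) x9234) x10206) x9558) x3160)
    (Nat.add (Nat.add (Nat.add (Nat.add (Nat.add (Nat.add C (Nat.mul x10206 (nat_lit 4))) x5832) x14580) x11664) x9720) x3646)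
    (Nat.add (Nat.add (Nat.add (Nat.add (Nat.add (Nat.add C (Nat.mul x10936 (nat_lit 4))) x15310) x9478) x10938) x17496) x4376)
    (Nat.add (Nat.add (Nat.add (Nat.add (Nat.add (Nat.add C (Nat.mul x10938 (nat_lit 3))) x15312) x9480) x10944) x10936) x4378)
    (Nat.add (Nat.add (Nat.add (Nat.add (Nat.add (Nat.add C (Nat.mul x10944 (nat_lit 3))) x15318) x9486) x10962) x10938) x4384)
    (Nat.add (Nat.add (Nat.add (Nat.add (Nat.add (Nat.add C (Nat.mul x10962 (nat_lit 3))) x15336) x9504) x11016) x10944) x4402)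
    (Nat.add (Nat.add (Nat.add (Nat.add (Nat.add (Nat.add C (Nat.mul x11016 (nat_lit 3))) x15390) x9558) x11178) x10962) x4456)
    (Nat.add (Nat.add (Nat.add (Nat.add (Nat.add (Nat.add C (Nat.mul x11178 (nat_lit 3))) x15552) x9720) x11664) x11016) x4618)
    (Nat.add (Nat.add (Nat.add (Nat.add (Nat.add C (Nat.mul x11664 (nat_lit 5))) x16038) x10206) x11178) x5104)
    (Nat.add (Nat.add (Nat.add C (Nat.mul x13124 (nat_lit 5))) x8750) x13126)
    (Nat.add (Nat.add (Nat.add (Nat.add (Nat.add (Nat.add C (Nat.mul x13126 (nat_lit 4))) x8752) x13132) x13124) x13128) x6566)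
    (Nat.add (Nat.add (Nat.add (Nat.add (Nat.add C x13128) x8754) x13134) x13126) x6568)
    (Nat.add (Nat.add (Nat.add (Nat.add (Nat.add (Nat.add C (Nat.mul x13132 (nat_lit 3))) x8758) x13150) x13126) x13134) x6572)
    (Nat.add (Nat.add (Nat.add (Nat.add (Nat.add (Nat.add (Nat.add C (Nat.mul x13134 (nat_lit 2))) x8760) x13152) x13128) x13140) x13132) x6574)
    (Nat.add (Nat.add (Nat.add (Nat.add (Nat.add C x13140) x8766) x13158) x13134) x6580)
    (Nat.add (Nat.add (Nat.add (Nat.add (Nat.add (Nat.add C (Nat.mul x13150 (nat_lit 3))) x8776) x13204) x13132) x13152) x6590)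
    (Nat.add (Nat.add (Nat.add (Nat.add (Nat.add (Nat.add (Nat.add C x13152) x8778) x13206) x13134) x13158) x13150) x6592)
    (Nat.add (Nat.add (Nat.add (Nat.add (Nat.add (Nat.add (Nat.add C (Nat.mul x13158 (nat_lit 2))) x8784) x13212) x13140) x13176) x13152) x6598)
    (Nat.add (Nat.add (Nat.add (Nat.add (Nat.add C x13176) x8802) x13230) x13158) x6616)
    (Nat.add (Nat.add (Nat.add (Nat.add (Nat.add (Nat.add C (Nat.mul x13204 (nat_lit 3))) x8830) x13366) x13150) x13206) x6644)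
    (Nat.add (Nat.add (Nat.add (Nat.add (Nat.add (Nat.add (Nat.add C x13206) x8832) x13368) x13152) x13212) x13204) x6646)
    (Nat.add (Nat.add (Nat.add (Nat.add (Nat.add (Nat.add (Nat.add C x13212) x8838) x13374) x13158) x13230) x13206) x6652)
    (Nat.add (Nat.add (Nat.add (Nat.add (Nat.add (Nat.add (Nat.add C (Nat.mul x13230 (nat_lit 2))) x8856) x13392) x13176) x13284) x13212) x6670)
    (Nat.add (Nat.add (Nat.add (Nat.add (Nat.add C x13284) x8910) x13446) x13230) x6724)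
    (Nat.add (Nat.add (Nat.add (Nat.add (Nat.add (Nat.add C (Nat.mul x13366 (nat_lit 3))) x8992) x13852) x13204) x13368) x6806)
    (Nat.add (Nat.add (Nat.add (Nat.add (Nat.add (Nat.add (Nat.add C x13368) x8994) x13854) x13206) x13374) x13366) x6808)
    (Nat.add (Nat.add (Nat.add (Nat.add (Nat.add (Nat.add (Nat.add C x13374) x9000) x13860) x13212) x13392) x13368) x6814)
    (Nat.add (Nat.add (Nat.add (Nat.add (Nat.add (Nat.add (Nat.add C x13392) x9018) x13878) x13230) x13446) x13374) x6832)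
    (Nat.add (Nat.add (Nat.add (Nat.add (Nat.add (Nat.add (Nat.add C (Nat.mul x13446 (nat_lit 2))) x9072) x13932) x13284) x13608) x13392) x6886)
    (Nat.add (Nat.add (Nat.add (Nat.add (Nat.add C x13608) x9234) x14094) x13446) x7048)
    (Nat.add (Nat.add (Nat.add (Nat.add (Nat.add (Nat.add C (Nat.mul x13852 (nat_lit 3))) x9478) x15310) x13366) x13854) x7292)
    (Nat.add (Nat.add (Nat.add (Nat.add (Nat.add (Nat.add (Nat.add C x13854) x9480) x15312) x13368) x13860) x13852) x7294)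
    (Nat.add (Nat.add (Nat.add (Nat.add (Nat.add (Nat.add (Nat.add C x13860) x9486) x15318) x13374) x13878) x13854) x7300)
    (Nat.add (Nat.add (Nat.add (Nat.add (Nat.add (Nat.add (Nat.add C x13878) x9504) x15336) x13392) x13932) x13860) x7318)
    (Nat.add (Nat.add (Nat.add (Nat.add (Nat.add (Nat.add (Nat.add C x13932) x9558) x15390) x13446) x14094) x13878) x7372)
    (Nat.add (Nat.add (Nat.add (Nat.add (Nat.add (Nat.add (Nat.add C (Nat.mul x14094 (nat_lit 2))) x9720) x15552) x13608) x14580) x13932) x7534)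
    (Nat.add (Nat.add (Nat.add (Nat.add (Nat.add C x14580) x10206) x16038) x14094) x8020)
    (Nat.add (Nat.add (Nat.add (Nat.add (Nat.add C (Nat.mul x15310 (nat_lit 5))) x10936) x13852) x15312) x8750)
    (Nat.add (Nat.add (Nat.add (Nat.add (Nat.add (Nat.add C (Nat.mul x15312 (nat_lit 3))) x10938) x13854) x15318) x15310) x8752)
    (Nat.add (Nat.add (Nat.add (Nat.add (Nat.add (Nat.add C (Nat.mul x15318 (nat_lit 3))) x10944) x13860) x15336) x15312) x8758)
    (Nat.add (Nat.add (Nat.add (Nat.add (Nat.add (Nat.add C (Nat.mul x15336 (nat_lit 3))) x10962) x13878) x15390) x15318) x8776)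
    (Nat.add (Nat.add (Nat.add (Nat.add (Nat.add (Nat.add C (Nat.mul x15390 (nat_lit 3))) x11016) x13932) x15552) x15336) x8830)
    (Nat.add (Nat.add (Nat.add (Nat.add (Nat.add (Nat.add C (Nat.mul x15552 (nat_lit 3))) x11178) x14094) x16038) x15390) x8992)
    (Nat.add (Nat.add (Nat.add (Nat.add (Nat.add (Nat.add C (Nat.mul x16038 (nat_lit 4))) x11664) x14580) x17496) x15552) x9478)
    (Nat.add (Nat.add (Nat.add C (Nat.mul x17496 (nat_lit 5))) x16038) x10936)

theorem ap_eq (x : Nat → Nat) (k : FnLL specs) : apLL (fun t => x t.cd) specs k = A9_4.ap x k :=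
  Eq.refl (A9_4.ap x k)

theorem step_eq0 (e : Nat → Nat) (C p r : Nat) (k : FnLL specs) (x : Nat → Nat) :
    A9_4.ap x (step e C p r k) = apLL (interp e C p r x) specs k :=
  Eq.refl (A9_4.ap x (step e C p r k))

theorem spec_ok : specOK 8 false A9_4.mask specs = true := by decide +kernel

theorem step_eq (e : Nat → Nat) (C p r : Nat) (k : A9_4.KK) (x : Nat → Nat) :
    A9_4.ap x (step e C p r k) = A9_4.ap (row 8 false A9_4.mask e C p r x) k :=
  ((step_eq0 e C p r k x).trans (apLL_row 8 false A9_4.mask specs spec_ok e C p r x k)).trans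
    (ap_eq (row 8 false A9_4.mask e C p r x) k)

end Vale.Agent.P348.G9_4_0

namespace Vale.Agent.P348.G9_5_0

noncomputable def sp0 : List Spec :=
  [Spec.mk (nat_lit 17) (nat_lit 5) [nat_lit 35, nat_lit 23, nat_lit 6577] (nat_lit 0) [] true,
   Spec.mk (nat_lit 23) (nat_lit 3) [nat_lit 41, nat_lit 17, nat_lit 25, nat_lit 6583] (nat_lit 0) [] true,
   Spec.mk (nat_lit 25) (nat_lit 5) [nat_lit 43, nat_lit 23, nat_lit 6585] (nat_lit 0) [] false,
   Spec.mk (nat_lit 35) (nat_lit 3) [nat_lit 89, nat_lit 17, nat_lit 41, nat_lit 6595] (nat_lit 0) [] true,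
   Spec.mk (nat_lit 41) (nat_lit 3) [nat_lit 95, nat_lit 23, nat_lit 59, nat_lit 35, nat_lit 47, nat_lit 43, nat_lit 6601] (nat_lit 0) [] true,
   Spec.mk (nat_lit 43) (nat_lit 4) [nat_lit 97, nat_lit 25, nat_lit 61, nat_lit 49, nat_lit 41, nat_lit 6603] (nat_lit 0) [] true,
   Spec.mk (nat_lit 47) (nat_lit 1) [nat_lit 101, nat_lit 65, nat_lit 41, nat_lit 49, nat_lit 6607] (nat_lit 0) [] true,
   Spec.mk (nat_lit 49) (nat_lit 4) [nat_lit 103, nat_lit 67, nat_lit 43, nat_lit 47, nat_lit 51, nat_lit 6609] (nat_lit 0) [] false,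
   Spec.mk (nat_lit 51) (nat_lit 5) [nat_lit 105, nat_lit 69, nat_lit 49] (nat_lit 0) [] false,
   Spec.mk (nat_lit 59) (nat_lit 1) [nat_lit 113, nat_lit 41, nat_lit 65, nat_lit 61, nat_lit 6619] (nat_lit 0) [] true,
   Spec.mk (nat_lit 61) (nat_lit 1) [nat_lit 115, nat_lit 43, nat_lit 67, nat_lit 59, nat_lit 6621] (nat_lit 0) [] false,
   Spec.mk (nat_lit 65) (nat_lit 1) [nat_lit 119, nat_lit 47, nat_lit 59, nat_lit 67, nat_lit 6625] (nat_lit 0) [] false,
   Spec.mk (nat_lit 67) (nat_lit 3) [nat_lit 121, nat_lit 49, nat_lit 61, nat_lit 73, nat_lit 65, nat_lit 69, nat_lit 6627] (nat_lit 0) [] false,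
   Spec.mk (nat_lit 69) (nat_lit 3) [nat_lit 123, nat_lit 51, nat_lit 75, nat_lit 67] (nat_lit 0) [] false,
   Spec.mk (nat_lit 73) (nat_lit 3) [nat_lit 127, nat_lit 67, nat_lit 75, nat_lit 6633] (nat_lit 0) [] false,
   Spec.mk (nat_lit 75) (nat_lit 5) [nat_lit 129, nat_lit 69, nat_lit 73] (nat_lit 0) [] false,
   Spec.mk (nat_lit 89) (nat_lit 3) [nat_lit 251, nat_lit 35, nat_lit 95, nat_lit 6649] (nat_lit 0) [] true,
   Spec.mk (nat_lit 95) (nat_lit 2) [nat_lit 257, nat_lit 41, nat_lit 113, nat_lit 89, nat_lit 101, nat_lit 97, nat_lit 6655] (nat_lit 0) [] true,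
   Spec.mk (nat_lit 97) (nat_lit 3) [nat_lit 259, nat_lit 43, nat_lit 115, nat_lit 103, nat_lit 95, nat_lit 6657] (nat_lit 0) [] true,
   Spec.mk (nat_lit 101) (nat_lit 0) [nat_lit 263, nat_lit 47, nat_lit 119, nat_lit 95, nat_lit 103, nat_lit 6661] (nat_lit 1) [] true,
   Spec.mk (nat_lit 103) (nat_lit 2) [nat_lit 265, nat_lit 49, nat_lit 121, nat_lit 97, nat_lit 101, nat_lit 105, nat_lit 6663] (nat_lit 0) [] true,
   Spec.mk (nat_lit 105) (nat_lit 3) [nat_lit 267, nat_lit 51, nat_lit 123, nat_lit 103] (nat_lit 0) [] false,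
   Spec.mk (nat_lit 113) (nat_lit 2) [nat_lit 275, nat_lit 59, nat_lit 167, nat_lit 95, nat_lit 119, nat_lit 115, nat_lit 6673] (nat_lit 0) [] true,
   Spec.mk (nat_lit 115) (nat_lit 2) [nat_lit 277, nat_lit 61, nat_lit 169, nat_lit 97, nat_lit 121, nat_lit 113, nat_lit 6675] (nat_lit 0) [] true,
   Spec.mk (nat_lit 119) (nat_lit 1) [nat_lit 281, nat_lit 65, nat_lit 173, nat_lit 101, nat_lit 137, nat_lit 113, nat_lit 121, nat_lit 6679] (nat_lit 0) [] true,
   Spec.mk (nat_lit 121) (nat_lit 3) [nat_lit 283, nat_lit 67, nat_lit 175, nat_lit 103, nat_lit 139, nat_lit 115, nat_lit 127, nat_lit 119, nat_lit 123, nat_lit 6681] (nat_lit 0) [] true,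
   Spec.mk (nat_lit 123) (nat_lit 3) [nat_lit 285, nat_lit 69, nat_lit 177, nat_lit 105, nat_lit 141, nat_lit 129, nat_lit 121] (nat_lit 0) [] false,
   Spec.mk (nat_lit 127) (nat_lit 2) [nat_lit 289, nat_lit 73, nat_lit 181, nat_lit 145, nat_lit 121, nat_lit 129, nat_lit 6687] (nat_lit 0) [] false,
   Spec.mk (nat_lit 129) (nat_lit 4) [nat_lit 291, nat_lit 75, nat_lit 183, nat_lit 147, nat_lit 123, nat_lit 127] (nat_lit 0) [] false,
   Spec.mk (nat_lit 137) (nat_lit 1) [nat_lit 299, nat_lit 191, nat_lit 119, nat_lit 139, nat_lit 6697] (nat_lit 0) [] true,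
   Spec.mk (nat_lit 139) (nat_lit 2) [nat_lit 301, nat_lit 193, nat_lit 121, nat_lit 145, nat_lit 137, nat_lit 141, nat_lit 6699] (nat_lit 0) [] false,
   Spec.mk (nat_lit 141) (nat_lit 1) [nat_lit 303, nat_lit 195, nat_lit 123, nat_lit 147, nat_lit 139] (nat_lit 0) [] false,
   Spec.mk (nat_lit 145) (nat_lit 3) [nat_lit 307, nat_lit 199, nat_lit 127, nat_lit 139, nat_lit 147, nat_lit 6705] (nat_lit 0) [] false,
   Spec.mk (nat_lit 147) (nat_lit 4) [nat_lit 309, nat_lit 201, nat_lit 129, nat_lit 141, nat_lit 153, nat_lit 145] (nat_lit 0) [] false,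
   Spec.mk (nat_lit 153) (nat_lit 5) [nat_lit 315, nat_lit 207, nat_lit 147] (nat_lit 0) [] false,
   Spec.mk (nat_lit 167) (nat_lit 1) [nat_lit 329, nat_lit 113, nat_lit 173, nat_lit 169, nat_lit 6727] (nat_lit 0) [] true,
   Spec.mk (nat_lit 169) (nat_lit 1) [nat_lit 331, nat_lit 115, nat_lit 175, nat_lit 167, nat_lit 6729] (nat_lit 0) [] false,
   Spec.mk (nat_lit 173) (nat_lit 0) [nat_lit 335, nat_lit 119, nat_lit 191, nat_lit 167, nat_lit 175, nat_lit 6733] (nat_lit 1) [] true,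
   Spec.mk (nat_lit 175) (nat_lit 1) [nat_lit 337, nat_lit 121, nat_lit 193, nat_lit 169, nat_lit 181, nat_lit 173, nat_lit 177, nat_lit 6735] (nat_lit 0) [] false,
   Spec.mk (nat_lit 177) (nat_lit 1) [nat_lit 339, nat_lit 123, nat_lit 195, nat_lit 183, nat_lit 175] (nat_lit 0) [] false,
   Spec.mk (nat_lit 181) (nat_lit 0) [nat_lit 343, nat_lit 127, nat_lit 199, nat_lit 175, nat_lit 183, nat_lit 6741] (nat_lit 1) [] false,
   Spec.mk (nat_lit 183) (nat_lit 1) [nat_lit 345, nat_lit 129, nat_lit 201, nat_lit 177, nat_lit 181] (nat_lit 0) [] false,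
   Spec.mk (nat_lit 191) (nat_lit 1) [nat_lit 353, nat_lit 137, nat_lit 173, nat_lit 193, nat_lit 6751] (nat_lit 0) [] false,
   Spec.mk (nat_lit 193) (nat_lit 2) [nat_lit 355, nat_lit 139, nat_lit 175, nat_lit 199, nat_lit 191, nat_lit 195, nat_lit 6753] (nat_lit 0) [] false,
   Spec.mk (nat_lit 195) (nat_lit 1) [nat_lit 357, nat_lit 141, nat_lit 177, nat_lit 201, nat_lit 193] (nat_lit 0) [] false,
   Spec.mk (nat_lit 199) (nat_lit 2) [nat_lit 361, nat_lit 145, nat_lit 181, nat_lit 217, nat_lit 193, nat_lit 201, nat_lit 6759] (nat_lit 0) [] false,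
   Spec.mk (nat_lit 201) (nat_lit 3) [nat_lit 363, nat_lit 147, nat_lit 183, nat_lit 219, nat_lit 195, nat_lit 207, nat_lit 199] (nat_lit 0) [] false,
   Spec.mk (nat_lit 207) (nat_lit 3) [nat_lit 369, nat_lit 153, nat_lit 225, nat_lit 201] (nat_lit 0) [] false,
   Spec.mk (nat_lit 217) (nat_lit 3) [nat_lit 379, nat_lit 199, nat_lit 219, nat_lit 6777] (nat_lit 0) [] false,
   Spec.mk (nat_lit 219) (nat_lit 3) [nat_lit 381, nat_lit 201, nat_lit 225, nat_lit 217] (nat_lit 0) [] false,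
   Spec.mk (nat_lit 225) (nat_lit 5) [nat_lit 387, nat_lit 207, nat_lit 219] (nat_lit 0) [] false,
   Spec.mk (nat_lit 251) (nat_lit 3) [nat_lit 737, nat_lit 89, nat_lit 257, nat_lit 6811] (nat_lit 0) [] true,
   Spec.mk (nat_lit 257) (nat_lit 2) [nat_lit 743, nat_lit 95, nat_lit 275, nat_lit 251, nat_lit 263, nat_lit 259, nat_lit 6817] (nat_lit 0) [] true,
   Spec.mk (nat_lit 259) (nat_lit 3) [nat_lit 745, nat_lit 97, nat_lit 277, nat_lit 265, nat_lit 257, nat_lit 6819] (nat_lit 0) [] true,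
   Spec.mk (nat_lit 263) (nat_lit 0) [nat_lit 749, nat_lit 101, nat_lit 281, nat_lit 257, nat_lit 265, nat_lit 6823] (nat_lit 1) [] true,
   Spec.mk (nat_lit 265) (nat_lit 2) [nat_lit 751, nat_lit 103, nat_lit 283, nat_lit 259, nat_lit 263, nat_lit 267, nat_lit 6825] (nat_lit 0) [] true,
   Spec.mk (nat_lit 267) (nat_lit 3) [nat_lit 753, nat_lit 105, nat_lit 285, nat_lit 265] (nat_lit 0) [] false,
   Spec.mk (nat_lit 275) (nat_lit 1) [nat_lit 761, nat_lit 113, nat_lit 329, nat_lit 257, nat_lit 281, nat_lit 277, nat_lit 6835] (nat_lit 0) [] true,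
   Spec.mk (nat_lit 277) (nat_lit 1) [nat_lit 763, nat_lit 115, nat_lit 331, nat_lit 259, nat_lit 283, nat_lit 275, nat_lit 6837] (nat_lit 0) [] true,
   Spec.mk (nat_lit 281) (nat_lit 0) [nat_lit 767, nat_lit 119, nat_lit 335, nat_lit 263, nat_lit 299, nat_lit 275, nat_lit 283, nat_lit 6841] (nat_lit 0) [] true]

noncomputable def sp1 : List Spec :=
  [Spec.mk (nat_lit 283) (nat_lit 2) [nat_lit 769, nat_lit 121, nat_lit 337, nat_lit 265, nat_lit 301, nat_lit 277, nat_lit 289, nat_lit 281, nat_lit 285, nat_lit 6843] (nat_lit 0) [] true,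
   Spec.mk (nat_lit 285) (nat_lit 2) [nat_lit 771, nat_lit 123, nat_lit 339, nat_lit 267, nat_lit 303, nat_lit 291, nat_lit 283] (nat_lit 0) [] false,
   Spec.mk (nat_lit 289) (nat_lit 1) [nat_lit 775, nat_lit 127, nat_lit 343, nat_lit 307, nat_lit 283, nat_lit 291, nat_lit 6849] (nat_lit 0) [] true,
   Spec.mk (nat_lit 291) (nat_lit 3) [nat_lit 777, nat_lit 129, nat_lit 345, nat_lit 309, nat_lit 285, nat_lit 289] (nat_lit 0) [] false,
   Spec.mk (nat_lit 299) (nat_lit 0) [nat_lit 785, nat_lit 137, nat_lit 353, nat_lit 281, nat_lit 301, nat_lit 6859] (nat_lit 1) [] true,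
   Spec.mk (nat_lit 301) (nat_lit 0) [nat_lit 787, nat_lit 139, nat_lit 355, nat_lit 283, nat_lit 307, nat_lit 299, nat_lit 303, nat_lit 6861] (nat_lit 0) [] true,
   Spec.mk (nat_lit 303) (nat_lit 0) [nat_lit 789, nat_lit 141, nat_lit 357, nat_lit 285, nat_lit 309, nat_lit 301] (nat_lit 1) [] false,
   Spec.mk (nat_lit 307) (nat_lit 1) [nat_lit 793, nat_lit 145, nat_lit 361, nat_lit 289, nat_lit 301, nat_lit 309, nat_lit 6867] (nat_lit 0) [] false,
   Spec.mk (nat_lit 309) (nat_lit 2) [nat_lit 795, nat_lit 147, nat_lit 363, nat_lit 291, nat_lit 303, nat_lit 315, nat_lit 307] (nat_lit 0) [] false,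
   Spec.mk (nat_lit 315) (nat_lit 3) [nat_lit 801, nat_lit 153, nat_lit 369, nat_lit 309] (nat_lit 0) [] false,
   Spec.mk (nat_lit 329) (nat_lit 2) [nat_lit 815, nat_lit 167, nat_lit 491, nat_lit 275, nat_lit 335, nat_lit 331, nat_lit 6889] (nat_lit 0) [] true,
   Spec.mk (nat_lit 331) (nat_lit 2) [nat_lit 817, nat_lit 169, nat_lit 493, nat_lit 277, nat_lit 337, nat_lit 329, nat_lit 6891] (nat_lit 0) [] true,
   Spec.mk (nat_lit 335) (nat_lit 0) [nat_lit 821, nat_lit 173, nat_lit 497, nat_lit 281, nat_lit 353, nat_lit 329, nat_lit 337, nat_lit 6895] (nat_lit 0) [] true,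
   Spec.mk (nat_lit 337) (nat_lit 2) [nat_lit 823, nat_lit 175, nat_lit 499, nat_lit 283, nat_lit 355, nat_lit 331, nat_lit 343, nat_lit 335, nat_lit 339, nat_lit 6897] (nat_lit 0) [] true,
   Spec.mk (nat_lit 339) (nat_lit 2) [nat_lit 825, nat_lit 177, nat_lit 501, nat_lit 285, nat_lit 357, nat_lit 345, nat_lit 337] (nat_lit 0) [] false,
   Spec.mk (nat_lit 343) (nat_lit 0) [nat_lit 829, nat_lit 181, nat_lit 505, nat_lit 289, nat_lit 361, nat_lit 337, nat_lit 345, nat_lit 6903] (nat_lit 0) [] false,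
   Spec.mk (nat_lit 345) (nat_lit 2) [nat_lit 831, nat_lit 183, nat_lit 507, nat_lit 291, nat_lit 363, nat_lit 339, nat_lit 343] (nat_lit 0) [] false,
   Spec.mk (nat_lit 353) (nat_lit 1) [nat_lit 839, nat_lit 191, nat_lit 515, nat_lit 299, nat_lit 407, nat_lit 335, nat_lit 355, nat_lit 6913] (nat_lit 0) [] true,
   Spec.mk (nat_lit 355) (nat_lit 2) [nat_lit 841, nat_lit 193, nat_lit 517, nat_lit 301, nat_lit 409, nat_lit 337, nat_lit 361, nat_lit 353, nat_lit 357, nat_lit 6915] (nat_lit 0) [] false,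
   Spec.mk (nat_lit 357) (nat_lit 1) [nat_lit 843, nat_lit 195, nat_lit 519, nat_lit 303, nat_lit 411, nat_lit 339, nat_lit 363, nat_lit 355] (nat_lit 0) [] false,
   Spec.mk (nat_lit 361) (nat_lit 2) [nat_lit 847, nat_lit 199, nat_lit 523, nat_lit 307, nat_lit 415, nat_lit 343, nat_lit 379, nat_lit 355, nat_lit 363, nat_lit 6921] (nat_lit 0) [] false,
   Spec.mk (nat_lit 363) (nat_lit 3) [nat_lit 849, nat_lit 201, nat_lit 525, nat_lit 309, nat_lit 417, nat_lit 345, nat_lit 381, nat_lit 357, nat_lit 369, nat_lit 361] (nat_lit 0) [] false,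
   Spec.mk (nat_lit 369) (nat_lit 3) [nat_lit 855, nat_lit 207, nat_lit 531, nat_lit 315, nat_lit 423, nat_lit 387, nat_lit 363] (nat_lit 0) [] false,
   Spec.mk (nat_lit 379) (nat_lit 2) [nat_lit 865, nat_lit 217, nat_lit 541, nat_lit 433, nat_lit 361, nat_lit 381, nat_lit 6939] (nat_lit 0) [] false,
   Spec.mk (nat_lit 381) (nat_lit 2) [nat_lit 867, nat_lit 219, nat_lit 543, nat_lit 435, nat_lit 363, nat_lit 387, nat_lit 379] (nat_lit 0) [] false,
   Spec.mk (nat_lit 387) (nat_lit 4) [nat_lit 873, nat_lit 225, nat_lit 549, nat_lit 441, nat_lit 369, nat_lit 381] (nat_lit 0) [] false,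
   Spec.mk (nat_lit 407) (nat_lit 1) [nat_lit 893, nat_lit 569, nat_lit 353, nat_lit 409, nat_lit 6967] (nat_lit 0) [] true,
   Spec.mk (nat_lit 409) (nat_lit 2) [nat_lit 895, nat_lit 571, nat_lit 355, nat_lit 415, nat_lit 407, nat_lit 411, nat_lit 6969] (nat_lit 0) [] false,
   Spec.mk (nat_lit 411) (nat_lit 1) [nat_lit 897, nat_lit 573, nat_lit 357, nat_lit 417, nat_lit 409] (nat_lit 0) [] false,
   Spec.mk (nat_lit 415) (nat_lit 1) [nat_lit 901, nat_lit 577, nat_lit 361, nat_lit 433, nat_lit 409, nat_lit 417, nat_lit 6975] (nat_lit 0) [] false,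
   Spec.mk (nat_lit 417) (nat_lit 2) [nat_lit 903, nat_lit 579, nat_lit 363, nat_lit 435, nat_lit 411, nat_lit 423, nat_lit 415] (nat_lit 0) [] false,
   Spec.mk (nat_lit 423) (nat_lit 1) [nat_lit 909, nat_lit 585, nat_lit 369, nat_lit 441, nat_lit 417] (nat_lit 0) [] false,
   Spec.mk (nat_lit 433) (nat_lit 3) [nat_lit 919, nat_lit 595, nat_lit 379, nat_lit 415, nat_lit 435, nat_lit 6993] (nat_lit 0) [] false,
   Spec.mk (nat_lit 435) (nat_lit 3) [nat_lit 921, nat_lit 597, nat_lit 381, nat_lit 417, nat_lit 441, nat_lit 433] (nat_lit 0) [] false,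
   Spec.mk (nat_lit 441) (nat_lit 4) [nat_lit 927, nat_lit 603, nat_lit 387, nat_lit 423, nat_lit 459, nat_lit 435] (nat_lit 0) [] false,
   Spec.mk (nat_lit 459) (nat_lit 5) [nat_lit 945, nat_lit 621, nat_lit 441] (nat_lit 0) [] false,
   Spec.mk (nat_lit 491) (nat_lit 1) [nat_lit 977, nat_lit 329, nat_lit 497, nat_lit 493, nat_lit 7051] (nat_lit 0) [] false,
   Spec.mk (nat_lit 493) (nat_lit 1) [nat_lit 979, nat_lit 331, nat_lit 499, nat_lit 491, nat_lit 7053] (nat_lit 0) [] false,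
   Spec.mk (nat_lit 497) (nat_lit 0) [nat_lit 983, nat_lit 335, nat_lit 515, nat_lit 491, nat_lit 499, nat_lit 7057] (nat_lit 1) [] true,
   Spec.mk (nat_lit 499) (nat_lit 1) [nat_lit 985, nat_lit 337, nat_lit 517, nat_lit 493, nat_lit 505, nat_lit 497, nat_lit 501, nat_lit 7059] (nat_lit 0) [] false,
   Spec.mk (nat_lit 501) (nat_lit 1) [nat_lit 987, nat_lit 339, nat_lit 519, nat_lit 507, nat_lit 499] (nat_lit 0) [] false,
   Spec.mk (nat_lit 505) (nat_lit 0) [nat_lit 991, nat_lit 343, nat_lit 523, nat_lit 499, nat_lit 507, nat_lit 7065] (nat_lit 1) [] false,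
   Spec.mk (nat_lit 507) (nat_lit 1) [nat_lit 993, nat_lit 345, nat_lit 525, nat_lit 501, nat_lit 505] (nat_lit 0) [] false,
   Spec.mk (nat_lit 515) (nat_lit 0) [nat_lit 1001, nat_lit 353, nat_lit 569, nat_lit 497, nat_lit 517, nat_lit 7075] (nat_lit 1) [] false,
   Spec.mk (nat_lit 517) (nat_lit 0) [nat_lit 1003, nat_lit 355, nat_lit 571, nat_lit 499, nat_lit 523, nat_lit 515, nat_lit 519, nat_lit 7077] (nat_lit 0) [] false,
   Spec.mk (nat_lit 519) (nat_lit 0) [nat_lit 1005, nat_lit 357, nat_lit 573, nat_lit 501, nat_lit 525, nat_lit 517] (nat_lit 1) [] false,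
   Spec.mk (nat_lit 523) (nat_lit 0) [nat_lit 1009, nat_lit 361, nat_lit 577, nat_lit 505, nat_lit 541, nat_lit 517, nat_lit 525, nat_lit 7083] (nat_lit 0) [] false,
   Spec.mk (nat_lit 525) (nat_lit 1) [nat_lit 1011, nat_lit 363, nat_lit 579, nat_lit 507, nat_lit 543, nat_lit 519, nat_lit 531, nat_lit 523] (nat_lit 0) [] false,
   Spec.mk (nat_lit 531) (nat_lit 1) [nat_lit 1017, nat_lit 369, nat_lit 585, nat_lit 549, nat_lit 525] (nat_lit 0) [] false,
   Spec.mk (nat_lit 541) (nat_lit 0) [nat_lit 1027, nat_lit 379, nat_lit 595, nat_lit 523, nat_lit 543, nat_lit 7101] (nat_lit 1) [] false,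
   Spec.mk (nat_lit 543) (nat_lit 0) [nat_lit 1029, nat_lit 381, nat_lit 597, nat_lit 525, nat_lit 549, nat_lit 541] (nat_lit 1) [] false,
   Spec.mk (nat_lit 549) (nat_lit 1) [nat_lit 1035, nat_lit 387, nat_lit 603, nat_lit 531, nat_lit 543] (nat_lit 0) [] false,
   Spec.mk (nat_lit 569) (nat_lit 1) [nat_lit 1055, nat_lit 407, nat_lit 515, nat_lit 571, nat_lit 7129] (nat_lit 0) [] false,
   Spec.mk (nat_lit 571) (nat_lit 2) [nat_lit 1057, nat_lit 409, nat_lit 517, nat_lit 577, nat_lit 569, nat_lit 573, nat_lit 7131] (nat_lit 0) [] false,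
   Spec.mk (nat_lit 573) (nat_lit 1) [nat_lit 1059, nat_lit 411, nat_lit 519, nat_lit 579, nat_lit 571] (nat_lit 0) [] false,
   Spec.mk (nat_lit 577) (nat_lit 1) [nat_lit 1063, nat_lit 415, nat_lit 523, nat_lit 595, nat_lit 571, nat_lit 579, nat_lit 7137] (nat_lit 0) [] false,
   Spec.mk (nat_lit 579) (nat_lit 2) [nat_lit 1065, nat_lit 417, nat_lit 525, nat_lit 597, nat_lit 573, nat_lit 585, nat_lit 577] (nat_lit 0) [] false,
   Spec.mk (nat_lit 585) (nat_lit 1) [nat_lit 1071, nat_lit 423, nat_lit 531, nat_lit 603, nat_lit 579] (nat_lit 0) [] false,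
   Spec.mk (nat_lit 595) (nat_lit 2) [nat_lit 1081, nat_lit 433, nat_lit 541, nat_lit 649, nat_lit 577, nat_lit 597, nat_lit 7155] (nat_lit 0) [] false,
   Spec.mk (nat_lit 597) (nat_lit 2) [nat_lit 1083, nat_lit 435, nat_lit 543, nat_lit 651, nat_lit 579, nat_lit 603, nat_lit 595] (nat_lit 0) [] false]

noncomputable def sp2 : List Spec :=
  [Spec.mk (nat_lit 603) (nat_lit 3) [nat_lit 1089, nat_lit 441, nat_lit 549, nat_lit 657, nat_lit 585, nat_lit 621, nat_lit 597] (nat_lit 0) [] false,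
   Spec.mk (nat_lit 621) (nat_lit 3) [nat_lit 1107, nat_lit 459, nat_lit 675, nat_lit 603] (nat_lit 0) [] false,
   Spec.mk (nat_lit 649) (nat_lit 3) [nat_lit 1135, nat_lit 595, nat_lit 651, nat_lit 7209] (nat_lit 0) [] false,
   Spec.mk (nat_lit 651) (nat_lit 3) [nat_lit 1137, nat_lit 597, nat_lit 657, nat_lit 649] (nat_lit 0) [] false,
   Spec.mk (nat_lit 657) (nat_lit 3) [nat_lit 1143, nat_lit 603, nat_lit 675, nat_lit 651] (nat_lit 0) [] false,
   Spec.mk (nat_lit 675) (nat_lit 5) [nat_lit 1161, nat_lit 621, nat_lit 657] (nat_lit 0) [] false,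
   Spec.mk (nat_lit 737) (nat_lit 3) [nat_lit 2195, nat_lit 251, nat_lit 743, nat_lit 7297] (nat_lit 0) [] false,
   Spec.mk (nat_lit 743) (nat_lit 2) [nat_lit 2201, nat_lit 257, nat_lit 761, nat_lit 737, nat_lit 749, nat_lit 745, nat_lit 7303] (nat_lit 0) [] false,
   Spec.mk (nat_lit 745) (nat_lit 3) [nat_lit 2203, nat_lit 259, nat_lit 763, nat_lit 751, nat_lit 743, nat_lit 7305] (nat_lit 0) [] false,
   Spec.mk (nat_lit 749) (nat_lit 0) [nat_lit 2207, nat_lit 263, nat_lit 767, nat_lit 743, nat_lit 751, nat_lit 7309] (nat_lit 1) [] false,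
   Spec.mk (nat_lit 751) (nat_lit 2) [nat_lit 2209, nat_lit 265, nat_lit 769, nat_lit 745, nat_lit 749, nat_lit 753, nat_lit 7311] (nat_lit 0) [] false,
   Spec.mk (nat_lit 753) (nat_lit 3) [nat_lit 2211, nat_lit 267, nat_lit 771, nat_lit 751] (nat_lit 0) [] false,
   Spec.mk (nat_lit 761) (nat_lit 1) [nat_lit 2219, nat_lit 275, nat_lit 815, nat_lit 743, nat_lit 767, nat_lit 763, nat_lit 7321] (nat_lit 0) [] true,
   Spec.mk (nat_lit 763) (nat_lit 1) [nat_lit 2221, nat_lit 277, nat_lit 817, nat_lit 745, nat_lit 769, nat_lit 761, nat_lit 7323] (nat_lit 0) [] true,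
   Spec.mk (nat_lit 767) (nat_lit 0) [nat_lit 2225, nat_lit 281, nat_lit 821, nat_lit 749, nat_lit 785, nat_lit 761, nat_lit 769, nat_lit 7327] (nat_lit 0) [] true,
   Spec.mk (nat_lit 769) (nat_lit 2) [nat_lit 2227, nat_lit 283, nat_lit 823, nat_lit 751, nat_lit 787, nat_lit 763, nat_lit 775, nat_lit 767, nat_lit 771, nat_lit 7329] (nat_lit 0) [] true,
   Spec.mk (nat_lit 771) (nat_lit 2) [nat_lit 2229, nat_lit 285, nat_lit 825, nat_lit 753, nat_lit 789, nat_lit 777, nat_lit 769] (nat_lit 0) [] false,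
   Spec.mk (nat_lit 775) (nat_lit 1) [nat_lit 2233, nat_lit 289, nat_lit 829, nat_lit 793, nat_lit 769, nat_lit 777, nat_lit 7335] (nat_lit 0) [] false,
   Spec.mk (nat_lit 777) (nat_lit 3) [nat_lit 2235, nat_lit 291, nat_lit 831, nat_lit 795, nat_lit 771, nat_lit 775] (nat_lit 0) [] false,
   Spec.mk (nat_lit 785) (nat_lit 0) [nat_lit 2243, nat_lit 299, nat_lit 839, nat_lit 767, nat_lit 787, nat_lit 7345] (nat_lit 1) [] true,
   Spec.mk (nat_lit 787) (nat_lit 0) [nat_lit 2245, nat_lit 301, nat_lit 841, nat_lit 769, nat_lit 793, nat_lit 785, nat_lit 789, nat_lit 7347] (nat_lit 0) [] false,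
   Spec.mk (nat_lit 789) (nat_lit 0) [nat_lit 2247, nat_lit 303, nat_lit 843, nat_lit 771, nat_lit 795, nat_lit 787] (nat_lit 1) [] false,
   Spec.mk (nat_lit 793) (nat_lit 1) [nat_lit 2251, nat_lit 307, nat_lit 847, nat_lit 775, nat_lit 787, nat_lit 795, nat_lit 7353] (nat_lit 0) [] false,
   Spec.mk (nat_lit 795) (nat_lit 2) [nat_lit 2253, nat_lit 309, nat_lit 849, nat_lit 777, nat_lit 789, nat_lit 801, nat_lit 793] (nat_lit 0) [] false,
   Spec.mk (nat_lit 801) (nat_lit 3) [nat_lit 2259, nat_lit 315, nat_lit 855, nat_lit 795] (nat_lit 0) [] false,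
   Spec.mk (nat_lit 815) (nat_lit 1) [nat_lit 2273, nat_lit 329, nat_lit 977, nat_lit 761, nat_lit 821, nat_lit 817, nat_lit 7375] (nat_lit 0) [] true,
   Spec.mk (nat_lit 817) (nat_lit 1) [nat_lit 2275, nat_lit 331, nat_lit 979, nat_lit 763, nat_lit 823, nat_lit 815, nat_lit 7377] (nat_lit 0) [] false,
   Spec.mk (nat_lit 821) (nat_lit 0) [nat_lit 2279, nat_lit 335, nat_lit 983, nat_lit 767, nat_lit 839, nat_lit 815, nat_lit 823, nat_lit 7381] (nat_lit 1) [] true,
   Spec.mk (nat_lit 823) (nat_lit 1) [nat_lit 2281, nat_lit 337, nat_lit 985, nat_lit 769, nat_lit 841, nat_lit 817, nat_lit 829, nat_lit 821, nat_lit 825, nat_lit 7383] (nat_lit 0) [] true,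
   Spec.mk (nat_lit 825) (nat_lit 1) [nat_lit 2283, nat_lit 339, nat_lit 987, nat_lit 771, nat_lit 843, nat_lit 831, nat_lit 823] (nat_lit 0) [] false,
   Spec.mk (nat_lit 829) (nat_lit 0) [nat_lit 2287, nat_lit 343, nat_lit 991, nat_lit 775, nat_lit 847, nat_lit 823, nat_lit 831, nat_lit 7389] (nat_lit 1) [] true,
   Spec.mk (nat_lit 831) (nat_lit 1) [nat_lit 2289, nat_lit 345, nat_lit 993, nat_lit 777, nat_lit 849, nat_lit 825, nat_lit 829] (nat_lit 0) [] false,
   Spec.mk (nat_lit 839) (nat_lit 0) [nat_lit 2297, nat_lit 353, nat_lit 1001, nat_lit 785, nat_lit 893, nat_lit 821, nat_lit 841, nat_lit 7399] (nat_lit 0) [] true,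
   Spec.mk (nat_lit 841) (nat_lit 1) [nat_lit 2299, nat_lit 355, nat_lit 1003, nat_lit 787, nat_lit 895, nat_lit 823, nat_lit 847, nat_lit 839, nat_lit 843, nat_lit 7401] (nat_lit 0) [] true,
   Spec.mk (nat_lit 843) (nat_lit 0) [nat_lit 2301, nat_lit 357, nat_lit 1005, nat_lit 789, nat_lit 897, nat_lit 825, nat_lit 849, nat_lit 841] (nat_lit 0) [] false,
   Spec.mk (nat_lit 847) (nat_lit 1) [nat_lit 2305, nat_lit 361, nat_lit 1009, nat_lit 793, nat_lit 901, nat_lit 829, nat_lit 865, nat_lit 841, nat_lit 849, nat_lit 7407] (nat_lit 0) [] true,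
   Spec.mk (nat_lit 849) (nat_lit 2) [nat_lit 2307, nat_lit 363, nat_lit 1011, nat_lit 795, nat_lit 903, nat_lit 831, nat_lit 867, nat_lit 843, nat_lit 855, nat_lit 847] (nat_lit 0) [] false,
   Spec.mk (nat_lit 855) (nat_lit 2) [nat_lit 2313, nat_lit 369, nat_lit 1017, nat_lit 801, nat_lit 909, nat_lit 873, nat_lit 849] (nat_lit 0) [] false,
   Spec.mk (nat_lit 865) (nat_lit 1) [nat_lit 2323, nat_lit 379, nat_lit 1027, nat_lit 919, nat_lit 847, nat_lit 867, nat_lit 7425] (nat_lit 0) [] false,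
   Spec.mk (nat_lit 867) (nat_lit 1) [nat_lit 2325, nat_lit 381, nat_lit 1029, nat_lit 921, nat_lit 849, nat_lit 873, nat_lit 865] (nat_lit 0) [] false,
   Spec.mk (nat_lit 873) (nat_lit 3) [nat_lit 2331, nat_lit 387, nat_lit 1035, nat_lit 927, nat_lit 855, nat_lit 867] (nat_lit 0) [] false,
   Spec.mk (nat_lit 893) (nat_lit 0) [nat_lit 2351, nat_lit 407, nat_lit 1055, nat_lit 839, nat_lit 895, nat_lit 7453] (nat_lit 1) [] false,
   Spec.mk (nat_lit 895) (nat_lit 0) [nat_lit 2353, nat_lit 409, nat_lit 1057, nat_lit 841, nat_lit 901, nat_lit 893, nat_lit 897, nat_lit 7455] (nat_lit 0) [] true,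
   Spec.mk (nat_lit 897) (nat_lit 0) [nat_lit 2355, nat_lit 411, nat_lit 1059, nat_lit 843, nat_lit 903, nat_lit 895] (nat_lit 1) [] false,
   Spec.mk (nat_lit 901) (nat_lit 0) [nat_lit 2359, nat_lit 415, nat_lit 1063, nat_lit 847, nat_lit 919, nat_lit 895, nat_lit 903, nat_lit 7461] (nat_lit 1) [] false,
   Spec.mk (nat_lit 903) (nat_lit 0) [nat_lit 2361, nat_lit 417, nat_lit 1065, nat_lit 849, nat_lit 921, nat_lit 897, nat_lit 909, nat_lit 901] (nat_lit 0) [] false,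
   Spec.mk (nat_lit 909) (nat_lit 0) [nat_lit 2367, nat_lit 423, nat_lit 1071, nat_lit 855, nat_lit 927, nat_lit 903] (nat_lit 1) [] false,
   Spec.mk (nat_lit 919) (nat_lit 1) [nat_lit 2377, nat_lit 433, nat_lit 1081, nat_lit 865, nat_lit 901, nat_lit 921, nat_lit 7479] (nat_lit 0) [] false,
   Spec.mk (nat_lit 921) (nat_lit 1) [nat_lit 2379, nat_lit 435, nat_lit 1083, nat_lit 867, nat_lit 903, nat_lit 927, nat_lit 919] (nat_lit 0) [] false,
   Spec.mk (nat_lit 927) (nat_lit 2) [nat_lit 2385, nat_lit 441, nat_lit 1089, nat_lit 873, nat_lit 909, nat_lit 945, nat_lit 921] (nat_lit 0) [] false,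
   Spec.mk (nat_lit 945) (nat_lit 3) [nat_lit 2403, nat_lit 459, nat_lit 1107, nat_lit 927] (nat_lit 0) [] false,
   Spec.mk (nat_lit 977) (nat_lit 2) [nat_lit 2435, nat_lit 491, nat_lit 1463, nat_lit 815, nat_lit 983, nat_lit 979, nat_lit 7537] (nat_lit 0) [] false,
   Spec.mk (nat_lit 979) (nat_lit 2) [nat_lit 2437, nat_lit 493, nat_lit 1465, nat_lit 817, nat_lit 985, nat_lit 977, nat_lit 7539] (nat_lit 0) [] false,
   Spec.mk (nat_lit 983) (nat_lit 0) [nat_lit 2441, nat_lit 497, nat_lit 1469, nat_lit 821, nat_lit 1001, nat_lit 977, nat_lit 985, nat_lit 7543] (nat_lit 0) [] false,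
   Spec.mk (nat_lit 985) (nat_lit 2) [nat_lit 2443, nat_lit 499, nat_lit 1471, nat_lit 823, nat_lit 1003, nat_lit 979, nat_lit 991, nat_lit 983, nat_lit 987, nat_lit 7545] (nat_lit 0) [] true,
   Spec.mk (nat_lit 987) (nat_lit 2) [nat_lit 2445, nat_lit 501, nat_lit 1473, nat_lit 825, nat_lit 1005, nat_lit 993, nat_lit 985] (nat_lit 0) [] false,
   Spec.mk (nat_lit 991) (nat_lit 0) [nat_lit 2449, nat_lit 505, nat_lit 1477, nat_lit 829, nat_lit 1009, nat_lit 985, nat_lit 993, nat_lit 7551] (nat_lit 0) [] false,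
   Spec.mk (nat_lit 993) (nat_lit 2) [nat_lit 2451, nat_lit 507, nat_lit 1479, nat_lit 831, nat_lit 1011, nat_lit 987, nat_lit 991] (nat_lit 0) [] false,
   Spec.mk (nat_lit 1001) (nat_lit 0) [nat_lit 2459, nat_lit 515, nat_lit 1487, nat_lit 839, nat_lit 1055, nat_lit 983, nat_lit 1003, nat_lit 7561] (nat_lit 0) [] false,
   Spec.mk (nat_lit 1003) (nat_lit 1) [nat_lit 2461, nat_lit 517, nat_lit 1489, nat_lit 841, nat_lit 1057, nat_lit 985, nat_lit 1009, nat_lit 1001, nat_lit 1005, nat_lit 7563] (nat_lit 0) [] true]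

noncomputable def sp3 : List Spec :=
  [Spec.mk (nat_lit 1005) (nat_lit 0) [nat_lit 2463, nat_lit 519, nat_lit 1491, nat_lit 843, nat_lit 1059, nat_lit 987, nat_lit 1011, nat_lit 1003] (nat_lit 0) [] false,
   Spec.mk (nat_lit 1009) (nat_lit 1) [nat_lit 2467, nat_lit 523, nat_lit 1495, nat_lit 847, nat_lit 1063, nat_lit 991, nat_lit 1027, nat_lit 1003, nat_lit 1011, nat_lit 7569] (nat_lit 0) [] false,
   Spec.mk (nat_lit 1011) (nat_lit 2) [nat_lit 2469, nat_lit 525, nat_lit 1497, nat_lit 849, nat_lit 1065, nat_lit 993, nat_lit 1029, nat_lit 1005, nat_lit 1017, nat_lit 1009] (nat_lit 0) [] false,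
   Spec.mk (nat_lit 1017) (nat_lit 2) [nat_lit 2475, nat_lit 531, nat_lit 1503, nat_lit 855, nat_lit 1071, nat_lit 1035, nat_lit 1011] (nat_lit 0) [] false,
   Spec.mk (nat_lit 1027) (nat_lit 0) [nat_lit 2485, nat_lit 541, nat_lit 1513, nat_lit 865, nat_lit 1081, nat_lit 1009, nat_lit 1029, nat_lit 7587] (nat_lit 0) [] false,
   Spec.mk (nat_lit 1029) (nat_lit 0) [nat_lit 2487, nat_lit 543, nat_lit 1515, nat_lit 867, nat_lit 1083, nat_lit 1011, nat_lit 1035, nat_lit 1027] (nat_lit 0) [] false,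
   Spec.mk (nat_lit 1035) (nat_lit 2) [nat_lit 2493, nat_lit 549, nat_lit 1521, nat_lit 873, nat_lit 1089, nat_lit 1017, nat_lit 1029] (nat_lit 0) [] false,
   Spec.mk (nat_lit 1055) (nat_lit 1) [nat_lit 2513, nat_lit 569, nat_lit 1541, nat_lit 893, nat_lit 1217, nat_lit 1001, nat_lit 1057, nat_lit 7615] (nat_lit 0) [] false,
   Spec.mk (nat_lit 1057) (nat_lit 2) [nat_lit 2515, nat_lit 571, nat_lit 1543, nat_lit 895, nat_lit 1219, nat_lit 1003, nat_lit 1063, nat_lit 1055, nat_lit 1059, nat_lit 7617] (nat_lit 0) [] false,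
   Spec.mk (nat_lit 1059) (nat_lit 1) [nat_lit 2517, nat_lit 573, nat_lit 1545, nat_lit 897, nat_lit 1221, nat_lit 1005, nat_lit 1065, nat_lit 1057] (nat_lit 0) [] false,
   Spec.mk (nat_lit 1063) (nat_lit 1) [nat_lit 2521, nat_lit 577, nat_lit 1549, nat_lit 901, nat_lit 1225, nat_lit 1009, nat_lit 1081, nat_lit 1057, nat_lit 1065, nat_lit 7623] (nat_lit 0) [] false,
   Spec.mk (nat_lit 1065) (nat_lit 2) [nat_lit 2523, nat_lit 579, nat_lit 1551, nat_lit 903, nat_lit 1227, nat_lit 1011, nat_lit 1083, nat_lit 1059, nat_lit 1071, nat_lit 1063] (nat_lit 0) [] false,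
   Spec.mk (nat_lit 1071) (nat_lit 1) [nat_lit 2529, nat_lit 585, nat_lit 1557, nat_lit 909, nat_lit 1233, nat_lit 1017, nat_lit 1089, nat_lit 1065] (nat_lit 0) [] false,
   Spec.mk (nat_lit 1081) (nat_lit 2) [nat_lit 2539, nat_lit 595, nat_lit 1567, nat_lit 919, nat_lit 1243, nat_lit 1027, nat_lit 1135, nat_lit 1063, nat_lit 1083, nat_lit 7641] (nat_lit 0) [] false,
   Spec.mk (nat_lit 1083) (nat_lit 2) [nat_lit 2541, nat_lit 597, nat_lit 1569, nat_lit 921, nat_lit 1245, nat_lit 1029, nat_lit 1137, nat_lit 1065, nat_lit 1089, nat_lit 1081] (nat_lit 0) [] false,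
   Spec.mk (nat_lit 1089) (nat_lit 3) [nat_lit 2547, nat_lit 603, nat_lit 1575, nat_lit 927, nat_lit 1251, nat_lit 1035, nat_lit 1143, nat_lit 1071, nat_lit 1107, nat_lit 1083] (nat_lit 0) [] false,
   Spec.mk (nat_lit 1107) (nat_lit 3) [nat_lit 2565, nat_lit 621, nat_lit 1593, nat_lit 945, nat_lit 1269, nat_lit 1161, nat_lit 1089] (nat_lit 0) [] false,
   Spec.mk (nat_lit 1135) (nat_lit 2) [nat_lit 2593, nat_lit 649, nat_lit 1621, nat_lit 1297, nat_lit 1081, nat_lit 1137, nat_lit 7695] (nat_lit 0) [] false,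
   Spec.mk (nat_lit 1137) (nat_lit 2) [nat_lit 2595, nat_lit 651, nat_lit 1623, nat_lit 1299, nat_lit 1083, nat_lit 1143, nat_lit 1135] (nat_lit 0) [] false,
   Spec.mk (nat_lit 1143) (nat_lit 2) [nat_lit 2601, nat_lit 657, nat_lit 1629, nat_lit 1305, nat_lit 1089, nat_lit 1161, nat_lit 1137] (nat_lit 0) [] false,
   Spec.mk (nat_lit 1161) (nat_lit 4) [nat_lit 2619, nat_lit 675, nat_lit 1647, nat_lit 1323, nat_lit 1107, nat_lit 1143] (nat_lit 0) [] false,
   Spec.mk (nat_lit 1217) (nat_lit 1) [nat_lit 2675, nat_lit 1703, nat_lit 1055, nat_lit 1219, nat_lit 7777] (nat_lit 0) [] false,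
   Spec.mk (nat_lit 1219) (nat_lit 2) [nat_lit 2677, nat_lit 1705, nat_lit 1057, nat_lit 1225, nat_lit 1217, nat_lit 1221, nat_lit 7779] (nat_lit 0) [] false,
   Spec.mk (nat_lit 1221) (nat_lit 1) [nat_lit 2679, nat_lit 1707, nat_lit 1059, nat_lit 1227, nat_lit 1219] (nat_lit 0) [] false,
   Spec.mk (nat_lit 1225) (nat_lit 1) [nat_lit 2683, nat_lit 1711, nat_lit 1063, nat_lit 1243, nat_lit 1219, nat_lit 1227, nat_lit 7785] (nat_lit 0) [] false,
   Spec.mk (nat_lit 1227) (nat_lit 2) [nat_lit 2685, nat_lit 1713, nat_lit 1065, nat_lit 1245, nat_lit 1221, nat_lit 1233, nat_lit 1225] (nat_lit 0) [] false,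
   Spec.mk (nat_lit 1233) (nat_lit 1) [nat_lit 2691, nat_lit 1719, nat_lit 1071, nat_lit 1251, nat_lit 1227] (nat_lit 0) [] false,
   Spec.mk (nat_lit 1243) (nat_lit 1) [nat_lit 2701, nat_lit 1729, nat_lit 1081, nat_lit 1297, nat_lit 1225, nat_lit 1245, nat_lit 7803] (nat_lit 0) [] false,
   Spec.mk (nat_lit 1245) (nat_lit 1) [nat_lit 2703, nat_lit 1731, nat_lit 1083, nat_lit 1299, nat_lit 1227, nat_lit 1251, nat_lit 1243] (nat_lit 0) [] false,
   Spec.mk (nat_lit 1251) (nat_lit 2) [nat_lit 2709, nat_lit 1737, nat_lit 1089, nat_lit 1305, nat_lit 1233, nat_lit 1269, nat_lit 1245] (nat_lit 0) [] false,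
   Spec.mk (nat_lit 1269) (nat_lit 1) [nat_lit 2727, nat_lit 1755, nat_lit 1107, nat_lit 1323, nat_lit 1251] (nat_lit 0) [] false,
   Spec.mk (nat_lit 1297) (nat_lit 3) [nat_lit 2755, nat_lit 1783, nat_lit 1135, nat_lit 1243, nat_lit 1299, nat_lit 7857] (nat_lit 0) [] false,
   Spec.mk (nat_lit 1299) (nat_lit 3) [nat_lit 2757, nat_lit 1785, nat_lit 1137, nat_lit 1245, nat_lit 1305, nat_lit 1297] (nat_lit 0) [] false,
   Spec.mk (nat_lit 1305) (nat_lit 3) [nat_lit 2763, nat_lit 1791, nat_lit 1143, nat_lit 1251, nat_lit 1323, nat_lit 1299] (nat_lit 0) [] false,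
   Spec.mk (nat_lit 1323) (nat_lit 4) [nat_lit 2781, nat_lit 1809, nat_lit 1161, nat_lit 1269, nat_lit 1377, nat_lit 1305] (nat_lit 0) [] false,
   Spec.mk (nat_lit 1377) (nat_lit 5) [nat_lit 2835, nat_lit 1863, nat_lit 1323] (nat_lit 0) [] false,
   Spec.mk (nat_lit 1463) (nat_lit 1) [nat_lit 2921, nat_lit 977, nat_lit 1469, nat_lit 1465, nat_lit 8023] (nat_lit 0) [] false,
   Spec.mk (nat_lit 1465) (nat_lit 1) [nat_lit 2923, nat_lit 979, nat_lit 1471, nat_lit 1463, nat_lit 8025] (nat_lit 0) [] false,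
   Spec.mk (nat_lit 1469) (nat_lit 0) [nat_lit 2927, nat_lit 983, nat_lit 1487, nat_lit 1463, nat_lit 1471, nat_lit 8029] (nat_lit 1) [] false,
   Spec.mk (nat_lit 1471) (nat_lit 1) [nat_lit 2929, nat_lit 985, nat_lit 1489, nat_lit 1465, nat_lit 1477, nat_lit 1469, nat_lit 1473, nat_lit 8031] (nat_lit 0) [] false,
   Spec.mk (nat_lit 1473) (nat_lit 1) [nat_lit 2931, nat_lit 987, nat_lit 1491, nat_lit 1479, nat_lit 1471] (nat_lit 0) [] false,
   Spec.mk (nat_lit 1477) (nat_lit 0) [nat_lit 2935, nat_lit 991, nat_lit 1495, nat_lit 1471, nat_lit 1479, nat_lit 8037] (nat_lit 1) [] false,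
   Spec.mk (nat_lit 1479) (nat_lit 1) [nat_lit 2937, nat_lit 993, nat_lit 1497, nat_lit 1473, nat_lit 1477] (nat_lit 0) [] false,
   Spec.mk (nat_lit 1487) (nat_lit 0) [nat_lit 2945, nat_lit 1001, nat_lit 1541, nat_lit 1469, nat_lit 1489, nat_lit 8047] (nat_lit 1) [] false,
   Spec.mk (nat_lit 1489) (nat_lit 0) [nat_lit 2947, nat_lit 1003, nat_lit 1543, nat_lit 1471, nat_lit 1495, nat_lit 1487, nat_lit 1491, nat_lit 8049] (nat_lit 0) [] false,
   Spec.mk (nat_lit 1491) (nat_lit 0) [nat_lit 2949, nat_lit 1005, nat_lit 1545, nat_lit 1473, nat_lit 1497, nat_lit 1489] (nat_lit 1) [] false,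
   Spec.mk (nat_lit 1495) (nat_lit 0) [nat_lit 2953, nat_lit 1009, nat_lit 1549, nat_lit 1477, nat_lit 1513, nat_lit 1489, nat_lit 1497, nat_lit 8055] (nat_lit 0) [] false,
   Spec.mk (nat_lit 1497) (nat_lit 1) [nat_lit 2955, nat_lit 1011, nat_lit 1551, nat_lit 1479, nat_lit 1515, nat_lit 1491, nat_lit 1503, nat_lit 1495] (nat_lit 0) [] false,
   Spec.mk (nat_lit 1503) (nat_lit 1) [nat_lit 2961, nat_lit 1017, nat_lit 1557, nat_lit 1521, nat_lit 1497] (nat_lit 0) [] false,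
   Spec.mk (nat_lit 1513) (nat_lit 0) [nat_lit 2971, nat_lit 1027, nat_lit 1567, nat_lit 1495, nat_lit 1515, nat_lit 8073] (nat_lit 1) [] false,
   Spec.mk (nat_lit 1515) (nat_lit 0) [nat_lit 2973, nat_lit 1029, nat_lit 1569, nat_lit 1497, nat_lit 1521, nat_lit 1513] (nat_lit 1) [] false,
   Spec.mk (nat_lit 1521) (nat_lit 1) [nat_lit 2979, nat_lit 1035, nat_lit 1575, nat_lit 1503, nat_lit 1515] (nat_lit 0) [] false,
   Spec.mk (nat_lit 1541) (nat_lit 0) [nat_lit 2999, nat_lit 1055, nat_lit 1703, nat_lit 1487, nat_lit 1543, nat_lit 8101] (nat_lit 1) [] false,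
   Spec.mk (nat_lit 1543) (nat_lit 0) [nat_lit 3001, nat_lit 1057, nat_lit 1705, nat_lit 1489, nat_lit 1549, nat_lit 1541, nat_lit 1545, nat_lit 8103] (nat_lit 0) [] false,
   Spec.mk (nat_lit 1545) (nat_lit 0) [nat_lit 3003, nat_lit 1059, nat_lit 1707, nat_lit 1491, nat_lit 1551, nat_lit 1543] (nat_lit 1) [] false,
   Spec.mk (nat_lit 1549) (nat_lit 0) [nat_lit 3007, nat_lit 1063, nat_lit 1711, nat_lit 1495, nat_lit 1567, nat_lit 1543, nat_lit 1551, nat_lit 8109] (nat_lit 1) [] false,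
   Spec.mk (nat_lit 1551) (nat_lit 0) [nat_lit 3009, nat_lit 1065, nat_lit 1713, nat_lit 1497, nat_lit 1569, nat_lit 1545, nat_lit 1557, nat_lit 1549] (nat_lit 0) [] false,
   Spec.mk (nat_lit 1557) (nat_lit 0) [nat_lit 3015, nat_lit 1071, nat_lit 1719, nat_lit 1503, nat_lit 1575, nat_lit 1551] (nat_lit 1) [] false,
   Spec.mk (nat_lit 1567) (nat_lit 0) [nat_lit 3025, nat_lit 1081, nat_lit 1729, nat_lit 1513, nat_lit 1621, nat_lit 1549, nat_lit 1569, nat_lit 8127] (nat_lit 0) [] false,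
   Spec.mk (nat_lit 1569) (nat_lit 0) [nat_lit 3027, nat_lit 1083, nat_lit 1731, nat_lit 1515, nat_lit 1623, nat_lit 1551, nat_lit 1575, nat_lit 1567] (nat_lit 0) [] false]

noncomputable def sp4 : List Spec :=
  [Spec.mk (nat_lit 1575) (nat_lit 1) [nat_lit 3033, nat_lit 1089, nat_lit 1737, nat_lit 1521, nat_lit 1629, nat_lit 1557, nat_lit 1593, nat_lit 1569] (nat_lit 0) [] false,
   Spec.mk (nat_lit 1593) (nat_lit 1) [nat_lit 3051, nat_lit 1107, nat_lit 1755, nat_lit 1647, nat_lit 1575] (nat_lit 0) [] false,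
   Spec.mk (nat_lit 1621) (nat_lit 0) [nat_lit 3079, nat_lit 1135, nat_lit 1783, nat_lit 1567, nat_lit 1623, nat_lit 8181] (nat_lit 1) [] false,
   Spec.mk (nat_lit 1623) (nat_lit 0) [nat_lit 3081, nat_lit 1137, nat_lit 1785, nat_lit 1569, nat_lit 1629, nat_lit 1621] (nat_lit 1) [] false,
   Spec.mk (nat_lit 1629) (nat_lit 0) [nat_lit 3087, nat_lit 1143, nat_lit 1791, nat_lit 1575, nat_lit 1647, nat_lit 1623] (nat_lit 1) [] false,
   Spec.mk (nat_lit 1647) (nat_lit 1) [nat_lit 3105, nat_lit 1161, nat_lit 1809, nat_lit 1593, nat_lit 1629] (nat_lit 0) [] false,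
   Spec.mk (nat_lit 1703) (nat_lit 1) [nat_lit 3161, nat_lit 1217, nat_lit 1541, nat_lit 1705, nat_lit 8263] (nat_lit 0) [] false,
   Spec.mk (nat_lit 1705) (nat_lit 2) [nat_lit 3163, nat_lit 1219, nat_lit 1543, nat_lit 1711, nat_lit 1703, nat_lit 1707, nat_lit 8265] (nat_lit 0) [] false,
   Spec.mk (nat_lit 1707) (nat_lit 1) [nat_lit 3165, nat_lit 1221, nat_lit 1545, nat_lit 1713, nat_lit 1705] (nat_lit 0) [] false,
   Spec.mk (nat_lit 1711) (nat_lit 1) [nat_lit 3169, nat_lit 1225, nat_lit 1549, nat_lit 1729, nat_lit 1705, nat_lit 1713, nat_lit 8271] (nat_lit 0) [] false,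
   Spec.mk (nat_lit 1713) (nat_lit 2) [nat_lit 3171, nat_lit 1227, nat_lit 1551, nat_lit 1731, nat_lit 1707, nat_lit 1719, nat_lit 1711] (nat_lit 0) [] false,
   Spec.mk (nat_lit 1719) (nat_lit 1) [nat_lit 3177, nat_lit 1233, nat_lit 1557, nat_lit 1737, nat_lit 1713] (nat_lit 0) [] false,
   Spec.mk (nat_lit 1729) (nat_lit 1) [nat_lit 3187, nat_lit 1243, nat_lit 1567, nat_lit 1783, nat_lit 1711, nat_lit 1731, nat_lit 8289] (nat_lit 0) [] false,
   Spec.mk (nat_lit 1731) (nat_lit 1) [nat_lit 3189, nat_lit 1245, nat_lit 1569, nat_lit 1785, nat_lit 1713, nat_lit 1737, nat_lit 1729] (nat_lit 0) [] false,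
   Spec.mk (nat_lit 1737) (nat_lit 2) [nat_lit 3195, nat_lit 1251, nat_lit 1575, nat_lit 1791, nat_lit 1719, nat_lit 1755, nat_lit 1731] (nat_lit 0) [] false,
   Spec.mk (nat_lit 1755) (nat_lit 1) [nat_lit 3213, nat_lit 1269, nat_lit 1593, nat_lit 1809, nat_lit 1737] (nat_lit 0) [] false,
   Spec.mk (nat_lit 1783) (nat_lit 2) [nat_lit 3241, nat_lit 1297, nat_lit 1621, nat_lit 1945, nat_lit 1729, nat_lit 1785, nat_lit 8343] (nat_lit 0) [] false,
   Spec.mk (nat_lit 1785) (nat_lit 2) [nat_lit 3243, nat_lit 1299, nat_lit 1623, nat_lit 1947, nat_lit 1731, nat_lit 1791, nat_lit 1783] (nat_lit 0) [] false,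
   Spec.mk (nat_lit 1791) (nat_lit 2) [nat_lit 3249, nat_lit 1305, nat_lit 1629, nat_lit 1953, nat_lit 1737, nat_lit 1809, nat_lit 1785] (nat_lit 0) [] false,
   Spec.mk (nat_lit 1809) (nat_lit 3) [nat_lit 3267, nat_lit 1323, nat_lit 1647, nat_lit 1971, nat_lit 1755, nat_lit 1863, nat_lit 1791] (nat_lit 0) [] false,
   Spec.mk (nat_lit 1863) (nat_lit 3) [nat_lit 3321, nat_lit 1377, nat_lit 2025, nat_lit 1809] (nat_lit 0) [] false,
   Spec.mk (nat_lit 1945) (nat_lit 3) [nat_lit 3403, nat_lit 1783, nat_lit 1947, nat_lit 8505] (nat_lit 0) [] false,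
   Spec.mk (nat_lit 1947) (nat_lit 3) [nat_lit 3405, nat_lit 1785, nat_lit 1953, nat_lit 1945] (nat_lit 0) [] false,
   Spec.mk (nat_lit 1953) (nat_lit 3) [nat_lit 3411, nat_lit 1791, nat_lit 1971, nat_lit 1947] (nat_lit 0) [] false,
   Spec.mk (nat_lit 1971) (nat_lit 3) [nat_lit 3429, nat_lit 1809, nat_lit 2025, nat_lit 1953] (nat_lit 0) [] false,
   Spec.mk (nat_lit 2025) (nat_lit 5) [nat_lit 3483, nat_lit 1863, nat_lit 1971] (nat_lit 0) [] false,
   Spec.mk (nat_lit 2195) (nat_lit 3) [nat_lit 6569, nat_lit 737, nat_lit 2201, nat_lit 8755] (nat_lit 0) [] false,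
   Spec.mk (nat_lit 2201) (nat_lit 2) [nat_lit 6575, nat_lit 743, nat_lit 2219, nat_lit 2195, nat_lit 2207, nat_lit 2203, nat_lit 8761] (nat_lit 0) [] false,
   Spec.mk (nat_lit 2203) (nat_lit 3) [nat_lit 6577, nat_lit 745, nat_lit 2221, nat_lit 2209, nat_lit 2201, nat_lit 8763] (nat_lit 0) [] false,
   Spec.mk (nat_lit 2207) (nat_lit 0) [nat_lit 6581, nat_lit 749, nat_lit 2225, nat_lit 2201, nat_lit 2209, nat_lit 8767] (nat_lit 1) [] false,
   Spec.mk (nat_lit 2209) (nat_lit 2) [nat_lit 6583, nat_lit 751, nat_lit 2227, nat_lit 2203, nat_lit 2207, nat_lit 2211, nat_lit 8769] (nat_lit 0) [] false,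
   Spec.mk (nat_lit 2211) (nat_lit 3) [nat_lit 6585, nat_lit 753, nat_lit 2229, nat_lit 2209] (nat_lit 0) [] false,
   Spec.mk (nat_lit 2219) (nat_lit 1) [nat_lit 6593, nat_lit 761, nat_lit 2273, nat_lit 2201, nat_lit 2225, nat_lit 2221, nat_lit 8779] (nat_lit 0) [] false,
   Spec.mk (nat_lit 2221) (nat_lit 1) [nat_lit 6595, nat_lit 763, nat_lit 2275, nat_lit 2203, nat_lit 2227, nat_lit 2219, nat_lit 8781] (nat_lit 0) [] false,
   Spec.mk (nat_lit 2225) (nat_lit 0) [nat_lit 6599, nat_lit 767, nat_lit 2279, nat_lit 2207, nat_lit 2243, nat_lit 2219, nat_lit 2227, nat_lit 8785] (nat_lit 0) [] false,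
   Spec.mk (nat_lit 2227) (nat_lit 2) [nat_lit 6601, nat_lit 769, nat_lit 2281, nat_lit 2209, nat_lit 2245, nat_lit 2221, nat_lit 2233, nat_lit 2225, nat_lit 2229, nat_lit 8787] (nat_lit 0) [] false,
   Spec.mk (nat_lit 2229) (nat_lit 2) [nat_lit 6603, nat_lit 771, nat_lit 2283, nat_lit 2211, nat_lit 2247, nat_lit 2235, nat_lit 2227] (nat_lit 0) [] false,
   Spec.mk (nat_lit 2233) (nat_lit 1) [nat_lit 6607, nat_lit 775, nat_lit 2287, nat_lit 2251, nat_lit 2227, nat_lit 2235, nat_lit 8793] (nat_lit 0) [] false,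
   Spec.mk (nat_lit 2235) (nat_lit 3) [nat_lit 6609, nat_lit 777, nat_lit 2289, nat_lit 2253, nat_lit 2229, nat_lit 2233] (nat_lit 0) [] false,
   Spec.mk (nat_lit 2243) (nat_lit 0) [nat_lit 6617, nat_lit 785, nat_lit 2297, nat_lit 2225, nat_lit 2245, nat_lit 8803] (nat_lit 1) [] false,
   Spec.mk (nat_lit 2245) (nat_lit 0) [nat_lit 6619, nat_lit 787, nat_lit 2299, nat_lit 2227, nat_lit 2251, nat_lit 2243, nat_lit 2247, nat_lit 8805] (nat_lit 0) [] false,
   Spec.mk (nat_lit 2247) (nat_lit 0) [nat_lit 6621, nat_lit 789, nat_lit 2301, nat_lit 2229, nat_lit 2253, nat_lit 2245] (nat_lit 1) [] false,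
   Spec.mk (nat_lit 2251) (nat_lit 1) [nat_lit 6625, nat_lit 793, nat_lit 2305, nat_lit 2233, nat_lit 2245, nat_lit 2253, nat_lit 8811] (nat_lit 0) [] false,
   Spec.mk (nat_lit 2253) (nat_lit 2) [nat_lit 6627, nat_lit 795, nat_lit 2307, nat_lit 2235, nat_lit 2247, nat_lit 2259, nat_lit 2251] (nat_lit 0) [] false,
   Spec.mk (nat_lit 2259) (nat_lit 3) [nat_lit 6633, nat_lit 801, nat_lit 2313, nat_lit 2253] (nat_lit 0) [] false,
   Spec.mk (nat_lit 2273) (nat_lit 1) [nat_lit 6647, nat_lit 815, nat_lit 2435, nat_lit 2219, nat_lit 2279, nat_lit 2275, nat_lit 8833] (nat_lit 0) [] false,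
   Spec.mk (nat_lit 2275) (nat_lit 1) [nat_lit 6649, nat_lit 817, nat_lit 2437, nat_lit 2221, nat_lit 2281, nat_lit 2273, nat_lit 8835] (nat_lit 0) [] false,
   Spec.mk (nat_lit 2279) (nat_lit 0) [nat_lit 6653, nat_lit 821, nat_lit 2441, nat_lit 2225, nat_lit 2297, nat_lit 2273, nat_lit 2281, nat_lit 8839] (nat_lit 1) [] false,
   Spec.mk (nat_lit 2281) (nat_lit 1) [nat_lit 6655, nat_lit 823, nat_lit 2443, nat_lit 2227, nat_lit 2299, nat_lit 2275, nat_lit 2287, nat_lit 2279, nat_lit 2283, nat_lit 8841] (nat_lit 0) [] false,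
   Spec.mk (nat_lit 2283) (nat_lit 1) [nat_lit 6657, nat_lit 825, nat_lit 2445, nat_lit 2229, nat_lit 2301, nat_lit 2289, nat_lit 2281] (nat_lit 0) [] false,
   Spec.mk (nat_lit 2287) (nat_lit 0) [nat_lit 6661, nat_lit 829, nat_lit 2449, nat_lit 2233, nat_lit 2305, nat_lit 2281, nat_lit 2289, nat_lit 8847] (nat_lit 1) [] false,
   Spec.mk (nat_lit 2289) (nat_lit 1) [nat_lit 6663, nat_lit 831, nat_lit 2451, nat_lit 2235, nat_lit 2307, nat_lit 2283, nat_lit 2287] (nat_lit 0) [] false,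
   Spec.mk (nat_lit 2297) (nat_lit 0) [nat_lit 6671, nat_lit 839, nat_lit 2459, nat_lit 2243, nat_lit 2351, nat_lit 2279, nat_lit 2299, nat_lit 8857] (nat_lit 0) [] false,
   Spec.mk (nat_lit 2299) (nat_lit 1) [nat_lit 6673, nat_lit 841, nat_lit 2461, nat_lit 2245, nat_lit 2353, nat_lit 2281, nat_lit 2305, nat_lit 2297, nat_lit 2301, nat_lit 8859] (nat_lit 0) [] false,
   Spec.mk (nat_lit 2301) (nat_lit 0) [nat_lit 6675, nat_lit 843, nat_lit 2463, nat_lit 2247, nat_lit 2355, nat_lit 2283, nat_lit 2307, nat_lit 2299] (nat_lit 0) [] false,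
   Spec.mk (nat_lit 2305) (nat_lit 1) [nat_lit 6679, nat_lit 847, nat_lit 2467, nat_lit 2251, nat_lit 2359, nat_lit 2287, nat_lit 2323, nat_lit 2299, nat_lit 2307, nat_lit 8865] (nat_lit 0) [] false,
   Spec.mk (nat_lit 2307) (nat_lit 2) [nat_lit 6681, nat_lit 849, nat_lit 2469, nat_lit 2253, nat_lit 2361, nat_lit 2289, nat_lit 2325, nat_lit 2301, nat_lit 2313, nat_lit 2305] (nat_lit 0) [] false,
   Spec.mk (nat_lit 2313) (nat_lit 2) [nat_lit 6687, nat_lit 855, nat_lit 2475, nat_lit 2259, nat_lit 2367, nat_lit 2331, nat_lit 2307] (nat_lit 0) [] false,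
   Spec.mk (nat_lit 2323) (nat_lit 1) [nat_lit 6697, nat_lit 865, nat_lit 2485, nat_lit 2377, nat_lit 2305, nat_lit 2325, nat_lit 8883] (nat_lit 0) [] false,
   Spec.mk (nat_lit 2325) (nat_lit 1) [nat_lit 6699, nat_lit 867, nat_lit 2487, nat_lit 2379, nat_lit 2307, nat_lit 2331, nat_lit 2323] (nat_lit 0) [] false]

noncomputable def sp5 : List Spec :=
  [Spec.mk (nat_lit 2331) (nat_lit 3) [nat_lit 6705, nat_lit 873, nat_lit 2493, nat_lit 2385, nat_lit 2313, nat_lit 2325] (nat_lit 0) [] false,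
   Spec.mk (nat_lit 2351) (nat_lit 0) [nat_lit 6725, nat_lit 893, nat_lit 2513, nat_lit 2297, nat_lit 2353, nat_lit 8911] (nat_lit 1) [] false,
   Spec.mk (nat_lit 2353) (nat_lit 0) [nat_lit 6727, nat_lit 895, nat_lit 2515, nat_lit 2299, nat_lit 2359, nat_lit 2351, nat_lit 2355, nat_lit 8913] (nat_lit 0) [] false,
   Spec.mk (nat_lit 2355) (nat_lit 0) [nat_lit 6729, nat_lit 897, nat_lit 2517, nat_lit 2301, nat_lit 2361, nat_lit 2353] (nat_lit 1) [] false,
   Spec.mk (nat_lit 2359) (nat_lit 0) [nat_lit 6733, nat_lit 901, nat_lit 2521, nat_lit 2305, nat_lit 2377, nat_lit 2353, nat_lit 2361, nat_lit 8919] (nat_lit 1) [] false,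
   Spec.mk (nat_lit 2361) (nat_lit 0) [nat_lit 6735, nat_lit 903, nat_lit 2523, nat_lit 2307, nat_lit 2379, nat_lit 2355, nat_lit 2367, nat_lit 2359] (nat_lit 0) [] false,
   Spec.mk (nat_lit 2367) (nat_lit 0) [nat_lit 6741, nat_lit 909, nat_lit 2529, nat_lit 2313, nat_lit 2385, nat_lit 2361] (nat_lit 1) [] false,
   Spec.mk (nat_lit 2377) (nat_lit 1) [nat_lit 6751, nat_lit 919, nat_lit 2539, nat_lit 2323, nat_lit 2359, nat_lit 2379, nat_lit 8937] (nat_lit 0) [] false,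
   Spec.mk (nat_lit 2379) (nat_lit 1) [nat_lit 6753, nat_lit 921, nat_lit 2541, nat_lit 2325, nat_lit 2361, nat_lit 2385, nat_lit 2377] (nat_lit 0) [] false,
   Spec.mk (nat_lit 2385) (nat_lit 2) [nat_lit 6759, nat_lit 927, nat_lit 2547, nat_lit 2331, nat_lit 2367, nat_lit 2403, nat_lit 2379] (nat_lit 0) [] false,
   Spec.mk (nat_lit 2403) (nat_lit 3) [nat_lit 6777, nat_lit 945, nat_lit 2565, nat_lit 2385] (nat_lit 0) [] false,
   Spec.mk (nat_lit 2435) (nat_lit 1) [nat_lit 6809, nat_lit 977, nat_lit 2921, nat_lit 2273, nat_lit 2441, nat_lit 2437, nat_lit 8995] (nat_lit 0) [] false,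
   Spec.mk (nat_lit 2437) (nat_lit 1) [nat_lit 6811, nat_lit 979, nat_lit 2923, nat_lit 2275, nat_lit 2443, nat_lit 2435, nat_lit 8997] (nat_lit 0) [] false,
   Spec.mk (nat_lit 2441) (nat_lit 0) [nat_lit 6815, nat_lit 983, nat_lit 2927, nat_lit 2279, nat_lit 2459, nat_lit 2435, nat_lit 2443, nat_lit 9001] (nat_lit 1) [] false,
   Spec.mk (nat_lit 2443) (nat_lit 1) [nat_lit 6817, nat_lit 985, nat_lit 2929, nat_lit 2281, nat_lit 2461, nat_lit 2437, nat_lit 2449, nat_lit 2441, nat_lit 2445, nat_lit 9003] (nat_lit 0) [] false,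
   Spec.mk (nat_lit 2445) (nat_lit 1) [nat_lit 6819, nat_lit 987, nat_lit 2931, nat_lit 2283, nat_lit 2463, nat_lit 2451, nat_lit 2443] (nat_lit 0) [] false,
   Spec.mk (nat_lit 2449) (nat_lit 0) [nat_lit 6823, nat_lit 991, nat_lit 2935, nat_lit 2287, nat_lit 2467, nat_lit 2443, nat_lit 2451, nat_lit 9009] (nat_lit 1) [] false,
   Spec.mk (nat_lit 2451) (nat_lit 1) [nat_lit 6825, nat_lit 993, nat_lit 2937, nat_lit 2289, nat_lit 2469, nat_lit 2445, nat_lit 2449] (nat_lit 0) [] false,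
   Spec.mk (nat_lit 2459) (nat_lit 0) [nat_lit 6833, nat_lit 1001, nat_lit 2945, nat_lit 2297, nat_lit 2513, nat_lit 2441, nat_lit 2461, nat_lit 9019] (nat_lit 1) [] false,
   Spec.mk (nat_lit 2461) (nat_lit 0) [nat_lit 6835, nat_lit 1003, nat_lit 2947, nat_lit 2299, nat_lit 2515, nat_lit 2443, nat_lit 2467, nat_lit 2459, nat_lit 2463, nat_lit 9021] (nat_lit 0) [] true,
   Spec.mk (nat_lit 2463) (nat_lit 0) [nat_lit 6837, nat_lit 1005, nat_lit 2949, nat_lit 2301, nat_lit 2517, nat_lit 2445, nat_lit 2469, nat_lit 2461] (nat_lit 1) [] false,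
   Spec.mk (nat_lit 2467) (nat_lit 0) [nat_lit 6841, nat_lit 1009, nat_lit 2953, nat_lit 2305, nat_lit 2521, nat_lit 2449, nat_lit 2485, nat_lit 2461, nat_lit 2469, nat_lit 9027] (nat_lit 0) [] false,
   Spec.mk (nat_lit 2469) (nat_lit 1) [nat_lit 6843, nat_lit 1011, nat_lit 2955, nat_lit 2307, nat_lit 2523, nat_lit 2451, nat_lit 2487, nat_lit 2463, nat_lit 2475, nat_lit 2467] (nat_lit 0) [] false,
   Spec.mk (nat_lit 2475) (nat_lit 1) [nat_lit 6849, nat_lit 1017, nat_lit 2961, nat_lit 2313, nat_lit 2529, nat_lit 2493, nat_lit 2469] (nat_lit 0) [] false,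
   Spec.mk (nat_lit 2485) (nat_lit 0) [nat_lit 6859, nat_lit 1027, nat_lit 2971, nat_lit 2323, nat_lit 2539, nat_lit 2467, nat_lit 2487, nat_lit 9045] (nat_lit 1) [] false,
   Spec.mk (nat_lit 2487) (nat_lit 0) [nat_lit 6861, nat_lit 1029, nat_lit 2973, nat_lit 2325, nat_lit 2541, nat_lit 2469, nat_lit 2493, nat_lit 2485] (nat_lit 1) [] false,
   Spec.mk (nat_lit 2493) (nat_lit 1) [nat_lit 6867, nat_lit 1035, nat_lit 2979, nat_lit 2331, nat_lit 2547, nat_lit 2475, nat_lit 2487] (nat_lit 0) [] false,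
   Spec.mk (nat_lit 2513) (nat_lit 0) [nat_lit 6887, nat_lit 1055, nat_lit 2999, nat_lit 2351, nat_lit 2675, nat_lit 2459, nat_lit 2515, nat_lit 9073] (nat_lit 0) [] false,
   Spec.mk (nat_lit 2515) (nat_lit 1) [nat_lit 6889, nat_lit 1057, nat_lit 3001, nat_lit 2353, nat_lit 2677, nat_lit 2461, nat_lit 2521, nat_lit 2513, nat_lit 2517, nat_lit 9075] (nat_lit 0) [] false,
   Spec.mk (nat_lit 2517) (nat_lit 0) [nat_lit 6891, nat_lit 1059, nat_lit 3003, nat_lit 2355, nat_lit 2679, nat_lit 2463, nat_lit 2523, nat_lit 2515] (nat_lit 0) [] false,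
   Spec.mk (nat_lit 2521) (nat_lit 0) [nat_lit 6895, nat_lit 1063, nat_lit 3007, nat_lit 2359, nat_lit 2683, nat_lit 2467, nat_lit 2539, nat_lit 2515, nat_lit 2523, nat_lit 9081] (nat_lit 0) [] false,
   Spec.mk (nat_lit 2523) (nat_lit 1) [nat_lit 6897, nat_lit 1065, nat_lit 3009, nat_lit 2361, nat_lit 2685, nat_lit 2469, nat_lit 2541, nat_lit 2517, nat_lit 2529, nat_lit 2521] (nat_lit 0) [] false,
   Spec.mk (nat_lit 2529) (nat_lit 0) [nat_lit 6903, nat_lit 1071, nat_lit 3015, nat_lit 2367, nat_lit 2691, nat_lit 2475, nat_lit 2547, nat_lit 2523] (nat_lit 0) [] false,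
   Spec.mk (nat_lit 2539) (nat_lit 1) [nat_lit 6913, nat_lit 1081, nat_lit 3025, nat_lit 2377, nat_lit 2701, nat_lit 2485, nat_lit 2593, nat_lit 2521, nat_lit 2541, nat_lit 9099] (nat_lit 0) [] false,
   Spec.mk (nat_lit 2541) (nat_lit 1) [nat_lit 6915, nat_lit 1083, nat_lit 3027, nat_lit 2379, nat_lit 2703, nat_lit 2487, nat_lit 2595, nat_lit 2523, nat_lit 2547, nat_lit 2539] (nat_lit 0) [] false,
   Spec.mk (nat_lit 2547) (nat_lit 2) [nat_lit 6921, nat_lit 1089, nat_lit 3033, nat_lit 2385, nat_lit 2709, nat_lit 2493, nat_lit 2601, nat_lit 2529, nat_lit 2565, nat_lit 2541] (nat_lit 0) [] false,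
   Spec.mk (nat_lit 2565) (nat_lit 2) [nat_lit 6939, nat_lit 1107, nat_lit 3051, nat_lit 2403, nat_lit 2727, nat_lit 2619, nat_lit 2547] (nat_lit 0) [] false,
   Spec.mk (nat_lit 2593) (nat_lit 1) [nat_lit 6967, nat_lit 1135, nat_lit 3079, nat_lit 2755, nat_lit 2539, nat_lit 2595, nat_lit 9153] (nat_lit 0) [] false,
   Spec.mk (nat_lit 2595) (nat_lit 1) [nat_lit 6969, nat_lit 1137, nat_lit 3081, nat_lit 2757, nat_lit 2541, nat_lit 2601, nat_lit 2593] (nat_lit 0) [] false,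
   Spec.mk (nat_lit 2601) (nat_lit 1) [nat_lit 6975, nat_lit 1143, nat_lit 3087, nat_lit 2763, nat_lit 2547, nat_lit 2619, nat_lit 2595] (nat_lit 0) [] false,
   Spec.mk (nat_lit 2619) (nat_lit 3) [nat_lit 6993, nat_lit 1161, nat_lit 3105, nat_lit 2781, nat_lit 2565, nat_lit 2601] (nat_lit 0) [] false,
   Spec.mk (nat_lit 2675) (nat_lit 0) [nat_lit 7049, nat_lit 1217, nat_lit 3161, nat_lit 2513, nat_lit 2677, nat_lit 9235] (nat_lit 1) [] false,
   Spec.mk (nat_lit 2677) (nat_lit 0) [nat_lit 7051, nat_lit 1219, nat_lit 3163, nat_lit 2515, nat_lit 2683, nat_lit 2675, nat_lit 2679, nat_lit 9237] (nat_lit 0) [] false,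
   Spec.mk (nat_lit 2679) (nat_lit 0) [nat_lit 7053, nat_lit 1221, nat_lit 3165, nat_lit 2517, nat_lit 2685, nat_lit 2677] (nat_lit 1) [] false,
   Spec.mk (nat_lit 2683) (nat_lit 0) [nat_lit 7057, nat_lit 1225, nat_lit 3169, nat_lit 2521, nat_lit 2701, nat_lit 2677, nat_lit 2685, nat_lit 9243] (nat_lit 1) [] false,
   Spec.mk (nat_lit 2685) (nat_lit 0) [nat_lit 7059, nat_lit 1227, nat_lit 3171, nat_lit 2523, nat_lit 2703, nat_lit 2679, nat_lit 2691, nat_lit 2683] (nat_lit 0) [] false,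
   Spec.mk (nat_lit 2691) (nat_lit 0) [nat_lit 7065, nat_lit 1233, nat_lit 3177, nat_lit 2529, nat_lit 2709, nat_lit 2685] (nat_lit 1) [] false,
   Spec.mk (nat_lit 2701) (nat_lit 0) [nat_lit 7075, nat_lit 1243, nat_lit 3187, nat_lit 2539, nat_lit 2755, nat_lit 2683, nat_lit 2703, nat_lit 9261] (nat_lit 1) [] false,
   Spec.mk (nat_lit 2703) (nat_lit 0) [nat_lit 7077, nat_lit 1245, nat_lit 3189, nat_lit 2541, nat_lit 2757, nat_lit 2685, nat_lit 2709, nat_lit 2701] (nat_lit 1) [] false,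
   Spec.mk (nat_lit 2709) (nat_lit 0) [nat_lit 7083, nat_lit 1251, nat_lit 3195, nat_lit 2547, nat_lit 2763, nat_lit 2691, nat_lit 2727, nat_lit 2703] (nat_lit 0) [] false,
   Spec.mk (nat_lit 2727) (nat_lit 0) [nat_lit 7101, nat_lit 1269, nat_lit 3213, nat_lit 2565, nat_lit 2781, nat_lit 2709] (nat_lit 1) [] false,
   Spec.mk (nat_lit 2755) (nat_lit 1) [nat_lit 7129, nat_lit 1297, nat_lit 3241, nat_lit 2593, nat_lit 2701, nat_lit 2757, nat_lit 9315] (nat_lit 0) [] false,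
   Spec.mk (nat_lit 2757) (nat_lit 1) [nat_lit 7131, nat_lit 1299, nat_lit 3243, nat_lit 2595, nat_lit 2703, nat_lit 2763, nat_lit 2755] (nat_lit 0) [] false,
   Spec.mk (nat_lit 2763) (nat_lit 1) [nat_lit 7137, nat_lit 1305, nat_lit 3249, nat_lit 2601, nat_lit 2709, nat_lit 2781, nat_lit 2757] (nat_lit 0) [] false,
   Spec.mk (nat_lit 2781) (nat_lit 2) [nat_lit 7155, nat_lit 1323, nat_lit 3267, nat_lit 2619, nat_lit 2727, nat_lit 2835, nat_lit 2763] (nat_lit 0) [] false,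
   Spec.mk (nat_lit 2835) (nat_lit 3) [nat_lit 7209, nat_lit 1377, nat_lit 3321, nat_lit 2781] (nat_lit 0) [] false,
   Spec.mk (nat_lit 2921) (nat_lit 2) [nat_lit 7295, nat_lit 1463, nat_lit 4379, nat_lit 2435, nat_lit 2927, nat_lit 2923, nat_lit 9481] (nat_lit 0) [] false,
   Spec.mk (nat_lit 2923) (nat_lit 2) [nat_lit 7297, nat_lit 1465, nat_lit 4381, nat_lit 2437, nat_lit 2929, nat_lit 2921, nat_lit 9483] (nat_lit 0) [] false,
   Spec.mk (nat_lit 2927) (nat_lit 0) [nat_lit 7301, nat_lit 1469, nat_lit 4385, nat_lit 2441, nat_lit 2945, nat_lit 2921, nat_lit 2929, nat_lit 9487] (nat_lit 0) [] false,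
   Spec.mk (nat_lit 2929) (nat_lit 2) [nat_lit 7303, nat_lit 1471, nat_lit 4387, nat_lit 2443, nat_lit 2947, nat_lit 2923, nat_lit 2935, nat_lit 2927, nat_lit 2931, nat_lit 9489] (nat_lit 0) [] false]

noncomputable def sp6 : List Spec :=
  [Spec.mk (nat_lit 2931) (nat_lit 2) [nat_lit 7305, nat_lit 1473, nat_lit 4389, nat_lit 2445, nat_lit 2949, nat_lit 2937, nat_lit 2929] (nat_lit 0) [] false,
   Spec.mk (nat_lit 2935) (nat_lit 0) [nat_lit 7309, nat_lit 1477, nat_lit 4393, nat_lit 2449, nat_lit 2953, nat_lit 2929, nat_lit 2937, nat_lit 9495] (nat_lit 0) [] false,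
   Spec.mk (nat_lit 2937) (nat_lit 2) [nat_lit 7311, nat_lit 1479, nat_lit 4395, nat_lit 2451, nat_lit 2955, nat_lit 2931, nat_lit 2935] (nat_lit 0) [] false,
   Spec.mk (nat_lit 2945) (nat_lit 0) [nat_lit 7319, nat_lit 1487, nat_lit 4403, nat_lit 2459, nat_lit 2999, nat_lit 2927, nat_lit 2947, nat_lit 9505] (nat_lit 0) [] false,
   Spec.mk (nat_lit 2947) (nat_lit 1) [nat_lit 7321, nat_lit 1489, nat_lit 4405, nat_lit 2461, nat_lit 3001, nat_lit 2929, nat_lit 2953, nat_lit 2945, nat_lit 2949, nat_lit 9507] (nat_lit 0) [] false,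
   Spec.mk (nat_lit 2949) (nat_lit 0) [nat_lit 7323, nat_lit 1491, nat_lit 4407, nat_lit 2463, nat_lit 3003, nat_lit 2931, nat_lit 2955, nat_lit 2947] (nat_lit 0) [] false,
   Spec.mk (nat_lit 2953) (nat_lit 1) [nat_lit 7327, nat_lit 1495, nat_lit 4411, nat_lit 2467, nat_lit 3007, nat_lit 2935, nat_lit 2971, nat_lit 2947, nat_lit 2955, nat_lit 9513] (nat_lit 0) [] false,
   Spec.mk (nat_lit 2955) (nat_lit 2) [nat_lit 7329, nat_lit 1497, nat_lit 4413, nat_lit 2469, nat_lit 3009, nat_lit 2937, nat_lit 2973, nat_lit 2949, nat_lit 2961, nat_lit 2953] (nat_lit 0) [] false,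
   Spec.mk (nat_lit 2961) (nat_lit 2) [nat_lit 7335, nat_lit 1503, nat_lit 4419, nat_lit 2475, nat_lit 3015, nat_lit 2979, nat_lit 2955] (nat_lit 0) [] false,
   Spec.mk (nat_lit 2971) (nat_lit 0) [nat_lit 7345, nat_lit 1513, nat_lit 4429, nat_lit 2485, nat_lit 3025, nat_lit 2953, nat_lit 2973, nat_lit 9531] (nat_lit 0) [] false,
   Spec.mk (nat_lit 2973) (nat_lit 0) [nat_lit 7347, nat_lit 1515, nat_lit 4431, nat_lit 2487, nat_lit 3027, nat_lit 2955, nat_lit 2979, nat_lit 2971] (nat_lit 0) [] false,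
   Spec.mk (nat_lit 2979) (nat_lit 2) [nat_lit 7353, nat_lit 1521, nat_lit 4437, nat_lit 2493, nat_lit 3033, nat_lit 2961, nat_lit 2973] (nat_lit 0) [] false,
   Spec.mk (nat_lit 2999) (nat_lit 0) [nat_lit 7373, nat_lit 1541, nat_lit 4457, nat_lit 2513, nat_lit 3161, nat_lit 2945, nat_lit 3001, nat_lit 9559] (nat_lit 0) [] false,
   Spec.mk (nat_lit 3001) (nat_lit 1) [nat_lit 7375, nat_lit 1543, nat_lit 4459, nat_lit 2515, nat_lit 3163, nat_lit 2947, nat_lit 3007, nat_lit 2999, nat_lit 3003, nat_lit 9561] (nat_lit 0) [] false,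
   Spec.mk (nat_lit 3003) (nat_lit 0) [nat_lit 7377, nat_lit 1545, nat_lit 4461, nat_lit 2517, nat_lit 3165, nat_lit 2949, nat_lit 3009, nat_lit 3001] (nat_lit 0) [] false,
   Spec.mk (nat_lit 3007) (nat_lit 0) [nat_lit 7381, nat_lit 1549, nat_lit 4465, nat_lit 2521, nat_lit 3169, nat_lit 2953, nat_lit 3025, nat_lit 3001, nat_lit 3009, nat_lit 9567] (nat_lit 0) [] false,
   Spec.mk (nat_lit 3009) (nat_lit 1) [nat_lit 7383, nat_lit 1551, nat_lit 4467, nat_lit 2523, nat_lit 3171, nat_lit 2955, nat_lit 3027, nat_lit 3003, nat_lit 3015, nat_lit 3007] (nat_lit 0) [] false,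
   Spec.mk (nat_lit 3015) (nat_lit 0) [nat_lit 7389, nat_lit 1557, nat_lit 4473, nat_lit 2529, nat_lit 3177, nat_lit 2961, nat_lit 3033, nat_lit 3009] (nat_lit 0) [] false,
   Spec.mk (nat_lit 3025) (nat_lit 1) [nat_lit 7399, nat_lit 1567, nat_lit 4483, nat_lit 2539, nat_lit 3187, nat_lit 2971, nat_lit 3079, nat_lit 3007, nat_lit 3027, nat_lit 9585] (nat_lit 0) [] false,
   Spec.mk (nat_lit 3027) (nat_lit 1) [nat_lit 7401, nat_lit 1569, nat_lit 4485, nat_lit 2541, nat_lit 3189, nat_lit 2973, nat_lit 3081, nat_lit 3009, nat_lit 3033, nat_lit 3025] (nat_lit 0) [] false,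
   Spec.mk (nat_lit 3033) (nat_lit 2) [nat_lit 7407, nat_lit 1575, nat_lit 4491, nat_lit 2547, nat_lit 3195, nat_lit 2979, nat_lit 3087, nat_lit 3015, nat_lit 3051, nat_lit 3027] (nat_lit 0) [] false,
   Spec.mk (nat_lit 3051) (nat_lit 2) [nat_lit 7425, nat_lit 1593, nat_lit 4509, nat_lit 2565, nat_lit 3213, nat_lit 3105, nat_lit 3033] (nat_lit 0) [] false,
   Spec.mk (nat_lit 3079) (nat_lit 0) [nat_lit 7453, nat_lit 1621, nat_lit 4537, nat_lit 2593, nat_lit 3241, nat_lit 3025, nat_lit 3081, nat_lit 9639] (nat_lit 0) [] false,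
   Spec.mk (nat_lit 3081) (nat_lit 0) [nat_lit 7455, nat_lit 1623, nat_lit 4539, nat_lit 2595, nat_lit 3243, nat_lit 3027, nat_lit 3087, nat_lit 3079] (nat_lit 0) [] false,
   Spec.mk (nat_lit 3087) (nat_lit 0) [nat_lit 7461, nat_lit 1629, nat_lit 4545, nat_lit 2601, nat_lit 3249, nat_lit 3033, nat_lit 3105, nat_lit 3081] (nat_lit 0) [] false,
   Spec.mk (nat_lit 3105) (nat_lit 2) [nat_lit 7479, nat_lit 1647, nat_lit 4563, nat_lit 2619, nat_lit 3267, nat_lit 3051, nat_lit 3087] (nat_lit 0) [] false,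
   Spec.mk (nat_lit 3161) (nat_lit 1) [nat_lit 7535, nat_lit 1703, nat_lit 4619, nat_lit 2675, nat_lit 3647, nat_lit 2999, nat_lit 3163, nat_lit 9721] (nat_lit 0) [] false,
   Spec.mk (nat_lit 3163) (nat_lit 2) [nat_lit 7537, nat_lit 1705, nat_lit 4621, nat_lit 2677, nat_lit 3649, nat_lit 3001, nat_lit 3169, nat_lit 3161, nat_lit 3165, nat_lit 9723] (nat_lit 0) [] false,
   Spec.mk (nat_lit 3165) (nat_lit 1) [nat_lit 7539, nat_lit 1707, nat_lit 4623, nat_lit 2679, nat_lit 3651, nat_lit 3003, nat_lit 3171, nat_lit 3163] (nat_lit 0) [] false,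
   Spec.mk (nat_lit 3169) (nat_lit 1) [nat_lit 7543, nat_lit 1711, nat_lit 4627, nat_lit 2683, nat_lit 3655, nat_lit 3007, nat_lit 3187, nat_lit 3163, nat_lit 3171, nat_lit 9729] (nat_lit 0) [] false,
   Spec.mk (nat_lit 3171) (nat_lit 2) [nat_lit 7545, nat_lit 1713, nat_lit 4629, nat_lit 2685, nat_lit 3657, nat_lit 3009, nat_lit 3189, nat_lit 3165, nat_lit 3177, nat_lit 3169] (nat_lit 0) [] false,
   Spec.mk (nat_lit 3177) (nat_lit 1) [nat_lit 7551, nat_lit 1719, nat_lit 4635, nat_lit 2691, nat_lit 3663, nat_lit 3015, nat_lit 3195, nat_lit 3171] (nat_lit 0) [] false,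
   Spec.mk (nat_lit 3187) (nat_lit 1) [nat_lit 7561, nat_lit 1729, nat_lit 4645, nat_lit 2701, nat_lit 3673, nat_lit 3025, nat_lit 3241, nat_lit 3169, nat_lit 3189, nat_lit 9747] (nat_lit 0) [] false,
   Spec.mk (nat_lit 3189) (nat_lit 1) [nat_lit 7563, nat_lit 1731, nat_lit 4647, nat_lit 2703, nat_lit 3675, nat_lit 3027, nat_lit 3243, nat_lit 3171, nat_lit 3195, nat_lit 3187] (nat_lit 0) [] false,
   Spec.mk (nat_lit 3195) (nat_lit 2) [nat_lit 7569, nat_lit 1737, nat_lit 4653, nat_lit 2709, nat_lit 3681, nat_lit 3033, nat_lit 3249, nat_lit 3177, nat_lit 3213, nat_lit 3189] (nat_lit 0) [] false,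
   Spec.mk (nat_lit 3213) (nat_lit 1) [nat_lit 7587, nat_lit 1755, nat_lit 4671, nat_lit 2727, nat_lit 3699, nat_lit 3051, nat_lit 3267, nat_lit 3195] (nat_lit 0) [] false,
   Spec.mk (nat_lit 3241) (nat_lit 2) [nat_lit 7615, nat_lit 1783, nat_lit 4699, nat_lit 2755, nat_lit 3727, nat_lit 3079, nat_lit 3403, nat_lit 3187, nat_lit 3243, nat_lit 9801] (nat_lit 0) [] false,
   Spec.mk (nat_lit 3243) (nat_lit 2) [nat_lit 7617, nat_lit 1785, nat_lit 4701, nat_lit 2757, nat_lit 3729, nat_lit 3081, nat_lit 3405, nat_lit 3189, nat_lit 3249, nat_lit 3241] (nat_lit 0) [] false,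
   Spec.mk (nat_lit 3249) (nat_lit 2) [nat_lit 7623, nat_lit 1791, nat_lit 4707, nat_lit 2763, nat_lit 3735, nat_lit 3087, nat_lit 3411, nat_lit 3195, nat_lit 3267, nat_lit 3243] (nat_lit 0) [] false,
   Spec.mk (nat_lit 3267) (nat_lit 3) [nat_lit 7641, nat_lit 1809, nat_lit 4725, nat_lit 2781, nat_lit 3753, nat_lit 3105, nat_lit 3429, nat_lit 3213, nat_lit 3321, nat_lit 3249] (nat_lit 0) [] false,
   Spec.mk (nat_lit 3321) (nat_lit 3) [nat_lit 7695, nat_lit 1863, nat_lit 4779, nat_lit 2835, nat_lit 3807, nat_lit 3483, nat_lit 3267] (nat_lit 0) [] false,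
   Spec.mk (nat_lit 3403) (nat_lit 2) [nat_lit 7777, nat_lit 1945, nat_lit 4861, nat_lit 3889, nat_lit 3241, nat_lit 3405, nat_lit 9963] (nat_lit 0) [] false,
   Spec.mk (nat_lit 3405) (nat_lit 2) [nat_lit 7779, nat_lit 1947, nat_lit 4863, nat_lit 3891, nat_lit 3243, nat_lit 3411, nat_lit 3403] (nat_lit 0) [] false,
   Spec.mk (nat_lit 3411) (nat_lit 2) [nat_lit 7785, nat_lit 1953, nat_lit 4869, nat_lit 3897, nat_lit 3249, nat_lit 3429, nat_lit 3405] (nat_lit 0) [] false,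
   Spec.mk (nat_lit 3429) (nat_lit 2) [nat_lit 7803, nat_lit 1971, nat_lit 4887, nat_lit 3915, nat_lit 3267, nat_lit 3483, nat_lit 3411] (nat_lit 0) [] false,
   Spec.mk (nat_lit 3483) (nat_lit 4) [nat_lit 7857, nat_lit 2025, nat_lit 4941, nat_lit 3969, nat_lit 3321, nat_lit 3429] (nat_lit 0) [] false,
   Spec.mk (nat_lit 3647) (nat_lit 1) [nat_lit 8021, nat_lit 5105, nat_lit 3161, nat_lit 3649, nat_lit 10207] (nat_lit 0) [] false,
   Spec.mk (nat_lit 3649) (nat_lit 2) [nat_lit 8023, nat_lit 5107, nat_lit 3163, nat_lit 3655, nat_lit 3647, nat_lit 3651, nat_lit 10209] (nat_lit 0) [] false,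
   Spec.mk (nat_lit 3651) (nat_lit 1) [nat_lit 8025, nat_lit 5109, nat_lit 3165, nat_lit 3657, nat_lit 3649] (nat_lit 0) [] false,
   Spec.mk (nat_lit 3655) (nat_lit 1) [nat_lit 8029, nat_lit 5113, nat_lit 3169, nat_lit 3673, nat_lit 3649, nat_lit 3657, nat_lit 10215] (nat_lit 0) [] false,
   Spec.mk (nat_lit 3657) (nat_lit 2) [nat_lit 8031, nat_lit 5115, nat_lit 3171, nat_lit 3675, nat_lit 3651, nat_lit 3663, nat_lit 3655] (nat_lit 0) [] false,
   Spec.mk (nat_lit 3663) (nat_lit 1) [nat_lit 8037, nat_lit 5121, nat_lit 3177, nat_lit 3681, nat_lit 3657] (nat_lit 0) [] false,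
   Spec.mk (nat_lit 3673) (nat_lit 1) [nat_lit 8047, nat_lit 5131, nat_lit 3187, nat_lit 3727, nat_lit 3655, nat_lit 3675, nat_lit 10233] (nat_lit 0) [] false,
   Spec.mk (nat_lit 3675) (nat_lit 1) [nat_lit 8049, nat_lit 5133, nat_lit 3189, nat_lit 3729, nat_lit 3657, nat_lit 3681, nat_lit 3673] (nat_lit 0) [] false,
   Spec.mk (nat_lit 3681) (nat_lit 2) [nat_lit 8055, nat_lit 5139, nat_lit 3195, nat_lit 3735, nat_lit 3663, nat_lit 3699, nat_lit 3675] (nat_lit 0) [] false,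
   Spec.mk (nat_lit 3699) (nat_lit 1) [nat_lit 8073, nat_lit 5157, nat_lit 3213, nat_lit 3753, nat_lit 3681] (nat_lit 0) [] false,
   Spec.mk (nat_lit 3727) (nat_lit 1) [nat_lit 8101, nat_lit 5185, nat_lit 3241, nat_lit 3889, nat_lit 3673, nat_lit 3729, nat_lit 10287] (nat_lit 0) [] false,
   Spec.mk (nat_lit 3729) (nat_lit 1) [nat_lit 8103, nat_lit 5187, nat_lit 3243, nat_lit 3891, nat_lit 3675, nat_lit 3735, nat_lit 3727] (nat_lit 0) [] false,
   Spec.mk (nat_lit 3735) (nat_lit 1) [nat_lit 8109, nat_lit 5193, nat_lit 3249, nat_lit 3897, nat_lit 3681, nat_lit 3753, nat_lit 3729] (nat_lit 0) [] false,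
   Spec.mk (nat_lit 3753) (nat_lit 2) [nat_lit 8127, nat_lit 5211, nat_lit 3267, nat_lit 3915, nat_lit 3699, nat_lit 3807, nat_lit 3735] (nat_lit 0) [] false]

noncomputable def sp7 : List Spec :=
  [Spec.mk (nat_lit 3807) (nat_lit 1) [nat_lit 8181, nat_lit 5265, nat_lit 3321, nat_lit 3969, nat_lit 3753] (nat_lit 0) [] false,
   Spec.mk (nat_lit 3889) (nat_lit 3) [nat_lit 8263, nat_lit 5347, nat_lit 3403, nat_lit 3727, nat_lit 3891, nat_lit 10449] (nat_lit 0) [] false,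
   Spec.mk (nat_lit 3891) (nat_lit 3) [nat_lit 8265, nat_lit 5349, nat_lit 3405, nat_lit 3729, nat_lit 3897, nat_lit 3889] (nat_lit 0) [] false,
   Spec.mk (nat_lit 3897) (nat_lit 3) [nat_lit 8271, nat_lit 5355, nat_lit 3411, nat_lit 3735, nat_lit 3915, nat_lit 3891] (nat_lit 0) [] false,
   Spec.mk (nat_lit 3915) (nat_lit 3) [nat_lit 8289, nat_lit 5373, nat_lit 3429, nat_lit 3753, nat_lit 3969, nat_lit 3897] (nat_lit 0) [] false,
   Spec.mk (nat_lit 3969) (nat_lit 4) [nat_lit 8343, nat_lit 5427, nat_lit 3483, nat_lit 3807, nat_lit 4131, nat_lit 3915] (nat_lit 0) [] false,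
   Spec.mk (nat_lit 4131) (nat_lit 5) [nat_lit 8505, nat_lit 5589, nat_lit 3969] (nat_lit 0) [] false,
   Spec.mk (nat_lit 4379) (nat_lit 1) [nat_lit 8753, nat_lit 2921, nat_lit 4385, nat_lit 4381, nat_lit 10939] (nat_lit 0) [] false,
   Spec.mk (nat_lit 4381) (nat_lit 1) [nat_lit 8755, nat_lit 2923, nat_lit 4387, nat_lit 4379, nat_lit 10941] (nat_lit 0) [] false,
   Spec.mk (nat_lit 4385) (nat_lit 0) [nat_lit 8759, nat_lit 2927, nat_lit 4403, nat_lit 4379, nat_lit 4387, nat_lit 10945] (nat_lit 1) [] false,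
   Spec.mk (nat_lit 4387) (nat_lit 1) [nat_lit 8761, nat_lit 2929, nat_lit 4405, nat_lit 4381, nat_lit 4393, nat_lit 4385, nat_lit 4389, nat_lit 10947] (nat_lit 0) [] false,
   Spec.mk (nat_lit 4389) (nat_lit 1) [nat_lit 8763, nat_lit 2931, nat_lit 4407, nat_lit 4395, nat_lit 4387] (nat_lit 0) [] false,
   Spec.mk (nat_lit 4393) (nat_lit 0) [nat_lit 8767, nat_lit 2935, nat_lit 4411, nat_lit 4387, nat_lit 4395, nat_lit 10953] (nat_lit 1) [] false,
   Spec.mk (nat_lit 4395) (nat_lit 1) [nat_lit 8769, nat_lit 2937, nat_lit 4413, nat_lit 4389, nat_lit 4393] (nat_lit 0) [] false,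
   Spec.mk (nat_lit 4403) (nat_lit 0) [nat_lit 8777, nat_lit 2945, nat_lit 4457, nat_lit 4385, nat_lit 4405, nat_lit 10963] (nat_lit 1) [] false,
   Spec.mk (nat_lit 4405) (nat_lit 0) [nat_lit 8779, nat_lit 2947, nat_lit 4459, nat_lit 4387, nat_lit 4411, nat_lit 4403, nat_lit 4407, nat_lit 10965] (nat_lit 0) [] false,
   Spec.mk (nat_lit 4407) (nat_lit 0) [nat_lit 8781, nat_lit 2949, nat_lit 4461, nat_lit 4389, nat_lit 4413, nat_lit 4405] (nat_lit 1) [] false,
   Spec.mk (nat_lit 4411) (nat_lit 0) [nat_lit 8785, nat_lit 2953, nat_lit 4465, nat_lit 4393, nat_lit 4429, nat_lit 4405, nat_lit 4413, nat_lit 10971] (nat_lit 0) [] false,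
   Spec.mk (nat_lit 4413) (nat_lit 1) [nat_lit 8787, nat_lit 2955, nat_lit 4467, nat_lit 4395, nat_lit 4431, nat_lit 4407, nat_lit 4419, nat_lit 4411] (nat_lit 0) [] false,
   Spec.mk (nat_lit 4419) (nat_lit 1) [nat_lit 8793, nat_lit 2961, nat_lit 4473, nat_lit 4437, nat_lit 4413] (nat_lit 0) [] false,
   Spec.mk (nat_lit 4429) (nat_lit 0) [nat_lit 8803, nat_lit 2971, nat_lit 4483, nat_lit 4411, nat_lit 4431, nat_lit 10989] (nat_lit 1) [] false,
   Spec.mk (nat_lit 4431) (nat_lit 0) [nat_lit 8805, nat_lit 2973, nat_lit 4485, nat_lit 4413, nat_lit 4437, nat_lit 4429] (nat_lit 1) [] false,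
   Spec.mk (nat_lit 4437) (nat_lit 1) [nat_lit 8811, nat_lit 2979, nat_lit 4491, nat_lit 4419, nat_lit 4431] (nat_lit 0) [] false,
   Spec.mk (nat_lit 4457) (nat_lit 0) [nat_lit 8831, nat_lit 2999, nat_lit 4619, nat_lit 4403, nat_lit 4459, nat_lit 11017] (nat_lit 1) [] false,
   Spec.mk (nat_lit 4459) (nat_lit 0) [nat_lit 8833, nat_lit 3001, nat_lit 4621, nat_lit 4405, nat_lit 4465, nat_lit 4457, nat_lit 4461, nat_lit 11019] (nat_lit 0) [] false,
   Spec.mk (nat_lit 4461) (nat_lit 0) [nat_lit 8835, nat_lit 3003, nat_lit 4623, nat_lit 4407, nat_lit 4467, nat_lit 4459] (nat_lit 1) [] false,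
   Spec.mk (nat_lit 4465) (nat_lit 0) [nat_lit 8839, nat_lit 3007, nat_lit 4627, nat_lit 4411, nat_lit 4483, nat_lit 4459, nat_lit 4467, nat_lit 11025] (nat_lit 1) [] false,
   Spec.mk (nat_lit 4467) (nat_lit 0) [nat_lit 8841, nat_lit 3009, nat_lit 4629, nat_lit 4413, nat_lit 4485, nat_lit 4461, nat_lit 4473, nat_lit 4465] (nat_lit 0) [] false,
   Spec.mk (nat_lit 4473) (nat_lit 0) [nat_lit 8847, nat_lit 3015, nat_lit 4635, nat_lit 4419, nat_lit 4491, nat_lit 4467] (nat_lit 1) [] false,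
   Spec.mk (nat_lit 4483) (nat_lit 0) [nat_lit 8857, nat_lit 3025, nat_lit 4645, nat_lit 4429, nat_lit 4537, nat_lit 4465, nat_lit 4485, nat_lit 11043] (nat_lit 0) [] false,
   Spec.mk (nat_lit 4485) (nat_lit 0) [nat_lit 8859, nat_lit 3027, nat_lit 4647, nat_lit 4431, nat_lit 4539, nat_lit 4467, nat_lit 4491, nat_lit 4483] (nat_lit 0) [] false,
   Spec.mk (nat_lit 4491) (nat_lit 1) [nat_lit 8865, nat_lit 3033, nat_lit 4653, nat_lit 4437, nat_lit 4545, nat_lit 4473, nat_lit 4509, nat_lit 4485] (nat_lit 0) [] false,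
   Spec.mk (nat_lit 4509) (nat_lit 1) [nat_lit 8883, nat_lit 3051, nat_lit 4671, nat_lit 4563, nat_lit 4491] (nat_lit 0) [] false,
   Spec.mk (nat_lit 4537) (nat_lit 0) [nat_lit 8911, nat_lit 3079, nat_lit 4699, nat_lit 4483, nat_lit 4539, nat_lit 11097] (nat_lit 1) [] false,
   Spec.mk (nat_lit 4539) (nat_lit 0) [nat_lit 8913, nat_lit 3081, nat_lit 4701, nat_lit 4485, nat_lit 4545, nat_lit 4537] (nat_lit 1) [] false,
   Spec.mk (nat_lit 4545) (nat_lit 0) [nat_lit 8919, nat_lit 3087, nat_lit 4707, nat_lit 4491, nat_lit 4563, nat_lit 4539] (nat_lit 1) [] false,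
   Spec.mk (nat_lit 4563) (nat_lit 1) [nat_lit 8937, nat_lit 3105, nat_lit 4725, nat_lit 4509, nat_lit 4545] (nat_lit 0) [] false,
   Spec.mk (nat_lit 4619) (nat_lit 0) [nat_lit 8993, nat_lit 3161, nat_lit 5105, nat_lit 4457, nat_lit 4621, nat_lit 11179] (nat_lit 1) [] false,
   Spec.mk (nat_lit 4621) (nat_lit 0) [nat_lit 8995, nat_lit 3163, nat_lit 5107, nat_lit 4459, nat_lit 4627, nat_lit 4619, nat_lit 4623, nat_lit 11181] (nat_lit 0) [] false,
   Spec.mk (nat_lit 4623) (nat_lit 0) [nat_lit 8997, nat_lit 3165, nat_lit 5109, nat_lit 4461, nat_lit 4629, nat_lit 4621] (nat_lit 1) [] false,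
   Spec.mk (nat_lit 4627) (nat_lit 0) [nat_lit 9001, nat_lit 3169, nat_lit 5113, nat_lit 4465, nat_lit 4645, nat_lit 4621, nat_lit 4629, nat_lit 11187] (nat_lit 1) [] false,
   Spec.mk (nat_lit 4629) (nat_lit 0) [nat_lit 9003, nat_lit 3171, nat_lit 5115, nat_lit 4467, nat_lit 4647, nat_lit 4623, nat_lit 4635, nat_lit 4627] (nat_lit 0) [] false,
   Spec.mk (nat_lit 4635) (nat_lit 0) [nat_lit 9009, nat_lit 3177, nat_lit 5121, nat_lit 4473, nat_lit 4653, nat_lit 4629] (nat_lit 1) [] false,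
   Spec.mk (nat_lit 4645) (nat_lit 0) [nat_lit 9019, nat_lit 3187, nat_lit 5131, nat_lit 4483, nat_lit 4699, nat_lit 4627, nat_lit 4647, nat_lit 11205] (nat_lit 1) [] false,
   Spec.mk (nat_lit 4647) (nat_lit 0) [nat_lit 9021, nat_lit 3189, nat_lit 5133, nat_lit 4485, nat_lit 4701, nat_lit 4629, nat_lit 4653, nat_lit 4645] (nat_lit 1) [] false,
   Spec.mk (nat_lit 4653) (nat_lit 0) [nat_lit 9027, nat_lit 3195, nat_lit 5139, nat_lit 4491, nat_lit 4707, nat_lit 4635, nat_lit 4671, nat_lit 4647] (nat_lit 0) [] false,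
   Spec.mk (nat_lit 4671) (nat_lit 0) [nat_lit 9045, nat_lit 3213, nat_lit 5157, nat_lit 4509, nat_lit 4725, nat_lit 4653] (nat_lit 1) [] false,
   Spec.mk (nat_lit 4699) (nat_lit 0) [nat_lit 9073, nat_lit 3241, nat_lit 5185, nat_lit 4537, nat_lit 4861, nat_lit 4645, nat_lit 4701, nat_lit 11259] (nat_lit 0) [] false,
   Spec.mk (nat_lit 4701) (nat_lit 0) [nat_lit 9075, nat_lit 3243, nat_lit 5187, nat_lit 4539, nat_lit 4863, nat_lit 4647, nat_lit 4707, nat_lit 4699] (nat_lit 0) [] false,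
   Spec.mk (nat_lit 4707) (nat_lit 0) [nat_lit 9081, nat_lit 3249, nat_lit 5193, nat_lit 4545, nat_lit 4869, nat_lit 4653, nat_lit 4725, nat_lit 4701] (nat_lit 0) [] false,
   Spec.mk (nat_lit 4725) (nat_lit 1) [nat_lit 9099, nat_lit 3267, nat_lit 5211, nat_lit 4563, nat_lit 4887, nat_lit 4671, nat_lit 4779, nat_lit 4707] (nat_lit 0) [] false,
   Spec.mk (nat_lit 4779) (nat_lit 1) [nat_lit 9153, nat_lit 3321, nat_lit 5265, nat_lit 4941, nat_lit 4725] (nat_lit 0) [] false,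
   Spec.mk (nat_lit 4861) (nat_lit 0) [nat_lit 9235, nat_lit 3403, nat_lit 5347, nat_lit 4699, nat_lit 4863, nat_lit 11421] (nat_lit 1) [] false,
   Spec.mk (nat_lit 4863) (nat_lit 0) [nat_lit 9237, nat_lit 3405, nat_lit 5349, nat_lit 4701, nat_lit 4869, nat_lit 4861] (nat_lit 1) [] false,
   Spec.mk (nat_lit 4869) (nat_lit 0) [nat_lit 9243, nat_lit 3411, nat_lit 5355, nat_lit 4707, nat_lit 4887, nat_lit 4863] (nat_lit 1) [] false,
   Spec.mk (nat_lit 4887) (nat_lit 0) [nat_lit 9261, nat_lit 3429, nat_lit 5373, nat_lit 4725, nat_lit 4941, nat_lit 4869] (nat_lit 1) [] false,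
   Spec.mk (nat_lit 4941) (nat_lit 1) [nat_lit 9315, nat_lit 3483, nat_lit 5427, nat_lit 4779, nat_lit 4887] (nat_lit 0) [] false,
   Spec.mk (nat_lit 5105) (nat_lit 1) [nat_lit 9479, nat_lit 3647, nat_lit 4619, nat_lit 5107, nat_lit 11665] (nat_lit 0) [] false,
   Spec.mk (nat_lit 5107) (nat_lit 2) [nat_lit 9481, nat_lit 3649, nat_lit 4621, nat_lit 5113, nat_lit 5105, nat_lit 5109, nat_lit 11667] (nat_lit 0) [] false,
   Spec.mk (nat_lit 5109) (nat_lit 1) [nat_lit 9483, nat_lit 3651, nat_lit 4623, nat_lit 5115, nat_lit 5107] (nat_lit 0) [] false]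

noncomputable def sp8 : List Spec :=
  [Spec.mk (nat_lit 5113) (nat_lit 1) [nat_lit 9487, nat_lit 3655, nat_lit 4627, nat_lit 5131, nat_lit 5107, nat_lit 5115, nat_lit 11673] (nat_lit 0) [] false,
   Spec.mk (nat_lit 5115) (nat_lit 2) [nat_lit 9489, nat_lit 3657, nat_lit 4629, nat_lit 5133, nat_lit 5109, nat_lit 5121, nat_lit 5113] (nat_lit 0) [] false,
   Spec.mk (nat_lit 5121) (nat_lit 1) [nat_lit 9495, nat_lit 3663, nat_lit 4635, nat_lit 5139, nat_lit 5115] (nat_lit 0) [] false,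
   Spec.mk (nat_lit 5131) (nat_lit 1) [nat_lit 9505, nat_lit 3673, nat_lit 4645, nat_lit 5185, nat_lit 5113, nat_lit 5133, nat_lit 11691] (nat_lit 0) [] false,
   Spec.mk (nat_lit 5133) (nat_lit 1) [nat_lit 9507, nat_lit 3675, nat_lit 4647, nat_lit 5187, nat_lit 5115, nat_lit 5139, nat_lit 5131] (nat_lit 0) [] false,
   Spec.mk (nat_lit 5139) (nat_lit 2) [nat_lit 9513, nat_lit 3681, nat_lit 4653, nat_lit 5193, nat_lit 5121, nat_lit 5157, nat_lit 5133] (nat_lit 0) [] false,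
   Spec.mk (nat_lit 5157) (nat_lit 1) [nat_lit 9531, nat_lit 3699, nat_lit 4671, nat_lit 5211, nat_lit 5139] (nat_lit 0) [] false,
   Spec.mk (nat_lit 5185) (nat_lit 1) [nat_lit 9559, nat_lit 3727, nat_lit 4699, nat_lit 5347, nat_lit 5131, nat_lit 5187, nat_lit 11745] (nat_lit 0) [] false,
   Spec.mk (nat_lit 5187) (nat_lit 1) [nat_lit 9561, nat_lit 3729, nat_lit 4701, nat_lit 5349, nat_lit 5133, nat_lit 5193, nat_lit 5185] (nat_lit 0) [] false,
   Spec.mk (nat_lit 5193) (nat_lit 1) [nat_lit 9567, nat_lit 3735, nat_lit 4707, nat_lit 5355, nat_lit 5139, nat_lit 5211, nat_lit 5187] (nat_lit 0) [] false,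
   Spec.mk (nat_lit 5211) (nat_lit 2) [nat_lit 9585, nat_lit 3753, nat_lit 4725, nat_lit 5373, nat_lit 5157, nat_lit 5265, nat_lit 5193] (nat_lit 0) [] false,
   Spec.mk (nat_lit 5265) (nat_lit 1) [nat_lit 9639, nat_lit 3807, nat_lit 4779, nat_lit 5427, nat_lit 5211] (nat_lit 0) [] false,
   Spec.mk (nat_lit 5347) (nat_lit 2) [nat_lit 9721, nat_lit 3889, nat_lit 4861, nat_lit 5833, nat_lit 5185, nat_lit 5349, nat_lit 11907] (nat_lit 0) [] false,
   Spec.mk (nat_lit 5349) (nat_lit 2) [nat_lit 9723, nat_lit 3891, nat_lit 4863, nat_lit 5835, nat_lit 5187, nat_lit 5355, nat_lit 5347] (nat_lit 0) [] false,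
   Spec.mk (nat_lit 5355) (nat_lit 2) [nat_lit 9729, nat_lit 3897, nat_lit 4869, nat_lit 5841, nat_lit 5193, nat_lit 5373, nat_lit 5349] (nat_lit 0) [] false,
   Spec.mk (nat_lit 5373) (nat_lit 2) [nat_lit 9747, nat_lit 3915, nat_lit 4887, nat_lit 5859, nat_lit 5211, nat_lit 5427, nat_lit 5355] (nat_lit 0) [] false,
   Spec.mk (nat_lit 5427) (nat_lit 3) [nat_lit 9801, nat_lit 3969, nat_lit 4941, nat_lit 5913, nat_lit 5265, nat_lit 5589, nat_lit 5373] (nat_lit 0) [] false,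
   Spec.mk (nat_lit 5589) (nat_lit 3) [nat_lit 9963, nat_lit 4131, nat_lit 6075, nat_lit 5427] (nat_lit 0) [] false,
   Spec.mk (nat_lit 5833) (nat_lit 3) [nat_lit 10207, nat_lit 5347, nat_lit 5835, nat_lit 12393] (nat_lit 0) [] false,
   Spec.mk (nat_lit 5835) (nat_lit 3) [nat_lit 10209, nat_lit 5349, nat_lit 5841, nat_lit 5833] (nat_lit 0) [] false,
   Spec.mk (nat_lit 5841) (nat_lit 3) [nat_lit 10215, nat_lit 5355, nat_lit 5859, nat_lit 5835] (nat_lit 0) [] false,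
   Spec.mk (nat_lit 5859) (nat_lit 3) [nat_lit 10233, nat_lit 5373, nat_lit 5913, nat_lit 5841] (nat_lit 0) [] false,
   Spec.mk (nat_lit 5913) (nat_lit 3) [nat_lit 10287, nat_lit 5427, nat_lit 6075, nat_lit 5859] (nat_lit 0) [] false,
   Spec.mk (nat_lit 6075) (nat_lit 5) [nat_lit 10449, nat_lit 5589, nat_lit 5913] (nat_lit 0) [] false,
   Spec.mk (nat_lit 6569) (nat_lit 5) [nat_lit 2195, nat_lit 6575, nat_lit 13129] (nat_lit 0) [] false,
   Spec.mk (nat_lit 6575) (nat_lit 4) [nat_lit 2201, nat_lit 6593, nat_lit 6569, nat_lit 6581, nat_lit 6577, nat_lit 13135] (nat_lit 0) [] false,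
   Spec.mk (nat_lit 6577) (nat_lit 4) [nat_lit 2203, nat_lit 6595, nat_lit 6583, nat_lit 6575, nat_lit 13137, nat_lit 17] (nat_lit 0) [] false,
   Spec.mk (nat_lit 6581) (nat_lit 1) [nat_lit 2207, nat_lit 6599, nat_lit 6575, nat_lit 6583, nat_lit 13141] (nat_lit 0) [] false,
   Spec.mk (nat_lit 6583) (nat_lit 3) [nat_lit 2209, nat_lit 6601, nat_lit 6577, nat_lit 6581, nat_lit 6585, nat_lit 13143, nat_lit 23] (nat_lit 0) [] false,
   Spec.mk (nat_lit 6585) (nat_lit 3) [nat_lit 2211, nat_lit 6603, nat_lit 6583, nat_lit 25] (nat_lit 0) [] false,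
   Spec.mk (nat_lit 6593) (nat_lit 3) [nat_lit 2219, nat_lit 6647, nat_lit 6575, nat_lit 6599, nat_lit 6595, nat_lit 13153] (nat_lit 0) [] false,
   Spec.mk (nat_lit 6595) (nat_lit 2) [nat_lit 2221, nat_lit 6649, nat_lit 6577, nat_lit 6601, nat_lit 6593, nat_lit 13155, nat_lit 35] (nat_lit 0) [] false,
   Spec.mk (nat_lit 6599) (nat_lit 2) [nat_lit 2225, nat_lit 6653, nat_lit 6581, nat_lit 6617, nat_lit 6593, nat_lit 6601, nat_lit 13159] (nat_lit 0) [] false,
   Spec.mk (nat_lit 6601) (nat_lit 3) [nat_lit 2227, nat_lit 6655, nat_lit 6583, nat_lit 6619, nat_lit 6595, nat_lit 6607, nat_lit 6599, nat_lit 6603, nat_lit 13161, nat_lit 41] (nat_lit 0) [] false,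
   Spec.mk (nat_lit 6603) (nat_lit 2) [nat_lit 2229, nat_lit 6657, nat_lit 6585, nat_lit 6621, nat_lit 6609, nat_lit 6601, nat_lit 43] (nat_lit 0) [] false,
   Spec.mk (nat_lit 6607) (nat_lit 2) [nat_lit 2233, nat_lit 6661, nat_lit 6625, nat_lit 6601, nat_lit 6609, nat_lit 13167, nat_lit 47] (nat_lit 0) [] false,
   Spec.mk (nat_lit 6609) (nat_lit 3) [nat_lit 2235, nat_lit 6663, nat_lit 6627, nat_lit 6603, nat_lit 6607, nat_lit 49] (nat_lit 0) [] false,
   Spec.mk (nat_lit 6617) (nat_lit 1) [nat_lit 2243, nat_lit 6671, nat_lit 6599, nat_lit 6619, nat_lit 13177] (nat_lit 0) [] false,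
   Spec.mk (nat_lit 6619) (nat_lit 1) [nat_lit 2245, nat_lit 6673, nat_lit 6601, nat_lit 6625, nat_lit 6617, nat_lit 6621, nat_lit 13179, nat_lit 59] (nat_lit 0) [] false,
   Spec.mk (nat_lit 6621) (nat_lit 0) [nat_lit 2247, nat_lit 6675, nat_lit 6603, nat_lit 6627, nat_lit 6619, nat_lit 61] (nat_lit 1) [] false,
   Spec.mk (nat_lit 6625) (nat_lit 2) [nat_lit 2251, nat_lit 6679, nat_lit 6607, nat_lit 6619, nat_lit 6627, nat_lit 13185, nat_lit 65] (nat_lit 0) [] false,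
   Spec.mk (nat_lit 6627) (nat_lit 2) [nat_lit 2253, nat_lit 6681, nat_lit 6609, nat_lit 6621, nat_lit 6633, nat_lit 6625, nat_lit 67] (nat_lit 0) [] false,
   Spec.mk (nat_lit 6633) (nat_lit 3) [nat_lit 2259, nat_lit 6687, nat_lit 6627, nat_lit 73] (nat_lit 0) [] false,
   Spec.mk (nat_lit 6647) (nat_lit 3) [nat_lit 2273, nat_lit 6809, nat_lit 6593, nat_lit 6653, nat_lit 6649, nat_lit 13207] (nat_lit 0) [] false,
   Spec.mk (nat_lit 6649) (nat_lit 2) [nat_lit 2275, nat_lit 6811, nat_lit 6595, nat_lit 6655, nat_lit 6647, nat_lit 13209, nat_lit 89] (nat_lit 0) [] false,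
   Spec.mk (nat_lit 6653) (nat_lit 1) [nat_lit 2279, nat_lit 6815, nat_lit 6599, nat_lit 6671, nat_lit 6647, nat_lit 6655, nat_lit 13213] (nat_lit 0) [] false,
   Spec.mk (nat_lit 6655) (nat_lit 2) [nat_lit 2281, nat_lit 6817, nat_lit 6601, nat_lit 6673, nat_lit 6649, nat_lit 6661, nat_lit 6653, nat_lit 6657, nat_lit 13215, nat_lit 95] (nat_lit 0) [] false,
   Spec.mk (nat_lit 6657) (nat_lit 1) [nat_lit 2283, nat_lit 6819, nat_lit 6603, nat_lit 6675, nat_lit 6663, nat_lit 6655, nat_lit 97] (nat_lit 0) [] false,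
   Spec.mk (nat_lit 6661) (nat_lit 0) [nat_lit 2287, nat_lit 6823, nat_lit 6607, nat_lit 6679, nat_lit 6655, nat_lit 6663, nat_lit 13221, nat_lit 101] (nat_lit 0) [] false,
   Spec.mk (nat_lit 6663) (nat_lit 1) [nat_lit 2289, nat_lit 6825, nat_lit 6609, nat_lit 6681, nat_lit 6657, nat_lit 6661, nat_lit 103] (nat_lit 0) [] false,
   Spec.mk (nat_lit 6671) (nat_lit 2) [nat_lit 2297, nat_lit 6833, nat_lit 6617, nat_lit 6725, nat_lit 6653, nat_lit 6673, nat_lit 13231] (nat_lit 0) [] false,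
   Spec.mk (nat_lit 6673) (nat_lit 2) [nat_lit 2299, nat_lit 6835, nat_lit 6619, nat_lit 6727, nat_lit 6655, nat_lit 6679, nat_lit 6671, nat_lit 6675, nat_lit 13233, nat_lit 113] (nat_lit 0) [] false,
   Spec.mk (nat_lit 6675) (nat_lit 0) [nat_lit 2301, nat_lit 6837, nat_lit 6621, nat_lit 6729, nat_lit 6657, nat_lit 6681, nat_lit 6673, nat_lit 115] (nat_lit 0) [] false,
   Spec.mk (nat_lit 6679) (nat_lit 2) [nat_lit 2305, nat_lit 6841, nat_lit 6625, nat_lit 6733, nat_lit 6661, nat_lit 6697, nat_lit 6673, nat_lit 6681, nat_lit 13239, nat_lit 119] (nat_lit 0) [] false,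
   Spec.mk (nat_lit 6681) (nat_lit 2) [nat_lit 2307, nat_lit 6843, nat_lit 6627, nat_lit 6735, nat_lit 6663, nat_lit 6699, nat_lit 6675, nat_lit 6687, nat_lit 6679, nat_lit 121] (nat_lit 0) [] false,
   Spec.mk (nat_lit 6687) (nat_lit 2) [nat_lit 2313, nat_lit 6849, nat_lit 6633, nat_lit 6741, nat_lit 6705, nat_lit 6681, nat_lit 127] (nat_lit 0) [] false,
   Spec.mk (nat_lit 6697) (nat_lit 2) [nat_lit 2323, nat_lit 6859, nat_lit 6751, nat_lit 6679, nat_lit 6699, nat_lit 13257, nat_lit 137] (nat_lit 0) [] false,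
   Spec.mk (nat_lit 6699) (nat_lit 1) [nat_lit 2325, nat_lit 6861, nat_lit 6753, nat_lit 6681, nat_lit 6705, nat_lit 6697, nat_lit 139] (nat_lit 0) [] false,
   Spec.mk (nat_lit 6705) (nat_lit 3) [nat_lit 2331, nat_lit 6867, nat_lit 6759, nat_lit 6687, nat_lit 6699, nat_lit 145] (nat_lit 0) [] false,
   Spec.mk (nat_lit 6725) (nat_lit 1) [nat_lit 2351, nat_lit 6887, nat_lit 6671, nat_lit 6727, nat_lit 13285] (nat_lit 0) [] false]

noncomputable def sp9 : List Spec :=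
  [Spec.mk (nat_lit 6727) (nat_lit 1) [nat_lit 2353, nat_lit 6889, nat_lit 6673, nat_lit 6733, nat_lit 6725, nat_lit 6729, nat_lit 13287, nat_lit 167] (nat_lit 0) [] false,
   Spec.mk (nat_lit 6729) (nat_lit 0) [nat_lit 2355, nat_lit 6891, nat_lit 6675, nat_lit 6735, nat_lit 6727, nat_lit 169] (nat_lit 1) [] false,
   Spec.mk (nat_lit 6733) (nat_lit 0) [nat_lit 2359, nat_lit 6895, nat_lit 6679, nat_lit 6751, nat_lit 6727, nat_lit 6735, nat_lit 13293, nat_lit 173] (nat_lit 0) [] false,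
   Spec.mk (nat_lit 6735) (nat_lit 0) [nat_lit 2361, nat_lit 6897, nat_lit 6681, nat_lit 6753, nat_lit 6729, nat_lit 6741, nat_lit 6733, nat_lit 175] (nat_lit 0) [] false,
   Spec.mk (nat_lit 6741) (nat_lit 0) [nat_lit 2367, nat_lit 6903, nat_lit 6687, nat_lit 6759, nat_lit 6735, nat_lit 181] (nat_lit 1) [] false,
   Spec.mk (nat_lit 6751) (nat_lit 2) [nat_lit 2377, nat_lit 6913, nat_lit 6697, nat_lit 6733, nat_lit 6753, nat_lit 13311, nat_lit 191] (nat_lit 0) [] false,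
   Spec.mk (nat_lit 6753) (nat_lit 1) [nat_lit 2379, nat_lit 6915, nat_lit 6699, nat_lit 6735, nat_lit 6759, nat_lit 6751, nat_lit 193] (nat_lit 0) [] false,
   Spec.mk (nat_lit 6759) (nat_lit 2) [nat_lit 2385, nat_lit 6921, nat_lit 6705, nat_lit 6741, nat_lit 6777, nat_lit 6753, nat_lit 199] (nat_lit 0) [] false,
   Spec.mk (nat_lit 6777) (nat_lit 3) [nat_lit 2403, nat_lit 6939, nat_lit 6759, nat_lit 217] (nat_lit 0) [] false,
   Spec.mk (nat_lit 6809) (nat_lit 3) [nat_lit 2435, nat_lit 7295, nat_lit 6647, nat_lit 6815, nat_lit 6811, nat_lit 13369] (nat_lit 0) [] false,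
   Spec.mk (nat_lit 6811) (nat_lit 2) [nat_lit 2437, nat_lit 7297, nat_lit 6649, nat_lit 6817, nat_lit 6809, nat_lit 13371, nat_lit 251] (nat_lit 0) [] false,
   Spec.mk (nat_lit 6815) (nat_lit 1) [nat_lit 2441, nat_lit 7301, nat_lit 6653, nat_lit 6833, nat_lit 6809, nat_lit 6817, nat_lit 13375] (nat_lit 0) [] false,
   Spec.mk (nat_lit 6817) (nat_lit 2) [nat_lit 2443, nat_lit 7303, nat_lit 6655, nat_lit 6835, nat_lit 6811, nat_lit 6823, nat_lit 6815, nat_lit 6819, nat_lit 13377, nat_lit 257] (nat_lit 0) [] false,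
   Spec.mk (nat_lit 6819) (nat_lit 1) [nat_lit 2445, nat_lit 7305, nat_lit 6657, nat_lit 6837, nat_lit 6825, nat_lit 6817, nat_lit 259] (nat_lit 0) [] false,
   Spec.mk (nat_lit 6823) (nat_lit 0) [nat_lit 2449, nat_lit 7309, nat_lit 6661, nat_lit 6841, nat_lit 6817, nat_lit 6825, nat_lit 13383, nat_lit 263] (nat_lit 0) [] false,
   Spec.mk (nat_lit 6825) (nat_lit 1) [nat_lit 2451, nat_lit 7311, nat_lit 6663, nat_lit 6843, nat_lit 6819, nat_lit 6823, nat_lit 265] (nat_lit 0) [] false,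
   Spec.mk (nat_lit 6833) (nat_lit 1) [nat_lit 2459, nat_lit 7319, nat_lit 6671, nat_lit 6887, nat_lit 6815, nat_lit 6835, nat_lit 13393] (nat_lit 0) [] false,
   Spec.mk (nat_lit 6835) (nat_lit 1) [nat_lit 2461, nat_lit 7321, nat_lit 6673, nat_lit 6889, nat_lit 6817, nat_lit 6841, nat_lit 6833, nat_lit 6837, nat_lit 13395, nat_lit 275] (nat_lit 0) [] false,
   Spec.mk (nat_lit 6837) (nat_lit 0) [nat_lit 2463, nat_lit 7323, nat_lit 6675, nat_lit 6891, nat_lit 6819, nat_lit 6843, nat_lit 6835, nat_lit 277] (nat_lit 1) [] false,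
   Spec.mk (nat_lit 6841) (nat_lit 1) [nat_lit 2467, nat_lit 7327, nat_lit 6679, nat_lit 6895, nat_lit 6823, nat_lit 6859, nat_lit 6835, nat_lit 6843, nat_lit 13401, nat_lit 281] (nat_lit 0) [] false,
   Spec.mk (nat_lit 6843) (nat_lit 1) [nat_lit 2469, nat_lit 7329, nat_lit 6681, nat_lit 6897, nat_lit 6825, nat_lit 6861, nat_lit 6837, nat_lit 6849, nat_lit 6841, nat_lit 283] (nat_lit 0) [] false,
   Spec.mk (nat_lit 6849) (nat_lit 1) [nat_lit 2475, nat_lit 7335, nat_lit 6687, nat_lit 6903, nat_lit 6867, nat_lit 6843, nat_lit 289] (nat_lit 0) [] false,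
   Spec.mk (nat_lit 6859) (nat_lit 0) [nat_lit 2485, nat_lit 7345, nat_lit 6697, nat_lit 6913, nat_lit 6841, nat_lit 6861, nat_lit 13419, nat_lit 299] (nat_lit 0) [] false,
   Spec.mk (nat_lit 6861) (nat_lit 0) [nat_lit 2487, nat_lit 7347, nat_lit 6699, nat_lit 6915, nat_lit 6843, nat_lit 6867, nat_lit 6859, nat_lit 301] (nat_lit 1) [] false,
   Spec.mk (nat_lit 6867) (nat_lit 1) [nat_lit 2493, nat_lit 7353, nat_lit 6705, nat_lit 6921, nat_lit 6849, nat_lit 6861, nat_lit 307] (nat_lit 0) [] false,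
   Spec.mk (nat_lit 6887) (nat_lit 2) [nat_lit 2513, nat_lit 7373, nat_lit 6725, nat_lit 7049, nat_lit 6833, nat_lit 6889, nat_lit 13447] (nat_lit 0) [] false,
   Spec.mk (nat_lit 6889) (nat_lit 2) [nat_lit 2515, nat_lit 7375, nat_lit 6727, nat_lit 7051, nat_lit 6835, nat_lit 6895, nat_lit 6887, nat_lit 6891, nat_lit 13449, nat_lit 329] (nat_lit 0) [] false,
   Spec.mk (nat_lit 6891) (nat_lit 0) [nat_lit 2517, nat_lit 7377, nat_lit 6729, nat_lit 7053, nat_lit 6837, nat_lit 6897, nat_lit 6889, nat_lit 331] (nat_lit 0) [] false,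
   Spec.mk (nat_lit 6895) (nat_lit 1) [nat_lit 2521, nat_lit 7381, nat_lit 6733, nat_lit 7057, nat_lit 6841, nat_lit 6913, nat_lit 6889, nat_lit 6897, nat_lit 13455, nat_lit 335] (nat_lit 0) [] false,
   Spec.mk (nat_lit 6897) (nat_lit 1) [nat_lit 2523, nat_lit 7383, nat_lit 6735, nat_lit 7059, nat_lit 6843, nat_lit 6915, nat_lit 6891, nat_lit 6903, nat_lit 6895, nat_lit 337] (nat_lit 0) [] false,
   Spec.mk (nat_lit 6903) (nat_lit 0) [nat_lit 2529, nat_lit 7389, nat_lit 6741, nat_lit 7065, nat_lit 6849, nat_lit 6921, nat_lit 6897, nat_lit 343] (nat_lit 0) [] false,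
   Spec.mk (nat_lit 6913) (nat_lit 2) [nat_lit 2539, nat_lit 7399, nat_lit 6751, nat_lit 7075, nat_lit 6859, nat_lit 6967, nat_lit 6895, nat_lit 6915, nat_lit 13473, nat_lit 353] (nat_lit 0) [] false,
   Spec.mk (nat_lit 6915) (nat_lit 1) [nat_lit 2541, nat_lit 7401, nat_lit 6753, nat_lit 7077, nat_lit 6861, nat_lit 6969, nat_lit 6897, nat_lit 6921, nat_lit 6913, nat_lit 355] (nat_lit 0) [] false,
   Spec.mk (nat_lit 6921) (nat_lit 2) [nat_lit 2547, nat_lit 7407, nat_lit 6759, nat_lit 7083, nat_lit 6867, nat_lit 6975, nat_lit 6903, nat_lit 6939, nat_lit 6915, nat_lit 361] (nat_lit 0) [] false,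
   Spec.mk (nat_lit 6939) (nat_lit 2) [nat_lit 2565, nat_lit 7425, nat_lit 6777, nat_lit 7101, nat_lit 6993, nat_lit 6921, nat_lit 379] (nat_lit 0) [] false,
   Spec.mk (nat_lit 6967) (nat_lit 2) [nat_lit 2593, nat_lit 7453, nat_lit 7129, nat_lit 6913, nat_lit 6969, nat_lit 13527, nat_lit 407] (nat_lit 0) [] false,
   Spec.mk (nat_lit 6969) (nat_lit 1) [nat_lit 2595, nat_lit 7455, nat_lit 7131, nat_lit 6915, nat_lit 6975, nat_lit 6967, nat_lit 409] (nat_lit 0) [] false,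
   Spec.mk (nat_lit 6975) (nat_lit 1) [nat_lit 2601, nat_lit 7461, nat_lit 7137, nat_lit 6921, nat_lit 6993, nat_lit 6969, nat_lit 415] (nat_lit 0) [] false,
   Spec.mk (nat_lit 6993) (nat_lit 3) [nat_lit 2619, nat_lit 7479, nat_lit 7155, nat_lit 6939, nat_lit 6975, nat_lit 433] (nat_lit 0) [] false,
   Spec.mk (nat_lit 7049) (nat_lit 1) [nat_lit 2675, nat_lit 7535, nat_lit 6887, nat_lit 7051, nat_lit 13609] (nat_lit 0) [] false,
   Spec.mk (nat_lit 7051) (nat_lit 1) [nat_lit 2677, nat_lit 7537, nat_lit 6889, nat_lit 7057, nat_lit 7049, nat_lit 7053, nat_lit 13611, nat_lit 491] (nat_lit 0) [] false,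
   Spec.mk (nat_lit 7053) (nat_lit 0) [nat_lit 2679, nat_lit 7539, nat_lit 6891, nat_lit 7059, nat_lit 7051, nat_lit 493] (nat_lit 1) [] false,
   Spec.mk (nat_lit 7057) (nat_lit 0) [nat_lit 2683, nat_lit 7543, nat_lit 6895, nat_lit 7075, nat_lit 7051, nat_lit 7059, nat_lit 13617, nat_lit 497] (nat_lit 0) [] false,
   Spec.mk (nat_lit 7059) (nat_lit 0) [nat_lit 2685, nat_lit 7545, nat_lit 6897, nat_lit 7077, nat_lit 7053, nat_lit 7065, nat_lit 7057, nat_lit 499] (nat_lit 0) [] false,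
   Spec.mk (nat_lit 7065) (nat_lit 0) [nat_lit 2691, nat_lit 7551, nat_lit 6903, nat_lit 7083, nat_lit 7059, nat_lit 505] (nat_lit 1) [] false,
   Spec.mk (nat_lit 7075) (nat_lit 0) [nat_lit 2701, nat_lit 7561, nat_lit 6913, nat_lit 7129, nat_lit 7057, nat_lit 7077, nat_lit 13635, nat_lit 515] (nat_lit 0) [] false,
   Spec.mk (nat_lit 7077) (nat_lit 0) [nat_lit 2703, nat_lit 7563, nat_lit 6915, nat_lit 7131, nat_lit 7059, nat_lit 7083, nat_lit 7075, nat_lit 517] (nat_lit 1) [] false,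
   Spec.mk (nat_lit 7083) (nat_lit 0) [nat_lit 2709, nat_lit 7569, nat_lit 6921, nat_lit 7137, nat_lit 7065, nat_lit 7101, nat_lit 7077, nat_lit 523] (nat_lit 0) [] false,
   Spec.mk (nat_lit 7101) (nat_lit 0) [nat_lit 2727, nat_lit 7587, nat_lit 6939, nat_lit 7155, nat_lit 7083, nat_lit 541] (nat_lit 1) [] false,
   Spec.mk (nat_lit 7129) (nat_lit 2) [nat_lit 2755, nat_lit 7615, nat_lit 6967, nat_lit 7075, nat_lit 7131, nat_lit 13689, nat_lit 569] (nat_lit 0) [] false,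
   Spec.mk (nat_lit 7131) (nat_lit 1) [nat_lit 2757, nat_lit 7617, nat_lit 6969, nat_lit 7077, nat_lit 7137, nat_lit 7129, nat_lit 571] (nat_lit 0) [] false,
   Spec.mk (nat_lit 7137) (nat_lit 1) [nat_lit 2763, nat_lit 7623, nat_lit 6975, nat_lit 7083, nat_lit 7155, nat_lit 7131, nat_lit 577] (nat_lit 0) [] false,
   Spec.mk (nat_lit 7155) (nat_lit 2) [nat_lit 2781, nat_lit 7641, nat_lit 6993, nat_lit 7101, nat_lit 7209, nat_lit 7137, nat_lit 595] (nat_lit 0) [] false,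
   Spec.mk (nat_lit 7209) (nat_lit 3) [nat_lit 2835, nat_lit 7695, nat_lit 7155, nat_lit 649] (nat_lit 0) [] false,
   Spec.mk (nat_lit 7295) (nat_lit 3) [nat_lit 2921, nat_lit 8753, nat_lit 6809, nat_lit 7301, nat_lit 7297, nat_lit 13855] (nat_lit 0) [] false,
   Spec.mk (nat_lit 7297) (nat_lit 2) [nat_lit 2923, nat_lit 8755, nat_lit 6811, nat_lit 7303, nat_lit 7295, nat_lit 13857, nat_lit 737] (nat_lit 0) [] false,
   Spec.mk (nat_lit 7301) (nat_lit 1) [nat_lit 2927, nat_lit 8759, nat_lit 6815, nat_lit 7319, nat_lit 7295, nat_lit 7303, nat_lit 13861] (nat_lit 0) [] false,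
   Spec.mk (nat_lit 7303) (nat_lit 2) [nat_lit 2929, nat_lit 8761, nat_lit 6817, nat_lit 7321, nat_lit 7297, nat_lit 7309, nat_lit 7301, nat_lit 7305, nat_lit 13863, nat_lit 743] (nat_lit 0) [] false,
   Spec.mk (nat_lit 7305) (nat_lit 1) [nat_lit 2931, nat_lit 8763, nat_lit 6819, nat_lit 7323, nat_lit 7311, nat_lit 7303, nat_lit 745] (nat_lit 0) [] false,
   Spec.mk (nat_lit 7309) (nat_lit 0) [nat_lit 2935, nat_lit 8767, nat_lit 6823, nat_lit 7327, nat_lit 7303, nat_lit 7311, nat_lit 13869, nat_lit 749] (nat_lit 0) [] false]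

noncomputable def sp10 : List Spec :=
  [Spec.mk (nat_lit 7311) (nat_lit 1) [nat_lit 2937, nat_lit 8769, nat_lit 6825, nat_lit 7329, nat_lit 7305, nat_lit 7309, nat_lit 751] (nat_lit 0) [] false,
   Spec.mk (nat_lit 7319) (nat_lit 1) [nat_lit 2945, nat_lit 8777, nat_lit 6833, nat_lit 7373, nat_lit 7301, nat_lit 7321, nat_lit 13879] (nat_lit 0) [] false,
   Spec.mk (nat_lit 7321) (nat_lit 1) [nat_lit 2947, nat_lit 8779, nat_lit 6835, nat_lit 7375, nat_lit 7303, nat_lit 7327, nat_lit 7319, nat_lit 7323, nat_lit 13881, nat_lit 761] (nat_lit 0) [] false,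
   Spec.mk (nat_lit 7323) (nat_lit 0) [nat_lit 2949, nat_lit 8781, nat_lit 6837, nat_lit 7377, nat_lit 7305, nat_lit 7329, nat_lit 7321, nat_lit 763] (nat_lit 1) [] false,
   Spec.mk (nat_lit 7327) (nat_lit 1) [nat_lit 2953, nat_lit 8785, nat_lit 6841, nat_lit 7381, nat_lit 7309, nat_lit 7345, nat_lit 7321, nat_lit 7329, nat_lit 13887, nat_lit 767] (nat_lit 0) [] false,
   Spec.mk (nat_lit 7329) (nat_lit 1) [nat_lit 2955, nat_lit 8787, nat_lit 6843, nat_lit 7383, nat_lit 7311, nat_lit 7347, nat_lit 7323, nat_lit 7335, nat_lit 7327, nat_lit 769] (nat_lit 0) [] false,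
   Spec.mk (nat_lit 7335) (nat_lit 1) [nat_lit 2961, nat_lit 8793, nat_lit 6849, nat_lit 7389, nat_lit 7353, nat_lit 7329, nat_lit 775] (nat_lit 0) [] false,
   Spec.mk (nat_lit 7345) (nat_lit 0) [nat_lit 2971, nat_lit 8803, nat_lit 6859, nat_lit 7399, nat_lit 7327, nat_lit 7347, nat_lit 13905, nat_lit 785] (nat_lit 0) [] false,
   Spec.mk (nat_lit 7347) (nat_lit 0) [nat_lit 2973, nat_lit 8805, nat_lit 6861, nat_lit 7401, nat_lit 7329, nat_lit 7353, nat_lit 7345, nat_lit 787] (nat_lit 1) [] false,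
   Spec.mk (nat_lit 7353) (nat_lit 1) [nat_lit 2979, nat_lit 8811, nat_lit 6867, nat_lit 7407, nat_lit 7335, nat_lit 7347, nat_lit 793] (nat_lit 0) [] false,
   Spec.mk (nat_lit 7373) (nat_lit 1) [nat_lit 2999, nat_lit 8831, nat_lit 6887, nat_lit 7535, nat_lit 7319, nat_lit 7375, nat_lit 13933] (nat_lit 0) [] false,
   Spec.mk (nat_lit 7375) (nat_lit 1) [nat_lit 3001, nat_lit 8833, nat_lit 6889, nat_lit 7537, nat_lit 7321, nat_lit 7381, nat_lit 7373, nat_lit 7377, nat_lit 13935, nat_lit 815] (nat_lit 0) [] false,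
   Spec.mk (nat_lit 7377) (nat_lit 0) [nat_lit 3003, nat_lit 8835, nat_lit 6891, nat_lit 7539, nat_lit 7323, nat_lit 7383, nat_lit 7375, nat_lit 817] (nat_lit 1) [] false,
   Spec.mk (nat_lit 7381) (nat_lit 0) [nat_lit 3007, nat_lit 8839, nat_lit 6895, nat_lit 7543, nat_lit 7327, nat_lit 7399, nat_lit 7375, nat_lit 7383, nat_lit 13941, nat_lit 821] (nat_lit 0) [] false,
   Spec.mk (nat_lit 7383) (nat_lit 0) [nat_lit 3009, nat_lit 8841, nat_lit 6897, nat_lit 7545, nat_lit 7329, nat_lit 7401, nat_lit 7377, nat_lit 7389, nat_lit 7381, nat_lit 823] (nat_lit 0) [] false,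
   Spec.mk (nat_lit 7389) (nat_lit 0) [nat_lit 3015, nat_lit 8847, nat_lit 6903, nat_lit 7551, nat_lit 7335, nat_lit 7407, nat_lit 7383, nat_lit 829] (nat_lit 1) [] false,
   Spec.mk (nat_lit 7399) (nat_lit 1) [nat_lit 3025, nat_lit 8857, nat_lit 6913, nat_lit 7561, nat_lit 7345, nat_lit 7453, nat_lit 7381, nat_lit 7401, nat_lit 13959, nat_lit 839] (nat_lit 0) [] false,
   Spec.mk (nat_lit 7401) (nat_lit 0) [nat_lit 3027, nat_lit 8859, nat_lit 6915, nat_lit 7563, nat_lit 7347, nat_lit 7455, nat_lit 7383, nat_lit 7407, nat_lit 7399, nat_lit 841] (nat_lit 0) [] false,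
   Spec.mk (nat_lit 7407) (nat_lit 1) [nat_lit 3033, nat_lit 8865, nat_lit 6921, nat_lit 7569, nat_lit 7353, nat_lit 7461, nat_lit 7389, nat_lit 7425, nat_lit 7401, nat_lit 847] (nat_lit 0) [] false,
   Spec.mk (nat_lit 7425) (nat_lit 1) [nat_lit 3051, nat_lit 8883, nat_lit 6939, nat_lit 7587, nat_lit 7479, nat_lit 7407, nat_lit 865] (nat_lit 0) [] false,
   Spec.mk (nat_lit 7453) (nat_lit 0) [nat_lit 3079, nat_lit 8911, nat_lit 6967, nat_lit 7615, nat_lit 7399, nat_lit 7455, nat_lit 14013, nat_lit 893] (nat_lit 0) [] false,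
   Spec.mk (nat_lit 7455) (nat_lit 0) [nat_lit 3081, nat_lit 8913, nat_lit 6969, nat_lit 7617, nat_lit 7401, nat_lit 7461, nat_lit 7453, nat_lit 895] (nat_lit 1) [] false,
   Spec.mk (nat_lit 7461) (nat_lit 0) [nat_lit 3087, nat_lit 8919, nat_lit 6975, nat_lit 7623, nat_lit 7407, nat_lit 7479, nat_lit 7455, nat_lit 901] (nat_lit 1) [] false,
   Spec.mk (nat_lit 7479) (nat_lit 1) [nat_lit 3105, nat_lit 8937, nat_lit 6993, nat_lit 7641, nat_lit 7425, nat_lit 7461, nat_lit 919] (nat_lit 0) [] false,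
   Spec.mk (nat_lit 7535) (nat_lit 2) [nat_lit 3161, nat_lit 8993, nat_lit 7049, nat_lit 8021, nat_lit 7373, nat_lit 7537, nat_lit 14095] (nat_lit 0) [] false,
   Spec.mk (nat_lit 7537) (nat_lit 2) [nat_lit 3163, nat_lit 8995, nat_lit 7051, nat_lit 8023, nat_lit 7375, nat_lit 7543, nat_lit 7535, nat_lit 7539, nat_lit 14097, nat_lit 977] (nat_lit 0) [] false,
   Spec.mk (nat_lit 7539) (nat_lit 0) [nat_lit 3165, nat_lit 8997, nat_lit 7053, nat_lit 8025, nat_lit 7377, nat_lit 7545, nat_lit 7537, nat_lit 979] (nat_lit 0) [] false,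
   Spec.mk (nat_lit 7543) (nat_lit 1) [nat_lit 3169, nat_lit 9001, nat_lit 7057, nat_lit 8029, nat_lit 7381, nat_lit 7561, nat_lit 7537, nat_lit 7545, nat_lit 14103, nat_lit 983] (nat_lit 0) [] false,
   Spec.mk (nat_lit 7545) (nat_lit 1) [nat_lit 3171, nat_lit 9003, nat_lit 7059, nat_lit 8031, nat_lit 7383, nat_lit 7563, nat_lit 7539, nat_lit 7551, nat_lit 7543, nat_lit 985] (nat_lit 0) [] false,
   Spec.mk (nat_lit 7551) (nat_lit 0) [nat_lit 3177, nat_lit 9009, nat_lit 7065, nat_lit 8037, nat_lit 7389, nat_lit 7569, nat_lit 7545, nat_lit 991] (nat_lit 0) [] false,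
   Spec.mk (nat_lit 7561) (nat_lit 1) [nat_lit 3187, nat_lit 9019, nat_lit 7075, nat_lit 8047, nat_lit 7399, nat_lit 7615, nat_lit 7543, nat_lit 7563, nat_lit 14121, nat_lit 1001] (nat_lit 0) [] false,
   Spec.mk (nat_lit 7563) (nat_lit 0) [nat_lit 3189, nat_lit 9021, nat_lit 7077, nat_lit 8049, nat_lit 7401, nat_lit 7617, nat_lit 7545, nat_lit 7569, nat_lit 7561, nat_lit 1003] (nat_lit 0) [] false,
   Spec.mk (nat_lit 7569) (nat_lit 1) [nat_lit 3195, nat_lit 9027, nat_lit 7083, nat_lit 8055, nat_lit 7407, nat_lit 7623, nat_lit 7551, nat_lit 7587, nat_lit 7563, nat_lit 1009] (nat_lit 0) [] false,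
   Spec.mk (nat_lit 7587) (nat_lit 0) [nat_lit 3213, nat_lit 9045, nat_lit 7101, nat_lit 8073, nat_lit 7425, nat_lit 7641, nat_lit 7569, nat_lit 1027] (nat_lit 0) [] false,
   Spec.mk (nat_lit 7615) (nat_lit 2) [nat_lit 3241, nat_lit 9073, nat_lit 7129, nat_lit 8101, nat_lit 7453, nat_lit 7777, nat_lit 7561, nat_lit 7617, nat_lit 14175, nat_lit 1055] (nat_lit 0) [] false,
   Spec.mk (nat_lit 7617) (nat_lit 1) [nat_lit 3243, nat_lit 9075, nat_lit 7131, nat_lit 8103, nat_lit 7455, nat_lit 7779, nat_lit 7563, nat_lit 7623, nat_lit 7615, nat_lit 1057] (nat_lit 0) [] false,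
   Spec.mk (nat_lit 7623) (nat_lit 1) [nat_lit 3249, nat_lit 9081, nat_lit 7137, nat_lit 8109, nat_lit 7461, nat_lit 7785, nat_lit 7569, nat_lit 7641, nat_lit 7617, nat_lit 1063] (nat_lit 0) [] false,
   Spec.mk (nat_lit 7641) (nat_lit 2) [nat_lit 3267, nat_lit 9099, nat_lit 7155, nat_lit 8127, nat_lit 7479, nat_lit 7803, nat_lit 7587, nat_lit 7695, nat_lit 7623, nat_lit 1081] (nat_lit 0) [] false,
   Spec.mk (nat_lit 7695) (nat_lit 2) [nat_lit 3321, nat_lit 9153, nat_lit 7209, nat_lit 8181, nat_lit 7857, nat_lit 7641, nat_lit 1135] (nat_lit 0) [] false,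
   Spec.mk (nat_lit 7777) (nat_lit 2) [nat_lit 3403, nat_lit 9235, nat_lit 8263, nat_lit 7615, nat_lit 7779, nat_lit 14337, nat_lit 1217] (nat_lit 0) [] false,
   Spec.mk (nat_lit 7779) (nat_lit 1) [nat_lit 3405, nat_lit 9237, nat_lit 8265, nat_lit 7617, nat_lit 7785, nat_lit 7777, nat_lit 1219] (nat_lit 0) [] false,
   Spec.mk (nat_lit 7785) (nat_lit 1) [nat_lit 3411, nat_lit 9243, nat_lit 8271, nat_lit 7623, nat_lit 7803, nat_lit 7779, nat_lit 1225] (nat_lit 0) [] false,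
   Spec.mk (nat_lit 7803) (nat_lit 1) [nat_lit 3429, nat_lit 9261, nat_lit 8289, nat_lit 7641, nat_lit 7857, nat_lit 7785, nat_lit 1243] (nat_lit 0) [] false,
   Spec.mk (nat_lit 7857) (nat_lit 3) [nat_lit 3483, nat_lit 9315, nat_lit 8343, nat_lit 7695, nat_lit 7803, nat_lit 1297] (nat_lit 0) [] false,
   Spec.mk (nat_lit 8021) (nat_lit 1) [nat_lit 3647, nat_lit 9479, nat_lit 7535, nat_lit 8023, nat_lit 14581] (nat_lit 0) [] false,
   Spec.mk (nat_lit 8023) (nat_lit 1) [nat_lit 3649, nat_lit 9481, nat_lit 7537, nat_lit 8029, nat_lit 8021, nat_lit 8025, nat_lit 14583, nat_lit 1463] (nat_lit 0) [] false,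
   Spec.mk (nat_lit 8025) (nat_lit 0) [nat_lit 3651, nat_lit 9483, nat_lit 7539, nat_lit 8031, nat_lit 8023, nat_lit 1465] (nat_lit 1) [] false,
   Spec.mk (nat_lit 8029) (nat_lit 0) [nat_lit 3655, nat_lit 9487, nat_lit 7543, nat_lit 8047, nat_lit 8023, nat_lit 8031, nat_lit 14589, nat_lit 1469] (nat_lit 0) [] false,
   Spec.mk (nat_lit 8031) (nat_lit 0) [nat_lit 3657, nat_lit 9489, nat_lit 7545, nat_lit 8049, nat_lit 8025, nat_lit 8037, nat_lit 8029, nat_lit 1471] (nat_lit 0) [] false,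
   Spec.mk (nat_lit 8037) (nat_lit 0) [nat_lit 3663, nat_lit 9495, nat_lit 7551, nat_lit 8055, nat_lit 8031, nat_lit 1477] (nat_lit 1) [] false,
   Spec.mk (nat_lit 8047) (nat_lit 0) [nat_lit 3673, nat_lit 9505, nat_lit 7561, nat_lit 8101, nat_lit 8029, nat_lit 8049, nat_lit 14607, nat_lit 1487] (nat_lit 0) [] false,
   Spec.mk (nat_lit 8049) (nat_lit 0) [nat_lit 3675, nat_lit 9507, nat_lit 7563, nat_lit 8103, nat_lit 8031, nat_lit 8055, nat_lit 8047, nat_lit 1489] (nat_lit 1) [] false,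
   Spec.mk (nat_lit 8055) (nat_lit 0) [nat_lit 3681, nat_lit 9513, nat_lit 7569, nat_lit 8109, nat_lit 8037, nat_lit 8073, nat_lit 8049, nat_lit 1495] (nat_lit 0) [] false,
   Spec.mk (nat_lit 8073) (nat_lit 0) [nat_lit 3699, nat_lit 9531, nat_lit 7587, nat_lit 8127, nat_lit 8055, nat_lit 1513] (nat_lit 1) [] false,
   Spec.mk (nat_lit 8101) (nat_lit 0) [nat_lit 3727, nat_lit 9559, nat_lit 7615, nat_lit 8263, nat_lit 8047, nat_lit 8103, nat_lit 14661, nat_lit 1541] (nat_lit 0) [] false,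
   Spec.mk (nat_lit 8103) (nat_lit 0) [nat_lit 3729, nat_lit 9561, nat_lit 7617, nat_lit 8265, nat_lit 8049, nat_lit 8109, nat_lit 8101, nat_lit 1543] (nat_lit 1) [] false,
   Spec.mk (nat_lit 8109) (nat_lit 0) [nat_lit 3735, nat_lit 9567, nat_lit 7623, nat_lit 8271, nat_lit 8055, nat_lit 8127, nat_lit 8103, nat_lit 1549] (nat_lit 1) [] false,
   Spec.mk (nat_lit 8127) (nat_lit 0) [nat_lit 3753, nat_lit 9585, nat_lit 7641, nat_lit 8289, nat_lit 8073, nat_lit 8181, nat_lit 8109, nat_lit 1567] (nat_lit 0) [] false,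
   Spec.mk (nat_lit 8181) (nat_lit 0) [nat_lit 3807, nat_lit 9639, nat_lit 7695, nat_lit 8343, nat_lit 8127, nat_lit 1621] (nat_lit 1) [] false,
   Spec.mk (nat_lit 8263) (nat_lit 2) [nat_lit 3889, nat_lit 9721, nat_lit 7777, nat_lit 8101, nat_lit 8265, nat_lit 14823, nat_lit 1703] (nat_lit 0) [] false]

noncomputable def sp11 : List Spec :=
  [Spec.mk (nat_lit 8265) (nat_lit 1) [nat_lit 3891, nat_lit 9723, nat_lit 7779, nat_lit 8103, nat_lit 8271, nat_lit 8263, nat_lit 1705] (nat_lit 0) [] false,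
   Spec.mk (nat_lit 8271) (nat_lit 1) [nat_lit 3897, nat_lit 9729, nat_lit 7785, nat_lit 8109, nat_lit 8289, nat_lit 8265, nat_lit 1711] (nat_lit 0) [] false,
   Spec.mk (nat_lit 8289) (nat_lit 1) [nat_lit 3915, nat_lit 9747, nat_lit 7803, nat_lit 8127, nat_lit 8343, nat_lit 8271, nat_lit 1729] (nat_lit 0) [] false,
   Spec.mk (nat_lit 8343) (nat_lit 2) [nat_lit 3969, nat_lit 9801, nat_lit 7857, nat_lit 8181, nat_lit 8505, nat_lit 8289, nat_lit 1783] (nat_lit 0) [] false,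
   Spec.mk (nat_lit 8505) (nat_lit 3) [nat_lit 4131, nat_lit 9963, nat_lit 8343, nat_lit 1945] (nat_lit 0) [] false,
   Spec.mk (nat_lit 8753) (nat_lit 4) [nat_lit 4379, nat_lit 13127, nat_lit 7295, nat_lit 8759, nat_lit 8755, nat_lit 15313] (nat_lit 0) [] false,
   Spec.mk (nat_lit 8755) (nat_lit 3) [nat_lit 4381, nat_lit 13129, nat_lit 7297, nat_lit 8761, nat_lit 8753, nat_lit 15315, nat_lit 2195] (nat_lit 0) [] false,
   Spec.mk (nat_lit 8759) (nat_lit 2) [nat_lit 4385, nat_lit 13133, nat_lit 7301, nat_lit 8777, nat_lit 8753, nat_lit 8761, nat_lit 15319] (nat_lit 0) [] false,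
   Spec.mk (nat_lit 8761) (nat_lit 3) [nat_lit 4387, nat_lit 13135, nat_lit 7303, nat_lit 8779, nat_lit 8755, nat_lit 8767, nat_lit 8759, nat_lit 8763, nat_lit 15321, nat_lit 2201] (nat_lit 0) [] false,
   Spec.mk (nat_lit 8763) (nat_lit 2) [nat_lit 4389, nat_lit 13137, nat_lit 7305, nat_lit 8781, nat_lit 8769, nat_lit 8761, nat_lit 2203] (nat_lit 0) [] false,
   Spec.mk (nat_lit 8767) (nat_lit 1) [nat_lit 4393, nat_lit 13141, nat_lit 7309, nat_lit 8785, nat_lit 8761, nat_lit 8769, nat_lit 15327, nat_lit 2207] (nat_lit 0) [] false,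
   Spec.mk (nat_lit 8769) (nat_lit 2) [nat_lit 4395, nat_lit 13143, nat_lit 7311, nat_lit 8787, nat_lit 8763, nat_lit 8767, nat_lit 2209] (nat_lit 0) [] false,
   Spec.mk (nat_lit 8777) (nat_lit 2) [nat_lit 4403, nat_lit 13151, nat_lit 7319, nat_lit 8831, nat_lit 8759, nat_lit 8779, nat_lit 15337] (nat_lit 0) [] false,
   Spec.mk (nat_lit 8779) (nat_lit 2) [nat_lit 4405, nat_lit 13153, nat_lit 7321, nat_lit 8833, nat_lit 8761, nat_lit 8785, nat_lit 8777, nat_lit 8781, nat_lit 15339, nat_lit 2219] (nat_lit 0) [] false,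
   Spec.mk (nat_lit 8781) (nat_lit 0) [nat_lit 4407, nat_lit 13155, nat_lit 7323, nat_lit 8835, nat_lit 8763, nat_lit 8787, nat_lit 8779, nat_lit 2221] (nat_lit 0) [] false,
   Spec.mk (nat_lit 8785) (nat_lit 2) [nat_lit 4411, nat_lit 13159, nat_lit 7327, nat_lit 8839, nat_lit 8767, nat_lit 8803, nat_lit 8779, nat_lit 8787, nat_lit 15345, nat_lit 2225] (nat_lit 0) [] false,
   Spec.mk (nat_lit 8787) (nat_lit 2) [nat_lit 4413, nat_lit 13161, nat_lit 7329, nat_lit 8841, nat_lit 8769, nat_lit 8805, nat_lit 8781, nat_lit 8793, nat_lit 8785, nat_lit 2227] (nat_lit 0) [] false,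
   Spec.mk (nat_lit 8793) (nat_lit 2) [nat_lit 4419, nat_lit 13167, nat_lit 7335, nat_lit 8847, nat_lit 8811, nat_lit 8787, nat_lit 2233] (nat_lit 0) [] false,
   Spec.mk (nat_lit 8803) (nat_lit 1) [nat_lit 4429, nat_lit 13177, nat_lit 7345, nat_lit 8857, nat_lit 8785, nat_lit 8805, nat_lit 15363, nat_lit 2243] (nat_lit 0) [] false,
   Spec.mk (nat_lit 8805) (nat_lit 0) [nat_lit 4431, nat_lit 13179, nat_lit 7347, nat_lit 8859, nat_lit 8787, nat_lit 8811, nat_lit 8803, nat_lit 2245] (nat_lit 0) [] false,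
   Spec.mk (nat_lit 8811) (nat_lit 2) [nat_lit 4437, nat_lit 13185, nat_lit 7353, nat_lit 8865, nat_lit 8793, nat_lit 8805, nat_lit 2251] (nat_lit 0) [] false,
   Spec.mk (nat_lit 8831) (nat_lit 2) [nat_lit 4457, nat_lit 13205, nat_lit 7373, nat_lit 8993, nat_lit 8777, nat_lit 8833, nat_lit 15391] (nat_lit 0) [] false,
   Spec.mk (nat_lit 8833) (nat_lit 2) [nat_lit 4459, nat_lit 13207, nat_lit 7375, nat_lit 8995, nat_lit 8779, nat_lit 8839, nat_lit 8831, nat_lit 8835, nat_lit 15393, nat_lit 2273] (nat_lit 0) [] false,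
   Spec.mk (nat_lit 8835) (nat_lit 0) [nat_lit 4461, nat_lit 13209, nat_lit 7377, nat_lit 8997, nat_lit 8781, nat_lit 8841, nat_lit 8833, nat_lit 2275] (nat_lit 0) [] false,
   Spec.mk (nat_lit 8839) (nat_lit 1) [nat_lit 4465, nat_lit 13213, nat_lit 7381, nat_lit 9001, nat_lit 8785, nat_lit 8857, nat_lit 8833, nat_lit 8841, nat_lit 15399, nat_lit 2279] (nat_lit 0) [] false,
   Spec.mk (nat_lit 8841) (nat_lit 1) [nat_lit 4467, nat_lit 13215, nat_lit 7383, nat_lit 9003, nat_lit 8787, nat_lit 8859, nat_lit 8835, nat_lit 8847, nat_lit 8839, nat_lit 2281] (nat_lit 0) [] false,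
   Spec.mk (nat_lit 8847) (nat_lit 0) [nat_lit 4473, nat_lit 13221, nat_lit 7389, nat_lit 9009, nat_lit 8793, nat_lit 8865, nat_lit 8841, nat_lit 2287] (nat_lit 0) [] false,
   Spec.mk (nat_lit 8857) (nat_lit 2) [nat_lit 4483, nat_lit 13231, nat_lit 7399, nat_lit 9019, nat_lit 8803, nat_lit 8911, nat_lit 8839, nat_lit 8859, nat_lit 15417, nat_lit 2297] (nat_lit 0) [] false,
   Spec.mk (nat_lit 8859) (nat_lit 1) [nat_lit 4485, nat_lit 13233, nat_lit 7401, nat_lit 9021, nat_lit 8805, nat_lit 8913, nat_lit 8841, nat_lit 8865, nat_lit 8857, nat_lit 2299] (nat_lit 0) [] false,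
   Spec.mk (nat_lit 8865) (nat_lit 2) [nat_lit 4491, nat_lit 13239, nat_lit 7407, nat_lit 9027, nat_lit 8811, nat_lit 8919, nat_lit 8847, nat_lit 8883, nat_lit 8859, nat_lit 2305] (nat_lit 0) [] false,
   Spec.mk (nat_lit 8883) (nat_lit 2) [nat_lit 4509, nat_lit 13257, nat_lit 7425, nat_lit 9045, nat_lit 8937, nat_lit 8865, nat_lit 2323] (nat_lit 0) [] false,
   Spec.mk (nat_lit 8911) (nat_lit 1) [nat_lit 4537, nat_lit 13285, nat_lit 7453, nat_lit 9073, nat_lit 8857, nat_lit 8913, nat_lit 15471, nat_lit 2351] (nat_lit 0) [] false,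
   Spec.mk (nat_lit 8913) (nat_lit 0) [nat_lit 4539, nat_lit 13287, nat_lit 7455, nat_lit 9075, nat_lit 8859, nat_lit 8919, nat_lit 8911, nat_lit 2353] (nat_lit 0) [] false,
   Spec.mk (nat_lit 8919) (nat_lit 0) [nat_lit 4545, nat_lit 13293, nat_lit 7461, nat_lit 9081, nat_lit 8865, nat_lit 8937, nat_lit 8913, nat_lit 2359] (nat_lit 0) [] false,
   Spec.mk (nat_lit 8937) (nat_lit 2) [nat_lit 4563, nat_lit 13311, nat_lit 7479, nat_lit 9099, nat_lit 8883, nat_lit 8919, nat_lit 2377] (nat_lit 0) [] false,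
   Spec.mk (nat_lit 8993) (nat_lit 2) [nat_lit 4619, nat_lit 13367, nat_lit 7535, nat_lit 9479, nat_lit 8831, nat_lit 8995, nat_lit 15553] (nat_lit 0) [] false,
   Spec.mk (nat_lit 8995) (nat_lit 2) [nat_lit 4621, nat_lit 13369, nat_lit 7537, nat_lit 9481, nat_lit 8833, nat_lit 9001, nat_lit 8993, nat_lit 8997, nat_lit 15555, nat_lit 2435] (nat_lit 0) [] false,
   Spec.mk (nat_lit 8997) (nat_lit 0) [nat_lit 4623, nat_lit 13371, nat_lit 7539, nat_lit 9483, nat_lit 8835, nat_lit 9003, nat_lit 8995, nat_lit 2437] (nat_lit 0) [] false,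
   Spec.mk (nat_lit 9001) (nat_lit 1) [nat_lit 4627, nat_lit 13375, nat_lit 7543, nat_lit 9487, nat_lit 8839, nat_lit 9019, nat_lit 8995, nat_lit 9003, nat_lit 15561, nat_lit 2441] (nat_lit 0) [] false,
   Spec.mk (nat_lit 9003) (nat_lit 1) [nat_lit 4629, nat_lit 13377, nat_lit 7545, nat_lit 9489, nat_lit 8841, nat_lit 9021, nat_lit 8997, nat_lit 9009, nat_lit 9001, nat_lit 2443] (nat_lit 0) [] false,
   Spec.mk (nat_lit 9009) (nat_lit 0) [nat_lit 4635, nat_lit 13383, nat_lit 7551, nat_lit 9495, nat_lit 8847, nat_lit 9027, nat_lit 9003, nat_lit 2449] (nat_lit 0) [] false,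
   Spec.mk (nat_lit 9019) (nat_lit 1) [nat_lit 4645, nat_lit 13393, nat_lit 7561, nat_lit 9505, nat_lit 8857, nat_lit 9073, nat_lit 9001, nat_lit 9021, nat_lit 15579, nat_lit 2459] (nat_lit 0) [] false,
   Spec.mk (nat_lit 9021) (nat_lit 0) [nat_lit 4647, nat_lit 13395, nat_lit 7563, nat_lit 9507, nat_lit 8859, nat_lit 9075, nat_lit 9003, nat_lit 9027, nat_lit 9019, nat_lit 2461] (nat_lit 0) [] false,
   Spec.mk (nat_lit 9027) (nat_lit 1) [nat_lit 4653, nat_lit 13401, nat_lit 7569, nat_lit 9513, nat_lit 8865, nat_lit 9081, nat_lit 9009, nat_lit 9045, nat_lit 9021, nat_lit 2467] (nat_lit 0) [] false,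
   Spec.mk (nat_lit 9045) (nat_lit 0) [nat_lit 4671, nat_lit 13419, nat_lit 7587, nat_lit 9531, nat_lit 8883, nat_lit 9099, nat_lit 9027, nat_lit 2485] (nat_lit 0) [] false,
   Spec.mk (nat_lit 9073) (nat_lit 2) [nat_lit 4699, nat_lit 13447, nat_lit 7615, nat_lit 9559, nat_lit 8911, nat_lit 9235, nat_lit 9019, nat_lit 9075, nat_lit 15633, nat_lit 2513] (nat_lit 0) [] false,
   Spec.mk (nat_lit 9075) (nat_lit 1) [nat_lit 4701, nat_lit 13449, nat_lit 7617, nat_lit 9561, nat_lit 8913, nat_lit 9237, nat_lit 9021, nat_lit 9081, nat_lit 9073, nat_lit 2515] (nat_lit 0) [] false,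
   Spec.mk (nat_lit 9081) (nat_lit 1) [nat_lit 4707, nat_lit 13455, nat_lit 7623, nat_lit 9567, nat_lit 8919, nat_lit 9243, nat_lit 9027, nat_lit 9099, nat_lit 9075, nat_lit 2521] (nat_lit 0) [] false,
   Spec.mk (nat_lit 9099) (nat_lit 2) [nat_lit 4725, nat_lit 13473, nat_lit 7641, nat_lit 9585, nat_lit 8937, nat_lit 9261, nat_lit 9045, nat_lit 9153, nat_lit 9081, nat_lit 2539] (nat_lit 0) [] false,
   Spec.mk (nat_lit 9153) (nat_lit 2) [nat_lit 4779, nat_lit 13527, nat_lit 7695, nat_lit 9639, nat_lit 9315, nat_lit 9099, nat_lit 2593] (nat_lit 0) [] false,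
   Spec.mk (nat_lit 9235) (nat_lit 1) [nat_lit 4861, nat_lit 13609, nat_lit 7777, nat_lit 9721, nat_lit 9073, nat_lit 9237, nat_lit 15795, nat_lit 2675] (nat_lit 0) [] false,
   Spec.mk (nat_lit 9237) (nat_lit 0) [nat_lit 4863, nat_lit 13611, nat_lit 7779, nat_lit 9723, nat_lit 9075, nat_lit 9243, nat_lit 9235, nat_lit 2677] (nat_lit 0) [] false,
   Spec.mk (nat_lit 9243) (nat_lit 0) [nat_lit 4869, nat_lit 13617, nat_lit 7785, nat_lit 9729, nat_lit 9081, nat_lit 9261, nat_lit 9237, nat_lit 2683] (nat_lit 0) [] false,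
   Spec.mk (nat_lit 9261) (nat_lit 0) [nat_lit 4887, nat_lit 13635, nat_lit 7803, nat_lit 9747, nat_lit 9099, nat_lit 9315, nat_lit 9243, nat_lit 2701] (nat_lit 0) [] false,
   Spec.mk (nat_lit 9315) (nat_lit 2) [nat_lit 4941, nat_lit 13689, nat_lit 7857, nat_lit 9801, nat_lit 9153, nat_lit 9261, nat_lit 2755] (nat_lit 0) [] false,
   Spec.mk (nat_lit 9479) (nat_lit 3) [nat_lit 5105, nat_lit 13853, nat_lit 8021, nat_lit 10937, nat_lit 8993, nat_lit 9481, nat_lit 16039] (nat_lit 0) [] false,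
   Spec.mk (nat_lit 9481) (nat_lit 3) [nat_lit 5107, nat_lit 13855, nat_lit 8023, nat_lit 10939, nat_lit 8995, nat_lit 9487, nat_lit 9479, nat_lit 9483, nat_lit 16041, nat_lit 2921] (nat_lit 0) [] false,
   Spec.mk (nat_lit 9483) (nat_lit 1) [nat_lit 5109, nat_lit 13857, nat_lit 8025, nat_lit 10941, nat_lit 8997, nat_lit 9489, nat_lit 9481, nat_lit 2923] (nat_lit 0) [] false,
   Spec.mk (nat_lit 9487) (nat_lit 2) [nat_lit 5113, nat_lit 13861, nat_lit 8029, nat_lit 10945, nat_lit 9001, nat_lit 9505, nat_lit 9481, nat_lit 9489, nat_lit 16047, nat_lit 2927] (nat_lit 0) [] false,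
   Spec.mk (nat_lit 9489) (nat_lit 2) [nat_lit 5115, nat_lit 13863, nat_lit 8031, nat_lit 10947, nat_lit 9003, nat_lit 9507, nat_lit 9483, nat_lit 9495, nat_lit 9487, nat_lit 2929] (nat_lit 0) [] false]

noncomputable def sp12 : List Spec :=
  [Spec.mk (nat_lit 9495) (nat_lit 1) [nat_lit 5121, nat_lit 13869, nat_lit 8037, nat_lit 10953, nat_lit 9009, nat_lit 9513, nat_lit 9489, nat_lit 2935] (nat_lit 0) [] false,
   Spec.mk (nat_lit 9505) (nat_lit 2) [nat_lit 5131, nat_lit 13879, nat_lit 8047, nat_lit 10963, nat_lit 9019, nat_lit 9559, nat_lit 9487, nat_lit 9507, nat_lit 16065, nat_lit 2945] (nat_lit 0) [] false,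
   Spec.mk (nat_lit 9507) (nat_lit 1) [nat_lit 5133, nat_lit 13881, nat_lit 8049, nat_lit 10965, nat_lit 9021, nat_lit 9561, nat_lit 9489, nat_lit 9513, nat_lit 9505, nat_lit 2947] (nat_lit 0) [] false,
   Spec.mk (nat_lit 9513) (nat_lit 2) [nat_lit 5139, nat_lit 13887, nat_lit 8055, nat_lit 10971, nat_lit 9027, nat_lit 9567, nat_lit 9495, nat_lit 9531, nat_lit 9507, nat_lit 2953] (nat_lit 0) [] false,
   Spec.mk (nat_lit 9531) (nat_lit 1) [nat_lit 5157, nat_lit 13905, nat_lit 8073, nat_lit 10989, nat_lit 9045, nat_lit 9585, nat_lit 9513, nat_lit 2971] (nat_lit 0) [] false,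
   Spec.mk (nat_lit 9559) (nat_lit 2) [nat_lit 5185, nat_lit 13933, nat_lit 8101, nat_lit 11017, nat_lit 9073, nat_lit 9721, nat_lit 9505, nat_lit 9561, nat_lit 16119, nat_lit 2999] (nat_lit 0) [] false,
   Spec.mk (nat_lit 9561) (nat_lit 1) [nat_lit 5187, nat_lit 13935, nat_lit 8103, nat_lit 11019, nat_lit 9075, nat_lit 9723, nat_lit 9507, nat_lit 9567, nat_lit 9559, nat_lit 3001] (nat_lit 0) [] false,
   Spec.mk (nat_lit 9567) (nat_lit 1) [nat_lit 5193, nat_lit 13941, nat_lit 8109, nat_lit 11025, nat_lit 9081, nat_lit 9729, nat_lit 9513, nat_lit 9585, nat_lit 9561, nat_lit 3007] (nat_lit 0) [] false,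
   Spec.mk (nat_lit 9585) (nat_lit 2) [nat_lit 5211, nat_lit 13959, nat_lit 8127, nat_lit 11043, nat_lit 9099, nat_lit 9747, nat_lit 9531, nat_lit 9639, nat_lit 9567, nat_lit 3025] (nat_lit 0) [] false,
   Spec.mk (nat_lit 9639) (nat_lit 1) [nat_lit 5265, nat_lit 14013, nat_lit 8181, nat_lit 11097, nat_lit 9153, nat_lit 9801, nat_lit 9585, nat_lit 3079] (nat_lit 0) [] false,
   Spec.mk (nat_lit 9721) (nat_lit 3) [nat_lit 5347, nat_lit 14095, nat_lit 8263, nat_lit 11179, nat_lit 9235, nat_lit 10207, nat_lit 9559, nat_lit 9723, nat_lit 16281, nat_lit 3161] (nat_lit 0) [] false,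
   Spec.mk (nat_lit 9723) (nat_lit 2) [nat_lit 5349, nat_lit 14097, nat_lit 8265, nat_lit 11181, nat_lit 9237, nat_lit 10209, nat_lit 9561, nat_lit 9729, nat_lit 9721, nat_lit 3163] (nat_lit 0) [] false,
   Spec.mk (nat_lit 9729) (nat_lit 2) [nat_lit 5355, nat_lit 14103, nat_lit 8271, nat_lit 11187, nat_lit 9243, nat_lit 10215, nat_lit 9567, nat_lit 9747, nat_lit 9723, nat_lit 3169] (nat_lit 0) [] false,
   Spec.mk (nat_lit 9747) (nat_lit 2) [nat_lit 5373, nat_lit 14121, nat_lit 8289, nat_lit 11205, nat_lit 9261, nat_lit 10233, nat_lit 9585, nat_lit 9801, nat_lit 9729, nat_lit 3187] (nat_lit 0) [] false,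
   Spec.mk (nat_lit 9801) (nat_lit 3) [nat_lit 5427, nat_lit 14175, nat_lit 8343, nat_lit 11259, nat_lit 9315, nat_lit 10287, nat_lit 9639, nat_lit 9963, nat_lit 9747, nat_lit 3241] (nat_lit 0) [] false,
   Spec.mk (nat_lit 9963) (nat_lit 3) [nat_lit 5589, nat_lit 14337, nat_lit 8505, nat_lit 11421, nat_lit 10449, nat_lit 9801, nat_lit 3403] (nat_lit 0) [] false,
   Spec.mk (nat_lit 10207) (nat_lit 3) [nat_lit 5833, nat_lit 14581, nat_lit 11665, nat_lit 9721, nat_lit 10209, nat_lit 16767, nat_lit 3647] (nat_lit 0) [] false,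
   Spec.mk (nat_lit 10209) (nat_lit 2) [nat_lit 5835, nat_lit 14583, nat_lit 11667, nat_lit 9723, nat_lit 10215, nat_lit 10207, nat_lit 3649] (nat_lit 0) [] false,
   Spec.mk (nat_lit 10215) (nat_lit 2) [nat_lit 5841, nat_lit 14589, nat_lit 11673, nat_lit 9729, nat_lit 10233, nat_lit 10209, nat_lit 3655] (nat_lit 0) [] false,
   Spec.mk (nat_lit 10233) (nat_lit 2) [nat_lit 5859, nat_lit 14607, nat_lit 11691, nat_lit 9747, nat_lit 10287, nat_lit 10215, nat_lit 3673] (nat_lit 0) [] false,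
   Spec.mk (nat_lit 10287) (nat_lit 2) [nat_lit 5913, nat_lit 14661, nat_lit 11745, nat_lit 9801, nat_lit 10449, nat_lit 10233, nat_lit 3727] (nat_lit 0) [] false,
   Spec.mk (nat_lit 10449) (nat_lit 4) [nat_lit 6075, nat_lit 14823, nat_lit 11907, nat_lit 9963, nat_lit 10287, nat_lit 3889] (nat_lit 0) [] false,
   Spec.mk (nat_lit 10937) (nat_lit 3) [nat_lit 15311, nat_lit 9479, nat_lit 10939, nat_lit 17497] (nat_lit 0) [] false,
   Spec.mk (nat_lit 10939) (nat_lit 3) [nat_lit 15313, nat_lit 9481, nat_lit 10945, nat_lit 10937, nat_lit 10941, nat_lit 17499, nat_lit 4379] (nat_lit 0) [] false,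
   Spec.mk (nat_lit 10941) (nat_lit 1) [nat_lit 15315, nat_lit 9483, nat_lit 10947, nat_lit 10939, nat_lit 4381] (nat_lit 0) [] false,
   Spec.mk (nat_lit 10945) (nat_lit 2) [nat_lit 15319, nat_lit 9487, nat_lit 10963, nat_lit 10939, nat_lit 10947, nat_lit 17505, nat_lit 4385] (nat_lit 0) [] false,
   Spec.mk (nat_lit 10947) (nat_lit 2) [nat_lit 15321, nat_lit 9489, nat_lit 10965, nat_lit 10941, nat_lit 10953, nat_lit 10945, nat_lit 4387] (nat_lit 0) [] false,
   Spec.mk (nat_lit 10953) (nat_lit 1) [nat_lit 15327, nat_lit 9495, nat_lit 10971, nat_lit 10947, nat_lit 4393] (nat_lit 0) [] false,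
   Spec.mk (nat_lit 10963) (nat_lit 2) [nat_lit 15337, nat_lit 9505, nat_lit 11017, nat_lit 10945, nat_lit 10965, nat_lit 17523, nat_lit 4403] (nat_lit 0) [] false,
   Spec.mk (nat_lit 10965) (nat_lit 1) [nat_lit 15339, nat_lit 9507, nat_lit 11019, nat_lit 10947, nat_lit 10971, nat_lit 10963, nat_lit 4405] (nat_lit 0) [] false,
   Spec.mk (nat_lit 10971) (nat_lit 2) [nat_lit 15345, nat_lit 9513, nat_lit 11025, nat_lit 10953, nat_lit 10989, nat_lit 10965, nat_lit 4411] (nat_lit 0) [] false,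
   Spec.mk (nat_lit 10989) (nat_lit 1) [nat_lit 15363, nat_lit 9531, nat_lit 11043, nat_lit 10971, nat_lit 4429] (nat_lit 0) [] false,
   Spec.mk (nat_lit 11017) (nat_lit 2) [nat_lit 15391, nat_lit 9559, nat_lit 11179, nat_lit 10963, nat_lit 11019, nat_lit 17577, nat_lit 4457] (nat_lit 0) [] false,
   Spec.mk (nat_lit 11019) (nat_lit 1) [nat_lit 15393, nat_lit 9561, nat_lit 11181, nat_lit 10965, nat_lit 11025, nat_lit 11017, nat_lit 4459] (nat_lit 0) [] false,
   Spec.mk (nat_lit 11025) (nat_lit 1) [nat_lit 15399, nat_lit 9567, nat_lit 11187, nat_lit 10971, nat_lit 11043, nat_lit 11019, nat_lit 4465] (nat_lit 0) [] false,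
   Spec.mk (nat_lit 11043) (nat_lit 2) [nat_lit 15417, nat_lit 9585, nat_lit 11205, nat_lit 10989, nat_lit 11097, nat_lit 11025, nat_lit 4483] (nat_lit 0) [] false,
   Spec.mk (nat_lit 11097) (nat_lit 1) [nat_lit 15471, nat_lit 9639, nat_lit 11259, nat_lit 11043, nat_lit 4537] (nat_lit 0) [] false,
   Spec.mk (nat_lit 11179) (nat_lit 2) [nat_lit 15553, nat_lit 9721, nat_lit 11665, nat_lit 11017, nat_lit 11181, nat_lit 17739, nat_lit 4619] (nat_lit 0) [] false,
   Spec.mk (nat_lit 11181) (nat_lit 1) [nat_lit 15555, nat_lit 9723, nat_lit 11667, nat_lit 11019, nat_lit 11187, nat_lit 11179, nat_lit 4621] (nat_lit 0) [] false,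
   Spec.mk (nat_lit 11187) (nat_lit 1) [nat_lit 15561, nat_lit 9729, nat_lit 11673, nat_lit 11025, nat_lit 11205, nat_lit 11181, nat_lit 4627] (nat_lit 0) [] false,
   Spec.mk (nat_lit 11205) (nat_lit 1) [nat_lit 15579, nat_lit 9747, nat_lit 11691, nat_lit 11043, nat_lit 11259, nat_lit 11187, nat_lit 4645] (nat_lit 0) [] false,
   Spec.mk (nat_lit 11259) (nat_lit 2) [nat_lit 15633, nat_lit 9801, nat_lit 11745, nat_lit 11097, nat_lit 11421, nat_lit 11205, nat_lit 4699] (nat_lit 0) [] false,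
   Spec.mk (nat_lit 11421) (nat_lit 1) [nat_lit 15795, nat_lit 9963, nat_lit 11907, nat_lit 11259, nat_lit 4861] (nat_lit 0) [] false,
   Spec.mk (nat_lit 11665) (nat_lit 4) [nat_lit 16039, nat_lit 10207, nat_lit 11179, nat_lit 11667, nat_lit 18225, nat_lit 5105] (nat_lit 0) [] false,
   Spec.mk (nat_lit 11667) (nat_lit 3) [nat_lit 16041, nat_lit 10209, nat_lit 11181, nat_lit 11673, nat_lit 11665, nat_lit 5107] (nat_lit 0) [] false,
   Spec.mk (nat_lit 11673) (nat_lit 3) [nat_lit 16047, nat_lit 10215, nat_lit 11187, nat_lit 11691, nat_lit 11667, nat_lit 5113] (nat_lit 0) [] false,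
   Spec.mk (nat_lit 11691) (nat_lit 3) [nat_lit 16065, nat_lit 10233, nat_lit 11205, nat_lit 11745, nat_lit 11673, nat_lit 5131] (nat_lit 0) [] false,
   Spec.mk (nat_lit 11745) (nat_lit 3) [nat_lit 16119, nat_lit 10287, nat_lit 11259, nat_lit 11907, nat_lit 11691, nat_lit 5185] (nat_lit 0) [] false,
   Spec.mk (nat_lit 11907) (nat_lit 4) [nat_lit 16281, nat_lit 10449, nat_lit 11421, nat_lit 12393, nat_lit 11745, nat_lit 5347] (nat_lit 0) [] false,
   Spec.mk (nat_lit 12393) (nat_lit 5) [nat_lit 16767, nat_lit 11907, nat_lit 5833] (nat_lit 0) [] false,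
   Spec.mk (nat_lit 13127) (nat_lit 5) [nat_lit 8753, nat_lit 13133, nat_lit 13129] (nat_lit 0) [] false,
   Spec.mk (nat_lit 13129) (nat_lit 3) [nat_lit 8755, nat_lit 13135, nat_lit 13127, nat_lit 6569] (nat_lit 0) [] false,
   Spec.mk (nat_lit 13133) (nat_lit 3) [nat_lit 8759, nat_lit 13151, nat_lit 13127, nat_lit 13135] (nat_lit 0) [] false,
   Spec.mk (nat_lit 13135) (nat_lit 3) [nat_lit 8761, nat_lit 13153, nat_lit 13129, nat_lit 13141, nat_lit 13133, nat_lit 13137, nat_lit 6575] (nat_lit 0) [] false,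
   Spec.mk (nat_lit 13137) (nat_lit 1) [nat_lit 8763, nat_lit 13155, nat_lit 13143, nat_lit 13135, nat_lit 6577] (nat_lit 0) [] false,
   Spec.mk (nat_lit 13141) (nat_lit 1) [nat_lit 8767, nat_lit 13159, nat_lit 13135, nat_lit 13143, nat_lit 6581] (nat_lit 0) [] false,
   Spec.mk (nat_lit 13143) (nat_lit 1) [nat_lit 8769, nat_lit 13161, nat_lit 13137, nat_lit 13141, nat_lit 6583] (nat_lit 0) [] false,
   Spec.mk (nat_lit 13151) (nat_lit 3) [nat_lit 8777, nat_lit 13205, nat_lit 13133, nat_lit 13153] (nat_lit 0) [] false,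
   Spec.mk (nat_lit 13153) (nat_lit 2) [nat_lit 8779, nat_lit 13207, nat_lit 13135, nat_lit 13159, nat_lit 13151, nat_lit 13155, nat_lit 6593] (nat_lit 0) [] false,
   Spec.mk (nat_lit 13155) (nat_lit 0) [nat_lit 8781, nat_lit 13209, nat_lit 13137, nat_lit 13161, nat_lit 13153, nat_lit 6595] (nat_lit 1) [] false]

noncomputable def sp13 : List Spec :=
  [Spec.mk (nat_lit 13159) (nat_lit 2) [nat_lit 8785, nat_lit 13213, nat_lit 13141, nat_lit 13177, nat_lit 13153, nat_lit 13161, nat_lit 6599] (nat_lit 0) [] false,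
   Spec.mk (nat_lit 13161) (nat_lit 1) [nat_lit 8787, nat_lit 13215, nat_lit 13143, nat_lit 13179, nat_lit 13155, nat_lit 13167, nat_lit 13159, nat_lit 6601] (nat_lit 0) [] false,
   Spec.mk (nat_lit 13167) (nat_lit 1) [nat_lit 8793, nat_lit 13221, nat_lit 13185, nat_lit 13161, nat_lit 6607] (nat_lit 0) [] false,
   Spec.mk (nat_lit 13177) (nat_lit 1) [nat_lit 8803, nat_lit 13231, nat_lit 13159, nat_lit 13179, nat_lit 6617] (nat_lit 0) [] false,
   Spec.mk (nat_lit 13179) (nat_lit 0) [nat_lit 8805, nat_lit 13233, nat_lit 13161, nat_lit 13185, nat_lit 13177, nat_lit 6619] (nat_lit 1) [] false,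
   Spec.mk (nat_lit 13185) (nat_lit 1) [nat_lit 8811, nat_lit 13239, nat_lit 13167, nat_lit 13179, nat_lit 6625] (nat_lit 0) [] false,
   Spec.mk (nat_lit 13205) (nat_lit 3) [nat_lit 8831, nat_lit 13367, nat_lit 13151, nat_lit 13207] (nat_lit 0) [] false,
   Spec.mk (nat_lit 13207) (nat_lit 2) [nat_lit 8833, nat_lit 13369, nat_lit 13153, nat_lit 13213, nat_lit 13205, nat_lit 13209, nat_lit 6647] (nat_lit 0) [] false,
   Spec.mk (nat_lit 13209) (nat_lit 0) [nat_lit 8835, nat_lit 13371, nat_lit 13155, nat_lit 13215, nat_lit 13207, nat_lit 6649] (nat_lit 1) [] false,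
   Spec.mk (nat_lit 13213) (nat_lit 1) [nat_lit 8839, nat_lit 13375, nat_lit 13159, nat_lit 13231, nat_lit 13207, nat_lit 13215, nat_lit 6653] (nat_lit 0) [] false,
   Spec.mk (nat_lit 13215) (nat_lit 0) [nat_lit 8841, nat_lit 13377, nat_lit 13161, nat_lit 13233, nat_lit 13209, nat_lit 13221, nat_lit 13213, nat_lit 6655] (nat_lit 0) [] false,
   Spec.mk (nat_lit 13221) (nat_lit 0) [nat_lit 8847, nat_lit 13383, nat_lit 13167, nat_lit 13239, nat_lit 13215, nat_lit 6661] (nat_lit 1) [] false,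
   Spec.mk (nat_lit 13231) (nat_lit 2) [nat_lit 8857, nat_lit 13393, nat_lit 13177, nat_lit 13285, nat_lit 13213, nat_lit 13233, nat_lit 6671] (nat_lit 0) [] false,
   Spec.mk (nat_lit 13233) (nat_lit 0) [nat_lit 8859, nat_lit 13395, nat_lit 13179, nat_lit 13287, nat_lit 13215, nat_lit 13239, nat_lit 13231, nat_lit 6673] (nat_lit 0) [] false,
   Spec.mk (nat_lit 13239) (nat_lit 1) [nat_lit 8865, nat_lit 13401, nat_lit 13185, nat_lit 13293, nat_lit 13221, nat_lit 13257, nat_lit 13233, nat_lit 6679] (nat_lit 0) [] false,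
   Spec.mk (nat_lit 13257) (nat_lit 1) [nat_lit 8883, nat_lit 13419, nat_lit 13311, nat_lit 13239, nat_lit 6697] (nat_lit 0) [] false,
   Spec.mk (nat_lit 13285) (nat_lit 1) [nat_lit 8911, nat_lit 13447, nat_lit 13231, nat_lit 13287, nat_lit 6725] (nat_lit 0) [] false,
   Spec.mk (nat_lit 13287) (nat_lit 0) [nat_lit 8913, nat_lit 13449, nat_lit 13233, nat_lit 13293, nat_lit 13285, nat_lit 6727] (nat_lit 1) [] false,
   Spec.mk (nat_lit 13293) (nat_lit 0) [nat_lit 8919, nat_lit 13455, nat_lit 13239, nat_lit 13311, nat_lit 13287, nat_lit 6733] (nat_lit 1) [] false,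
   Spec.mk (nat_lit 13311) (nat_lit 1) [nat_lit 8937, nat_lit 13473, nat_lit 13257, nat_lit 13293, nat_lit 6751] (nat_lit 0) [] false,
   Spec.mk (nat_lit 13367) (nat_lit 3) [nat_lit 8993, nat_lit 13853, nat_lit 13205, nat_lit 13369] (nat_lit 0) [] false,
   Spec.mk (nat_lit 13369) (nat_lit 2) [nat_lit 8995, nat_lit 13855, nat_lit 13207, nat_lit 13375, nat_lit 13367, nat_lit 13371, nat_lit 6809] (nat_lit 0) [] false,
   Spec.mk (nat_lit 13371) (nat_lit 0) [nat_lit 8997, nat_lit 13857, nat_lit 13209, nat_lit 13377, nat_lit 13369, nat_lit 6811] (nat_lit 1) [] false,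
   Spec.mk (nat_lit 13375) (nat_lit 1) [nat_lit 9001, nat_lit 13861, nat_lit 13213, nat_lit 13393, nat_lit 13369, nat_lit 13377, nat_lit 6815] (nat_lit 0) [] false,
   Spec.mk (nat_lit 13377) (nat_lit 0) [nat_lit 9003, nat_lit 13863, nat_lit 13215, nat_lit 13395, nat_lit 13371, nat_lit 13383, nat_lit 13375, nat_lit 6817] (nat_lit 0) [] false,
   Spec.mk (nat_lit 13383) (nat_lit 0) [nat_lit 9009, nat_lit 13869, nat_lit 13221, nat_lit 13401, nat_lit 13377, nat_lit 6823] (nat_lit 1) [] false,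
   Spec.mk (nat_lit 13393) (nat_lit 1) [nat_lit 9019, nat_lit 13879, nat_lit 13231, nat_lit 13447, nat_lit 13375, nat_lit 13395, nat_lit 6833] (nat_lit 0) [] false,
   Spec.mk (nat_lit 13395) (nat_lit 0) [nat_lit 9021, nat_lit 13881, nat_lit 13233, nat_lit 13449, nat_lit 13377, nat_lit 13401, nat_lit 13393, nat_lit 6835] (nat_lit 1) [] false,
   Spec.mk (nat_lit 13401) (nat_lit 0) [nat_lit 9027, nat_lit 13887, nat_lit 13239, nat_lit 13455, nat_lit 13383, nat_lit 13419, nat_lit 13395, nat_lit 6841] (nat_lit 0) [] false,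
   Spec.mk (nat_lit 13419) (nat_lit 0) [nat_lit 9045, nat_lit 13905, nat_lit 13257, nat_lit 13473, nat_lit 13401, nat_lit 6859] (nat_lit 1) [] false,
   Spec.mk (nat_lit 13447) (nat_lit 2) [nat_lit 9073, nat_lit 13933, nat_lit 13285, nat_lit 13609, nat_lit 13393, nat_lit 13449, nat_lit 6887] (nat_lit 0) [] false,
   Spec.mk (nat_lit 13449) (nat_lit 0) [nat_lit 9075, nat_lit 13935, nat_lit 13287, nat_lit 13611, nat_lit 13395, nat_lit 13455, nat_lit 13447, nat_lit 6889] (nat_lit 0) [] false,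
   Spec.mk (nat_lit 13455) (nat_lit 0) [nat_lit 9081, nat_lit 13941, nat_lit 13293, nat_lit 13617, nat_lit 13401, nat_lit 13473, nat_lit 13449, nat_lit 6895] (nat_lit 0) [] false,
   Spec.mk (nat_lit 13473) (nat_lit 1) [nat_lit 9099, nat_lit 13959, nat_lit 13311, nat_lit 13635, nat_lit 13419, nat_lit 13527, nat_lit 13455, nat_lit 6913] (nat_lit 0) [] false,
   Spec.mk (nat_lit 13527) (nat_lit 1) [nat_lit 9153, nat_lit 14013, nat_lit 13689, nat_lit 13473, nat_lit 6967] (nat_lit 0) [] false,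
   Spec.mk (nat_lit 13609) (nat_lit 1) [nat_lit 9235, nat_lit 14095, nat_lit 13447, nat_lit 13611, nat_lit 7049] (nat_lit 0) [] false,
   Spec.mk (nat_lit 13611) (nat_lit 0) [nat_lit 9237, nat_lit 14097, nat_lit 13449, nat_lit 13617, nat_lit 13609, nat_lit 7051] (nat_lit 1) [] false,
   Spec.mk (nat_lit 13617) (nat_lit 0) [nat_lit 9243, nat_lit 14103, nat_lit 13455, nat_lit 13635, nat_lit 13611, nat_lit 7057] (nat_lit 1) [] false,
   Spec.mk (nat_lit 13635) (nat_lit 0) [nat_lit 9261, nat_lit 14121, nat_lit 13473, nat_lit 13689, nat_lit 13617, nat_lit 7075] (nat_lit 1) [] false,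
   Spec.mk (nat_lit 13689) (nat_lit 1) [nat_lit 9315, nat_lit 14175, nat_lit 13527, nat_lit 13635, nat_lit 7129] (nat_lit 0) [] false,
   Spec.mk (nat_lit 13853) (nat_lit 3) [nat_lit 9479, nat_lit 15311, nat_lit 13367, nat_lit 13855] (nat_lit 0) [] false,
   Spec.mk (nat_lit 13855) (nat_lit 2) [nat_lit 9481, nat_lit 15313, nat_lit 13369, nat_lit 13861, nat_lit 13853, nat_lit 13857, nat_lit 7295] (nat_lit 0) [] false,
   Spec.mk (nat_lit 13857) (nat_lit 0) [nat_lit 9483, nat_lit 15315, nat_lit 13371, nat_lit 13863, nat_lit 13855, nat_lit 7297] (nat_lit 1) [] false,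
   Spec.mk (nat_lit 13861) (nat_lit 1) [nat_lit 9487, nat_lit 15319, nat_lit 13375, nat_lit 13879, nat_lit 13855, nat_lit 13863, nat_lit 7301] (nat_lit 0) [] false,
   Spec.mk (nat_lit 13863) (nat_lit 0) [nat_lit 9489, nat_lit 15321, nat_lit 13377, nat_lit 13881, nat_lit 13857, nat_lit 13869, nat_lit 13861, nat_lit 7303] (nat_lit 0) [] false,
   Spec.mk (nat_lit 13869) (nat_lit 0) [nat_lit 9495, nat_lit 15327, nat_lit 13383, nat_lit 13887, nat_lit 13863, nat_lit 7309] (nat_lit 1) [] false,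
   Spec.mk (nat_lit 13879) (nat_lit 1) [nat_lit 9505, nat_lit 15337, nat_lit 13393, nat_lit 13933, nat_lit 13861, nat_lit 13881, nat_lit 7319] (nat_lit 0) [] false,
   Spec.mk (nat_lit 13881) (nat_lit 0) [nat_lit 9507, nat_lit 15339, nat_lit 13395, nat_lit 13935, nat_lit 13863, nat_lit 13887, nat_lit 13879, nat_lit 7321] (nat_lit 1) [] false,
   Spec.mk (nat_lit 13887) (nat_lit 0) [nat_lit 9513, nat_lit 15345, nat_lit 13401, nat_lit 13941, nat_lit 13869, nat_lit 13905, nat_lit 13881, nat_lit 7327] (nat_lit 0) [] false,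
   Spec.mk (nat_lit 13905) (nat_lit 0) [nat_lit 9531, nat_lit 15363, nat_lit 13419, nat_lit 13959, nat_lit 13887, nat_lit 7345] (nat_lit 1) [] false,
   Spec.mk (nat_lit 13933) (nat_lit 1) [nat_lit 9559, nat_lit 15391, nat_lit 13447, nat_lit 14095, nat_lit 13879, nat_lit 13935, nat_lit 7373] (nat_lit 0) [] false,
   Spec.mk (nat_lit 13935) (nat_lit 0) [nat_lit 9561, nat_lit 15393, nat_lit 13449, nat_lit 14097, nat_lit 13881, nat_lit 13941, nat_lit 13933, nat_lit 7375] (nat_lit 1) [] false,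
   Spec.mk (nat_lit 13941) (nat_lit 0) [nat_lit 9567, nat_lit 15399, nat_lit 13455, nat_lit 14103, nat_lit 13887, nat_lit 13959, nat_lit 13935, nat_lit 7381] (nat_lit 1) [] false,
   Spec.mk (nat_lit 13959) (nat_lit 0) [nat_lit 9585, nat_lit 15417, nat_lit 13473, nat_lit 14121, nat_lit 13905, nat_lit 14013, nat_lit 13941, nat_lit 7399] (nat_lit 0) [] false,
   Spec.mk (nat_lit 14013) (nat_lit 0) [nat_lit 9639, nat_lit 15471, nat_lit 13527, nat_lit 14175, nat_lit 13959, nat_lit 7453] (nat_lit 1) [] false,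
   Spec.mk (nat_lit 14095) (nat_lit 2) [nat_lit 9721, nat_lit 15553, nat_lit 13609, nat_lit 14581, nat_lit 13933, nat_lit 14097, nat_lit 7535] (nat_lit 0) [] false,
   Spec.mk (nat_lit 14097) (nat_lit 0) [nat_lit 9723, nat_lit 15555, nat_lit 13611, nat_lit 14583, nat_lit 13935, nat_lit 14103, nat_lit 14095, nat_lit 7537] (nat_lit 0) [] false,
   Spec.mk (nat_lit 14103) (nat_lit 0) [nat_lit 9729, nat_lit 15561, nat_lit 13617, nat_lit 14589, nat_lit 13941, nat_lit 14121, nat_lit 14097, nat_lit 7543] (nat_lit 0) [] false,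
   Spec.mk (nat_lit 14121) (nat_lit 0) [nat_lit 9747, nat_lit 15579, nat_lit 13635, nat_lit 14607, nat_lit 13959, nat_lit 14175, nat_lit 14103, nat_lit 7561] (nat_lit 0) [] false,
   Spec.mk (nat_lit 14175) (nat_lit 1) [nat_lit 9801, nat_lit 15633, nat_lit 13689, nat_lit 14661, nat_lit 14013, nat_lit 14337, nat_lit 14121, nat_lit 7615] (nat_lit 0) [] false]

noncomputable def sp14 : List Spec :=
  [Spec.mk (nat_lit 14337) (nat_lit 1) [nat_lit 9963, nat_lit 15795, nat_lit 14823, nat_lit 14175, nat_lit 7777] (nat_lit 0) [] false,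
   Spec.mk (nat_lit 14581) (nat_lit 1) [nat_lit 10207, nat_lit 16039, nat_lit 14095, nat_lit 14583, nat_lit 8021] (nat_lit 0) [] false,
   Spec.mk (nat_lit 14583) (nat_lit 0) [nat_lit 10209, nat_lit 16041, nat_lit 14097, nat_lit 14589, nat_lit 14581, nat_lit 8023] (nat_lit 1) [] false,
   Spec.mk (nat_lit 14589) (nat_lit 0) [nat_lit 10215, nat_lit 16047, nat_lit 14103, nat_lit 14607, nat_lit 14583, nat_lit 8029] (nat_lit 1) [] false,
   Spec.mk (nat_lit 14607) (nat_lit 0) [nat_lit 10233, nat_lit 16065, nat_lit 14121, nat_lit 14661, nat_lit 14589, nat_lit 8047] (nat_lit 1) [] false,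
   Spec.mk (nat_lit 14661) (nat_lit 0) [nat_lit 10287, nat_lit 16119, nat_lit 14175, nat_lit 14823, nat_lit 14607, nat_lit 8101] (nat_lit 1) [] false,
   Spec.mk (nat_lit 14823) (nat_lit 1) [nat_lit 10449, nat_lit 16281, nat_lit 14337, nat_lit 14661, nat_lit 8263] (nat_lit 0) [] false,
   Spec.mk (nat_lit 15311) (nat_lit 5) [nat_lit 10937, nat_lit 13853, nat_lit 15313] (nat_lit 0) [] false,
   Spec.mk (nat_lit 15313) (nat_lit 4) [nat_lit 10939, nat_lit 13855, nat_lit 15319, nat_lit 15311, nat_lit 15315, nat_lit 8753] (nat_lit 0) [] false,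
   Spec.mk (nat_lit 15315) (nat_lit 1) [nat_lit 10941, nat_lit 13857, nat_lit 15321, nat_lit 15313, nat_lit 8755] (nat_lit 0) [] false,
   Spec.mk (nat_lit 15319) (nat_lit 3) [nat_lit 10945, nat_lit 13861, nat_lit 15337, nat_lit 15313, nat_lit 15321, nat_lit 8759] (nat_lit 0) [] false,
   Spec.mk (nat_lit 15321) (nat_lit 2) [nat_lit 10947, nat_lit 13863, nat_lit 15339, nat_lit 15315, nat_lit 15327, nat_lit 15319, nat_lit 8761] (nat_lit 0) [] false,
   Spec.mk (nat_lit 15327) (nat_lit 1) [nat_lit 10953, nat_lit 13869, nat_lit 15345, nat_lit 15321, nat_lit 8767] (nat_lit 0) [] false,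
   Spec.mk (nat_lit 15337) (nat_lit 3) [nat_lit 10963, nat_lit 13879, nat_lit 15391, nat_lit 15319, nat_lit 15339, nat_lit 8777] (nat_lit 0) [] false,
   Spec.mk (nat_lit 15339) (nat_lit 1) [nat_lit 10965, nat_lit 13881, nat_lit 15393, nat_lit 15321, nat_lit 15345, nat_lit 15337, nat_lit 8779] (nat_lit 0) [] false,
   Spec.mk (nat_lit 15345) (nat_lit 2) [nat_lit 10971, nat_lit 13887, nat_lit 15399, nat_lit 15327, nat_lit 15363, nat_lit 15339, nat_lit 8785] (nat_lit 0) [] false,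
   Spec.mk (nat_lit 15363) (nat_lit 1) [nat_lit 10989, nat_lit 13905, nat_lit 15417, nat_lit 15345, nat_lit 8803] (nat_lit 0) [] false,
   Spec.mk (nat_lit 15391) (nat_lit 3) [nat_lit 11017, nat_lit 13933, nat_lit 15553, nat_lit 15337, nat_lit 15393, nat_lit 8831] (nat_lit 0) [] false,
   Spec.mk (nat_lit 15393) (nat_lit 1) [nat_lit 11019, nat_lit 13935, nat_lit 15555, nat_lit 15339, nat_lit 15399, nat_lit 15391, nat_lit 8833] (nat_lit 0) [] false,
   Spec.mk (nat_lit 15399) (nat_lit 1) [nat_lit 11025, nat_lit 13941, nat_lit 15561, nat_lit 15345, nat_lit 15417, nat_lit 15393, nat_lit 8839] (nat_lit 0) [] false,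
   Spec.mk (nat_lit 15417) (nat_lit 2) [nat_lit 11043, nat_lit 13959, nat_lit 15579, nat_lit 15363, nat_lit 15471, nat_lit 15399, nat_lit 8857] (nat_lit 0) [] false,
   Spec.mk (nat_lit 15471) (nat_lit 1) [nat_lit 11097, nat_lit 14013, nat_lit 15633, nat_lit 15417, nat_lit 8911] (nat_lit 0) [] false,
   Spec.mk (nat_lit 15553) (nat_lit 3) [nat_lit 11179, nat_lit 14095, nat_lit 16039, nat_lit 15391, nat_lit 15555, nat_lit 8993] (nat_lit 0) [] false,
   Spec.mk (nat_lit 15555) (nat_lit 1) [nat_lit 11181, nat_lit 14097, nat_lit 16041, nat_lit 15393, nat_lit 15561, nat_lit 15553, nat_lit 8995] (nat_lit 0) [] false,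
   Spec.mk (nat_lit 15561) (nat_lit 1) [nat_lit 11187, nat_lit 14103, nat_lit 16047, nat_lit 15399, nat_lit 15579, nat_lit 15555, nat_lit 9001] (nat_lit 0) [] false,
   Spec.mk (nat_lit 15579) (nat_lit 1) [nat_lit 11205, nat_lit 14121, nat_lit 16065, nat_lit 15417, nat_lit 15633, nat_lit 15561, nat_lit 9019] (nat_lit 0) [] false,
   Spec.mk (nat_lit 15633) (nat_lit 2) [nat_lit 11259, nat_lit 14175, nat_lit 16119, nat_lit 15471, nat_lit 15795, nat_lit 15579, nat_lit 9073] (nat_lit 0) [] false,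
   Spec.mk (nat_lit 15795) (nat_lit 1) [nat_lit 11421, nat_lit 14337, nat_lit 16281, nat_lit 15633, nat_lit 9235] (nat_lit 0) [] false,
   Spec.mk (nat_lit 16039) (nat_lit 4) [nat_lit 11665, nat_lit 14581, nat_lit 17497, nat_lit 15553, nat_lit 16041, nat_lit 9479] (nat_lit 0) [] false,
   Spec.mk (nat_lit 16041) (nat_lit 2) [nat_lit 11667, nat_lit 14583, nat_lit 17499, nat_lit 15555, nat_lit 16047, nat_lit 16039, nat_lit 9481] (nat_lit 0) [] false,
   Spec.mk (nat_lit 16047) (nat_lit 2) [nat_lit 11673, nat_lit 14589, nat_lit 17505, nat_lit 15561, nat_lit 16065, nat_lit 16041, nat_lit 9487] (nat_lit 0) [] false,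
   Spec.mk (nat_lit 16065) (nat_lit 2) [nat_lit 11691, nat_lit 14607, nat_lit 17523, nat_lit 15579, nat_lit 16119, nat_lit 16047, nat_lit 9505] (nat_lit 0) [] false,
   Spec.mk (nat_lit 16119) (nat_lit 2) [nat_lit 11745, nat_lit 14661, nat_lit 17577, nat_lit 15633, nat_lit 16281, nat_lit 16065, nat_lit 9559] (nat_lit 0) [] false,
   Spec.mk (nat_lit 16281) (nat_lit 3) [nat_lit 11907, nat_lit 14823, nat_lit 17739, nat_lit 15795, nat_lit 16767, nat_lit 16119, nat_lit 9721] (nat_lit 0) [] false,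
   Spec.mk (nat_lit 16767) (nat_lit 3) [nat_lit 12393, nat_lit 18225, nat_lit 16281, nat_lit 10207] (nat_lit 0) [] false,
   Spec.mk (nat_lit 17497) (nat_lit 5) [nat_lit 16039, nat_lit 17499, nat_lit 10937] (nat_lit 0) [] false,
   Spec.mk (nat_lit 17499) (nat_lit 3) [nat_lit 16041, nat_lit 17505, nat_lit 17497, nat_lit 10939] (nat_lit 0) [] false,
   Spec.mk (nat_lit 17505) (nat_lit 3) [nat_lit 16047, nat_lit 17523, nat_lit 17499, nat_lit 10945] (nat_lit 0) [] false,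
   Spec.mk (nat_lit 17523) (nat_lit 3) [nat_lit 16065, nat_lit 17577, nat_lit 17505, nat_lit 10963] (nat_lit 0) [] false,
   Spec.mk (nat_lit 17577) (nat_lit 3) [nat_lit 16119, nat_lit 17739, nat_lit 17523, nat_lit 11017] (nat_lit 0) [] false,
   Spec.mk (nat_lit 17739) (nat_lit 3) [nat_lit 16281, nat_lit 18225, nat_lit 17577, nat_lit 11179] (nat_lit 0) [] false,
   Spec.mk (nat_lit 18225) (nat_lit 5) [nat_lit 16767, nat_lit 17739, nat_lit 11665] (nat_lit 0) [] false]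

noncomputable def specs : List (List Spec) :=
    sp0 :: sp1 :: sp2 :: sp3 :: sp4 :: sp5 :: sp6 :: sp7 :: sp8 :: sp9 :: sp10 :: sp11 :: sp12 ::
    sp13 :: sp14 :: []

noncomputable def step (e : Nat → Nat) (C ap an : Nat) (k :
    Nat → Nat → Nat → Nat → Nat → Nat → Nat → Nat → Nat → Nat → Nat → Nat → Nat → Nat → Nat → Nat →
    Nat → Nat → Nat → Nat → Nat → Nat → Nat → Nat → Nat → Nat → Nat → Nat → Nat → Nat → Nat → Nat →
    Nat → Nat → Nat → Nat → Nat → Nat → Nat → Nat → Nat → Nat → Nat → Nat → Nat → Nat → Nat → Nat →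
    Nat → Nat → Nat → Nat → Nat → Nat → Nat → Nat → Nat → Nat → Nat → Nat → Nat → Nat → Nat → Nat →
    Nat → Nat → Nat → Nat → Nat → Nat → Nat → Nat → Nat → Nat → Nat → Nat → Nat → Nat → Nat → Nat →
    Nat → Nat → Nat → Nat → Nat → Nat → Nat → Nat → Nat → Nat → Nat → Nat → Nat → Nat → Nat → Nat →
    Nat → Nat → Nat → Nat → Nat → Nat → Nat → Nat → Nat → Nat → Nat → Nat → Nat → Nat → Nat → Nat →
    Nat → Nat → Nat → Nat → Nat → Nat → Nat → Nat → Nat → Nat → Nat → Nat → Nat → Nat → Nat → Nat →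
    Nat → Nat → Nat → Nat → Nat → Nat → Nat → Nat → Nat → Nat → Nat → Nat → Nat → Nat → Nat → Nat →
    Nat → Nat → Nat → Nat → Nat → Nat → Nat → Nat → Nat → Nat → Nat → Nat → Nat → Nat → Nat → Nat →
    Nat → Nat → Nat → Nat → Nat → Nat → Nat → Nat → Nat → Nat → Nat → Nat → Nat → Nat → Nat → Nat →
    Nat → Nat → Nat → Nat → Nat → Nat → Nat → Nat → Nat → Nat → Nat → Nat → Nat → Nat → Nat → Nat →
    Nat → Nat → Nat → Nat → Nat → Nat → Nat → Nat → Nat → Nat → Nat → Nat → Nat → Nat → Nat → Nat →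
    Nat → Nat → Nat → Nat → Nat → Nat → Nat → Nat → Nat → Nat → Nat → Nat → Nat → Nat → Nat → Nat →
    Nat → Nat → Nat → Nat → Nat → Nat → Nat → Nat → Nat → Nat → Nat → Nat → Nat → Nat → Nat → Nat →
    Nat → Nat → Nat → Nat → Nat → Nat → Nat → Nat → Nat → Nat → Nat → Nat → Nat → Nat → Nat → Nat →
    Nat → Nat → Nat → Nat → Nat → Nat → Nat → Nat → Nat → Nat → Nat → Nat → Nat → Nat → Nat → Nat →
    Nat → Nat → Nat → Nat → Nat → Nat → Nat → Nat → Nat → Nat → Nat → Nat → Nat → Nat → Nat → Nat →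
    Nat → Nat → Nat → Nat → Nat → Nat → Nat → Nat → Nat → Nat → Nat → Nat → Nat → Nat → Nat → Nat →
    Nat → Nat → Nat → Nat → Nat → Nat → Nat → Nat → Nat → Nat → Nat → Nat → Nat → Nat → Nat → Nat →
    Nat → Nat → Nat → Nat → Nat → Nat → Nat → Nat → Nat → Nat → Nat → Nat → Nat → Nat → Nat → Nat →
    Nat → Nat → Nat → Nat → Nat → Nat → Nat → Nat → Nat → Nat → Nat → Nat → Nat → Nat → Nat → Nat →
    Nat → Nat → Nat → Nat → Nat → Nat → Nat → Nat → Nat → Nat → Nat → Nat → Nat → Nat → Nat → Nat →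
    Nat → Nat → Nat → Nat → Nat → Nat → Nat → Nat → Nat → Nat → Nat → Nat → Nat → Nat → Nat → Nat →
    Nat → Nat → Nat → Nat → Nat → Nat → Nat → Nat → Nat → Nat → Nat → Nat → Nat → Nat → Nat → Nat →
    Nat → Nat → Nat → Nat → Nat → Nat → Nat → Nat → Nat → Nat → Nat → Nat → Nat → Nat → Nat → Nat →
    Nat → Nat → Nat → Nat → Nat → Nat → Nat → Nat → Nat → Nat → Nat → Nat → Nat → Nat → Nat → Nat →
    Nat → Nat → Nat → Nat → Nat → Nat → Nat → Nat → Nat → Nat → Nat → Nat → Nat → Nat → Nat → Nat →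
    Nat → Nat → Nat → Nat → Nat → Nat → Nat → Nat → Nat → Nat → Nat → Nat → Nat → Nat → Nat → Nat →
    Nat → Nat → Nat → Nat → Nat → Nat → Nat → Nat → Nat → Nat → Nat → Nat → Nat → Nat → Nat → Nat →
    Nat → Nat → Nat → Nat → Nat → Nat → Nat → Nat → Nat → Nat → Nat → Nat → Nat → Nat → Nat → Nat →
    Nat → Nat → Nat → Nat → Nat → Nat → Nat → Nat → Nat → Nat → Nat → Nat → Nat → Nat → Nat → Nat →
    Nat → Nat → Nat → Nat → Nat → Nat → Nat → Nat → Nat → Nat → Nat → Nat → Nat → Nat → Nat → Nat →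
    Nat → Nat → Nat → Nat → Nat → Nat → Nat → Nat → Nat → Nat → Nat → Nat → Nat → Nat → Nat → Nat →
    Nat → Nat → Nat → Nat → Nat → Nat → Nat → Nat → Nat → Nat → Nat → Nat → Nat → Nat → Nat → Nat →
    Nat → Nat → Nat → Nat → Nat → Nat → Nat → Nat → Nat → Nat → Nat → Nat → Nat → Nat → Nat → Nat →
    Nat → Nat → Nat → Nat → Nat → Nat → Nat → Nat → Nat → Nat → Nat → Nat → Nat → Nat → Nat → Nat →
    Nat → Nat → Nat → Nat → Nat → Nat → Nat → Nat → Nat → Nat → Nat → Nat → Nat → Nat → Nat → Nat →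
    Nat → Nat → Nat → Nat → Nat → Nat → Nat → Nat → Nat → Nat → Nat → Nat → Nat → Nat → Nat → Nat →
    Nat → Nat → Nat → Nat → Nat → Nat → Nat → Nat → Nat → Nat → Nat → Nat → Nat → Nat → Nat → Nat →
    Nat → Nat → Nat → Nat → Nat → Nat → Nat → Nat → Nat → Nat → Nat → Nat → Nat → Nat → Nat → Nat →
    Nat → Nat → Nat → Nat → Nat → Nat → Nat → Nat → Nat → Nat → Nat → Nat → Nat → Nat → Nat → Nat →
    Nat → Nat → Nat → Nat → Nat → Nat → Nat → Nat → Nat → Nat → Nat → Nat → Nat → Nat → Nat → Nat →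
    Nat → Nat → Nat → Nat → Nat → Nat → Nat → Nat → Nat → Nat → Nat → Nat → Nat → Nat → Nat → Nat →
    Nat → Nat → Nat → Nat → Nat → Nat → Nat → Nat → Nat → Nat → Nat → Nat → Nat → Nat → Nat → Nat →
    Nat → Nat → Nat → Nat → Nat → Nat → Nat → Nat → Nat → Nat → Nat → Nat → Nat → Nat → Nat → Nat →
    Nat → Nat → Nat → Nat → Nat → Nat → Nat → Nat → Nat → Nat → Nat → Nat → Nat → Nat → Nat → Nat →
    Nat → Nat → Nat → Nat → Nat → Nat → Nat → Nat → Nat → Nat → Nat → Nat → Nat → Nat → Nat → Nat →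
    Nat → Nat → Nat → Nat → Nat → Nat → Nat → Nat → Nat → Nat → Nat → Nat → Nat → Nat → Nat → Nat →
    Nat → Nat → Nat → Nat → Nat → Nat → Nat → Nat → Nat → Nat → Nat → Nat → Nat → Nat → Nat → Nat →
    Nat → Nat → Nat → Nat → Nat → Nat → Nat → Nat → Nat → Nat → Nat → Nat → Nat → Nat → Nat → Nat →
    Nat → Nat → Nat → Nat → Nat → Nat → Nat → Nat → Nat → Nat → Nat → Nat → Nat → Nat → Nat → Nat →
    Nat → Nat → Nat → Nat → Nat → Nat → Nat → Nat → Nat → Nat → Nat → Nat → Nat → Nat → Nat → Nat →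
    Nat → Nat → Nat → Nat → Nat → Nat → Nat → Nat → Nat → Nat → Nat → Nat → Nat → Nat → Nat → Nat →
    Nat → Nat → Nat → Nat → Nat → Nat → Nat → Nat → Nat → Nat → Nat → Nat → Nat → Nat → Nat → Nat →
    Nat → Nat → Bool)
  (
    x17 x23 x25 x35 x41 x43 x47 x49 x51 x59 x61 x65 x67 x69 x73 x75 x89 x95 x97 x101 x103 x105 x113
    x115 x119 x121 x123 x127 x129 x137 x139 x141 x145 x147 x153 x167 x169 x173 x175 x177 x181 x183
    x191 x193 x195 x199 x201 x207 x217 x219 x225 x251 x257 x259 x263 x265 x267 x275 x277 x281 x283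
    x285 x289 x291 x299 x301 x303 x307 x309 x315 x329 x331 x335 x337 x339 x343 x345 x353 x355 x357
    x361 x363 x369 x379 x381 x387 x407 x409 x411 x415 x417 x423 x433 x435 x441 x459 x491 x493 x497
    x499 x501 x505 x507 x515 x517 x519 x523 x525 x531 x541 x543 x549 x569 x571 x573 x577 x579 x585
    x595 x597 x603 x621 x649 x651 x657 x675 x737 x743 x745 x749 x751 x753 x761 x763 x767 x769 x771
    x775 x777 x785 x787 x789 x793 x795 x801 x815 x817 x821 x823 x825 x829 x831 x839 x841 x843 x847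
    x849 x855 x865 x867 x873 x893 x895 x897 x901 x903 x909 x919 x921 x927 x945 x977 x979 x983 x985
    x987 x991 x993 x1001 x1003 x1005 x1009 x1011 x1017 x1027 x1029 x1035 x1055 x1057 x1059 x1063
    x1065 x1071 x1081 x1083 x1089 x1107 x1135 x1137 x1143 x1161 x1217 x1219 x1221 x1225 x1227 x1233
    x1243 x1245 x1251 x1269 x1297 x1299 x1305 x1323 x1377 x1463 x1465 x1469 x1471 x1473 x1477 x1479
    x1487 x1489 x1491 x1495 x1497 x1503 x1513 x1515 x1521 x1541 x1543 x1545 x1549 x1551 x1557 x1567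
    x1569 x1575 x1593 x1621 x1623 x1629 x1647 x1703 x1705 x1707 x1711 x1713 x1719 x1729 x1731 x1737
    x1755 x1783 x1785 x1791 x1809 x1863 x1945 x1947 x1953 x1971 x2025 x2195 x2201 x2203 x2207 x2209
    x2211 x2219 x2221 x2225 x2227 x2229 x2233 x2235 x2243 x2245 x2247 x2251 x2253 x2259 x2273 x2275
    x2279 x2281 x2283 x2287 x2289 x2297 x2299 x2301 x2305 x2307 x2313 x2323 x2325 x2331 x2351 x2353
    x2355 x2359 x2361 x2367 x2377 x2379 x2385 x2403 x2435 x2437 x2441 x2443 x2445 x2449 x2451 x2459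
    x2461 x2463 x2467 x2469 x2475 x2485 x2487 x2493 x2513 x2515 x2517 x2521 x2523 x2529 x2539 x2541
    x2547 x2565 x2593 x2595 x2601 x2619 x2675 x2677 x2679 x2683 x2685 x2691 x2701 x2703 x2709 x2727
    x2755 x2757 x2763 x2781 x2835 x2921 x2923 x2927 x2929 x2931 x2935 x2937 x2945 x2947 x2949 x2953
    x2955 x2961 x2971 x2973 x2979 x2999 x3001 x3003 x3007 x3009 x3015 x3025 x3027 x3033 x3051 x3079
    x3081 x3087 x3105 x3161 x3163 x3165 x3169 x3171 x3177 x3187 x3189 x3195 x3213 x3241 x3243 x3249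
    x3267 x3321 x3403 x3405 x3411 x3429 x3483 x3647 x3649 x3651 x3655 x3657 x3663 x3673 x3675 x3681
    x3699 x3727 x3729 x3735 x3753 x3807 x3889 x3891 x3897 x3915 x3969 x4131 x4379 x4381 x4385 x4387
    x4389 x4393 x4395 x4403 x4405 x4407 x4411 x4413 x4419 x4429 x4431 x4437 x4457 x4459 x4461 x4465
    x4467 x4473 x4483 x4485 x4491 x4509 x4537 x4539 x4545 x4563 x4619 x4621 x4623 x4627 x4629 x4635
    x4645 x4647 x4653 x4671 x4699 x4701 x4707 x4725 x4779 x4861 x4863 x4869 x4887 x4941 x5105 x5107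
    x5109 x5113 x5115 x5121 x5131 x5133 x5139 x5157 x5185 x5187 x5193 x5211 x5265 x5347 x5349 x5355
    x5373 x5427 x5589 x5833 x5835 x5841 x5859 x5913 x6075 x6569 x6575 x6577 x6581 x6583 x6585 x6593
    x6595 x6599 x6601 x6603 x6607 x6609 x6617 x6619 x6621 x6625 x6627 x6633 x6647 x6649 x6653 x6655
    x6657 x6661 x6663 x6671 x6673 x6675 x6679 x6681 x6687 x6697 x6699 x6705 x6725 x6727 x6729 x6733
    x6735 x6741 x6751 x6753 x6759 x6777 x6809 x6811 x6815 x6817 x6819 x6823 x6825 x6833 x6835 x6837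
    x6841 x6843 x6849 x6859 x6861 x6867 x6887 x6889 x6891 x6895 x6897 x6903 x6913 x6915 x6921 x6939
    x6967 x6969 x6975 x6993 x7049 x7051 x7053 x7057 x7059 x7065 x7075 x7077 x7083 x7101 x7129 x7131
    x7137 x7155 x7209 x7295 x7297 x7301 x7303 x7305 x7309 x7311 x7319 x7321 x7323 x7327 x7329 x7335
    x7345 x7347 x7353 x7373 x7375 x7377 x7381 x7383 x7389 x7399 x7401 x7407 x7425 x7453 x7455 x7461
    x7479 x7535 x7537 x7539 x7543 x7545 x7551 x7561 x7563 x7569 x7587 x7615 x7617 x7623 x7641 x7695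
    x7777 x7779 x7785 x7803 x7857 x8021 x8023 x8025 x8029 x8031 x8037 x8047 x8049 x8055 x8073 x8101
    x8103 x8109 x8127 x8181 x8263 x8265 x8271 x8289 x8343 x8505 x8753 x8755 x8759 x8761 x8763 x8767
    x8769 x8777 x8779 x8781 x8785 x8787 x8793 x8803 x8805 x8811 x8831 x8833 x8835 x8839 x8841 x8847
    x8857 x8859 x8865 x8883 x8911 x8913 x8919 x8937 x8993 x8995 x8997 x9001 x9003 x9009 x9019 x9021
    x9027 x9045 x9073 x9075 x9081 x9099 x9153 x9235 x9237 x9243 x9261 x9315 x9479 x9481 x9483 x9487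
    x9489 x9495 x9505 x9507 x9513 x9531 x9559 x9561 x9567 x9585 x9639 x9721 x9723 x9729 x9747 x9801
    x9963 x10207 x10209 x10215 x10233 x10287 x10449 x10937 x10939 x10941 x10945 x10947 x10953
    x10963 x10965 x10971 x10989 x11017 x11019 x11025 x11043 x11097 x11179 x11181 x11187 x11205
    x11259 x11421 x11665 x11667 x11673 x11691 x11745 x11907 x12393 x13127 x13129 x13133 x13135
    x13137 x13141 x13143 x13151 x13153 x13155 x13159 x13161 x13167 x13177 x13179 x13185 x13205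
    x13207 x13209 x13213 x13215 x13221 x13231 x13233 x13239 x13257 x13285 x13287 x13293 x13311
    x13367 x13369 x13371 x13375 x13377 x13383 x13393 x13395 x13401 x13419 x13447 x13449 x13455
    x13473 x13527 x13609 x13611 x13617 x13635 x13689 x13853 x13855 x13857 x13861 x13863 x13869
    x13879 x13881 x13887 x13905 x13933 x13935 x13941 x13959 x14013 x14095 x14097 x14103 x14121
    x14175 x14337 x14581 x14583 x14589 x14607 x14661 x14823 x15311 x15313 x15315 x15319 x15321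
    x15327 x15337 x15339 x15345 x15363 x15391 x15393 x15399 x15417 x15471 x15553 x15555 x15561
    x15579 x15633 x15795 x16039 x16041 x16047 x16065 x16119 x16281 x16767 x17497 x17499 x17505
    x17523 x17577 x17739 x18225 : Nat) : Bool :=
  k
    (Nat.sub (Nat.add (Nat.add (Nat.add (Nat.add (Nat.add C (Nat.mul x17 (nat_lit 5))) x35) x23) x6577) (Nat.mul (e (nat_lit 17)) ap)) (Nat.mul (e (nat_lit 17)) an))
    (Nat.sub (Nat.add (Nat.add (Nat.add (Nat.add (Nat.add (Nat.add C (Nat.mul x23 (nat_lit 3))) x41) x17) x25) x6583) (Nat.mul (e (nat_lit 23)) ap)) (Nat.mul (e (nat_lit 23)) an))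
    (Nat.add (Nat.add (Nat.add (Nat.add C (Nat.mul x25 (nat_lit 5))) x43) x23) x6585)
    (Nat.sub (Nat.add (Nat.add (Nat.add (Nat.add (Nat.add (Nat.add C (Nat.mul x35 (nat_lit 3))) x89) x17) x41) x6595) (Nat.mul (e (nat_lit 35)) ap)) (Nat.mul (e (nat_lit 35)) an))
    (Nat.sub (Nat.add (Nat.add (Nat.add (Nat.add (Nat.add (Nat.add (Nat.add (Nat.add (Nat.add C (Nat.mul x41 (nat_lit 3))) x95) x23) x59) x35) x47) x43) x6601) (Nat.mul (e (nat_lit 41)) ap)) (Nat.mul (e (nat_lit 41)) an))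
    (Nat.sub (Nat.add (Nat.add (Nat.add (Nat.add (Nat.add (Nat.add (Nat.add (Nat.add C (Nat.mul x43 (nat_lit 4))) x97) x25) x61) x49) x41) x6603) (Nat.mul (e (nat_lit 43)) ap)) (Nat.mul (e (nat_lit 43)) an))
    (Nat.sub (Nat.add (Nat.add (Nat.add (Nat.add (Nat.add (Nat.add (Nat.add C x47) x101) x65) x41) x49) x6607) (Nat.mul (e (nat_lit 47)) ap)) (Nat.mul (e (nat_lit 47)) an))
    (Nat.add (Nat.add (Nat.add (Nat.add (Nat.add (Nat.add (Nat.add C (Nat.mul x49 (nat_lit 4))) x103) x67) x43) x47) x51) x6609)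
    (Nat.add (Nat.add (Nat.add (Nat.add C (Nat.mul x51 (nat_lit 5))) x105) x69) x49)
    (Nat.sub (Nat.add (Nat.add (Nat.add (Nat.add (Nat.add (Nat.add (Nat.add C x59) x113) x41) x65) x61) x6619) (Nat.mul (e (nat_lit 59)) ap)) (Nat.mul (e (nat_lit 59)) an))
    (Nat.add (Nat.add (Nat.add (Nat.add (Nat.add (Nat.add C x61) x115) x43) x67) x59) x6621)
    (Nat.add (Nat.add (Nat.add (Nat.add (Nat.add (Nat.add C x65) x119) x47) x59) x67) x6625)
    (Nat.add (Nat.add (Nat.add (Nat.add (Nat.add (Nat.add (Nat.add (Nat.add C (Nat.mul x67 (nat_lit 3))) x121) x49) x61) x73) x65) x69) x6627)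
    (Nat.add (Nat.add (Nat.add (Nat.add (Nat.add C (Nat.mul x69 (nat_lit 3))) x123) x51) x75) x67)
    (Nat.add (Nat.add (Nat.add (Nat.add (Nat.add C (Nat.mul x73 (nat_lit 3))) x127) x67) x75) x6633)
    (Nat.add (Nat.add (Nat.add (Nat.add C (Nat.mul x75 (nat_lit 5))) x129) x69) x73)
    (Nat.sub (Nat.add (Nat.add (Nat.add (Nat.add (Nat.add (Nat.add C (Nat.mul x89 (nat_lit 3))) x251) x35) x95) x6649) (Nat.mul (e (nat_lit 89)) ap)) (Nat.mul (e (nat_lit 89)) an))
    (Nat.sub (Nat.add (Nat.add (Nat.add (Nat.add (Nat.add (Nat.add (Nat.add (Nat.add (Nat.add C (Nat.mul x95 (nat_lit 2))) x257) x41) x113) x89) x101) x97) x6655) (Nat.mul (e (nat_lit 95)) ap)) (Nat.mul (e (nat_lit 95)) an))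
    (Nat.sub (Nat.add (Nat.add (Nat.add (Nat.add (Nat.add (Nat.add (Nat.add (Nat.add C (Nat.mul x97 (nat_lit 3))) x259) x43) x115) x103) x95) x6657) (Nat.mul (e (nat_lit 97)) ap)) (Nat.mul (e (nat_lit 97)) an))
    (Nat.sub (Nat.sub (Nat.add (Nat.add (Nat.add (Nat.add (Nat.add (Nat.add (Nat.add C x263) x47) x119) x95) x103) x6661) (Nat.mul (e (nat_lit 101)) ap)) x101) (Nat.mul (e (nat_lit 101)) an))
    (Nat.sub (Nat.add (Nat.add (Nat.add (Nat.add (Nat.add (Nat.add (Nat.add (Nat.add (Nat.add C (Nat.mul x103 (nat_lit 2))) x265) x49) x121) x97) x101) x105) x6663) (Nat.mul (e (nat_lit 103)) ap)) (Nat.mul (e (nat_lit 103)) an))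
    (Nat.add (Nat.add (Nat.add (Nat.add (Nat.add C (Nat.mul x105 (nat_lit 3))) x267) x51) x123) x103)
    (Nat.sub (Nat.add (Nat.add (Nat.add (Nat.add (Nat.add (Nat.add (Nat.add (Nat.add (Nat.add C (Nat.mul x113 (nat_lit 2))) x275) x59) x167) x95) x119) x115) x6673) (Nat.mul (e (nat_lit 113)) ap)) (Nat.mul (e (nat_lit 113)) an))
    (Nat.sub (Nat.add (Nat.add (Nat.add (Nat.add (Nat.add (Nat.add (Nat.add (Nat.add (Nat.add C (Nat.mul x115 (nat_lit 2))) x277) x61) x169) x97) x121) x113) x6675) (Nat.mul (e (nat_lit 115)) ap)) (Nat.mul (e (nat_lit 115)) an))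
    (Nat.sub (Nat.add (Nat.add (Nat.add (Nat.add (Nat.add (Nat.add (Nat.add (Nat.add (Nat.add (Nat.add C x119) x281) x65) x173) x101) x137) x113) x121) x6679) (Nat.mul (e (nat_lit 119)) ap)) (Nat.mul (e (nat_lit 119)) an))
    (Nat.sub (Nat.add (Nat.add (Nat.add (Nat.add (Nat.add (Nat.add (Nat.add (Nat.add (Nat.add (Nat.add (Nat.add (Nat.add C (Nat.mul x121 (nat_lit 3))) x283) x67) x175) x103) x139) x115) x127) x119) x123) x6681) (Nat.mul (e (nat_lit 121)) ap)) (Nat.mul (e (nat_lit 121)) an))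
    (Nat.add (Nat.add (Nat.add (Nat.add (Nat.add (Nat.add (Nat.add (Nat.add C (Nat.mul x123 (nat_lit 3))) x285) x69) x177) x105) x141) x129) x121)
    (Nat.add (Nat.add (Nat.add (Nat.add (Nat.add (Nat.add (Nat.add (Nat.add C (Nat.mul x127 (nat_lit 2))) x289) x73) x181) x145) x121) x129) x6687)
    (Nat.add (Nat.add (Nat.add (Nat.add (Nat.add (Nat.add (Nat.add C (Nat.mul x129 (nat_lit 4))) x291) x75) x183) x147) x123) x127)
    (Nat.sub (Nat.add (Nat.add (Nat.add (Nat.add (Nat.add (Nat.add (Nat.add C x137) x299) x191) x119) x139) x6697) (Nat.mul (e (nat_lit 137)) ap)) (Nat.mul (e (nat_lit 137)) an))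
    (Nat.add (Nat.add (Nat.add (Nat.add (Nat.add (Nat.add (Nat.add (Nat.add C (Nat.mul x139 (nat_lit 2))) x301) x193) x121) x145) x137) x141) x6699)
    (Nat.add (Nat.add (Nat.add (Nat.add (Nat.add (Nat.add C x141) x303) x195) x123) x147) x139)
    (Nat.add (Nat.add (Nat.add (Nat.add (Nat.add (Nat.add (Nat.add C (Nat.mul x145 (nat_lit 3))) x307) x199) x127) x139) x147) x6705)
    (Nat.add (Nat.add (Nat.add (Nat.add (Nat.add (Nat.add (Nat.add C (Nat.mul x147 (nat_lit 4))) x309) x201) x129) x141) x153) x145)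
    (Nat.add (Nat.add (Nat.add (Nat.add C (Nat.mul x153 (nat_lit 5))) x315) x207) x147)
    (Nat.sub (Nat.add (Nat.add (Nat.add (Nat.add (Nat.add (Nat.add (Nat.add C x167) x329) x113) x173) x169) x6727) (Nat.mul (e (nat_lit 167)) ap)) (Nat.mul (e (nat_lit 167)) an))
    (Nat.add (Nat.add (Nat.add (Nat.add (Nat.add (Nat.add C x169) x331) x115) x175) x167) x6729)
    (Nat.sub (Nat.sub (Nat.add (Nat.add (Nat.add (Nat.add (Nat.add (Nat.add (Nat.add C x335) x119) x191) x167) x175) x6733) (Nat.mul (e (nat_lit 173)) ap)) x173) (Nat.mul (e (nat_lit 173)) an))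
    (Nat.add (Nat.add (Nat.add (Nat.add (Nat.add (Nat.add (Nat.add (Nat.add (Nat.add C x175) x337) x121) x193) x169) x181) x173) x177) x6735)
    (Nat.add (Nat.add (Nat.add (Nat.add (Nat.add (Nat.add C x177) x339) x123) x195) x183) x175)
    (Nat.sub (Nat.add (Nat.add (Nat.add (Nat.add (Nat.add (Nat.add C x343) x127) x199) x175) x183) x6741) x181)
    (Nat.add (Nat.add (Nat.add (Nat.add (Nat.add (Nat.add C x183) x345) x129) x201) x177) x181)
    (Nat.add (Nat.add (Nat.add (Nat.add (Nat.add (Nat.add C x191) x353) x137) x173) x193) x6751)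
    (Nat.add (Nat.add (Nat.add (Nat.add (Nat.add (Nat.add (Nat.add (Nat.add C (Nat.mul x193 (nat_lit 2))) x355) x139) x175) x199) x191) x195) x6753)
    (Nat.add (Nat.add (Nat.add (Nat.add (Nat.add (Nat.add C x195) x357) x141) x177) x201) x193)
    (Nat.add (Nat.add (Nat.add (Nat.add (Nat.add (Nat.add (Nat.add (Nat.add C (Nat.mul x199 (nat_lit 2))) x361) x145) x181) x217) x193) x201) x6759)
    (Nat.add (Nat.add (Nat.add (Nat.add (Nat.add (Nat.add (Nat.add (Nat.add C (Nat.mul x201 (nat_lit 3))) x363) x147) x183) x219) x195) x207) x199)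
    (Nat.add (Nat.add (Nat.add (Nat.add (Nat.add C (Nat.mul x207 (nat_lit 3))) x369) x153) x225) x201)
    (Nat.add (Nat.add (Nat.add (Nat.add (Nat.add C (Nat.mul x217 (nat_lit 3))) x379) x199) x219) x6777)
    (Nat.add (Nat.add (Nat.add (Nat.add (Nat.add C (Nat.mul x219 (nat_lit 3))) x381) x201) x225) x217)
    (Nat.add (Nat.add (Nat.add (Nat.add C (Nat.mul x225 (nat_lit 5))) x387) x207) x219)
    (Nat.sub (Nat.add (Nat.add (Nat.add (Nat.add (Nat.add (Nat.add C (Nat.mul x251 (nat_lit 3))) x737) x89) x257) x6811) (Nat.mul (e (nat_lit 251)) ap)) (Nat.mul (e (nat_lit 251)) an))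
    (Nat.sub (Nat.add (Nat.add (Nat.add (Nat.add (Nat.add (Nat.add (Nat.add (Nat.add (Nat.add C (Nat.mul x257 (nat_lit 2))) x743) x95) x275) x251) x263) x259) x6817) (Nat.mul (e (nat_lit 257)) ap)) (Nat.mul (e (nat_lit 257)) an))
    (Nat.sub (Nat.add (Nat.add (Nat.add (Nat.add (Nat.add (Nat.add (Nat.add (Nat.add C (Nat.mul x259 (nat_lit 3))) x745) x97) x277) x265) x257) x6819) (Nat.mul (e (nat_lit 259)) ap)) (Nat.mul (e (nat_lit 259)) an))
    (Nat.sub (Nat.sub (Nat.add (Nat.add (Nat.add (Nat.add (Nat.add (Nat.add (Nat.add C x749) x101) x281) x257) x265) x6823) (Nat.mul (e (nat_lit 263)) ap)) x263) (Nat.mul (e (nat_lit 263)) an))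
    (Nat.sub (Nat.add (Nat.add (Nat.add (Nat.add (Nat.add (Nat.add (Nat.add (Nat.add (Nat.add C (Nat.mul x265 (nat_lit 2))) x751) x103) x283) x259) x263) x267) x6825) (Nat.mul (e (nat_lit 265)) ap)) (Nat.mul (e (nat_lit 265)) an))
    (Nat.add (Nat.add (Nat.add (Nat.add (Nat.add C (Nat.mul x267 (nat_lit 3))) x753) x105) x285) x265)
    (Nat.sub (Nat.add (Nat.add (Nat.add (Nat.add (Nat.add (Nat.add (Nat.add (Nat.add (Nat.add C x275) x761) x113) x329) x257) x281) x277) x6835) (Nat.mul (e (nat_lit 275)) ap)) (Nat.mul (e (nat_lit 275)) an))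
    (Nat.sub (Nat.add (Nat.add (Nat.add (Nat.add (Nat.add (Nat.add (Nat.add (Nat.add (Nat.add C x277) x763) x115) x331) x259) x283) x275) x6837) (Nat.mul (e (nat_lit 277)) ap)) (Nat.mul (e (nat_lit 277)) an))
    (Nat.sub (Nat.add (Nat.add (Nat.add (Nat.add (Nat.add (Nat.add (Nat.add (Nat.add (Nat.add C x767) x119) x335) x263) x299) x275) x283) x6841) (Nat.mul (e (nat_lit 281)) ap)) (Nat.mul (e (nat_lit 281)) an))
    (Nat.sub (Nat.add (Nat.add (Nat.add (Nat.add (Nat.add (Nat.add (Nat.add (Nat.add (Nat.add (Nat.add (Nat.add (Nat.add C (Nat.mul x283 (nat_lit 2))) x769) x121) x337) x265) x301) x277) x289) x281) x285) x6843) (Nat.mul (e (nat_lit 283)) ap)) (Nat.mul (e (nat_lit 283)) an))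
    (Nat.add (Nat.add (Nat.add (Nat.add (Nat.add (Nat.add (Nat.add (Nat.add C (Nat.mul x285 (nat_lit 2))) x771) x123) x339) x267) x303) x291) x283)
    (Nat.sub (Nat.add (Nat.add (Nat.add (Nat.add (Nat.add (Nat.add (Nat.add (Nat.add (Nat.add C x289) x775) x127) x343) x307) x283) x291) x6849) (Nat.mul (e (nat_lit 289)) ap)) (Nat.mul (e (nat_lit 289)) an))
    (Nat.add (Nat.add (Nat.add (Nat.add (Nat.add (Nat.add (Nat.add C (Nat.mul x291 (nat_lit 3))) x777) x129) x345) x309) x285) x289)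
    (Nat.sub (Nat.sub (Nat.add (Nat.add (Nat.add (Nat.add (Nat.add (Nat.add (Nat.add C x785) x137) x353) x281) x301) x6859) (Nat.mul (e (nat_lit 299)) ap)) x299) (Nat.mul (e (nat_lit 299)) an))
    (Nat.sub (Nat.add (Nat.add (Nat.add (Nat.add (Nat.add (Nat.add (Nat.add (Nat.add (Nat.add C x787) x139) x355) x283) x307) x299) x303) x6861) (Nat.mul (e (nat_lit 301)) ap)) (Nat.mul (e (nat_lit 301)) an))
    (Nat.sub (Nat.add (Nat.add (Nat.add (Nat.add (Nat.add (Nat.add C x789) x141) x357) x285) x309) x301) x303)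
    (Nat.add (Nat.add (Nat.add (Nat.add (Nat.add (Nat.add (Nat.add (Nat.add C x307) x793) x145) x361) x289) x301) x309) x6867)
    (Nat.add (Nat.add (Nat.add (Nat.add (Nat.add (Nat.add (Nat.add (Nat.add C (Nat.mul x309 (nat_lit 2))) x795) x147) x363) x291) x303) x315) x307)
    (Nat.add (Nat.add (Nat.add (Nat.add (Nat.add C (Nat.mul x315 (nat_lit 3))) x801) x153) x369) x309)
    (Nat.sub (Nat.add (Nat.add (Nat.add (Nat.add (Nat.add (Nat.add (Nat.add (Nat.add (Nat.add C (Nat.mul x329 (nat_lit 2))) x815) x167) x491) x275) x335) x331) x6889) (Nat.mul (e (nat_lit 329)) ap)) (Nat.mul (e (nat_lit 329)) an))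
    (Nat.sub (Nat.add (Nat.add (Nat.add (Nat.add (Nat.add (Nat.add (Nat.add (Nat.add (Nat.add C (Nat.mul x331 (nat_lit 2))) x817) x169) x493) x277) x337) x329) x6891) (Nat.mul (e (nat_lit 331)) ap)) (Nat.mul (e (nat_lit 331)) an))
    (Nat.sub (Nat.add (Nat.add (Nat.add (Nat.add (Nat.add (Nat.add (Nat.add (Nat.add (Nat.add C x821) x173) x497) x281) x353) x329) x337) x6895) (Nat.mul (e (nat_lit 335)) ap)) (Nat.mul (e (nat_lit 335)) an))
    (Nat.sub (Nat.add (Nat.add (Nat.add (Nat.add (Nat.add (Nat.add (Nat.add (Nat.add (Nat.add (Nat.add (Nat.add (Nat.add C (Nat.mul x337 (nat_lit 2))) x823) x175) x499) x283) x355) x331) x343) x335) x339) x6897) (Nat.mul (e (nat_lit 337)) ap)) (Nat.mul (e (nat_lit 337)) an))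
    (Nat.add (Nat.add (Nat.add (Nat.add (Nat.add (Nat.add (Nat.add (Nat.add C (Nat.mul x339 (nat_lit 2))) x825) x177) x501) x285) x357) x345) x337)
    (Nat.add (Nat.add (Nat.add (Nat.add (Nat.add (Nat.add (Nat.add (Nat.add C x829) x181) x505) x289) x361) x337) x345) x6903)
    (Nat.add (Nat.add (Nat.add (Nat.add (Nat.add (Nat.add (Nat.add (Nat.add C (Nat.mul x345 (nat_lit 2))) x831) x183) x507) x291) x363) x339) x343)
    (Nat.sub (Nat.add (Nat.add (Nat.add (Nat.add (Nat.add (Nat.add (Nat.add (Nat.add (Nat.add (Nat.add C x353) x839) x191) x515) x299) x407) x335) x355) x6913) (Nat.mul (e (nat_lit 353)) ap)) (Nat.mul (e (nat_lit 353)) an))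
    (Nat.add (Nat.add (Nat.add (Nat.add (Nat.add (Nat.add (Nat.add (Nat.add (Nat.add (Nat.add (Nat.add C (Nat.mul x355 (nat_lit 2))) x841) x193) x517) x301) x409) x337) x361) x353) x357) x6915)
    (Nat.add (Nat.add (Nat.add (Nat.add (Nat.add (Nat.add (Nat.add (Nat.add (Nat.add C x357) x843) x195) x519) x303) x411) x339) x363) x355)
    (Nat.add (Nat.add (Nat.add (Nat.add (Nat.add (Nat.add (Nat.add (Nat.add (Nat.add (Nat.add (Nat.add C (Nat.mul x361 (nat_lit 2))) x847) x199) x523) x307) x415) x343) x379) x355) x363) x6921)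
    (Nat.add (Nat.add (Nat.add (Nat.add (Nat.add (Nat.add (Nat.add (Nat.add (Nat.add (Nat.add (Nat.add C (Nat.mul x363 (nat_lit 3))) x849) x201) x525) x309) x417) x345) x381) x357) x369) x361)
    (Nat.add (Nat.add (Nat.add (Nat.add (Nat.add (Nat.add (Nat.add (Nat.add C (Nat.mul x369 (nat_lit 3))) x855) x207) x531) x315) x423) x387) x363)
    (Nat.add (Nat.add (Nat.add (Nat.add (Nat.add (Nat.add (Nat.add (Nat.add C (Nat.mul x379 (nat_lit 2))) x865) x217) x541) x433) x361) x381) x6939)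
    (Nat.add (Nat.add (Nat.add (Nat.add (Nat.add (Nat.add (Nat.add (Nat.add C (Nat.mul x381 (nat_lit 2))) x867) x219) x543) x435) x363) x387) x379)
    (Nat.add (Nat.add (Nat.add (Nat.add (Nat.add (Nat.add (Nat.add C (Nat.mul x387 (nat_lit 4))) x873) x225) x549) x441) x369) x381)
    (Nat.sub (Nat.add (Nat.add (Nat.add (Nat.add (Nat.add (Nat.add (Nat.add C x407) x893) x569) x353) x409) x6967) (Nat.mul (e (nat_lit 407)) ap)) (Nat.mul (e (nat_lit 407)) an))
    (Nat.add (Nat.add (Nat.add (Nat.add (Nat.add (Nat.add (Nat.add (Nat.add C (Nat.mul x409 (nat_lit 2))) x895) x571) x355) x415) x407) x411) x6969)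
    (Nat.add (Nat.add (Nat.add (Nat.add (Nat.add (Nat.add C x411) x897) x573) x357) x417) x409)
    (Nat.add (Nat.add (Nat.add (Nat.add (Nat.add (Nat.add (Nat.add (Nat.add C x415) x901) x577) x361) x433) x409) x417) x6975)
    (Nat.add (Nat.add (Nat.add (Nat.add (Nat.add (Nat.add (Nat.add (Nat.add C (Nat.mul x417 (nat_lit 2))) x903) x579) x363) x435) x411) x423) x415)
    (Nat.add (Nat.add (Nat.add (Nat.add (Nat.add (Nat.add C x423) x909) x585) x369) x441) x417)
    (Nat.add (Nat.add (Nat.add (Nat.add (Nat.add (Nat.add (Nat.add C (Nat.mul x433 (nat_lit 3))) x919) x595) x379) x415) x435) x6993)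
    (Nat.add (Nat.add (Nat.add (Nat.add (Nat.add (Nat.add (Nat.add C (Nat.mul x435 (nat_lit 3))) x921) x597) x381) x417) x441) x433)
    (Nat.add (Nat.add (Nat.add (Nat.add (Nat.add (Nat.add (Nat.add C (Nat.mul x441 (nat_lit 4))) x927) x603) x387) x423) x459) x435)
    (Nat.add (Nat.add (Nat.add (Nat.add C (Nat.mul x459 (nat_lit 5))) x945) x621) x441)
    (Nat.add (Nat.add (Nat.add (Nat.add (Nat.add (Nat.add C x491) x977) x329) x497) x493) x7051)
    (Nat.add (Nat.add (Nat.add (Nat.add (Nat.add (Nat.add C x493) x979) x331) x499) x491) x7053)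
    (Nat.sub (Nat.sub (Nat.add (Nat.add (Nat.add (Nat.add (Nat.add (Nat.add (Nat.add C x983) x335) x515) x491) x499) x7057) (Nat.mul (e (nat_lit 497)) ap)) x497) (Nat.mul (e (nat_lit 497)) an))
    (Nat.add (Nat.add (Nat.add (Nat.add (Nat.add (Nat.add (Nat.add (Nat.add (Nat.add C x499) x985) x337) x517) x493) x505) x497) x501) x7059)
    (Nat.add (Nat.add (Nat.add (Nat.add (Nat.add (Nat.add C x501) x987) x339) x519) x507) x499)
    (Nat.sub (Nat.add (Nat.add (Nat.add (Nat.add (Nat.add (Nat.add C x991) x343) x523) x499) x507) x7065) x505)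
    (Nat.add (Nat.add (Nat.add (Nat.add (Nat.add (Nat.add C x507) x993) x345) x525) x501) x505)
    (Nat.sub (Nat.add (Nat.add (Nat.add (Nat.add (Nat.add (Nat.add C x1001) x353) x569) x497) x517) x7075) x515)
    (Nat.add (Nat.add (Nat.add (Nat.add (Nat.add (Nat.add (Nat.add (Nat.add C x1003) x355) x571) x499) x523) x515) x519) x7077)
    (Nat.sub (Nat.add (Nat.add (Nat.add (Nat.add (Nat.add (Nat.add C x1005) x357) x573) x501) x525) x517) x519)
    (Nat.add (Nat.add (Nat.add (Nat.add (Nat.add (Nat.add (Nat.add (Nat.add C x1009) x361) x577) x505) x541) x517) x525) x7083)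
    (Nat.add (Nat.add (Nat.add (Nat.add (Nat.add (Nat.add (Nat.add (Nat.add (Nat.add C x525) x1011) x363) x579) x507) x543) x519) x531) x523)
    (Nat.add (Nat.add (Nat.add (Nat.add (Nat.add (Nat.add C x531) x1017) x369) x585) x549) x525)
    (Nat.sub (Nat.add (Nat.add (Nat.add (Nat.add (Nat.add (Nat.add C x1027) x379) x595) x523) x543) x7101) x541)
    (Nat.sub (Nat.add (Nat.add (Nat.add (Nat.add (Nat.add (Nat.add C x1029) x381) x597) x525) x549) x541) x543)
    (Nat.add (Nat.add (Nat.add (Nat.add (Nat.add (Nat.add C x549) x1035) x387) x603) x531) x543)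
    (Nat.add (Nat.add (Nat.add (Nat.add (Nat.add (Nat.add C x569) x1055) x407) x515) x571) x7129)
    (Nat.add (Nat.add (Nat.add (Nat.add (Nat.add (Nat.add (Nat.add (Nat.add C (Nat.mul x571 (nat_lit 2))) x1057) x409) x517) x577) x569) x573) x7131)
    (Nat.add (Nat.add (Nat.add (Nat.add (Nat.add (Nat.add C x573) x1059) x411) x519) x579) x571)
    (Nat.add (Nat.add (Nat.add (Nat.add (Nat.add (Nat.add (Nat.add (Nat.add C x577) x1063) x415) x523) x595) x571) x579) x7137)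
    (Nat.add (Nat.add (Nat.add (Nat.add (Nat.add (Nat.add (Nat.add (Nat.add C (Nat.mul x579 (nat_lit 2))) x1065) x417) x525) x597) x573) x585) x577)
    (Nat.add (Nat.add (Nat.add (Nat.add (Nat.add (Nat.add C x585) x1071) x423) x531) x603) x579)
    (Nat.add (Nat.add (Nat.add (Nat.add (Nat.add (Nat.add (Nat.add (Nat.add C (Nat.mul x595 (nat_lit 2))) x1081) x433) x541) x649) x577) x597) x7155)
    (Nat.add (Nat.add (Nat.add (Nat.add (Nat.add (Nat.add (Nat.add (Nat.add C (Nat.mul x597 (nat_lit 2))) x1083) x435) x543) x651) x579) x603) x595)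
    (Nat.add (Nat.add (Nat.add (Nat.add (Nat.add (Nat.add (Nat.add (Nat.add C (Nat.mul x603 (nat_lit 3))) x1089) x441) x549) x657) x585) x621) x597)
    (Nat.add (Nat.add (Nat.add (Nat.add (Nat.add C (Nat.mul x621 (nat_lit 3))) x1107) x459) x675) x603)
    (Nat.add (Nat.add (Nat.add (Nat.add (Nat.add C (Nat.mul x649 (nat_lit 3))) x1135) x595) x651) x7209)
    (Nat.add (Nat.add (Nat.add (Nat.add (Nat.add C (Nat.mul x651 (nat_lit 3))) x1137) x597) x657) x649)
    (Nat.add (Nat.add (Nat.add (Nat.add (Nat.add C (Nat.mul x657 (nat_lit 3))) x1143) x603) x675) x651)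
    (Nat.add (Nat.add (Nat.add (Nat.add C (Nat.mul x675 (nat_lit 5))) x1161) x621) x657)
    (Nat.add (Nat.add (Nat.add (Nat.add (Nat.add C (Nat.mul x737 (nat_lit 3))) x2195) x251) x743) x7297)
    (Nat.add (Nat.add (Nat.add (Nat.add (Nat.add (Nat.add (Nat.add (Nat.add C (Nat.mul x743 (nat_lit 2))) x2201) x257) x761) x737) x749) x745) x7303)
    (Nat.add (Nat.add (Nat.add (Nat.add (Nat.add (Nat.add (Nat.add C (Nat.mul x745 (nat_lit 3))) x2203) x259) x763) x751) x743) x7305)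
    (Nat.sub (Nat.add (Nat.add (Nat.add (Nat.add (Nat.add (Nat.add C x2207) x263) x767) x743) x751) x7309) x749)
    (Nat.add (Nat.add (Nat.add (Nat.add (Nat.add (Nat.add (Nat.add (Nat.add C (Nat.mul x751 (nat_lit 2))) x2209) x265) x769) x745) x749) x753) x7311)
    (Nat.add (Nat.add (Nat.add (Nat.add (Nat.add C (Nat.mul x753 (nat_lit 3))) x2211) x267) x771) x751)
    (Nat.sub (Nat.add (Nat.add (Nat.add (Nat.add (Nat.add (Nat.add (Nat.add (Nat.add (Nat.add C x761) x2219) x275) x815) x743) x767) x763) x7321) (Nat.mul (e (nat_lit 761)) ap)) (Nat.mul (e (nat_lit 761)) an))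
    (Nat.sub (Nat.add (Nat.add (Nat.add (Nat.add (Nat.add (Nat.add (Nat.add (Nat.add (Nat.add C x763) x2221) x277) x817) x745) x769) x761) x7323) (Nat.mul (e (nat_lit 763)) ap)) (Nat.mul (e (nat_lit 763)) an))
    (Nat.sub (Nat.add (Nat.add (Nat.add (Nat.add (Nat.add (Nat.add (Nat.add (Nat.add (Nat.add C x2225) x281) x821) x749) x785) x761) x769) x7327) (Nat.mul (e (nat_lit 767)) ap)) (Nat.mul (e (nat_lit 767)) an))
    (Nat.sub (Nat.add (Nat.add (Nat.add (Nat.add (Nat.add (Nat.add (Nat.add (Nat.add (Nat.add (Nat.add (Nat.add (Nat.add C (Nat.mul x769 (nat_lit 2))) x2227) x283) x823) x751) x787) x763) x775) x767) x771) x7329) (Nat.mul (e (nat_lit 769)) ap)) (Nat.mul (e (nat_lit 769)) an))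
    (Nat.add (Nat.add (Nat.add (Nat.add (Nat.add (Nat.add (Nat.add (Nat.add C (Nat.mul x771 (nat_lit 2))) x2229) x285) x825) x753) x789) x777) x769)
    (Nat.add (Nat.add (Nat.add (Nat.add (Nat.add (Nat.add (Nat.add (Nat.add C x775) x2233) x289) x829) x793) x769) x777) x7335)
    (Nat.add (Nat.add (Nat.add (Nat.add (Nat.add (Nat.add (Nat.add C (Nat.mul x777 (nat_lit 3))) x2235) x291) x831) x795) x771) x775)
    (Nat.sub (Nat.sub (Nat.add (Nat.add (Nat.add (Nat.add (Nat.add (Nat.add (Nat.add C x2243) x299) x839) x767) x787) x7345) (Nat.mul (e (nat_lit 785)) ap)) x785) (Nat.mul (e (nat_lit 785)) an))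
    (Nat.add (Nat.add (Nat.add (Nat.add (Nat.add (Nat.add (Nat.add (Nat.add C x2245) x301) x841) x769) x793) x785) x789) x7347)
    (Nat.sub (Nat.add (Nat.add (Nat.add (Nat.add (Nat.add (Nat.add C x2247) x303) x843) x771) x795) x787) x789)
    (Nat.add (Nat.add (Nat.add (Nat.add (Nat.add (Nat.add (Nat.add (Nat.add C x793) x2251) x307) x847) x775) x787) x795) x7353)
    (Nat.add (Nat.add (Nat.add (Nat.add (Nat.add (Nat.add (Nat.add (Nat.add C (Nat.mul x795 (nat_lit 2))) x2253) x309) x849) x777) x789) x801) x793)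
    (Nat.add (Nat.add (Nat.add (Nat.add (Nat.add C (Nat.mul x801 (nat_lit 3))) x2259) x315) x855) x795)
    (Nat.sub (Nat.add (Nat.add (Nat.add (Nat.add (Nat.add (Nat.add (Nat.add (Nat.add (Nat.add C x815) x2273) x329) x977) x761) x821) x817) x7375) (Nat.mul (e (nat_lit 815)) ap)) (Nat.mul (e (nat_lit 815)) an))
    (Nat.add (Nat.add (Nat.add (Nat.add (Nat.add (Nat.add (Nat.add (Nat.add C x817) x2275) x331) x979) x763) x823) x815) x7377)
    (Nat.sub (Nat.sub (Nat.add (Nat.add (Nat.add (Nat.add (Nat.add (Nat.add (Nat.add (Nat.add (Nat.add C x2279) x335) x983) x767) x839) x815) x823) x7381) (Nat.mul (e (nat_lit 821)) ap)) x821) (Nat.mul (e (nat_lit 821)) an))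
    (Nat.sub (Nat.add (Nat.add (Nat.add (Nat.add (Nat.add (Nat.add (Nat.add (Nat.add (Nat.add (Nat.add (Nat.add (Nat.add C x823) x2281) x337) x985) x769) x841) x817) x829) x821) x825) x7383) (Nat.mul (e (nat_lit 823)) ap)) (Nat.mul (e (nat_lit 823)) an))
    (Nat.add (Nat.add (Nat.add (Nat.add (Nat.add (Nat.add (Nat.add (Nat.add C x825) x2283) x339) x987) x771) x843) x831) x823)
    (Nat.sub (Nat.sub (Nat.add (Nat.add (Nat.add (Nat.add (Nat.add (Nat.add (Nat.add (Nat.add (Nat.add C x2287) x343) x991) x775) x847) x823) x831) x7389) (Nat.mul (e (nat_lit 829)) ap)) x829) (Nat.mul (e (nat_lit 829)) an))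
    (Nat.add (Nat.add (Nat.add (Nat.add (Nat.add (Nat.add (Nat.add (Nat.add C x831) x2289) x345) x993) x777) x849) x825) x829)
    (Nat.sub (Nat.add (Nat.add (Nat.add (Nat.add (Nat.add (Nat.add (Nat.add (Nat.add (Nat.add C x2297) x353) x1001) x785) x893) x821) x841) x7399) (Nat.mul (e (nat_lit 839)) ap)) (Nat.mul (e (nat_lit 839)) an))
    (Nat.sub (Nat.add (Nat.add (Nat.add (Nat.add (Nat.add (Nat.add (Nat.add (Nat.add (Nat.add (Nat.add (Nat.add (Nat.add C x841) x2299) x355) x1003) x787) x895) x823) x847) x839) x843) x7401) (Nat.mul (e (nat_lit 841)) ap)) (Nat.mul (e (nat_lit 841)) an))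
    (Nat.add (Nat.add (Nat.add (Nat.add (Nat.add (Nat.add (Nat.add (Nat.add C x2301) x357) x1005) x789) x897) x825) x849) x841)
    (Nat.sub (Nat.add (Nat.add (Nat.add (Nat.add (Nat.add (Nat.add (Nat.add (Nat.add (Nat.add (Nat.add (Nat.add (Nat.add C x847) x2305) x361) x1009) x793) x901) x829) x865) x841) x849) x7407) (Nat.mul (e (nat_lit 847)) ap)) (Nat.mul (e (nat_lit 847)) an))
    (Nat.add (Nat.add (Nat.add (Nat.add (Nat.add (Nat.add (Nat.add (Nat.add (Nat.add (Nat.add (Nat.add C (Nat.mul x849 (nat_lit 2))) x2307) x363) x1011) x795) x903) x831) x867) x843) x855) x847)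
    (Nat.add (Nat.add (Nat.add (Nat.add (Nat.add (Nat.add (Nat.add (Nat.add C (Nat.mul x855 (nat_lit 2))) x2313) x369) x1017) x801) x909) x873) x849)
    (Nat.add (Nat.add (Nat.add (Nat.add (Nat.add (Nat.add (Nat.add (Nat.add C x865) x2323) x379) x1027) x919) x847) x867) x7425)
    (Nat.add (Nat.add (Nat.add (Nat.add (Nat.add (Nat.add (Nat.add (Nat.add C x867) x2325) x381) x1029) x921) x849) x873) x865)
    (Nat.add (Nat.add (Nat.add (Nat.add (Nat.add (Nat.add (Nat.add C (Nat.mul x873 (nat_lit 3))) x2331) x387) x1035) x927) x855) x867)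
    (Nat.sub (Nat.add (Nat.add (Nat.add (Nat.add (Nat.add (Nat.add C x2351) x407) x1055) x839) x895) x7453) x893)
    (Nat.sub (Nat.add (Nat.add (Nat.add (Nat.add (Nat.add (Nat.add (Nat.add (Nat.add (Nat.add C x2353) x409) x1057) x841) x901) x893) x897) x7455) (Nat.mul (e (nat_lit 895)) ap)) (Nat.mul (e (nat_lit 895)) an))
    (Nat.sub (Nat.add (Nat.add (Nat.add (Nat.add (Nat.add (Nat.add C x2355) x411) x1059) x843) x903) x895) x897)
    (Nat.sub (Nat.add (Nat.add (Nat.add (Nat.add (Nat.add (Nat.add (Nat.add (Nat.add C x2359) x415) x1063) x847) x919) x895) x903) x7461) x901)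
    (Nat.add (Nat.add (Nat.add (Nat.add (Nat.add (Nat.add (Nat.add (Nat.add C x2361) x417) x1065) x849) x921) x897) x909) x901)
    (Nat.sub (Nat.add (Nat.add (Nat.add (Nat.add (Nat.add (Nat.add C x2367) x423) x1071) x855) x927) x903) x909)
    (Nat.add (Nat.add (Nat.add (Nat.add (Nat.add (Nat.add (Nat.add (Nat.add C x919) x2377) x433) x1081) x865) x901) x921) x7479)
    (Nat.add (Nat.add (Nat.add (Nat.add (Nat.add (Nat.add (Nat.add (Nat.add C x921) x2379) x435) x1083) x867) x903) x927) x919)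
    (Nat.add (Nat.add (Nat.add (Nat.add (Nat.add (Nat.add (Nat.add (Nat.add C (Nat.mul x927 (nat_lit 2))) x2385) x441) x1089) x873) x909) x945) x921)
    (Nat.add (Nat.add (Nat.add (Nat.add (Nat.add C (Nat.mul x945 (nat_lit 3))) x2403) x459) x1107) x927)
    (Nat.add (Nat.add (Nat.add (Nat.add (Nat.add (Nat.add (Nat.add (Nat.add C (Nat.mul x977 (nat_lit 2))) x2435) x491) x1463) x815) x983) x979) x7537)
    (Nat.add (Nat.add (Nat.add (Nat.add (Nat.add (Nat.add (Nat.add (Nat.add C (Nat.mul x979 (nat_lit 2))) x2437) x493) x1465) x817) x985) x977) x7539)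
    (Nat.add (Nat.add (Nat.add (Nat.add (Nat.add (Nat.add (Nat.add (Nat.add C x2441) x497) x1469) x821) x1001) x977) x985) x7543)
    (Nat.sub (Nat.add (Nat.add (Nat.add (Nat.add (Nat.add (Nat.add (Nat.add (Nat.add (Nat.add (Nat.add (Nat.add (Nat.add C (Nat.mul x985 (nat_lit 2))) x2443) x499) x1471) x823) x1003) x979) x991) x983) x987) x7545) (Nat.mul (e (nat_lit 985)) ap)) (Nat.mul (e (nat_lit 985)) an))
    (Nat.add (Nat.add (Nat.add (Nat.add (Nat.add (Nat.add (Nat.add (Nat.add C (Nat.mul x987 (nat_lit 2))) x2445) x501) x1473) x825) x1005) x993) x985)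
    (Nat.add (Nat.add (Nat.add (Nat.add (Nat.add (Nat.add (Nat.add (Nat.add C x2449) x505) x1477) x829) x1009) x985) x993) x7551)
    (Nat.add (Nat.add (Nat.add (Nat.add (Nat.add (Nat.add (Nat.add (Nat.add C (Nat.mul x993 (nat_lit 2))) x2451) x507) x1479) x831) x1011) x987) x991)
    (Nat.add (Nat.add (Nat.add (Nat.add (Nat.add (Nat.add (Nat.add (Nat.add C x2459) x515) x1487) x839) x1055) x983) x1003) x7561)
    (Nat.sub (Nat.add (Nat.add (Nat.add (Nat.add (Nat.add (Nat.add (Nat.add (Nat.add (Nat.add (Nat.add (Nat.add (Nat.add C x1003) x2461) x517) x1489) x841) x1057) x985) x1009) x1001) x1005) x7563) (Nat.mul (e (nat_lit 1003)) ap)) (Nat.mul (e (nat_lit 1003)) an))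
    (Nat.add (Nat.add (Nat.add (Nat.add (Nat.add (Nat.add (Nat.add (Nat.add C x2463) x519) x1491) x843) x1059) x987) x1011) x1003)
    (Nat.add (Nat.add (Nat.add (Nat.add (Nat.add (Nat.add (Nat.add (Nat.add (Nat.add (Nat.add (Nat.add C x1009) x2467) x523) x1495) x847) x1063) x991) x1027) x1003) x1011) x7569)
    (Nat.add (Nat.add (Nat.add (Nat.add (Nat.add (Nat.add (Nat.add (Nat.add (Nat.add (Nat.add (Nat.add C (Nat.mul x1011 (nat_lit 2))) x2469) x525) x1497) x849) x1065) x993) x1029) x1005) x1017) x1009)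
    (Nat.add (Nat.add (Nat.add (Nat.add (Nat.add (Nat.add (Nat.add (Nat.add C (Nat.mul x1017 (nat_lit 2))) x2475) x531) x1503) x855) x1071) x1035) x1011)
    (Nat.add (Nat.add (Nat.add (Nat.add (Nat.add (Nat.add (Nat.add (Nat.add C x2485) x541) x1513) x865) x1081) x1009) x1029) x7587)
    (Nat.add (Nat.add (Nat.add (Nat.add (Nat.add (Nat.add (Nat.add (Nat.add C x2487) x543) x1515) x867) x1083) x1011) x1035) x1027)
    (Nat.add (Nat.add (Nat.add (Nat.add (Nat.add (Nat.add (Nat.add (Nat.add C (Nat.mul x1035 (nat_lit 2))) x2493) x549) x1521) x873) x1089) x1017) x1029)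
    (Nat.add (Nat.add (Nat.add (Nat.add (Nat.add (Nat.add (Nat.add (Nat.add (Nat.add C x1055) x2513) x569) x1541) x893) x1217) x1001) x1057) x7615)
    (Nat.add (Nat.add (Nat.add (Nat.add (Nat.add (Nat.add (Nat.add (Nat.add (Nat.add (Nat.add (Nat.add C (Nat.mul x1057 (nat_lit 2))) x2515) x571) x1543) x895) x1219) x1003) x1063) x1055) x1059) x7617)
    (Nat.add (Nat.add (Nat.add (Nat.add (Nat.add (Nat.add (Nat.add (Nat.add (Nat.add C x1059) x2517) x573) x1545) x897) x1221) x1005) x1065) x1057)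
    (Nat.add (Nat.add (Nat.add (Nat.add (Nat.add (Nat.add (Nat.add (Nat.add (Nat.add (Nat.add (Nat.add C x1063) x2521) x577) x1549) x901) x1225) x1009) x1081) x1057) x1065) x7623)
    (Nat.add (Nat.add (Nat.add (Nat.add (Nat.add (Nat.add (Nat.add (Nat.add (Nat.add (Nat.add (Nat.add C (Nat.mul x1065 (nat_lit 2))) x2523) x579) x1551) x903) x1227) x1011) x1083) x1059) x1071) x1063)
    (Nat.add (Nat.add (Nat.add (Nat.add (Nat.add (Nat.add (Nat.add (Nat.add (Nat.add C x1071) x2529) x585) x1557) x909) x1233) x1017) x1089) x1065)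
    (Nat.add (Nat.add (Nat.add (Nat.add (Nat.add (Nat.add (Nat.add (Nat.add (Nat.add (Nat.add (Nat.add C (Nat.mul x1081 (nat_lit 2))) x2539) x595) x1567) x919) x1243) x1027) x1135) x1063) x1083) x7641)
    (Nat.add (Nat.add (Nat.add (Nat.add (Nat.add (Nat.add (Nat.add (Nat.add (Nat.add (Nat.add (Nat.add C (Nat.mul x1083 (nat_lit 2))) x2541) x597) x1569) x921) x1245) x1029) x1137) x1065) x1089) x1081)
    (Nat.add (Nat.add (Nat.add (Nat.add (Nat.add (Nat.add (Nat.add (Nat.add (Nat.add (Nat.add (Nat.add C (Nat.mul x1089 (nat_lit 3))) x2547) x603) x1575) x927) x1251) x1035) x1143) x1071) x1107) x1083)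
    (Nat.add (Nat.add (Nat.add (Nat.add (Nat.add (Nat.add (Nat.add (Nat.add C (Nat.mul x1107 (nat_lit 3))) x2565) x621) x1593) x945) x1269) x1161) x1089)
    (Nat.add (Nat.add (Nat.add (Nat.add (Nat.add (Nat.add (Nat.add (Nat.add C (Nat.mul x1135 (nat_lit 2))) x2593) x649) x1621) x1297) x1081) x1137) x7695)
    (Nat.add (Nat.add (Nat.add (Nat.add (Nat.add (Nat.add (Nat.add (Nat.add C (Nat.mul x1137 (nat_lit 2))) x2595) x651) x1623) x1299) x1083) x1143) x1135)
    (Nat.add (Nat.add (Nat.add (Nat.add (Nat.add (Nat.add (Nat.add (Nat.add C (Nat.mul x1143 (nat_lit 2))) x2601) x657) x1629) x1305) x1089) x1161) x1137)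
    (Nat.add (Nat.add (Nat.add (Nat.add (Nat.add (Nat.add (Nat.add C (Nat.mul x1161 (nat_lit 4))) x2619) x675) x1647) x1323) x1107) x1143)
    (Nat.add (Nat.add (Nat.add (Nat.add (Nat.add (Nat.add C x1217) x2675) x1703) x1055) x1219) x7777)
    (Nat.add (Nat.add (Nat.add (Nat.add (Nat.add (Nat.add (Nat.add (Nat.add C (Nat.mul x1219 (nat_lit 2))) x2677) x1705) x1057) x1225) x1217) x1221) x7779)
    (Nat.add (Nat.add (Nat.add (Nat.add (Nat.add (Nat.add C x1221) x2679) x1707) x1059) x1227) x1219)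
    (Nat.add (Nat.add (Nat.add (Nat.add (Nat.add (Nat.add (Nat.add (Nat.add C x1225) x2683) x1711) x1063) x1243) x1219) x1227) x7785)
    (Nat.add (Nat.add (Nat.add (Nat.add (Nat.add (Nat.add (Nat.add (Nat.add C (Nat.mul x1227 (nat_lit 2))) x2685) x1713) x1065) x1245) x1221) x1233) x1225)
    (Nat.add (Nat.add (Nat.add (Nat.add (Nat.add (Nat.add C x1233) x2691) x1719) x1071) x1251) x1227)
    (Nat.add (Nat.add (Nat.add (Nat.add (Nat.add (Nat.add (Nat.add (Nat.add C x1243) x2701) x1729) x1081) x1297) x1225) x1245) x7803)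
    (Nat.add (Nat.add (Nat.add (Nat.add (Nat.add (Nat.add (Nat.add (Nat.add C x1245) x2703) x1731) x1083) x1299) x1227) x1251) x1243)
    (Nat.add (Nat.add (Nat.add (Nat.add (Nat.add (Nat.add (Nat.add (Nat.add C (Nat.mul x1251 (nat_lit 2))) x2709) x1737) x1089) x1305) x1233) x1269) x1245)
    (Nat.add (Nat.add (Nat.add (Nat.add (Nat.add (Nat.add C x1269) x2727) x1755) x1107) x1323) x1251)
    (Nat.add (Nat.add (Nat.add (Nat.add (Nat.add (Nat.add (Nat.add C (Nat.mul x1297 (nat_lit 3))) x2755) x1783) x1135) x1243) x1299) x7857)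
    (Nat.add (Nat.add (Nat.add (Nat.add (Nat.add (Nat.add (Nat.add C (Nat.mul x1299 (nat_lit 3))) x2757) x1785) x1137) x1245) x1305) x1297)
    (Nat.add (Nat.add (Nat.add (Nat.add (Nat.add (Nat.add (Nat.add C (Nat.mul x1305 (nat_lit 3))) x2763) x1791) x1143) x1251) x1323) x1299)
    (Nat.add (Nat.add (Nat.add (Nat.add (Nat.add (Nat.add (Nat.add C (Nat.mul x1323 (nat_lit 4))) x2781) x1809) x1161) x1269) x1377) x1305)
    (Nat.add (Nat.add (Nat.add (Nat.add C (Nat.mul x1377 (nat_lit 5))) x2835) x1863) x1323)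
    (Nat.add (Nat.add (Nat.add (Nat.add (Nat.add (Nat.add C x1463) x2921) x977) x1469) x1465) x8023)
    (Nat.add (Nat.add (Nat.add (Nat.add (Nat.add (Nat.add C x1465) x2923) x979) x1471) x1463) x8025)
    (Nat.sub (Nat.add (Nat.add (Nat.add (Nat.add (Nat.add (Nat.add C x2927) x983) x1487) x1463) x1471) x8029) x1469)
    (Nat.add (Nat.add (Nat.add (Nat.add (Nat.add (Nat.add (Nat.add (Nat.add (Nat.add C x1471) x2929) x985) x1489) x1465) x1477) x1469) x1473) x8031)
    (Nat.add (Nat.add (Nat.add (Nat.add (Nat.add (Nat.add C x1473) x2931) x987) x1491) x1479) x1471)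
    (Nat.sub (Nat.add (Nat.add (Nat.add (Nat.add (Nat.add (Nat.add C x2935) x991) x1495) x1471) x1479) x8037) x1477)
    (Nat.add (Nat.add (Nat.add (Nat.add (Nat.add (Nat.add C x1479) x2937) x993) x1497) x1473) x1477)
    (Nat.sub (Nat.add (Nat.add (Nat.add (Nat.add (Nat.add (Nat.add C x2945) x1001) x1541) x1469) x1489) x8047) x1487)
    (Nat.add (Nat.add (Nat.add (Nat.add (Nat.add (Nat.add (Nat.add (Nat.add C x2947) x1003) x1543) x1471) x1495) x1487) x1491) x8049)
    (Nat.sub (Nat.add (Nat.add (Nat.add (Nat.add (Nat.add (Nat.add C x2949) x1005) x1545) x1473) x1497) x1489) x1491)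
    (Nat.add (Nat.add (Nat.add (Nat.add (Nat.add (Nat.add (Nat.add (Nat.add C x2953) x1009) x1549) x1477) x1513) x1489) x1497) x8055)
    (Nat.add (Nat.add (Nat.add (Nat.add (Nat.add (Nat.add (Nat.add (Nat.add (Nat.add C x1497) x2955) x1011) x1551) x1479) x1515) x1491) x1503) x1495)
    (Nat.add (Nat.add (Nat.add (Nat.add (Nat.add (Nat.add C x1503) x2961) x1017) x1557) x1521) x1497)
    (Nat.sub (Nat.add (Nat.add (Nat.add (Nat.add (Nat.add (Nat.add C x2971) x1027) x1567) x1495) x1515) x8073) x1513)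
    (Nat.sub (Nat.add (Nat.add (Nat.add (Nat.add (Nat.add (Nat.add C x2973) x1029) x1569) x1497) x1521) x1513) x1515)
    (Nat.add (Nat.add (Nat.add (Nat.add (Nat.add (Nat.add C x1521) x2979) x1035) x1575) x1503) x1515)
    (Nat.sub (Nat.add (Nat.add (Nat.add (Nat.add (Nat.add (Nat.add C x2999) x1055) x1703) x1487) x1543) x8101) x1541)
    (Nat.add (Nat.add (Nat.add (Nat.add (Nat.add (Nat.add (Nat.add (Nat.add C x3001) x1057) x1705) x1489) x1549) x1541) x1545) x8103)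
    (Nat.sub (Nat.add (Nat.add (Nat.add (Nat.add (Nat.add (Nat.add C x3003) x1059) x1707) x1491) x1551) x1543) x1545)
    (Nat.sub (Nat.add (Nat.add (Nat.add (Nat.add (Nat.add (Nat.add (Nat.add (Nat.add C x3007) x1063) x1711) x1495) x1567) x1543) x1551) x8109) x1549)
    (Nat.add (Nat.add (Nat.add (Nat.add (Nat.add (Nat.add (Nat.add (Nat.add C x3009) x1065) x1713) x1497) x1569) x1545) x1557) x1549)
    (Nat.sub (Nat.add (Nat.add (Nat.add (Nat.add (Nat.add (Nat.add C x3015) x1071) x1719) x1503) x1575) x1551) x1557)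
    (Nat.add (Nat.add (Nat.add (Nat.add (Nat.add (Nat.add (Nat.add (Nat.add C x3025) x1081) x1729) x1513) x1621) x1549) x1569) x8127)
    (Nat.add (Nat.add (Nat.add (Nat.add (Nat.add (Nat.add (Nat.add (Nat.add C x3027) x1083) x1731) x1515) x1623) x1551) x1575) x1567)
    (Nat.add (Nat.add (Nat.add (Nat.add (Nat.add (Nat.add (Nat.add (Nat.add (Nat.add C x1575) x3033) x1089) x1737) x1521) x1629) x1557) x1593) x1569)
    (Nat.add (Nat.add (Nat.add (Nat.add (Nat.add (Nat.add C x1593) x3051) x1107) x1755) x1647) x1575)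
    (Nat.sub (Nat.add (Nat.add (Nat.add (Nat.add (Nat.add (Nat.add C x3079) x1135) x1783) x1567) x1623) x8181) x1621)
    (Nat.sub (Nat.add (Nat.add (Nat.add (Nat.add (Nat.add (Nat.add C x3081) x1137) x1785) x1569) x1629) x1621) x1623)
    (Nat.sub (Nat.add (Nat.add (Nat.add (Nat.add (Nat.add (Nat.add C x3087) x1143) x1791) x1575) x1647) x1623) x1629)
    (Nat.add (Nat.add (Nat.add (Nat.add (Nat.add (Nat.add C x1647) x3105) x1161) x1809) x1593) x1629)
    (Nat.add (Nat.add (Nat.add (Nat.add (Nat.add (Nat.add C x1703) x3161) x1217) x1541) x1705) x8263)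
    (Nat.add (Nat.add (Nat.add (Nat.add (Nat.add (Nat.add (Nat.add (Nat.add C (Nat.mul x1705 (nat_lit 2))) x3163) x1219) x1543) x1711) x1703) x1707) x8265)
    (Nat.add (Nat.add (Nat.add (Nat.add (Nat.add (Nat.add C x1707) x3165) x1221) x1545) x1713) x1705)
    (Nat.add (Nat.add (Nat.add (Nat.add (Nat.add (Nat.add (Nat.add (Nat.add C x1711) x3169) x1225) x1549) x1729) x1705) x1713) x8271)
    (Nat.add (Nat.add (Nat.add (Nat.add (Nat.add (Nat.add (Nat.add (Nat.add C (Nat.mul x1713 (nat_lit 2))) x3171) x1227) x1551) x1731) x1707) x1719) x1711)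
    (Nat.add (Nat.add (Nat.add (Nat.add (Nat.add (Nat.add C x1719) x3177) x1233) x1557) x1737) x1713)
    (Nat.add (Nat.add (Nat.add (Nat.add (Nat.add (Nat.add (Nat.add (Nat.add C x1729) x3187) x1243) x1567) x1783) x1711) x1731) x8289)
    (Nat.add (Nat.add (Nat.add (Nat.add (Nat.add (Nat.add (Nat.add (Nat.add C x1731) x3189) x1245) x1569) x1785) x1713) x1737) x1729)
    (Nat.add (Nat.add (Nat.add (Nat.add (Nat.add (Nat.add (Nat.add (Nat.add C (Nat.mul x1737 (nat_lit 2))) x3195) x1251) x1575) x1791) x1719) x1755) x1731)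
    (Nat.add (Nat.add (Nat.add (Nat.add (Nat.add (Nat.add C x1755) x3213) x1269) x1593) x1809) x1737)
    (Nat.add (Nat.add (Nat.add (Nat.add (Nat.add (Nat.add (Nat.add (Nat.add C (Nat.mul x1783 (nat_lit 2))) x3241) x1297) x1621) x1945) x1729) x1785) x8343)
    (Nat.add (Nat.add (Nat.add (Nat.add (Nat.add (Nat.add (Nat.add (Nat.add C (Nat.mul x1785 (nat_lit 2))) x3243) x1299) x1623) x1947) x1731) x1791) x1783)
    (Nat.add (Nat.add (Nat.add (Nat.add (Nat.add (Nat.add (Nat.add (Nat.add C (Nat.mul x1791 (nat_lit 2))) x3249) x1305) x1629) x1953) x1737) x1809) x1785)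
    (Nat.add (Nat.add (Nat.add (Nat.add (Nat.add (Nat.add (Nat.add (Nat.add C (Nat.mul x1809 (nat_lit 3))) x3267) x1323) x1647) x1971) x1755) x1863) x1791)
    (Nat.add (Nat.add (Nat.add (Nat.add (Nat.add C (Nat.mul x1863 (nat_lit 3))) x3321) x1377) x2025) x1809)
    (Nat.add (Nat.add (Nat.add (Nat.add (Nat.add C (Nat.mul x1945 (nat_lit 3))) x3403) x1783) x1947) x8505)
    (Nat.add (Nat.add (Nat.add (Nat.add (Nat.add C (Nat.mul x1947 (nat_lit 3))) x3405) x1785) x1953) x1945)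
    (Nat.add (Nat.add (Nat.add (Nat.add (Nat.add C (Nat.mul x1953 (nat_lit 3))) x3411) x1791) x1971) x1947)
    (Nat.add (Nat.add (Nat.add (Nat.add (Nat.add C (Nat.mul x1971 (nat_lit 3))) x3429) x1809) x2025) x1953)
    (Nat.add (Nat.add (Nat.add (Nat.add C (Nat.mul x2025 (nat_lit 5))) x3483) x1863) x1971)
    (Nat.add (Nat.add (Nat.add (Nat.add (Nat.add C (Nat.mul x2195 (nat_lit 3))) x6569) x737) x2201) x8755)
    (Nat.add (Nat.add (Nat.add (Nat.add (Nat.add (Nat.add (Nat.add (Nat.add C (Nat.mul x2201 (nat_lit 2))) x6575) x743) x2219) x2195) x2207) x2203) x8761)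
    (Nat.add (Nat.add (Nat.add (Nat.add (Nat.add (Nat.add (Nat.add C (Nat.mul x2203 (nat_lit 3))) x6577) x745) x2221) x2209) x2201) x8763)
    (Nat.sub (Nat.add (Nat.add (Nat.add (Nat.add (Nat.add (Nat.add C x6581) x749) x2225) x2201) x2209) x8767) x2207)
    (Nat.add (Nat.add (Nat.add (Nat.add (Nat.add (Nat.add (Nat.add (Nat.add C (Nat.mul x2209 (nat_lit 2))) x6583) x751) x2227) x2203) x2207) x2211) x8769)
    (Nat.add (Nat.add (Nat.add (Nat.add (Nat.add C (Nat.mul x2211 (nat_lit 3))) x6585) x753) x2229) x2209)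
    (Nat.add (Nat.add (Nat.add (Nat.add (Nat.add (Nat.add (Nat.add (Nat.add C x2219) x6593) x761) x2273) x2201) x2225) x2221) x8779)
    (Nat.add (Nat.add (Nat.add (Nat.add (Nat.add (Nat.add (Nat.add (Nat.add C x2221) x6595) x763) x2275) x2203) x2227) x2219) x8781)
    (Nat.add (Nat.add (Nat.add (Nat.add (Nat.add (Nat.add (Nat.add (Nat.add C x6599) x767) x2279) x2207) x2243) x2219) x2227) x8785)
    (Nat.add (Nat.add (Nat.add (Nat.add (Nat.add (Nat.add (Nat.add (Nat.add (Nat.add (Nat.add (Nat.add C (Nat.mul x2227 (nat_lit 2))) x6601) x769) x2281) x2209) x2245) x2221) x2233) x2225) x2229) x8787)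
    (Nat.add (Nat.add (Nat.add (Nat.add (Nat.add (Nat.add (Nat.add (Nat.add C (Nat.mul x2229 (nat_lit 2))) x6603) x771) x2283) x2211) x2247) x2235) x2227)
    (Nat.add (Nat.add (Nat.add (Nat.add (Nat.add (Nat.add (Nat.add (Nat.add C x2233) x6607) x775) x2287) x2251) x2227) x2235) x8793)
    (Nat.add (Nat.add (Nat.add (Nat.add (Nat.add (Nat.add (Nat.add C (Nat.mul x2235 (nat_lit 3))) x6609) x777) x2289) x2253) x2229) x2233)
    (Nat.sub (Nat.add (Nat.add (Nat.add (Nat.add (Nat.add (Nat.add C x6617) x785) x2297) x2225) x2245) x8803) x2243)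
    (Nat.add (Nat.add (Nat.add (Nat.add (Nat.add (Nat.add (Nat.add (Nat.add C x6619) x787) x2299) x2227) x2251) x2243) x2247) x8805)
    (Nat.sub (Nat.add (Nat.add (Nat.add (Nat.add (Nat.add (Nat.add C x6621) x789) x2301) x2229) x2253) x2245) x2247)
    (Nat.add (Nat.add (Nat.add (Nat.add (Nat.add (Nat.add (Nat.add (Nat.add C x2251) x6625) x793) x2305) x2233) x2245) x2253) x8811)
    (Nat.add (Nat.add (Nat.add (Nat.add (Nat.add (Nat.add (Nat.add (Nat.add C (Nat.mul x2253 (nat_lit 2))) x6627) x795) x2307) x2235) x2247) x2259) x2251)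
    (Nat.add (Nat.add (Nat.add (Nat.add (Nat.add C (Nat.mul x2259 (nat_lit 3))) x6633) x801) x2313) x2253)
    (Nat.add (Nat.add (Nat.add (Nat.add (Nat.add (Nat.add (Nat.add (Nat.add C x2273) x6647) x815) x2435) x2219) x2279) x2275) x8833)
    (Nat.add (Nat.add (Nat.add (Nat.add (Nat.add (Nat.add (Nat.add (Nat.add C x2275) x6649) x817) x2437) x2221) x2281) x2273) x8835)
    (Nat.sub (Nat.add (Nat.add (Nat.add (Nat.add (Nat.add (Nat.add (Nat.add (Nat.add C x6653) x821) x2441) x2225) x2297) x2273) x2281) x8839) x2279)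
    (Nat.add (Nat.add (Nat.add (Nat.add (Nat.add (Nat.add (Nat.add (Nat.add (Nat.add (Nat.add (Nat.add C x2281) x6655) x823) x2443) x2227) x2299) x2275) x2287) x2279) x2283) x8841)
    (Nat.add (Nat.add (Nat.add (Nat.add (Nat.add (Nat.add (Nat.add (Nat.add C x2283) x6657) x825) x2445) x2229) x2301) x2289) x2281)
    (Nat.sub (Nat.add (Nat.add (Nat.add (Nat.add (Nat.add (Nat.add (Nat.add (Nat.add C x6661) x829) x2449) x2233) x2305) x2281) x2289) x8847) x2287)
    (Nat.add (Nat.add (Nat.add (Nat.add (Nat.add (Nat.add (Nat.add (Nat.add C x2289) x6663) x831) x2451) x2235) x2307) x2283) x2287)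
    (Nat.add (Nat.add (Nat.add (Nat.add (Nat.add (Nat.add (Nat.add (Nat.add C x6671) x839) x2459) x2243) x2351) x2279) x2299) x8857)
    (Nat.add (Nat.add (Nat.add (Nat.add (Nat.add (Nat.add (Nat.add (Nat.add (Nat.add (Nat.add (Nat.add C x2299) x6673) x841) x2461) x2245) x2353) x2281) x2305) x2297) x2301) x8859)
    (Nat.add (Nat.add (Nat.add (Nat.add (Nat.add (Nat.add (Nat.add (Nat.add C x6675) x843) x2463) x2247) x2355) x2283) x2307) x2299)
    (Nat.add (Nat.add (Nat.add (Nat.add (Nat.add (Nat.add (Nat.add (Nat.add (Nat.add (Nat.add (Nat.add C x2305) x6679) x847) x2467) x2251) x2359) x2287) x2323) x2299) x2307) x8865)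
    (Nat.add (Nat.add (Nat.add (Nat.add (Nat.add (Nat.add (Nat.add (Nat.add (Nat.add (Nat.add (Nat.add C (Nat.mul x2307 (nat_lit 2))) x6681) x849) x2469) x2253) x2361) x2289) x2325) x2301) x2313) x2305)
    (Nat.add (Nat.add (Nat.add (Nat.add (Nat.add (Nat.add (Nat.add (Nat.add C (Nat.mul x2313 (nat_lit 2))) x6687) x855) x2475) x2259) x2367) x2331) x2307)
    (Nat.add (Nat.add (Nat.add (Nat.add (Nat.add (Nat.add (Nat.add (Nat.add C x2323) x6697) x865) x2485) x2377) x2305) x2325) x8883)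
    (Nat.add (Nat.add (Nat.add (Nat.add (Nat.add (Nat.add (Nat.add (Nat.add C x2325) x6699) x867) x2487) x2379) x2307) x2331) x2323)
    (Nat.add (Nat.add (Nat.add (Nat.add (Nat.add (Nat.add (Nat.add C (Nat.mul x2331 (nat_lit 3))) x6705) x873) x2493) x2385) x2313) x2325)
    (Nat.sub (Nat.add (Nat.add (Nat.add (Nat.add (Nat.add (Nat.add C x6725) x893) x2513) x2297) x2353) x8911) x2351)
    (Nat.add (Nat.add (Nat.add (Nat.add (Nat.add (Nat.add (Nat.add (Nat.add C x6727) x895) x2515) x2299) x2359) x2351) x2355) x8913)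
    (Nat.sub (Nat.add (Nat.add (Nat.add (Nat.add (Nat.add (Nat.add C x6729) x897) x2517) x2301) x2361) x2353) x2355)
    (Nat.sub (Nat.add (Nat.add (Nat.add (Nat.add (Nat.add (Nat.add (Nat.add (Nat.add C x6733) x901) x2521) x2305) x2377) x2353) x2361) x8919) x2359)
    (Nat.add (Nat.add (Nat.add (Nat.add (Nat.add (Nat.add (Nat.add (Nat.add C x6735) x903) x2523) x2307) x2379) x2355) x2367) x2359)
    (Nat.sub (Nat.add (Nat.add (Nat.add (Nat.add (Nat.add (Nat.add C x6741) x909) x2529) x2313) x2385) x2361) x2367)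
    (Nat.add (Nat.add (Nat.add (Nat.add (Nat.add (Nat.add (Nat.add (Nat.add C x2377) x6751) x919) x2539) x2323) x2359) x2379) x8937)
    (Nat.add (Nat.add (Nat.add (Nat.add (Nat.add (Nat.add (Nat.add (Nat.add C x2379) x6753) x921) x2541) x2325) x2361) x2385) x2377)
    (Nat.add (Nat.add (Nat.add (Nat.add (Nat.add (Nat.add (Nat.add (Nat.add C (Nat.mul x2385 (nat_lit 2))) x6759) x927) x2547) x2331) x2367) x2403) x2379)
    (Nat.add (Nat.add (Nat.add (Nat.add (Nat.add C (Nat.mul x2403 (nat_lit 3))) x6777) x945) x2565) x2385)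
    (Nat.add (Nat.add (Nat.add (Nat.add (Nat.add (Nat.add (Nat.add (Nat.add C x2435) x6809) x977) x2921) x2273) x2441) x2437) x8995)
    (Nat.add (Nat.add (Nat.add (Nat.add (Nat.add (Nat.add (Nat.add (Nat.add C x2437) x6811) x979) x2923) x2275) x2443) x2435) x8997)
    (Nat.sub (Nat.add (Nat.add (Nat.add (Nat.add (Nat.add (Nat.add (Nat.add (Nat.add C x6815) x983) x2927) x2279) x2459) x2435) x2443) x9001) x2441)
    (Nat.add (Nat.add (Nat.add (Nat.add (Nat.add (Nat.add (Nat.add (Nat.add (Nat.add (Nat.add (Nat.add C x2443) x6817) x985) x2929) x2281) x2461) x2437) x2449) x2441) x2445) x9003)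
    (Nat.add (Nat.add (Nat.add (Nat.add (Nat.add (Nat.add (Nat.add (Nat.add C x2445) x6819) x987) x2931) x2283) x2463) x2451) x2443)
    (Nat.sub (Nat.add (Nat.add (Nat.add (Nat.add (Nat.add (Nat.add (Nat.add (Nat.add C x6823) x991) x2935) x2287) x2467) x2443) x2451) x9009) x2449)
    (Nat.add (Nat.add (Nat.add (Nat.add (Nat.add (Nat.add (Nat.add (Nat.add C x2451) x6825) x993) x2937) x2289) x2469) x2445) x2449)
    (Nat.sub (Nat.add (Nat.add (Nat.add (Nat.add (Nat.add (Nat.add (Nat.add (Nat.add C x6833) x1001) x2945) x2297) x2513) x2441) x2461) x9019) x2459)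
    (Nat.sub (Nat.add (Nat.add (Nat.add (Nat.add (Nat.add (Nat.add (Nat.add (Nat.add (Nat.add (Nat.add (Nat.add C x6835) x1003) x2947) x2299) x2515) x2443) x2467) x2459) x2463) x9021) (Nat.mul (e (nat_lit 2461)) ap)) (Nat.mul (e (nat_lit 2461)) an))
    (Nat.sub (Nat.add (Nat.add (Nat.add (Nat.add (Nat.add (Nat.add (Nat.add (Nat.add C x6837) x1005) x2949) x2301) x2517) x2445) x2469) x2461) x2463)
    (Nat.add (Nat.add (Nat.add (Nat.add (Nat.add (Nat.add (Nat.add (Nat.add (Nat.add (Nat.add C x6841) x1009) x2953) x2305) x2521) x2449) x2485) x2461) x2469) x9027)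
    (Nat.add (Nat.add (Nat.add (Nat.add (Nat.add (Nat.add (Nat.add (Nat.add (Nat.add (Nat.add (Nat.add C x2469) x6843) x1011) x2955) x2307) x2523) x2451) x2487) x2463) x2475) x2467)
    (Nat.add (Nat.add (Nat.add (Nat.add (Nat.add (Nat.add (Nat.add (Nat.add C x2475) x6849) x1017) x2961) x2313) x2529) x2493) x2469)
    (Nat.sub (Nat.add (Nat.add (Nat.add (Nat.add (Nat.add (Nat.add (Nat.add (Nat.add C x6859) x1027) x2971) x2323) x2539) x2467) x2487) x9045) x2485)
    (Nat.sub (Nat.add (Nat.add (Nat.add (Nat.add (Nat.add (Nat.add (Nat.add (Nat.add C x6861) x1029) x2973) x2325) x2541) x2469) x2493) x2485) x2487)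
    (Nat.add (Nat.add (Nat.add (Nat.add (Nat.add (Nat.add (Nat.add (Nat.add C x2493) x6867) x1035) x2979) x2331) x2547) x2475) x2487)
    (Nat.add (Nat.add (Nat.add (Nat.add (Nat.add (Nat.add (Nat.add (Nat.add C x6887) x1055) x2999) x2351) x2675) x2459) x2515) x9073)
    (Nat.add (Nat.add (Nat.add (Nat.add (Nat.add (Nat.add (Nat.add (Nat.add (Nat.add (Nat.add (Nat.add C x2515) x6889) x1057) x3001) x2353) x2677) x2461) x2521) x2513) x2517) x9075)
    (Nat.add (Nat.add (Nat.add (Nat.add (Nat.add (Nat.add (Nat.add (Nat.add C x6891) x1059) x3003) x2355) x2679) x2463) x2523) x2515)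
    (Nat.add (Nat.add (Nat.add (Nat.add (Nat.add (Nat.add (Nat.add (Nat.add (Nat.add (Nat.add C x6895) x1063) x3007) x2359) x2683) x2467) x2539) x2515) x2523) x9081)
    (Nat.add (Nat.add (Nat.add (Nat.add (Nat.add (Nat.add (Nat.add (Nat.add (Nat.add (Nat.add (Nat.add C x2523) x6897) x1065) x3009) x2361) x2685) x2469) x2541) x2517) x2529) x2521)
    (Nat.add (Nat.add (Nat.add (Nat.add (Nat.add (Nat.add (Nat.add (Nat.add C x6903) x1071) x3015) x2367) x2691) x2475) x2547) x2523)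
    (Nat.add (Nat.add (Nat.add (Nat.add (Nat.add (Nat.add (Nat.add (Nat.add (Nat.add (Nat.add (Nat.add C x2539) x6913) x1081) x3025) x2377) x2701) x2485) x2593) x2521) x2541) x9099)
    (Nat.add (Nat.add (Nat.add (Nat.add (Nat.add (Nat.add (Nat.add (Nat.add (Nat.add (Nat.add (Nat.add C x2541) x6915) x1083) x3027) x2379) x2703) x2487) x2595) x2523) x2547) x2539)
    (Nat.add (Nat.add (Nat.add (Nat.add (Nat.add (Nat.add (Nat.add (Nat.add (Nat.add (Nat.add (Nat.add C (Nat.mul x2547 (nat_lit 2))) x6921) x1089) x3033) x2385) x2709) x2493) x2601) x2529) x2565) x2541)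
    (Nat.add (Nat.add (Nat.add (Nat.add (Nat.add (Nat.add (Nat.add (Nat.add C (Nat.mul x2565 (nat_lit 2))) x6939) x1107) x3051) x2403) x2727) x2619) x2547)
    (Nat.add (Nat.add (Nat.add (Nat.add (Nat.add (Nat.add (Nat.add (Nat.add C x2593) x6967) x1135) x3079) x2755) x2539) x2595) x9153)
    (Nat.add (Nat.add (Nat.add (Nat.add (Nat.add (Nat.add (Nat.add (Nat.add C x2595) x6969) x1137) x3081) x2757) x2541) x2601) x2593)
    (Nat.add (Nat.add (Nat.add (Nat.add (Nat.add (Nat.add (Nat.add (Nat.add C x2601) x6975) x1143) x3087) x2763) x2547) x2619) x2595)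
    (Nat.add (Nat.add (Nat.add (Nat.add (Nat.add (Nat.add (Nat.add C (Nat.mul x2619 (nat_lit 3))) x6993) x1161) x3105) x2781) x2565) x2601)
    (Nat.sub (Nat.add (Nat.add (Nat.add (Nat.add (Nat.add (Nat.add C x7049) x1217) x3161) x2513) x2677) x9235) x2675)
    (Nat.add (Nat.add (Nat.add (Nat.add (Nat.add (Nat.add (Nat.add (Nat.add C x7051) x1219) x3163) x2515) x2683) x2675) x2679) x9237)
    (Nat.sub (Nat.add (Nat.add (Nat.add (Nat.add (Nat.add (Nat.add C x7053) x1221) x3165) x2517) x2685) x2677) x2679)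
    (Nat.sub (Nat.add (Nat.add (Nat.add (Nat.add (Nat.add (Nat.add (Nat.add (Nat.add C x7057) x1225) x3169) x2521) x2701) x2677) x2685) x9243) x2683)
    (Nat.add (Nat.add (Nat.add (Nat.add (Nat.add (Nat.add (Nat.add (Nat.add C x7059) x1227) x3171) x2523) x2703) x2679) x2691) x2683)
    (Nat.sub (Nat.add (Nat.add (Nat.add (Nat.add (Nat.add (Nat.add C x7065) x1233) x3177) x2529) x2709) x2685) x2691)
    (Nat.sub (Nat.add (Nat.add (Nat.add (Nat.add (Nat.add (Nat.add (Nat.add (Nat.add C x7075) x1243) x3187) x2539) x2755) x2683) x2703) x9261) x2701)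
    (Nat.sub (Nat.add (Nat.add (Nat.add (Nat.add (Nat.add (Nat.add (Nat.add (Nat.add C x7077) x1245) x3189) x2541) x2757) x2685) x2709) x2701) x2703)
    (Nat.add (Nat.add (Nat.add (Nat.add (Nat.add (Nat.add (Nat.add (Nat.add C x7083) x1251) x3195) x2547) x2763) x2691) x2727) x2703)
    (Nat.sub (Nat.add (Nat.add (Nat.add (Nat.add (Nat.add (Nat.add C x7101) x1269) x3213) x2565) x2781) x2709) x2727)
    (Nat.add (Nat.add (Nat.add (Nat.add (Nat.add (Nat.add (Nat.add (Nat.add C x2755) x7129) x1297) x3241) x2593) x2701) x2757) x9315)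
    (Nat.add (Nat.add (Nat.add (Nat.add (Nat.add (Nat.add (Nat.add (Nat.add C x2757) x7131) x1299) x3243) x2595) x2703) x2763) x2755)
    (Nat.add (Nat.add (Nat.add (Nat.add (Nat.add (Nat.add (Nat.add (Nat.add C x2763) x7137) x1305) x3249) x2601) x2709) x2781) x2757)
    (Nat.add (Nat.add (Nat.add (Nat.add (Nat.add (Nat.add (Nat.add (Nat.add C (Nat.mul x2781 (nat_lit 2))) x7155) x1323) x3267) x2619) x2727) x2835) x2763)
    (Nat.add (Nat.add (Nat.add (Nat.add (Nat.add C (Nat.mul x2835 (nat_lit 3))) x7209) x1377) x3321) x2781)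
    (Nat.add (Nat.add (Nat.add (Nat.add (Nat.add (Nat.add (Nat.add (Nat.add C (Nat.mul x2921 (nat_lit 2))) x7295) x1463) x4379) x2435) x2927) x2923) x9481)
    (Nat.add (Nat.add (Nat.add (Nat.add (Nat.add (Nat.add (Nat.add (Nat.add C (Nat.mul x2923 (nat_lit 2))) x7297) x1465) x4381) x2437) x2929) x2921) x9483)
    (Nat.add (Nat.add (Nat.add (Nat.add (Nat.add (Nat.add (Nat.add (Nat.add C x7301) x1469) x4385) x2441) x2945) x2921) x2929) x9487)
    (Nat.add (Nat.add (Nat.add (Nat.add (Nat.add (Nat.add (Nat.add (Nat.add (Nat.add (Nat.add (Nat.add C (Nat.mul x2929 (nat_lit 2))) x7303) x1471) x4387) x2443) x2947) x2923) x2935) x2927) x2931) x9489)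
    (Nat.add (Nat.add (Nat.add (Nat.add (Nat.add (Nat.add (Nat.add (Nat.add C (Nat.mul x2931 (nat_lit 2))) x7305) x1473) x4389) x2445) x2949) x2937) x2929)
    (Nat.add (Nat.add (Nat.add (Nat.add (Nat.add (Nat.add (Nat.add (Nat.add C x7309) x1477) x4393) x2449) x2953) x2929) x2937) x9495)
    (Nat.add (Nat.add (Nat.add (Nat.add (Nat.add (Nat.add (Nat.add (Nat.add C (Nat.mul x2937 (nat_lit 2))) x7311) x1479) x4395) x2451) x2955) x2931) x2935)
    (Nat.add (Nat.add (Nat.add (Nat.add (Nat.add (Nat.add (Nat.add (Nat.add C x7319) x1487) x4403) x2459) x2999) x2927) x2947) x9505)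
    (Nat.add (Nat.add (Nat.add (Nat.add (Nat.add (Nat.add (Nat.add (Nat.add (Nat.add (Nat.add (Nat.add C x2947) x7321) x1489) x4405) x2461) x3001) x2929) x2953) x2945) x2949) x9507)
    (Nat.add (Nat.add (Nat.add (Nat.add (Nat.add (Nat.add (Nat.add (Nat.add C x7323) x1491) x4407) x2463) x3003) x2931) x2955) x2947)
    (Nat.add (Nat.add (Nat.add (Nat.add (Nat.add (Nat.add (Nat.add (Nat.add (Nat.add (Nat.add (Nat.add C x2953) x7327) x1495) x4411) x2467) x3007) x2935) x2971) x2947) x2955) x9513)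
    (Nat.add (Nat.add (Nat.add (Nat.add (Nat.add (Nat.add (Nat.add (Nat.add (Nat.add (Nat.add (Nat.add C (Nat.mul x2955 (nat_lit 2))) x7329) x1497) x4413) x2469) x3009) x2937) x2973) x2949) x2961) x2953)
    (Nat.add (Nat.add (Nat.add (Nat.add (Nat.add (Nat.add (Nat.add (Nat.add C (Nat.mul x2961 (nat_lit 2))) x7335) x1503) x4419) x2475) x3015) x2979) x2955)
    (Nat.add (Nat.add (Nat.add (Nat.add (Nat.add (Nat.add (Nat.add (Nat.add C x7345) x1513) x4429) x2485) x3025) x2953) x2973) x9531)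
    (Nat.add (Nat.add (Nat.add (Nat.add (Nat.add (Nat.add (Nat.add (Nat.add C x7347) x1515) x4431) x2487) x3027) x2955) x2979) x2971)
    (Nat.add (Nat.add (Nat.add (Nat.add (Nat.add (Nat.add (Nat.add (Nat.add C (Nat.mul x2979 (nat_lit 2))) x7353) x1521) x4437) x2493) x3033) x2961) x2973)
    (Nat.add (Nat.add (Nat.add (Nat.add (Nat.add (Nat.add (Nat.add (Nat.add C x7373) x1541) x4457) x2513) x3161) x2945) x3001) x9559)
    (Nat.add (Nat.add (Nat.add (Nat.add (Nat.add (Nat.add (Nat.add (Nat.add (Nat.add (Nat.add (Nat.add C x3001) x7375) x1543) x4459) x2515) x3163) x2947) x3007) x2999) x3003) x9561)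
    (Nat.add (Nat.add (Nat.add (Nat.add (Nat.add (Nat.add (Nat.add (Nat.add C x7377) x1545) x4461) x2517) x3165) x2949) x3009) x3001)
    (Nat.add (Nat.add (Nat.add (Nat.add (Nat.add (Nat.add (Nat.add (Nat.add (Nat.add (Nat.add C x7381) x1549) x4465) x2521) x3169) x2953) x3025) x3001) x3009) x9567)
    (Nat.add (Nat.add (Nat.add (Nat.add (Nat.add (Nat.add (Nat.add (Nat.add (Nat.add (Nat.add (Nat.add C x3009) x7383) x1551) x4467) x2523) x3171) x2955) x3027) x3003) x3015) x3007)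
    (Nat.add (Nat.add (Nat.add (Nat.add (Nat.add (Nat.add (Nat.add (Nat.add C x7389) x1557) x4473) x2529) x3177) x2961) x3033) x3009)
    (Nat.add (Nat.add (Nat.add (Nat.add (Nat.add (Nat.add (Nat.add (Nat.add (Nat.add (Nat.add (Nat.add C x3025) x7399) x1567) x4483) x2539) x3187) x2971) x3079) x3007) x3027) x9585)
    (Nat.add (Nat.add (Nat.add (Nat.add (Nat.add (Nat.add (Nat.add (Nat.add (Nat.add (Nat.add (Nat.add C x3027) x7401) x1569) x4485) x2541) x3189) x2973) x3081) x3009) x3033) x3025)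
    (Nat.add (Nat.add (Nat.add (Nat.add (Nat.add (Nat.add (Nat.add (Nat.add (Nat.add (Nat.add (Nat.add C (Nat.mul x3033 (nat_lit 2))) x7407) x1575) x4491) x2547) x3195) x2979) x3087) x3015) x3051) x3027)
    (Nat.add (Nat.add (Nat.add (Nat.add (Nat.add (Nat.add (Nat.add (Nat.add C (Nat.mul x3051 (nat_lit 2))) x7425) x1593) x4509) x2565) x3213) x3105) x3033)
    (Nat.add (Nat.add (Nat.add (Nat.add (Nat.add (Nat.add (Nat.add (Nat.add C x7453) x1621) x4537) x2593) x3241) x3025) x3081) x9639)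
    (Nat.add (Nat.add (Nat.add (Nat.add (Nat.add (Nat.add (Nat.add (Nat.add C x7455) x1623) x4539) x2595) x3243) x3027) x3087) x3079)
    (Nat.add (Nat.add (Nat.add (Nat.add (Nat.add (Nat.add (Nat.add (Nat.add C x7461) x1629) x4545) x2601) x3249) x3033) x3105) x3081)
    (Nat.add (Nat.add (Nat.add (Nat.add (Nat.add (Nat.add (Nat.add (Nat.add C (Nat.mul x3105 (nat_lit 2))) x7479) x1647) x4563) x2619) x3267) x3051) x3087)
    (Nat.add (Nat.add (Nat.add (Nat.add (Nat.add (Nat.add (Nat.add (Nat.add (Nat.add C x3161) x7535) x1703) x4619) x2675) x3647) x2999) x3163) x9721)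
    (Nat.add (Nat.add (Nat.add (Nat.add (Nat.add (Nat.add (Nat.add (Nat.add (Nat.add (Nat.add (Nat.add C (Nat.mul x3163 (nat_lit 2))) x7537) x1705) x4621) x2677) x3649) x3001) x3169) x3161) x3165) x9723)
    (Nat.add (Nat.add (Nat.add (Nat.add (Nat.add (Nat.add (Nat.add (Nat.add (Nat.add C x3165) x7539) x1707) x4623) x2679) x3651) x3003) x3171) x3163)
    (Nat.add (Nat.add (Nat.add (Nat.add (Nat.add (Nat.add (Nat.add (Nat.add (Nat.add (Nat.add (Nat.add C x3169) x7543) x1711) x4627) x2683) x3655) x3007) x3187) x3163) x3171) x9729)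
    (Nat.add (Nat.add (Nat.add (Nat.add (Nat.add (Nat.add (Nat.add (Nat.add (Nat.add (Nat.add (Nat.add C (Nat.mul x3171 (nat_lit 2))) x7545) x1713) x4629) x2685) x3657) x3009) x3189) x3165) x3177) x3169)
    (Nat.add (Nat.add (Nat.add (Nat.add (Nat.add (Nat.add (Nat.add (Nat.add (Nat.add C x3177) x7551) x1719) x4635) x2691) x3663) x3015) x3195) x3171)
    (Nat.add (Nat.add (Nat.add (Nat.add (Nat.add (Nat.add (Nat.add (Nat.add (Nat.add (Nat.add (Nat.add C x3187) x7561) x1729) x4645) x2701) x3673) x3025) x3241) x3169) x3189) x9747)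
    (Nat.add (Nat.add (Nat.add (Nat.add (Nat.add (Nat.add (Nat.add (Nat.add (Nat.add (Nat.add (Nat.add C x3189) x7563) x1731) x4647) x2703) x3675) x3027) x3243) x3171) x3195) x3187)
    (Nat.add (Nat.add (Nat.add (Nat.add (Nat.add (Nat.add (Nat.add (Nat.add (Nat.add (Nat.add (Nat.add C (Nat.mul x3195 (nat_lit 2))) x7569) x1737) x4653) x2709) x3681) x3033) x3249) x3177) x3213) x3189)
    (Nat.add (Nat.add (Nat.add (Nat.add (Nat.add (Nat.add (Nat.add (Nat.add (Nat.add C x3213) x7587) x1755) x4671) x2727) x3699) x3051) x3267) x3195)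
    (Nat.add (Nat.add (Nat.add (Nat.add (Nat.add (Nat.add (Nat.add (Nat.add (Nat.add (Nat.add (Nat.add C (Nat.mul x3241 (nat_lit 2))) x7615) x1783) x4699) x2755) x3727) x3079) x3403) x3187) x3243) x9801)
    (Nat.add (Nat.add (Nat.add (Nat.add (Nat.add (Nat.add (Nat.add (Nat.add (Nat.add (Nat.add (Nat.add C (Nat.mul x3243 (nat_lit 2))) x7617) x1785) x4701) x2757) x3729) x3081) x3405) x3189) x3249) x3241)
    (Nat.add (Nat.add (Nat.add (Nat.add (Nat.add (Nat.add (Nat.add (Nat.add (Nat.add (Nat.add (Nat.add C (Nat.mul x3249 (nat_lit 2))) x7623) x1791) x4707) x2763) x3735) x3087) x3411) x3195) x3267) x3243)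
    (Nat.add (Nat.add (Nat.add (Nat.add (Nat.add (Nat.add (Nat.add (Nat.add (Nat.add (Nat.add (Nat.add C (Nat.mul x3267 (nat_lit 3))) x7641) x1809) x4725) x2781) x3753) x3105) x3429) x3213) x3321) x3249)
    (Nat.add (Nat.add (Nat.add (Nat.add (Nat.add (Nat.add (Nat.add (Nat.add C (Nat.mul x3321 (nat_lit 3))) x7695) x1863) x4779) x2835) x3807) x3483) x3267)
    (Nat.add (Nat.add (Nat.add (Nat.add (Nat.add (Nat.add (Nat.add (Nat.add C (Nat.mul x3403 (nat_lit 2))) x7777) x1945) x4861) x3889) x3241) x3405) x9963)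
    (Nat.add (Nat.add (Nat.add (Nat.add (Nat.add (Nat.add (Nat.add (Nat.add C (Nat.mul x3405 (nat_lit 2))) x7779) x1947) x4863) x3891) x3243) x3411) x3403)
    (Nat.add (Nat.add (Nat.add (Nat.add (Nat.add (Nat.add (Nat.add (Nat.add C (Nat.mul x3411 (nat_lit 2))) x7785) x1953) x4869) x3897) x3249) x3429) x3405)
    (Nat.add (Nat.add (Nat.add (Nat.add (Nat.add (Nat.add (Nat.add (Nat.add C (Nat.mul x3429 (nat_lit 2))) x7803) x1971) x4887) x3915) x3267) x3483) x3411)
    (Nat.add (Nat.add (Nat.add (Nat.add (Nat.add (Nat.add (Nat.add C (Nat.mul x3483 (nat_lit 4))) x7857) x2025) x4941) x3969) x3321) x3429)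
    (Nat.add (Nat.add (Nat.add (Nat.add (Nat.add (Nat.add C x3647) x8021) x5105) x3161) x3649) x10207)
    (Nat.add (Nat.add (Nat.add (Nat.add (Nat.add (Nat.add (Nat.add (Nat.add C (Nat.mul x3649 (nat_lit 2))) x8023) x5107) x3163) x3655) x3647) x3651) x10209)
    (Nat.add (Nat.add (Nat.add (Nat.add (Nat.add (Nat.add C x3651) x8025) x5109) x3165) x3657) x3649)
    (Nat.add (Nat.add (Nat.add (Nat.add (Nat.add (Nat.add (Nat.add (Nat.add C x3655) x8029) x5113) x3169) x3673) x3649) x3657) x10215)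
    (Nat.add (Nat.add (Nat.add (Nat.add (Nat.add (Nat.add (Nat.add (Nat.add C (Nat.mul x3657 (nat_lit 2))) x8031) x5115) x3171) x3675) x3651) x3663) x3655)
    (Nat.add (Nat.add (Nat.add (Nat.add (Nat.add (Nat.add C x3663) x8037) x5121) x3177) x3681) x3657)
    (Nat.add (Nat.add (Nat.add (Nat.add (Nat.add (Nat.add (Nat.add (Nat.add C x3673) x8047) x5131) x3187) x3727) x3655) x3675) x10233)
    (Nat.add (Nat.add (Nat.add (Nat.add (Nat.add (Nat.add (Nat.add (Nat.add C x3675) x8049) x5133) x3189) x3729) x3657) x3681) x3673)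
    (Nat.add (Nat.add (Nat.add (Nat.add (Nat.add (Nat.add (Nat.add (Nat.add C (Nat.mul x3681 (nat_lit 2))) x8055) x5139) x3195) x3735) x3663) x3699) x3675)
    (Nat.add (Nat.add (Nat.add (Nat.add (Nat.add (Nat.add C x3699) x8073) x5157) x3213) x3753) x3681)
    (Nat.add (Nat.add (Nat.add (Nat.add (Nat.add (Nat.add (Nat.add (Nat.add C x3727) x8101) x5185) x3241) x3889) x3673) x3729) x10287)
    (Nat.add (Nat.add (Nat.add (Nat.add (Nat.add (Nat.add (Nat.add (Nat.add C x3729) x8103) x5187) x3243) x3891) x3675) x3735) x3727)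
    (Nat.add (Nat.add (Nat.add (Nat.add (Nat.add (Nat.add (Nat.add (Nat.add C x3735) x8109) x5193) x3249) x3897) x3681) x3753) x3729)
    (Nat.add (Nat.add (Nat.add (Nat.add (Nat.add (Nat.add (Nat.add (Nat.add C (Nat.mul x3753 (nat_lit 2))) x8127) x5211) x3267) x3915) x3699) x3807) x3735)
    (Nat.add (Nat.add (Nat.add (Nat.add (Nat.add (Nat.add C x3807) x8181) x5265) x3321) x3969) x3753)
    (Nat.add (Nat.add (Nat.add (Nat.add (Nat.add (Nat.add (Nat.add C (Nat.mul x3889 (nat_lit 3))) x8263) x5347) x3403) x3727) x3891) x10449)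
    (Nat.add (Nat.add (Nat.add (Nat.add (Nat.add (Nat.add (Nat.add C (Nat.mul x3891 (nat_lit 3))) x8265) x5349) x3405) x3729) x3897) x3889)
    (Nat.add (Nat.add (Nat.add (Nat.add (Nat.add (Nat.add (Nat.add C (Nat.mul x3897 (nat_lit 3))) x8271) x5355) x3411) x3735) x3915) x3891)
    (Nat.add (Nat.add (Nat.add (Nat.add (Nat.add (Nat.add (Nat.add C (Nat.mul x3915 (nat_lit 3))) x8289) x5373) x3429) x3753) x3969) x3897)
    (Nat.add (Nat.add (Nat.add (Nat.add (Nat.add (Nat.add (Nat.add C (Nat.mul x3969 (nat_lit 4))) x8343) x5427) x3483) x3807) x4131) x3915)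
    (Nat.add (Nat.add (Nat.add (Nat.add C (Nat.mul x4131 (nat_lit 5))) x8505) x5589) x3969)
    (Nat.add (Nat.add (Nat.add (Nat.add (Nat.add (Nat.add C x4379) x8753) x2921) x4385) x4381) x10939)
    (Nat.add (Nat.add (Nat.add (Nat.add (Nat.add (Nat.add C x4381) x8755) x2923) x4387) x4379) x10941)
    (Nat.sub (Nat.add (Nat.add (Nat.add (Nat.add (Nat.add (Nat.add C x8759) x2927) x4403) x4379) x4387) x10945) x4385)
    (Nat.add (Nat.add (Nat.add (Nat.add (Nat.add (Nat.add (Nat.add (Nat.add (Nat.add C x4387) x8761) x2929) x4405) x4381) x4393) x4385) x4389) x10947)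
    (Nat.add (Nat.add (Nat.add (Nat.add (Nat.add (Nat.add C x4389) x8763) x2931) x4407) x4395) x4387)
    (Nat.sub (Nat.add (Nat.add (Nat.add (Nat.add (Nat.add (Nat.add C x8767) x2935) x4411) x4387) x4395) x10953) x4393)
    (Nat.add (Nat.add (Nat.add (Nat.add (Nat.add (Nat.add C x4395) x8769) x2937) x4413) x4389) x4393)
    (Nat.sub (Nat.add (Nat.add (Nat.add (Nat.add (Nat.add (Nat.add C x8777) x2945) x4457) x4385) x4405) x10963) x4403)
    (Nat.add (Nat.add (Nat.add (Nat.add (Nat.add (Nat.add (Nat.add (Nat.add C x8779) x2947) x4459) x4387) x4411) x4403) x4407) x10965)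
    (Nat.sub (Nat.add (Nat.add (Nat.add (Nat.add (Nat.add (Nat.add C x8781) x2949) x4461) x4389) x4413) x4405) x4407)
    (Nat.add (Nat.add (Nat.add (Nat.add (Nat.add (Nat.add (Nat.add (Nat.add C x8785) x2953) x4465) x4393) x4429) x4405) x4413) x10971)
    (Nat.add (Nat.add (Nat.add (Nat.add (Nat.add (Nat.add (Nat.add (Nat.add (Nat.add C x4413) x8787) x2955) x4467) x4395) x4431) x4407) x4419) x4411)
    (Nat.add (Nat.add (Nat.add (Nat.add (Nat.add (Nat.add C x4419) x8793) x2961) x4473) x4437) x4413)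
    (Nat.sub (Nat.add (Nat.add (Nat.add (Nat.add (Nat.add (Nat.add C x8803) x2971) x4483) x4411) x4431) x10989) x4429)
    (Nat.sub (Nat.add (Nat.add (Nat.add (Nat.add (Nat.add (Nat.add C x8805) x2973) x4485) x4413) x4437) x4429) x4431)
    (Nat.add (Nat.add (Nat.add (Nat.add (Nat.add (Nat.add C x4437) x8811) x2979) x4491) x4419) x4431)
    (Nat.sub (Nat.add (Nat.add (Nat.add (Nat.add (Nat.add (Nat.add C x8831) x2999) x4619) x4403) x4459) x11017) x4457)
    (Nat.add (Nat.add (Nat.add (Nat.add (Nat.add (Nat.add (Nat.add (Nat.add C x8833) x3001) x4621) x4405) x4465) x4457) x4461) x11019)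
    (Nat.sub (Nat.add (Nat.add (Nat.add (Nat.add (Nat.add (Nat.add C x8835) x3003) x4623) x4407) x4467) x4459) x4461)
    (Nat.sub (Nat.add (Nat.add (Nat.add (Nat.add (Nat.add (Nat.add (Nat.add (Nat.add C x8839) x3007) x4627) x4411) x4483) x4459) x4467) x11025) x4465)
    (Nat.add (Nat.add (Nat.add (Nat.add (Nat.add (Nat.add (Nat.add (Nat.add C x8841) x3009) x4629) x4413) x4485) x4461) x4473) x4465)
    (Nat.sub (Nat.add (Nat.add (Nat.add (Nat.add (Nat.add (Nat.add C x8847) x3015) x4635) x4419) x4491) x4467) x4473)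
    (Nat.add (Nat.add (Nat.add (Nat.add (Nat.add (Nat.add (Nat.add (Nat.add C x8857) x3025) x4645) x4429) x4537) x4465) x4485) x11043)
    (Nat.add (Nat.add (Nat.add (Nat.add (Nat.add (Nat.add (Nat.add (Nat.add C x8859) x3027) x4647) x4431) x4539) x4467) x4491) x4483)
    (Nat.add (Nat.add (Nat.add (Nat.add (Nat.add (Nat.add (Nat.add (Nat.add (Nat.add C x4491) x8865) x3033) x4653) x4437) x4545) x4473) x4509) x4485)
    (Nat.add (Nat.add (Nat.add (Nat.add (Nat.add (Nat.add C x4509) x8883) x3051) x4671) x4563) x4491)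
    (Nat.sub (Nat.add (Nat.add (Nat.add (Nat.add (Nat.add (Nat.add C x8911) x3079) x4699) x4483) x4539) x11097) x4537)
    (Nat.sub (Nat.add (Nat.add (Nat.add (Nat.add (Nat.add (Nat.add C x8913) x3081) x4701) x4485) x4545) x4537) x4539)
    (Nat.sub (Nat.add (Nat.add (Nat.add (Nat.add (Nat.add (Nat.add C x8919) x3087) x4707) x4491) x4563) x4539) x4545)
    (Nat.add (Nat.add (Nat.add (Nat.add (Nat.add (Nat.add C x4563) x8937) x3105) x4725) x4509) x4545)
    (Nat.sub (Nat.add (Nat.add (Nat.add (Nat.add (Nat.add (Nat.add C x8993) x3161) x5105) x4457) x4621) x11179) x4619)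
    (Nat.add (Nat.add (Nat.add (Nat.add (Nat.add (Nat.add (Nat.add (Nat.add C x8995) x3163) x5107) x4459) x4627) x4619) x4623) x11181)
    (Nat.sub (Nat.add (Nat.add (Nat.add (Nat.add (Nat.add (Nat.add C x8997) x3165) x5109) x4461) x4629) x4621) x4623)
    (Nat.sub (Nat.add (Nat.add (Nat.add (Nat.add (Nat.add (Nat.add (Nat.add (Nat.add C x9001) x3169) x5113) x4465) x4645) x4621) x4629) x11187) x4627)
    (Nat.add (Nat.add (Nat.add (Nat.add (Nat.add (Nat.add (Nat.add (Nat.add C x9003) x3171) x5115) x4467) x4647) x4623) x4635) x4627)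
    (Nat.sub (Nat.add (Nat.add (Nat.add (Nat.add (Nat.add (Nat.add C x9009) x3177) x5121) x4473) x4653) x4629) x4635)
    (Nat.sub (Nat.add (Nat.add (Nat.add (Nat.add (Nat.add (Nat.add (Nat.add (Nat.add C x9019) x3187) x5131) x4483) x4699) x4627) x4647) x11205) x4645)
    (Nat.sub (Nat.add (Nat.add (Nat.add (Nat.add (Nat.add (Nat.add (Nat.add (Nat.add C x9021) x3189) x5133) x4485) x4701) x4629) x4653) x4645) x4647)
    (Nat.add (Nat.add (Nat.add (Nat.add (Nat.add (Nat.add (Nat.add (Nat.add C x9027) x3195) x5139) x4491) x4707) x4635) x4671) x4647)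
    (Nat.sub (Nat.add (Nat.add (Nat.add (Nat.add (Nat.add (Nat.add C x9045) x3213) x5157) x4509) x4725) x4653) x4671)
    (Nat.add (Nat.add (Nat.add (Nat.add (Nat.add (Nat.add (Nat.add (Nat.add C x9073) x3241) x5185) x4537) x4861) x4645) x4701) x11259)
    (Nat.add (Nat.add (Nat.add (Nat.add (Nat.add (Nat.add (Nat.add (Nat.add C x9075) x3243) x5187) x4539) x4863) x4647) x4707) x4699)
    (Nat.add (Nat.add (Nat.add (Nat.add (Nat.add (Nat.add (Nat.add (Nat.add C x9081) x3249) x5193) x4545) x4869) x4653) x4725) x4701)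
    (Nat.add (Nat.add (Nat.add (Nat.add (Nat.add (Nat.add (Nat.add (Nat.add (Nat.add C x4725) x9099) x3267) x5211) x4563) x4887) x4671) x4779) x4707)
    (Nat.add (Nat.add (Nat.add (Nat.add (Nat.add (Nat.add C x4779) x9153) x3321) x5265) x4941) x4725)
    (Nat.sub (Nat.add (Nat.add (Nat.add (Nat.add (Nat.add (Nat.add C x9235) x3403) x5347) x4699) x4863) x11421) x4861)
    (Nat.sub (Nat.add (Nat.add (Nat.add (Nat.add (Nat.add (Nat.add C x9237) x3405) x5349) x4701) x4869) x4861) x4863)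
    (Nat.sub (Nat.add (Nat.add (Nat.add (Nat.add (Nat.add (Nat.add C x9243) x3411) x5355) x4707) x4887) x4863) x4869)
    (Nat.sub (Nat.add (Nat.add (Nat.add (Nat.add (Nat.add (Nat.add C x9261) x3429) x5373) x4725) x4941) x4869) x4887)
    (Nat.add (Nat.add (Nat.add (Nat.add (Nat.add (Nat.add C x4941) x9315) x3483) x5427) x4779) x4887)
    (Nat.add (Nat.add (Nat.add (Nat.add (Nat.add (Nat.add C x5105) x9479) x3647) x4619) x5107) x11665)
    (Nat.add (Nat.add (Nat.add (Nat.add (Nat.add (Nat.add (Nat.add (Nat.add C (Nat.mul x5107 (nat_lit 2))) x9481) x3649) x4621) x5113) x5105) x5109) x11667)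
    (Nat.add (Nat.add (Nat.add (Nat.add (Nat.add (Nat.add C x5109) x9483) x3651) x4623) x5115) x5107)
    (Nat.add (Nat.add (Nat.add (Nat.add (Nat.add (Nat.add (Nat.add (Nat.add C x5113) x9487) x3655) x4627) x5131) x5107) x5115) x11673)
    (Nat.add (Nat.add (Nat.add (Nat.add (Nat.add (Nat.add (Nat.add (Nat.add C (Nat.mul x5115 (nat_lit 2))) x9489) x3657) x4629) x5133) x5109) x5121) x5113)
    (Nat.add (Nat.add (Nat.add (Nat.add (Nat.add (Nat.add C x5121) x9495) x3663) x4635) x5139) x5115)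
    (Nat.add (Nat.add (Nat.add (Nat.add (Nat.add (Nat.add (Nat.add (Nat.add C x5131) x9505) x3673) x4645) x5185) x5113) x5133) x11691)
    (Nat.add (Nat.add (Nat.add (Nat.add (Nat.add (Nat.add (Nat.add (Nat.add C x5133) x9507) x3675) x4647) x5187) x5115) x5139) x5131)
    (Nat.add (Nat.add (Nat.add (Nat.add (Nat.add (Nat.add (Nat.add (Nat.add C (Nat.mul x5139 (nat_lit 2))) x9513) x3681) x4653) x5193) x5121) x5157) x5133)
    (Nat.add (Nat.add (Nat.add (Nat.add (Nat.add (Nat.add C x5157) x9531) x3699) x4671) x5211) x5139)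
    (Nat.add (Nat.add (Nat.add (Nat.add (Nat.add (Nat.add (Nat.add (Nat.add C x5185) x9559) x3727) x4699) x5347) x5131) x5187) x11745)
    (Nat.add (Nat.add (Nat.add (Nat.add (Nat.add (Nat.add (Nat.add (Nat.add C x5187) x9561) x3729) x4701) x5349) x5133) x5193) x5185)
    (Nat.add (Nat.add (Nat.add (Nat.add (Nat.add (Nat.add (Nat.add (Nat.add C x5193) x9567) x3735) x4707) x5355) x5139) x5211) x5187)
    (Nat.add (Nat.add (Nat.add (Nat.add (Nat.add (Nat.add (Nat.add (Nat.add C (Nat.mul x5211 (nat_lit 2))) x9585) x3753) x4725) x5373) x5157) x5265) x5193)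
    (Nat.add (Nat.add (Nat.add (Nat.add (Nat.add (Nat.add C x5265) x9639) x3807) x4779) x5427) x5211)
    (Nat.add (Nat.add (Nat.add (Nat.add (Nat.add (Nat.add (Nat.add (Nat.add C (Nat.mul x5347 (nat_lit 2))) x9721) x3889) x4861) x5833) x5185) x5349) x11907)
    (Nat.add (Nat.add (Nat.add (Nat.add (Nat.add (Nat.add (Nat.add (Nat.add C (Nat.mul x5349 (nat_lit 2))) x9723) x3891) x4863) x5835) x5187) x5355) x5347)
    (Nat.add (Nat.add (Nat.add (Nat.add (Nat.add (Nat.add (Nat.add (Nat.add C (Nat.mul x5355 (nat_lit 2))) x9729) x3897) x4869) x5841) x5193) x5373) x5349)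
    (Nat.add (Nat.add (Nat.add (Nat.add (Nat.add (Nat.add (Nat.add (Nat.add C (Nat.mul x5373 (nat_lit 2))) x9747) x3915) x4887) x5859) x5211) x5427) x5355)
    (Nat.add (Nat.add (Nat.add (Nat.add (Nat.add (Nat.add (Nat.add (Nat.add C (Nat.mul x5427 (nat_lit 3))) x9801) x3969) x4941) x5913) x5265) x5589) x5373)
    (Nat.add (Nat.add (Nat.add (Nat.add (Nat.add C (Nat.mul x5589 (nat_lit 3))) x9963) x4131) x6075) x5427)
    (Nat.add (Nat.add (Nat.add (Nat.add (Nat.add C (Nat.mul x5833 (nat_lit 3))) x10207) x5347) x5835) x12393)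
    (Nat.add (Nat.add (Nat.add (Nat.add (Nat.add C (Nat.mul x5835 (nat_lit 3))) x10209) x5349) x5841) x5833)
    (Nat.add (Nat.add (Nat.add (Nat.add (Nat.add C (Nat.mul x5841 (nat_lit 3))) x10215) x5355) x5859) x5835)
    (Nat.add (Nat.add (Nat.add (Nat.add (Nat.add C (Nat.mul x5859 (nat_lit 3))) x10233) x5373) x5913) x5841)
    (Nat.add (Nat.add (Nat.add (Nat.add (Nat.add C (Nat.mul x5913 (nat_lit 3))) x10287) x5427) x6075) x5859)
    (Nat.add (Nat.add (Nat.add (Nat.add C (Nat.mul x6075 (nat_lit 5))) x10449) x5589) x5913)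
    (Nat.add (Nat.add (Nat.add (Nat.add C (Nat.mul x6569 (nat_lit 5))) x2195) x6575) x13129)
    (Nat.add (Nat.add (Nat.add (Nat.add (Nat.add (Nat.add (Nat.add C (Nat.mul x6575 (nat_lit 4))) x2201) x6593) x6569) x6581) x6577) x13135)
    (Nat.add (Nat.add (Nat.add (Nat.add (Nat.add (Nat.add (Nat.add C (Nat.mul x6577 (nat_lit 4))) x2203) x6595) x6583) x6575) x13137) x17)
    (Nat.add (Nat.add (Nat.add (Nat.add (Nat.add (Nat.add C x6581) x2207) x6599) x6575) x6583) x13141)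
    (Nat.add (Nat.add (Nat.add (Nat.add (Nat.add (Nat.add (Nat.add (Nat.add C (Nat.mul x6583 (nat_lit 3))) x2209) x6601) x6577) x6581) x6585) x13143) x23)
    (Nat.add (Nat.add (Nat.add (Nat.add (Nat.add C (Nat.mul x6585 (nat_lit 3))) x2211) x6603) x6583) x25)
    (Nat.add (Nat.add (Nat.add (Nat.add (Nat.add (Nat.add (Nat.add C (Nat.mul x6593 (nat_lit 3))) x2219) x6647) x6575) x6599) x6595) x13153)
    (Nat.add (Nat.add (Nat.add (Nat.add (Nat.add (Nat.add (Nat.add (Nat.add C (Nat.mul x6595 (nat_lit 2))) x2221) x6649) x6577) x6601) x6593) x13155) x35)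
    (Nat.add (Nat.add (Nat.add (Nat.add (Nat.add (Nat.add (Nat.add (Nat.add C (Nat.mul x6599 (nat_lit 2))) x2225) x6653) x6581) x6617) x6593) x6601) x13159)
    (Nat.add (Nat.add (Nat.add (Nat.add (Nat.add (Nat.add (Nat.add (Nat.add (Nat.add (Nat.add (Nat.add C (Nat.mul x6601 (nat_lit 3))) x2227) x6655) x6583) x6619) x6595) x6607) x6599) x6603) x13161) x41)
    (Nat.add (Nat.add (Nat.add (Nat.add (Nat.add (Nat.add (Nat.add (Nat.add C (Nat.mul x6603 (nat_lit 2))) x2229) x6657) x6585) x6621) x6609) x6601) x43)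
    (Nat.add (Nat.add (Nat.add (Nat.add (Nat.add (Nat.add (Nat.add (Nat.add C (Nat.mul x6607 (nat_lit 2))) x2233) x6661) x6625) x6601) x6609) x13167) x47)
    (Nat.add (Nat.add (Nat.add (Nat.add (Nat.add (Nat.add (Nat.add C (Nat.mul x6609 (nat_lit 3))) x2235) x6663) x6627) x6603) x6607) x49)
    (Nat.add (Nat.add (Nat.add (Nat.add (Nat.add (Nat.add C x6617) x2243) x6671) x6599) x6619) x13177)
    (Nat.add (Nat.add (Nat.add (Nat.add (Nat.add (Nat.add (Nat.add (Nat.add (Nat.add C x6619) x2245) x6673) x6601) x6625) x6617) x6621) x13179) x59)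
    (Nat.sub (Nat.add (Nat.add (Nat.add (Nat.add (Nat.add (Nat.add C x2247) x6675) x6603) x6627) x6619) x61) x6621)
    (Nat.add (Nat.add (Nat.add (Nat.add (Nat.add (Nat.add (Nat.add (Nat.add C (Nat.mul x6625 (nat_lit 2))) x2251) x6679) x6607) x6619) x6627) x13185) x65)
    (Nat.add (Nat.add (Nat.add (Nat.add (Nat.add (Nat.add (Nat.add (Nat.add C (Nat.mul x6627 (nat_lit 2))) x2253) x6681) x6609) x6621) x6633) x6625) x67)
    (Nat.add (Nat.add (Nat.add (Nat.add (Nat.add C (Nat.mul x6633 (nat_lit 3))) x2259) x6687) x6627) x73)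
    (Nat.add (Nat.add (Nat.add (Nat.add (Nat.add (Nat.add (Nat.add C (Nat.mul x6647 (nat_lit 3))) x2273) x6809) x6593) x6653) x6649) x13207)
    (Nat.add (Nat.add (Nat.add (Nat.add (Nat.add (Nat.add (Nat.add (Nat.add C (Nat.mul x6649 (nat_lit 2))) x2275) x6811) x6595) x6655) x6647) x13209) x89)
    (Nat.add (Nat.add (Nat.add (Nat.add (Nat.add (Nat.add (Nat.add (Nat.add C x6653) x2279) x6815) x6599) x6671) x6647) x6655) x13213)
    (Nat.add (Nat.add (Nat.add (Nat.add (Nat.add (Nat.add (Nat.add (Nat.add (Nat.add (Nat.add (Nat.add C (Nat.mul x6655 (nat_lit 2))) x2281) x6817) x6601) x6673) x6649) x6661) x6653) x6657) x13215) x95)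
    (Nat.add (Nat.add (Nat.add (Nat.add (Nat.add (Nat.add (Nat.add (Nat.add C x6657) x2283) x6819) x6603) x6675) x6663) x6655) x97)
    (Nat.add (Nat.add (Nat.add (Nat.add (Nat.add (Nat.add (Nat.add (Nat.add C x2287) x6823) x6607) x6679) x6655) x6663) x13221) x101)
    (Nat.add (Nat.add (Nat.add (Nat.add (Nat.add (Nat.add (Nat.add (Nat.add C x6663) x2289) x6825) x6609) x6681) x6657) x6661) x103)
    (Nat.add (Nat.add (Nat.add (Nat.add (Nat.add (Nat.add (Nat.add (Nat.add C (Nat.mul x6671 (nat_lit 2))) x2297) x6833) x6617) x6725) x6653) x6673) x13231)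
    (Nat.add (Nat.add (Nat.add (Nat.add (Nat.add (Nat.add (Nat.add (Nat.add (Nat.add (Nat.add (Nat.add C (Nat.mul x6673 (nat_lit 2))) x2299) x6835) x6619) x6727) x6655) x6679) x6671) x6675) x13233) x113)
    (Nat.add (Nat.add (Nat.add (Nat.add (Nat.add (Nat.add (Nat.add (Nat.add C x2301) x6837) x6621) x6729) x6657) x6681) x6673) x115)
    (Nat.add (Nat.add (Nat.add (Nat.add (Nat.add (Nat.add (Nat.add (Nat.add (Nat.add (Nat.add (Nat.add C (Nat.mul x6679 (nat_lit 2))) x2305) x6841) x6625) x6733) x6661) x6697) x6673) x6681) x13239) x119)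
    (Nat.add (Nat.add (Nat.add (Nat.add (Nat.add (Nat.add (Nat.add (Nat.add (Nat.add (Nat.add (Nat.add C (Nat.mul x6681 (nat_lit 2))) x2307) x6843) x6627) x6735) x6663) x6699) x6675) x6687) x6679) x121)
    (Nat.add (Nat.add (Nat.add (Nat.add (Nat.add (Nat.add (Nat.add (Nat.add C (Nat.mul x6687 (nat_lit 2))) x2313) x6849) x6633) x6741) x6705) x6681) x127)
    (Nat.add (Nat.add (Nat.add (Nat.add (Nat.add (Nat.add (Nat.add (Nat.add C (Nat.mul x6697 (nat_lit 2))) x2323) x6859) x6751) x6679) x6699) x13257) x137)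
    (Nat.add (Nat.add (Nat.add (Nat.add (Nat.add (Nat.add (Nat.add (Nat.add C x6699) x2325) x6861) x6753) x6681) x6705) x6697) x139)
    (Nat.add (Nat.add (Nat.add (Nat.add (Nat.add (Nat.add (Nat.add C (Nat.mul x6705 (nat_lit 3))) x2331) x6867) x6759) x6687) x6699) x145)
    (Nat.add (Nat.add (Nat.add (Nat.add (Nat.add (Nat.add C x6725) x2351) x6887) x6671) x6727) x13285)
    (Nat.add (Nat.add (Nat.add (Nat.add (Nat.add (Nat.add (Nat.add (Nat.add (Nat.add C x6727) x2353) x6889) x6673) x6733) x6725) x6729) x13287) x167)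
    (Nat.sub (Nat.add (Nat.add (Nat.add (Nat.add (Nat.add (Nat.add C x2355) x6891) x6675) x6735) x6727) x169) x6729)
    (Nat.add (Nat.add (Nat.add (Nat.add (Nat.add (Nat.add (Nat.add (Nat.add C x2359) x6895) x6679) x6751) x6727) x6735) x13293) x173)
    (Nat.add (Nat.add (Nat.add (Nat.add (Nat.add (Nat.add (Nat.add (Nat.add C x2361) x6897) x6681) x6753) x6729) x6741) x6733) x175)
    (Nat.sub (Nat.add (Nat.add (Nat.add (Nat.add (Nat.add (Nat.add C x2367) x6903) x6687) x6759) x6735) x181) x6741)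
    (Nat.add (Nat.add (Nat.add (Nat.add (Nat.add (Nat.add (Nat.add (Nat.add C (Nat.mul x6751 (nat_lit 2))) x2377) x6913) x6697) x6733) x6753) x13311) x191)
    (Nat.add (Nat.add (Nat.add (Nat.add (Nat.add (Nat.add (Nat.add (Nat.add C x6753) x2379) x6915) x6699) x6735) x6759) x6751) x193)
    (Nat.add (Nat.add (Nat.add (Nat.add (Nat.add (Nat.add (Nat.add (Nat.add C (Nat.mul x6759 (nat_lit 2))) x2385) x6921) x6705) x6741) x6777) x6753) x199)
    (Nat.add (Nat.add (Nat.add (Nat.add (Nat.add C (Nat.mul x6777 (nat_lit 3))) x2403) x6939) x6759) x217)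
    (Nat.add (Nat.add (Nat.add (Nat.add (Nat.add (Nat.add (Nat.add C (Nat.mul x6809 (nat_lit 3))) x2435) x7295) x6647) x6815) x6811) x13369)
    (Nat.add (Nat.add (Nat.add (Nat.add (Nat.add (Nat.add (Nat.add (Nat.add C (Nat.mul x6811 (nat_lit 2))) x2437) x7297) x6649) x6817) x6809) x13371) x251)
    (Nat.add (Nat.add (Nat.add (Nat.add (Nat.add (Nat.add (Nat.add (Nat.add C x6815) x2441) x7301) x6653) x6833) x6809) x6817) x13375)
    (Nat.add (Nat.add (Nat.add (Nat.add (Nat.add (Nat.add (Nat.add (Nat.add (Nat.add (Nat.add (Nat.add C (Nat.mul x6817 (nat_lit 2))) x2443) x7303) x6655) x6835) x6811) x6823) x6815) x6819) x13377) x257)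
    (Nat.add (Nat.add (Nat.add (Nat.add (Nat.add (Nat.add (Nat.add (Nat.add C x6819) x2445) x7305) x6657) x6837) x6825) x6817) x259)
    (Nat.add (Nat.add (Nat.add (Nat.add (Nat.add (Nat.add (Nat.add (Nat.add C x2449) x7309) x6661) x6841) x6817) x6825) x13383) x263)
    (Nat.add (Nat.add (Nat.add (Nat.add (Nat.add (Nat.add (Nat.add (Nat.add C x6825) x2451) x7311) x6663) x6843) x6819) x6823) x265)
    (Nat.add (Nat.add (Nat.add (Nat.add (Nat.add (Nat.add (Nat.add (Nat.add C x6833) x2459) x7319) x6671) x6887) x6815) x6835) x13393)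
    (Nat.add (Nat.add (Nat.add (Nat.add (Nat.add (Nat.add (Nat.add (Nat.add (Nat.add (Nat.add (Nat.add C x6835) x2461) x7321) x6673) x6889) x6817) x6841) x6833) x6837) x13395) x275)
    (Nat.sub (Nat.add (Nat.add (Nat.add (Nat.add (Nat.add (Nat.add (Nat.add (Nat.add C x2463) x7323) x6675) x6891) x6819) x6843) x6835) x277) x6837)
    (Nat.add (Nat.add (Nat.add (Nat.add (Nat.add (Nat.add (Nat.add (Nat.add (Nat.add (Nat.add (Nat.add C x6841) x2467) x7327) x6679) x6895) x6823) x6859) x6835) x6843) x13401) x281)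
    (Nat.add (Nat.add (Nat.add (Nat.add (Nat.add (Nat.add (Nat.add (Nat.add (Nat.add (Nat.add (Nat.add C x6843) x2469) x7329) x6681) x6897) x6825) x6861) x6837) x6849) x6841) x283)
    (Nat.add (Nat.add (Nat.add (Nat.add (Nat.add (Nat.add (Nat.add (Nat.add C x6849) x2475) x7335) x6687) x6903) x6867) x6843) x289)
    (Nat.add (Nat.add (Nat.add (Nat.add (Nat.add (Nat.add (Nat.add (Nat.add C x2485) x7345) x6697) x6913) x6841) x6861) x13419) x299)
    (Nat.sub (Nat.add (Nat.add (Nat.add (Nat.add (Nat.add (Nat.add (Nat.add (Nat.add C x2487) x7347) x6699) x6915) x6843) x6867) x6859) x301) x6861)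
    (Nat.add (Nat.add (Nat.add (Nat.add (Nat.add (Nat.add (Nat.add (Nat.add C x6867) x2493) x7353) x6705) x6921) x6849) x6861) x307)
    (Nat.add (Nat.add (Nat.add (Nat.add (Nat.add (Nat.add (Nat.add (Nat.add C (Nat.mul x6887 (nat_lit 2))) x2513) x7373) x6725) x7049) x6833) x6889) x13447)
    (Nat.add (Nat.add (Nat.add (Nat.add (Nat.add (Nat.add (Nat.add (Nat.add (Nat.add (Nat.add (Nat.add C (Nat.mul x6889 (nat_lit 2))) x2515) x7375) x6727) x7051) x6835) x6895) x6887) x6891) x13449) x329)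
    (Nat.add (Nat.add (Nat.add (Nat.add (Nat.add (Nat.add (Nat.add (Nat.add C x2517) x7377) x6729) x7053) x6837) x6897) x6889) x331)
    (Nat.add (Nat.add (Nat.add (Nat.add (Nat.add (Nat.add (Nat.add (Nat.add (Nat.add (Nat.add (Nat.add C x6895) x2521) x7381) x6733) x7057) x6841) x6913) x6889) x6897) x13455) x335)
    (Nat.add (Nat.add (Nat.add (Nat.add (Nat.add (Nat.add (Nat.add (Nat.add (Nat.add (Nat.add (Nat.add C x6897) x2523) x7383) x6735) x7059) x6843) x6915) x6891) x6903) x6895) x337)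
    (Nat.add (Nat.add (Nat.add (Nat.add (Nat.add (Nat.add (Nat.add (Nat.add C x2529) x7389) x6741) x7065) x6849) x6921) x6897) x343)
    (Nat.add (Nat.add (Nat.add (Nat.add (Nat.add (Nat.add (Nat.add (Nat.add (Nat.add (Nat.add (Nat.add C (Nat.mul x6913 (nat_lit 2))) x2539) x7399) x6751) x7075) x6859) x6967) x6895) x6915) x13473) x353)
    (Nat.add (Nat.add (Nat.add (Nat.add (Nat.add (Nat.add (Nat.add (Nat.add (Nat.add (Nat.add (Nat.add C x6915) x2541) x7401) x6753) x7077) x6861) x6969) x6897) x6921) x6913) x355)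
    (Nat.add (Nat.add (Nat.add (Nat.add (Nat.add (Nat.add (Nat.add (Nat.add (Nat.add (Nat.add (Nat.add C (Nat.mul x6921 (nat_lit 2))) x2547) x7407) x6759) x7083) x6867) x6975) x6903) x6939) x6915) x361)
    (Nat.add (Nat.add (Nat.add (Nat.add (Nat.add (Nat.add (Nat.add (Nat.add C (Nat.mul x6939 (nat_lit 2))) x2565) x7425) x6777) x7101) x6993) x6921) x379)
    (Nat.add (Nat.add (Nat.add (Nat.add (Nat.add (Nat.add (Nat.add (Nat.add C (Nat.mul x6967 (nat_lit 2))) x2593) x7453) x7129) x6913) x6969) x13527) x407)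
    (Nat.add (Nat.add (Nat.add (Nat.add (Nat.add (Nat.add (Nat.add (Nat.add C x6969) x2595) x7455) x7131) x6915) x6975) x6967) x409)
    (Nat.add (Nat.add (Nat.add (Nat.add (Nat.add (Nat.add (Nat.add (Nat.add C x6975) x2601) x7461) x7137) x6921) x6993) x6969) x415)
    (Nat.add (Nat.add (Nat.add (Nat.add (Nat.add (Nat.add (Nat.add C (Nat.mul x6993 (nat_lit 3))) x2619) x7479) x7155) x6939) x6975) x433)
    (Nat.add (Nat.add (Nat.add (Nat.add (Nat.add (Nat.add C x7049) x2675) x7535) x6887) x7051) x13609)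
    (Nat.add (Nat.add (Nat.add (Nat.add (Nat.add (Nat.add (Nat.add (Nat.add (Nat.add C x7051) x2677) x7537) x6889) x7057) x7049) x7053) x13611) x491)
    (Nat.sub (Nat.add (Nat.add (Nat.add (Nat.add (Nat.add (Nat.add C x2679) x7539) x6891) x7059) x7051) x493) x7053)
    (Nat.add (Nat.add (Nat.add (Nat.add (Nat.add (Nat.add (Nat.add (Nat.add C x2683) x7543) x6895) x7075) x7051) x7059) x13617) x497)
    (Nat.add (Nat.add (Nat.add (Nat.add (Nat.add (Nat.add (Nat.add (Nat.add C x2685) x7545) x6897) x7077) x7053) x7065) x7057) x499)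
    (Nat.sub (Nat.add (Nat.add (Nat.add (Nat.add (Nat.add (Nat.add C x2691) x7551) x6903) x7083) x7059) x505) x7065)
    (Nat.add (Nat.add (Nat.add (Nat.add (Nat.add (Nat.add (Nat.add (Nat.add C x2701) x7561) x6913) x7129) x7057) x7077) x13635) x515)
    (Nat.sub (Nat.add (Nat.add (Nat.add (Nat.add (Nat.add (Nat.add (Nat.add (Nat.add C x2703) x7563) x6915) x7131) x7059) x7083) x7075) x517) x7077)
    (Nat.add (Nat.add (Nat.add (Nat.add (Nat.add (Nat.add (Nat.add (Nat.add C x2709) x7569) x6921) x7137) x7065) x7101) x7077) x523)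
    (Nat.sub (Nat.add (Nat.add (Nat.add (Nat.add (Nat.add (Nat.add C x2727) x7587) x6939) x7155) x7083) x541) x7101)
    (Nat.add (Nat.add (Nat.add (Nat.add (Nat.add (Nat.add (Nat.add (Nat.add C (Nat.mul x7129 (nat_lit 2))) x2755) x7615) x6967) x7075) x7131) x13689) x569)
    (Nat.add (Nat.add (Nat.add (Nat.add (Nat.add (Nat.add (Nat.add (Nat.add C x7131) x2757) x7617) x6969) x7077) x7137) x7129) x571)
    (Nat.add (Nat.add (Nat.add (Nat.add (Nat.add (Nat.add (Nat.add (Nat.add C x7137) x2763) x7623) x6975) x7083) x7155) x7131) x577)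
    (Nat.add (Nat.add (Nat.add (Nat.add (Nat.add (Nat.add (Nat.add (Nat.add C (Nat.mul x7155 (nat_lit 2))) x2781) x7641) x6993) x7101) x7209) x7137) x595)
    (Nat.add (Nat.add (Nat.add (Nat.add (Nat.add C (Nat.mul x7209 (nat_lit 3))) x2835) x7695) x7155) x649)
    (Nat.add (Nat.add (Nat.add (Nat.add (Nat.add (Nat.add (Nat.add C (Nat.mul x7295 (nat_lit 3))) x2921) x8753) x6809) x7301) x7297) x13855)
    (Nat.add (Nat.add (Nat.add (Nat.add (Nat.add (Nat.add (Nat.add (Nat.add C (Nat.mul x7297 (nat_lit 2))) x2923) x8755) x6811) x7303) x7295) x13857) x737)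
    (Nat.add (Nat.add (Nat.add (Nat.add (Nat.add (Nat.add (Nat.add (Nat.add C x7301) x2927) x8759) x6815) x7319) x7295) x7303) x13861)
    (Nat.add (Nat.add (Nat.add (Nat.add (Nat.add (Nat.add (Nat.add (Nat.add (Nat.add (Nat.add (Nat.add C (Nat.mul x7303 (nat_lit 2))) x2929) x8761) x6817) x7321) x7297) x7309) x7301) x7305) x13863) x743)
    (Nat.add (Nat.add (Nat.add (Nat.add (Nat.add (Nat.add (Nat.add (Nat.add C x7305) x2931) x8763) x6819) x7323) x7311) x7303) x745)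
    (Nat.add (Nat.add (Nat.add (Nat.add (Nat.add (Nat.add (Nat.add (Nat.add C x2935) x8767) x6823) x7327) x7303) x7311) x13869) x749)
    (Nat.add (Nat.add (Nat.add (Nat.add (Nat.add (Nat.add (Nat.add (Nat.add C x7311) x2937) x8769) x6825) x7329) x7305) x7309) x751)
    (Nat.add (Nat.add (Nat.add (Nat.add (Nat.add (Nat.add (Nat.add (Nat.add C x7319) x2945) x8777) x6833) x7373) x7301) x7321) x13879)
    (Nat.add (Nat.add (Nat.add (Nat.add (Nat.add (Nat.add (Nat.add (Nat.add (Nat.add (Nat.add (Nat.add C x7321) x2947) x8779) x6835) x7375) x7303) x7327) x7319) x7323) x13881) x761)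
    (Nat.sub (Nat.add (Nat.add (Nat.add (Nat.add (Nat.add (Nat.add (Nat.add (Nat.add C x2949) x8781) x6837) x7377) x7305) x7329) x7321) x763) x7323)
    (Nat.add (Nat.add (Nat.add (Nat.add (Nat.add (Nat.add (Nat.add (Nat.add (Nat.add (Nat.add (Nat.add C x7327) x2953) x8785) x6841) x7381) x7309) x7345) x7321) x7329) x13887) x767)
    (Nat.add (Nat.add (Nat.add (Nat.add (Nat.add (Nat.add (Nat.add (Nat.add (Nat.add (Nat.add (Nat.add C x7329) x2955) x8787) x6843) x7383) x7311) x7347) x7323) x7335) x7327) x769)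
    (Nat.add (Nat.add (Nat.add (Nat.add (Nat.add (Nat.add (Nat.add (Nat.add C x7335) x2961) x8793) x6849) x7389) x7353) x7329) x775)
    (Nat.add (Nat.add (Nat.add (Nat.add (Nat.add (Nat.add (Nat.add (Nat.add C x2971) x8803) x6859) x7399) x7327) x7347) x13905) x785)
    (Nat.sub (Nat.add (Nat.add (Nat.add (Nat.add (Nat.add (Nat.add (Nat.add (Nat.add C x2973) x8805) x6861) x7401) x7329) x7353) x7345) x787) x7347)
    (Nat.add (Nat.add (Nat.add (Nat.add (Nat.add (Nat.add (Nat.add (Nat.add C x7353) x2979) x8811) x6867) x7407) x7335) x7347) x793)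
    (Nat.add (Nat.add (Nat.add (Nat.add (Nat.add (Nat.add (Nat.add (Nat.add C x7373) x2999) x8831) x6887) x7535) x7319) x7375) x13933)
    (Nat.add (Nat.add (Nat.add (Nat.add (Nat.add (Nat.add (Nat.add (Nat.add (Nat.add (Nat.add (Nat.add C x7375) x3001) x8833) x6889) x7537) x7321) x7381) x7373) x7377) x13935) x815)
    (Nat.sub (Nat.add (Nat.add (Nat.add (Nat.add (Nat.add (Nat.add (Nat.add (Nat.add C x3003) x8835) x6891) x7539) x7323) x7383) x7375) x817) x7377)
    (Nat.add (Nat.add (Nat.add (Nat.add (Nat.add (Nat.add (Nat.add (Nat.add (Nat.add (Nat.add C x3007) x8839) x6895) x7543) x7327) x7399) x7375) x7383) x13941) x821)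
    (Nat.add (Nat.add (Nat.add (Nat.add (Nat.add (Nat.add (Nat.add (Nat.add (Nat.add (Nat.add C x3009) x8841) x6897) x7545) x7329) x7401) x7377) x7389) x7381) x823)
    (Nat.sub (Nat.add (Nat.add (Nat.add (Nat.add (Nat.add (Nat.add (Nat.add (Nat.add C x3015) x8847) x6903) x7551) x7335) x7407) x7383) x829) x7389)
    (Nat.add (Nat.add (Nat.add (Nat.add (Nat.add (Nat.add (Nat.add (Nat.add (Nat.add (Nat.add (Nat.add C x7399) x3025) x8857) x6913) x7561) x7345) x7453) x7381) x7401) x13959) x839)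
    (Nat.add (Nat.add (Nat.add (Nat.add (Nat.add (Nat.add (Nat.add (Nat.add (Nat.add (Nat.add C x3027) x8859) x6915) x7563) x7347) x7455) x7383) x7407) x7399) x841)
    (Nat.add (Nat.add (Nat.add (Nat.add (Nat.add (Nat.add (Nat.add (Nat.add (Nat.add (Nat.add (Nat.add C x7407) x3033) x8865) x6921) x7569) x7353) x7461) x7389) x7425) x7401) x847)
    (Nat.add (Nat.add (Nat.add (Nat.add (Nat.add (Nat.add (Nat.add (Nat.add C x7425) x3051) x8883) x6939) x7587) x7479) x7407) x865)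
    (Nat.add (Nat.add (Nat.add (Nat.add (Nat.add (Nat.add (Nat.add (Nat.add C x3079) x8911) x6967) x7615) x7399) x7455) x14013) x893)
    (Nat.sub (Nat.add (Nat.add (Nat.add (Nat.add (Nat.add (Nat.add (Nat.add (Nat.add C x3081) x8913) x6969) x7617) x7401) x7461) x7453) x895) x7455)
    (Nat.sub (Nat.add (Nat.add (Nat.add (Nat.add (Nat.add (Nat.add (Nat.add (Nat.add C x3087) x8919) x6975) x7623) x7407) x7479) x7455) x901) x7461)
    (Nat.add (Nat.add (Nat.add (Nat.add (Nat.add (Nat.add (Nat.add (Nat.add C x7479) x3105) x8937) x6993) x7641) x7425) x7461) x919)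
    (Nat.add (Nat.add (Nat.add (Nat.add (Nat.add (Nat.add (Nat.add (Nat.add C (Nat.mul x7535 (nat_lit 2))) x3161) x8993) x7049) x8021) x7373) x7537) x14095)
    (Nat.add (Nat.add (Nat.add (Nat.add (Nat.add (Nat.add (Nat.add (Nat.add (Nat.add (Nat.add (Nat.add C (Nat.mul x7537 (nat_lit 2))) x3163) x8995) x7051) x8023) x7375) x7543) x7535) x7539) x14097) x977)
    (Nat.add (Nat.add (Nat.add (Nat.add (Nat.add (Nat.add (Nat.add (Nat.add C x3165) x8997) x7053) x8025) x7377) x7545) x7537) x979)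
    (Nat.add (Nat.add (Nat.add (Nat.add (Nat.add (Nat.add (Nat.add (Nat.add (Nat.add (Nat.add (Nat.add C x7543) x3169) x9001) x7057) x8029) x7381) x7561) x7537) x7545) x14103) x983)
    (Nat.add (Nat.add (Nat.add (Nat.add (Nat.add (Nat.add (Nat.add (Nat.add (Nat.add (Nat.add (Nat.add C x7545) x3171) x9003) x7059) x8031) x7383) x7563) x7539) x7551) x7543) x985)
    (Nat.add (Nat.add (Nat.add (Nat.add (Nat.add (Nat.add (Nat.add (Nat.add C x3177) x9009) x7065) x8037) x7389) x7569) x7545) x991)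
    (Nat.add (Nat.add (Nat.add (Nat.add (Nat.add (Nat.add (Nat.add (Nat.add (Nat.add (Nat.add (Nat.add C x7561) x3187) x9019) x7075) x8047) x7399) x7615) x7543) x7563) x14121) x1001)
    (Nat.add (Nat.add (Nat.add (Nat.add (Nat.add (Nat.add (Nat.add (Nat.add (Nat.add (Nat.add C x3189) x9021) x7077) x8049) x7401) x7617) x7545) x7569) x7561) x1003)
    (Nat.add (Nat.add (Nat.add (Nat.add (Nat.add (Nat.add (Nat.add (Nat.add (Nat.add (Nat.add (Nat.add C x7569) x3195) x9027) x7083) x8055) x7407) x7623) x7551) x7587) x7563) x1009)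
    (Nat.add (Nat.add (Nat.add (Nat.add (Nat.add (Nat.add (Nat.add (Nat.add C x3213) x9045) x7101) x8073) x7425) x7641) x7569) x1027)
    (Nat.add (Nat.add (Nat.add (Nat.add (Nat.add (Nat.add (Nat.add (Nat.add (Nat.add (Nat.add (Nat.add C (Nat.mul x7615 (nat_lit 2))) x3241) x9073) x7129) x8101) x7453) x7777) x7561) x7617) x14175) x1055)
    (Nat.add (Nat.add (Nat.add (Nat.add (Nat.add (Nat.add (Nat.add (Nat.add (Nat.add (Nat.add (Nat.add C x7617) x3243) x9075) x7131) x8103) x7455) x7779) x7563) x7623) x7615) x1057)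
    (Nat.add (Nat.add (Nat.add (Nat.add (Nat.add (Nat.add (Nat.add (Nat.add (Nat.add (Nat.add (Nat.add C x7623) x3249) x9081) x7137) x8109) x7461) x7785) x7569) x7641) x7617) x1063)
    (Nat.add (Nat.add (Nat.add (Nat.add (Nat.add (Nat.add (Nat.add (Nat.add (Nat.add (Nat.add (Nat.add C (Nat.mul x7641 (nat_lit 2))) x3267) x9099) x7155) x8127) x7479) x7803) x7587) x7695) x7623) x1081)
    (Nat.add (Nat.add (Nat.add (Nat.add (Nat.add (Nat.add (Nat.add (Nat.add C (Nat.mul x7695 (nat_lit 2))) x3321) x9153) x7209) x8181) x7857) x7641) x1135)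
    (Nat.add (Nat.add (Nat.add (Nat.add (Nat.add (Nat.add (Nat.add (Nat.add C (Nat.mul x7777 (nat_lit 2))) x3403) x9235) x8263) x7615) x7779) x14337) x1217)
    (Nat.add (Nat.add (Nat.add (Nat.add (Nat.add (Nat.add (Nat.add (Nat.add C x7779) x3405) x9237) x8265) x7617) x7785) x7777) x1219)
    (Nat.add (Nat.add (Nat.add (Nat.add (Nat.add (Nat.add (Nat.add (Nat.add C x7785) x3411) x9243) x8271) x7623) x7803) x7779) x1225)
    (Nat.add (Nat.add (Nat.add (Nat.add (Nat.add (Nat.add (Nat.add (Nat.add C x7803) x3429) x9261) x8289) x7641) x7857) x7785) x1243)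
    (Nat.add (Nat.add (Nat.add (Nat.add (Nat.add (Nat.add (Nat.add C (Nat.mul x7857 (nat_lit 3))) x3483) x9315) x8343) x7695) x7803) x1297)
    (Nat.add (Nat.add (Nat.add (Nat.add (Nat.add (Nat.add C x8021) x3647) x9479) x7535) x8023) x14581)
    (Nat.add (Nat.add (Nat.add (Nat.add (Nat.add (Nat.add (Nat.add (Nat.add (Nat.add C x8023) x3649) x9481) x7537) x8029) x8021) x8025) x14583) x1463)
    (Nat.sub (Nat.add (Nat.add (Nat.add (Nat.add (Nat.add (Nat.add C x3651) x9483) x7539) x8031) x8023) x1465) x8025)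
    (Nat.add (Nat.add (Nat.add (Nat.add (Nat.add (Nat.add (Nat.add (Nat.add C x3655) x9487) x7543) x8047) x8023) x8031) x14589) x1469)
    (Nat.add (Nat.add (Nat.add (Nat.add (Nat.add (Nat.add (Nat.add (Nat.add C x3657) x9489) x7545) x8049) x8025) x8037) x8029) x1471)
    (Nat.sub (Nat.add (Nat.add (Nat.add (Nat.add (Nat.add (Nat.add C x3663) x9495) x7551) x8055) x8031) x1477) x8037)
    (Nat.add (Nat.add (Nat.add (Nat.add (Nat.add (Nat.add (Nat.add (Nat.add C x3673) x9505) x7561) x8101) x8029) x8049) x14607) x1487)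
    (Nat.sub (Nat.add (Nat.add (Nat.add (Nat.add (Nat.add (Nat.add (Nat.add (Nat.add C x3675) x9507) x7563) x8103) x8031) x8055) x8047) x1489) x8049)
    (Nat.add (Nat.add (Nat.add (Nat.add (Nat.add (Nat.add (Nat.add (Nat.add C x3681) x9513) x7569) x8109) x8037) x8073) x8049) x1495)
    (Nat.sub (Nat.add (Nat.add (Nat.add (Nat.add (Nat.add (Nat.add C x3699) x9531) x7587) x8127) x8055) x1513) x8073)
    (Nat.add (Nat.add (Nat.add (Nat.add (Nat.add (Nat.add (Nat.add (Nat.add C x3727) x9559) x7615) x8263) x8047) x8103) x14661) x1541)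
    (Nat.sub (Nat.add (Nat.add (Nat.add (Nat.add (Nat.add (Nat.add (Nat.add (Nat.add C x3729) x9561) x7617) x8265) x8049) x8109) x8101) x1543) x8103)
    (Nat.sub (Nat.add (Nat.add (Nat.add (Nat.add (Nat.add (Nat.add (Nat.add (Nat.add C x3735) x9567) x7623) x8271) x8055) x8127) x8103) x1549) x8109)
    (Nat.add (Nat.add (Nat.add (Nat.add (Nat.add (Nat.add (Nat.add (Nat.add C x3753) x9585) x7641) x8289) x8073) x8181) x8109) x1567)
    (Nat.sub (Nat.add (Nat.add (Nat.add (Nat.add (Nat.add (Nat.add C x3807) x9639) x7695) x8343) x8127) x1621) x8181)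
    (Nat.add (Nat.add (Nat.add (Nat.add (Nat.add (Nat.add (Nat.add (Nat.add C (Nat.mul x8263 (nat_lit 2))) x3889) x9721) x7777) x8101) x8265) x14823) x1703)
    (Nat.add (Nat.add (Nat.add (Nat.add (Nat.add (Nat.add (Nat.add (Nat.add C x8265) x3891) x9723) x7779) x8103) x8271) x8263) x1705)
    (Nat.add (Nat.add (Nat.add (Nat.add (Nat.add (Nat.add (Nat.add (Nat.add C x8271) x3897) x9729) x7785) x8109) x8289) x8265) x1711)
    (Nat.add (Nat.add (Nat.add (Nat.add (Nat.add (Nat.add (Nat.add (Nat.add C x8289) x3915) x9747) x7803) x8127) x8343) x8271) x1729)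
    (Nat.add (Nat.add (Nat.add (Nat.add (Nat.add (Nat.add (Nat.add (Nat.add C (Nat.mul x8343 (nat_lit 2))) x3969) x9801) x7857) x8181) x8505) x8289) x1783)
    (Nat.add (Nat.add (Nat.add (Nat.add (Nat.add C (Nat.mul x8505 (nat_lit 3))) x4131) x9963) x8343) x1945)
    (Nat.add (Nat.add (Nat.add (Nat.add (Nat.add (Nat.add (Nat.add C (Nat.mul x8753 (nat_lit 4))) x4379) x13127) x7295) x8759) x8755) x15313)
    (Nat.add (Nat.add (Nat.add (Nat.add (Nat.add (Nat.add (Nat.add (Nat.add C (Nat.mul x8755 (nat_lit 3))) x4381) x13129) x7297) x8761) x8753) x15315) x2195)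
    (Nat.add (Nat.add (Nat.add (Nat.add (Nat.add (Nat.add (Nat.add (Nat.add C (Nat.mul x8759 (nat_lit 2))) x4385) x13133) x7301) x8777) x8753) x8761) x15319)
    (Nat.add (Nat.add (Nat.add (Nat.add (Nat.add (Nat.add (Nat.add (Nat.add (Nat.add (Nat.add (Nat.add C (Nat.mul x8761 (nat_lit 3))) x4387) x13135) x7303) x8779) x8755) x8767) x8759) x8763) x15321) x2201)
    (Nat.add (Nat.add (Nat.add (Nat.add (Nat.add (Nat.add (Nat.add (Nat.add C (Nat.mul x8763 (nat_lit 2))) x4389) x13137) x7305) x8781) x8769) x8761) x2203)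
    (Nat.add (Nat.add (Nat.add (Nat.add (Nat.add (Nat.add (Nat.add (Nat.add (Nat.add C x8767) x4393) x13141) x7309) x8785) x8761) x8769) x15327) x2207)
    (Nat.add (Nat.add (Nat.add (Nat.add (Nat.add (Nat.add (Nat.add (Nat.add C (Nat.mul x8769 (nat_lit 2))) x4395) x13143) x7311) x8787) x8763) x8767) x2209)
    (Nat.add (Nat.add (Nat.add (Nat.add (Nat.add (Nat.add (Nat.add (Nat.add C (Nat.mul x8777 (nat_lit 2))) x4403) x13151) x7319) x8831) x8759) x8779) x15337)
    (Nat.add (Nat.add (Nat.add (Nat.add (Nat.add (Nat.add (Nat.add (Nat.add (Nat.add (Nat.add (Nat.add C (Nat.mul x8779 (nat_lit 2))) x4405) x13153) x7321) x8833) x8761) x8785) x8777) x8781) x15339) x2219)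
    (Nat.add (Nat.add (Nat.add (Nat.add (Nat.add (Nat.add (Nat.add (Nat.add C x4407) x13155) x7323) x8835) x8763) x8787) x8779) x2221)
    (Nat.add (Nat.add (Nat.add (Nat.add (Nat.add (Nat.add (Nat.add (Nat.add (Nat.add (Nat.add (Nat.add C (Nat.mul x8785 (nat_lit 2))) x4411) x13159) x7327) x8839) x8767) x8803) x8779) x8787) x15345) x2225)
    (Nat.add (Nat.add (Nat.add (Nat.add (Nat.add (Nat.add (Nat.add (Nat.add (Nat.add (Nat.add (Nat.add C (Nat.mul x8787 (nat_lit 2))) x4413) x13161) x7329) x8841) x8769) x8805) x8781) x8793) x8785) x2227)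
    (Nat.add (Nat.add (Nat.add (Nat.add (Nat.add (Nat.add (Nat.add (Nat.add C (Nat.mul x8793 (nat_lit 2))) x4419) x13167) x7335) x8847) x8811) x8787) x2233)
    (Nat.add (Nat.add (Nat.add (Nat.add (Nat.add (Nat.add (Nat.add (Nat.add (Nat.add C x8803) x4429) x13177) x7345) x8857) x8785) x8805) x15363) x2243)
    (Nat.add (Nat.add (Nat.add (Nat.add (Nat.add (Nat.add (Nat.add (Nat.add C x4431) x13179) x7347) x8859) x8787) x8811) x8803) x2245)
    (Nat.add (Nat.add (Nat.add (Nat.add (Nat.add (Nat.add (Nat.add (Nat.add C (Nat.mul x8811 (nat_lit 2))) x4437) x13185) x7353) x8865) x8793) x8805) x2251)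
    (Nat.add (Nat.add (Nat.add (Nat.add (Nat.add (Nat.add (Nat.add (Nat.add C (Nat.mul x8831 (nat_lit 2))) x4457) x13205) x7373) x8993) x8777) x8833) x15391)
    (Nat.add (Nat.add (Nat.add (Nat.add (Nat.add (Nat.add (Nat.add (Nat.add (Nat.add (Nat.add (Nat.add C (Nat.mul x8833 (nat_lit 2))) x4459) x13207) x7375) x8995) x8779) x8839) x8831) x8835) x15393) x2273)
    (Nat.add (Nat.add (Nat.add (Nat.add (Nat.add (Nat.add (Nat.add (Nat.add C x4461) x13209) x7377) x8997) x8781) x8841) x8833) x2275)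
    (Nat.add (Nat.add (Nat.add (Nat.add (Nat.add (Nat.add (Nat.add (Nat.add (Nat.add (Nat.add (Nat.add C x8839) x4465) x13213) x7381) x9001) x8785) x8857) x8833) x8841) x15399) x2279)
    (Nat.add (Nat.add (Nat.add (Nat.add (Nat.add (Nat.add (Nat.add (Nat.add (Nat.add (Nat.add (Nat.add C x8841) x4467) x13215) x7383) x9003) x8787) x8859) x8835) x8847) x8839) x2281)
    (Nat.add (Nat.add (Nat.add (Nat.add (Nat.add (Nat.add (Nat.add (Nat.add C x4473) x13221) x7389) x9009) x8793) x8865) x8841) x2287)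
    (Nat.add (Nat.add (Nat.add (Nat.add (Nat.add (Nat.add (Nat.add (Nat.add (Nat.add (Nat.add (Nat.add C (Nat.mul x8857 (nat_lit 2))) x4483) x13231) x7399) x9019) x8803) x8911) x8839) x8859) x15417) x2297)
    (Nat.add (Nat.add (Nat.add (Nat.add (Nat.add (Nat.add (Nat.add (Nat.add (Nat.add (Nat.add (Nat.add C x8859) x4485) x13233) x7401) x9021) x8805) x8913) x8841) x8865) x8857) x2299)
    (Nat.add (Nat.add (Nat.add (Nat.add (Nat.add (Nat.add (Nat.add (Nat.add (Nat.add (Nat.add (Nat.add C (Nat.mul x8865 (nat_lit 2))) x4491) x13239) x7407) x9027) x8811) x8919) x8847) x8883) x8859) x2305)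
    (Nat.add (Nat.add (Nat.add (Nat.add (Nat.add (Nat.add (Nat.add (Nat.add C (Nat.mul x8883 (nat_lit 2))) x4509) x13257) x7425) x9045) x8937) x8865) x2323)
    (Nat.add (Nat.add (Nat.add (Nat.add (Nat.add (Nat.add (Nat.add (Nat.add (Nat.add C x8911) x4537) x13285) x7453) x9073) x8857) x8913) x15471) x2351)
    (Nat.add (Nat.add (Nat.add (Nat.add (Nat.add (Nat.add (Nat.add (Nat.add C x4539) x13287) x7455) x9075) x8859) x8919) x8911) x2353)
    (Nat.add (Nat.add (Nat.add (Nat.add (Nat.add (Nat.add (Nat.add (Nat.add C x4545) x13293) x7461) x9081) x8865) x8937) x8913) x2359)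
    (Nat.add (Nat.add (Nat.add (Nat.add (Nat.add (Nat.add (Nat.add (Nat.add C (Nat.mul x8937 (nat_lit 2))) x4563) x13311) x7479) x9099) x8883) x8919) x2377)
    (Nat.add (Nat.add (Nat.add (Nat.add (Nat.add (Nat.add (Nat.add (Nat.add C (Nat.mul x8993 (nat_lit 2))) x4619) x13367) x7535) x9479) x8831) x8995) x15553)
    (Nat.add (Nat.add (Nat.add (Nat.add (Nat.add (Nat.add (Nat.add (Nat.add (Nat.add (Nat.add (Nat.add C (Nat.mul x8995 (nat_lit 2))) x4621) x13369) x7537) x9481) x8833) x9001) x8993) x8997) x15555) x2435)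
    (Nat.add (Nat.add (Nat.add (Nat.add (Nat.add (Nat.add (Nat.add (Nat.add C x4623) x13371) x7539) x9483) x8835) x9003) x8995) x2437)
    (Nat.add (Nat.add (Nat.add (Nat.add (Nat.add (Nat.add (Nat.add (Nat.add (Nat.add (Nat.add (Nat.add C x9001) x4627) x13375) x7543) x9487) x8839) x9019) x8995) x9003) x15561) x2441)
    (Nat.add (Nat.add (Nat.add (Nat.add (Nat.add (Nat.add (Nat.add (Nat.add (Nat.add (Nat.add (Nat.add C x9003) x4629) x13377) x7545) x9489) x8841) x9021) x8997) x9009) x9001) x2443)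
    (Nat.add (Nat.add (Nat.add (Nat.add (Nat.add (Nat.add (Nat.add (Nat.add C x4635) x13383) x7551) x9495) x8847) x9027) x9003) x2449)
    (Nat.add (Nat.add (Nat.add (Nat.add (Nat.add (Nat.add (Nat.add (Nat.add (Nat.add (Nat.add (Nat.add C x9019) x4645) x13393) x7561) x9505) x8857) x9073) x9001) x9021) x15579) x2459)
    (Nat.add (Nat.add (Nat.add (Nat.add (Nat.add (Nat.add (Nat.add (Nat.add (Nat.add (Nat.add C x4647) x13395) x7563) x9507) x8859) x9075) x9003) x9027) x9019) x2461)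
    (Nat.add (Nat.add (Nat.add (Nat.add (Nat.add (Nat.add (Nat.add (Nat.add (Nat.add (Nat.add (Nat.add C x9027) x4653) x13401) x7569) x9513) x8865) x9081) x9009) x9045) x9021) x2467)
    (Nat.add (Nat.add (Nat.add (Nat.add (Nat.add (Nat.add (Nat.add (Nat.add C x4671) x13419) x7587) x9531) x8883) x9099) x9027) x2485)
    (Nat.add (Nat.add (Nat.add (Nat.add (Nat.add (Nat.add (Nat.add (Nat.add (Nat.add (Nat.add (Nat.add C (Nat.mul x9073 (nat_lit 2))) x4699) x13447) x7615) x9559) x8911) x9235) x9019) x9075) x15633) x2513)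
    (Nat.add (Nat.add (Nat.add (Nat.add (Nat.add (Nat.add (Nat.add (Nat.add (Nat.add (Nat.add (Nat.add C x9075) x4701) x13449) x7617) x9561) x8913) x9237) x9021) x9081) x9073) x2515)
    (Nat.add (Nat.add (Nat.add (Nat.add (Nat.add (Nat.add (Nat.add (Nat.add (Nat.add (Nat.add (Nat.add C x9081) x4707) x13455) x7623) x9567) x8919) x9243) x9027) x9099) x9075) x2521)
    (Nat.add (Nat.add (Nat.add (Nat.add (Nat.add (Nat.add (Nat.add (Nat.add (Nat.add (Nat.add (Nat.add C (Nat.mul x9099 (nat_lit 2))) x4725) x13473) x7641) x9585) x8937) x9261) x9045) x9153) x9081) x2539)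
    (Nat.add (Nat.add (Nat.add (Nat.add (Nat.add (Nat.add (Nat.add (Nat.add C (Nat.mul x9153 (nat_lit 2))) x4779) x13527) x7695) x9639) x9315) x9099) x2593)
    (Nat.add (Nat.add (Nat.add (Nat.add (Nat.add (Nat.add (Nat.add (Nat.add (Nat.add C x9235) x4861) x13609) x7777) x9721) x9073) x9237) x15795) x2675)
    (Nat.add (Nat.add (Nat.add (Nat.add (Nat.add (Nat.add (Nat.add (Nat.add C x4863) x13611) x7779) x9723) x9075) x9243) x9235) x2677)
    (Nat.add (Nat.add (Nat.add (Nat.add (Nat.add (Nat.add (Nat.add (Nat.add C x4869) x13617) x7785) x9729) x9081) x9261) x9237) x2683)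
    (Nat.add (Nat.add (Nat.add (Nat.add (Nat.add (Nat.add (Nat.add (Nat.add C x4887) x13635) x7803) x9747) x9099) x9315) x9243) x2701)
    (Nat.add (Nat.add (Nat.add (Nat.add (Nat.add (Nat.add (Nat.add (Nat.add C (Nat.mul x9315 (nat_lit 2))) x4941) x13689) x7857) x9801) x9153) x9261) x2755)
    (Nat.add (Nat.add (Nat.add (Nat.add (Nat.add (Nat.add (Nat.add (Nat.add C (Nat.mul x9479 (nat_lit 3))) x5105) x13853) x8021) x10937) x8993) x9481) x16039)
    (Nat.add (Nat.add (Nat.add (Nat.add (Nat.add (Nat.add (Nat.add (Nat.add (Nat.add (Nat.add (Nat.add C (Nat.mul x9481 (nat_lit 3))) x5107) x13855) x8023) x10939) x8995) x9487) x9479) x9483) x16041) x2921)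
    (Nat.add (Nat.add (Nat.add (Nat.add (Nat.add (Nat.add (Nat.add (Nat.add (Nat.add C x9483) x5109) x13857) x8025) x10941) x8997) x9489) x9481) x2923)
    (Nat.add (Nat.add (Nat.add (Nat.add (Nat.add (Nat.add (Nat.add (Nat.add (Nat.add (Nat.add (Nat.add C (Nat.mul x9487 (nat_lit 2))) x5113) x13861) x8029) x10945) x9001) x9505) x9481) x9489) x16047) x2927)
    (Nat.add (Nat.add (Nat.add (Nat.add (Nat.add (Nat.add (Nat.add (Nat.add (Nat.add (Nat.add (Nat.add C (Nat.mul x9489 (nat_lit 2))) x5115) x13863) x8031) x10947) x9003) x9507) x9483) x9495) x9487) x2929)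
    (Nat.add (Nat.add (Nat.add (Nat.add (Nat.add (Nat.add (Nat.add (Nat.add (Nat.add C x9495) x5121) x13869) x8037) x10953) x9009) x9513) x9489) x2935)
    (Nat.add (Nat.add (Nat.add (Nat.add (Nat.add (Nat.add (Nat.add (Nat.add (Nat.add (Nat.add (Nat.add C (Nat.mul x9505 (nat_lit 2))) x5131) x13879) x8047) x10963) x9019) x9559) x9487) x9507) x16065) x2945)
    (Nat.add (Nat.add (Nat.add (Nat.add (Nat.add (Nat.add (Nat.add (Nat.add (Nat.add (Nat.add (Nat.add C x9507) x5133) x13881) x8049) x10965) x9021) x9561) x9489) x9513) x9505) x2947)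
    (Nat.add (Nat.add (Nat.add (Nat.add (Nat.add (Nat.add (Nat.add (Nat.add (Nat.add (Nat.add (Nat.add C (Nat.mul x9513 (nat_lit 2))) x5139) x13887) x8055) x10971) x9027) x9567) x9495) x9531) x9507) x2953)
    (Nat.add (Nat.add (Nat.add (Nat.add (Nat.add (Nat.add (Nat.add (Nat.add (Nat.add C x9531) x5157) x13905) x8073) x10989) x9045) x9585) x9513) x2971)
    (Nat.add (Nat.add (Nat.add (Nat.add (Nat.add (Nat.add (Nat.add (Nat.add (Nat.add (Nat.add (Nat.add C (Nat.mul x9559 (nat_lit 2))) x5185) x13933) x8101) x11017) x9073) x9721) x9505) x9561) x16119) x2999)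
    (Nat.add (Nat.add (Nat.add (Nat.add (Nat.add (Nat.add (Nat.add (Nat.add (Nat.add (Nat.add (Nat.add C x9561) x5187) x13935) x8103) x11019) x9075) x9723) x9507) x9567) x9559) x3001)
    (Nat.add (Nat.add (Nat.add (Nat.add (Nat.add (Nat.add (Nat.add (Nat.add (Nat.add (Nat.add (Nat.add C x9567) x5193) x13941) x8109) x11025) x9081) x9729) x9513) x9585) x9561) x3007)
    (Nat.add (Nat.add (Nat.add (Nat.add (Nat.add (Nat.add (Nat.add (Nat.add (Nat.add (Nat.add (Nat.add C (Nat.mul x9585 (nat_lit 2))) x5211) x13959) x8127) x11043) x9099) x9747) x9531) x9639) x9567) x3025)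
    (Nat.add (Nat.add (Nat.add (Nat.add (Nat.add (Nat.add (Nat.add (Nat.add (Nat.add C x9639) x5265) x14013) x8181) x11097) x9153) x9801) x9585) x3079)
    (Nat.add (Nat.add (Nat.add (Nat.add (Nat.add (Nat.add (Nat.add (Nat.add (Nat.add (Nat.add (Nat.add C (Nat.mul x9721 (nat_lit 3))) x5347) x14095) x8263) x11179) x9235) x10207) x9559) x9723) x16281) x3161)
    (Nat.add (Nat.add (Nat.add (Nat.add (Nat.add (Nat.add (Nat.add (Nat.add (Nat.add (Nat.add (Nat.add C (Nat.mul x9723 (nat_lit 2))) x5349) x14097) x8265) x11181) x9237) x10209) x9561) x9729) x9721) x3163)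
    (Nat.add (Nat.add (Nat.add (Nat.add (Nat.add (Nat.add (Nat.add (Nat.add (Nat.add (Nat.add (Nat.add C (Nat.mul x9729 (nat_lit 2))) x5355) x14103) x8271) x11187) x9243) x10215) x9567) x9747) x9723) x3169)
    (Nat.add (Nat.add (Nat.add (Nat.add (Nat.add (Nat.add (Nat.add (Nat.add (Nat.add (Nat.add (Nat.add C (Nat.mul x9747 (nat_lit 2))) x5373) x14121) x8289) x11205) x9261) x10233) x9585) x9801) x9729) x3187)
    (Nat.add (Nat.add (Nat.add (Nat.add (Nat.add (Nat.add (Nat.add (Nat.add (Nat.add (Nat.add (Nat.add C (Nat.mul x9801 (nat_lit 3))) x5427) x14175) x8343) x11259) x9315) x10287) x9639) x9963) x9747) x3241)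
    (Nat.add (Nat.add (Nat.add (Nat.add (Nat.add (Nat.add (Nat.add (Nat.add C (Nat.mul x9963 (nat_lit 3))) x5589) x14337) x8505) x11421) x10449) x9801) x3403)
    (Nat.add (Nat.add (Nat.add (Nat.add (Nat.add (Nat.add (Nat.add (Nat.add C (Nat.mul x10207 (nat_lit 3))) x5833) x14581) x11665) x9721) x10209) x16767) x3647)
    (Nat.add (Nat.add (Nat.add (Nat.add (Nat.add (Nat.add (Nat.add (Nat.add C (Nat.mul x10209 (nat_lit 2))) x5835) x14583) x11667) x9723) x10215) x10207) x3649)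
    (Nat.add (Nat.add (Nat.add (Nat.add (Nat.add (Nat.add (Nat.add (Nat.add C (Nat.mul x10215 (nat_lit 2))) x5841) x14589) x11673) x9729) x10233) x10209) x3655)
    (Nat.add (Nat.add (Nat.add (Nat.add (Nat.add (Nat.add (Nat.add (Nat.add C (Nat.mul x10233 (nat_lit 2))) x5859) x14607) x11691) x9747) x10287) x10215) x3673)
    (Nat.add (Nat.add (Nat.add (Nat.add (Nat.add (Nat.add (Nat.add (Nat.add C (Nat.mul x10287 (nat_lit 2))) x5913) x14661) x11745) x9801) x10449) x10233) x3727)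
    (Nat.add (Nat.add (Nat.add (Nat.add (Nat.add (Nat.add (Nat.add C (Nat.mul x10449 (nat_lit 4))) x6075) x14823) x11907) x9963) x10287) x3889)
    (Nat.add (Nat.add (Nat.add (Nat.add (Nat.add C (Nat.mul x10937 (nat_lit 3))) x15311) x9479) x10939) x17497)
    (Nat.add (Nat.add (Nat.add (Nat.add (Nat.add (Nat.add (Nat.add (Nat.add C (Nat.mul x10939 (nat_lit 3))) x15313) x9481) x10945) x10937) x10941) x17499) x4379)
    (Nat.add (Nat.add (Nat.add (Nat.add (Nat.add (Nat.add C x10941) x15315) x9483) x10947) x10939) x4381)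
    (Nat.add (Nat.add (Nat.add (Nat.add (Nat.add (Nat.add (Nat.add (Nat.add C (Nat.mul x10945 (nat_lit 2))) x15319) x9487) x10963) x10939) x10947) x17505) x4385)
    (Nat.add (Nat.add (Nat.add (Nat.add (Nat.add (Nat.add (Nat.add (Nat.add C (Nat.mul x10947 (nat_lit 2))) x15321) x9489) x10965) x10941) x10953) x10945) x4387)
    (Nat.add (Nat.add (Nat.add (Nat.add (Nat.add (Nat.add C x10953) x15327) x9495) x10971) x10947) x4393)
    (Nat.add (Nat.add (Nat.add (Nat.add (Nat.add (Nat.add (Nat.add (Nat.add C (Nat.mul x10963 (nat_lit 2))) x15337) x9505) x11017) x10945) x10965) x17523) x4403)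
    (Nat.add (Nat.add (Nat.add (Nat.add (Nat.add (Nat.add (Nat.add (Nat.add C x10965) x15339) x9507) x11019) x10947) x10971) x10963) x4405)
    (Nat.add (Nat.add (Nat.add (Nat.add (Nat.add (Nat.add (Nat.add (Nat.add C (Nat.mul x10971 (nat_lit 2))) x15345) x9513) x11025) x10953) x10989) x10965) x4411)
    (Nat.add (Nat.add (Nat.add (Nat.add (Nat.add (Nat.add C x10989) x15363) x9531) x11043) x10971) x4429)
    (Nat.add (Nat.add (Nat.add (Nat.add (Nat.add (Nat.add (Nat.add (Nat.add C (Nat.mul x11017 (nat_lit 2))) x15391) x9559) x11179) x10963) x11019) x17577) x4457)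
    (Nat.add (Nat.add (Nat.add (Nat.add (Nat.add (Nat.add (Nat.add (Nat.add C x11019) x15393) x9561) x11181) x10965) x11025) x11017) x4459)
    (Nat.add (Nat.add (Nat.add (Nat.add (Nat.add (Nat.add (Nat.add (Nat.add C x11025) x15399) x9567) x11187) x10971) x11043) x11019) x4465)
    (Nat.add (Nat.add (Nat.add (Nat.add (Nat.add (Nat.add (Nat.add (Nat.add C (Nat.mul x11043 (nat_lit 2))) x15417) x9585) x11205) x10989) x11097) x11025) x4483)
    (Nat.add (Nat.add (Nat.add (Nat.add (Nat.add (Nat.add C x11097) x15471) x9639) x11259) x11043) x4537)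
    (Nat.add (Nat.add (Nat.add (Nat.add (Nat.add (Nat.add (Nat.add (Nat.add C (Nat.mul x11179 (nat_lit 2))) x15553) x9721) x11665) x11017) x11181) x17739) x4619)
    (Nat.add (Nat.add (Nat.add (Nat.add (Nat.add (Nat.add (Nat.add (Nat.add C x11181) x15555) x9723) x11667) x11019) x11187) x11179) x4621)
    (Nat.add (Nat.add (Nat.add (Nat.add (Nat.add (Nat.add (Nat.add (Nat.add C x11187) x15561) x9729) x11673) x11025) x11205) x11181) x4627)
    (Nat.add (Nat.add (Nat.add (Nat.add (Nat.add (Nat.add (Nat.add (Nat.add C x11205) x15579) x9747) x11691) x11043) x11259) x11187) x4645)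
    (Nat.add (Nat.add (Nat.add (Nat.add (Nat.add (Nat.add (Nat.add (Nat.add C (Nat.mul x11259 (nat_lit 2))) x15633) x9801) x11745) x11097) x11421) x11205) x4699)
    (Nat.add (Nat.add (Nat.add (Nat.add (Nat.add (Nat.add C x11421) x15795) x9963) x11907) x11259) x4861)
    (Nat.add (Nat.add (Nat.add (Nat.add (Nat.add (Nat.add (Nat.add C (Nat.mul x11665 (nat_lit 4))) x16039) x10207) x11179) x11667) x18225) x5105)
    (Nat.add (Nat.add (Nat.add (Nat.add (Nat.add (Nat.add (Nat.add C (Nat.mul x11667 (nat_lit 3))) x16041) x10209) x11181) x11673) x11665) x5107)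
    (Nat.add (Nat.add (Nat.add (Nat.add (Nat.add (Nat.add (Nat.add C (Nat.mul x11673 (nat_lit 3))) x16047) x10215) x11187) x11691) x11667) x5113)
    (Nat.add (Nat.add (Nat.add (Nat.add (Nat.add (Nat.add (Nat.add C (Nat.mul x11691 (nat_lit 3))) x16065) x10233) x11205) x11745) x11673) x5131)
    (Nat.add (Nat.add (Nat.add (Nat.add (Nat.add (Nat.add (Nat.add C (Nat.mul x11745 (nat_lit 3))) x16119) x10287) x11259) x11907) x11691) x5185)
    (Nat.add (Nat.add (Nat.add (Nat.add (Nat.add (Nat.add (Nat.add C (Nat.mul x11907 (nat_lit 4))) x16281) x10449) x11421) x12393) x11745) x5347)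
    (Nat.add (Nat.add (Nat.add (Nat.add C (Nat.mul x12393 (nat_lit 5))) x16767) x11907) x5833)
    (Nat.add (Nat.add (Nat.add (Nat.add C (Nat.mul x13127 (nat_lit 5))) x8753) x13133) x13129)
    (Nat.add (Nat.add (Nat.add (Nat.add (Nat.add C (Nat.mul x13129 (nat_lit 3))) x8755) x13135) x13127) x6569)
    (Nat.add (Nat.add (Nat.add (Nat.add (Nat.add C (Nat.mul x13133 (nat_lit 3))) x8759) x13151) x13127) x13135)
    (Nat.add (Nat.add (Nat.add (Nat.add (Nat.add (Nat.add (Nat.add (Nat.add C (Nat.mul x13135 (nat_lit 3))) x8761) x13153) x13129) x13141) x13133) x13137) x6575)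
    (Nat.add (Nat.add (Nat.add (Nat.add (Nat.add (Nat.add C x13137) x8763) x13155) x13143) x13135) x6577)
    (Nat.add (Nat.add (Nat.add (Nat.add (Nat.add (Nat.add C x13141) x8767) x13159) x13135) x13143) x6581)
    (Nat.add (Nat.add (Nat.add (Nat.add (Nat.add (Nat.add C x13143) x8769) x13161) x13137) x13141) x6583)
    (Nat.add (Nat.add (Nat.add (Nat.add (Nat.add C (Nat.mul x13151 (nat_lit 3))) x8777) x13205) x13133) x13153)
    (Nat.add (Nat.add (Nat.add (Nat.add (Nat.add (Nat.add (Nat.add (Nat.add C (Nat.mul x13153 (nat_lit 2))) x8779) x13207) x13135) x13159) x13151) x13155) x6593)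
    (Nat.sub (Nat.add (Nat.add (Nat.add (Nat.add (Nat.add (Nat.add C x8781) x13209) x13137) x13161) x13153) x6595) x13155)
    (Nat.add (Nat.add (Nat.add (Nat.add (Nat.add (Nat.add (Nat.add (Nat.add C (Nat.mul x13159 (nat_lit 2))) x8785) x13213) x13141) x13177) x13153) x13161) x6599)
    (Nat.add (Nat.add (Nat.add (Nat.add (Nat.add (Nat.add (Nat.add (Nat.add (Nat.add C x13161) x8787) x13215) x13143) x13179) x13155) x13167) x13159) x6601)
    (Nat.add (Nat.add (Nat.add (Nat.add (Nat.add (Nat.add C x13167) x8793) x13221) x13185) x13161) x6607)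
    (Nat.add (Nat.add (Nat.add (Nat.add (Nat.add (Nat.add C x13177) x8803) x13231) x13159) x13179) x6617)
    (Nat.sub (Nat.add (Nat.add (Nat.add (Nat.add (Nat.add (Nat.add C x8805) x13233) x13161) x13185) x13177) x6619) x13179)
    (Nat.add (Nat.add (Nat.add (Nat.add (Nat.add (Nat.add C x13185) x8811) x13239) x13167) x13179) x6625)
    (Nat.add (Nat.add (Nat.add (Nat.add (Nat.add C (Nat.mul x13205 (nat_lit 3))) x8831) x13367) x13151) x13207)
    (Nat.add (Nat.add (Nat.add (Nat.add (Nat.add (Nat.add (Nat.add (Nat.add C (Nat.mul x13207 (nat_lit 2))) x8833) x13369) x13153) x13213) x13205) x13209) x6647)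
    (Nat.sub (Nat.add (Nat.add (Nat.add (Nat.add (Nat.add (Nat.add C x8835) x13371) x13155) x13215) x13207) x6649) x13209)
    (Nat.add (Nat.add (Nat.add (Nat.add (Nat.add (Nat.add (Nat.add (Nat.add C x13213) x8839) x13375) x13159) x13231) x13207) x13215) x6653)
    (Nat.add (Nat.add (Nat.add (Nat.add (Nat.add (Nat.add (Nat.add (Nat.add C x8841) x13377) x13161) x13233) x13209) x13221) x13213) x6655)
    (Nat.sub (Nat.add (Nat.add (Nat.add (Nat.add (Nat.add (Nat.add C x8847) x13383) x13167) x13239) x13215) x6661) x13221)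
    (Nat.add (Nat.add (Nat.add (Nat.add (Nat.add (Nat.add (Nat.add (Nat.add C (Nat.mul x13231 (nat_lit 2))) x8857) x13393) x13177) x13285) x13213) x13233) x6671)
    (Nat.add (Nat.add (Nat.add (Nat.add (Nat.add (Nat.add (Nat.add (Nat.add C x8859) x13395) x13179) x13287) x13215) x13239) x13231) x6673)
    (Nat.add (Nat.add (Nat.add (Nat.add (Nat.add (Nat.add (Nat.add (Nat.add (Nat.add C x13239) x8865) x13401) x13185) x13293) x13221) x13257) x13233) x6679)
    (Nat.add (Nat.add (Nat.add (Nat.add (Nat.add (Nat.add C x13257) x8883) x13419) x13311) x13239) x6697)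
    (Nat.add (Nat.add (Nat.add (Nat.add (Nat.add (Nat.add C x13285) x8911) x13447) x13231) x13287) x6725)
    (Nat.sub (Nat.add (Nat.add (Nat.add (Nat.add (Nat.add (Nat.add C x8913) x13449) x13233) x13293) x13285) x6727) x13287)
    (Nat.sub (Nat.add (Nat.add (Nat.add (Nat.add (Nat.add (Nat.add C x8919) x13455) x13239) x13311) x13287) x6733) x13293)
    (Nat.add (Nat.add (Nat.add (Nat.add (Nat.add (Nat.add C x13311) x8937) x13473) x13257) x13293) x6751)
    (Nat.add (Nat.add (Nat.add (Nat.add (Nat.add C (Nat.mul x13367 (nat_lit 3))) x8993) x13853) x13205) x13369)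
    (Nat.add (Nat.add (Nat.add (Nat.add (Nat.add (Nat.add (Nat.add (Nat.add C (Nat.mul x13369 (nat_lit 2))) x8995) x13855) x13207) x13375) x13367) x13371) x6809)
    (Nat.sub (Nat.add (Nat.add (Nat.add (Nat.add (Nat.add (Nat.add C x8997) x13857) x13209) x13377) x13369) x6811) x13371)
    (Nat.add (Nat.add (Nat.add (Nat.add (Nat.add (Nat.add (Nat.add (Nat.add C x13375) x9001) x13861) x13213) x13393) x13369) x13377) x6815)
    (Nat.add (Nat.add (Nat.add (Nat.add (Nat.add (Nat.add (Nat.add (Nat.add C x9003) x13863) x13215) x13395) x13371) x13383) x13375) x6817)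
    (Nat.sub (Nat.add (Nat.add (Nat.add (Nat.add (Nat.add (Nat.add C x9009) x13869) x13221) x13401) x13377) x6823) x13383)
    (Nat.add (Nat.add (Nat.add (Nat.add (Nat.add (Nat.add (Nat.add (Nat.add C x13393) x9019) x13879) x13231) x13447) x13375) x13395) x6833)
    (Nat.sub (Nat.add (Nat.add (Nat.add (Nat.add (Nat.add (Nat.add (Nat.add (Nat.add C x9021) x13881) x13233) x13449) x13377) x13401) x13393) x6835) x13395)
    (Nat.add (Nat.add (Nat.add (Nat.add (Nat.add (Nat.add (Nat.add (Nat.add C x9027) x13887) x13239) x13455) x13383) x13419) x13395) x6841)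
    (Nat.sub (Nat.add (Nat.add (Nat.add (Nat.add (Nat.add (Nat.add C x9045) x13905) x13257) x13473) x13401) x6859) x13419)
    (Nat.add (Nat.add (Nat.add (Nat.add (Nat.add (Nat.add (Nat.add (Nat.add C (Nat.mul x13447 (nat_lit 2))) x9073) x13933) x13285) x13609) x13393) x13449) x6887)
    (Nat.add (Nat.add (Nat.add (Nat.add (Nat.add (Nat.add (Nat.add (Nat.add C x9075) x13935) x13287) x13611) x13395) x13455) x13447) x6889)
    (Nat.add (Nat.add (Nat.add (Nat.add (Nat.add (Nat.add (Nat.add (Nat.add C x9081) x13941) x13293) x13617) x13401) x13473) x13449) x6895)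
    (Nat.add (Nat.add (Nat.add (Nat.add (Nat.add (Nat.add (Nat.add (Nat.add (Nat.add C x13473) x9099) x13959) x13311) x13635) x13419) x13527) x13455) x6913)
    (Nat.add (Nat.add (Nat.add (Nat.add (Nat.add (Nat.add C x13527) x9153) x14013) x13689) x13473) x6967)
    (Nat.add (Nat.add (Nat.add (Nat.add (Nat.add (Nat.add C x13609) x9235) x14095) x13447) x13611) x7049)
    (Nat.sub (Nat.add (Nat.add (Nat.add (Nat.add (Nat.add (Nat.add C x9237) x14097) x13449) x13617) x13609) x7051) x13611)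
    (Nat.sub (Nat.add (Nat.add (Nat.add (Nat.add (Nat.add (Nat.add C x9243) x14103) x13455) x13635) x13611) x7057) x13617)
    (Nat.sub (Nat.add (Nat.add (Nat.add (Nat.add (Nat.add (Nat.add C x9261) x14121) x13473) x13689) x13617) x7075) x13635)
    (Nat.add (Nat.add (Nat.add (Nat.add (Nat.add (Nat.add C x13689) x9315) x14175) x13527) x13635) x7129)
    (Nat.add (Nat.add (Nat.add (Nat.add (Nat.add C (Nat.mul x13853 (nat_lit 3))) x9479) x15311) x13367) x13855)
    (Nat.add (Nat.add (Nat.add (Nat.add (Nat.add (Nat.add (Nat.add (Nat.add C (Nat.mul x13855 (nat_lit 2))) x9481) x15313) x13369) x13861) x13853) x13857) x7295)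
    (Nat.sub (Nat.add (Nat.add (Nat.add (Nat.add (Nat.add (Nat.add C x9483) x15315) x13371) x13863) x13855) x7297) x13857)
    (Nat.add (Nat.add (Nat.add (Nat.add (Nat.add (Nat.add (Nat.add (Nat.add C x13861) x9487) x15319) x13375) x13879) x13855) x13863) x7301)
    (Nat.add (Nat.add (Nat.add (Nat.add (Nat.add (Nat.add (Nat.add (Nat.add C x9489) x15321) x13377) x13881) x13857) x13869) x13861) x7303)
    (Nat.sub (Nat.add (Nat.add (Nat.add (Nat.add (Nat.add (Nat.add C x9495) x15327) x13383) x13887) x13863) x7309) x13869)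
    (Nat.add (Nat.add (Nat.add (Nat.add (Nat.add (Nat.add (Nat.add (Nat.add C x13879) x9505) x15337) x13393) x13933) x13861) x13881) x7319)
    (Nat.sub (Nat.add (Nat.add (Nat.add (Nat.add (Nat.add (Nat.add (Nat.add (Nat.add C x9507) x15339) x13395) x13935) x13863) x13887) x13879) x7321) x13881)
    (Nat.add (Nat.add (Nat.add (Nat.add (Nat.add (Nat.add (Nat.add (Nat.add C x9513) x15345) x13401) x13941) x13869) x13905) x13881) x7327)
    (Nat.sub (Nat.add (Nat.add (Nat.add (Nat.add (Nat.add (Nat.add C x9531) x15363) x13419) x13959) x13887) x7345) x13905)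
    (Nat.add (Nat.add (Nat.add (Nat.add (Nat.add (Nat.add (Nat.add (Nat.add C x13933) x9559) x15391) x13447) x14095) x13879) x13935) x7373)
    (Nat.sub (Nat.add (Nat.add (Nat.add (Nat.add (Nat.add (Nat.add (Nat.add (Nat.add C x9561) x15393) x13449) x14097) x13881) x13941) x13933) x7375) x13935)
    (Nat.sub (Nat.add (Nat.add (Nat.add (Nat.add (Nat.add (Nat.add (Nat.add (Nat.add C x9567) x15399) x13455) x14103) x13887) x13959) x13935) x7381) x13941)
    (Nat.add (Nat.add (Nat.add (Nat.add (Nat.add (Nat.add (Nat.add (Nat.add C x9585) x15417) x13473) x14121) x13905) x14013) x13941) x7399)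
    (Nat.sub (Nat.add (Nat.add (Nat.add (Nat.add (Nat.add (Nat.add C x9639) x15471) x13527) x14175) x13959) x7453) x14013)
    (Nat.add (Nat.add (Nat.add (Nat.add (Nat.add (Nat.add (Nat.add (Nat.add C (Nat.mul x14095 (nat_lit 2))) x9721) x15553) x13609) x14581) x13933) x14097) x7535)
    (Nat.add (Nat.add (Nat.add (Nat.add (Nat.add (Nat.add (Nat.add (Nat.add C x9723) x15555) x13611) x14583) x13935) x14103) x14095) x7537)
    (Nat.add (Nat.add (Nat.add (Nat.add (Nat.add (Nat.add (Nat.add (Nat.add C x9729) x15561) x13617) x14589) x13941) x14121) x14097) x7543)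
    (Nat.add (Nat.add (Nat.add (Nat.add (Nat.add (Nat.add (Nat.add (Nat.add C x9747) x15579) x13635) x14607) x13959) x14175) x14103) x7561)
    (Nat.add (Nat.add (Nat.add (Nat.add (Nat.add (Nat.add (Nat.add (Nat.add (Nat.add C x14175) x9801) x15633) x13689) x14661) x14013) x14337) x14121) x7615)
    (Nat.add (Nat.add (Nat.add (Nat.add (Nat.add (Nat.add C x14337) x9963) x15795) x14823) x14175) x7777)
    (Nat.add (Nat.add (Nat.add (Nat.add (Nat.add (Nat.add C x14581) x10207) x16039) x14095) x14583) x8021)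
    (Nat.sub (Nat.add (Nat.add (Nat.add (Nat.add (Nat.add (Nat.add C x10209) x16041) x14097) x14589) x14581) x8023) x14583)
    (Nat.sub (Nat.add (Nat.add (Nat.add (Nat.add (Nat.add (Nat.add C x10215) x16047) x14103) x14607) x14583) x8029) x14589)
    (Nat.sub (Nat.add (Nat.add (Nat.add (Nat.add (Nat.add (Nat.add C x10233) x16065) x14121) x14661) x14589) x8047) x14607)
    (Nat.sub (Nat.add (Nat.add (Nat.add (Nat.add (Nat.add (Nat.add C x10287) x16119) x14175) x14823) x14607) x8101) x14661)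
    (Nat.add (Nat.add (Nat.add (Nat.add (Nat.add (Nat.add C x14823) x10449) x16281) x14337) x14661) x8263)
    (Nat.add (Nat.add (Nat.add (Nat.add C (Nat.mul x15311 (nat_lit 5))) x10937) x13853) x15313)
    (Nat.add (Nat.add (Nat.add (Nat.add (Nat.add (Nat.add (Nat.add C (Nat.mul x15313 (nat_lit 4))) x10939) x13855) x15319) x15311) x15315) x8753)
    (Nat.add (Nat.add (Nat.add (Nat.add (Nat.add (Nat.add C x15315) x10941) x13857) x15321) x15313) x8755)
    (Nat.add (Nat.add (Nat.add (Nat.add (Nat.add (Nat.add (Nat.add C (Nat.mul x15319 (nat_lit 3))) x10945) x13861) x15337) x15313) x15321) x8759)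
    (Nat.add (Nat.add (Nat.add (Nat.add (Nat.add (Nat.add (Nat.add (Nat.add C (Nat.mul x15321 (nat_lit 2))) x10947) x13863) x15339) x15315) x15327) x15319) x8761)
    (Nat.add (Nat.add (Nat.add (Nat.add (Nat.add (Nat.add C x15327) x10953) x13869) x15345) x15321) x8767)
    (Nat.add (Nat.add (Nat.add (Nat.add (Nat.add (Nat.add (Nat.add C (Nat.mul x15337 (nat_lit 3))) x10963) x13879) x15391) x15319) x15339) x8777)
    (Nat.add (Nat.add (Nat.add (Nat.add (Nat.add (Nat.add (Nat.add (Nat.add C x15339) x10965) x13881) x15393) x15321) x15345) x15337) x8779)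
    (Nat.add (Nat.add (Nat.add (Nat.add (Nat.add (Nat.add (Nat.add (Nat.add C (Nat.mul x15345 (nat_lit 2))) x10971) x13887) x15399) x15327) x15363) x15339) x8785)
    (Nat.add (Nat.add (Nat.add (Nat.add (Nat.add (Nat.add C x15363) x10989) x13905) x15417) x15345) x8803)
    (Nat.add (Nat.add (Nat.add (Nat.add (Nat.add (Nat.add (Nat.add C (Nat.mul x15391 (nat_lit 3))) x11017) x13933) x15553) x15337) x15393) x8831)
    (Nat.add (Nat.add (Nat.add (Nat.add (Nat.add (Nat.add (Nat.add (Nat.add C x15393) x11019) x13935) x15555) x15339) x15399) x15391) x8833)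
    (Nat.add (Nat.add (Nat.add (Nat.add (Nat.add (Nat.add (Nat.add (Nat.add C x15399) x11025) x13941) x15561) x15345) x15417) x15393) x8839)
    (Nat.add (Nat.add (Nat.add (Nat.add (Nat.add (Nat.add (Nat.add (Nat.add C (Nat.mul x15417 (nat_lit 2))) x11043) x13959) x15579) x15363) x15471) x15399) x8857)
    (Nat.add (Nat.add (Nat.add (Nat.add (Nat.add (Nat.add C x15471) x11097) x14013) x15633) x15417) x8911)
    (Nat.add (Nat.add (Nat.add (Nat.add (Nat.add (Nat.add (Nat.add C (Nat.mul x15553 (nat_lit 3))) x11179) x14095) x16039) x15391) x15555) x8993)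
    (Nat.add (Nat.add (Nat.add (Nat.add (Nat.add (Nat.add (Nat.add (Nat.add C x15555) x11181) x14097) x16041) x15393) x15561) x15553) x8995)
    (Nat.add (Nat.add (Nat.add (Nat.add (Nat.add (Nat.add (Nat.add (Nat.add C x15561) x11187) x14103) x16047) x15399) x15579) x15555) x9001)
    (Nat.add (Nat.add (Nat.add (Nat.add (Nat.add (Nat.add (Nat.add (Nat.add C x15579) x11205) x14121) x16065) x15417) x15633) x15561) x9019)
    (Nat.add (Nat.add (Nat.add (Nat.add (Nat.add (Nat.add (Nat.add (Nat.add C (Nat.mul x15633 (nat_lit 2))) x11259) x14175) x16119) x15471) x15795) x15579) x9073)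
    (Nat.add (Nat.add (Nat.add (Nat.add (Nat.add (Nat.add C x15795) x11421) x14337) x16281) x15633) x9235)
    (Nat.add (Nat.add (Nat.add (Nat.add (Nat.add (Nat.add (Nat.add C (Nat.mul x16039 (nat_lit 4))) x11665) x14581) x17497) x15553) x16041) x9479)
    (Nat.add (Nat.add (Nat.add (Nat.add (Nat.add (Nat.add (Nat.add (Nat.add C (Nat.mul x16041 (nat_lit 2))) x11667) x14583) x17499) x15555) x16047) x16039) x9481)
    (Nat.add (Nat.add (Nat.add (Nat.add (Nat.add (Nat.add (Nat.add (Nat.add C (Nat.mul x16047 (nat_lit 2))) x11673) x14589) x17505) x15561) x16065) x16041) x9487)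
    (Nat.add (Nat.add (Nat.add (Nat.add (Nat.add (Nat.add (Nat.add (Nat.add C (Nat.mul x16065 (nat_lit 2))) x11691) x14607) x17523) x15579) x16119) x16047) x9505)
    (Nat.add (Nat.add (Nat.add (Nat.add (Nat.add (Nat.add (Nat.add (Nat.add C (Nat.mul x16119 (nat_lit 2))) x11745) x14661) x17577) x15633) x16281) x16065) x9559)
    (Nat.add (Nat.add (Nat.add (Nat.add (Nat.add (Nat.add (Nat.add (Nat.add C (Nat.mul x16281 (nat_lit 3))) x11907) x14823) x17739) x15795) x16767) x16119) x9721)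
    (Nat.add (Nat.add (Nat.add (Nat.add (Nat.add C (Nat.mul x16767 (nat_lit 3))) x12393) x18225) x16281) x10207)
    (Nat.add (Nat.add (Nat.add (Nat.add C (Nat.mul x17497 (nat_lit 5))) x16039) x17499) x10937)
    (Nat.add (Nat.add (Nat.add (Nat.add (Nat.add C (Nat.mul x17499 (nat_lit 3))) x16041) x17505) x17497) x10939)
    (Nat.add (Nat.add (Nat.add (Nat.add (Nat.add C (Nat.mul x17505 (nat_lit 3))) x16047) x17523) x17499) x10945)
    (Nat.add (Nat.add (Nat.add (Nat.add (Nat.add C (Nat.mul x17523 (nat_lit 3))) x16065) x17577) x17505) x10963)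
    (Nat.add (Nat.add (Nat.add (Nat.add (Nat.add C (Nat.mul x17577 (nat_lit 3))) x16119) x17739) x17523) x11017)
    (Nat.add (Nat.add (Nat.add (Nat.add (Nat.add C (Nat.mul x17739 (nat_lit 3))) x16281) x18225) x17577) x11179)
    (Nat.add (Nat.add (Nat.add (Nat.add C (Nat.mul x18225 (nat_lit 5))) x16767) x17739) x11665)

theorem ap_eq (x : Nat → Nat) (k : FnLL specs) : apLL (fun t => x t.cd) specs k = A9_5.ap x k :=
  Eq.refl (A9_5.ap x k)

theorem step_eq0 (e : Nat → Nat) (C p r : Nat) (k : FnLL specs) (x : Nat → Nat) :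
    A9_5.ap x (step e C p r k) = apLL (interp e C p r x) specs k :=
  Eq.refl (A9_5.ap x (step e C p r k))

theorem spec_ok : specOK 8 false A9_5.mask specs = true := by decide +kernel

theorem step_eq (e : Nat → Nat) (C p r : Nat) (k : A9_5.KK) (x : Nat → Nat) :
    A9_5.ap x (step e C p r k) = A9_5.ap (row 8 false A9_5.mask e C p r x) k :=
  ((step_eq0 e C p r k x).trans (apLL_row 8 false A9_5.mask specs spec_ok e C p r x k)).trans
    (ap_eq (row 8 false A9_5.mask e C p r x) k)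

end Vale.Agent.P348.G9_5_0
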