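import Vale.Agent.P348.G.G10_5_0

set_option maxRecDepth 1000000
set_option maxHeartbeats 0
set_option linter.all false

namespace Vale.Agent.P348.R10_5_0_0

theorem run_ok : run (K := A10_5.KK) A10_5.ap G10_5_0.step (A10_5.fin A10_5.sq0 576423681507865396525280491930123699382443563692319060544722792502766621540693529819409343534342973067536) 10 164 cf10 A10_5.ch0 = true := by
  decide +kernel

theorem res : sumL (fun s => sqF 164 A10_5.ch0 (finalX 9 false A10_5.mask 164 cf10 A10_5.ch0 s)) (secL 10 5 0 []) = 576423681507865396525280491930123699382443563692319060544722792502766621540693529819409343534342973067536 := by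
  have h := ((run_final (K := A10_5.KK) A10_5.ap G10_5_0.step _ 9 164 A10_5.mask false cf10 A10_5.ch0 G10_5_0.step_eq).symm.trans run_ok)
  have h2 := (A10_5.fin_eq A10_5.sq0 _ _).symm.trans h
  rw [A10_5.sq_eq0] at h2
  exact Nat.eq_of_beq_eq_true h2

end Vale.Agent.P348.R10_5_0_0
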