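import Vale.Agent.P348.G.GS4_0

set_option maxRecDepth 1000000
set_option maxHeartbeats 0
set_option linter.all false


namespace Vale.Agent.P348.R4_0_0_0

theorem run_ok : run (K := A4_0.KK) A4_0.ap G4_0_0.step (A4_0.fin A4_0.sq0 730750818665451459101842416356310073282519671870) 4 80 cf4 A4_0.ch0 = true := by
  decide +kernel

theorem res : sumL (fun s => sqF 80 A4_0.ch0 (finalX 3 false A4_0.mask 80 cf4 A4_0.ch0 s)) (secL 4 0 0 []) = 730750818665451459101842416356310073282519671870 := by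
  have h := ((run_final (K := A4_0.KK) A4_0.ap G4_0_0.step _ 3 80 A4_0.mask false cf4 A4_0.ch0 G4_0_0.step_eq).symm.trans run_ok)
  have h2 := (A4_0.fin_eq A4_0.sq0 _ _).symm.trans h
  rw [A4_0.sq_eq0] at h2
  exact Nat.eq_of_beq_eq_true h2

end Vale.Agent.P348.R4_0_0_0

namespace Vale.Agent.P348.R4_1_0_0

theorem run_ok : run (K := A4_1.KK) A4_1.ap G4_1_0.step (A4_1.fin A4_1.sq0 11692013098647223345629478661374408459775580683032) 4 80 cf4 A4_1.ch0 = true := by
  decide +kernel

theorem res : sumL (fun s => sqF 80 A4_1.ch0 (finalX 3 false A4_1.mask 80 cf4 A4_1.ch0 s)) (secL 4 1 0 []) = 11692013098647223345629478661374408459775580683032 := by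
  have h := ((run_final (K := A4_1.KK) A4_1.ap G4_1_0.step _ 3 80 A4_1.mask false cf4 A4_1.ch0 G4_1_0.step_eq).symm.trans run_ok)
  have h2 := (A4_1.fin_eq A4_1.sq0 _ _).symm.trans h
  rw [A4_1.sq_eq0] at h2
  exact Nat.eq_of_beq_eq_true h2

end Vale.Agent.P348.R4_1_0_0

namespace Vale.Agent.P348.R4_2_0_0

theorem run_ok : run (K := A4_2.KK) A4_2.ap G4_2_0.step (A4_2.fin A4_2.sq0 73075081866545145910184029234563181086350742155276) 4 80 cf4 A4_2.ch0 = true := by
  decide +kernel

theorem res : sumL (fun s => sqF 80 A4_2.ch0 (finalX 3 false A4_2.mask 80 cf4 A4_2.ch0 s)) (secL 4 2 0 []) = 73075081866545145910184029234563181086350742155276 := by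
  have h := ((run_final (K := A4_2.KK) A4_2.ap G4_2_0.step _ 3 80 A4_2.mask false cf4 A4_2.ch0 G4_2_0.step_eq).symm.trans run_ok)
  have h2 := (A4_2.fin_eq A4_2.sq0 _ _).symm.trans h
  rw [A4_2.sq_eq0] at h2
  exact Nat.eq_of_beq_eq_true h2

end Vale.Agent.P348.R4_2_0_0

namespace Vale.Agent.P348.R4_3_0_0

theorem run_ok : run (K := A4_3.KK) A4_3.ap G4_3_0.step (A4_3.fin A4_3.sq0 187072209578355573274495699326416915051689309050304) 4 80 cf4 A4_3.ch0 = true := by
  decide +kernel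

theorem res : sumL (fun s => sqF 80 A4_3.ch0 (finalX 3 false A4_3.mask 80 cf4 A4_3.ch0 s)) (secL 4 3 0 []) = 187072209578355573274495699326416915051689309050304 := by
  have h := ((run_final (K := A4_3.KK) A4_3.ap G4_3_0.step _ 3 80 A4_3.mask false cf4 A4_3.ch0 G4_3_0.step_eq).symm.trans run_ok)
  have h2 := (A4_3.fin_eq A4_3.sq0 _ _).symm.trans h
  rw [A4_3.sq_eq0] at h2
  exact Nat.eq_of_beq_eq_true h2

end Vale.Agent.P348.R4_3_0_0

namespace Vale.Agent.P348.R4_4_0_0

theorem run_ok : run (K := A4_4.KK) A4_4.ap G4_4_0.step (A4_4.fin A4_4.sq0 131900522769113848103835287431166929864160868264941) 4 80 cf4 A4_4.ch0 = true := by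
  decide +kernel

theorem res : sumL (fun s => sqF 80 A4_4.ch0 (finalX 3 false A4_4.mask 80 cf4 A4_4.ch0 s)) (secL 4 4 0 []) = 131900522769113848103835287431166929864160868264941 := by
  have h := ((run_final (K := A4_4.KK) A4_4.ap G4_4_0.step _ 3 80 A4_4.mask false cf4 A4_4.ch0 G4_4_0.step_eq).symm.trans run_ok)
  have h2 := (A4_4.fin_eq A4_4.sq0 _ _).symm.trans h
  rw [A4_4.sq_eq0] at h2
  exact Nat.eq_of_beq_eq_true h2

end Vale.Agent.P348.R4_4_0_0
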