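import Vale.Agent.P348.G.GS5_0

set_option maxRecDepth 1000000
set_option maxHeartbeats 0
set_option linter.all false


namespace Vale.Agent.P348.R5_0_0_0

theorem run_ok : run (K := A5_0.KK) A5_0.ap G5_0_0.step (A5_0.fin A5_0.sq0 3064991081731777716716694054300401634551975045600041710) 5 91 cf5 A5_0.ch0 = true := by
  decide +kernel

theorem res : sumL (fun s => sqF 91 A5_0.ch0 (finalX 4 false A5_0.mask 91 cf5 A5_0.ch0 s)) (secL 5 0 0 []) = 3064991081731777716716694054300401634551975045600041710 := by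
  have h := ((run_final (K := A5_0.KK) A5_0.ap G5_0_0.step _ 4 91 A5_0.mask false cf5 A5_0.ch0 G5_0_0.step_eq).symm.trans run_ok)
  have h2 := (A5_0.fin_eq A5_0.sq0 _ _).symm.trans h
  rw [A5_0.sq_eq0] at h2
  exact Nat.eq_of_beq_eq_true h2

end Vale.Agent.P348.R5_0_0_0

namespace Vale.Agent.P348.R5_1_0_0

theorem run_ok : run (K := A5_1.KK) A5_1.ap G5_1_0.step (A5_1.fin A5_1.sq0 76624777043294442917917351357462834242291687402246285510) 5 91 cf5 A5_1.ch0 = true := by
  decide +kernel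

theorem res : sumL (fun s => sqF 91 A5_1.ch0 (finalX 4 false A5_1.mask 91 cf5 A5_1.ch0 s)) (secL 5 1 0 []) = 76624777043294442917917351357462834242291687402246285510 := by
  have h := ((run_final (K := A5_1.KK) A5_1.ap G5_1_0.step _ 4 91 A5_1.mask false cf5 A5_1.ch0 G5_1_0.step_eq).symm.trans run_ok)
  have h2 := (A5_1.fin_eq A5_1.sq0 _ _).symm.trans h
  rw [A5_1.sq_eq0] at h2
  exact Nat.eq_of_beq_eq_true h2

end Vale.Agent.P348.R5_1_0_0

namespace Vale.Agent.P348.R5_2_0_0

theorem run_ok : run (K := A5_2.KK) A5_2.ap G5_2_0.step (A5_2.fin A5_2.sq0 689622993389649986261256162217444795377524454679091156580) 5 91 cf5 A5_2.ch0 = true := by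
  decide +kernel

theorem res : sumL (fun s => sqF 91 A5_2.ch0 (finalX 4 false A5_2.mask 91 cf5 A5_2.ch0 s)) (secL 5 2 0 []) = 689622993389649986261256162217444795377524454679091156580 := by
  have h := ((run_final (K := A5_2.KK) A5_2.ap G5_2_0.step _ 4 91 A5_2.mask false cf5 A5_2.ch0 G5_2_0.step_eq).symm.trans run_ok)
  have h2 := (A5_2.fin_eq A5_2.sq0 _ _).symm.trans h
  rw [A5_2.sq_eq0] at h2
  exact Nat.eq_of_beq_eq_true h2

end Vale.Agent.P348.R5_2_0_0

namespace Vale.Agent.P348.R5_3_0_0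

theorem run_ok : run (K := A5_3.KK) A5_3.ap G5_3_0.step (A5_3.fin A5_3.sq0 2758491973558599945045024647939385186597934997127384846430) 5 91 cf5 A5_3.ch0 = true := by
  decide +kernel

theorem res : sumL (fun s => sqF 91 A5_3.ch0 (finalX 4 false A5_3.mask 91 cf5 A5_3.ch0 s)) (secL 5 3 0 []) = 2758491973558599945045024647939385186597934997127384846430 := by
  have h := ((run_final (K := A5_3.KK) A5_3.ap G5_3_0.step _ 4 91 A5_3.mask false cf5 A5_3.ch0 G5_3_0.step_eq).symm.trans run_ok)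
  have h2 := (A5_3.fin_eq A5_3.sq0 _ _).symm.trans h
  rw [A5_3.sq_eq0] at h2
  exact Nat.eq_of_beq_eq_true h2

end Vale.Agent.P348.R5_3_0_0

namespace Vale.Agent.P348.R5_4_0_0

theorem run_ok : run (K := A5_4.KK) A5_4.ap G5_4_0.step (A5_4.fin A5_4.sq0 6206606940506849876351205466309332946481436456137709790250) 5 91 cf5 A5_4.ch0 = true := by
  decide +kernel

theorem res : sumL (fun s => sqF 91 A5_4.ch0 (finalX 4 false A5_4.mask 91 cf5 A5_4.ch0 s)) (secL 5 4 0 []) = 6206606940506849876351205466309332946481436456137709790250 := by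
  have h := ((run_final (K := A5_4.KK) A5_4.ap G5_4_0.step _ 4 91 A5_4.mask false cf5 A5_4.ch0 G5_4_0.step_eq).symm.trans run_ok)
  have h2 := (A5_4.fin_eq A5_4.sq0 _ _).symm.trans h
  rw [A5_4.sq_eq0] at h2
  exact Nat.eq_of_beq_eq_true h2

end Vale.Agent.P348.R5_4_0_0

namespace Vale.Agent.P348.R5_5_0_0

theorem run_ok : run (K := A5_5.KK) A5_5.ap G5_5_0.step (A5_5.fin A5_5.sq0 3986020901792176920570352264652735755076784506682332388520) 5 91 cf5 A5_5.ch0 = true := by
  decide +kernel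

theorem res : sumL (fun s => sqF 91 A5_5.ch0 (finalX 4 false A5_5.mask 91 cf5 A5_5.ch0 s)) (secL 5 5 0 []) = 3986020901792176920570352264652735755076784506682332388520 := by
  have h := ((run_final (K := A5_5.KK) A5_5.ap G5_5_0.step _ 4 91 A5_5.mask false cf5 A5_5.ch0 G5_5_0.step_eq).symm.trans run_ok)
  have h2 := (A5_5.fin_eq A5_5.sq0 _ _).symm.trans h
  rw [A5_5.sq_eq0] at h2
  exact Nat.eq_of_beq_eq_true h2

end Vale.Agent.P348.R5_5_0_0
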