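import Vale.Agent.P348.G.GS7_0

set_option maxRecDepth 1000000
set_option maxHeartbeats 0
set_option linter.all false


namespace Vale.Agent.P348.R7_0_0_0

theorem run_ok : run (K := A7_0.KK) A7_0.ap G7_0_0.step (A7_0.fin A7_0.sq0 14134776518227074636666380005943348125294414752964161723165633341835087360) 7 122 cf7 A7_0.ch0 = true := by
  decide +kernel

theorem res : sumL (fun s => sqF 122 A7_0.ch0 (finalX 6 false A7_0.mask 122 cf7 A7_0.ch0 s)) (secL 7 0 0 []) = 14134776518227074636666380005943348125294414752964161723165633341835087360 := by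
  have h := ((run_final (K := A7_0.KK) A7_0.ap G7_0_0.step _ 6 122 A7_0.mask false cf7 A7_0.ch0 G7_0_0.step_eq).symm.trans run_ok)
  have h2 := (A7_0.fin_eq A7_0.sq0 _ _).symm.trans h
  rw [A7_0.sq_eq0] at h2
  exact Nat.eq_of_beq_eq_true h2

end Vale.Agent.P348.R7_0_0_0

namespace Vale.Agent.P348.R7_1_0_0

theorem run_ok : run (K := A7_1.KK) A7_1.ap G7_1_0.step (A7_1.fin A7_1.sq0 692604049393126657196652620291224057416107408449487268047886817243858880428) 7 122 cf7 A7_1.ch0 = true := by
  decide +kernel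

theorem res : sumL (fun s => sqF 122 A7_1.ch0 (finalX 6 false A7_1.mask 122 cf7 A7_1.ch0 s)) (secL 7 1 0 []) = 692604049393126657196652620291224057416107408449487268047886817243858880428 := by
  have h := ((run_final (K := A7_1.KK) A7_1.ap G7_1_0.step _ 6 122 A7_1.mask false cf7 A7_1.ch0 G7_1_0.step_eq).symm.trans run_ok)
  have h2 := (A7_1.fin_eq A7_1.sq0 _ _).symm.trans h
  rw [A7_1.sq_eq0] at h2
  exact Nat.eq_of_beq_eq_true h2

end Vale.Agent.P348.R7_1_0_0

namespace Vale.Agent.P348.R7_2_0_0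

theorem run_ok : run (K := A7_2.KK) A7_2.ap G7_2_0.step (A7_2.fin A7_2.sq0 11081664790290026515146441924659584924148178711902794582260769499188984492906) 7 122 cf7 A7_2.ch0 = true := by
  decide +kernel

theorem res : sumL (fun s => sqF 122 A7_2.ch0 (finalX 6 false A7_2.mask 122 cf7 A7_2.ch0 s)) (secL 7 2 0 []) = 11081664790290026515146441924659584924148178711902794582260769499188984492906 := by
  have h := ((run_final (K := A7_2.KK) A7_2.ap G7_2_0.step _ 6 122 A7_2.mask false cf7 A7_2.ch0 G7_2_0.step_eq).symm.trans run_ok)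
  have h2 := (A7_2.fin_eq A7_2.sq0 _ _).symm.trans h
  rw [A7_2.sq_eq0] at h2
  exact Nat.eq_of_beq_eq_true h2

end Vale.Agent.P348.R7_2_0_0

namespace Vale.Agent.P348.R7_3_0_0

theorem run_ok : run (K := A7_3.KK) A7_3.ap G7_3_0.step (A7_3.fin A7_3.sq0 83805089976568325520794967055238111024604757751784775636269408335242846799974) 7 122 cf7 A7_3.ch0 = true := by
  decide +kernel

theorem res : sumL (fun s => sqF 122 A7_3.ch0 (finalX 6 false A7_3.mask 122 cf7 A7_3.ch0 s)) (secL 7 3 0 []) = 83805089976568325520794967055238111024604757751784775636269408335242846799974 := by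
  have h := ((run_final (K := A7_3.KK) A7_3.ap G7_3_0.step _ 6 122 A7_3.mask false cf7 A7_3.ch0 G7_3_0.step_eq).symm.trans run_ok)
  have h2 := (A7_3.fin_eq A7_3.sq0 _ _).symm.trans h
  rw [A7_3.sq_eq0] at h2
  exact Nat.eq_of_beq_eq_true h2

end Vale.Agent.P348.R7_3_0_0

namespace Vale.Agent.P348.R7_4_0_0

theorem run_ok : run (K := A7_4.KK) A7_4.ap G7_4_0.step (A7_4.fin A7_4.sq0 366387542128964001657029236134057526734612085887752112023235870316880826273930) 7 122 cf7 A7_4.ch0 = true := by
  decide +kernel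

theorem res : sumL (fun s => sqF 122 A7_4.ch0 (finalX 6 false A7_4.mask 122 cf7 A7_4.ch0 s)) (secL 7 4 0 []) = 366387542128964001657029236134057526734612085887752112023235870316880826273930 := by
  have h := ((run_final (K := A7_4.KK) A7_4.ap G7_4_0.step _ 6 122 A7_4.mask false cf7 A7_4.ch0 G7_4_0.step_eq).symm.trans run_ok)
  have h2 := (A7_4.fin_eq A7_4.sq0 _ _).symm.trans h
  rw [A7_4.sq_eq0] at h2
  exact Nat.eq_of_beq_eq_true h2

end Vale.Agent.P348.R7_4_0_0

namespace Vale.Agent.P348.R7_5_0_0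

theorem run_ok : run (K := A7_5.KK) A7_5.ap G7_5_0.step (A7_5.fin A7_5.sq0 1000120247323674892991966383700523196050063876018084048272423031805310500842956) 7 122 cf7 A7_5.ch0 = true := by
  decide +kernel

theorem res : sumL (fun s => sqF 122 A7_5.ch0 (finalX 6 false A7_5.mask 122 cf7 A7_5.ch0 s)) (secL 7 5 0 []) = 1000120247323674892991966383700523196050063876018084048272423031805310500842956 := by
  have h := ((run_final (K := A7_5.KK) A7_5.ap G7_5_0.step _ 6 122 A7_5.mask false cf7 A7_5.ch0 G7_5_0.step_eq).symm.trans run_ok)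
  have h2 := (A7_5.fin_eq A7_5.sq0 _ _).symm.trans h
  rw [A7_5.sq_eq0] at h2
  exact Nat.eq_of_beq_eq_true h2

end Vale.Agent.P348.R7_5_0_0

namespace Vale.Agent.P348.R7_6_0_0

theorem run_ok : run (K := A7_6.KK) A7_6.ap G7_6_0.step (A7_6.fin A7_6.sq0 1801463132471522435368493465329497677051686833493451374537313708641240239889466) 7 122 cf7 A7_6.ch0 = true := by
  decide +kernel

theorem res : sumL (fun s => sqF 122 A7_6.ch0 (finalX 6 false A7_6.mask 122 cf7 A7_6.ch0 s)) (secL 7 6 0 []) = 1801463132471522435368493465329497677051686833493451374537313708641240239889466 := by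
  have h := ((run_final (K := A7_6.KK) A7_6.ap G7_6_0.step _ 6 122 A7_6.mask false cf7 A7_6.ch0 G7_6_0.step_eq).symm.trans run_ok)
  have h2 := (A7_6.fin_eq A7_6.sq0 _ _).symm.trans h
  rw [A7_6.sq_eq0] at h2
  exact Nat.eq_of_beq_eq_true h2

end Vale.Agent.P348.R7_6_0_0

namespace Vale.Agent.P348.R7_7_0_0

theorem run_ok : run (K := A7_7.KK) A7_7.ap G7_7_0.step (A7_7.fin A7_7.sq0 1091551049231826725279242858131297559308504314473646381489368117150862111342417) 7 122 cf7 A7_7.ch0 = true := by
  decide +kernel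

theorem res : sumL (fun s => sqF 122 A7_7.ch0 (finalX 6 false A7_7.mask 122 cf7 A7_7.ch0 s)) (secL 7 7 0 []) = 1091551049231826725279242858131297559308504314473646381489368117150862111342417 := by
  have h := ((run_final (K := A7_7.KK) A7_7.ap G7_7_0.step _ 6 122 A7_7.mask false cf7 A7_7.ch0 G7_7_0.step_eq).symm.trans run_ok)
  have h2 := (A7_7.fin_eq A7_7.sq0 _ _).symm.trans h
  rw [A7_7.sq_eq0] at h2
  exact Nat.eq_of_beq_eq_true h2

end Vale.Agent.P348.R7_7_0_0
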