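import Vale.Agent.P348.G.GS8_0

set_option maxRecDepth 1000000
set_option maxHeartbeats 0
set_option linter.all false


namespace Vale.Agent.P348.R8_0_0_0

theorem run_ok : run (K := A8_0.KK) A8_0.ap G8_0_0.step (A8_0.fin A8_0.sq0 971334446112864535459730953411759453321139305790999011283730757941777535516343590206) 8 140 cf8 A8_0.ch0 = true := by
  decide +kernel

theorem res : sumL (fun s => sqF 140 A8_0.ch0 (finalX 7 false A8_0.mask 140 cf8 A8_0.ch0 s)) (secL 8 0 0 []) = 971334446112864535459730953411759453321139305790999011283730757941777535516343590206 := by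
  have h := ((run_final (K := A8_0.KK) A8_0.ap G8_0_0.step _ 7 140 A8_0.mask false cf8 A8_0.ch0 G8_0_0.step_eq).symm.trans run_ok)
  have h2 := (A8_0.fin_eq A8_0.sq0 _ _).symm.trans h
  rw [A8_0.sq_eq0] at h2
  exact Nat.eq_of_beq_eq_true h2

end Vale.Agent.P348.R8_0_0_0

namespace Vale.Agent.P348.R8_1_0_0

theorem run_ok : run (K := A8_1.KK) A8_1.ap G8_1_0.step (A8_1.fin A8_1.sq0 62165404551223330269422781018352605012504347651898824170544265664388766723944697569296) 8 140 cf8 A8_1.ch0 = true := by
  decide +kernel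

theorem res : sumL (fun s => sqF 140 A8_1.ch0 (finalX 7 false A8_1.mask 140 cf8 A8_1.ch0 s)) (secL 8 1 0 []) = 62165404551223330269422781018352605012504347651898824170544265664388766723944697569296 := by
  have h := ((run_final (K := A8_1.KK) A8_1.ap G8_1_0.step _ 7 140 A8_1.mask false cf8 A8_1.ch0 G8_1_0.step_eq).symm.trans run_ok)
  have h2 := (A8_1.fin_eq A8_1.sq0 _ _).symm.trans h
  rw [A8_1.sq_eq0] at h2
  exact Nat.eq_of_beq_eq_true h2

end Vale.Agent.P348.R8_1_0_0

namespace Vale.Agent.P348.R8_2_0_0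

theorem run_ok : run (K := A8_2.KK) A8_2.ap G8_2_0.step (A8_2.fin A8_2.sq0 1258849442162272437955811315621640251504041495627724674617637819109166599575465865316408) 8 140 cf8 A8_2.ch0 = true := by
  decide +kernel

theorem res : sumL (fun s => sqF 140 A8_2.ch0 (finalX 7 false A8_2.mask 140 cf8 A8_2.ch0 s)) (secL 8 2 0 []) = 1258849442162272437955811315621640251504041495627724674617637819109166599575465865316408 := by
  have h := ((run_final (K := A8_2.KK) A8_2.ap G8_2_0.step _ 7 140 A8_2.mask false cf8 A8_2.ch0 G8_2_0.step_eq).symm.trans run_ok)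
  have h2 := (A8_2.fin_eq A8_2.sq0 _ _).symm.trans h
  rw [A8_2.sq_eq0] at h2
  exact Nat.eq_of_beq_eq_true h2

end Vale.Agent.P348.R8_2_0_0

namespace Vale.Agent.P348.R8_3_0_0

theorem run_ok : run (K := A8_3.KK) A8_3.ap G8_3_0.step (A8_3.fin A8_3.sq0 12184419292039772732806865079597110582460037814582873181094390781393749341583618905931264) 8 140 cf8 A8_3.ch0 = true := by
  decide +kernel

theorem res : sumL (fun s => sqF 140 A8_3.ch0 (finalX 7 false A8_3.mask 140 cf8 A8_3.ch0 s)) (secL 8 3 0 []) = 12184419292039772732806865079597110582460037814582873181094390781393749341583618905931264 := by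
  have h := ((run_final (K := A8_3.KK) A8_3.ap G8_3_0.step _ 7 140 A8_3.mask false cf8 A8_3.ch0 G8_3_0.step_eq).symm.trans run_ok)
  have h2 := (A8_3.fin_eq A8_3.sq0 _ _).symm.trans h
  rw [A8_3.sq_eq0] at h2
  exact Nat.eq_of_beq_eq_true h2

end Vale.Agent.P348.R8_3_0_0

namespace Vale.Agent.P348.R8_4_0_0

theorem run_ok : run (K := A8_4.KK) A8_4.ap G8_4_0.step (A8_4.fin A8_4.sq0 68727740069161843070988723339602451879192014584881553915214087061822622584636795426275820) 8 140 cf8 A8_4.ch0 = true := by
  decide +kernel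

theorem res : sumL (fun s => sqF 140 A8_4.ch0 (finalX 7 false A8_4.mask 140 cf8 A8_4.ch0 s)) (secL 8 4 0 []) = 68727740069161843070988723339602451879192014584881553915214087061822622584636795426275820 := by
  have h := ((run_final (K := A8_4.KK) A8_4.ap G8_4_0.step _ 7 140 A8_4.mask false cf8 A8_4.ch0 G8_4_0.step_eq).symm.trans run_ok)
  have h2 := (A8_4.fin_eq A8_4.sq0 _ _).symm.trans h
  rw [A8_4.sq_eq0] at h2
  exact Nat.eq_of_beq_eq_true h2

end Vale.Agent.P348.R8_4_0_0

namespace Vale.Agent.P348.R8_5_0_0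

theorem run_ok : run (K := A8_5.KK) A8_5.ap G8_5_0.step (A8_5.fin A8_5.sq0 246734490663805397839339017861841489294260335644010312701482011438881424175702626542807152) 8 140 cf8 A8_5.ch0 = true := by
  decide +kernel

theorem res : sumL (fun s => sqF 140 A8_5.ch0 (finalX 7 false A8_5.mask 140 cf8 A8_5.ch0 s)) (secL 8 5 0 []) = 246734490663805397839339017861841489294260335644010312701482011438881424175702626542807152 := by
  have h := ((run_final (K := A8_5.KK) A8_5.ap G8_5_0.step _ 7 140 A8_5.mask false cf8 A8_5.ch0 G8_5_0.step_eq).symm.trans run_ok)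
  have h2 := (A8_5.fin_eq A8_5.sq0 _ _).symm.trans h
  rw [A8_5.sq_eq0] at h2
  exact Nat.eq_of_beq_eq_true h2

end Vale.Agent.P348.R8_5_0_0

namespace Vale.Agent.P348.R8_6_0_0

theorem run_ok : run (K := A8_6.KK) A8_6.ap G8_6_0.step (A8_6.fin A8_6.sq0 597036545309948863907536388900258319823611208516430037257475134490752945812987085979690656) 8 140 cf8 A8_6.ch0 = true := by
  decide +kernel

theorem res : sumL (fun s => sqF 140 A8_6.ch0 (finalX 7 false A8_6.mask 140 cf8 A8_6.ch0 s)) (secL 8 6 0 []) = 597036545309948863907536388900258319823611208516430037257475134490752945812987085979690656 := by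
  have h := ((run_final (K := A8_6.KK) A8_6.ap G8_6_0.step _ 7 140 A8_6.mask false cf8 A8_6.ch0 G8_6_0.step_eq).symm.trans run_ok)
  have h2 := (A8_6.fin_eq A8_6.sq0 _ _).symm.trans h
  rw [A8_6.sq_eq0] at h2
  exact Nat.eq_of_beq_eq_true h2

end Vale.Agent.P348.R8_6_0_0

namespace Vale.Agent.P348.R8_7_0_0

theorem run_ok : run (K := A8_7.KK) A8_7.ap G8_7_0.step (A8_7.fin A8_7.sq0 1002665810006681093915520035044706473532496923237130440345513243768223794407731479704389936) 8 140 cf8 A8_7.ch0 = true := by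
  decide +kernel

theorem res : sumL (fun s => sqF 140 A8_7.ch0 (finalX 7 false A8_7.mask 140 cf8 A8_7.ch0 s)) (secL 8 7 0 []) = 1002665810006681093915520035044706473532496923237130440345513243768223794407731479704389936 := by
  have h := ((run_final (K := A8_7.KK) A8_7.ap G8_7_0.step _ 7 140 A8_7.mask false cf8 A8_7.ch0 G8_7_0.step_eq).symm.trans run_ok)
  have h2 := (A8_7.fin_eq A8_7.sq0 _ _).symm.trans h
  rw [A8_7.sq_eq0] at h2
  exact Nat.eq_of_beq_eq_true h2

end Vale.Agent.P348.R8_7_0_0

namespace Vale.Agent.P348.R8_8_0_0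

theorem run_ok : run (K := A8_8.KK) A8_8.ap G8_8_0.step (A8_8.fin A8_8.sq0 595160412827281866057295918553949391188139399677012025612410081164511659135111494889111165) 8 140 cf8 A8_8.ch0 = true := by
  decide +kernel

theorem res : sumL (fun s => sqF 140 A8_8.ch0 (finalX 7 false A8_8.mask 140 cf8 A8_8.ch0 s)) (secL 8 8 0 []) = 595160412827281866057295918553949391188139399677012025612410081164511659135111494889111165 := by
  have h := ((run_final (K := A8_8.KK) A8_8.ap G8_8_0.step _ 7 140 A8_8.mask false cf8 A8_8.ch0 G8_8_0.step_eq).symm.trans run_ok)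
  have h2 := (A8_8.fin_eq A8_8.sq0 _ _).symm.trans h
  rw [A8_8.sq_eq0] at h2
  exact Nat.eq_of_beq_eq_true h2

end Vale.Agent.P348.R8_8_0_0
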